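import Vale.Agent.P062.Check

/-! Snaky certificate, part 0 (machine generated, checked by the kernel) -/

set_option maxRecDepth 100000

namespace P062.Cert

open T

def tL0 : T :=
  (both (mv 492 (both (mv 459 (both (mv 427 (both (five 7 427 556) (mv 395 (both (five 4 363 363) (five 4 395 491))))) (both (mv 458 (both (five 0 457 457) (mv 494 (both (five 3 458 491) (five 3 459 495))))) (mv 457 (both (five 0 457 458) (mv 494 (both (five 3 459 495) (mv 556 (both (five 7 427 427) (mv 587 (both (five 6 459 555) (mv 588 (both (five 6 491 619) (five 5 492 620)))))))))))))) (both (mv 494 (both (mv 495 (both (five 3 459 459) (five 2 492 496))) (both (mv 491 (both (mv 490 (both (five 0 489 489) (five 0 490 526))) (both (mv 458 (both (five 3 458 459) (mv 462 (both (five 1 459 463) (mv 430 (both (five 6 397 398) (mv 557 (both (five 6 429 526) (five 7 460 589))))))))) (mv 458 (both (five 3 458 459) (mv 490 (both (five 3 457 457) (five 0 489 489)))))))) (mv 495 (both (five 2 492 496) (mv 463 (both (five 1 460 464) (mv 462 (both (five 1 459 491) (mv 430 (both (five 6 397 398) (mv 557 (both (five 6 429 526) (five 7 460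 589)))))))))))))) (mv 556 (both (mv 588 (both (five 5 492 620) (mv 589 (both (five 4 460 557) (five 4 492 621))))) (both (mv 587 (both (five 6 459 555) (mv 588 (both (five 6 491 619) (five 5 492 620))))) (mv 555 (both (five 6 459 587) (mv 554 (both (five 1 521 553) (mv 557 (both (five 1 522 526) (five 7 460 589))))))))))))) (both (mv 461 (both (mv 429 (both (five 6 428 556) (mv 430 (both (five 5 397 398) (mv 431 (both (five 2 428 432) (mv 459 (both (five 1 426 458) (five 1 427 462))))))))) (both (mv 557 (both (mv 462 (both (five 5 429 430) (mv 556 (both (five 6 460 588) (mv 558 (both (five 4 461 590) (mv 559 (both (five 3 524 560) (mv 591 (both (five 0 556 592) (mv 494 (both (five 4 462 526) (mv 459 (both (five 0 458 458) (five 0 459 495))))))))))))))) (both (mv 588 (both (five 6 460 556) (mv 589 (both (five 6 492 620) (mv 590 (both (five 4 461 558) (five 4 493 622))))))) (mv 462 (both (five 5 429 430) (mv 494 (both (five 5 461 589) (mv 459 (both (five 0 458 458) (five 0 459 495)))))))))) (both (mv 429 (both (mv 430 (both (five 5 397 398) (mv 431 (both (five 2 428 432) (mv 459 (both (five 1 426 458) (five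 1 427 462))))))) (both (mv 526 (both (five 4 429 558) (mv 397 (both (five 4 397 494) (mv 364 (both (five 7 364 396) (mv 365 (both (five 7 332 332) (mv 366 (both (five 5 333 334) (five 5 365 398))))))))))) (mv 526 (both (five 4 429 558) (mv 494 (both (five 4 397 397) (mv 459 (both (five 0 458 458) (mv 495 (both (five 0 459 462) (five 3 460 496)))))))))))) (mv 429 (both (five 6 428 556) (mv 526 (both (five 4 429 558) (mv 397 (both (five 4 397 494) (mv 364 (both (five 7 364 396) (mv 365 (both (five 7 332 332) (mv 366 (both (five 5 333 334) (five 5 365 398))))))))))))))))) (both (mv 557 (both (mv 461 (both (mv 429 (both (mv 430 (both (five 5 397 398) (mv 431 (both (five 2 428 432) (mv 459 (both (five 1 426 458) (five 1 427 462))))))) (both (mv 526 (both (five 4 429 558) (mv 397 (both (five 4 397 494) (mv 364 (both (five 7 364 396) (mv 365 (both (five 7 332 332) (mv 366 (both (five 5 333 334) (five 5 365 398))))))))))) (mv 526 (both (five 4 429 558) (mv 494 (both (five 4 397 397) (mv 459 (both (five 0 458 458) (mv 495 (both (five 0 459 462) (five 3 460 496)))))))))))) (both (mv 494 (both (mv 459 (both (five 0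 458 458) (mv 495 (both (five 0 459 462) (five 3 460 496))))) (both (mv 430 (both (five 5 429 462) (mv 429 (both (five 5 397 398) (mv 397 (both (five 6 396 492) (five 4 397 526))))))) (mv 459 (both (five 0 458 458) (mv 495 (both (five 3 459 492) (five 3 460 496)))))))) (both (mv 558 (both (five 4 461 590) (mv 429 (both (five 4 429 526) (mv 397 (both (five 6 396 492) (mv 364 (both (five 7 364 396) (mv 365 (both (five 7 332 332) (mv 366 (both (five 5 333 334) (five 5 365 398))))))))))))) (both (mv 494 (both (mv 459 (both (five 0 458 458) (mv 495 (both (five 0 459 462) (five 3 460 496))))) (both (mv 459 (both (five 0 458 458) (mv 495 (both (five 3 459 492) (five 3 460 496))))) (mv 462 (both (five 5 429 430) (mv 558 (both (five 4 461 590) (mv 559 (both (five 3 524 560) (mv 526 (both (five 4 462 591) (mv 463 (both (five 5 430 431) (mv 464 (both (five 2 461 465) (five 2 460 492)))))))))))))))) (mv 494 (both (mv 459 (both (five 0 458 458) (mv 495 (both (five 0 459 462) (five 3 460 496))))) (both (mv 459 (both (five 0 458 458) (mv 462 (both (five 5 429 430) (mv 426 (both (five 3 426 427) (mv 491 (both (five 2 458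 490) (mv 463 (both (five 2 459 492) (mv 431 (both (five 1 428 432) (mv 367 (both (five 6 366 399) (mv 464 (both (five 2 461 465) (mv 496 (both (five 0 461 497) (five 7 431 560))))))))))))))))))) (both (mv 459 (both (five 0 458 458) (mv 495 (both (five 3 459 492) (five 3 460 496))))) (both (mv 430 (both (five 5 429 462) (mv 429 (both (five 5 397 398) (mv 431 (both (five 2 428 432) (mv 459 (both (five 1 426 458) (mv 492 (both (five 6 396 397) (five 3 459 495))))))))))) (mv 430 (both (five 5 429 462) (mv 429 (both (five 5 397 398) (mv 397 (both (five 6 396 492) (mv 431 (both (five 2 428 432) (mv 496 (both (five 3 460 495) (mv 558 (both (five 4 461 590) (mv 560 (both (five 3 524 559) (mv 464 (both (five 7 431 463) (mv 465 (both (five 5 432 433) (mv 592 (both (five 5 464 497) (mv 593 (both (five 4 464 561) (five 4 496 625))))))))))))))))))))))))))))))))) (both (mv 589 (both (mv 620 (both (five 6 492 588) (mv 621 (both (five 6 524 652) (mv 622 (both (five 4 493 590) (five 4 525 654))))))) (both (mv 494 (both (five 5 461 462) (mv 495 (both (five 2 492 496) (mv 620 (both (five 6 492 588) (mv 621 (both (five 5 493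 526) (five 6 524 652))))))))) (mv 462 (both (five 5 461 494) (mv 461 (both (five 5 429 430) (mv 590 (both (five 4 461 558) (five 4 493 622)))))))))) (both (mv 589 (both (five 7 460 492) (mv 620 (both (five 6 492 588) (mv 621 (both (five 6 524 652) (mv 622 (both (five 4 493 590) (five 4 525 654))))))))) (mv 589 (both (five 7 460 492) (mv 494 (both (five 5 461 462) (mv 495 (both (five 2 492 496) (mv 620 (both (five 6 492 588) (mv 621 (both (five 5 493 526) (five 6 524 652))))))))))))))) (both (mv 461 (both (mv 429 (both (five 6 428 556) (mv 397 (both (five 6 396 492) (mv 398 (both (five 5 365 366) (five 5 397 430))))))) (both (mv 459 (both (mv 458 (both (five 0 458 494) (mv 425 (both (five 3 425 426) (mv 457 (both (five 3 424 424) (five 0 457 492))))))) (both (mv 492 (both (mv 458 (both (five 0 457 457) (mv 425 (both (five 3 425 426) (mv 490 (both (five 2 457 489) (mv 491 (both (five 1 458 462) (five 0 490 526))))))))) (mv 556 (both (five 7 427 427) (mv 587 (both (five 6 459 555) (mv 588 (both (five 6 491 619) (five 5 492 620))))))))) (both (mv 462 (both (mv 426 (both (five 3 426 427) (mv 430 (both (five 1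 427 431) (mv 398 (both (five 6 365 366) (five 6 397 494))))))) (mv 491 (both (five 2 458 490) (mv 463 (both (five 2 459 492) (mv 496 (both (five 0 460 495) (mv 464 (both (five 0 461 497) (mv 433 (both (five 1 429 432) (mv 465 (both (five 1 430 434) (five 5 432 560))))))))))))))) (mv 458 (both (five 0 458 494) (mv 490 (both (five 2 457 489) (mv 462 (both (five 2 458 491) (mv 431 (both (five 1 427 430) (mv 463 (both (five 1 428 432) (mv 496 (both (five 0 460 495) (mv 464 (both (five 0 461 497) (five 7 431 560))))))))))))))))))) (both (mv 429 (both (mv 430 (both (five 5 397 398) (mv 431 (both (five 2 428 432) (mv 459 (both (five 1 426 458) (five 1 427 462))))))) (both (mv 526 (both (five 4 429 558) (mv 397 (both (five 4 397 494) (mv 364 (both (five 7 364 396) (mv 365 (both (five 7 332 332) (mv 366 (both (five 5 333 334) (five 5 365 398))))))))))) (mv 526 (both (five 4 429 558) (mv 494 (both (five 4 397 397) (mv 459 (both (five 0 458 458) (mv 495 (both (five 0 459 462) (five 3 460 496)))))))))))) (mv 429 (both (five 6 428 556) (mv 397 (both (five 6 396 492) (mv 526 (both (five 4 397 494) (five 4 429 558)))))))))))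 (both (mv 492 (both (mv 556 (both (mv 588 (both (five 5 492 620) (mv 589 (both (five 4 460 557) (five 4 492 621))))) (both (mv 587 (both (five 6 459 555) (mv 588 (both (five 6 491 619) (five 5 492 620))))) (mv 555 (both (five 6 459 587) (mv 554 (both (five 1 521 553) (mv 557 (both (five 1 522 526) (five 7 460 589)))))))))) (both (mv 461 (both (mv 557 (both (five 7 460 589) (mv 462 (both (five 5 429 430) (mv 463 (both (five 2 460 464) (five 2 459 491))))))) (both (mv 429 (both (five 6 396 397) (mv 430 (both (five 5 397 398) (mv 431 (both (five 2 428 432) (mv 459 (both (five 1 426 458) (five 1 427 462))))))))) (mv 429 (both (five 6 396 397) (mv 557 (both (five 7 460 589) (mv 558 (both (five 4 429 526) (five 4 461 590)))))))))) (both (mv 556 (both (mv 587 (both (five 6 459 555) (mv 588 (both (five 6 491 619) (five 5 492 620))))) (mv 459 (both (five 7 427 427) (mv 458 (both (five 0 457 457) (mv 461 (both (five 5 428 429) (mv 490 (both (five 2 457 489) (mv 491 (both (five 1 458 462) (five 0 490 526))))))))))))) (mv 556 (both (mv 427 (both (five 7 427 459) (mv 461 (both (five 5 428 429) (mv 557 (both (five 7 460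 589) (mv 462 (both (five 5 429 430) (mv 463 (both (five 2 460 464) (five 2 459 491))))))))))) (mv 587 (both (five 6 459 555) (mv 588 (both (five 6 491 619) (five 5 492 620))))))))))) (both (mv 492 (both (mv 494 (both (mv 495 (both (five 3 459 459) (five 2 492 496))) (both (mv 491 (both (mv 490 (both (five 0 489 489) (five 0 490 526))) (both (mv 458 (both (five 3 458 459) (mv 462 (both (five 1 459 463) (mv 430 (both (five 6 397 398) (mv 557 (both (five 6 429 526) (five 7 460 589))))))))) (mv 458 (both (five 3 458 459) (mv 490 (both (five 3 457 457) (five 0 489 489)))))))) (mv 495 (both (five 2 492 496) (mv 463 (both (five 1 460 464) (mv 462 (both (five 1 459 491) (mv 430 (both (five 6 397 398) (mv 557 (both (five 6 429 526) (five 7 460 589)))))))))))))) (both (mv 459 (both (mv 427 (both (five 7 427 556) (mv 395 (both (five 4 363 363) (five 4 395 491))))) (both (mv 458 (both (five 0 457 457) (mv 494 (both (five 3 458 491) (five 3 459 495))))) (mv 427 (both (five 7 427 556) (mv 363 (both (five 4 363 395) (mv 458 (both (five 0 457 457) (mv 494 (both (five 0 458 461) (five 3 459 495)))))))))))) (both (mv 461 (both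 (mv 557 (both (five 7 460 589) (mv 462 (both (five 5 429 430) (mv 463 (both (five 2 460 464) (five 2 459 491))))))) (mv 429 (both (five 6 428 556) (mv 526 (both (five 4 429 558) (mv 397 (both (five 4 397 494) (mv 364 (both (five 7 364 396) (mv 365 (both (five 7 332 332) (mv 366 (both (five 5 333 334) (five 5 365 398))))))))))))))) (both (mv 461 (both (mv 557 (both (five 7 460 589) (mv 462 (both (five 5 429 430) (mv 463 (both (five 2 460 464) (five 2 459 491))))))) (both (mv 429 (both (five 6 396 397) (mv 430 (both (five 5 397 398) (mv 431 (both (five 2 428 432) (mv 459 (both (five 1 426 458) (five 1 427 462))))))))) (mv 429 (both (five 6 396 397) (mv 557 (both (five 7 460 589) (mv 558 (both (five 4 429 526) (five 4 461 590)))))))))) (mv 461 (both (mv 429 (both (five 6 396 397) (mv 557 (both (five 7 460 589) (mv 558 (both (five 4 429 526) (five 4 461 590))))))) (both (mv 557 (both (five 7 460 589) (mv 462 (both (five 5 429 430) (mv 463 (both (five 2 460 464) (mv 431 (both (five 1 428 432) (mv 495 (both (five 0 460 496) (mv 459 (both (five 0 459 494) (mv 427 (both (five 3 426 426) (five 7 427 556)))))))))))))))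 (mv 429 (both (five 6 396 397) (mv 430 (both (five 5 397 398) (mv 431 (both (five 2 428 432) (mv 459 (both (five 1 426 458) (five 1 427 462))))))))))))))))) (both (mv 461 (both (mv 429 (both (five 6 428 556) (mv 397 (both (five 6 396 492) (mv 398 (both (five 5 365 366) (five 5 397 430))))))) (both (mv 557 (both (mv 589 (both (five 7 460 492) (mv 590 (both (five 4 461 558) (five 4 493 622))))) (both (mv 462 (both (five 5 429 430) (mv 556 (both (five 6 460 588) (mv 558 (both (five 4 461 590) (mv 559 (both (five 3 524 560) (mv 591 (both (five 0 556 592) (mv 526 (both (five 4 462 494) (mv 555 (both (five 1 522 554) (mv 587 (both (five 6 459 492) (five 2 554 586))))))))))))))))) (both (mv 588 (both (five 6 460 556) (mv 589 (both (five 6 492 620) (mv 590 (both (five 4 461 558) (five 4 493 622))))))) (mv 589 (both (five 7 460 492) (mv 494 (both (five 5 461 462) (mv 495 (both (five 2 492 496) (mv 620 (both (five 6 492 588) (mv 621 (both (five 5 493 526) (five 6 524 652))))))))))))))) (both (mv 429 (both (mv 397 (both (five 6 396 492) (mv 398 (both (five 5 365 366) (five 5 397 430))))) (both (mv 430 (both (five 5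 397 398) (mv 431 (both (five 2 428 432) (mv 526 (both (five 4 429 558) (mv 557 (both (five 5 429 462) (mv 589 (both (five 7 460 492) (mv 620 (both (five 6 492 588) (mv 621 (both (five 6 524 652) (mv 622 (both (five 4 493 590) (five 4 525 654))))))))))))))))) (both (mv 526 (both (five 4 429 558) (mv 397 (both (five 4 397 494) (mv 364 (both (five 7 364 396) (mv 365 (both (five 7 332 332) (mv 366 (both (five 5 333 334) (five 5 365 398))))))))))) (mv 397 (both (five 6 396 492) (mv 526 (both (five 4 397 494) (five 4 429 558))))))))) (mv 429 (both (five 6 428 556) (mv 526 (both (five 4 429 558) (mv 397 (both (five 4 397 494) (mv 364 (both (five 7 364 396) (mv 365 (both (five 7 332 332) (mv 366 (both (five 5 333 334) (five 5 365 398))))))))))))))))) (both (mv 556 (both (mv 492 (both (mv 588 (both (five 5 492 620) (mv 589 (both (five 4 460 557) (five 4 492 621))))) (both (mv 587 (both (five 6 459 555) (mv 588 (both (five 6 491 619) (five 5 492 620))))) (mv 555 (both (five 6 459 587) (mv 554 (both (five 1 521 553) (mv 557 (both (five 1 522 526) (five 7 460 589)))))))))) (both (mv 461 (both (five 6 428 429) (mv 588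 (both (five 6 460 557) (five 5 492 620))))) (both (mv 492 (both (mv 555 (both (five 6 459 587) (mv 554 (both (five 1 521 553) (mv 557 (both (five 1 522 526) (five 7 460 589))))))) (mv 429 (both (five 5 428 461) (mv 459 (both (five 7 427 427) (mv 458 (both (five 0 457 457) (mv 494 (both (five 3 458 491) (five 3 459 495))))))))))) (mv 461 (both (five 6 428 429) (mv 588 (both (five 5 460 492) (five 5 492 620))))))))) (mv 461 (both (mv 429 (both (mv 430 (both (five 5 397 398) (mv 431 (both (five 2 428 432) (mv 459 (both (five 1 426 458) (five 1 427 462))))))) (both (mv 397 (both (five 6 396 492) (mv 364 (both (five 7 364 396) (mv 365 (both (five 7 332 332) (mv 366 (both (five 5 333 334) (five 5 365 398))))))))) (mv 397 (both (five 6 396 492) (mv 364 (both (five 7 364 396) (mv 365 (both (five 7 332 332) (mv 334 (both (five 5 333 366) (mv 302 (both (five 5 301 333) (mv 462 (both (five 4 365 494) (mv 430 (both (five 5 429 557) (mv 431 (both (five 2 428 432) (five 1 427 459)))))))))))))))))))) (both (mv 492 (both (mv 557 (both (five 7 460 589) (mv 462 (both (five 5 429 430) (mv 463 (both (five 2 460 464) (five 2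 459 491))))))) (both (mv 459 (both (mv 427 (both (five 7 427 556) (mv 395 (both (five 4 363 363) (five 4 395 491))))) (both (mv 458 (both (five 0 457 457) (mv 494 (both (five 3 458 491) (five 3 459 495))))) (mv 457 (both (five 0 457 458) (mv 494 (both (five 3 459 495) (mv 556 (both (five 7 427 427) (mv 587 (both (five 6 459 555) (mv 588 (both (five 6 491 619) (five 5 492 620)))))))))))))) (mv 557 (both (five 7 460 589) (mv 462 (both (five 5 429 430) (mv 463 (both (five 2 460 464) (mv 431 (both (five 1 428 432) (mv 495 (both (five 0 460 496) (mv 459 (both (five 0 459 494) (mv 427 (both (five 3 426 426) (five 7 427 556)))))))))))))))))) (both (mv 429 (both (five 6 428 556) (mv 430 (both (five 5 397 398) (mv 431 (both (five 2 428 432) (mv 459 (both (five 1 426 458) (five 1 427 462))))))))) (mv 429 (both (five 6 428 556) (mv 397 (both (five 6 396 492) (mv 364 (both (five 7 364 396) (mv 365 (both (five 7 332 332) (mv 366 (both (five 5 333 334) (five 5 365 398)))))))))))))))))))))))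

theorem L0 : W (S 1043449244339852676680226052875086574848644195938891688800670960809577818651356703778472963904653570250493117875228665986179425464456196124327010028520294318080) (S 93438784020770314409974873794837098114827667066012601053391244836251536498233746930618427006371732208332899808233478165133393512649755714932686576801340432740431055171493792839145215182937945800704) :=
  check_sound Env.nil (x := 493) (t := tL0) (by decide +kernel)

def tL1 : T :=
  (both (mv 493 (both (mv 429 (both (five 6 428 556) (mv 430 (both (five 5 397 398) (mv 431 (both (five 2 428 432) (mv 459 (both (five 1 426 458) (five 1 427 462))))))))) (both (mv 557 (both (mv 462 (both (five 5 429 430) (mv 556 (both (five 6 460 588) (mv 558 (both (five 4 461 590) (mv 559 (both (five 3 524 560) (mv 591 (both (five 0 556 592) (mv 494 (both (five 4 462 526) (mv 459 (both (five 0 458 458) (five 0 459 495))))))))))))))) (both (mv 588 (both (five 6 460 556) (mv 589 (both (five 6 492 620) (mv 590 (both (five 4 461 558) (five 4 493 622))))))) (mv 462 (both (five 5 429 430) (mv 494 (both (five 5 461 589) (mv 459 (both (five 0 458 458) (five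 0 459 495)))))))))) (both (mv 429 (both (mv 430 (both (five 5 397 398) (mv 431 (both (five 2 428 432) (mv 459 (both (five 1 426 458) (five 1 427 462))))))) (both (mv 526 (both (five 4 429 558) (mv 397 (both (five 4 397 494) (mv 364 (both (five 7 364 396) (mv 365 (both (five 7 332 332) (mv 366 (both (five 5 333 334) (five 5 365 398))))))))))) (mv 526 (both (five 4 429 558) (mv 494 (both (five 4 397 397) (mv 459 (both (five 0 458 458) (mv 495 (both (five 0 459 462) (five 3 460 496)))))))))))) (mv 429 (both (five 6 428 556) (mv 526 (both (five 4 429 558) (mv 397 (both (five 4 397 494) (mv 364 (both (five 7 364 396) (mv 365 (both (five 7 332 332) (mv 366 (both (five 5 333 334) (five 5 365 398))))))))))))))))) (both (mv 462 (both (mv 459 (both (mv 431 (both (five 1 427 430) (mv 463 (both (five 1 428 432) (mv 496 (both (five 0 460 495) (mv 464 (both (five 0 461 497) (five 7 431 560))))))))) (mv 426 (both (five 3 426 427) (mv 458 (both (five 3 425 425) (mv 490 (both (five 2 457 489) (five 2 458 491))))))))) (both (mv 463 (both (mv 496 (both (five 0 460 495) (mv 464 (both (five 0 461 497) (mv 433 (both (five 1 429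 432) (mv 465 (both (five 1 430 434) (five 5 432 560))))))))) (both (mv 428 (both (five 3 427 427) (mv 432 (both (five 1 428 431) (mv 464 (both (five 3 428 429) (five 1 429 433))))))) (both (mv 427 (both (five 3 427 428) (mv 496 (both (five 0 460 495) (mv 464 (both (five 0 461 497) (mv 560 (both (five 7 431 431) (mv 433 (both (five 5 432 465) (mv 559 (both (five 6 463 591) (mv 558 (both (five 3 524 557) (mv 561 (both (five 3 525 526) (five 4 464 593))))))))))))))))) (mv 431 (both (five 1 428 432) (mv 399 (both (mv 367 (both (five 6 366 494) (mv 334 (both (five 7 334 366) (mv 335 (both (five 7 302 302) (five 6 334 430))))))) (both (mv 427 (both (five 3 427 428) (mv 495 (both (five 4 399 496) (mv 366 (both (five 7 366 398) (mv 367 (both (five 7 334 334) (mv 368 (both (five 5 335 336) (five 5 367 400))))))))))) (both (mv 428 (both (five 3 427 427) (mv 495 (both (five 4 399 496) (mv 398 (both (five 7 366 366) (mv 400 (both (five 5 367 368) (mv 429 (both (five 2 396 397) (five 1 396 430))))))))))) (mv 367 (both (five 6 366 494) (mv 335 (both (five 6 334 430) (mv 336 (both (five 5 303 304) (five 5 335 368)))))))))))))))))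 (both (mv 459 (both (mv 426 (both (five 3 426 427) (mv 458 (both (five 3 425 425) (mv 490 (both (five 2 457 489) (five 2 458 491))))))) (mv 430 (both (five 1 427 431) (mv 494 (both (five 0 459 495) (mv 526 (both (five 6 429 557) (mv 429 (both (five 7 397 397) (five 7 429 558))))))))))) (both (mv 459 (both (mv 426 (both (five 3 426 427) (mv 458 (both (five 3 425 425) (mv 490 (both (five 2 457 489) (five 2 458 491))))))) (both (mv 490 (both (five 2 458 491) (mv 458 (both (five 2 457 489) (mv 425 (both (five 3 425 426) (mv 429 (both (five 1 426 430) (mv 457 (both (five 3 424 424) (five 1 425 428))))))))))) (both (mv 490 (both (five 2 458 491) (mv 458 (both (five 2 457 489) (mv 429 (both (five 1 426 430) (mv 428 (both (five 1 425 457) (mv 463 (both (five 3 427 427) (five 3 428 464))))))))))) (mv 427 (both (five 3 426 426) (mv 463 (both (five 3 427 428) (mv 495 (both (five 0 459 494) (five 0 460 496))))))))))) (both (mv 463 (both (mv 428 (both (five 3 427 427) (mv 432 (both (five 1 428 431) (mv 464 (both (five 3 428 429) (five 1 429 433))))))) (both (mv 496 (both (five 0 460 495) (mv 464 (both (five 0 461 497)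 (mv 433 (both (five 1 429 432) (mv 465 (both (five 1 430 434) (five 5 432 560))))))))) (both (mv 496 (both (five 0 460 495) (mv 464 (both (five 0 461 497) (mv 560 (both (five 7 431 431) (mv 433 (both (five 5 432 465) (mv 559 (both (five 6 463 591) (mv 558 (both (five 3 524 557) (mv 561 (both (five 3 525 526) (five 4 464 593))))))))))))))) (mv 427 (both (five 3 427 428) (mv 431 (both (five 1 428 432) (mv 459 (both (five 3 426 426) (mv 495 (both (five 0 459 494) (five 0 460 496))))))))))))) (both (mv 463 (both (mv 496 (both (five 0 460 495) (mv 464 (both (five 0 461 497) (mv 433 (both (five 1 429 432) (mv 465 (both (five 1 430 434) (five 5 432 560))))))))) (both (mv 432 (both (five 1 428 431) (mv 464 (both (five 1 429 433) (mv 429 (both (five 3 428 428) (mv 430 (both (five 3 429 465) (mv 459 (both (five 1 426 458) (mv 494 (both (five 0 459 495) (mv 397 (both (five 4 365 365) (five 7 397 526))))))))))))))) (both (mv 432 (both (five 1 428 431) (mv 464 (both (five 1 429 433) (mv 429 (both (five 3 428 428) (mv 465 (both (five 3 429 430) (mv 497 (both (five 0 461 496) (five 0 462 498))))))))))) (both (mv 496 (both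 (five 0 460 495) (mv 464 (both (five 0 461 497) (mv 560 (both (five 7 431 431) (mv 433 (both (five 5 432 465) (mv 559 (both (five 6 463 591) (mv 558 (both (five 3 524 557) (mv 561 (both (five 3 525 526) (five 4 464 593))))))))))))))) (mv 431 (both (five 1 428 432) (mv 459 (both (five 1 427 430) (mv 495 (both (five 0 459 494) (five 0 460 496)))))))))))) (mv 459 (both (mv 426 (both (five 3 426 427) (mv 458 (both (five 3 425 425) (mv 490 (both (five 2 457 489) (five 2 458 491))))))) (both (mv 490 (both (five 2 458 491) (mv 458 (both (five 2 457 489) (mv 425 (both (five 3 425 426) (mv 429 (both (five 1 426 430) (mv 457 (both (five 3 424 424) (five 1 425 428))))))))))) (both (mv 490 (both (five 2 458 491) (mv 458 (both (five 2 457 489) (mv 429 (both (five 1 426 430) (mv 428 (both (five 1 425 457) (mv 463 (both (five 3 427 427) (five 3 428 464))))))))))) (mv 427 (both (five 3 426 426) (mv 431 (both (five 1 427 430) (mv 463 (both (five 3 427 428) (five 1 428 432)))))))))))))))))) (both (mv 459 (both (mv 462 (both (mv 426 (both (five 3 426 427) (mv 458 (both (five 3 425 425) (mv 490 (both (five 2 457 489) (five 2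 458 491))))))) (mv 431 (both (five 1 427 430) (mv 463 (both (five 1 428 432) (mv 496 (both (five 0 460 495) (mv 464 (both (five 0 461 497) (five 7 431 560))))))))))) (both (mv 458 (both (mv 425 (both (five 3 425 426) (mv 457 (both (five 3 424 424) (mv 489 (both (five 2 456 488) (five 2 457 490))))))) (mv 493 (both (five 0 458 494) (mv 557 (both (five 7 428 428) (mv 588 (both (five 6 460 556) (mv 589 (both (five 6 492 620) (mv 590 (both (five 4 461 558) (five 4 493 622))))))))))))) (both (mv 462 (both (mv 427 (both (five 3 426 426) (mv 463 (both (five 3 427 428) (mv 495 (both (five 0 459 494) (five 0 460 496))))))) (both (mv 431 (both (five 1 427 430) (mv 463 (both (five 1 428 432) (mv 496 (both (five 0 460 495) (mv 464 (both (five 0 461 497) (five 7 431 560))))))))) (mv 426 (both (five 3 426 427) (mv 430 (both (five 1 427 431) (mv 490 (both (five 2 458 491) (mv 493 (both (five 5 429 557) (mv 398 (both (five 6 365 366) (five 6 397 494)))))))))))))) (both (mv 462 (both (mv 431 (both (five 1 427 430) (mv 463 (both (five 1 428 432) (mv 496 (both (five 0 460 495) (mv 464 (both (five 0 461 497) (five 7 431 560)))))))))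 (mv 490 (both (five 2 458 491) (mv 458 (both (five 2 457 489) (mv 493 (both (five 0 458 494) (mv 557 (both (five 7 428 428) (mv 588 (both (five 6 460 556) (mv 589 (both (five 6 492 620) (mv 590 (both (five 4 461 558) (five 4 493 622))))))))))))))))) (mv 462 (both (mv 427 (both (five 3 426 426) (mv 463 (both (five 3 427 428) (mv 495 (both (five 0 459 494) (five 0 460 496))))))) (both (mv 431 (both (five 1 427 430) (mv 463 (both (five 1 428 432) (mv 496 (both (five 0 460 495) (mv 464 (both (five 0 461 497) (five 7 431 560))))))))) (mv 426 (both (five 3 426 427) (mv 425 (both (five 3 425 458) (mv 430 (both (five 1 427 431) (mv 493 (both (five 5 429 557) (mv 398 (both (five 6 365 366) (five 6 397 494))))))))))))))))))) (both (mv 493 (both (mv 557 (both (five 7 428 428) (mv 588 (both (five 6 460 556) (mv 589 (both (five 6 492 620) (mv 590 (both (five 4 461 558) (five 4 493 622))))))))) (both (mv 429 (both (five 6 428 556) (mv 526 (both (five 4 429 558) (mv 397 (both (five 4 397 494) (mv 364 (both (five 7 364 396) (mv 365 (both (five 7 332 332) (mv 366 (both (five 5 333 334) (five 5 365 398))))))))))))) (mv 428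 (both (five 7 428 557) (mv 396 (both (five 4 364 364) (five 7 396 429)))))))) (both (mv 459 (both (mv 462 (both (mv 426 (both (five 3 426 427) (mv 458 (both (five 3 425 425) (mv 490 (both (five 2 457 489) (five 2 458 491))))))) (mv 431 (both (five 1 427 430) (mv 463 (both (five 1 428 432) (mv 496 (both (five 0 460 495) (mv 464 (both (five 0 461 497) (five 7 431 560))))))))))) (both (mv 458 (both (mv 425 (both (five 3 425 426) (mv 457 (both (five 3 424 424) (mv 489 (both (five 2 456 488) (five 2 457 490))))))) (mv 429 (both (five 1 426 430) (mv 493 (both (five 0 458 494) (five 6 428 556))))))) (both (mv 462 (both (mv 427 (both (five 3 426 426) (mv 463 (both (five 3 427 428) (mv 495 (both (five 0 459 494) (five 0 460 496))))))) (both (mv 427 (both (five 3 426 426) (mv 431 (both (five 1 427 430) (mv 463 (both (five 3 427 428) (five 1 428 432))))))) (both (mv 431 (both (five 1 427 430) (mv 463 (both (five 1 428 432) (mv 496 (both (five 0 460 495) (mv 464 (both (five 0 461 497) (five 7 431 560))))))))) (mv 426 (both (five 3 426 427) (mv 430 (both (five 1 427 431) (mv 490 (both (five 2 458 491) (mv 494 (both (five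 0 459 495) (mv 398 (both (five 6 397 493) (mv 365 (both (five 7 365 397) (mv 366 (both (five 7 333 333) (mv 367 (both (five 5 334 335) (five 5 366 399))))))))))))))))))))) (both (mv 462 (both (mv 426 (both (five 3 426 427) (mv 458 (both (five 3 425 425) (mv 490 (both (five 2 457 489) (five 2 458 491))))))) (both (mv 490 (both (five 2 458 491) (mv 458 (both (five 2 457 489) (mv 494 (both (five 0 458 493) (five 0 459 495))))))) (mv 427 (both (five 3 426 426) (mv 463 (both (five 3 427 428) (mv 495 (both (five 0 459 494) (five 0 460 496)))))))))) (both (mv 462 (both (mv 490 (both (five 2 458 491) (mv 458 (both (five 2 457 489) (mv 494 (both (five 0 458 493) (five 0 459 495))))))) (both (mv 431 (both (five 1 427 430) (mv 463 (both (five 1 428 432) (mv 496 (both (five 0 460 495) (mv 464 (both (five 0 461 497) (five 7 431 560))))))))) (mv 490 (both (five 2 458 491) (mv 458 (both (five 2 457 489) (mv 429 (both (five 1 426 430) (mv 428 (both (five 1 425 457) (mv 463 (both (five 3 427 427) (five 3 428 464)))))))))))))) (mv 462 (both (mv 427 (both (five 3 426 426) (mv 463 (both (five 3 427 428) (mv 495 (both (five 0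 459 494) (five 0 460 496))))))) (both (mv 426 (both (five 3 426 427) (mv 430 (both (five 1 427 431) (mv 458 (both (five 3 425 425) (five 1 426 429))))))) (mv 431 (both (five 1 427 430) (mv 463 (both (five 1 428 432) (mv 496 (both (five 0 460 495) (mv 464 (both (five 0 461 497) (five 7 431 560)))))))))))))))))) (both (mv 493 (both (mv 428 (both (five 7 428 557) (mv 396 (both (five 4 364 364) (five 7 396 429))))) (both (mv 557 (both (five 7 428 428) (mv 588 (both (five 6 460 556) (mv 589 (both (five 6 492 620) (mv 590 (both (five 4 461 558) (five 4 493 622))))))))) (mv 429 (both (five 6 428 556) (mv 430 (both (five 5 397 398) (mv 431 (both (five 2 428 432) (mv 459 (both (five 1 426 458) (five 1 427 462)))))))))))) (mv 493 (both (mv 428 (both (five 7 428 557) (mv 396 (both (five 4 364 364) (five 7 396 429))))) (both (mv 429 (both (five 6 428 556) (mv 526 (both (five 4 429 558) (mv 494 (both (five 4 397 397) (mv 459 (both (five 0 458 458) (mv 495 (both (five 0 459 462) (five 3 460 496))))))))))) (mv 557 (both (five 7 428 428) (mv 588 (both (five 6 460 556) (mv 589 (both (five 6 492 620) (mv 590 (both (five 4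 461 558) (five 4 493 622))))))))))))))))))

theorem L1 : W (S 1043449244339852676680226052875086574848644195938891688800670960809577818651356703778472963904653570250493117875228665986179425464456196124327010028520294318080) (S 21755412249597895816517188793588162120696462324249814405279224315862178346344583950552889970815500110103025903027029901491011096061921419946399029043794183379248061103232593650383377661952) :=
  check_sound Env.nil (x := 461) (t := tL1) (by decide +kernel)

def tL2 : T :=
  (both (mv 463 (both (mv 496 (both (five 0 460 495) (mv 464 (both (five 0 461 497) (mv 433 (both (five 1 429 432) (mv 465 (both (five 1 430 434) (five 5 432 560))))))))) (mv 428 (both (five 3 427 427) (mv 492 (both (five 2 459 491) (five 4 428 557))))))) (both (mv 459 (both (mv 426 (both (five 3 426 427) (mv 458 (both (five 3 425 425) (mv 490 (both (five 2 457 489) (five 2 458 491))))))) (mv 430 (both (five 1 427 431) (mv 494 (both (five 0 459 495) (mv 526 (both (five 6 429 557) (mv 429 (both (five 7 397 397) (five 7 429 558))))))))))) (both (mv 463 (both (mv 428 (both (five 3 427 427) (mv 432 (both (five 1 428 431)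 (mv 464 (both (five 3 428 429) (five 1 429 433))))))) (both (mv 496 (both (five 0 460 495) (mv 464 (both (five 0 461 497) (mv 433 (both (five 1 429 432) (mv 465 (both (five 1 430 434) (five 5 432 560))))))))) (both (mv 496 (both (five 0 460 495) (mv 464 (both (five 0 461 497) (mv 560 (both (five 7 431 431) (mv 433 (both (five 5 432 465) (mv 559 (both (five 6 463 591) (mv 558 (both (five 3 524 557) (mv 561 (both (five 3 525 526) (five 4 464 593))))))))))))))) (mv 427 (both (five 3 427 428) (mv 431 (both (five 1 428 432) (mv 459 (both (five 3 426 426) (mv 495 (both (five 0 459 494) (five 0 460 496))))))))))))) (both (mv 463 (both (mv 431 (both (five 1 428 432) (mv 459 (both (five 1 427 430) (mv 495 (both (five 0 459 494) (five 0 460 496))))))) (both (mv 496 (both (five 0 460 495) (mv 464 (both (five 0 461 497) (mv 433 (both (five 1 429 432) (mv 465 (both (five 1 430 434) (five 5 432 560))))))))) (both (mv 431 (both (five 1 428 432) (mv 430 (both (five 1 427 459) (mv 492 (both (five 2 459 491) (mv 428 (both (five 4 428 557) (mv 429 (both (five 5 396 397) (five 0 428 464))))))))))) (mv 496 (both (five 0 460 495)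 (mv 464 (both (five 0 461 497) (mv 560 (both (five 7 431 431) (mv 433 (both (five 5 432 465) (mv 559 (both (five 6 463 591) (mv 558 (both (five 3 524 557) (mv 561 (both (five 3 525 526) (five 4 464 593))))))))))))))))))) (mv 459 (both (mv 426 (both (five 3 426 427) (mv 458 (both (five 3 425 425) (mv 490 (both (five 2 457 489) (five 2 458 491))))))) (both (mv 490 (both (five 2 458 491) (mv 458 (both (five 2 457 489) (mv 425 (both (five 3 425 426) (mv 429 (both (five 1 426 430) (mv 457 (both (five 3 424 424) (five 1 425 428))))))))))) (both (mv 490 (both (five 2 458 491) (mv 458 (both (five 2 457 489) (mv 429 (both (five 1 426 430) (mv 428 (both (five 1 425 457) (mv 463 (both (five 3 427 427) (five 3 428 464))))))))))) (mv 427 (both (five 3 426 426) (mv 431 (both (five 1 427 430) (mv 463 (both (five 3 427 428) (five 1 428 432)))))))))))))))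

theorem L2 : W (S 1043449244339852676686180315704516186496024256573110221946095990836328328201182671490160760952878526038381274962675817115253192041454728653958525485061905580032) (S 40522612991977551256875879309710375080338200960697020077270548582914707068642140649784716876413823247033582801356802849728481352681547007598387096800444600026602124624025368920064) :=
  check_sound Env.nil (x := 462) (t := tL2) (by decide +kernel)

def tL3 : T :=
  (both (mv 462 (both (mv 426 (both (five 3 426 427) (mv 458 (both (five 3 425 425) (mv 490 (both (five 2 457 489) (five 2 458 491))))))) (both (mv 490 (both (five 2 458 491) (mv 458 (both (five 2 457 489) (mv 494 (both (five 0 458 493) (five 0 459 495))))))) (mv 427 (both (five 3 426 426) (mv 463 (both (five 3 427 428) (mv 495 (both (five 0 459 494) (five 0 460 496)))))))))) (both (mv 458 (both (mv 425 (both (five 3 425 426) (mv 457 (both (five 3 424 424) (mv 489 (both (five 2 456 488) (five 2 457 490))))))) (both (mv 429 (both (five 1 426 430) (mv 428 (both (five 1 425 457) (mv 493 (both (five 7 396 396) (five 0 458 494))))))) (mv 425 (both (five 3 425 426) (mv 429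 (both (five 1 426 430) (mv 489 (both (five 2 457 490) (mv 493 (both (five 0 458 494) (mv 397 (both (five 6 396 492) (mv 364 (both (five 7 364 396) (mv 365 (both (five 7 332 332) (mv 366 (both (five 5 333 334) (five 5 365 398)))))))))))))))))))) (both (mv 462 (both (mv 427 (both (five 3 426 426) (mv 463 (both (five 3 427 428) (mv 495 (both (five 0 459 494) (five 0 460 496))))))) (both (mv 427 (both (five 3 426 426) (mv 431 (both (five 1 427 430) (mv 463 (both (five 3 427 428) (five 1 428 432))))))) (both (mv 431 (both (five 1 427 430) (mv 463 (both (five 1 428 432) (mv 496 (both (five 0 460 495) (mv 464 (both (five 0 461 497) (five 7 431 560))))))))) (mv 426 (both (five 3 426 427) (mv 430 (both (five 1 427 431) (mv 490 (both (five 2 458 491) (mv 494 (both (five 0 459 495) (mv 398 (both (five 6 397 493) (mv 365 (both (five 7 365 397) (mv 366 (both (five 7 333 333) (mv 367 (both (five 5 334 335) (five 5 366 399))))))))))))))))))))) (both (mv 462 (both (mv 426 (both (five 3 426 427) (mv 458 (both (five 3 425 425) (mv 490 (both (five 2 457 489) (five 2 458 491))))))) (mv 431 (both (five 1 427 430) (mv 463 (both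 (five 1 428 432) (mv 496 (both (five 0 460 495) (mv 464 (both (five 0 461 497) (five 7 431 560))))))))))) (both (mv 462 (both (mv 427 (both (five 3 426 426) (mv 463 (both (five 3 427 428) (mv 495 (both (five 0 459 494) (five 0 460 496))))))) (both (mv 426 (both (five 3 426 427) (mv 430 (both (five 1 427 431) (mv 458 (both (five 3 425 425) (five 1 426 429))))))) (mv 431 (both (five 1 427 430) (mv 463 (both (five 1 428 432) (mv 496 (both (five 0 460 495) (mv 464 (both (five 0 461 497) (five 7 431 560)))))))))))) (mv 462 (both (mv 490 (both (five 2 458 491) (mv 458 (both (five 2 457 489) (mv 494 (both (five 0 458 493) (five 0 459 495))))))) (both (mv 431 (both (five 1 427 430) (mv 463 (both (five 1 428 432) (mv 496 (both (five 0 460 495) (mv 464 (both (five 0 461 497) (five 7 431 560))))))))) (mv 490 (both (five 2 458 491) (mv 458 (both (five 2 457 489) (mv 429 (both (five 1 426 430) (mv 428 (both (five 1 425 457) (mv 463 (both (five 3 427 427) (five 3 428 464)))))))))))))))))))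

theorem L3 : W (S 1043449244339852676686180315704516186496024256573110221946095990836328328201182671490160760952878526038381274962675817115253192041454728653958525485061905580032) (S 3773962424821541353059103065419388134031013008482979531668341770693258811346120813518688163619533532185690696023581640001847445064565370413775564584682022056658093473792) :=
  check_sound Env.nil (x := 459) (t := tL3) (by decide +kernel)

def tL4 : T :=
  (both (ref 0) (both (ref 1) (both (mv 492 (both (mv 556 (both (mv 587 (both (five 6 459 555) (mv 588 (both (five 6 491 619) (mv 620 (both (five 5 492 493) (mv 621 (both (five 4 492 589) (five 4 524 653))))))))) (both (mv 427 (both (five 7 427 459) (mv 461 (both (five 5 428 429) (mv 588 (both (five 5 460 493) (mv 619 (both (five 6 491 587) (mv 620 (both (five 6 523 651) (mv 621 (both (five 4 492 589) (five 4 524 653))))))))))))) (both (mv 429 (both (five 5 428 461) (mv 459 (both (five 7 427 427) (mv 555 (both (five 6 459 587) (mv 554 (both (five 1 521 553) (mv 523 (both (five 2 522 526) (mv 491 (both (five 6 458 586) (mv 458 (both (five 7 426 426) (mv 457 (both (five 0 456 456)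 (five 0 457 493))))))))))))))))) (both (mv 427 (both (five 7 427 459) (mv 461 (both (five 5 428 429) (mv 588 (both (five 5 460 493) (mv 621 (both (five 4 492 589) (mv 620 (both (five 4 524 653) (mv 523 (both (five 7 491 491) (mv 555 (both (five 7 523 652) (mv 554 (both (five 2 522 526) (five 1 521 553))))))))))))))))) (mv 429 (both (five 5 428 461) (mv 459 (both (five 7 427 427) (mv 491 (both (five 7 459 588) (mv 489 (both (five 0 489 490) (mv 555 (both (five 6 459 587) (mv 554 (both (five 1 521 553) (mv 523 (both (five 2 522 526) (five 6 458 586)))))))))))))))))))) (both (mv 428 (both (mv 395 (both (five 7 395 427) (mv 396 (both (five 7 363 363) (five 4 396 493))))) (both (mv 427 (both (five 7 395 395) (mv 426 (both (mv 425 (both (five 0 425 461) (mv 392 (both (five 3 392 393) (mv 424 (both (five 3 391 391) (five 0 424 459))))))) (both (mv 429 (both (five 5 396 397) (mv 458 (both (five 2 425 457) (mv 430 (both (five 2 426 459) (mv 399 (both (five 1 395 398) (mv 431 (both (five 1 396 400) (mv 463 (both (five 0 427 462) (five 0 428 464))))))))))))) (mv 397 (both (five 5 396 429) (mv 425 (both (five 0 425 461)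 (mv 392 (both (five 3 392 393) (mv 424 (both (five 3 391 391) (mv 456 (both (five 2 423 455) (five 2 424 457)))))))))))))))) (mv 396 (both (five 4 396 493) (mv 397 (both (five 5 364 365) (five 5 396 429)))))))) (both (mv 556 (both (mv 459 (both (five 7 427 427) (mv 491 (both (five 7 459 588) (mv 489 (both (five 0 489 490) (mv 555 (both (five 6 459 587) (mv 554 (both (five 1 521 553) (mv 523 (both (five 2 522 526) (five 6 458 586))))))))))))) (both (mv 427 (both (five 7 427 459) (mv 428 (both (five 7 395 395) (mv 429 (both (five 5 396 397) (five 5 428 461))))))) (mv 429 (both (five 5 428 461) (mv 428 (both (five 5 396 397) (mv 555 (both (five 6 427 523) (five 6 459 587)))))))))) (both (mv 428 (both (mv 395 (both (five 7 395 427) (mv 396 (both (five 7 363 363) (five 4 396 493))))) (both (mv 427 (both (five 7 395 395) (mv 555 (both (five 6 427 523) (mv 556 (both (five 7 427 459) (five 6 459 587))))))) (mv 396 (both (five 4 396 493) (mv 523 (both (five 6 395 491) (five 6 427 555)))))))) (mv 428 (both (mv 396 (both (five 4 396 493) (mv 397 (both (five 5 364 365) (five 5 396 429))))) (both (mv 429 (both (five 5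 396 397) (mv 555 (both (five 6 427 523) (mv 556 (both (five 5 428 461) (five 6 459 587))))))) (mv 396 (both (five 4 396 493) (mv 523 (both (five 6 395 491) (five 6 427 555))))))))))))) (both (mv 492 (both (mv 556 (both (mv 459 (both (five 7 427 427) (mv 491 (both (five 7 459 588) (mv 489 (both (five 0 489 490) (mv 555 (both (five 6 459 587) (mv 554 (both (five 1 521 553) (mv 523 (both (five 2 522 526) (five 6 458 586))))))))))))) (both (mv 427 (both (five 7 427 459) (mv 428 (both (five 7 395 395) (mv 429 (both (five 5 396 397) (five 5 428 461))))))) (mv 429 (both (five 5 428 461) (mv 428 (both (five 5 396 397) (mv 555 (both (five 6 427 523) (five 6 459 587)))))))))) (both (mv 556 (both (mv 459 (both (five 7 427 427) (mv 491 (both (five 7 459 588) (mv 489 (both (five 0 489 490) (mv 555 (both (five 6 459 587) (mv 554 (both (five 1 521 553) (mv 523 (both (five 2 522 526) (five 6 458 586))))))))))))) (both (mv 429 (both (five 5 428 461) (mv 555 (both (five 6 459 587) (mv 554 (both (five 1 521 553) (mv 526 (both (five 2 522 523) (five 1 522 557))))))))) (mv 429 (both (five 5 428 461) (mv 459 (both (five 7 427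 427) (mv 588 (both (five 7 459 491) (mv 589 (both (five 4 460 557) (five 4 492 621)))))))))))) (both (mv 428 (both (five 4 428 557) (mv 427 (both (five 7 395 395) (mv 426 (both (mv 425 (both (five 0 425 461) (mv 392 (both (five 3 392 393) (mv 424 (both (five 3 391 391) (five 0 424 459))))))) (both (mv 429 (both (five 5 396 397) (mv 458 (both (five 2 425 457) (mv 430 (both (five 2 426 459) (mv 399 (both (five 1 395 398) (mv 431 (both (five 1 396 400) (mv 463 (both (five 0 427 462) (five 0 428 464))))))))))))) (mv 397 (both (five 5 396 429) (mv 425 (both (five 0 425 461) (mv 392 (both (five 3 392 393) (mv 424 (both (five 3 391 391) (mv 456 (both (five 2 423 455) (five 2 424 457)))))))))))))))))) (both (mv 428 (both (five 4 428 557) (mv 429 (both (five 5 396 397) (mv 555 (both (five 6 427 523) (mv 556 (both (five 5 428 461) (five 6 459 587))))))))) (mv 428 (both (five 4 428 557) (mv 427 (both (five 7 395 395) (mv 555 (both (five 6 427 523) (mv 556 (both (five 7 427 459) (five 6 459 587)))))))))))))) (both (mv 461 (both (ref 2) (both (mv 493 (both (mv 492 (both (mv 557 (both (five 7 460 589) (mv 462 (both (five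 5 429 430) (mv 463 (both (five 2 460 464) (five 2 459 491))))))) (both (mv 429 (both (five 6 396 397) (mv 430 (both (five 5 397 398) (mv 431 (both (five 2 428 432) (mv 459 (both (five 1 426 458) (five 1 427 462))))))))) (mv 429 (both (five 6 396 397) (mv 557 (both (five 7 460 589) (mv 558 (both (five 4 429 526) (five 4 461 590)))))))))) (both (mv 429 (both (mv 430 (both (five 5 397 398) (mv 431 (both (five 2 428 432) (mv 459 (both (five 1 426 458) (five 1 427 462))))))) (both (mv 526 (both (five 4 429 558) (mv 397 (both (five 4 397 494) (mv 364 (both (five 7 364 396) (mv 365 (both (five 7 332 332) (mv 366 (both (five 5 333 334) (five 5 365 398))))))))))) (mv 526 (both (five 4 429 558) (mv 494 (both (five 4 397 397) (mv 459 (both (five 0 458 458) (mv 495 (both (five 0 459 462) (five 3 460 496)))))))))))) (both (mv 557 (both (mv 589 (both (five 7 460 492) (mv 590 (both (five 4 461 558) (five 4 493 622))))) (both (mv 494 (both (mv 459 (both (five 0 458 458) (mv 495 (both (five 0 459 462) (five 3 460 496))))) (both (mv 459 (both (five 0 458 458) (mv 495 (both (five 3 459 492) (five 3 460 496))))) (mv 462 (both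 (five 5 429 430) (mv 558 (both (five 4 461 590) (mv 559 (both (five 3 524 560) (mv 526 (both (five 4 462 591) (mv 463 (both (five 5 430 431) (mv 464 (both (five 2 461 465) (five 2 460 492)))))))))))))))) (mv 462 (both (five 5 429 430) (mv 494 (both (five 5 461 589) (mv 459 (both (five 0 458 458) (five 0 459 495)))))))))) (both (mv 557 (both (mv 558 (both (five 4 461 590) (mv 526 (both (five 4 429 429) (mv 559 (both (five 0 523 523) (five 3 524 560))))))) (both (mv 589 (both (five 7 460 492) (mv 620 (both (five 6 492 588) (mv 621 (both (five 6 524 652) (mv 622 (both (five 4 493 590) (five 4 525 654))))))))) (mv 589 (both (five 7 460 492) (mv 620 (both (five 6 492 588) (mv 621 (both (five 6 524 652) (mv 526 (both (five 5 493 494) (mv 558 (both (five 4 429 429) (five 5 525 653)))))))))))))) (mv 429 (both (mv 430 (both (five 5 397 398) (mv 431 (both (five 2 428 432) (mv 459 (both (five 1 426 458) (five 1 427 462))))))) (both (mv 397 (both (five 6 396 492) (mv 364 (both (five 7 364 396) (mv 365 (both (five 7 332 332) (mv 366 (both (five 5 333 334) (five 5 365 398))))))))) (mv 397 (both (five 6 396 492) (mv 364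 (both (five 7 364 396) (mv 365 (both (five 7 332 332) (mv 334 (both (five 5 333 366) (mv 302 (both (five 5 301 333) (mv 462 (both (five 4 365 494) (mv 430 (both (five 5 429 557) (mv 431 (both (five 2 428 432) (five 1 427 459))))))))))))))))))))))))) (both (mv 493 (both (mv 428 (both (five 7 428 557) (mv 396 (both (five 4 364 364) (five 7 396 429))))) (both (mv 429 (both (mv 430 (both (five 5 397 398) (mv 431 (both (five 2 428 432) (mv 459 (both (five 1 426 458) (five 1 427 462))))))) (both (mv 526 (both (five 4 429 558) (mv 397 (both (five 4 397 494) (mv 364 (both (five 7 364 396) (mv 365 (both (five 7 332 332) (mv 366 (both (five 5 333 334) (five 5 365 398))))))))))) (mv 526 (both (five 4 429 558) (mv 494 (both (five 4 397 397) (mv 459 (both (five 0 458 458) (mv 495 (both (five 0 459 462) (five 3 460 496)))))))))))) (mv 557 (both (five 7 428 428) (mv 462 (both (five 5 429 430) (mv 494 (both (five 5 461 589) (mv 459 (both (five 0 458 458) (five 0 459 495)))))))))))) (both (ref 3) (both (mv 493 (both (mv 428 (both (five 7 428 557) (mv 396 (both (five 4 364 364) (five 7 396 429))))) (both (mv 557 (both (mv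 558 (both (five 4 461 590) (mv 526 (both (five 4 429 429) (mv 559 (both (five 0 523 523) (five 3 524 560))))))) (both (mv 589 (both (five 7 460 492) (mv 620 (both (five 6 492 588) (mv 621 (both (five 6 524 652) (mv 622 (both (five 4 493 590) (five 4 525 654))))))))) (mv 589 (both (five 7 460 492) (mv 620 (both (five 6 492 588) (mv 621 (both (five 6 524 652) (mv 526 (both (five 5 493 494) (mv 558 (both (five 4 429 429) (five 5 525 653)))))))))))))) (both (mv 429 (both (mv 428 (both (five 7 396 396) (mv 430 (both (five 5 397 398) (mv 431 (both (five 2 428 432) (five 2 427 459))))))) (mv 397 (both (five 6 396 492) (mv 526 (both (five 4 397 494) (five 4 429 558))))))) (mv 428 (both (five 7 428 557) (mv 396 (both (five 4 364 364) (five 4 396 492))))))))) (both (mv 462 (both (mv 463 (both (mv 496 (both (five 0 460 495) (mv 464 (both (five 0 461 497) (mv 433 (both (five 1 429 432) (mv 465 (both (five 1 430 434) (five 5 432 560))))))))) (mv 428 (both (five 3 427 427) (mv 492 (both (five 2 459 491) (five 4 428 557))))))) (both (mv 459 (both (mv 426 (both (five 3 426 427) (mv 458 (both (five 3 425 425) (mv 490 (both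 (five 2 457 489) (five 2 458 491))))))) (mv 430 (both (five 1 427 431) (mv 493 (both (five 5 429 557) (mv 398 (both (five 6 365 366) (five 6 397 494))))))))) (both (mv 459 (both (mv 431 (both (five 1 427 430) (mv 463 (both (five 1 428 432) (mv 496 (both (five 0 460 495) (mv 464 (both (five 0 461 497) (five 7 431 560))))))))) (mv 426 (both (five 3 426 427) (mv 458 (both (five 3 425 425) (mv 490 (both (five 2 457 489) (five 2 458 491))))))))) (both (mv 557 (both (mv 428 (both (five 4 428 492) (five 7 428 493))) (both (mv 428 (both (five 4 428 492) (mv 427 (both (five 3 427 463) (mv 426 (both (five 0 425 425) (five 3 426 459))))))) (mv 430 (both (five 5 429 493) (mv 431 (both (five 1 427 459) (mv 463 (both (five 1 428 432) (mv 496 (both (five 0 460 495) (mv 464 (both (five 0 461 497) (five 7 431 560)))))))))))))) (mv 557 (both (mv 428 (both (five 4 428 492) (five 7 428 493))) (both (mv 492 (both (five 4 428 428) (mv 463 (both (five 2 459 491) (mv 431 (both (five 1 428 432) (mv 459 (both (five 1 427 430) (mv 495 (both (five 0 459 494) (five 0 460 496))))))))))) (mv 430 (both (five 5 429 493) (mv 431 (both (five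 1 427 459) (mv 463 (both (five 1 428 432) (mv 496 (both (five 0 460 495) (mv 464 (both (five 0 461 497) (five 7 431 560))))))))))))))))))) (both (mv 493 (both (mv 428 (both (five 7 428 557) (mv 396 (both (five 4 364 364) (five 7 396 429))))) (both (mv 557 (both (mv 558 (both (five 4 461 590) (mv 526 (both (five 4 429 429) (mv 559 (both (five 0 523 523) (five 3 524 560))))))) (both (mv 589 (both (five 7 460 492) (mv 620 (both (five 6 492 588) (mv 621 (both (five 6 524 652) (mv 622 (both (five 4 493 590) (five 4 525 654))))))))) (mv 589 (both (five 7 460 492) (mv 620 (both (five 6 492 588) (mv 621 (both (five 6 524 652) (mv 526 (both (five 5 493 494) (mv 558 (both (five 4 429 429) (five 5 525 653)))))))))))))) (both (mv 429 (both (mv 428 (both (five 7 396 396) (mv 430 (both (five 5 397 398) (mv 431 (both (five 2 428 432) (mv 399 (both (five 1 396 400) (mv 463 (both (five 0 428 464) (mv 427 (both (five 0 427 462) (mv 395 (both (five 3 394 394) (five 7 395 492))))))))))))))) (both (mv 526 (both (five 4 429 558) (mv 397 (both (five 4 397 494) (mv 364 (both (five 7 364 396) (mv 365 (both (five 7 332 332) (mv 366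 (both (five 5 333 334) (five 5 365 398))))))))))) (mv 397 (both (five 6 396 492) (mv 526 (both (five 4 397 494) (five 4 429 558)))))))) (mv 428 (both (five 7 428 557) (mv 396 (both (five 4 364 364) (five 4 396 492))))))))) (mv 428 (both (mv 493 (both (five 7 428 557) (mv 396 (both (five 4 364 364) (five 7 396 429))))) (both (mv 492 (both (mv 395 (both (five 7 395 427) (mv 396 (both (five 7 363 363) (five 4 396 493))))) (both (mv 397 (both (five 5 396 429) (mv 427 (both (five 7 395 395) (mv 426 (both (five 0 425 425) (mv 462 (both (five 3 426 459) (five 3 427 463))))))))) (mv 396 (both (five 4 396 493) (mv 397 (both (five 5 364 365) (five 5 396 429)))))))) (mv 492 (both (five 4 428 557) (mv 427 (both (five 7 395 395) (mv 426 (both (five 0 425 425) (mv 462 (both (five 3 426 459) (five 3 427 463)))))))))))))))))))) (both (mv 492 (both (mv 428 (both (five 4 428 557) (mv 395 (both (five 7 395 427) (mv 396 (both (five 7 363 363) (five 4 396 493))))))) (both (mv 556 (both (mv 459 (both (five 7 427 427) (mv 588 (both (five 7 459 491) (mv 589 (both (five 4 460 557) (five 4 492 621))))))) (both (mv 587 (both (five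 6 459 555) (mv 588 (both (five 6 491 619) (mv 620 (both (five 5 492 493) (mv 621 (both (five 4 492 589) (five 4 524 653))))))))) (both (mv 427 (both (five 7 427 459) (mv 429 (both (five 5 428 461) (mv 587 (both (five 6 459 555) (mv 588 (both (five 6 491 619) (mv 620 (both (five 5 492 493) (mv 491 (both (five 7 491 523) (mv 489 (both (five 0 489 490) (mv 652 (both (five 5 524 557) (mv 653 (both (five 4 524 621) (five 4 556 685))))))))))))))))))) (mv 493 (both (mv 459 (both (five 7 427 427) (mv 458 (both (five 0 457 457) (mv 494 (both (five 3 458 491) (five 3 459 495))))))) (both (mv 461 (both (five 5 428 429) (mv 557 (both (five 7 460 589) (mv 462 (both (five 5 429 430) (mv 463 (both (five 2 460 464) (five 2 459 491))))))))) (mv 427 (both (five 7 427 459) (mv 461 (both (five 5 428 429) (mv 555 (both (five 6 459 587) (mv 553 (both (five 1 521 554) (mv 557 (both (five 7 460 589) (mv 430 (both (five 5 429 462) (mv 558 (both (five 4 461 590) (mv 559 (both (five 3 523 523) (five 3 524 560)))))))))))))))))))))))) (both (mv 428 (both (mv 395 (both (five 7 395 427) (mv 396 (both (five 7 363 363) (five 4 396 493)))))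 (both (mv 427 (both (five 7 395 395) (mv 555 (both (five 6 427 523) (mv 556 (both (five 7 427 459) (five 6 459 587))))))) (mv 396 (both (five 4 396 493) (mv 523 (both (five 6 395 491) (five 6 427 555)))))))) (mv 428 (both (five 4 428 557) (mv 429 (both (five 5 396 397) (mv 555 (both (five 6 427 523) (mv 556 (both (five 5 428 461) (five 6 459 587))))))))))))) (both (mv 492 (both (mv 428 (both (five 4 428 557) (mv 395 (both (five 7 395 427) (mv 396 (both (five 7 363 363) (five 4 396 493))))))) (both (mv 428 (both (mv 395 (both (five 7 395 427) (mv 396 (both (five 7 363 363) (five 4 396 493))))) (both (mv 427 (both (five 7 395 395) (mv 555 (both (five 6 427 523) (mv 556 (both (five 7 427 459) (five 6 459 587))))))) (mv 396 (both (five 4 396 493) (mv 523 (both (five 6 395 491) (five 6 427 555)))))))) (both (mv 556 (both (mv 555 (both (five 6 459 587) (mv 554 (both (five 1 521 553) (mv 526 (both (five 2 522 523) (five 1 522 557))))))) (both (mv 587 (both (five 6 459 555) (mv 588 (both (five 6 491 619) (mv 620 (both (five 5 492 493) (mv 621 (both (five 4 492 589) (five 4 524 653))))))))) (mv 459 (both (five 7 427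 427) (mv 588 (both (five 7 459 491) (mv 589 (both (five 4 460 557) (five 4 492 621)))))))))) (both (mv 428 (both (five 4 428 557) (mv 427 (both (five 7 395 395) (mv 555 (both (five 6 427 523) (mv 556 (both (five 7 427 459) (five 6 459 587))))))))) (mv 428 (both (five 4 428 557) (mv 396 (both (five 4 396 493) (mv 523 (both (five 6 395 491) (five 6 427 555)))))))))))) (both (mv 492 (both (mv 428 (both (five 4 428 557) (mv 395 (both (five 7 395 427) (mv 396 (both (five 7 363 363) (five 4 396 493))))))) (both (mv 556 (both (mv 555 (both (five 6 459 587) (mv 554 (both (five 1 521 553) (mv 526 (both (five 2 522 523) (five 1 522 557))))))) (both (mv 587 (both (five 6 459 555) (mv 588 (both (five 6 491 619) (mv 620 (both (five 5 492 493) (mv 621 (both (five 4 492 589) (five 4 524 653))))))))) (mv 427 (both (five 7 427 459) (mv 461 (both (five 5 428 429) (mv 493 (both (five 5 460 588) (mv 557 (both (five 7 460 589) (mv 430 (both (five 5 429 462) (mv 558 (both (five 4 461 590) (mv 559 (both (five 3 523 523) (five 3 524 560)))))))))))))))))) (both (mv 428 (both (mv 395 (both (five 7 395 427) (mv 396 (both (five 7 363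 363) (five 4 396 493))))) (mv 429 (both (five 5 396 397) (mv 555 (both (five 6 427 523) (mv 556 (both (five 5 428 461) (five 6 459 587))))))))) (mv 428 (both (five 4 428 557) (mv 429 (both (five 5 396 397) (mv 555 (both (five 6 427 523) (mv 556 (both (five 5 428 461) (five 6 459 587))))))))))))) (both (mv 492 (both (mv 428 (both (five 4 428 557) (mv 395 (both (five 7 395 427) (mv 396 (both (five 7 363 363) (five 4 396 493))))))) (both (mv 556 (both (mv 555 (both (five 6 459 587) (mv 554 (both (five 1 521 553) (mv 526 (both (five 2 522 523) (five 1 522 557))))))) (both (mv 427 (both (five 7 427 459) (mv 461 (both (five 5 428 429) (mv 588 (both (five 5 460 493) (mv 619 (both (five 6 491 587) (mv 620 (both (five 6 523 651) (mv 652 (both (five 5 524 557) (mv 653 (both (five 4 524 621) (five 4 556 685))))))))))))))) (mv 429 (both (five 5 428 461) (mv 459 (both (five 7 427 427) (mv 491 (both (five 7 459 588) (mv 490 (both (five 0 489 489) (mv 526 (both (five 0 490 493) (five 3 490 523)))))))))))))) (both (mv 428 (both (mv 395 (both (five 7 395 427) (mv 396 (both (five 7 363 363) (five 4 396 493))))) (both (mv 427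 (both (five 7 395 395) (mv 555 (both (five 6 427 523) (mv 556 (both (five 7 427 459) (five 6 459 587))))))) (mv 396 (both (five 4 396 493) (mv 523 (both (five 6 395 491) (five 6 427 555)))))))) (mv 428 (both (five 4 428 557) (mv 429 (both (five 5 396 397) (mv 555 (both (five 6 427 523) (mv 556 (both (five 5 428 461) (five 6 459 587))))))))))))) (both (mv 492 (both (mv 428 (both (five 4 428 557) (mv 396 (both (five 4 396 493) (mv 397 (both (five 5 364 365) (five 5 396 429))))))) (both (mv 556 (both (mv 555 (both (five 6 459 587) (mv 554 (both (five 1 521 553) (mv 526 (both (five 2 522 523) (five 1 522 557))))))) (both (mv 461 (both (five 5 428 429) (mv 588 (both (five 5 460 493) (mv 619 (both (five 6 491 587) (mv 620 (both (five 6 523 651) (mv 621 (both (five 4 492 589) (five 4 524 653))))))))))) (mv 461 (both (five 5 428 429) (mv 588 (both (five 5 460 493) (mv 621 (both (five 4 492 589) (mv 620 (both (five 4 524 653) (mv 523 (both (five 7 491 491) (mv 555 (both (five 7 523 652) (mv 554 (both (five 2 522 526) (five 1 521 553)))))))))))))))))) (both (mv 428 (both (mv 396 (both (five 4 396 493) (mv 397 (both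 (five 5 364 365) (five 5 396 429))))) (both (mv 429 (both (five 5 396 397) (mv 555 (both (five 6 427 523) (mv 556 (both (five 5 428 461) (five 6 459 587))))))) (mv 396 (both (five 4 396 493) (mv 523 (both (five 6 395 491) (five 6 427 555)))))))) (both (mv 428 (both (five 4 428 557) (mv 429 (both (five 5 396 397) (mv 555 (both (five 6 427 523) (mv 556 (both (five 5 428 461) (five 6 459 587))))))))) (mv 428 (both (five 4 428 557) (mv 396 (both (five 4 396 493) (mv 523 (both (five 6 395 491) (five 6 427 555)))))))))))) (mv 492 (both (mv 428 (both (five 4 428 557) (mv 395 (both (five 7 395 427) (mv 396 (both (five 7 363 363) (five 4 396 493))))))) (both (mv 556 (both (mv 555 (both (five 6 459 587) (mv 554 (both (five 1 521 553) (mv 526 (both (five 2 522 523) (five 1 522 557))))))) (both (mv 459 (both (five 7 427 427) (mv 555 (both (five 6 459 587) (mv 554 (both (five 1 521 553) (mv 523 (both (five 2 522 526) (mv 491 (both (five 6 458 586) (mv 458 (both (five 7 426 426) (mv 457 (both (five 0 456 456) (five 0 457 493))))))))))))))) (both (mv 493 (both (mv 459 (both (five 7 427 427) (mv 458 (both (five 0 457 457)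 (mv 494 (both (five 3 458 491) (five 3 459 495))))))) (both (mv 461 (both (five 5 428 429) (mv 557 (both (five 7 460 589) (mv 462 (both (five 5 429 430) (mv 463 (both (five 2 460 464) (five 2 459 491))))))))) (mv 427 (both (five 7 427 459) (mv 461 (both (five 5 428 429) (mv 557 (both (five 7 460 589) (mv 430 (both (five 5 429 462) (mv 558 (both (five 4 461 590) (mv 559 (both (five 3 523 523) (five 3 524 560)))))))))))))))) (mv 427 (both (five 7 427 459) (mv 429 (both (five 5 428 461) (mv 555 (both (five 6 459 587) (mv 554 (both (five 1 521 553) (mv 557 (both (five 1 522 526) (five 4 460 589))))))))))))))) (both (mv 428 (both (mv 395 (both (five 7 395 427) (mv 396 (both (five 7 363 363) (five 4 396 493))))) (both (mv 427 (both (five 7 395 395) (mv 555 (both (five 6 427 523) (mv 556 (both (five 7 427 459) (five 6 459 587))))))) (mv 396 (both (five 4 396 493) (mv 523 (both (five 6 395 491) (five 6 427 555)))))))) (mv 428 (both (five 4 428 557) (mv 429 (both (five 5 396 397) (mv 555 (both (five 6 427 523) (mv 556 (both (five 5 428 461) (five 6 459 587)))))))))))))))))))))))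

theorem L4 : W (S 1043449244339852676677248921460371769024954165621782422227958445796202563876443719922629065380541092356549039331505090421642542175956929859511252300249488687104) (S 160526608463777972919128755401989397598192572334715089989394084763583862185197226831006303175422249892202770142527927715731582089206313528872478016128634218307583902004945366604205108058816301572354046164992) :=
  check_sound (Env.cons L0 (Env.cons L1 (Env.cons L2 (Env.cons L3 Env.nil)))) (x := 460) (t := tL4) (by decide +kernel)

def tL5 : T :=
  (both (ref 0) (both (ref 1) (both (mv 492 (both (mv 428 (both (mv 395 (both (five 7 395 427) (mv 396 (both (five 7 363 363) (five 4 396 493))))) (both (mv 427 (both (five 7 395 395) (mv 426 (both (mv 425 (both (five 0 425 461) (mv 392 (both (five 3 392 393) (mv 424 (both (five 3 391 391) (five 0 424 459))))))) (both (mv 429 (both (five 5 396 397) (mv 458 (both (five 2 425 457) (mv 430 (both (five 2 426 459) (mv 399 (both (five 1 395 398) (mv 431 (both (five 1 396 400) (mv 463 (both (five 0 427 462) (five 0 428 464))))))))))))) (mv 397 (both (five 5 396 429) (mv 425 (both (five 0 425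 461) (mv 392 (both (five 3 392 393) (mv 424 (both (five 3 391 391) (mv 456 (both (five 2 423 455) (five 2 424 457)))))))))))))))) (mv 396 (both (five 4 396 493) (mv 397 (both (five 5 364 365) (five 5 396 429)))))))) (both (mv 429 (both (mv 397 (both (five 5 396 428) (mv 461 (both (five 6 364 365) (five 5 428 556))))) (both (mv 556 (both (five 5 428 461) (mv 459 (both (five 7 427 427) (mv 587 (both (five 6 459 555) (mv 588 (both (five 7 459 491) (five 6 491 619))))))))) (both (mv 428 (both (five 5 396 397) (mv 459 (both (mv 430 (both (five 2 427 431) (mv 458 (both (five 1 425 457) (five 1 426 461))))) (both (mv 395 (both (five 7 395 427) (mv 396 (both (five 7 363 363) (mv 364 (both (five 6 363 491) (mv 332 (both (five 4 332 461) (mv 333 (both (five 5 300 301) (five 5 332 365))))))))))) (mv 427 (both (five 7 395 395) (mv 430 (both (five 2 427 431) (five 2 426 458)))))))))) (mv 428 (both (five 5 396 397) (mv 427 (both (five 7 395 395) (mv 459 (both (five 7 427 556) (mv 430 (both (five 2 427 431) (five 2 426 458))))))))))))) (both (mv 428 (both (mv 395 (both (five 7 395 427) (mv 396 (both (five 7 363 363) (five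 4 396 493))))) (both (mv 395 (both (five 7 395 427) (mv 429 (both (five 5 396 397) (mv 556 (both (five 5 428 461) (mv 587 (both (five 6 459 555) (mv 588 (both (five 6 491 619) (mv 620 (both (five 5 492 493) (mv 621 (both (five 4 492 589) (five 4 524 653))))))))))))))) (both (mv 395 (both (five 7 395 427) (mv 396 (both (five 7 363 363) (mv 397 (both (five 5 364 365) (five 5 396 429))))))) (mv 396 (both (five 4 396 493) (mv 397 (both (five 5 364 365) (five 5 396 429))))))))) (both (mv 556 (both (mv 459 (both (five 7 427 427) (mv 587 (both (five 6 459 555) (mv 588 (both (five 7 459 491) (five 6 491 619))))))) (both (mv 587 (both (five 6 459 555) (mv 588 (both (five 6 491 619) (mv 620 (both (five 5 492 493) (mv 621 (both (five 4 492 589) (five 4 524 653))))))))) (mv 428 (both (mv 396 (both (five 4 396 493) (mv 363 (both (five 7 363 395) (mv 364 (both (five 7 331 331) (mv 365 (both (five 5 332 333) (five 5 364 397))))))))) (both (mv 427 (both (five 7 395 395) (five 7 427 459))) (mv 396 (both (five 4 396 493) (mv 365 (both (five 5 364 397) (mv 364 (both (five 5 332 333) (mv 459 (both (five 7 427 427) (five 6 363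 491))))))))))))))) (both (mv 491 (both (mv 556 (both (mv 587 (both (five 6 459 555) (mv 588 (both (five 6 491 619) (mv 620 (both (five 5 492 493) (mv 621 (both (five 4 492 589) (five 4 524 653))))))))) (both (mv 429 (both (five 5 428 461) (mv 428 (both (five 5 396 397) (mv 396 (both (five 4 396 493) (mv 363 (both (five 7 363 395) (mv 364 (both (five 7 331 331) (five 6 363 459))))))))))) (mv 429 (both (five 5 428 461) (mv 397 (both (five 5 396 428) (mv 587 (both (five 6 459 555) (mv 588 (both (five 7 459 459) (five 6 491 619)))))))))))) (both (mv 461 (both (mv 429 (both (five 5 428 556) (mv 397 (both (five 6 364 365) (five 5 396 428))))) (mv 462 (both (five 2 459 463) (mv 490 (both (five 2 458 459) (five 1 457 489))))))) (both (mv 490 (both (five 0 489 489) (mv 493 (both (five 0 490 526) (mv 396 (both (five 4 396 428) (mv 458 (both (five 3 457 457) (mv 459 (both (five 3 458 494) (mv 522 (both (five 2 489 521) (mv 554 (both (five 5 458 586) (mv 553 (both (five 6 457 585) (mv 555 (both (five 1 521 556) (five 4 458 587))))))))))))))))))) (both (mv 490 (both (five 0 489 489) (mv 493 (both (five 0 490 526) (mv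 396 (both (five 4 396 428) (mv 457 (both (five 3 457 458) (mv 462 (both (five 1 458 461) (mv 494 (both (five 1 459 463) (mv 495 (both (five 3 459 459) (five 2 492 496))))))))))))))) (mv 490 (both (five 0 489 489) (mv 493 (both (five 0 490 526) (mv 461 (both (five 1 458 462) (mv 429 (both (five 6 396 397) (five 5 428 556)))))))))))))) (mv 556 (both (mv 459 (both (five 7 427 427) (mv 587 (both (five 6 459 555) (mv 588 (both (five 7 459 491) (five 6 491 619))))))) (both (mv 587 (both (five 6 459 555) (mv 588 (both (five 6 491 619) (mv 620 (both (five 5 492 493) (mv 621 (both (five 4 492 589) (five 4 524 653))))))))) (mv 491 (both (mv 461 (both (five 5 428 429) (mv 462 (both (five 2 459 463) (mv 490 (both (five 0 489 489) (five 1 458 493))))))) (both (mv 459 (both (five 7 427 427) (mv 490 (both (five 0 489 489) (mv 493 (both (five 0 490 526) (mv 458 (both (five 3 457 457) (five 3 458 494))))))))) (both (mv 459 (both (five 7 427 427) (mv 461 (both (five 5 428 429) (mv 462 (both (five 2 459 463) (mv 430 (both (five 1 427 431) (mv 494 (both (five 0 459 495) (mv 493 (both (five 6 397 398) (five 0 458 458)))))))))))))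 (mv 459 (both (five 7 427 427) (mv 461 (both (five 5 428 429) (mv 462 (both (five 2 459 463) (five 2 458 490)))))))))))))))))))) (both (mv 492 (both (mv 429 (both (mv 397 (both (five 5 396 428) (mv 461 (both (five 6 364 365) (five 5 428 556))))) (both (mv 556 (both (five 5 428 461) (mv 459 (both (five 7 427 427) (mv 587 (both (five 6 459 555) (mv 588 (both (five 7 459 491) (five 6 491 619))))))))) (both (mv 428 (both (five 5 396 397) (mv 459 (both (mv 430 (both (five 2 427 431) (mv 458 (both (five 1 425 457) (five 1 426 461))))) (both (mv 395 (both (five 7 395 427) (mv 396 (both (five 7 363 363) (mv 364 (both (five 6 363 491) (mv 332 (both (five 4 332 461) (mv 333 (both (five 5 300 301) (five 5 332 365))))))))))) (mv 427 (both (five 7 395 395) (mv 430 (both (five 2 427 431) (five 2 426 458)))))))))) (mv 428 (both (five 5 396 397) (mv 427 (both (five 7 395 395) (mv 459 (both (five 7 427 556) (mv 430 (both (five 2 427 431) (five 2 426 458))))))))))))) (both (mv 556 (both (mv 459 (both (five 7 427 427) (mv 588 (both (five 7 459 491) (mv 589 (both (five 4 460 557) (five 4 492 621))))))) (both (mv 459 (both (five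 7 427 427) (mv 587 (both (five 6 459 555) (mv 588 (both (five 7 459 491) (five 6 491 619))))))) (mv 555 (both (five 6 459 587) (mv 554 (both (five 1 521 553) (mv 557 (both (five 1 522 526) (five 4 460 589)))))))))) (both (mv 428 (both (five 4 428 557) (mv 427 (both (five 7 395 395) (mv 426 (both (mv 425 (both (five 0 425 461) (mv 392 (both (five 3 392 393) (mv 424 (both (five 3 391 391) (five 0 424 459))))))) (both (mv 429 (both (five 5 396 397) (mv 458 (both (five 2 425 457) (mv 430 (both (five 2 426 459) (mv 399 (both (five 1 395 398) (mv 431 (both (five 1 396 400) (mv 463 (both (five 0 427 462) (five 0 428 464))))))))))))) (mv 397 (both (five 5 396 429) (mv 425 (both (five 0 425 461) (mv 392 (both (five 3 392 393) (mv 424 (both (five 3 391 391) (mv 456 (both (five 2 423 455) (five 2 424 457)))))))))))))))))) (mv 557 (both (five 4 428 428) (mv 589 (both (five 4 460 556) (five 7 492 621))))))))) (both (mv 461 (both (mv 428 (both (mv 493 (both (five 7 428 557) (mv 396 (both (five 4 364 364) (five 7 396 429))))) (both (mv 492 (both (mv 395 (both (five 7 395 427) (mv 396 (both (five 7 363 363) (five 4 396 493)))))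 (both (mv 397 (both (five 5 396 429) (mv 427 (both (five 7 395 395) (mv 426 (both (five 0 425 425) (mv 462 (both (five 3 426 459) (five 3 427 463))))))))) (mv 396 (both (five 4 396 493) (mv 397 (both (five 5 364 365) (five 5 396 429)))))))) (mv 492 (both (five 4 428 557) (mv 427 (both (five 7 395 395) (mv 426 (both (five 0 425 425) (mv 462 (both (five 3 426 459) (five 3 427 463)))))))))))) (both (ref 2) (both (mv 459 (both (mv 462 (both (mv 426 (both (five 3 426 427) (mv 458 (both (five 3 425 425) (mv 490 (both (five 2 457 489) (five 2 458 491))))))) (mv 431 (both (five 1 427 430) (mv 463 (both (five 1 428 432) (mv 496 (both (five 0 460 495) (mv 464 (both (five 0 461 497) (five 7 431 560))))))))))) (both (mv 458 (both (mv 425 (both (five 3 425 426) (mv 457 (both (five 3 424 424) (mv 489 (both (five 2 456 488) (five 2 457 490))))))) (mv 429 (both (five 1 426 430) (mv 493 (both (five 0 458 494) (mv 397 (both (five 6 396 492) (mv 364 (both (five 7 364 396) (mv 365 (both (five 7 332 332) (mv 366 (both (five 5 333 334) (five 5 365 398))))))))))))))) (both (mv 462 (both (mv 430 (both (five 1 427 431) (mv 493 (both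 (five 5 429 557) (mv 398 (both (five 6 365 366) (five 6 397 494))))))) (mv 491 (both (five 2 458 490) (mv 463 (both (five 2 459 492) (mv 496 (both (five 0 460 495) (mv 464 (both (five 0 461 497) (mv 433 (both (five 1 429 432) (mv 465 (both (five 1 430 434) (five 5 432 560))))))))))))))) (both (mv 462 (both (mv 426 (both (five 3 426 427) (mv 430 (both (five 1 427 431) (mv 458 (both (five 3 425 425) (five 1 426 429))))))) (both (mv 426 (both (five 3 426 427) (mv 425 (both (five 3 425 458) (mv 495 (both (five 0 459 494) (mv 463 (both (five 0 460 496) (mv 492 (both (five 2 459 491) (mv 493 (both (five 2 460 464) (mv 429 (both (five 6 396 397) (mv 557 (both (five 7 460 589) (mv 558 (both (five 4 429 526) (five 4 461 590))))))))))))))))))) (mv 430 (both (five 1 427 431) (mv 493 (both (five 5 429 557) (mv 398 (both (five 6 365 366) (five 6 397 494)))))))))) (mv 462 (both (mv 426 (both (five 3 426 427) (mv 458 (both (five 3 425 425) (mv 490 (both (five 2 457 489) (five 2 458 491))))))) (both (mv 426 (both (five 3 426 427) (mv 458 (both (five 3 425 425) (mv 494 (both (five 0 458 493) (five 0 459 495))))))) (mv 491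 (both (five 2 458 490) (mv 463 (both (five 2 459 492) (mv 496 (both (five 0 460 495) (mv 464 (both (five 0 461 497) (mv 433 (both (five 1 429 432) (mv 465 (both (five 1 430 434) (five 5 432 560))))))))))))))))))))) (both (mv 493 (both (mv 428 (both (five 7 428 557) (mv 396 (both (five 4 364 364) (five 7 396 429))))) (both (mv 429 (both (mv 430 (both (five 5 397 398) (mv 431 (both (five 2 428 432) (mv 459 (both (five 1 426 458) (five 1 427 462))))))) (both (mv 526 (both (five 4 429 558) (mv 397 (both (five 4 397 494) (mv 364 (both (five 7 364 396) (mv 365 (both (five 7 332 332) (mv 366 (both (five 5 333 334) (five 5 365 398))))))))))) (mv 526 (both (five 4 429 558) (mv 494 (both (five 4 397 397) (mv 459 (both (five 0 458 458) (mv 495 (both (five 0 459 462) (five 3 460 496)))))))))))) (mv 557 (both (five 7 428 428) (mv 462 (both (five 5 429 430) (mv 494 (both (five 5 461 589) (mv 459 (both (five 0 458 458) (five 0 459 495)))))))))))) (both (ref 3) (both (mv 428 (both (mv 557 (both (five 4 428 492) (five 7 428 493))) (both (mv 492 (both (five 4 428 557) (mv 395 (both (five 7 395 427) (mv 396 (both (five 7 363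 363) (mv 397 (both (five 5 364 365) (five 5 396 429))))))))) (both (mv 429 (both (mv 492 (both (five 5 396 397) (mv 395 (both (five 7 395 427) (mv 396 (both (five 7 363 363) (mv 364 (both (five 4 332 332) (mv 333 (both (five 5 332 365) (mv 393 (both (five 0 393 394) (mv 430 (both (five 3 395 431) (mv 459 (both (five 1 426 458) (five 6 363 491))))))))))))))))) (both (mv 397 (both (five 5 396 492) (mv 365 (both (five 6 332 333) (mv 332 (both (five 7 332 364) (mv 366 (both (five 5 333 334) (mv 398 (both (five 5 365 493) (mv 399 (both (five 2 396 400) (mv 427 (both (five 1 394 426) (five 1 395 430))))))))))))))) (both (mv 396 (both (five 7 396 493) (mv 364 (both (five 4 332 332) (mv 331 (both (five 7 331 363) (mv 333 (both (five 5 332 365) (mv 459 (both (five 6 363 491) (mv 430 (both (five 2 427 431) (five 1 426 458))))))))))))) (both (mv 396 (both (five 7 396 493) (mv 397 (both (five 5 396 492) (mv 365 (both (five 6 332 333) (mv 366 (both (five 5 333 334) (mv 367 (both (five 2 364 368) (mv 395 (both (five 1 362 394) (five 1 363 398))))))))))))) (mv 396 (both (five 7 396 493) (mv 332 (both (five 4 332 364) (mv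 492 (both (five 5 396 397) (mv 395 (both (five 7 363 363) (five 7 395 427)))))))))))))) (mv 493 (both (five 7 428 557) (mv 396 (both (five 4 364 364) (five 7 396 429))))))))) (both (mv 462 (both (mv 463 (both (mv 496 (both (five 0 460 495) (mv 464 (both (five 0 461 497) (mv 433 (both (five 1 429 432) (mv 465 (both (five 1 430 434) (five 5 432 560))))))))) (mv 428 (both (five 3 427 427) (mv 492 (both (five 2 459 491) (five 4 428 557))))))) (both (mv 459 (both (mv 426 (both (five 3 426 427) (mv 458 (both (five 3 425 425) (mv 490 (both (five 2 457 489) (five 2 458 491))))))) (mv 430 (both (five 1 427 431) (mv 493 (both (five 5 429 557) (mv 398 (both (five 6 365 366) (five 6 397 494))))))))) (both (mv 459 (both (mv 431 (both (five 1 427 430) (mv 463 (both (five 1 428 432) (mv 496 (both (five 0 460 495) (mv 464 (both (five 0 461 497) (five 7 431 560))))))))) (mv 426 (both (five 3 426 427) (mv 458 (both (five 3 425 425) (mv 490 (both (five 2 457 489) (five 2 458 491))))))))) (both (mv 557 (both (mv 428 (both (five 4 428 492) (five 7 428 493))) (both (mv 428 (both (five 4 428 492) (mv 427 (both (five 3 427 463)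 (mv 426 (both (five 0 425 425) (five 3 426 459))))))) (mv 430 (both (five 5 429 493) (mv 431 (both (five 1 427 459) (mv 463 (both (five 1 428 432) (mv 496 (both (five 0 460 495) (mv 464 (both (five 0 461 497) (five 7 431 560)))))))))))))) (mv 557 (both (mv 428 (both (five 4 428 492) (five 7 428 493))) (both (mv 492 (both (five 4 428 428) (mv 463 (both (five 2 459 491) (mv 431 (both (five 1 428 432) (mv 459 (both (five 1 427 430) (mv 495 (both (five 0 459 494) (five 0 460 496))))))))))) (mv 430 (both (five 5 429 493) (mv 431 (both (five 1 427 459) (mv 463 (both (five 1 428 432) (mv 496 (both (five 0 460 495) (mv 464 (both (five 0 461 497) (five 7 431 560))))))))))))))))))) (mv 493 (both (mv 428 (both (five 7 428 557) (mv 396 (both (five 4 364 364) (five 7 396 429))))) (both (mv 429 (both (mv 397 (both (five 6 396 492) (mv 398 (both (five 5 365 366) (five 5 397 430))))) (both (mv 430 (both (five 5 397 398) (mv 431 (both (five 2 428 432) (mv 526 (both (five 4 429 558) (mv 557 (both (five 5 429 462) (mv 589 (both (five 7 460 492) (mv 620 (both (five 6 492 588) (mv 621 (both (five 6 524 652) (mv 622 (both (five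 4 493 590) (five 4 525 654))))))))))))))))) (both (mv 526 (both (five 4 429 558) (mv 397 (both (five 4 397 494) (mv 364 (both (five 7 364 396) (mv 365 (both (five 7 332 332) (mv 366 (both (five 5 333 334) (five 5 365 398))))))))))) (mv 397 (both (five 6 396 492) (mv 526 (both (five 4 397 494) (five 4 429 558))))))))) (both (mv 429 (both (mv 428 (both (five 7 396 396) (mv 430 (both (five 5 397 398) (mv 431 (both (five 2 428 432) (mv 399 (both (five 1 396 400) (mv 463 (both (five 0 428 464) (mv 427 (both (five 0 427 462) (mv 395 (both (five 3 394 394) (five 7 395 492))))))))))))))) (both (mv 526 (both (five 4 429 558) (mv 397 (both (five 4 397 494) (mv 364 (both (five 7 364 396) (mv 365 (both (five 7 332 332) (mv 366 (both (five 5 333 334) (five 5 365 398))))))))))) (mv 397 (both (five 6 396 492) (mv 526 (both (five 4 397 494) (five 4 429 558)))))))) (mv 557 (both (five 7 428 428) (mv 589 (both (five 7 460 492) (mv 590 (both (five 4 461 558) (five 4 493 622))))))))))))))))))) (both (mv 492 (both (mv 557 (both (five 4 428 428) (mv 589 (both (five 4 460 556) (five 7 492 621))))) (both (mv 428 (both (mv 395 (both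 (five 7 395 427) (mv 396 (both (five 7 363 363) (five 4 396 493))))) (both (mv 395 (both (five 7 395 427) (mv 429 (both (five 5 396 397) (mv 556 (both (five 5 428 461) (mv 587 (both (five 6 459 555) (mv 588 (both (five 6 491 619) (mv 620 (both (five 5 492 493) (mv 621 (both (five 4 492 589) (five 4 524 653))))))))))))))) (both (mv 395 (both (five 7 395 427) (mv 396 (both (five 7 363 363) (mv 397 (both (five 5 364 365) (five 5 396 429))))))) (mv 396 (both (five 4 396 493) (mv 397 (both (five 5 364 365) (five 5 396 429))))))))) (both (mv 556 (both (mv 555 (both (five 6 459 587) (mv 554 (both (five 1 521 553) (mv 557 (both (five 1 522 526) (five 4 460 589))))))) (both (mv 587 (both (five 6 459 555) (mv 588 (both (five 6 491 619) (mv 620 (both (five 5 492 493) (mv 621 (both (five 4 492 589) (five 4 524 653))))))))) (both (mv 461 (both (five 5 428 429) (mv 588 (both (five 5 460 493) (mv 619 (both (five 6 491 587) (mv 620 (both (five 6 523 651) (mv 652 (both (five 5 524 557) (mv 653 (both (five 4 524 621) (five 4 556 685))))))))))))) (mv 461 (both (five 5 428 429) (mv 493 (both (five 5 460 588) (mv 557 (both (five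 7 460 589) (mv 462 (both (five 5 429 430) (mv 463 (both (five 2 460 464) (five 2 459 491))))))))))))))) (mv 428 (both (five 4 428 557) (mv 395 (both (five 7 395 427) (mv 396 (both (five 7 363 363) (five 4 396 493))))))))))) (both (mv 492 (both (mv 557 (both (five 4 428 428) (mv 589 (both (five 4 460 556) (five 7 492 621))))) (both (mv 556 (both (mv 459 (both (five 7 427 427) (mv 587 (both (five 6 459 555) (mv 588 (both (five 7 459 491) (five 6 491 619))))))) (both (mv 587 (both (five 6 459 555) (mv 588 (both (five 6 491 619) (mv 620 (both (five 5 492 493) (mv 621 (both (five 4 492 589) (five 4 524 653))))))))) (mv 428 (both (mv 396 (both (five 4 396 493) (mv 363 (both (five 7 363 395) (mv 364 (both (five 7 331 331) (mv 365 (both (five 5 332 333) (five 5 364 397))))))))) (both (mv 427 (both (five 7 395 395) (five 7 427 459))) (mv 396 (both (five 4 396 493) (mv 365 (both (five 5 364 397) (mv 364 (both (five 5 332 333) (mv 459 (both (five 7 427 427) (five 6 363 491))))))))))))))) (both (mv 556 (both (mv 459 (both (five 7 427 427) (mv 588 (both (five 7 459 491) (mv 589 (both (five 4 460 557) (five 4 492 621)))))))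 (both (mv 459 (both (five 7 427 427) (mv 587 (both (five 6 459 555) (mv 588 (both (five 7 459 491) (five 6 491 619))))))) (mv 555 (both (five 6 459 587) (mv 554 (both (five 1 521 553) (mv 557 (both (five 1 522 526) (five 4 460 589)))))))))) (mv 428 (both (five 4 428 557) (mv 395 (both (five 7 395 427) (mv 396 (both (five 7 363 363) (five 4 396 493))))))))))) (both (mv 492 (both (mv 428 (both (five 4 428 557) (mv 395 (both (five 7 395 427) (mv 396 (both (five 7 363 363) (five 4 396 493))))))) (both (mv 556 (both (mv 459 (both (five 7 427 427) (mv 587 (both (five 6 459 555) (mv 588 (both (five 7 459 491) (five 6 491 619))))))) (both (mv 461 (both (five 5 428 429) (mv 588 (both (five 5 460 493) (mv 619 (both (five 6 491 587) (mv 620 (both (five 6 523 651) (mv 652 (both (five 5 524 557) (mv 653 (both (five 4 524 621) (five 4 556 685))))))))))))) (mv 491 (both (mv 461 (both (five 5 428 429) (mv 462 (both (five 2 459 463) (mv 490 (both (five 0 489 489) (five 1 458 493))))))) (both (mv 459 (both (five 7 427 427) (mv 490 (both (five 0 489 489) (mv 493 (both (five 0 490 526) (mv 458 (both (five 3 457 457) (five 3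 458 494))))))))) (both (mv 459 (both (five 7 427 427) (mv 461 (both (five 5 428 429) (mv 462 (both (five 2 459 463) (mv 430 (both (five 1 427 431) (mv 494 (both (five 0 459 495) (mv 493 (both (five 6 397 398) (five 0 458 458))))))))))))) (mv 459 (both (five 7 427 427) (mv 461 (both (five 5 428 429) (mv 462 (both (five 2 459 463) (five 2 458 490)))))))))))))) (both (mv 429 (both (mv 397 (both (five 5 396 428) (mv 461 (both (five 6 364 365) (five 5 428 556))))) (both (mv 556 (both (five 5 428 461) (mv 459 (both (five 7 427 427) (mv 587 (both (five 6 459 555) (mv 588 (both (five 7 459 491) (five 6 491 619))))))))) (both (mv 428 (both (five 5 396 397) (mv 459 (both (mv 430 (both (five 2 427 431) (mv 458 (both (five 1 425 457) (five 1 426 461))))) (both (mv 395 (both (five 7 395 427) (mv 396 (both (five 7 363 363) (mv 364 (both (five 6 363 491) (mv 332 (both (five 4 332 461) (mv 333 (both (five 5 300 301) (five 5 332 365))))))))))) (mv 427 (both (five 7 395 395) (mv 430 (both (five 2 427 431) (five 2 426 458)))))))))) (mv 428 (both (five 5 396 397) (mv 427 (both (five 7 395 395) (mv 459 (both (five 7 427 556)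 (mv 430 (both (five 2 427 431) (five 2 426 458))))))))))))) (mv 428 (both (five 4 428 557) (mv 396 (both (five 4 396 493) (mv 397 (both (five 5 364 365) (five 5 396 429))))))))))) (both (mv 492 (both (mv 557 (both (five 4 428 428) (mv 589 (both (five 4 460 556) (five 7 492 621))))) (both (mv 491 (both (mv 556 (both (mv 587 (both (five 6 459 555) (mv 588 (both (five 6 491 619) (mv 620 (both (five 5 492 493) (mv 621 (both (five 4 492 589) (five 4 524 653))))))))) (both (mv 429 (both (five 5 428 461) (mv 428 (both (five 5 396 397) (mv 396 (both (five 4 396 493) (mv 363 (both (five 7 363 395) (mv 364 (both (five 7 331 331) (five 6 363 459))))))))))) (mv 429 (both (five 5 428 461) (mv 397 (both (five 5 396 428) (mv 587 (both (five 6 459 555) (mv 588 (both (five 7 459 459) (five 6 491 619)))))))))))) (both (mv 461 (both (mv 429 (both (five 5 428 556) (mv 397 (both (five 6 364 365) (five 5 396 428))))) (mv 462 (both (five 2 459 463) (mv 490 (both (five 2 458 459) (five 1 457 489))))))) (both (mv 490 (both (five 0 489 489) (mv 493 (both (five 0 490 526) (mv 396 (both (five 4 396 428) (mv 458 (both (five 3 457 457)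 (mv 459 (both (five 3 458 494) (mv 522 (both (five 2 489 521) (mv 554 (both (five 5 458 586) (mv 553 (both (five 6 457 585) (mv 555 (both (five 1 521 556) (five 4 458 587))))))))))))))))))) (both (mv 490 (both (five 0 489 489) (mv 493 (both (five 0 490 526) (mv 396 (both (five 4 396 428) (mv 457 (both (five 3 457 458) (mv 462 (both (five 1 458 461) (mv 494 (both (five 1 459 463) (mv 495 (both (five 3 459 459) (five 2 492 496))))))))))))))) (mv 490 (both (five 0 489 489) (mv 493 (both (five 0 490 526) (mv 461 (both (five 1 458 462) (mv 429 (both (five 6 396 397) (five 5 428 556)))))))))))))) (both (mv 556 (both (mv 555 (both (five 6 459 587) (mv 554 (both (five 1 521 553) (mv 557 (both (five 1 522 526) (five 4 460 589))))))) (both (mv 587 (both (five 6 459 555) (mv 588 (both (five 6 491 619) (mv 620 (both (five 5 492 493) (mv 621 (both (five 4 492 589) (five 4 524 653))))))))) (both (mv 461 (both (five 5 428 429) (mv 588 (both (five 5 460 493) (mv 619 (both (five 6 491 587) (mv 620 (both (five 6 523 651) (mv 652 (both (five 5 524 557) (mv 653 (both (five 4 524 621) (five 4 556 685))))))))))))) (mv 461 (both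 (five 5 428 429) (mv 493 (both (five 5 460 588) (mv 557 (both (five 7 460 589) (mv 462 (both (five 5 429 430) (mv 463 (both (five 2 460 464) (five 2 459 491))))))))))))))) (mv 428 (both (five 4 428 557) (mv 396 (both (five 4 396 493) (mv 397 (both (five 5 364 365) (five 5 396 429))))))))))) (both (mv 492 (both (mv 557 (both (five 4 428 428) (mv 589 (both (five 4 460 556) (five 7 492 621))))) (both (mv 556 (both (mv 555 (both (five 6 459 587) (mv 554 (both (five 1 521 553) (mv 557 (both (five 1 522 526) (five 4 460 589))))))) (both (mv 491 (both (mv 461 (both (five 5 428 429) (mv 462 (both (five 2 459 463) (mv 490 (both (five 0 489 489) (five 1 458 493))))))) (both (mv 459 (both (five 7 427 427) (mv 490 (both (five 0 489 489) (mv 493 (both (five 0 490 526) (mv 458 (both (five 3 457 457) (five 3 458 494))))))))) (both (mv 459 (both (five 7 427 427) (mv 461 (both (five 5 428 429) (mv 462 (both (five 2 459 463) (mv 430 (both (five 1 427 431) (mv 494 (both (five 0 459 495) (mv 493 (both (five 6 397 398) (five 0 458 458))))))))))))) (mv 459 (both (five 7 427 427) (mv 461 (both (five 5 428 429) (mv 462 (both (five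 2 459 463) (five 2 458 490))))))))))) (mv 429 (both (five 5 428 461) (mv 459 (both (five 7 427 427) (mv 555 (both (five 6 459 587) (mv 554 (both (five 1 521 553) (mv 557 (both (five 4 460 589) (mv 522 (both (five 3 521 521) (mv 586 (both (five 2 553 585) (mv 490 (both (five 5 458 491) (mv 457 (both (five 7 457 489) (mv 458 (both (five 7 425 425) (five 0 457 493)))))))))))))))))))))))) (mv 428 (both (mv 395 (both (five 7 395 427) (mv 396 (both (five 7 363 363) (five 4 396 493))))) (both (mv 427 (both (five 7 395 395) (mv 426 (both (mv 425 (both (five 0 425 461) (mv 392 (both (five 3 392 393) (mv 424 (both (five 3 391 391) (five 0 424 459))))))) (both (mv 429 (both (five 5 396 397) (mv 458 (both (five 2 425 457) (mv 430 (both (five 2 426 459) (mv 399 (both (five 1 395 398) (mv 431 (both (five 1 396 400) (mv 463 (both (five 0 427 462) (five 0 428 464))))))))))))) (mv 397 (both (five 5 396 429) (mv 425 (both (five 0 425 461) (mv 392 (both (five 3 392 393) (mv 424 (both (five 3 391 391) (mv 456 (both (five 2 423 455) (five 2 424 457)))))))))))))))) (mv 396 (both (five 4 396 493) (mv 397 (both (five 5 364 365)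 (five 5 396 429))))))))))) (both (mv 492 (both (mv 557 (both (five 4 428 428) (mv 589 (both (five 4 460 556) (five 7 492 621))))) (both (mv 556 (both (mv 555 (both (five 6 459 587) (mv 554 (both (five 1 521 553) (mv 557 (both (five 1 522 526) (five 4 460 589))))))) (both (mv 587 (both (five 6 459 555) (mv 588 (both (five 6 491 619) (mv 620 (both (five 5 492 493) (mv 621 (both (five 4 492 589) (five 4 524 653))))))))) (both (mv 461 (both (five 5 428 429) (mv 588 (both (five 5 460 493) (mv 619 (both (five 6 491 587) (mv 620 (both (five 6 523 651) (mv 652 (both (five 5 524 557) (mv 653 (both (five 4 524 621) (five 4 556 685))))))))))))) (mv 427 (both (five 7 427 459) (mv 461 (both (five 5 428 429) (mv 588 (both (five 5 460 493) (mv 589 (both (five 4 460 557) (five 4 492 621))))))))))))) (both (mv 428 (both (mv 395 (both (five 7 395 427) (mv 396 (both (five 7 363 363) (five 4 396 493))))) (both (mv 397 (both (five 5 396 429) (mv 427 (both (five 7 395 395) (mv 556 (both (five 7 427 459) (mv 587 (both (five 6 459 555) (mv 588 (both (five 6 491 619) (mv 620 (both (five 5 492 493) (mv 621 (both (five 4 492 589) (five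 4 524 653))))))))))))))) (both (mv 396 (both (five 4 396 493) (mv 397 (both (five 5 364 365) (five 5 396 429))))) (mv 395 (both (five 7 395 427) (mv 396 (both (five 7 363 363) (mv 397 (both (five 5 364 365) (five 5 396 429))))))))))) (mv 428 (both (five 4 428 557) (mv 395 (both (five 7 395 427) (mv 396 (both (five 7 363 363) (five 4 396 493))))))))))) (both (mv 492 (both (mv 557 (both (five 4 428 428) (mv 589 (both (five 4 460 556) (five 7 492 621))))) (both (mv 556 (both (mv 459 (both (five 7 427 427) (mv 587 (both (five 6 459 555) (mv 588 (both (five 7 459 491) (five 6 491 619))))))) (both (mv 587 (both (five 6 459 555) (mv 588 (both (five 6 491 619) (mv 620 (both (five 5 492 493) (mv 621 (both (five 4 492 589) (five 4 524 653))))))))) (mv 491 (both (mv 461 (both (five 5 428 429) (mv 462 (both (five 2 459 463) (mv 490 (both (five 0 489 489) (five 1 458 493))))))) (both (mv 459 (both (five 7 427 427) (mv 490 (both (five 0 489 489) (mv 493 (both (five 0 490 526) (mv 458 (both (five 3 457 457) (five 3 458 494))))))))) (both (mv 459 (both (five 7 427 427) (mv 461 (both (five 5 428 429) (mv 462 (both (five 2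 459 463) (mv 430 (both (five 1 427 431) (mv 494 (both (five 0 459 495) (mv 493 (both (five 6 397 398) (five 0 458 458))))))))))))) (mv 459 (both (five 7 427 427) (mv 461 (both (five 5 428 429) (mv 462 (both (five 2 459 463) (five 2 458 490)))))))))))))) (mv 428 (both (five 4 428 557) (mv 427 (both (five 7 395 395) (mv 426 (both (mv 425 (both (five 0 425 461) (mv 392 (both (five 3 392 393) (mv 424 (both (five 3 391 391) (five 0 424 459))))))) (both (mv 429 (both (five 5 396 397) (mv 458 (both (five 2 425 457) (mv 430 (both (five 2 426 459) (mv 399 (both (five 1 395 398) (mv 431 (both (five 1 396 400) (mv 463 (both (five 0 427 462) (five 0 428 464))))))))))))) (mv 397 (both (five 5 396 429) (mv 425 (both (five 0 425 461) (mv 392 (both (five 3 392 393) (mv 424 (both (five 3 391 391) (mv 456 (both (five 2 423 455) (five 2 424 457))))))))))))))))))))) (both (mv 492 (both (mv 557 (both (five 4 428 428) (mv 589 (both (five 4 460 556) (five 7 492 621))))) (both (mv 556 (both (mv 459 (both (five 7 427 427) (mv 587 (both (five 6 459 555) (mv 588 (both (five 7 459 491) (five 6 491 619))))))) (both (mv 587 (both (five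 6 459 555) (mv 588 (both (five 6 491 619) (mv 620 (both (five 5 492 493) (mv 621 (both (five 4 492 589) (five 4 524 653))))))))) (mv 491 (both (mv 461 (both (five 5 428 429) (mv 462 (both (five 2 459 463) (mv 490 (both (five 0 489 489) (five 1 458 493))))))) (both (mv 459 (both (five 7 427 427) (mv 490 (both (five 0 489 489) (mv 493 (both (five 0 490 526) (mv 458 (both (five 3 457 457) (five 3 458 494))))))))) (both (mv 459 (both (five 7 427 427) (mv 461 (both (five 5 428 429) (mv 462 (both (five 2 459 463) (mv 430 (both (five 1 427 431) (mv 494 (both (five 0 459 495) (mv 493 (both (five 6 397 398) (five 0 458 458))))))))))))) (mv 459 (both (five 7 427 427) (mv 461 (both (five 5 428 429) (mv 462 (both (five 2 459 463) (five 2 458 490)))))))))))))) (mv 428 (both (five 4 428 557) (mv 395 (both (five 7 395 427) (mv 396 (both (five 7 363 363) (five 4 396 493)))))))))) (mv 492 (both (mv 557 (both (five 4 428 428) (mv 589 (both (five 4 460 556) (five 7 492 621))))) (both (mv 556 (both (mv 459 (both (five 7 427 427) (mv 587 (both (five 6 459 555) (mv 588 (both (five 7 459 491) (five 6 491 619))))))) (both (mv 461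 (both (five 5 428 429) (mv 588 (both (five 5 460 493) (mv 589 (both (five 4 460 557) (five 4 492 621))))))) (mv 459 (both (five 7 427 427) (mv 555 (both (five 6 459 587) (mv 554 (both (five 1 521 553) (mv 557 (both (five 4 460 589) (mv 522 (both (five 3 521 521) (mv 586 (both (five 2 553 585) (mv 490 (both (five 5 458 491) (mv 457 (both (five 7 457 489) (mv 458 (both (five 7 425 425) (five 0 457 493)))))))))))))))))))))) (both (mv 428 (both (mv 395 (both (five 7 395 427) (mv 396 (both (five 7 363 363) (five 4 396 493))))) (both (mv 397 (both (five 5 396 429) (mv 427 (both (five 7 395 395) (mv 556 (both (five 7 427 459) (mv 587 (both (five 6 459 555) (mv 588 (both (five 6 491 619) (mv 620 (both (five 5 492 493) (mv 621 (both (five 4 492 589) (five 4 524 653))))))))))))))) (both (mv 396 (both (five 4 396 493) (mv 397 (both (five 5 364 365) (five 5 396 429))))) (mv 395 (both (five 7 395 427) (mv 396 (both (five 7 363 363) (mv 397 (both (five 5 364 365) (five 5 396 429))))))))))) (mv 428 (both (five 4 428 557) (mv 395 (both (five 7 395 427) (mv 396 (both (five 7 363 363) (five 4 396 493))))))))))))))))))))))))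

theorem L5 : W (S 1043449244339852676677248921460371769024954165621782422227958445796202563876443719922629065380541092356549039331505090421642542175956929859511252300249488687104) (S 160526608463777972919128755402116030763746801856147202482496013515166867535137965899825034024841669966047924369561397809987342286165491749136044350010588710255417661180125720434514668231423003911169477967872) :=
  check_sound (Env.cons L0 (Env.cons L1 (Env.cons L2 (Env.cons L3 Env.nil)))) (x := 460) (t := tL5) (by decide +kernel)

def tL6 : T :=
  (both (mv 493 (both (mv 494 (both (mv 495 (both (five 2 492 496) (five 2 491 523))) (both (mv 495 (both (five 2 492 496) (mv 463 (both (five 1 460 464) (mv 491 (both (five 1 459 462) (mv 458 (both (five 3 458 459) (mv 490 (both (five 3 457 457) (five 0 489 489))))))))))) (mv 491 (both (mv 458 (both (five 3 458 459) (mv 490 (both (five 3 457 457) (five 0 489 489))))) (both (mv 459 (both (five 3 458 458) (mv 427 (both (five 4 395 395) (mv 523 (both (five 1 490 522) (five 4 427 556))))))) (mv 462 (both (five 1 459 463) (mv 398 (both (five 6 397 430) (mv 490 (both (five 0 489 489) (mv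 522 (both (five 2 489 521) (five 2 490 523))))))))))))))) (both (mv 461 (both (mv 429 (both (five 6 396 397) (five 6 428 556))) (mv 557 (both (mv 589 (both (five 7 492 621) (mv 590 (both (five 4 461 558) (five 4 493 622))))) (mv 462 (both (five 5 429 430) (mv 463 (both (five 2 460 464) (mv 491 (both (five 1 458 490) (five 1 459 494))))))))))) (both (mv 494 (both (mv 495 (both (five 2 492 496) (five 2 491 523))) (both (mv 495 (both (five 2 492 496) (mv 463 (both (five 1 460 464) (mv 491 (both (five 1 459 462) (mv 458 (both (five 3 458 459) (mv 490 (both (five 3 457 457) (five 0 489 489))))))))))) (mv 491 (both (mv 458 (both (five 3 458 459) (mv 462 (both (five 1 459 463) (mv 430 (both (five 6 397 398) (mv 557 (both (five 5 429 461) (five 5 461 589))))))))) (mv 490 (both (five 0 489 489) (mv 522 (both (five 2 489 521) (five 2 490 523)))))))))) (both (mv 461 (both (mv 429 (both (five 6 396 397) (five 6 428 556))) (both (mv 429 (both (five 6 396 397) (mv 396 (both (five 7 396 428) (mv 430 (both (five 5 397 398) (mv 557 (both (five 5 429 462) (mv 589 (both (five 7 492 621) (mv 590 (both (five 4 461 558) (five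 4 493 622))))))))))))) (mv 557 (both (mv 588 (both (five 6 460 556) (mv 589 (both (five 6 492 620) (mv 590 (both (five 4 461 558) (five 4 493 622))))))) (both (mv 430 (both (five 5 429 462) (mv 589 (both (five 7 492 621) (mv 590 (both (five 4 461 558) (five 4 493 622))))))) (both (mv 430 (both (five 5 429 462) (mv 556 (both (five 5 460 588) (mv 558 (both (five 4 461 590) (mv 559 (both (five 3 523 523) (five 3 524 560))))))))) (mv 430 (both (five 5 429 462) (mv 588 (both (five 5 460 556) (mv 589 (both (five 6 492 620) (five 7 492 621)))))))))))))) (mv 491 (both (mv 490 (both (five 0 489 489) (mv 458 (both (five 3 457 457) (mv 459 (both (five 3 458 494) (mv 522 (both (five 2 489 521) (mv 554 (both (five 5 458 586) (mv 553 (both (five 6 457 585) (mv 555 (both (five 1 521 556) (five 4 458 587))))))))))))))) (both (mv 523 (both (mv 494 (both (five 2 491 495) (five 2 490 522))) (both (mv 494 (both (five 2 491 495) (mv 459 (both (five 3 458 458) (mv 427 (both (five 4 427 556) (mv 394 (both (five 7 394 426) (mv 395 (both (five 7 362 362) (mv 396 (both (five 5 363 364) (five 5 395 428))))))))))))) (mv 522 (both (five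 1 489 521) (mv 553 (both (five 2 521 554) (mv 557 (both (five 0 522 558) (mv 589 (both (five 7 492 621) (mv 588 (both (five 6 492 620) (mv 556 (both (five 7 459 459) (five 5 460 461)))))))))))))))) (both (mv 490 (both (five 0 489 489) (mv 458 (both (five 3 457 457) (mv 459 (both (five 3 458 494) (mv 427 (both (five 4 395 395) (mv 556 (both (five 4 427 523) (five 7 459 588))))))))))) (both (mv 523 (both (mv 522 (both (five 1 489 521) (mv 553 (both (five 2 521 554) (mv 557 (both (five 0 522 558) (mv 589 (both (five 7 492 621) (mv 588 (both (five 6 492 620) (mv 556 (both (five 7 459 459) (five 5 460 461))))))))))))) (both (mv 490 (both (five 0 489 489) (mv 458 (both (five 3 457 457) (mv 426 (both (five 4 394 394) (mv 555 (both (five 7 426 459) (five 7 458 587))))))))) (mv 489 (both (five 0 489 490) (mv 522 (both (five 1 489 521) (mv 553 (both (five 2 521 554) (mv 557 (both (five 0 522 558) (mv 589 (both (five 7 492 621) (mv 588 (both (five 6 492 620) (mv 556 (both (five 5 460 461) (mv 587 (both (five 6 491 619) (mv 585 (both (five 1 553 586) (mv 590 (both (five 4 493 622) (mv 591 (both (five 3 555 555) (five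 3 556 592)))))))))))))))))))))))))) (both (mv 490 (both (five 0 489 489) (mv 457 (both (five 3 457 458) (mv 522 (both (five 2 489 521) (mv 523 (both (five 2 490 494) (mv 557 (both (five 0 522 558) (mv 589 (both (five 7 492 621) (mv 588 (both (five 6 492 620) (mv 556 (both (five 5 460 461) (mv 587 (both (five 6 491 619) (mv 585 (both (five 1 553 586) (mv 590 (both (five 4 493 622) (mv 591 (both (five 3 555 555) (five 3 556 592))))))))))))))))))))))))) (mv 490 (both (five 0 489 489) (mv 522 (both (five 2 489 521) (mv 523 (both (five 2 490 494) (mv 554 (both (five 2 521 553) (mv 459 (both (five 6 426 427) (five 5 458 586)))))))))))))))))))))) (both (mv 556 (both (mv 460 (both (mv 428 (both (mv 396 (both (five 4 396 493) (mv 363 (both (five 7 363 395) (mv 364 (both (five 7 331 331) (mv 365 (both (five 5 332 333) (five 5 364 397))))))))) (both (mv 427 (both (five 7 395 395) (five 7 427 459))) (mv 396 (both (five 4 396 493) (mv 365 (both (five 5 364 397) (mv 364 (both (five 5 332 333) (mv 459 (both (five 7 427 427) (five 6 363 491)))))))))))) (both (mv 429 (both (five 5 428 461) (mv 428 (both (five 5 396 397) (mv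 555 (both (five 6 427 523) (five 6 459 587))))))) (mv 491 (both (mv 461 (both (five 5 428 429) (mv 462 (both (five 2 459 463) (mv 490 (both (five 0 489 489) (five 1 458 493))))))) (both (mv 459 (both (five 7 427 427) (mv 489 (both (five 0 489 490) (mv 555 (both (five 6 459 587) (mv 554 (both (five 1 521 553) (mv 523 (both (five 6 458 586) (mv 458 (both (five 7 426 426) (mv 457 (both (five 0 456 456) (five 0 457 493))))))))))))))) (both (mv 459 (both (five 7 427 427) (mv 461 (both (five 5 428 429) (mv 462 (both (five 2 459 463) (mv 430 (both (five 1 427 431) (mv 494 (both (five 0 459 495) (mv 493 (both (five 6 397 398) (five 0 458 458))))))))))))) (mv 459 (both (five 7 427 427) (mv 461 (both (five 5 428 429) (mv 462 (both (five 2 459 463) (five 2 458 490)))))))))))))) (both (mv 460 (both (mv 427 (both (five 7 427 459) (mv 428 (both (five 7 395 395) (mv 429 (both (five 5 396 397) (five 5 428 461))))))) (both (mv 429 (both (five 5 428 461) (mv 428 (both (five 5 396 397) (mv 555 (both (five 6 427 523) (five 6 459 587))))))) (mv 459 (both (five 7 427 427) (mv 587 (both (five 6 459 555) (mv 588 (both (five 7 459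 491) (five 6 491 619)))))))))) (both (mv 588 (both (mv 620 (both (five 5 492 493) (mv 621 (both (five 4 492 589) (five 4 524 653))))) (both (mv 619 (both (five 6 491 587) (mv 620 (both (five 6 523 651) (mv 621 (both (five 4 492 589) (five 4 524 653))))))) (mv 461 (both (five 5 460 493) (mv 460 (both (five 5 428 429) (mv 587 (both (five 6 459 555) (five 6 491 619)))))))))) (both (mv 588 (both (mv 620 (both (five 5 492 493) (mv 621 (both (five 4 492 589) (five 4 524 653))))) (mv 459 (both (five 7 459 491) (mv 460 (both (five 7 427 427) (mv 587 (both (five 6 459 555) (five 6 491 619))))))))) (mv 588 (both (mv 620 (both (five 5 492 493) (mv 621 (both (five 4 492 589) (five 4 524 653))))) (both (mv 491 (both (five 7 459 459) (mv 489 (both (five 0 489 490) (mv 620 (both (five 7 491 523) (mv 621 (both (five 4 492 589) (five 4 524 653))))))))) (mv 491 (both (five 7 459 459) (mv 490 (both (five 0 489 489) (mv 493 (both (five 5 460 461) (mv 457 (both (five 3 457 458) (mv 522 (both (five 2 489 521) (mv 494 (both (five 2 490 523) (mv 463 (both (five 1 459 462) (mv 495 (both (five 1 460 464) (five 2 492 496)))))))))))))))))))))))))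 (both (mv 460 (both (mv 557 (both (five 4 428 428) (mv 589 (both (five 4 460 556) (five 7 492 621))))) (both (mv 556 (both (mv 459 (both (five 7 427 427) (mv 588 (both (five 7 459 491) (mv 589 (both (five 4 460 557) (five 4 492 621))))))) (both (mv 459 (both (five 7 427 427) (mv 587 (both (five 6 459 555) (mv 588 (both (five 7 459 491) (five 6 491 619))))))) (both (mv 429 (both (five 5 428 461) (mv 555 (both (five 6 459 587) (mv 554 (both (five 1 521 553) (mv 557 (both (five 4 460 589) (mv 522 (both (five 3 521 521) (mv 523 (both (five 0 522 558) (mv 489 (both (five 3 489 490) (mv 586 (both (five 2 553 585) (mv 618 (both (five 5 490 491) (five 5 522 650))))))))))))))))))) (mv 427 (both (five 7 427 459) (mv 429 (both (five 5 428 461) (mv 555 (both (five 6 459 587) (mv 554 (both (five 1 521 553) (mv 557 (both (five 4 460 589) (mv 522 (both (five 3 521 521) (mv 558 (both (five 0 522 523) (mv 559 (both (five 3 524 560) (mv 591 (both (five 0 555 590) (five 0 556 592))))))))))))))))))))))) (both (mv 429 (both (mv 397 (both (five 5 396 428) (mv 461 (both (five 6 364 365) (five 5 428 556))))) (both (mv 556 (both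 (five 5 428 461) (mv 459 (both (five 7 427 427) (mv 587 (both (five 6 459 555) (mv 588 (both (five 7 459 491) (five 6 491 619))))))))) (both (mv 428 (both (five 5 396 397) (mv 459 (both (mv 430 (both (five 2 427 431) (mv 458 (both (five 1 425 457) (five 1 426 461))))) (both (mv 395 (both (five 7 395 427) (mv 396 (both (five 7 363 363) (mv 364 (both (five 6 363 491) (mv 332 (both (five 4 332 461) (mv 333 (both (five 5 300 301) (five 5 332 365))))))))))) (mv 427 (both (five 7 395 395) (mv 430 (both (five 2 427 431) (five 2 426 458)))))))))) (mv 428 (both (five 5 396 397) (mv 427 (both (five 7 395 395) (mv 459 (both (five 7 427 556) (mv 430 (both (five 2 427 431) (five 2 426 458))))))))))))) (mv 428 (both (five 4 428 557) (mv 427 (both (five 7 395 395) (mv 426 (both (mv 425 (both (five 0 425 461) (mv 392 (both (five 3 392 393) (mv 424 (both (five 3 391 391) (five 0 424 459))))))) (both (mv 429 (both (five 5 396 397) (mv 458 (both (five 2 425 457) (mv 430 (both (five 2 426 459) (mv 399 (both (five 1 395 398) (mv 431 (both (five 1 396 400) (mv 463 (both (five 0 427 462) (five 0 428 464))))))))))))) (mv 397 (both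 (five 5 396 429) (mv 425 (both (five 0 425 461) (mv 392 (both (five 3 392 393) (mv 424 (both (five 3 391 391) (mv 456 (both (five 2 423 455) (five 2 424 457)))))))))))))))))))))) (both (mv 493 (both (mv 494 (both (mv 495 (both (five 2 492 496) (five 2 491 523))) (both (mv 495 (both (five 2 492 496) (mv 463 (both (five 1 460 464) (mv 491 (both (five 1 459 462) (mv 458 (both (five 3 458 459) (mv 490 (both (five 3 457 457) (five 0 489 489))))))))))) (mv 491 (both (mv 458 (both (five 3 458 459) (mv 462 (both (five 1 459 463) (mv 430 (both (five 6 397 398) (mv 557 (both (five 5 429 461) (five 5 461 589))))))))) (mv 490 (both (five 0 489 489) (mv 522 (both (five 2 489 521) (five 2 490 523)))))))))) (both (mv 494 (both (mv 495 (both (five 2 492 496) (five 2 491 523))) (both (mv 495 (both (five 2 492 496) (mv 463 (both (five 1 460 464) (mv 491 (both (five 1 459 462) (mv 458 (both (five 3 458 459) (mv 490 (both (five 3 457 457) (five 0 489 489))))))))))) (mv 491 (both (mv 458 (both (five 3 458 459) (mv 490 (both (five 3 457 457) (five 0 489 489))))) (both (mv 459 (both (five 3 458 458) (mv 427 (both (five 4 395 395)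 (mv 462 (both (five 1 459 463) (mv 398 (both (five 6 397 430) (mv 523 (both (five 2 490 522) (mv 394 (both (five 7 394 426) (mv 428 (both (five 5 395 396) (mv 555 (both (five 5 427 460) (mv 586 (both (five 6 458 554) (mv 587 (both (five 6 490 618) (five 5 491 619))))))))))))))))))))) (mv 490 (both (five 0 489 489) (mv 522 (both (five 2 489 521) (five 2 490 523))))))))))) (both (mv 557 (both (mv 460 (both (five 4 428 428) (five 7 460 589))) (both (mv 589 (both (five 7 492 621) (mv 588 (both (five 6 492 620) (mv 590 (both (five 4 493 622) (mv 461 (both (five 4 461 558) (mv 429 (both (five 6 396 397) (mv 430 (both (five 5 397 398) (five 5 429 462))))))))))))) (mv 461 (both (mv 429 (both (five 6 396 397) (mv 430 (both (five 5 397 398) (five 5 429 462))))) (both (mv 460 (both (five 7 428 428) (mv 462 (both (five 5 429 430) (mv 463 (both (five 2 460 464) (five 2 459 491))))))) (mv 428 (both (five 7 428 460) (mv 429 (both (five 7 396 396) (five 6 396 397))))))))))) (both (mv 557 (both (mv 460 (both (five 4 428 428) (five 7 460 589))) (both (mv 461 (both (mv 429 (both (five 6 396 397) (mv 430 (both (five 5 397 398)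 (five 5 429 462))))) (both (mv 460 (both (five 7 428 428) (mv 462 (both (five 5 429 430) (mv 463 (both (five 2 460 464) (mv 431 (both (five 1 428 432) (mv 495 (both (five 0 460 496) (mv 494 (both (five 3 459 459) (five 2 491 523))))))))))))) (mv 428 (both (five 7 428 460) (mv 429 (both (five 7 396 396) (five 6 396 397)))))))) (mv 589 (both (five 7 492 621) (mv 588 (both (five 6 492 620) (mv 590 (both (five 4 493 622) (mv 461 (both (five 4 461 558) (mv 429 (both (five 6 396 397) (mv 430 (both (five 5 397 398) (five 5 429 462)))))))))))))))) (mv 494 (both (mv 495 (both (five 2 492 496) (five 2 491 523))) (both (mv 495 (both (five 2 492 496) (mv 460 (both (five 3 459 459) (mv 428 (both (five 4 396 396) (five 4 428 557))))))) (mv 491 (both (mv 458 (both (five 3 458 459) (mv 490 (both (five 3 457 457) (five 0 489 489))))) (both (mv 459 (both (five 3 458 458) (mv 427 (both (five 4 395 395) (mv 523 (both (five 2 490 522) (mv 394 (both (five 7 394 426) (mv 428 (both (five 5 395 396) (mv 555 (both (five 5 427 460) (mv 586 (both (five 6 458 554) (mv 587 (both (five 6 490 618) (five 5 491 619))))))))))))))))) (mv 490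 (both (five 0 489 489) (mv 522 (both (five 2 489 521) (five 2 490 523)))))))))))))))) (both (mv 460 (both (mv 557 (both (five 4 428 428) (mv 589 (both (five 4 460 556) (five 7 492 621))))) (both (mv 556 (both (mv 459 (both (five 7 427 427) (mv 587 (both (five 6 459 555) (mv 588 (both (five 7 459 491) (five 6 491 619))))))) (both (mv 461 (both (five 5 428 429) (mv 588 (both (five 5 460 493) (mv 589 (both (five 4 460 557) (five 4 492 621))))))) (mv 459 (both (five 7 427 427) (mv 555 (both (five 6 459 587) (mv 554 (both (five 1 521 553) (mv 557 (both (five 4 460 589) (mv 522 (both (five 3 521 521) (mv 586 (both (five 2 553 585) (mv 490 (both (five 5 458 491) (mv 457 (both (five 7 457 489) (mv 458 (both (five 7 425 425) (five 0 457 493)))))))))))))))))))))) (both (mv 428 (both (mv 395 (both (five 7 395 427) (mv 396 (both (five 7 363 363) (five 4 396 493))))) (both (mv 397 (both (five 5 396 429) (mv 427 (both (five 7 395 395) (mv 556 (both (five 7 427 459) (mv 587 (both (five 6 459 555) (mv 588 (both (five 6 491 619) (mv 620 (both (five 5 492 493) (mv 621 (both (five 4 492 589) (five 4 524 653))))))))))))))) (both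 (mv 396 (both (five 4 396 493) (mv 397 (both (five 5 364 365) (five 5 396 429))))) (mv 395 (both (five 7 395 427) (mv 396 (both (five 7 363 363) (mv 397 (both (five 5 364 365) (five 5 396 429))))))))))) (mv 428 (both (five 4 428 557) (mv 395 (both (five 7 395 427) (mv 396 (both (five 7 363 363) (five 4 396 493))))))))))) (both (mv 493 (both (mv 461 (both (mv 429 (both (five 6 396 397) (five 6 428 556))) (mv 557 (both (mv 589 (both (five 7 492 621) (mv 590 (both (five 4 461 558) (five 4 493 622))))) (mv 462 (both (five 5 429 430) (mv 463 (both (five 2 460 464) (mv 491 (both (five 1 458 490) (five 1 459 494))))))))))) (both (mv 494 (both (mv 495 (both (five 2 492 496) (five 2 491 523))) (both (mv 495 (both (five 2 492 496) (mv 463 (both (five 1 460 464) (mv 491 (both (five 1 459 462) (mv 458 (both (five 3 458 459) (mv 490 (both (five 3 457 457) (five 0 489 489))))))))))) (mv 491 (both (mv 458 (both (five 3 458 459) (mv 462 (both (five 1 459 463) (mv 430 (both (five 6 397 398) (mv 557 (both (five 5 429 461) (five 5 461 589))))))))) (mv 490 (both (five 0 489 489) (mv 522 (both (five 2 489 521) (five 2 490 523))))))))))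 (both (mv 494 (both (mv 495 (both (five 2 492 496) (five 2 491 523))) (both (mv 495 (both (five 2 492 496) (mv 463 (both (five 1 460 464) (mv 491 (both (five 1 459 462) (mv 458 (both (five 3 458 459) (mv 490 (both (five 3 457 457) (five 0 489 489))))))))))) (mv 491 (both (mv 458 (both (five 3 458 459) (mv 490 (both (five 3 457 457) (five 0 489 489))))) (both (mv 459 (both (five 3 458 458) (mv 427 (both (five 4 395 395) (mv 523 (both (five 1 490 522) (five 4 427 556))))))) (mv 462 (both (five 1 459 463) (mv 398 (both (five 6 397 430) (mv 490 (both (five 0 489 489) (mv 522 (both (five 2 489 521) (five 2 490 523))))))))))))))) (mv 556 (both (mv 557 (both (mv 589 (both (five 4 460 460) (five 7 492 621))) (mv 461 (both (five 6 428 429) (mv 558 (both (five 4 461 590) (mv 559 (both (five 3 523 523) (five 3 524 560))))))))) (both (mv 588 (both (five 5 492 620) (mv 587 (both (five 6 491 619) (mv 460 (both (five 6 459 555) (mv 589 (both (five 4 460 557) (five 4 492 621))))))))) (mv 461 (both (five 6 428 429) (five 5 460 588)))))))))) (both (mv 460 (both (mv 428 (both (five 4 428 557) (mv 395 (both (five 7 395 427)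 (mv 396 (both (five 7 363 363) (five 4 396 493))))))) (both (mv 556 (both (mv 459 (both (five 7 427 427) (mv 587 (both (five 6 459 555) (mv 588 (both (five 7 459 491) (five 6 491 619))))))) (both (mv 461 (both (five 5 428 429) (mv 588 (both (five 5 460 493) (mv 619 (both (five 6 491 587) (mv 620 (both (five 6 523 651) (mv 652 (both (five 5 524 557) (mv 653 (both (five 4 524 621) (five 4 556 685))))))))))))) (both (mv 429 (both (five 5 428 461) (mv 459 (both (five 7 427 427) (mv 588 (both (five 7 459 491) (mv 620 (both (five 5 492 493) (mv 652 (both (five 5 524 557) (mv 653 (both (five 4 524 621) (five 4 556 685))))))))))))) (mv 491 (both (mv 461 (both (five 5 428 429) (mv 462 (both (five 2 459 463) (mv 490 (both (five 0 489 489) (five 1 458 493))))))) (both (mv 459 (both (five 7 427 427) (mv 489 (both (five 0 489 490) (mv 555 (both (five 6 459 587) (mv 554 (both (five 1 521 553) (mv 523 (both (five 6 458 586) (mv 458 (both (five 7 426 426) (mv 457 (both (five 0 456 456) (five 0 457 493))))))))))))))) (both (mv 459 (both (five 7 427 427) (mv 461 (both (five 5 428 429) (mv 462 (both (five 2 459 463) (mv 430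 (both (five 1 427 431) (mv 494 (both (five 0 459 495) (mv 493 (both (five 6 397 398) (five 0 458 458))))))))))))) (mv 459 (both (five 7 427 427) (mv 461 (both (five 5 428 429) (mv 462 (both (five 2 459 463) (five 2 458 490))))))))))))))) (both (mv 428 (both (mv 395 (both (five 7 395 427) (mv 396 (both (five 7 363 363) (five 4 396 493))))) (both (mv 427 (both (five 7 395 395) (mv 555 (both (five 6 427 523) (mv 556 (both (five 7 427 459) (five 6 459 587))))))) (mv 396 (both (five 4 396 493) (mv 523 (both (five 6 395 491) (five 6 427 555)))))))) (mv 428 (both (five 4 428 557) (mv 429 (both (five 5 396 397) (mv 555 (both (five 6 427 523) (mv 556 (both (five 5 428 461) (five 6 459 587))))))))))))) (both (mv 460 (both (mv 557 (both (five 4 428 428) (mv 589 (both (five 4 460 556) (five 7 492 621))))) (both (mv 556 (both (mv 459 (both (five 7 427 427) (mv 588 (both (five 7 459 491) (mv 589 (both (five 4 460 557) (five 4 492 621))))))) (both (mv 459 (both (five 7 427 427) (mv 587 (both (five 6 459 555) (mv 588 (both (five 7 459 491) (five 6 491 619))))))) (mv 555 (both (five 6 459 587) (mv 554 (both (five 1 521 553)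 (mv 557 (both (five 4 460 589) (mv 522 (both (five 3 521 521) (mv 558 (both (five 0 522 523) (mv 559 (both (five 3 524 560) (mv 591 (both (five 0 555 590) (five 0 556 592)))))))))))))))))) (both (mv 428 (both (mv 395 (both (five 7 395 427) (mv 396 (both (five 7 363 363) (five 4 396 493))))) (both (mv 427 (both (five 7 395 395) (mv 555 (both (five 6 427 523) (mv 556 (both (five 7 427 459) (five 6 459 587))))))) (mv 396 (both (five 4 396 493) (mv 523 (both (five 6 395 491) (five 6 427 555)))))))) (mv 428 (both (five 4 428 557) (mv 395 (both (five 7 395 427) (mv 396 (both (five 7 363 363) (five 4 396 493))))))))))) (both (mv 460 (both (mv 428 (both (five 4 428 557) (mv 395 (both (five 7 395 427) (mv 396 (both (five 7 363 363) (five 4 396 493))))))) (both (mv 556 (both (mv 555 (both (five 6 459 587) (mv 554 (both (five 1 521 553) (mv 557 (both (five 4 460 589) (mv 522 (both (five 3 521 521) (mv 558 (both (five 0 522 523) (mv 559 (both (five 3 524 560) (mv 591 (both (five 0 555 590) (five 0 556 592))))))))))))))) (both (mv 491 (both (mv 461 (both (five 5 428 429) (mv 462 (both (five 2 459 463) (mv 490 (both (five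 0 489 489) (five 1 458 493))))))) (both (mv 459 (both (five 7 427 427) (mv 489 (both (five 0 489 490) (mv 555 (both (five 6 459 587) (mv 554 (both (five 1 521 553) (mv 523 (both (five 6 458 586) (mv 458 (both (five 7 426 426) (mv 457 (both (five 0 456 456) (five 0 457 493))))))))))))))) (both (mv 459 (both (five 7 427 427) (mv 461 (both (five 5 428 429) (mv 462 (both (five 2 459 463) (mv 430 (both (five 1 427 431) (mv 494 (both (five 0 459 495) (mv 493 (both (five 6 397 398) (five 0 458 458))))))))))))) (mv 459 (both (five 7 427 427) (mv 461 (both (five 5 428 429) (mv 462 (both (five 2 459 463) (five 2 458 490))))))))))) (both (mv 493 (both (mv 459 (both (five 7 427 427) (mv 458 (both (five 0 457 457) (mv 494 (both (five 3 458 491) (five 3 459 495))))))) (both (mv 461 (both (five 5 428 429) (mv 557 (both (five 7 460 589) (mv 462 (both (five 5 429 430) (mv 463 (both (five 2 460 464) (five 2 459 491))))))))) (mv 427 (both (five 7 427 459) (mv 461 (both (five 5 428 429) (mv 557 (both (five 7 460 589) (mv 430 (both (five 5 429 462) (mv 558 (both (five 4 461 590) (mv 559 (both (five 3 523 523) (five 3 524 560))))))))))))))))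 (mv 459 (both (five 7 427 427) (mv 555 (both (five 6 459 587) (mv 554 (both (five 1 521 553) (mv 557 (both (five 4 460 589) (mv 522 (both (five 3 521 521) (mv 586 (both (five 2 553 585) (mv 490 (both (five 5 458 491) (mv 457 (both (five 7 457 489) (mv 458 (both (five 7 425 425) (five 0 457 493))))))))))))))))))))))) (both (mv 428 (both (mv 395 (both (five 7 395 427) (mv 396 (both (five 7 363 363) (five 4 396 493))))) (both (mv 427 (both (five 7 395 395) (mv 555 (both (five 6 427 523) (mv 556 (both (five 7 427 459) (five 6 459 587))))))) (mv 396 (both (five 4 396 493) (mv 523 (both (five 6 395 491) (five 6 427 555)))))))) (mv 428 (both (five 4 428 557) (mv 429 (both (five 5 396 397) (mv 555 (both (five 6 427 523) (mv 556 (both (five 5 428 461) (five 6 459 587))))))))))))) (both (mv 557 (both (mv 460 (both (five 4 428 428) (mv 589 (both (five 4 460 556) (five 7 492 621))))) (both (mv 493 (both (mv 461 (both (mv 429 (both (five 6 396 397) (mv 430 (both (five 5 397 398) (five 5 429 462))))) (both (mv 460 (both (five 7 428 428) (mv 462 (both (five 5 429 430) (mv 463 (both (five 2 460 464) (five 2 459 491)))))))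 (mv 428 (both (five 7 428 460) (mv 429 (both (five 7 396 396) (five 6 396 397)))))))) (both (mv 494 (both (mv 495 (both (five 2 492 496) (five 2 491 523))) (both (mv 495 (both (five 2 492 496) (mv 463 (both (five 1 460 464) (mv 491 (both (five 1 459 462) (mv 458 (both (five 3 458 459) (mv 490 (both (five 3 457 457) (five 0 489 489))))))))))) (mv 491 (both (mv 458 (both (five 3 458 459) (mv 490 (both (five 3 457 457) (five 0 489 489))))) (both (mv 459 (both (five 3 458 458) (mv 427 (both (five 4 395 395) (mv 523 (both (five 1 490 522) (five 4 427 556))))))) (mv 462 (both (five 1 459 463) (mv 398 (both (five 6 397 430) (mv 490 (both (five 0 489 489) (mv 522 (both (five 2 489 521) (five 2 490 523))))))))))))))) (mv 461 (both (mv 428 (both (five 7 428 460) (mv 429 (both (five 7 396 396) (five 6 396 397))))) (mv 556 (both (five 5 460 588) (mv 558 (both (five 4 461 590) (mv 559 (both (five 3 523 523) (five 3 524 560)))))))))))) (both (mv 589 (both (five 7 492 621) (mv 493 (both (mv 494 (both (five 5 461 462) (mv 495 (both (five 2 492 496) (five 2 491 523))))) (mv 588 (both (five 6 492 620) (mv 461 (both (five 5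 460 556) (mv 590 (both (five 4 461 558) (five 4 493 622))))))))))) (mv 460 (both (five 4 428 428) (mv 589 (both (five 7 460 493) (five 7 492 621))))))))) (mv 557 (both (mv 460 (both (five 4 428 428) (mv 589 (both (five 4 460 556) (five 7 492 621))))) (both (mv 460 (both (five 4 428 428) (mv 556 (both (mv 587 (both (five 6 459 555) (mv 588 (both (five 6 491 619) (mv 620 (both (five 5 492 493) (five 5 524 652))))))) (both (mv 461 (both (five 5 428 429) (mv 493 (both (five 5 460 588) (mv 558 (both (five 4 461 590) (mv 559 (both (five 3 523 523) (five 3 524 560))))))))) (mv 555 (both (five 6 459 587) (mv 554 (both (five 1 521 553) (mv 522 (both (five 3 521 521) (mv 558 (both (five 0 522 523) (mv 559 (both (five 3 524 560) (mv 591 (both (five 0 555 590) (five 0 556 592)))))))))))))))))) (both (mv 589 (both (five 7 492 621) (mv 493 (both (mv 494 (both (five 5 461 462) (mv 495 (both (five 2 492 496) (five 2 491 523))))) (mv 588 (both (five 6 492 620) (mv 461 (both (five 5 460 556) (mv 590 (both (five 4 461 558) (five 4 493 622))))))))))) (mv 460 (both (five 4 428 428) (mv 589 (both (five 7 460 493) (five 7 492 621)))))))))))))))))))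

theorem L6 : W (S 164755143843134633159565619177953437214466447203439329825467123020453036401543745250941431375874909319455111473395540592890927711993199451501776678986761371648) (S 160526608393698884894304969431699689209992510596102849041957998061174405869516719345776929869744040383566348712379435199130876709507943696011158506322736238367442283079582322250501069035826683163766782164992) :=
  check_sound Env.nil (x := 492) (t := tL6) (by decide +kernel)

def tL7 : T :=
  (both (mv 491 (both (mv 490 (both (five 3 490 526) (mv 489 (both (five 0 488 488) (five 0 489 492))))) (both (mv 555 (both (mv 554 (both (five 2 522 526) (mv 553 (both (five 1 520 552) (five 1 521 556))))) (both (mv 587 (both (mv 492 (both (five 5 459 460) (five 5 491 619))) (both (mv 618 (both (five 6 490 586) (mv 619 (both (five 6 522 650) (mv 620 (both (five 4 491 588) (five 4 523 652))))))) (mv 460 (both (five 5 459 492) (mv 459 (both (five 5 427 428) (mv 556 (both (five 4 427 427) (five 4 459 588)))))))))) (mv 554 (both (five 2 522 526) (mv 459 (both (five 6 458 586) (mv 426 (both (five 7 426 458) (mv 427 (both (five 7 394 394) (mv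 428 (both (five 5 395 396) (five 5 427 460)))))))))))))) (both (mv 556 (both (mv 459 (both (five 4 427 427) (mv 555 (both (mv 554 (both (five 1 521 553) (five 6 458 586))) (mv 426 (both (five 7 426 458) (mv 460 (both (five 5 427 428) (mv 492 (both (five 5 459 587) (mv 461 (both (five 5 428 429) (mv 462 (both (five 2 459 463) (five 2 458 490))))))))))))))) (both (mv 588 (both (five 7 491 620) (mv 492 (both (mv 461 (both (five 5 460 493) (mv 460 (both (five 5 428 429) (mv 587 (both (five 6 459 555) (five 6 491 619))))))) (both (mv 587 (both (five 6 491 619) (mv 460 (both (five 6 459 555) (mv 589 (both (five 4 460 557) (five 4 492 621))))))) (both (mv 461 (both (five 5 460 493) (mv 460 (both (five 5 428 429) (mv 589 (both (five 4 460 557) (five 4 492 621))))))) (mv 461 (both (five 5 460 493) (mv 490 (both (five 0 489 489) (mv 587 (both (five 6 491 619) (mv 555 (both (five 7 458 458) (mv 553 (both (five 1 521 554) (mv 586 (both (five 6 490 618) (mv 585 (both (five 3 552 552) (five 1 553 557))))))))))))))))))))) (both (mv 459 (both (five 4 427 427) (mv 588 (both (five 4 459 555) (five 7 491 620))))) (mv 459 (both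 (five 4 427 427) (mv 588 (both (five 7 459 492) (five 7 491 620))))))))) (mv 459 (both (mv 427 (both (five 4 427 556) (mv 394 (both (five 7 394 426) (mv 395 (both (five 7 362 362) (mv 396 (both (five 5 363 364) (five 5 395 428))))))))) (both (mv 526 (both (five 3 490 490) (mv 555 (both (five 2 522 554) (mv 426 (both (five 7 426 458) (mv 427 (both (five 7 394 394) (mv 428 (both (five 5 395 396) (five 5 427 460))))))))))) (both (mv 526 (both (five 3 490 490) (mv 494 (both (five 1 491 495) (mv 555 (both (five 2 522 554) (mv 426 (both (five 7 426 458) (mv 428 (both (five 5 427 460) (mv 588 (both (five 4 459 556) (mv 587 (both (five 4 491 620) (mv 618 (both (five 6 490 586) (mv 619 (both (five 6 522 650) (mv 589 (both (five 2 586 590) (mv 557 (both (five 5 493 621) (mv 462 (both (five 6 429 430) (five 5 461 493))))))))))))))))))))))))) (both (mv 427 (both (five 4 427 556) (mv 396 (both (five 5 395 428) (mv 395 (both (five 5 363 364) (mv 362 (both (five 7 362 394) (mv 363 (both (five 7 330 330) (mv 490 (both (five 6 362 458) (five 3 490 526))))))))))))) (mv 427 (both (five 4 427 556) (mv 394 (both (five 7 394 426)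 (mv 395 (both (five 7 362 362) (mv 364 (both (five 5 363 396) (mv 363 (both (five 5 331 332) (mv 490 (both (five 6 362 458) (five 3 490 526)))))))))))))))))))))) (both (mv 522 (both (mv 489 (both (five 3 489 490) (mv 521 (both (five 3 488 488) (mv 553 (both (five 2 520 552) (five 2 521 554))))))) (both (mv 493 (both (five 1 490 494) (mv 521 (both (five 1 489 492) (mv 553 (both (five 2 520 552) (five 2 521 554))))))) (both (mv 489 (both (five 3 489 490) (mv 493 (both (five 1 490 494) (mv 521 (both (five 3 488 488) (five 1 489 492))))))) (mv 490 (both (five 3 489 489) (mv 458 (both (mv 426 (both (five 4 426 555) (mv 393 (both (five 7 393 425) (mv 394 (both (five 7 361 361) (five 4 394 491))))))) (both (mv 493 (both (five 1 490 494) (mv 554 (both (five 2 521 553) (mv 459 (both (five 5 426 427) (mv 586 (both (five 5 458 491) (mv 617 (both (five 6 489 585) (mv 618 (both (five 6 521 649) (mv 619 (both (five 4 490 587) (five 4 522 651))))))))))))))) (mv 426 (both (five 4 426 555) (mv 393 (both (five 7 393 425) (mv 361 (both (five 7 361 394) (mv 427 (both (five 5 394 395) (mv 554 (both (five 5 426 459) (five 2 521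 553)))))))))))))))))))) (both (mv 522 (both (mv 489 (both (five 3 489 490) (mv 521 (both (five 3 488 488) (mv 553 (both (five 2 520 552) (five 2 521 554))))))) (both (mv 521 (both (mv 553 (both (five 2 520 552) (five 2 521 554))) (both (mv 488 (both (five 3 488 489) (mv 520 (both (five 3 487 487) (mv 552 (both (five 2 519 551) (five 2 520 553))))))) (mv 488 (both (five 3 488 489) (mv 520 (both (five 3 487 487) (mv 555 (both (five 0 520 556) (mv 554 (both (five 0 519 519) (five 2 522 526)))))))))))) (both (mv 521 (both (mv 488 (both (five 3 488 489) (mv 520 (both (five 3 487 487) (mv 552 (both (five 2 519 551) (five 2 520 553))))))) (both (mv 552 (both (five 2 520 553) (mv 520 (both (five 2 519 551) (mv 487 (both (five 3 487 488) (mv 491 (both (five 1 488 492) (mv 490 (both (five 1 487 519) (five 3 490 526))))))))))) (both (mv 490 (both (five 3 489 489) (mv 491 (both (five 3 490 526) (mv 520 (both (five 1 488 492) (five 1 487 519))))))) (mv 489 (both (five 3 488 488) (five 3 489 490))))))) (both (mv 554 (both (five 2 521 553) (mv 491 (both (mv 526 (both (five 3 490 490) (five 2 522 555))) (both (mv 459 (both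 (five 6 426 427) (mv 586 (both (five 5 458 490) (five 6 458 555))))) (both (mv 459 (both (five 6 426 427) (mv 490 (both (five 3 490 526) (five 5 458 586))))) (mv 459 (both (five 6 426 427) (mv 555 (both (five 2 522 526) (five 6 458 586))))))))))) (mv 490 (both (five 3 489 489) (mv 555 (both (mv 526 (both (five 3 490 491) (five 2 522 554))) (both (mv 458 (both (five 4 426 426) (mv 587 (both (five 7 458 491) (five 4 458 554))))) (both (mv 458 (both (five 4 426 426) (mv 554 (both (five 2 522 526) (five 4 458 587))))) (mv 426 (both (five 4 426 458) (mv 491 (both (five 3 490 526) (mv 587 (both (five 7 490 619) (mv 460 (both (five 5 459 492) (mv 459 (both (five 5 427 428) (mv 427 (both (five 7 394 394) (five 6 394 395)))))))))))))))))))))))) (both (mv 522 (both (mv 493 (both (five 1 490 494) (mv 521 (both (five 1 489 492) (mv 553 (both (five 2 520 552) (five 2 521 554))))))) (both (mv 489 (both (five 3 489 490) (mv 493 (both (five 1 490 494) (mv 521 (both (five 3 488 488) (five 1 489 492))))))) (mv 490 (both (five 3 489 489) (mv 491 (both (five 3 490 526) (mv 554 (both (five 2 521 553) (mv 459 (both (five 6 426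 427) (five 5 458 586)))))))))))) (both (mv 522 (both (mv 489 (both (five 3 489 490) (mv 521 (both (five 3 488 488) (mv 553 (both (five 2 520 552) (five 2 521 554))))))) (both (mv 490 (both (five 3 489 489) (mv 494 (both (five 1 490 493) (mv 526 (both (five 3 490 491) (five 1 491 495))))))) (mv 494 (both (five 1 490 493) (mv 526 (both (five 1 491 495) (mv 554 (both (five 2 521 553) (five 2 522 555)))))))))) (both (mv 522 (both (mv 493 (both (five 1 490 494) (mv 521 (both (five 1 489 492) (mv 488 (both (five 3 488 489) (mv 520 (both (five 3 487 487) (mv 552 (both (five 2 519 551) (five 2 520 553))))))))))) (both (mv 521 (both (mv 553 (both (five 2 520 552) (five 2 521 554))) (both (mv 488 (both (five 3 488 489) (mv 520 (both (five 3 487 487) (mv 552 (both (five 2 519 551) (five 2 520 553))))))) (mv 488 (both (five 3 488 489) (mv 520 (both (five 3 487 487) (mv 555 (both (five 0 520 556) (mv 554 (both (five 0 519 519) (five 2 522 526)))))))))))) (both (mv 493 (both (five 1 490 494) (mv 521 (both (five 1 489 492) (mv 488 (both (five 3 488 489) (mv 520 (both (five 3 487 487) (mv 555 (both (five 0 520 556) (mv 554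 (both (five 0 519 519) (five 2 522 526))))))))))))) (mv 494 (both (five 1 490 493) (mv 526 (both (five 1 491 495) (mv 554 (both (five 2 521 553) (five 2 522 555))))))))))) (both (mv 556 (both (mv 493 (both (mv 461 (both (five 6 428 429) (mv 588 (both (five 5 460 492) (five 5 492 620))))) (both (mv 494 (both (five 1 490 522) (mv 495 (both (five 2 491 492) (five 2 492 496))))) (mv 429 (both (five 6 428 461) (mv 494 (both (five 1 490 522) (mv 495 (both (five 2 492 496) (five 1 491 526)))))))))) (both (mv 522 (both (mv 521 (both (mv 488 (both (five 3 488 489) (mv 520 (both (five 3 487 487) (mv 552 (both (five 2 519 551) (five 2 520 553))))))) (both (mv 552 (both (five 2 520 553) (mv 520 (both (five 2 519 551) (mv 487 (both (five 3 487 488) (mv 491 (both (five 1 488 492) (mv 490 (both (five 1 487 519) (five 3 490 526))))))))))) (both (mv 490 (both (five 3 489 489) (mv 491 (both (five 3 490 526) (mv 520 (both (five 1 488 492) (five 1 487 519))))))) (mv 489 (both (five 3 488 488) (five 3 489 490))))))) (both (mv 493 (both (five 1 490 494) (mv 429 (both (five 6 428 461) (mv 521 (both (five 1 489 492) (mv 520 (both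 (five 0 520 555) (mv 552 (both (five 2 519 551) (five 2 520 553))))))))))) (both (mv 490 (both (five 3 489 489) (mv 491 (both (five 3 490 526) (mv 427 (both (five 4 427 459) (mv 493 (both (five 1 490 494) (mv 461 (both (five 6 428 429) (mv 492 (both (five 1 458 462) (mv 458 (both (five 3 457 457) (mv 426 (both (five 4 394 394) (five 5 394 395))))))))))))))))) (mv 489 (both (five 3 489 490) (mv 493 (both (five 1 490 494) (mv 429 (both (five 6 428 461) (mv 521 (both (five 3 488 488) (mv 520 (both (five 0 520 555) (mv 552 (both (five 2 519 551) (five 2 520 553))))))))))))))))) (both (mv 491 (both (mv 490 (both (five 3 490 526) (mv 489 (both (five 0 488 488) (five 3 489 522))))) (mv 459 (both (five 4 427 427) (mv 588 (both (five 4 459 555) (five 7 491 620))))))) (both (mv 491 (both (mv 490 (both (five 3 490 526) (mv 489 (both (five 0 488 488) (five 0 489 492))))) (mv 459 (both (five 4 427 427) (mv 588 (both (five 4 459 555) (five 7 491 620))))))) (mv 493 (both (mv 461 (both (five 6 428 429) (mv 588 (both (five 5 460 492) (five 5 492 620))))) (both (mv 494 (both (five 1 490 522) (mv 495 (both (five 2 491 492)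 (five 2 492 496))))) (mv 429 (both (five 6 428 461) (mv 522 (both (five 1 490 494) (mv 489 (both (five 3 489 490) (mv 521 (both (five 3 488 488) (mv 520 (both (five 0 520 555) (mv 552 (both (five 2 519 551) (five 2 520 553))))))))))))))))))))) (both (mv 522 (both (mv 493 (both (five 1 490 494) (mv 521 (both (five 1 489 492) (mv 553 (both (five 2 520 552) (five 2 521 554))))))) (both (mv 493 (both (five 1 490 494) (mv 521 (both (five 1 489 492) (mv 552 (both (five 2 520 553) (mv 520 (both (five 2 519 551) (mv 556 (both (five 0 520 555) (five 0 521 557))))))))))) (both (mv 554 (both (five 2 521 553) (mv 491 (both (mv 526 (both (five 3 490 490) (five 2 522 555))) (both (mv 459 (both (five 6 426 427) (mv 586 (both (five 5 458 490) (five 6 458 555))))) (both (mv 459 (both (five 6 426 427) (mv 490 (both (five 3 490 526) (five 5 458 586))))) (mv 459 (both (five 6 426 427) (mv 555 (both (five 2 522 526) (five 6 458 586))))))))))) (mv 493 (both (five 1 490 494) (mv 521 (both (five 1 489 492) (mv 556 (both (five 0 521 557) (mv 429 (both (five 6 428 461) (mv 555 (both (five 0 520 520) (mv 526 (both (five 2 522 554)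 (mv 491 (both (five 3 490 490) (mv 459 (both (five 4 427 427) (five 4 459 588))))))))))))))))))))) (mv 522 (both (mv 489 (both (five 3 489 490) (mv 493 (both (five 1 490 494) (mv 521 (both (five 3 488 488) (five 1 489 492))))))) (both (mv 493 (both (five 1 490 494) (mv 521 (both (five 1 489 492) (mv 488 (both (five 3 488 489) (mv 520 (both (five 3 487 487) (mv 555 (both (five 0 520 556) (mv 554 (both (five 0 519 519) (five 2 522 526))))))))))))) (both (mv 490 (both (five 3 489 489) (mv 555 (both (mv 526 (both (five 3 490 491) (five 2 522 554))) (both (mv 458 (both (five 4 426 426) (mv 587 (both (five 7 458 491) (five 4 458 554))))) (both (mv 458 (both (five 4 426 426) (mv 554 (both (five 2 522 526) (five 4 458 587))))) (mv 426 (both (five 4 426 458) (mv 491 (both (five 3 490 526) (mv 587 (both (five 7 490 619) (mv 460 (both (five 5 459 492) (mv 459 (both (five 5 427 428) (mv 427 (both (five 7 394 394) (five 6 394 395))))))))))))))))))) (both (mv 493 (both (five 1 490 494) (mv 521 (both (five 1 489 492) (mv 556 (both (five 0 521 557) (mv 429 (both (five 6 428 461) (mv 555 (both (five 0 520 520) (mv 526 (both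 (five 2 522 554) (mv 491 (both (five 3 490 490) (mv 459 (both (five 4 427 427) (five 4 459 588))))))))))))))))) (mv 490 (both (five 3 489 489) (mv 494 (both (five 1 490 493) (mv 526 (both (five 3 490 491) (five 1 491 495))))))))))))))))))))

theorem L7 : W (S 164755143843134633159565619177953437214466447203439329825467123020453036401543745250941431375874909319455111473395540592890927711993199451501776678986761371648) (S 35039543960198903731117542143433104840754409832135041795094741018893508792765933731670380375458156766596631409661364365229592686149565093711472893991122403110889677509541158935057124314275276390400) :=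
  check_sound Env.nil (x := 523) (t := tL7) (by decide +kernel)

def tL8 : T :=
  (both (mv 589 (both (mv 492 (both (five 7 492 621) (mv 460 (both (five 4 428 428) (five 4 460 556))))) (both (mv 493 (both (mv 462 (both (five 5 461 494) (mv 461 (both (five 5 429 430) (mv 590 (both (five 4 461 558) (five 4 493 622))))))) (both (mv 460 (both (five 7 460 492) (mv 461 (both (five 7 428 428) (mv 556 (both (five 6 428 429) (five 6 460 588))))))) (mv 492 (both (five 7 460 460) (mv 494 (both (five 5 461 462) (mv 495 (both (five 2 492 496) (five 2 491 523)))))))))) (both (mv 493 (both (mv 620 (both (five 6 492 588) (mv 621 (both (five 6 524 652) (mv 622 (both (five 4 493 590) (five 4 525 654))))))) (both (mv 462 (both (five 5 461 494) (mv 461 (both (five 5 429 430) (mv 590 (both (five 4 461 558) (five 4 493 622))))))) (mv 462 (both (five 5 461 494) (mv 461 (both (five 5 429 430) (mv 556 (both (five 6 428 429) (five 6 460 588)))))))))) (mv 492 (both (five 7 492 621) (mv 460 (both (five 4 428 428) (five 7 460 493))))))))) (both (mv 558 (both (mv 523 (both (five 0 522 522) (mv 559 (both (five 0 523 526) (five 3 524 560)))))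 (both (mv 559 (both (five 3 524 560) (mv 556 (both (mv 591 (both (five 0 556 592) (mv 555 (both (five 0 555 590) (mv 554 (both (five 1 522 526) (five 1 521 553))))))) (mv 588 (both (five 2 555 587) (mv 620 (both (five 5 492 493) (five 5 524 652))))))))) (both (mv 555 (both (mv 523 (both (five 0 522 522) (mv 526 (both (five 2 522 554) (mv 494 (both (five 1 491 495) (mv 462 (both (five 6 429 430) (mv 431 (both (five 5 430 463) (mv 461 (both (five 7 429 429) (mv 590 (both (five 7 461 493) (mv 622 (both (five 7 525 654) (mv 623 (both (five 4 494 591) (five 4 526 655))))))))))))))))))) (both (mv 556 (both (mv 590 (both (five 0 555 591) (mv 493 (both (five 4 461 461) (mv 622 (both (five 7 493 526) (five 7 525 654))))))) (mv 587 (both (five 2 554 586) (mv 492 (both (five 6 459 460) (mv 619 (both (five 6 491 588) (five 5 523 651))))))))) (mv 556 (both (mv 522 (both (five 0 522 523) (mv 554 (both (five 3 521 521) (five 1 521 553))))) (mv 587 (both (five 2 554 586) (mv 492 (both (five 6 459 460) (mv 619 (both (five 6 491 588) (five 5 523 651)))))))))))) (mv 523 (both (five 0 522 522) (mv 559 (both (five 3 523 556)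 (five 3 524 560))))))))) (both (mv 589 (both (mv 493 (both (mv 460 (both (five 7 460 492) (mv 461 (both (five 7 428 428) (mv 590 (both (five 4 461 558) (five 4 493 622))))))) (mv 494 (both (five 5 461 462) (mv 495 (both (five 2 492 496) (mv 523 (both (five 1 490 522) (five 1 491 526))))))))) (both (mv 493 (both (mv 620 (both (five 6 492 588) (mv 621 (both (five 6 524 652) (mv 622 (both (five 4 493 590) (five 4 525 654))))))) (mv 494 (both (five 5 461 462) (mv 495 (both (five 2 492 496) (mv 523 (both (five 1 490 522) (five 1 491 526))))))))) (both (mv 621 (both (five 7 492 492) (mv 494 (both (five 5 493 526) (mv 652 (both (five 6 524 620) (mv 653 (both (five 6 556 684) (mv 654 (both (five 4 525 622) (five 4 557 686))))))))))) (mv 492 (both (five 7 492 621) (mv 460 (both (five 4 428 428) (five 7 460 493))))))))) (both (mv 558 (both (mv 523 (both (five 0 522 522) (mv 559 (both (five 0 523 526) (five 3 524 560))))) (both (mv 559 (both (five 3 524 560) (mv 556 (both (mv 587 (both (five 2 555 588) (mv 555 (both (five 2 554 586) (mv 554 (both (five 1 522 526) (five 1 521 553))))))) (both (mv 591 (both (five 0 556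 592) (mv 555 (both (five 0 555 590) (mv 554 (both (five 1 522 526) (five 1 521 553))))))) (mv 588 (both (five 2 555 587) (mv 591 (both (five 0 556 592) (mv 620 (both (five 5 524 652) (mv 619 (both (five 6 523 651) (mv 589 (both (five 2 587 590) (mv 492 (both (five 4 460 460) (five 7 492 621)))))))))))))))))) (both (mv 555 (both (mv 556 (both (mv 554 (both (five 1 522 526) (five 1 521 553))) (mv 587 (both (five 2 554 586) (mv 492 (both (five 6 459 460) (mv 619 (both (five 6 491 588) (five 5 523 651))))))))) (both (mv 523 (both (five 0 522 522) (mv 526 (both (five 2 522 554) (mv 494 (both (five 1 491 495) (mv 462 (both (five 6 429 430) (five 6 461 589))))))))) (both (mv 587 (both (mv 523 (both (five 0 522 522) (mv 619 (both (five 5 491 492) (mv 650 (both (five 6 522 618) (mv 651 (both (five 6 554 682) (mv 652 (both (five 4 523 620) (five 4 555 684))))))))))) (both (mv 556 (both (five 2 554 586) (mv 492 (both (five 6 459 460) (mv 619 (both (five 6 491 588) (five 5 523 651))))))) (both (mv 523 (both (five 0 522 522) (mv 556 (both (five 2 554 586) (mv 590 (both (five 0 555 591) (mv 619 (both (five 5 523 651) (mv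 618 (both (five 6 522 650) (mv 588 (both (five 2 586 589) (mv 616 (both (five 1 584 617) (mv 620 (both (five 7 523 652) (mv 621 (both (five 4 524 653) (mv 622 (both (five 3 587 623) (five 7 525 654))))))))))))))))))))) (mv 522 (both (five 0 522 523) (mv 586 (both (five 2 554 556) (mv 589 (both (five 1 554 588) (mv 621 (both (five 7 492 492) (mv 494 (both (five 5 493 526) (mv 652 (both (five 6 524 620) (mv 653 (both (five 6 556 684) (mv 654 (both (five 4 525 622) (five 4 557 686))))))))))))))))))))) (mv 556 (both (mv 522 (both (five 0 522 523) (mv 554 (both (five 3 521 521) (five 1 521 553))))) (mv 587 (both (five 2 554 586) (mv 492 (both (five 6 459 460) (mv 619 (both (five 6 491 588) (five 5 523 651))))))))))))) (mv 523 (both (five 0 522 522) (mv 559 (both (five 3 523 556) (five 3 524 560))))))))) (both (mv 589 (both (mv 492 (both (five 7 492 621) (mv 460 (both (five 4 428 428) (five 4 460 556))))) (both (mv 493 (both (mv 462 (both (five 5 461 494) (mv 461 (both (five 5 429 430) (mv 590 (both (five 4 461 558) (five 4 493 622))))))) (both (mv 460 (both (five 7 460 492) (mv 461 (both (five 7 428 428) (mv 556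 (both (five 6 428 429) (five 6 460 588))))))) (mv 492 (both (five 7 460 460) (mv 494 (both (five 5 461 462) (mv 495 (both (five 2 492 496) (mv 463 (both (five 1 460 464) (mv 588 (both (five 6 492 620) (mv 590 (both (five 4 493 622) (mv 558 (both (five 5 462 526) (mv 559 (both (five 2 556 560) (five 1 555 587)))))))))))))))))))) (both (mv 621 (both (mv 494 (both (five 5 493 526) (mv 493 (both (five 5 461 462) (mv 622 (both (five 4 493 590) (five 4 525 654))))))) (both (mv 653 (both (five 7 524 556) (mv 654 (both (five 4 525 622) (five 4 557 686))))) (mv 494 (both (five 5 493 526) (mv 462 (both (five 5 461 493) (mv 652 (both (five 6 524 620) (mv 653 (both (five 7 524 556) (five 6 556 684)))))))))))) (mv 492 (both (five 7 492 621) (mv 460 (both (five 4 428 428) (five 7 460 493))))))))) (both (mv 493 (both (mv 589 (both (mv 620 (both (five 6 492 588) (mv 621 (both (five 6 524 652) (mv 622 (both (five 4 493 590) (five 4 525 654))))))) (mv 494 (both (five 5 461 462) (mv 495 (both (five 2 492 496) (mv 523 (both (five 1 490 522) (five 1 491 526))))))))) (both (mv 461 (both (mv 558 (both (five 4 461 590) (mv 526 (both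 (five 4 429 429) (mv 559 (both (five 0 523 523) (five 3 524 560))))))) (both (mv 428 (both (five 7 428 460) (mv 429 (both (five 7 396 396) (five 6 428 556))))) (mv 428 (both (five 7 428 460) (mv 430 (both (five 5 429 462) (mv 558 (both (five 4 461 590) (mv 523 (both (five 0 522 522) (mv 559 (both (five 0 523 526) (five 3 524 560)))))))))))))) (both (mv 461 (both (mv 556 (both (five 6 428 429) (five 6 460 588))) (mv 462 (both (five 5 429 430) (mv 494 (both (five 5 461 589) (mv 495 (both (five 2 492 496) (mv 523 (both (five 1 490 522) (five 1 491 526))))))))))) (both (mv 461 (both (mv 556 (both (five 6 428 429) (five 6 460 588))) (both (mv 558 (both (five 4 461 590) (mv 526 (both (five 4 429 429) (mv 559 (both (five 0 523 523) (five 3 524 560))))))) (mv 588 (both (five 6 460 556) (mv 589 (both (five 6 492 620) (mv 590 (both (five 4 461 558) (five 4 493 622)))))))))) (mv 461 (both (mv 556 (both (five 6 428 429) (five 6 460 588))) (both (mv 428 (both (five 7 428 460) (mv 396 (both (five 7 396 429) (mv 462 (both (five 5 429 430) (mv 589 (both (five 5 461 494) (mv 590 (both (five 4 461 558) (five 4 493 622)))))))))))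 (mv 588 (both (five 6 460 556) (mv 589 (both (five 6 492 620) (mv 590 (both (five 4 461 558) (five 4 493 622))))))))))))))) (both (mv 589 (both (mv 621 (both (five 7 492 492) (mv 494 (both (five 5 493 526) (mv 652 (both (five 6 524 620) (mv 653 (both (five 6 556 684) (mv 654 (both (five 4 525 622) (five 4 557 686))))))))))) (both (mv 493 (both (mv 588 (both (five 6 492 620) (mv 461 (both (five 6 460 556) (mv 590 (both (five 4 461 558) (five 4 493 622))))))) (mv 494 (both (five 5 461 462) (mv 495 (both (five 2 492 496) (mv 523 (both (five 1 490 522) (five 1 491 526))))))))) (both (mv 621 (both (five 7 492 492) (mv 653 (both (five 7 524 556) (mv 654 (both (five 4 525 622) (five 4 557 686))))))) (mv 621 (both (five 7 492 492) (mv 652 (both (five 6 524 620) (mv 653 (both (five 7 524 556) (five 6 556 684))))))))))) (both (mv 589 (both (mv 493 (both (mv 460 (both (five 7 460 492) (mv 461 (both (five 7 428 428) (mv 590 (both (five 4 461 558) (five 4 493 622))))))) (mv 494 (both (five 5 461 462) (mv 495 (both (five 2 492 496) (mv 523 (both (five 1 490 522) (five 1 491 526))))))))) (both (mv 621 (both (mv 494 (both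 (five 5 493 526) (mv 493 (both (five 5 461 462) (mv 622 (both (five 4 493 590) (five 4 525 654))))))) (both (mv 653 (both (five 7 524 556) (mv 654 (both (five 4 525 622) (five 4 557 686))))) (mv 494 (both (five 5 493 526) (mv 462 (both (five 5 461 493) (mv 652 (both (five 6 524 620) (mv 653 (both (five 7 524 556) (five 6 556 684)))))))))))) (mv 492 (both (five 7 492 621) (mv 460 (both (five 4 428 428) (five 4 460 556)))))))) (both (mv 492 (both (mv 460 (both (five 4 428 428) (mv 589 (both (five 4 460 556) (five 7 492 621))))) (both (mv 589 (both (five 7 492 621) (mv 493 (both (mv 494 (both (five 5 461 462) (mv 495 (both (five 2 492 496) (five 2 491 523))))) (mv 590 (both (five 4 493 622) (mv 461 (both (five 4 461 558) (mv 429 (both (five 6 396 397) (five 6 428 556))))))))))) (both (mv 460 (both (five 4 428 428) (mv 556 (both (mv 555 (both (five 6 459 587) (mv 554 (both (five 1 522 526) (five 1 521 553))))) (mv 461 (both (five 5 428 429) (mv 493 (both (five 5 460 588) (mv 558 (both (five 4 461 590) (mv 559 (both (five 3 523 523) (five 3 524 560))))))))))))) (mv 460 (both (five 4 428 428) (mv 589 (both (five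 7 460 493) (five 7 492 621))))))))) (both (mv 589 (both (mv 492 (both (five 7 492 621) (mv 460 (both (five 4 428 428) (five 4 460 556))))) (both (mv 493 (both (mv 494 (both (five 5 461 462) (mv 495 (both (five 2 492 496) (mv 523 (both (five 1 490 522) (five 1 491 526))))))) (mv 460 (both (five 7 460 492) (mv 461 (both (five 7 428 428) (mv 556 (both (five 6 428 429) (five 6 460 588))))))))) (both (mv 621 (both (mv 653 (both (five 7 524 556) (mv 654 (both (five 4 525 622) (five 4 557 686))))) (mv 494 (both (five 5 493 526) (mv 493 (both (five 5 461 462) (mv 620 (both (five 6 492 588) (five 6 524 652))))))))) (mv 492 (both (five 7 492 621) (mv 460 (both (five 4 428 428) (five 7 460 493))))))))) (both (mv 558 (both (mv 523 (both (five 0 522 522) (mv 559 (both (five 0 523 526) (five 3 524 560))))) (both (mv 559 (both (five 3 524 560) (mv 556 (both (mv 591 (both (five 0 556 592) (mv 555 (both (five 0 555 590) (mv 554 (both (five 1 522 526) (five 1 521 553))))))) (mv 588 (both (five 2 555 587) (mv 620 (both (five 5 492 493) (five 5 524 652))))))))) (both (mv 493 (both (mv 461 (both (five 4 461 590) (mv 556 (both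 (five 6 428 429) (five 6 460 588))))) (both (mv 589 (both (mv 492 (both (five 7 492 621) (mv 460 (both (five 4 428 428) (five 4 460 556))))) (both (mv 620 (both (five 6 492 588) (mv 621 (both (five 6 524 652) (mv 622 (both (five 4 493 590) (five 4 525 654))))))) (mv 460 (both (five 7 460 492) (mv 522 (both (five 0 522 523) (mv 588 (both (five 6 492 620) (mv 587 (both (five 1 554 586) (mv 590 (both (five 4 493 622) (mv 555 (both (five 3 554 554) (mv 556 (both (five 0 555 591) (mv 619 (both (five 2 586 618) (five 5 523 651)))))))))))))))))))) (both (mv 461 (both (mv 556 (both (five 6 428 429) (five 6 460 588))) (both (mv 429 (both (five 4 429 526) (mv 397 (both (five 6 396 492) (mv 398 (both (five 5 365 366) (five 5 397 430))))))) (mv 588 (both (five 6 460 556) (mv 589 (both (five 6 492 620) (mv 586 (both (five 1 554 587) (mv 621 (both (five 7 492 492) (mv 653 (both (five 5 525 526) (mv 654 (both (five 4 525 622) (five 4 557 686)))))))))))))))) (mv 461 (both (five 4 461 590) (mv 429 (both (five 4 429 526) (mv 397 (both (five 6 396 492) (mv 398 (both (five 5 365 366) (five 5 397 430))))))))))))) (mv 523 (both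 (five 0 522 522) (mv 559 (both (five 3 523 556) (five 3 524 560))))))))) (mv 492 (both (mv 460 (both (five 4 428 428) (mv 589 (both (five 4 460 556) (five 7 492 621))))) (both (mv 589 (both (five 7 492 621) (mv 493 (both (mv 494 (both (five 5 461 462) (mv 495 (both (five 2 492 496) (five 2 491 523))))) (mv 588 (both (five 6 492 620) (mv 556 (both (five 5 460 461) (mv 587 (both (five 6 491 619) (mv 558 (both (five 2 555 559) (mv 555 (both (five 2 554 586) (mv 554 (both (five 1 522 526) (five 1 521 553))))))))))))))))) (both (mv 460 (both (five 4 428 428) (mv 556 (both (mv 555 (both (five 6 459 587) (mv 554 (both (five 1 522 526) (five 1 521 553))))) (mv 461 (both (five 5 428 429) (mv 493 (both (five 5 460 588) (mv 558 (both (five 4 461 590) (mv 559 (both (five 3 523 523) (five 3 524 560))))))))))))) (mv 460 (both (five 4 428 428) (mv 589 (both (five 7 460 493) (five 7 492 621))))))))))))))))))))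

theorem L8 : W (S 164755143843134633159565619177953437214466447203439329825467123020453036401543745250941431375874909319455111473395540592890927711993199451501776678986761371648) (S 421382347143834136249894734446264631312726858426971807340597528403182405490362444065334779006301892618221126414871868059334219278269469355639100199671464698969748962335595249532535440429383048441965188218880) :=
  check_sound Env.nil (x := 557) (t := tL8) (by decide +kernel)

def tL9 : T :=
  (both (mv 494 (both (mv 495 (both (five 2 492 496) (mv 523 (both (five 1 490 522) (five 1 491 526))))) (both (mv 495 (both (five 2 492 496) (mv 492 (both (mv 460 (both (five 3 459 459) (mv 428 (both (five 4 396 396) (five 4 428 557))))) (both (mv 463 (both (five 1 460 464) (mv 491 (both (five 1 459 462) (mv 458 (both (five 3 458 459) (mv 490 (both (five 3 457 457) (five 0 489 489))))))))) (mv 463 (both (five 1 460 464) (mv 462 (both (five 1 459 491) (mv 430 (both (five 6 397 398) (mv 557 (both (five 6 429 526) (five 5 461 589)))))))))))))) (both (mv 491 (both (mv 492 (both (mv 490 (both (five 0 489 489) (five 0 490 526))) (both (mv 458 (both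 (five 3 458 459) (mv 462 (both (five 1 459 463) (mv 430 (both (five 6 397 398) (mv 557 (both (five 6 429 526) (five 5 461 589))))))))) (mv 458 (both (five 3 458 459) (mv 490 (both (five 3 457 457) (five 0 489 489)))))))) (both (mv 523 (both (five 1 490 522) (mv 526 (both (five 3 490 490) (mv 558 (both (five 0 523 559) (mv 590 (both (five 7 493 622) (mv 589 (both (five 6 493 621) (mv 462 (both (five 5 461 557) (mv 430 (both (five 6 397 398) (mv 431 (both (five 5 398 399) (five 5 430 463))))))))))))))))) (both (mv 492 (both (mv 459 (both (five 3 458 458) (mv 427 (both (five 4 395 395) (mv 523 (both (five 1 490 522) (five 4 427 556))))))) (mv 462 (both (five 1 459 463) (mv 430 (both (five 6 397 398) (mv 557 (both (five 6 429 526) (five 5 461 589))))))))) (mv 492 (both (mv 458 (both (five 3 458 459) (mv 490 (both (five 3 457 457) (five 0 489 489))))) (both (mv 490 (both (five 0 489 489) (mv 522 (both (five 2 489 521) (five 2 490 523))))) (mv 459 (both (five 3 458 458) (mv 427 (both (five 4 395 395) (mv 523 (both (five 1 490 522) (five 4 427 556)))))))))))))) (mv 495 (both (five 2 492 496) (mv 523 (both (five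 2 491 492) (five 1 490 522))))))))) (both (mv 461 (both (mv 429 (both (five 6 428 556) (mv 397 (both (five 6 396 492) (mv 398 (both (five 5 365 366) (five 5 397 430))))))) (both (mv 557 (both (mv 588 (both (five 6 460 556) (mv 589 (both (five 6 492 620) (mv 590 (both (five 4 461 558) (five 4 493 622))))))) (both (mv 558 (both (five 4 461 590) (mv 523 (both (five 0 522 522) (mv 559 (both (five 0 523 526) (five 3 524 560))))))) (mv 430 (both (five 5 429 462) (mv 460 (both (five 7 428 428) (mv 492 (both (five 7 460 589) (mv 556 (both (five 5 460 588) (mv 459 (both (five 7 427 427) (mv 458 (both (five 0 457 457) (mv 426 (both (five 3 425 425) (mv 490 (both (five 2 457 489) (mv 491 (both (five 0 490 526) (mv 394 (both (five 4 362 362) (five 4 394 523)))))))))))))))))))))))) (both (mv 429 (both (mv 430 (both (five 5 397 398) (mv 557 (both (five 5 429 462) (mv 558 (both (five 4 429 526) (five 4 461 590))))))) (mv 396 (both (five 7 396 428) (mv 397 (both (five 7 364 364) (five 6 396 492))))))) (both (mv 429 (both (five 6 428 556) (mv 396 (both (five 7 396 428) (mv 397 (both (five 7 364 364) (mv 398 (both (five 5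 365 366) (five 5 397 430))))))))) (mv 429 (both (five 6 428 556) (mv 396 (both (five 7 396 428) (mv 397 (both (five 7 364 364) (five 6 396 492)))))))))))) (both (mv 461 (both (mv 557 (both (mv 588 (both (five 6 460 556) (mv 589 (both (five 6 492 620) (mv 590 (both (five 4 461 558) (five 4 493 622))))))) (both (mv 558 (both (five 4 461 590) (mv 523 (both (five 0 522 522) (mv 559 (both (five 0 523 526) (five 3 524 560))))))) (mv 462 (both (five 5 429 430) (mv 494 (both (five 5 461 589) (mv 495 (both (five 2 492 496) (mv 523 (both (five 1 490 522) (five 1 491 526)))))))))))) (both (mv 557 (both (mv 558 (both (five 4 461 590) (mv 526 (both (five 4 429 429) (mv 559 (both (five 0 523 523) (five 3 524 560))))))) (both (mv 462 (both (five 5 429 430) (mv 494 (both (five 5 461 589) (mv 495 (both (five 2 492 496) (mv 523 (both (five 1 490 522) (five 1 491 526))))))))) (mv 462 (both (five 5 429 430) (mv 589 (both (five 5 461 494) (mv 590 (both (five 4 461 558) (five 4 493 622)))))))))) (both (mv 429 (both (five 6 428 556) (mv 396 (both (five 7 396 428) (mv 397 (both (five 7 364 364) (mv 398 (both (five 5 365 366) (five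 5 397 430))))))))) (mv 429 (both (five 6 428 556) (mv 396 (both (five 7 396 428) (mv 397 (both (five 7 364 364) (mv 526 (both (five 4 397 494) (five 4 429 558))))))))))))) (both (mv 494 (both (mv 495 (both (five 2 492 496) (mv 523 (both (five 1 490 522) (five 1 491 526))))) (both (mv 495 (both (five 2 492 496) (mv 492 (both (mv 463 (both (five 1 460 464) (mv 491 (both (five 1 459 462) (mv 458 (both (five 3 458 459) (mv 490 (both (five 3 457 457) (five 0 489 489))))))))) (both (mv 463 (both (five 1 460 464) (mv 491 (both (five 1 459 462) (mv 490 (both (five 0 489 489) (five 0 490 526))))))) (both (mv 459 (both (five 3 459 460) (mv 491 (both (five 3 458 458) (mv 490 (both (five 0 489 489) (five 0 490 526))))))) (mv 460 (both (five 3 459 459) (mv 428 (both (five 4 396 396) (mv 395 (both (five 7 395 427) (mv 429 (both (five 5 396 397) (mv 461 (both (five 5 428 556) (mv 430 (both (five 5 397 398) (mv 431 (both (five 2 428 432) (mv 399 (both (five 1 396 400) (mv 463 (both (five 1 460 464) (five 6 398 526))))))))))))))))))))))))) (both (mv 491 (both (mv 492 (both (mv 490 (both (five 0 489 489) (five 0 490 526)))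 (both (mv 459 (both (five 3 458 458) (mv 395 (both (five 4 395 427) (mv 462 (both (five 1 459 463) (mv 430 (both (five 6 397 398) (mv 556 (both (five 7 459 588) (mv 429 (both (five 6 428 461) (mv 397 (both (five 7 397 526) (mv 333 (both (five 4 333 365) (mv 396 (both (five 0 394 394) (mv 428 (both (five 3 395 431) (five 4 396 460))))))))))))))))))))) (mv 458 (both (five 3 458 459) (mv 490 (both (five 3 457 457) (five 0 489 489)))))))) (both (mv 523 (both (five 1 490 522) (mv 526 (both (five 3 490 490) (mv 558 (both (five 0 523 559) (mv 461 (both (five 4 429 429) (five 7 461 590))))))))) (both (mv 459 (both (mv 523 (both (five 1 490 522) (mv 427 (both (five 4 427 556) (mv 394 (both (five 7 394 426) (mv 395 (both (five 7 362 362) (mv 396 (both (five 5 363 364) (five 5 395 428))))))))))) (both (mv 492 (both (five 3 458 458) (mv 427 (both (five 4 395 395) (mv 462 (both (five 1 459 463) (mv 398 (both (five 6 397 430) (mv 523 (both (five 2 490 522) (mv 426 (both (five 7 394 394) (mv 428 (both (five 5 395 396) (mv 429 (both (five 1 394 397) (five 0 426 461))))))))))))))))) (mv 458 (both (five 3 458 492) (mv 461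 (both (five 0 458 460) (mv 429 (both (five 6 428 556) (mv 526 (both (five 4 397 397) (five 4 429 558)))))))))))) (mv 492 (both (mv 458 (both (five 3 458 459) (mv 490 (both (five 3 457 457) (five 0 489 489))))) (both (mv 490 (both (five 0 489 489) (mv 522 (both (five 2 489 521) (five 2 490 523))))) (mv 459 (both (five 3 458 458) (mv 427 (both (five 4 395 395) (mv 523 (both (five 1 490 522) (five 4 427 556)))))))))))))) (mv 495 (both (five 2 492 496) (mv 523 (both (five 2 491 492) (five 1 490 522))))))))) (both (mv 461 (both (mv 557 (both (mv 462 (both (five 5 429 430) (mv 589 (both (five 5 461 494) (mv 590 (both (five 4 461 558) (five 4 493 622))))))) (both (mv 460 (both (five 7 428 428) (mv 462 (both (five 5 429 430) (mv 556 (both (five 6 460 588) (mv 558 (both (five 4 461 590) (mv 559 (both (five 3 524 560) (mv 591 (both (five 0 556 592) (mv 494 (both (five 4 462 526) (mv 459 (both (five 0 458 458) (five 0 459 495))))))))))))))))) (both (mv 588 (both (five 6 460 556) (mv 589 (both (five 6 492 620) (mv 621 (both (five 7 492 492) (mv 622 (both (five 4 493 590) (five 4 525 654))))))))) (mv 428 (both (five 7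 428 460) (mv 430 (both (five 5 429 462) (mv 588 (both (five 6 460 556) (mv 589 (both (five 6 492 620) (mv 621 (both (five 7 492 492) (mv 526 (both (five 5 493 494) (mv 653 (both (five 5 525 558) (mv 654 (both (five 4 525 622) (five 4 557 686))))))))))))))))))))) (both (mv 429 (both (mv 430 (both (five 5 397 398) (mv 557 (both (five 5 429 462) (mv 558 (both (five 4 429 526) (five 4 461 590))))))) (mv 396 (both (five 7 396 428) (mv 397 (both (five 7 364 364) (five 6 396 492))))))) (both (mv 429 (both (five 6 428 556) (mv 396 (both (five 7 396 428) (mv 397 (both (five 7 364 364) (mv 398 (both (five 5 365 366) (five 5 397 430))))))))) (mv 429 (both (five 6 428 556) (mv 397 (both (five 6 396 492) (mv 526 (both (five 4 397 494) (five 4 429 558))))))))))) (both (mv 557 (both (mv 589 (both (mv 620 (both (five 6 492 588) (mv 621 (both (five 6 524 652) (mv 622 (both (five 4 493 590) (five 4 525 654))))))) (mv 494 (both (five 5 461 462) (mv 495 (both (five 2 492 496) (mv 523 (both (five 1 490 522) (five 1 491 526))))))))) (both (mv 461 (both (mv 428 (both (five 7 428 460) (mv 429 (both (five 7 396 396) (mv 430 (both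 (five 5 397 398) (five 5 429 462))))))) (mv 558 (both (five 4 461 590) (mv 523 (both (five 0 522 522) (mv 559 (both (five 0 523 526) (five 3 524 560))))))))) (both (mv 589 (both (mv 620 (both (five 6 492 588) (mv 621 (both (five 6 524 652) (mv 622 (both (five 4 493 590) (five 4 525 654))))))) (both (mv 460 (both (five 7 460 492) (mv 461 (both (five 7 428 428) (mv 590 (both (five 4 461 558) (five 4 493 622))))))) (mv 492 (both (five 7 460 460) (five 7 492 621)))))) (mv 589 (both (mv 492 (both (five 7 460 460) (five 7 492 621))) (mv 494 (both (five 5 461 462) (mv 495 (both (five 2 492 496) (mv 523 (both (five 1 490 522) (five 1 491 526))))))))))))) (both (mv 461 (both (mv 429 (both (five 6 428 556) (mv 397 (both (five 6 396 492) (mv 398 (both (five 5 365 366) (five 5 397 430))))))) (both (mv 557 (both (mv 462 (both (five 5 429 430) (mv 589 (both (five 5 461 494) (mv 590 (both (five 4 461 558) (five 4 493 622))))))) (both (mv 556 (both (five 6 460 588) (mv 558 (both (five 4 461 590) (mv 559 (both (five 3 523 523) (five 3 524 560))))))) (mv 428 (both (five 7 428 460) (mv 462 (both (five 5 429 430) (mv 494 (both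 (five 5 461 589) (mv 495 (both (five 2 492 496) (mv 523 (both (five 2 491 492) (five 1 490 522)))))))))))))) (both (mv 557 (both (mv 462 (both (five 5 429 430) (mv 589 (both (five 5 461 494) (mv 590 (both (five 4 461 558) (five 4 493 622))))))) (both (mv 428 (both (five 7 428 460) (mv 396 (both (five 7 396 429) (mv 590 (both (five 4 461 558) (mv 589 (both (five 4 493 622) (mv 620 (both (five 6 492 588) (mv 621 (both (five 7 492 492) (five 6 524 652))))))))))))) (mv 428 (both (five 7 428 460) (mv 429 (both (five 7 396 396) (mv 430 (both (five 5 397 398) (five 5 429 462)))))))))) (both (mv 429 (both (five 6 428 556) (mv 396 (both (five 7 396 428) (mv 397 (both (five 7 364 364) (mv 398 (both (five 5 365 366) (five 5 397 430))))))))) (mv 429 (both (five 6 428 556) (mv 396 (both (five 7 396 428) (mv 397 (both (five 7 364 364) (five 6 396 492)))))))))))) (both (mv 494 (both (mv 495 (both (five 2 492 496) (mv 523 (both (five 1 490 522) (five 1 491 526))))) (both (mv 495 (both (five 2 492 496) (mv 492 (both (mv 460 (both (five 3 459 459) (mv 428 (both (five 4 396 396) (five 4 428 557))))) (both (mv 463 (both (five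 1 460 464) (mv 491 (both (five 1 459 462) (mv 458 (both (five 3 458 459) (mv 490 (both (five 3 457 457) (five 0 489 489))))))))) (mv 463 (both (five 1 460 464) (mv 462 (both (five 1 459 491) (mv 430 (both (five 6 397 398) (mv 557 (both (five 6 429 526) (five 5 461 589)))))))))))))) (both (mv 557 (both (mv 462 (both (five 5 461 589) (mv 461 (both (five 5 429 430) (mv 556 (both (five 6 428 429) (five 6 460 588))))))) (both (mv 461 (both (mv 556 (both (five 6 428 429) (five 6 460 588))) (both (mv 430 (both (five 5 429 462) (mv 429 (both (five 5 397 398) (mv 397 (both (five 6 396 492) (five 4 397 526))))))) (mv 430 (both (five 5 429 462) (mv 460 (both (five 7 428 428) (mv 459 (both (five 0 458 458) (mv 523 (both (five 1 490 522) (mv 556 (both (five 6 460 588) (mv 491 (both (five 4 427 427) (mv 490 (both (five 3 490 526) (mv 489 (both (five 0 488 488) (five 0 489 492)))))))))))))))))))) (both (mv 589 (both (mv 492 (both (five 7 460 460) (five 7 492 621))) (both (mv 620 (both (five 6 492 588) (mv 621 (both (five 5 493 526) (five 6 524 652))))) (mv 460 (both (five 7 460 492) (mv 461 (both (five 7 428 428) (mv 556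 (both (five 6 428 429) (five 6 460 588)))))))))) (mv 462 (both (five 5 461 589) (mv 430 (both (five 6 397 398) (five 6 429 526))))))))) (mv 495 (both (five 2 492 496) (mv 523 (both (five 2 491 492) (five 1 490 522))))))))) (both (mv 461 (both (mv 429 (both (five 6 428 556) (mv 397 (both (five 6 396 492) (mv 398 (both (five 5 365 366) (five 5 397 430))))))) (both (mv 557 (both (mv 588 (both (five 6 460 556) (mv 589 (both (five 6 492 620) (mv 590 (both (five 4 461 558) (five 4 493 622))))))) (both (mv 558 (both (five 4 461 590) (mv 523 (both (five 0 522 522) (mv 559 (both (five 0 523 526) (five 3 524 560))))))) (mv 462 (both (five 5 429 430) (mv 494 (both (five 5 461 589) (mv 495 (both (five 2 492 496) (mv 523 (both (five 1 490 522) (five 1 491 526)))))))))))) (both (mv 557 (both (mv 558 (both (five 4 461 590) (mv 526 (both (five 4 429 429) (mv 559 (both (five 0 523 523) (five 3 524 560))))))) (both (mv 462 (both (five 5 429 430) (mv 494 (both (five 5 461 589) (mv 495 (both (five 2 492 496) (mv 523 (both (five 1 490 522) (five 1 491 526))))))))) (mv 462 (both (five 5 429 430) (mv 589 (both (five 5 461 494)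 (mv 590 (both (five 4 461 558) (five 4 493 622)))))))))) (mv 429 (both (five 6 428 556) (mv 397 (both (five 6 396 492) (mv 526 (both (five 4 397 494) (five 4 429 558))))))))))) (mv 461 (both (mv 557 (both (mv 558 (both (five 4 461 590) (mv 523 (both (five 0 522 522) (mv 559 (both (five 0 523 526) (five 3 524 560))))))) (both (mv 588 (both (five 6 460 556) (mv 589 (both (five 6 492 620) (mv 621 (both (five 7 492 492) (mv 622 (both (five 4 493 590) (five 4 525 654))))))))) (mv 588 (both (five 6 460 556) (mv 589 (both (five 6 492 620) (mv 621 (both (five 7 492 492) (mv 526 (both (five 5 493 494) (mv 653 (both (five 5 525 558) (mv 654 (both (five 4 525 622) (five 4 557 686)))))))))))))))) (both (mv 429 (both (mv 397 (both (five 6 396 492) (mv 526 (both (five 4 397 494) (five 4 429 558))))) (both (mv 428 (both (five 7 396 396) (mv 557 (both (five 7 428 460) (mv 558 (both (five 4 429 526) (five 4 461 590))))))) (mv 396 (both (five 7 396 428) (mv 397 (both (five 7 364 364) (five 6 396 492)))))))) (both (mv 429 (both (five 6 428 556) (mv 396 (both (five 7 396 428) (mv 397 (both (five 7 364 364) (mv 526 (both (five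 4 397 494) (five 4 429 558))))))))) (mv 429 (both (five 6 428 556) (mv 396 (both (five 7 396 428) (mv 397 (both (five 7 364 364) (five 6 396 492))))))))))))))))))))

theorem L9 : W (S 164755143843134633159565619177953437214466447203439329825467123020453036401543745250941431375874909319455111473395540592890927711993199451501776678986761371648) (S 321053216778053891366735482306627242972624454605015847948924221637599634198476107107188555937118387415218068487588445430931173840980789565618523094807232931104043522606933012696935235203979841518728443330560) :=
  check_sound Env.nil (x := 493) (t := tL9) (by decide +kernel)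

end P062.Cert
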