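import Vale.Agent.P062.Check
import Vale.Agent.P062.Cert.C0

/-! Snaky certificate, part 1 (machine generated, checked by the kernel) -/

set_option maxRecDepth 100000

namespace P062.Cert

open T

def tL10 : T :=
  (both (ref 0) (both (ref 1) (both (mv 523 (both (mv 522 (both (mv 489 (both (five 3 489 490) (mv 521 (both (five 3 488 488) (mv 557 (both (five 0 521 556) (five 0 522 558))))))) (both (mv 554 (both (five 2 521 553) (mv 526 (both (five 2 522 555) (mv 558 (both (five 0 522 557) (five 0 523 559))))))) (mv 489 (both (five 3 489 490) (mv 521 (both (five 3 488 488) (mv 553 (both (five 2 520 552) (five 2 521 554)))))))))) (both (mv 526 (both (mv 494 (both (five 1 491 495) (mv 462 (both (mv 430 (both (five 6 429 557) (mv 397 (both (five 7 397 429) (mv 398 (both (five 7 365 365) (mv 399 (both (five 5 366 367) (five 5 398 431))))))))) (both (mv 490 (both (five 3 490 491) (mv 558 (both (five 0 523 559) (mv 429 (both (five 7 429 461) (mv 430 (both (five 7 397 397) (mv 431 (both (five 5 398 399) (five 5 430 463))))))))))) (both (mv 491 (both (five 3 490 490) (mv 558 (both (five 0 523 559) (mv 429 (both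 (five 7 429 461) (mv 431 (both (five 5 430 463) (mv 589 (both (five 6 461 557) (mv 590 (both (five 6 493 621) (mv 623 (both (five 4 494 591) (mv 622 (both (five 4 526 655) (mv 588 (both (five 0 587 587) (mv 556 (both (five 7 491 620) (mv 459 (both (five 4 427 427) (five 7 459 492))))))))))))))))))))))) (both (mv 430 (both (five 6 429 557) (mv 431 (both (five 5 398 399) (mv 558 (both (five 5 430 463) (five 0 523 559))))))) (mv 430 (both (five 6 429 557) (mv 429 (both (five 7 397 397) (mv 558 (both (five 7 429 461) (five 0 523 559)))))))))))))) (both (mv 494 (both (five 1 491 495) (mv 462 (both (mv 430 (both (five 6 429 557) (mv 431 (both (five 5 398 399) (mv 558 (both (five 5 430 463) (five 0 523 559))))))) (both (mv 430 (both (five 6 429 557) (mv 397 (both (five 7 397 429) (mv 398 (both (five 7 365 365) (mv 399 (both (five 5 366 367) (five 5 398 431))))))))) (both (mv 558 (both (five 0 523 559) (mv 429 (both (five 7 429 461) (mv 430 (both (five 7 397 397) (mv 431 (both (five 5 398 399) (five 5 430 463))))))))) (both (mv 555 (both (five 2 522 554) (mv 558 (both (five 0 523 559) (mv 429 (both (five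 7 429 461) (mv 431 (both (five 5 430 463) (mv 589 (both (five 6 461 557) (mv 590 (both (five 6 493 621) (mv 591 (both (five 4 494 623) (mv 588 (both (five 3 555 556) (mv 619 (both (five 2 587 620) (mv 587 (both (five 5 491 492) (five 2 586 618))))))))))))))))))))) (mv 430 (both (five 6 429 557) (mv 429 (both (five 7 397 397) (mv 558 (both (five 7 429 461) (five 0 523 559)))))))))))))) (both (mv 491 (both (five 3 490 490) (mv 459 (both (mv 427 (both (five 4 427 556) (mv 394 (both (five 7 394 426) (mv 395 (both (five 7 362 362) (five 4 395 492))))))) (both (mv 555 (both (five 2 522 554) (mv 460 (both (five 5 427 428) (mv 587 (both (five 5 459 492) (mv 618 (both (five 6 490 586) (mv 619 (both (five 6 522 650) (mv 620 (both (five 4 491 588) (five 4 523 652))))))))))))) (mv 427 (both (five 4 427 556) (mv 394 (both (five 7 394 426) (mv 362 (both (five 7 362 395) (mv 428 (both (five 5 395 396) (mv 555 (both (five 5 427 460) (five 2 522 554)))))))))))))))) (both (mv 494 (both (five 1 491 495) (mv 462 (both (mv 430 (both (five 6 429 557) (mv 431 (both (five 5 398 399) (mv 558 (both (five 5 430 463) (five 0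 523 559))))))) (both (mv 430 (both (five 6 429 557) (mv 397 (both (five 7 397 429) (mv 398 (both (five 7 365 365) (mv 399 (both (five 5 366 367) (five 5 398 431))))))))) (both (mv 491 (both (five 3 490 490) (mv 555 (both (five 2 522 554) (mv 558 (both (five 0 523 559) (mv 429 (both (five 7 429 461) (mv 431 (both (five 5 430 463) (mv 589 (both (five 6 461 557) (mv 590 (both (five 6 493 621) (mv 623 (both (five 4 494 591) (mv 622 (both (five 4 526 655) (mv 587 (both (five 0 587 588) (mv 492 (both (five 5 459 460) (five 5 491 619))))))))))))))))))))))) (both (mv 558 (both (five 0 523 559) (mv 429 (both (five 7 429 461) (mv 430 (both (five 7 397 397) (mv 431 (both (five 5 398 399) (five 5 430 463))))))))) (mv 430 (both (five 6 429 557) (mv 429 (both (five 7 397 397) (mv 558 (both (five 7 429 461) (five 0 523 559)))))))))))))) (both (mv 491 (both (five 3 490 490) (mv 459 (both (mv 427 (both (five 4 427 556) (mv 394 (both (five 7 394 426) (mv 395 (both (five 7 362 362) (mv 396 (both (five 5 363 364) (five 5 395 428))))))))) (both (mv 494 (both (five 1 491 495) (mv 555 (both (five 2 522 554) (mv 426 (both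 (five 7 426 458) (mv 427 (both (five 7 394 394) (mv 428 (both (five 5 395 396) (five 5 427 460))))))))))) (both (mv 494 (both (five 1 491 495) (mv 555 (both (five 2 522 554) (mv 426 (both (five 7 426 458) (mv 428 (both (five 5 427 460) (mv 558 (both (five 0 523 559) (mv 588 (both (five 4 459 556) (mv 587 (both (five 4 491 620) (mv 586 (both (five 6 490 618) (mv 589 (both (five 1 554 557) (mv 621 (both (five 6 493 590) (five 0 586 622))))))))))))))))))))) (both (mv 427 (both (five 4 427 556) (mv 428 (both (five 5 395 396) (mv 555 (both (five 5 427 460) (five 2 522 554))))))) (mv 427 (both (five 4 427 556) (mv 426 (both (five 7 394 394) (mv 555 (both (five 7 426 458) (five 2 522 554)))))))))))))) (mv 494 (both (five 1 491 495) (mv 462 (both (mv 430 (both (five 6 429 557) (mv 431 (both (five 5 398 399) (mv 558 (both (five 5 430 463) (five 0 523 559))))))) (both (mv 430 (both (five 6 429 557) (mv 397 (both (five 7 397 429) (mv 398 (both (five 7 365 365) (mv 399 (both (five 5 366 367) (five 5 398 431))))))))) (both (mv 491 (both (five 3 490 490) (mv 554 (both (five 2 522 555) (mv 558 (both (five 0 523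 559) (mv 461 (both (five 7 429 429) (mv 463 (both (five 5 430 431) (mv 460 (both (five 2 459 492) (mv 427 (both (five 3 427 428) (mv 459 (both (five 3 426 426) (five 4 427 556))))))))))))))))) (mv 430 (both (five 6 429 557) (mv 429 (both (five 7 397 397) (mv 558 (both (five 7 429 461) (five 0 523 559))))))))))))))))))) (both (mv 522 (both (mv 489 (both (five 3 489 490) (mv 521 (both (five 3 488 488) (mv 557 (both (five 0 521 556) (five 0 522 558))))))) (both (mv 489 (both (five 3 489 490) (mv 521 (both (five 3 488 488) (mv 553 (both (five 2 520 552) (five 2 521 554))))))) (both (mv 553 (both (five 2 521 554) (mv 521 (both (five 2 520 552) (mv 557 (both (five 0 521 556) (five 0 522 558))))))) (mv 490 (both (five 3 489 489) (mv 458 (both (mv 426 (both (five 4 426 555) (mv 393 (both (five 7 393 425) (mv 394 (both (five 7 361 361) (five 4 394 491))))))) (both (mv 554 (both (five 2 521 553) (mv 459 (both (five 5 426 427) (mv 557 (both (five 0 522 558) (mv 586 (both (five 5 458 491) (mv 585 (both (five 6 489 617) (mv 587 (both (five 4 490 619) (mv 588 (both (five 1 553 556) (mv 621 (both (five 0 585 620)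 (mv 589 (both (five 7 492 492) (five 0 586 622))))))))))))))))))) (mv 426 (both (five 4 426 555) (mv 393 (both (five 7 393 425) (mv 361 (both (five 7 361 394) (mv 427 (both (five 5 394 395) (mv 554 (both (five 5 426 459) (five 2 521 553)))))))))))))))))))) (both (mv 522 (both (mv 557 (both (five 0 522 558) (mv 521 (both (five 0 521 556) (mv 488 (both (five 3 488 489) (mv 520 (both (five 3 487 487) (mv 552 (both (five 2 519 551) (five 2 520 553))))))))))) (both (mv 521 (both (mv 488 (both (five 3 488 489) (mv 520 (both (five 3 487 487) (mv 552 (both (five 2 519 551) (five 2 520 553))))))) (both (mv 552 (both (five 2 520 553) (mv 520 (both (five 2 519 551) (mv 487 (both (five 3 487 488) (mv 491 (both (five 1 488 492) (mv 490 (both (five 1 487 519) (five 3 490 526))))))))))) (both (mv 490 (both (five 3 489 489) (mv 491 (both (five 3 490 526) (mv 520 (both (five 1 488 492) (five 1 487 519))))))) (mv 489 (both (five 3 488 488) (five 3 489 490))))))) (both (mv 557 (both (five 0 522 558) (mv 521 (both (five 0 521 556) (mv 552 (both (five 2 520 553) (mv 520 (both (five 2 519 551) (mv 487 (both (five 3 487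 488) (mv 491 (both (five 1 488 492) (mv 490 (both (five 1 487 519) (five 3 490 526))))))))))))))) (mv 490 (both (five 3 489 489) (mv 526 (both (five 3 490 491) (mv 558 (both (five 0 522 557) (five 0 523 559))))))))))) (both (mv 522 (both (mv 489 (both (five 3 489 490) (mv 521 (both (five 3 488 488) (mv 553 (both (five 2 520 552) (five 2 521 554))))))) (both (mv 521 (both (mv 553 (both (five 2 520 552) (five 2 521 554))) (both (mv 488 (both (five 3 488 489) (mv 520 (both (five 3 487 487) (mv 552 (both (five 2 519 551) (five 2 520 553))))))) (mv 488 (both (five 3 488 489) (mv 520 (both (five 3 487 487) (mv 555 (both (five 0 520 556) (mv 554 (both (five 0 519 519) (five 2 522 526)))))))))))) (both (mv 521 (both (mv 488 (both (five 3 488 489) (mv 520 (both (five 3 487 487) (mv 552 (both (five 2 519 551) (five 2 520 553))))))) (both (mv 552 (both (five 2 520 553) (mv 520 (both (five 2 519 551) (mv 487 (both (five 3 487 488) (mv 491 (both (five 1 488 492) (mv 490 (both (five 1 487 519) (five 3 490 526))))))))))) (both (mv 490 (both (five 3 489 489) (mv 491 (both (five 3 490 526) (mv 520 (both (five 1 488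 492) (five 1 487 519))))))) (mv 489 (both (five 3 488 488) (five 3 489 490))))))) (both (mv 554 (both (five 2 521 553) (mv 491 (both (mv 526 (both (five 3 490 490) (five 2 522 555))) (both (mv 459 (both (five 6 426 427) (mv 586 (both (five 5 458 490) (five 6 458 555))))) (both (mv 459 (both (five 6 426 427) (mv 490 (both (five 3 490 526) (five 5 458 586))))) (mv 459 (both (five 6 426 427) (mv 555 (both (five 2 522 526) (five 6 458 586))))))))))) (mv 490 (both (five 3 489 489) (mv 555 (both (mv 526 (both (five 3 490 491) (five 2 522 554))) (both (mv 458 (both (five 4 426 426) (mv 587 (both (five 7 458 491) (five 4 458 554))))) (both (mv 458 (both (five 4 426 426) (mv 554 (both (five 2 522 526) (five 4 458 587))))) (mv 426 (both (five 4 426 458) (mv 491 (both (five 3 490 526) (mv 587 (both (five 7 490 619) (mv 460 (both (five 5 459 492) (mv 459 (both (five 5 427 428) (mv 427 (both (five 7 394 394) (five 6 394 395)))))))))))))))))))))))) (both (mv 492 (both (mv 555 (both (mv 526 (both (five 2 522 554) (mv 494 (both (five 1 491 495) (mv 558 (both (five 0 523 559) (mv 557 (both (five 0 522 522) (mv 462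 (both (five 6 429 430) (five 6 461 589))))))))))) (mv 460 (both (five 6 427 428) (mv 587 (both (five 5 459 491) (five 6 459 556))))))) (both (mv 557 (both (mv 460 (both (five 4 428 428) (mv 589 (both (five 4 460 556) (five 7 492 621))))) (both (mv 522 (both (five 0 522 558) (mv 521 (both (five 0 521 556) (mv 488 (both (five 3 488 489) (mv 520 (both (five 3 487 487) (mv 552 (both (five 2 519 551) (five 2 520 553))))))))))) (mv 428 (both (five 4 428 460) (mv 522 (both (five 0 522 558) (mv 553 (both (five 2 521 554) (mv 521 (both (five 2 520 552) (mv 488 (both (five 3 488 489) (mv 520 (both (five 3 487 487) (five 1 488 491)))))))))))))))) (both (mv 522 (both (mv 554 (both (five 2 521 553) (mv 526 (both (five 2 522 555) (mv 558 (both (five 0 522 557) (five 0 523 559))))))) (both (mv 553 (both (five 2 521 554) (mv 521 (both (five 2 520 552) (mv 488 (both (five 3 488 489) (mv 520 (both (five 3 487 487) (five 1 488 491))))))))) (mv 557 (both (five 0 522 558) (mv 521 (both (five 0 521 556) (mv 488 (both (five 3 488 489) (mv 520 (both (five 3 487 487) (five 1 488 491)))))))))))) (both (mv 555 (both (mv 554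 (both (five 2 522 526) (mv 553 (both (five 2 521 522) (five 1 520 552))))) (mv 460 (both (five 6 427 428) (mv 587 (both (five 5 459 491) (five 5 491 619))))))) (both (mv 555 (both (mv 554 (both (five 2 522 526) (mv 553 (both (five 1 520 552) (five 1 521 556))))) (mv 460 (both (five 6 427 428) (mv 587 (both (five 5 459 491) (five 5 491 619))))))) (mv 557 (both (mv 460 (both (five 4 428 428) (mv 589 (both (five 4 460 556) (five 7 492 621))))) (both (mv 522 (both (five 0 522 558) (mv 521 (both (five 0 521 556) (mv 488 (both (five 3 488 489) (mv 520 (both (five 3 487 487) (mv 552 (both (five 2 519 551) (five 2 520 553))))))))))) (mv 428 (both (five 4 428 460) (mv 558 (both (five 0 522 522) (mv 559 (both (five 0 523 526) (five 3 524 560)))))))))))))))) (mv 522 (both (mv 554 (both (five 2 521 553) (mv 526 (both (five 2 522 555) (mv 558 (both (five 0 522 557) (five 0 523 559))))))) (both (mv 490 (both (five 3 489 489) (mv 526 (both (five 3 490 491) (mv 558 (both (five 0 522 557) (five 0 523 559))))))) (mv 489 (both (five 3 489 490) (mv 521 (both (five 3 488 488) (mv 553 (both (five 2 520 552) (five 2 521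 554))))))))))))))))) (both (mv 523 (both (mv 522 (both (mv 489 (both (five 3 489 490) (mv 521 (both (five 3 488 488) (mv 553 (both (five 2 520 552) (five 2 521 554))))))) (both (mv 521 (both (mv 553 (both (five 2 520 552) (five 2 521 554))) (both (mv 488 (both (five 3 488 489) (mv 520 (both (five 3 487 487) (mv 552 (both (five 2 519 551) (five 2 520 553))))))) (mv 488 (both (five 3 488 489) (mv 520 (both (five 3 487 487) (mv 555 (both (five 0 520 556) (mv 554 (both (five 0 519 519) (five 2 522 526)))))))))))) (both (mv 521 (both (mv 488 (both (five 3 488 489) (mv 520 (both (five 3 487 487) (mv 552 (both (five 2 519 551) (five 2 520 553))))))) (both (mv 552 (both (five 2 520 553) (mv 520 (both (five 2 519 551) (mv 487 (both (five 3 487 488) (mv 491 (both (five 1 488 492) (mv 490 (both (five 1 487 519) (five 3 490 526))))))))))) (both (mv 490 (both (five 3 489 489) (mv 491 (both (five 3 490 526) (mv 520 (both (five 1 488 492) (five 1 487 519))))))) (mv 489 (both (five 3 488 488) (five 3 489 490))))))) (both (mv 554 (both (five 2 521 553) (mv 491 (both (mv 526 (both (five 3 490 490) (five 2 522 555)))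 (both (mv 459 (both (five 6 426 427) (mv 586 (both (five 5 458 490) (five 6 458 555))))) (both (mv 459 (both (five 6 426 427) (mv 490 (both (five 3 490 526) (five 5 458 586))))) (mv 459 (both (five 6 426 427) (mv 555 (both (five 2 522 526) (five 6 458 586))))))))))) (mv 490 (both (five 3 489 489) (mv 555 (both (mv 526 (both (five 3 490 491) (five 2 522 554))) (both (mv 458 (both (five 4 426 426) (mv 587 (both (five 7 458 491) (five 4 458 554))))) (both (mv 458 (both (five 4 426 426) (mv 554 (both (five 2 522 526) (five 4 458 587))))) (mv 426 (both (five 4 426 458) (mv 491 (both (five 3 490 526) (mv 587 (both (five 7 490 619) (mv 460 (both (five 5 459 492) (mv 459 (both (five 5 427 428) (mv 427 (both (five 7 394 394) (five 6 394 395)))))))))))))))))))))))) (both (mv 526 (both (mv 491 (both (five 3 490 490) (mv 459 (both (mv 427 (both (five 4 427 556) (mv 394 (both (five 7 394 426) (mv 395 (both (five 7 362 362) (five 4 395 492))))))) (both (mv 555 (both (five 2 522 554) (mv 460 (both (five 5 427 428) (mv 587 (both (five 5 459 492) (mv 618 (both (five 6 490 586) (mv 619 (both (five 6 522 650) (mv 620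 (both (five 4 491 588) (five 4 523 652))))))))))))) (mv 427 (both (five 4 427 556) (mv 394 (both (five 7 394 426) (mv 362 (both (five 7 362 395) (mv 428 (both (five 5 395 396) (mv 555 (both (five 5 427 460) (five 2 522 554)))))))))))))))) (both (mv 558 (both (five 0 523 559) (mv 590 (both (mv 493 (both (five 7 493 622) (mv 461 (both (five 4 429 429) (five 7 461 494))))) (both (mv 554 (both (five 2 522 555) (mv 622 (both (five 7 493 493) (mv 653 (both (five 6 525 621) (mv 654 (both (five 6 557 685) (mv 655 (both (five 4 526 623) (five 4 558 687))))))))))) (both (mv 494 (both (five 1 491 495) (mv 554 (both (five 2 522 555) (mv 621 (both (five 6 493 589) (mv 622 (both (five 6 525 653) (mv 623 (both (five 4 494 591) (five 4 526 655))))))))))) (mv 494 (both (five 1 491 495) (mv 461 (both (five 7 461 493) (mv 429 (both (five 7 429 462) (mv 555 (both (five 2 522 554) (mv 589 (both (five 6 493 621) (mv 591 (both (five 4 494 623) (mv 588 (both (five 3 555 556) (mv 619 (both (five 2 587 620) (mv 587 (both (five 5 491 492) (five 2 586 618))))))))))))))))))))))))) (both (mv 558 (both (five 0 523 559) (mv 590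 (both (mv 622 (both (five 7 493 493) (mv 653 (both (five 6 525 621) (mv 654 (both (five 6 557 685) (mv 655 (both (five 4 526 623) (five 4 558 687))))))))) (both (mv 490 (both (five 3 490 491) (mv 494 (both (five 1 491 495) (mv 621 (both (five 6 493 589) (mv 622 (both (five 6 525 653) (mv 623 (both (five 4 494 591) (five 4 526 655))))))))))) (mv 491 (both (five 3 490 490) (mv 494 (both (five 1 491 495) (mv 461 (both (five 7 461 493) (mv 462 (both (five 7 429 429) (mv 463 (both (five 5 430 431) (mv 460 (both (five 2 459 492) (mv 427 (both (five 3 427 428) (mv 459 (both (five 3 426 426) (five 4 427 556)))))))))))))))))))))) (both (mv 491 (both (five 3 490 490) (mv 459 (both (mv 427 (both (five 4 427 556) (mv 428 (both (five 5 395 396) (mv 555 (both (five 5 427 460) (five 2 522 554))))))) (both (mv 427 (both (five 4 427 556) (mv 394 (both (five 7 394 426) (mv 395 (both (five 7 362 362) (mv 396 (both (five 5 363 364) (five 5 395 428))))))))) (both (mv 494 (both (five 1 491 495) (mv 555 (both (five 2 522 554) (mv 426 (both (five 7 426 458) (mv 428 (both (five 5 427 460) (mv 558 (both (five 0 523 559) (mv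 588 (both (five 4 459 556) (mv 587 (both (five 4 491 620) (mv 618 (both (five 6 490 586) (mv 619 (both (five 6 522 650) (mv 590 (both (five 2 586 589) (mv 622 (both (five 7 493 493) (mv 653 (both (five 6 525 621) (mv 654 (both (five 6 557 685) (mv 655 (both (five 4 526 623) (five 4 558 687))))))))))))))))))))))))))))) (both (mv 555 (both (five 2 522 554) (mv 426 (both (five 7 426 458) (mv 427 (both (five 7 394 394) (mv 428 (both (five 5 395 396) (five 5 427 460))))))))) (mv 427 (both (five 4 427 556) (mv 426 (both (five 7 394 394) (mv 555 (both (five 7 426 458) (five 2 522 554)))))))))))))) (mv 555 (both (five 2 522 554) (mv 587 (both (mv 494 (both (five 1 491 495) (mv 558 (both (five 0 523 559) (mv 619 (both (five 5 491 492) (mv 620 (both (five 4 523 652) (mv 650 (both (five 6 522 618) (mv 651 (both (five 6 554 682) (mv 622 (both (five 2 618 621) (mv 590 (both (five 7 493 493) (mv 623 (both (five 4 494 591) (five 4 526 655))))))))))))))))))) (both (mv 491 (both (five 3 490 490) (mv 618 (both (five 6 490 586) (mv 619 (both (five 6 522 650) (mv 620 (both (five 4 491 588) (five 4 523 652))))))))) (mv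 491 (both (five 3 490 490) (mv 460 (both (five 5 459 492) (mv 459 (both (five 5 427 428) (mv 426 (both (five 7 426 458) (mv 427 (both (five 7 394 394) (mv 424 (both (five 0 424 425) (mv 461 (both (five 3 426 462) (mv 494 (both (five 1 491 495) (mv 558 (both (five 0 523 559) (mv 493 (both (five 4 429 429) (five 7 461 590))))))))))))))))))))))))))))))) (both (mv 522 (both (mv 489 (both (five 3 489 490) (mv 521 (both (five 3 488 488) (mv 553 (both (five 2 520 552) (five 2 521 554))))))) (both (mv 493 (both (five 1 490 494) (mv 521 (both (five 1 489 492) (mv 553 (both (five 2 520 552) (five 2 521 554))))))) (both (mv 489 (both (five 3 489 490) (mv 493 (both (five 1 490 494) (mv 521 (both (five 3 488 488) (five 1 489 492))))))) (mv 490 (both (five 3 489 489) (mv 458 (both (mv 426 (both (five 4 426 555) (mv 393 (both (five 7 393 425) (mv 394 (both (five 7 361 361) (five 4 394 491))))))) (both (mv 493 (both (five 1 490 494) (mv 554 (both (five 2 521 553) (mv 459 (both (five 5 426 427) (mv 586 (both (five 5 458 491) (mv 617 (both (five 6 489 585) (mv 618 (both (five 6 521 649) (mv 619 (both (five 4 490 587)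 (five 4 522 651))))))))))))))) (mv 426 (both (five 4 426 555) (mv 393 (both (five 7 393 425) (mv 361 (both (five 7 361 394) (mv 427 (both (five 5 394 395) (mv 554 (both (five 5 426 459) (five 2 521 553)))))))))))))))))))) (both (mv 522 (both (mv 493 (both (five 1 490 494) (mv 521 (both (five 1 489 492) (mv 553 (both (five 2 520 552) (five 2 521 554))))))) (both (mv 489 (both (five 3 489 490) (mv 493 (both (five 1 490 494) (mv 521 (both (five 3 488 488) (five 1 489 492))))))) (mv 490 (both (five 3 489 489) (mv 491 (both (five 3 490 526) (mv 554 (both (five 2 521 553) (mv 459 (both (five 6 426 427) (five 5 458 586)))))))))))) (both (mv 522 (both (mv 493 (both (five 1 490 494) (mv 521 (both (five 1 489 492) (mv 488 (both (five 3 488 489) (mv 520 (both (five 3 487 487) (mv 552 (both (five 2 519 551) (five 2 520 553))))))))))) (both (mv 521 (both (mv 553 (both (five 2 520 552) (five 2 521 554))) (both (mv 488 (both (five 3 488 489) (mv 520 (both (five 3 487 487) (mv 552 (both (five 2 519 551) (five 2 520 553))))))) (mv 488 (both (five 3 488 489) (mv 520 (both (five 3 487 487) (mv 555 (both (five 0 520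 556) (mv 554 (both (five 0 519 519) (five 2 522 526)))))))))))) (both (mv 493 (both (five 1 490 494) (mv 521 (both (five 1 489 492) (mv 488 (both (five 3 488 489) (mv 520 (both (five 3 487 487) (mv 555 (both (five 0 520 556) (mv 554 (both (five 0 519 519) (five 2 522 526))))))))))))) (mv 494 (both (five 1 490 493) (mv 526 (both (five 1 491 495) (mv 554 (both (five 2 521 553) (five 2 522 555))))))))))) (both (mv 556 (both (mv 493 (both (mv 461 (both (five 6 428 429) (mv 588 (both (five 5 460 492) (five 5 492 620))))) (both (mv 494 (both (five 1 490 522) (mv 495 (both (five 2 491 492) (five 2 492 496))))) (mv 429 (both (five 6 428 461) (mv 494 (both (five 1 490 522) (mv 495 (both (five 2 492 496) (five 1 491 526)))))))))) (both (mv 522 (both (mv 521 (both (mv 488 (both (five 3 488 489) (mv 520 (both (five 3 487 487) (mv 552 (both (five 2 519 551) (five 2 520 553))))))) (both (mv 552 (both (five 2 520 553) (mv 520 (both (five 2 519 551) (mv 487 (both (five 3 487 488) (mv 491 (both (five 1 488 492) (mv 490 (both (five 1 487 519) (five 3 490 526))))))))))) (both (mv 490 (both (five 3 489 489) (mv 491 (both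 (five 3 490 526) (mv 520 (both (five 1 488 492) (five 1 487 519))))))) (mv 489 (both (five 3 488 488) (five 3 489 490))))))) (both (mv 493 (both (five 1 490 494) (mv 429 (both (five 6 428 461) (mv 521 (both (five 1 489 492) (mv 520 (both (five 0 520 555) (mv 552 (both (five 2 519 551) (five 2 520 553))))))))))) (both (mv 490 (both (five 3 489 489) (mv 491 (both (five 3 490 526) (mv 427 (both (five 4 427 459) (mv 493 (both (five 1 490 494) (mv 461 (both (five 6 428 429) (mv 492 (both (five 1 458 462) (mv 458 (both (five 3 457 457) (mv 426 (both (five 4 394 394) (five 5 394 395))))))))))))))))) (mv 489 (both (five 3 489 490) (mv 493 (both (five 1 490 494) (mv 429 (both (five 6 428 461) (mv 521 (both (five 3 488 488) (mv 520 (both (five 0 520 555) (mv 552 (both (five 2 519 551) (five 2 520 553))))))))))))))))) (both (mv 491 (both (mv 490 (both (five 3 490 526) (mv 489 (both (five 0 488 488) (five 3 489 522))))) (mv 459 (both (five 4 427 427) (mv 588 (both (five 4 459 555) (five 7 491 620))))))) (both (mv 491 (both (mv 490 (both (five 3 490 526) (mv 489 (both (five 0 488 488) (five 0 489 492))))) (mv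 459 (both (five 4 427 427) (mv 588 (both (five 4 459 555) (five 7 491 620))))))) (mv 493 (both (mv 461 (both (five 6 428 429) (mv 588 (both (five 5 460 492) (five 5 492 620))))) (both (mv 494 (both (five 1 490 522) (mv 495 (both (five 2 491 492) (five 2 492 496))))) (mv 429 (both (five 6 428 461) (mv 522 (both (five 1 490 494) (mv 489 (both (five 3 489 490) (mv 521 (both (five 3 488 488) (mv 520 (both (five 0 520 555) (mv 552 (both (five 2 519 551) (five 2 520 553))))))))))))))))))))) (mv 522 (both (mv 489 (both (five 3 489 490) (mv 521 (both (five 3 488 488) (mv 553 (both (five 2 520 552) (five 2 521 554))))))) (both (mv 490 (both (five 3 489 489) (mv 494 (both (five 1 490 493) (mv 526 (both (five 3 490 491) (five 1 491 495))))))) (mv 494 (both (five 1 490 493) (mv 526 (both (five 1 491 495) (mv 554 (both (five 2 521 553) (five 2 522 555))))))))))))))))) (both (mv 523 (both (mv 522 (both (mv 489 (both (five 3 489 490) (mv 521 (both (five 3 488 488) (mv 557 (both (five 0 521 556) (five 0 522 558))))))) (both (mv 554 (both (five 2 521 553) (mv 526 (both (five 2 522 555) (mv 558 (both (five 0 522 557)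 (five 0 523 559))))))) (mv 489 (both (five 3 489 490) (mv 521 (both (five 3 488 488) (mv 553 (both (five 2 520 552) (five 2 521 554)))))))))) (both (mv 526 (both (mv 491 (both (five 3 490 490) (mv 459 (both (mv 427 (both (five 4 427 556) (mv 394 (both (five 7 394 426) (mv 395 (both (five 7 362 362) (mv 396 (both (five 5 363 364) (five 5 395 428))))))))) (both (mv 494 (both (five 1 491 495) (mv 555 (both (five 2 522 554) (mv 426 (both (five 7 426 458) (mv 427 (both (five 7 394 394) (mv 428 (both (five 5 395 396) (five 5 427 460))))))))))) (both (mv 494 (both (five 1 491 495) (mv 555 (both (five 2 522 554) (mv 426 (both (five 7 426 458) (mv 428 (both (five 5 427 460) (mv 558 (both (five 0 523 559) (mv 588 (both (five 4 459 556) (mv 587 (both (five 4 491 620) (mv 586 (both (five 6 490 618) (mv 589 (both (five 1 554 557) (mv 621 (both (five 6 493 590) (five 0 586 622))))))))))))))))))))) (both (mv 427 (both (five 4 427 556) (mv 428 (both (five 5 395 396) (mv 555 (both (five 5 427 460) (five 2 522 554))))))) (mv 427 (both (five 4 427 556) (mv 426 (both (five 7 394 394) (mv 555 (both (five 7 426 458) (five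 2 522 554)))))))))))))) (both (mv 491 (both (five 3 490 490) (mv 459 (both (mv 427 (both (five 4 427 556) (mv 428 (both (five 5 395 396) (mv 555 (both (five 5 427 460) (five 2 522 554))))))) (both (mv 427 (both (five 4 427 556) (mv 394 (both (five 7 394 426) (mv 395 (both (five 7 362 362) (mv 396 (both (five 5 363 364) (five 5 395 428))))))))) (both (mv 555 (both (five 2 522 554) (mv 426 (both (five 7 426 458) (mv 427 (both (five 7 394 394) (mv 428 (both (five 5 395 396) (five 5 427 460))))))))) (both (mv 494 (both (five 1 491 495) (mv 555 (both (five 2 522 554) (mv 426 (both (five 7 426 458) (mv 428 (both (five 5 427 460) (mv 588 (both (five 4 459 556) (mv 587 (both (five 4 491 620) (mv 618 (both (five 6 490 586) (mv 619 (both (five 6 522 650) (mv 589 (both (five 2 586 590) (mv 557 (both (five 5 493 621) (mv 462 (both (five 6 429 430) (five 5 461 493))))))))))))))))))))))) (mv 427 (both (five 4 427 556) (mv 426 (both (five 7 394 394) (mv 555 (both (five 7 426 458) (five 2 522 554)))))))))))))) (both (mv 491 (both (five 3 490 490) (mv 459 (both (mv 427 (both (five 4 427 556) (mv 428 (both (five 5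 395 396) (mv 555 (both (five 5 427 460) (five 2 522 554))))))) (both (mv 427 (both (five 4 427 556) (mv 394 (both (five 7 394 426) (mv 395 (both (five 7 362 362) (mv 396 (both (five 5 363 364) (five 5 395 428))))))))) (both (mv 555 (both (five 2 522 554) (mv 426 (both (five 7 426 458) (mv 427 (both (five 7 394 394) (mv 428 (both (five 5 395 396) (five 5 427 460))))))))) (both (mv 555 (both (five 2 522 554) (mv 426 (both (five 7 426 458) (mv 428 (both (five 5 427 460) (mv 558 (both (five 0 523 559) (mv 588 (both (five 4 459 556) (mv 587 (both (five 4 491 620) (mv 618 (both (five 6 490 586) (mv 619 (both (five 6 522 650) (mv 590 (both (five 2 586 589) (mv 622 (both (five 7 493 493) (mv 653 (both (five 6 525 621) (mv 654 (both (five 6 557 685) (mv 655 (both (five 4 526 623) (five 4 558 687))))))))))))))))))))))))))) (mv 427 (both (five 4 427 556) (mv 426 (both (five 7 394 394) (mv 555 (both (five 7 426 458) (five 2 522 554)))))))))))))) (both (mv 494 (both (five 1 491 495) (mv 462 (both (mv 430 (both (five 6 429 557) (mv 431 (both (five 5 398 399) (mv 558 (both (five 5 430 463) (five 0 523 559)))))))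 (both (mv 430 (both (five 6 429 557) (mv 397 (both (five 7 397 429) (mv 398 (both (five 7 365 365) (mv 399 (both (five 5 366 367) (five 5 398 431))))))))) (both (mv 558 (both (five 0 523 559) (mv 429 (both (five 7 429 461) (mv 430 (both (five 7 397 397) (mv 431 (both (five 5 398 399) (five 5 430 463))))))))) (both (mv 558 (both (five 0 523 559) (mv 429 (both (five 7 429 461) (mv 431 (both (five 5 430 463) (mv 589 (both (five 6 461 557) (mv 590 (both (five 6 493 621) (mv 622 (both (five 7 493 493) (mv 623 (both (five 4 494 591) (five 4 526 655))))))))))))))) (mv 430 (both (five 6 429 557) (mv 429 (both (five 7 397 397) (mv 558 (both (five 7 429 461) (five 0 523 559)))))))))))))) (mv 491 (both (five 3 490 490) (mv 459 (both (mv 427 (both (five 4 427 556) (mv 428 (both (five 5 395 396) (mv 555 (both (five 5 427 460) (five 2 522 554))))))) (both (mv 427 (both (five 4 427 556) (mv 394 (both (five 7 394 426) (mv 395 (both (five 7 362 362) (mv 396 (both (five 5 363 364) (five 5 395 428))))))))) (both (mv 494 (both (five 1 491 495) (mv 555 (both (five 2 522 554) (mv 458 (both (five 7 426 426) (mv 460 (both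 (five 5 427 428) (mv 461 (both (five 0 458 493) (mv 429 (both (five 1 426 430) (mv 558 (both (five 7 429 462) (five 0 523 559))))))))))))))) (mv 427 (both (five 4 427 556) (mv 426 (both (five 7 394 394) (mv 555 (both (five 7 426 458) (five 2 522 554)))))))))))))))))) (both (mv 522 (both (mv 489 (both (five 3 489 490) (mv 521 (both (five 3 488 488) (mv 557 (both (five 0 521 556) (five 0 522 558))))))) (both (mv 553 (both (five 2 521 554) (mv 521 (both (five 2 520 552) (mv 557 (both (five 0 521 556) (five 0 522 558))))))) (mv 490 (both (five 3 489 489) (mv 458 (both (mv 426 (both (five 4 426 555) (mv 393 (both (five 7 393 425) (mv 394 (both (five 7 361 361) (five 4 394 491))))))) (both (mv 493 (both (five 1 490 494) (mv 554 (both (five 2 521 553) (mv 459 (both (five 5 426 427) (mv 586 (both (five 5 458 491) (mv 617 (both (five 6 489 585) (mv 618 (both (five 6 521 649) (mv 619 (both (five 4 490 587) (five 4 522 651))))))))))))))) (mv 426 (both (five 4 426 555) (mv 393 (both (five 7 393 425) (mv 361 (both (five 7 361 394) (mv 427 (both (five 5 394 395) (mv 554 (both (five 5 426 459) (five 2 521 553)))))))))))))))))))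 (both (mv 522 (both (mv 489 (both (five 3 489 490) (mv 521 (both (five 3 488 488) (mv 557 (both (five 0 521 556) (five 0 522 558))))))) (both (mv 490 (both (five 3 489 489) (mv 494 (both (five 1 490 493) (mv 526 (both (five 3 490 491) (five 1 491 495))))))) (mv 493 (both (five 1 490 494) (mv 557 (both (five 0 522 558) (mv 556 (both (five 0 521 521) (mv 461 (both (five 6 428 429) (five 6 460 588)))))))))))) (both (mv 522 (both (mv 489 (both (five 3 489 490) (mv 521 (both (five 3 488 488) (mv 553 (both (five 2 520 552) (five 2 521 554))))))) (both (mv 490 (both (five 3 489 489) (mv 494 (both (five 1 490 493) (mv 526 (both (five 3 490 491) (five 1 491 495))))))) (mv 494 (both (five 1 490 493) (mv 526 (both (five 1 491 495) (mv 554 (both (five 2 521 553) (five 2 522 555)))))))))) (mv 522 (both (mv 554 (both (five 2 521 553) (mv 526 (both (five 2 522 555) (mv 558 (both (five 0 522 557) (five 0 523 559))))))) (both (mv 493 (both (five 1 490 494) (mv 557 (both (five 0 522 558) (mv 556 (both (five 0 521 521) (mv 461 (both (five 6 428 429) (five 6 460 588))))))))) (mv 494 (both (five 1 490 493) (mv 526 (both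 (five 1 491 495) (mv 554 (both (five 2 521 553) (five 2 522 555)))))))))))))))) (both (mv 523 (both (mv 522 (both (mv 554 (both (five 2 521 553) (mv 526 (both (five 2 522 555) (mv 558 (both (five 0 522 557) (five 0 523 559))))))) (both (mv 490 (both (five 3 489 489) (mv 526 (both (five 3 490 491) (mv 558 (both (five 0 522 557) (five 0 523 559))))))) (mv 489 (both (five 3 489 490) (mv 521 (both (five 3 488 488) (mv 553 (both (five 2 520 552) (five 2 521 554)))))))))) (both (mv 526 (both (mv 494 (both (five 1 491 495) (mv 462 (both (mv 430 (both (five 6 429 557) (mv 431 (both (five 5 398 399) (mv 558 (both (five 5 430 463) (five 0 523 559))))))) (both (mv 430 (both (five 6 429 557) (mv 397 (both (five 7 397 429) (mv 398 (both (five 7 365 365) (mv 399 (both (five 5 366 367) (five 5 398 431))))))))) (both (mv 558 (both (five 0 523 559) (mv 429 (both (five 7 429 461) (mv 430 (both (five 7 397 397) (mv 431 (both (five 5 398 399) (five 5 430 463))))))))) (both (mv 558 (both (five 0 523 559) (mv 429 (both (five 7 429 461) (mv 431 (both (five 5 430 463) (mv 589 (both (five 6 461 557) (mv 590 (both (five 6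 493 621) (mv 622 (both (five 7 493 493) (mv 623 (both (five 4 494 591) (five 4 526 655))))))))))))))) (mv 430 (both (five 6 429 557) (mv 429 (both (five 7 397 397) (mv 558 (both (five 7 429 461) (five 0 523 559)))))))))))))) (both (mv 555 (both (five 2 522 554) (mv 587 (both (mv 491 (both (five 3 490 490) (mv 618 (both (five 6 490 586) (mv 619 (both (five 6 522 650) (mv 620 (both (five 4 491 588) (five 4 523 652))))))))) (both (mv 558 (both (five 0 523 559) (mv 619 (both (five 5 491 492) (mv 620 (both (five 4 523 652) (mv 650 (both (five 6 522 618) (mv 651 (both (five 6 554 682) (mv 622 (both (five 2 618 621) (mv 590 (both (five 7 493 493) (mv 648 (both (five 1 616 649) (mv 654 (both (five 7 525 557) (mv 655 (both (five 4 526 623) (five 4 558 687))))))))))))))))))))) (both (mv 491 (both (five 3 490 490) (mv 460 (both (five 5 459 492) (mv 428 (both (five 5 427 459) (mv 558 (both (five 0 523 559) (mv 586 (both (five 6 490 618) (mv 588 (both (five 4 491 620) (mv 589 (both (five 1 554 557) (mv 622 (both (five 0 586 621) (mv 590 (both (five 7 493 493) (five 0 587 623))))))))))))))))))) (mv 491 (both (five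 3 490 490) (mv 492 (both (five 5 459 460) (five 5 491 619))))))))))) (both (mv 555 (both (five 2 522 554) (mv 587 (both (mv 494 (both (five 1 491 495) (mv 619 (both (five 5 491 492) (mv 650 (both (five 6 522 618) (mv 651 (both (five 6 554 682) (mv 652 (both (five 4 523 620) (five 4 555 684))))))))))) (both (mv 491 (both (five 3 490 490) (mv 618 (both (five 6 490 586) (mv 619 (both (five 6 522 650) (mv 620 (both (five 4 491 588) (five 4 523 652))))))))) (mv 491 (both (five 3 490 490) (mv 460 (both (five 5 459 492) (mv 459 (both (five 5 427 428) (mv 426 (both (five 7 426 458) (mv 427 (both (five 7 394 394) (mv 424 (both (five 0 424 425) (mv 462 (both (five 3 426 461) (mv 494 (both (five 1 491 495) (mv 430 (both (five 6 429 557) (mv 397 (both (five 7 397 429) (mv 398 (both (five 7 365 365) (mv 399 (both (five 5 366 367) (five 5 398 431)))))))))))))))))))))))))))))) (mv 555 (both (five 2 522 554) (mv 587 (both (mv 494 (both (five 1 491 495) (mv 558 (both (five 0 523 559) (mv 619 (both (five 5 491 492) (mv 620 (both (five 4 523 652) (mv 650 (both (five 6 522 618) (mv 651 (both (five 6 554 682) (mv 622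 (both (five 2 618 621) (mv 590 (both (five 7 493 493) (mv 623 (both (five 4 494 591) (five 4 526 655))))))))))))))))))) (both (mv 491 (both (five 3 490 490) (mv 618 (both (five 6 490 586) (mv 619 (both (five 6 522 650) (mv 620 (both (five 4 491 588) (five 4 523 652))))))))) (mv 491 (both (five 3 490 490) (mv 460 (both (five 5 459 492) (mv 459 (both (five 5 427 428) (mv 426 (both (five 7 426 458) (mv 427 (both (five 7 394 394) (mv 424 (both (five 0 424 425) (mv 461 (both (five 3 426 462) (mv 494 (both (five 1 491 495) (mv 558 (both (five 0 523 559) (mv 493 (both (five 4 429 429) (five 7 461 590)))))))))))))))))))))))))))))) (both (mv 522 (both (mv 489 (both (five 3 489 490) (mv 521 (both (five 3 488 488) (mv 553 (both (five 2 520 552) (five 2 521 554))))))) (both (mv 493 (both (five 1 490 494) (mv 521 (both (five 1 489 492) (mv 553 (both (five 2 520 552) (five 2 521 554))))))) (both (mv 489 (both (five 3 489 490) (mv 493 (both (five 1 490 494) (mv 521 (both (five 3 488 488) (five 1 489 492))))))) (mv 490 (both (five 3 489 489) (mv 458 (both (mv 426 (both (five 4 426 555) (mv 393 (both (five 7 393 425)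 (mv 394 (both (five 7 361 361) (five 4 394 491))))))) (both (mv 493 (both (five 1 490 494) (mv 554 (both (five 2 521 553) (mv 459 (both (five 5 426 427) (mv 586 (both (five 5 458 491) (mv 617 (both (five 6 489 585) (mv 618 (both (five 6 521 649) (mv 619 (both (five 4 490 587) (five 4 522 651))))))))))))))) (mv 426 (both (five 4 426 555) (mv 393 (both (five 7 393 425) (mv 361 (both (five 7 361 394) (mv 427 (both (five 5 394 395) (mv 554 (both (five 5 426 459) (five 2 521 553)))))))))))))))))))) (both (mv 522 (both (mv 554 (both (five 2 521 553) (mv 526 (both (five 2 522 555) (mv 558 (both (five 0 522 557) (five 0 523 559))))))) (both (mv 493 (both (five 1 490 494) (mv 521 (both (five 1 489 492) (mv 488 (both (five 3 488 489) (mv 520 (both (five 3 487 487) (mv 552 (both (five 2 519 551) (five 2 520 553))))))))))) (mv 493 (both (five 1 490 494) (mv 492 (both (five 1 489 521) (mv 557 (both (five 0 522 558) (mv 460 (both (five 4 428 428) (five 7 460 589)))))))))))) (mv 522 (both (mv 490 (both (five 3 489 489) (mv 526 (both (five 3 490 491) (mv 558 (both (five 0 522 557) (five 0 523 559))))))) (both (mv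 493 (both (five 1 490 494) (mv 492 (both (five 1 489 521) (mv 557 (both (five 0 522 558) (mv 460 (both (five 4 428 428) (five 7 460 589))))))))) (mv 489 (both (five 3 489 490) (mv 493 (both (five 1 490 494) (mv 521 (both (five 3 488 488) (five 1 489 492))))))))))))))) (both (ref 2) (both (mv 523 (both (mv 522 (both (mv 489 (both (five 3 489 490) (mv 521 (both (five 3 488 488) (mv 557 (both (five 0 521 556) (five 0 522 558))))))) (both (mv 554 (both (five 2 521 553) (mv 526 (both (five 2 522 555) (mv 558 (both (five 0 522 557) (five 0 523 559))))))) (mv 489 (both (five 3 489 490) (mv 521 (both (five 3 488 488) (mv 553 (both (five 2 520 552) (five 2 521 554)))))))))) (both (mv 491 (both (mv 490 (both (five 3 490 526) (mv 489 (both (five 0 488 488) (five 0 489 492))))) (both (mv 555 (both (mv 554 (both (five 2 522 526) (mv 553 (both (five 1 520 552) (five 1 521 556))))) (both (mv 587 (both (mv 492 (both (five 5 459 460) (five 5 491 619))) (both (mv 618 (both (five 6 490 586) (mv 619 (both (five 6 522 650) (mv 620 (both (five 4 491 588) (five 4 523 652))))))) (mv 460 (both (five 5 459 492) (mv 459 (both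 (five 5 427 428) (mv 556 (both (five 4 427 427) (five 4 459 588)))))))))) (mv 554 (both (five 2 522 526) (mv 459 (both (five 6 458 586) (mv 426 (both (five 7 426 458) (mv 427 (both (five 7 394 394) (mv 428 (both (five 5 395 396) (five 5 427 460)))))))))))))) (both (mv 556 (both (mv 459 (both (five 4 427 427) (mv 555 (both (mv 554 (both (five 1 521 553) (five 6 458 586))) (mv 426 (both (five 7 426 458) (mv 460 (both (five 5 427 428) (mv 492 (both (five 5 459 587) (mv 461 (both (five 5 428 429) (mv 462 (both (five 2 459 463) (five 2 458 490))))))))))))))) (both (mv 588 (both (five 7 491 620) (mv 492 (both (mv 461 (both (five 5 460 493) (mv 460 (both (five 5 428 429) (mv 587 (both (five 6 459 555) (five 6 491 619))))))) (both (mv 461 (both (five 5 460 493) (mv 460 (both (five 5 428 429) (mv 589 (both (five 4 460 557) (five 4 492 621))))))) (both (mv 461 (both (five 5 460 493) (mv 490 (both (five 0 489 489) (mv 587 (both (five 6 491 619) (mv 555 (both (five 7 458 458) (mv 553 (both (five 1 521 554) (mv 586 (both (five 6 490 618) (mv 557 (both (five 2 554 558) (five 1 553 585))))))))))))))) (mv 587 (both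 (five 6 491 619) (mv 460 (both (five 6 459 555) (mv 589 (both (five 4 460 557) (five 4 492 621))))))))))))) (both (mv 459 (both (five 4 427 427) (mv 588 (both (five 4 459 555) (five 7 491 620))))) (mv 459 (both (five 4 427 427) (mv 588 (both (five 7 459 492) (five 7 491 620))))))))) (mv 459 (both (mv 427 (both (five 4 427 556) (mv 394 (both (five 7 394 426) (mv 395 (both (five 7 362 362) (mv 396 (both (five 5 363 364) (five 5 395 428))))))))) (both (mv 526 (both (five 3 490 490) (mv 555 (both (five 2 522 554) (mv 426 (both (five 7 426 458) (mv 427 (both (five 7 394 394) (mv 428 (both (five 5 395 396) (five 5 427 460))))))))))) (both (mv 526 (both (five 3 490 490) (mv 555 (both (five 2 522 554) (mv 426 (both (five 7 426 458) (mv 428 (both (five 5 427 460) (mv 558 (both (five 0 523 559) (mv 588 (both (five 4 459 556) (mv 587 (both (five 4 491 620) (mv 618 (both (five 6 490 586) (mv 619 (both (five 6 522 650) (mv 590 (both (five 2 586 589) (mv 622 (both (five 7 493 493) (mv 653 (both (five 6 525 621) (mv 654 (both (five 6 557 685) (mv 655 (both (five 4 526 623) (five 4 558 687)))))))))))))))))))))))))))))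 (both (mv 427 (both (five 4 427 556) (mv 396 (both (five 5 395 428) (mv 395 (both (five 5 363 364) (mv 362 (both (five 7 362 394) (mv 363 (both (five 7 330 330) (mv 490 (both (five 6 362 458) (five 3 490 526))))))))))))) (mv 427 (both (five 4 427 556) (mv 394 (both (five 7 394 426) (mv 395 (both (five 7 362 362) (mv 364 (both (five 5 363 396) (mv 363 (both (five 5 331 332) (mv 490 (both (five 6 362 458) (five 3 490 526)))))))))))))))))))))) (both (mv 522 (both (mv 489 (both (five 3 489 490) (mv 521 (both (five 3 488 488) (mv 557 (both (five 0 521 556) (five 0 522 558))))))) (both (mv 489 (both (five 3 489 490) (mv 521 (both (five 3 488 488) (mv 553 (both (five 2 520 552) (five 2 521 554))))))) (both (mv 553 (both (five 2 521 554) (mv 521 (both (five 2 520 552) (mv 557 (both (five 0 521 556) (five 0 522 558))))))) (mv 490 (both (five 3 489 489) (mv 458 (both (mv 426 (both (five 4 426 555) (mv 393 (both (five 7 393 425) (mv 394 (both (five 7 361 361) (five 4 394 491))))))) (both (mv 554 (both (five 2 521 553) (mv 459 (both (five 5 426 427) (mv 557 (both (five 0 522 558) (mv 586 (both (five 5 458 491)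 (mv 585 (both (five 6 489 617) (mv 587 (both (five 4 490 619) (mv 588 (both (five 1 553 556) (mv 621 (both (five 0 585 620) (mv 589 (both (five 7 492 492) (five 0 586 622))))))))))))))))))) (mv 426 (both (five 4 426 555) (mv 393 (both (five 7 393 425) (mv 361 (both (five 7 361 394) (mv 427 (both (five 5 394 395) (mv 554 (both (five 5 426 459) (five 2 521 553)))))))))))))))))))) (both (mv 522 (both (mv 489 (both (five 3 489 490) (mv 521 (both (five 3 488 488) (mv 553 (both (five 2 520 552) (five 2 521 554))))))) (both (mv 521 (both (mv 553 (both (five 2 520 552) (five 2 521 554))) (both (mv 488 (both (five 3 488 489) (mv 520 (both (five 3 487 487) (mv 552 (both (five 2 519 551) (five 2 520 553))))))) (mv 488 (both (five 3 488 489) (mv 520 (both (five 3 487 487) (mv 555 (both (five 0 520 556) (mv 554 (both (five 0 519 519) (five 2 522 526)))))))))))) (both (mv 521 (both (mv 488 (both (five 3 488 489) (mv 520 (both (five 3 487 487) (mv 552 (both (five 2 519 551) (five 2 520 553))))))) (both (mv 552 (both (five 2 520 553) (mv 520 (both (five 2 519 551) (mv 487 (both (five 3 487 488) (mv 491 (both (five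 1 488 492) (mv 490 (both (five 1 487 519) (five 3 490 526))))))))))) (both (mv 490 (both (five 3 489 489) (mv 491 (both (five 3 490 526) (mv 520 (both (five 1 488 492) (five 1 487 519))))))) (mv 489 (both (five 3 488 488) (five 3 489 490))))))) (both (mv 554 (both (five 2 521 553) (mv 491 (both (mv 526 (both (five 3 490 490) (five 2 522 555))) (both (mv 459 (both (five 6 426 427) (mv 586 (both (five 5 458 490) (five 6 458 555))))) (both (mv 459 (both (five 6 426 427) (mv 490 (both (five 3 490 526) (five 5 458 586))))) (mv 459 (both (five 6 426 427) (mv 555 (both (five 2 522 526) (five 6 458 586))))))))))) (mv 490 (both (five 3 489 489) (mv 555 (both (mv 526 (both (five 3 490 491) (five 2 522 554))) (both (mv 458 (both (five 4 426 426) (mv 587 (both (five 7 458 491) (five 4 458 554))))) (both (mv 458 (both (five 4 426 426) (mv 554 (both (five 2 522 526) (five 4 458 587))))) (mv 426 (both (five 4 426 458) (mv 491 (both (five 3 490 526) (mv 587 (both (five 7 490 619) (mv 460 (both (five 5 459 492) (mv 459 (both (five 5 427 428) (mv 427 (both (five 7 394 394) (five 6 394 395)))))))))))))))))))))))) (both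 (mv 522 (both (mv 554 (both (five 2 521 553) (mv 526 (both (five 2 522 555) (mv 558 (both (five 0 522 557) (five 0 523 559))))))) (both (mv 490 (both (five 3 489 489) (mv 526 (both (five 3 490 491) (mv 558 (both (five 0 522 557) (five 0 523 559))))))) (mv 489 (both (five 3 489 490) (mv 521 (both (five 3 488 488) (mv 553 (both (five 2 520 552) (five 2 521 554)))))))))) (both (mv 522 (both (mv 554 (both (five 2 521 553) (mv 526 (both (five 2 522 555) (mv 558 (both (five 0 522 557) (five 0 523 559))))))) (both (mv 521 (both (mv 553 (both (five 2 520 552) (five 2 521 554))) (both (mv 488 (both (five 3 488 489) (mv 520 (both (five 3 487 487) (mv 552 (both (five 2 519 551) (five 2 520 553))))))) (mv 488 (both (five 3 488 489) (mv 520 (both (five 3 487 487) (mv 555 (both (five 0 520 556) (mv 554 (both (five 0 519 519) (five 2 522 526)))))))))))) (mv 557 (both (five 0 522 558) (mv 521 (both (five 0 521 556) (mv 488 (both (five 3 488 489) (mv 492 (both (five 1 489 493) (mv 520 (both (five 3 487 487) (five 1 488 491)))))))))))))) (both (mv 522 (both (mv 557 (both (five 0 522 558) (mv 521 (both (five 0 521 556)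 (mv 488 (both (five 3 488 489) (mv 520 (both (five 3 487 487) (mv 552 (both (five 2 519 551) (five 2 520 553))))))))))) (both (mv 521 (both (mv 488 (both (five 3 488 489) (mv 520 (both (five 3 487 487) (mv 552 (both (five 2 519 551) (five 2 520 553))))))) (both (mv 552 (both (five 2 520 553) (mv 520 (both (five 2 519 551) (mv 487 (both (five 3 487 488) (mv 491 (both (five 1 488 492) (mv 490 (both (five 1 487 519) (five 3 490 526))))))))))) (both (mv 490 (both (five 3 489 489) (mv 491 (both (five 3 490 526) (mv 520 (both (five 1 488 492) (five 1 487 519))))))) (mv 489 (both (five 3 488 488) (five 3 489 490))))))) (both (mv 557 (both (five 0 522 558) (mv 521 (both (five 0 521 556) (mv 552 (both (five 2 520 553) (mv 520 (both (five 2 519 551) (mv 487 (both (five 3 487 488) (mv 491 (both (five 1 488 492) (mv 490 (both (five 1 487 519) (five 3 490 526))))))))))))))) (mv 490 (both (five 3 489 489) (mv 526 (both (five 3 490 491) (mv 558 (both (five 0 522 557) (five 0 523 559))))))))))) (both (mv 522 (both (mv 557 (both (five 0 522 558) (mv 521 (both (five 0 521 556) (mv 552 (both (five 2 520 553) (mv 520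 (both (five 2 519 551) (mv 487 (both (five 3 487 488) (mv 491 (both (five 1 488 492) (mv 490 (both (five 1 487 519) (five 3 490 526))))))))))))))) (both (mv 554 (both (five 2 521 553) (mv 491 (both (mv 526 (both (five 3 490 490) (five 2 522 555))) (both (mv 459 (both (five 6 426 427) (mv 586 (both (five 5 458 490) (five 6 458 555))))) (both (mv 459 (both (five 6 426 427) (mv 490 (both (five 3 490 526) (five 5 458 586))))) (mv 459 (both (five 6 426 427) (mv 555 (both (five 2 522 526) (five 6 458 586))))))))))) (both (mv 557 (both (five 0 522 558) (mv 521 (both (five 0 521 556) (mv 492 (both (five 1 489 493) (mv 460 (both (five 4 428 428) (mv 491 (both (five 1 488 520) (mv 526 (both (five 3 490 490) (mv 555 (both (five 2 522 554) (five 5 459 587))))))))))))))) (mv 553 (both (five 2 521 554) (mv 521 (both (five 2 520 552) (mv 557 (both (five 0 521 556) (five 0 522 558))))))))))) (both (mv 522 (both (mv 489 (both (five 3 489 490) (mv 521 (both (five 3 488 488) (mv 557 (both (five 0 521 556) (five 0 522 558))))))) (both (mv 557 (both (five 0 522 558) (mv 521 (both (five 0 521 556) (mv 488 (both (five 3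 488 489) (mv 492 (both (five 1 489 493) (mv 520 (both (five 3 487 487) (five 1 488 491))))))))))) (both (mv 490 (both (five 3 489 489) (mv 555 (both (mv 526 (both (five 3 490 491) (five 2 522 554))) (both (mv 458 (both (five 4 426 426) (mv 587 (both (five 7 458 491) (five 4 458 554))))) (both (mv 458 (both (five 4 426 426) (mv 554 (both (five 2 522 526) (five 4 458 587))))) (mv 426 (both (five 4 426 458) (mv 491 (both (five 3 490 526) (mv 587 (both (five 7 490 619) (mv 460 (both (five 5 459 492) (mv 459 (both (five 5 427 428) (mv 427 (both (five 7 394 394) (five 6 394 395))))))))))))))))))) (mv 557 (both (five 0 522 558) (mv 521 (both (five 0 521 556) (mv 492 (both (five 1 489 493) (mv 460 (both (five 4 428 428) (mv 491 (both (five 1 488 520) (mv 526 (both (five 3 490 490) (mv 555 (both (five 2 522 554) (five 5 459 587))))))))))))))))))) (mv 522 (both (mv 490 (both (five 3 489 489) (mv 526 (both (five 3 490 491) (mv 558 (both (five 0 522 557) (five 0 523 559))))))) (both (mv 490 (both (five 3 489 489) (mv 491 (both (five 3 490 526) (mv 554 (both (five 2 521 553) (mv 459 (both (five 6 426 427) (five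 5 458 586))))))))) (mv 553 (both (five 2 521 554) (mv 521 (both (five 2 520 552) (mv 557 (both (five 0 521 556) (five 0 522 558)))))))))))))))))))) (both (ref 3) (both (mv 523 (both (mv 522 (both (mv 489 (both (five 3 489 490) (mv 521 (both (five 3 488 488) (mv 557 (both (five 0 521 556) (five 0 522 558))))))) (both (mv 554 (both (five 2 521 553) (mv 526 (both (five 2 522 555) (mv 558 (both (five 0 522 557) (five 0 523 559))))))) (mv 489 (both (five 3 489 490) (mv 521 (both (five 3 488 488) (mv 553 (both (five 2 520 552) (five 2 521 554)))))))))) (both (mv 526 (both (mv 494 (both (five 1 491 495) (mv 462 (both (mv 430 (both (five 6 429 557) (mv 431 (both (five 5 398 399) (mv 558 (both (five 5 430 463) (five 0 523 559))))))) (both (mv 430 (both (five 6 429 557) (mv 397 (both (five 7 397 429) (mv 398 (both (five 7 365 365) (mv 399 (both (five 5 366 367) (five 5 398 431))))))))) (both (mv 558 (both (five 0 523 559) (mv 429 (both (five 7 429 461) (mv 430 (both (five 7 397 397) (mv 431 (both (five 5 398 399) (five 5 430 463))))))))) (both (mv 558 (both (five 0 523 559) (mv 429 (both (five 7 429 461) (mv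 431 (both (five 5 430 463) (mv 589 (both (five 6 461 557) (mv 590 (both (five 6 493 621) (mv 622 (both (five 7 493 493) (mv 623 (both (five 4 494 591) (five 4 526 655))))))))))))))) (mv 430 (both (five 6 429 557) (mv 429 (both (five 7 397 397) (mv 558 (both (five 7 429 461) (five 0 523 559)))))))))))))) (both (mv 491 (both (five 3 490 490) (mv 459 (both (mv 427 (both (five 4 427 556) (mv 394 (both (five 7 394 426) (mv 395 (both (five 7 362 362) (five 4 395 492))))))) (both (mv 555 (both (five 2 522 554) (mv 426 (both (five 7 426 458) (mv 427 (both (five 7 394 394) (mv 395 (both (five 4 395 492) (mv 396 (both (five 5 363 364) (five 5 395 428))))))))))) (mv 555 (both (five 2 522 554) (mv 558 (both (five 0 523 559) (mv 588 (both (five 4 459 556) (mv 587 (both (five 4 491 620) (mv 618 (both (five 6 490 586) (mv 619 (both (five 6 522 650) (mv 590 (both (five 2 586 589) (mv 622 (both (five 7 493 493) (mv 653 (both (five 6 525 621) (mv 654 (both (five 6 557 685) (mv 655 (both (five 4 526 623) (five 4 558 687)))))))))))))))))))))))))))) (both (mv 491 (both (five 3 490 490) (mv 459 (both (mv 427 (both (five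 4 427 556) (mv 394 (both (five 7 394 426) (mv 395 (both (five 7 362 362) (five 4 395 492))))))) (both (mv 555 (both (five 2 522 554) (mv 426 (both (five 7 426 458) (mv 427 (both (five 7 394 394) (mv 395 (both (five 4 395 492) (mv 396 (both (five 5 363 364) (five 5 395 428))))))))))) (mv 494 (both (five 1 491 495) (mv 555 (both (five 2 522 554) (mv 588 (both (five 4 459 556) (mv 587 (both (five 4 491 620) (mv 618 (both (five 6 490 586) (mv 619 (both (five 6 522 650) (mv 589 (both (five 2 586 590) (mv 557 (both (five 5 493 621) (mv 462 (both (five 6 429 430) (five 5 461 493)))))))))))))))))))))))) (mv 491 (both (five 3 490 490) (mv 459 (both (mv 555 (both (five 2 522 554) (mv 426 (both (five 7 426 458) (mv 427 (both (five 7 394 394) (mv 395 (both (five 4 395 492) (mv 396 (both (five 5 363 364) (five 5 395 428))))))))))) (both (mv 494 (both (five 1 491 495) (mv 555 (both (five 2 522 554) (mv 426 (both (five 7 426 458) (mv 558 (both (five 0 523 559) (mv 588 (both (five 4 459 556) (mv 587 (both (five 4 491 620) (mv 618 (both (five 6 490 586) (mv 619 (both (five 5 491 492) (five 6 522 650)))))))))))))))))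 (both (mv 427 (both (five 4 427 556) (mv 426 (both (five 7 394 394) (mv 555 (both (five 7 426 458) (five 2 522 554))))))) (mv 427 (both (five 4 427 556) (mv 395 (both (five 4 395 492) (mv 396 (both (five 5 363 364) (five 5 395 428))))))))))))))))) (both (mv 522 (both (mv 489 (both (five 3 489 490) (mv 521 (both (five 3 488 488) (mv 553 (both (five 2 520 552) (five 2 521 554))))))) (both (mv 493 (both (five 1 490 494) (mv 521 (both (five 1 489 492) (mv 553 (both (five 2 520 552) (five 2 521 554))))))) (both (mv 489 (both (five 3 489 490) (mv 493 (both (five 1 490 494) (mv 521 (both (five 3 488 488) (five 1 489 492))))))) (mv 490 (both (five 3 489 489) (mv 458 (both (mv 426 (both (five 4 426 555) (mv 393 (both (five 7 393 425) (mv 394 (both (five 7 361 361) (five 4 394 491))))))) (both (mv 493 (both (five 1 490 494) (mv 554 (both (five 2 521 553) (mv 459 (both (five 5 426 427) (mv 586 (both (five 5 458 491) (mv 617 (both (five 6 489 585) (mv 618 (both (five 6 521 649) (mv 619 (both (five 4 490 587) (five 4 522 651))))))))))))))) (mv 426 (both (five 4 426 555) (mv 393 (both (five 7 393 425) (mv 361 (both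 (five 7 361 394) (mv 427 (both (five 5 394 395) (mv 554 (both (five 5 426 459) (five 2 521 553)))))))))))))))))))) (both (mv 522 (both (mv 554 (both (five 2 521 553) (mv 526 (both (five 2 522 555) (mv 558 (both (five 0 522 557) (five 0 523 559))))))) (both (mv 493 (both (five 1 490 494) (mv 557 (both (five 0 522 558) (mv 556 (both (five 0 521 521) (mv 461 (both (five 6 428 429) (five 6 460 588))))))))) (mv 494 (both (five 1 490 493) (mv 526 (both (five 1 491 495) (mv 554 (both (five 2 521 553) (five 2 522 555)))))))))) (mv 522 (both (mv 489 (both (five 3 489 490) (mv 521 (both (five 3 488 488) (mv 557 (both (five 0 521 556) (five 0 522 558))))))) (both (mv 490 (both (five 3 489 489) (mv 494 (both (five 1 490 493) (mv 526 (both (five 3 490 491) (five 1 491 495))))))) (mv 493 (both (five 1 490 494) (mv 557 (both (five 0 522 558) (mv 556 (both (five 0 521 521) (mv 461 (both (five 6 428 429) (five 6 460 588))))))))))))))))) (both (ref 4) (both (ref 5) (both (mv 523 (both (mv 522 (both (mv 489 (both (five 3 489 490) (mv 521 (both (five 3 488 488) (mv 557 (both (five 0 521 556) (five 0 522 558))))))) (both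 (mv 554 (both (five 2 521 553) (mv 526 (both (five 2 522 555) (mv 558 (both (five 0 522 557) (five 0 523 559))))))) (mv 489 (both (five 3 489 490) (mv 521 (both (five 3 488 488) (mv 553 (both (five 2 520 552) (five 2 521 554)))))))))) (both (mv 526 (both (mv 494 (both (five 1 491 495) (mv 462 (both (mv 430 (both (five 6 429 557) (mv 397 (both (five 7 397 429) (mv 398 (both (five 7 365 365) (mv 399 (both (five 5 366 367) (five 5 398 431))))))))) (both (mv 558 (both (five 0 523 559) (mv 431 (both (five 5 430 463) (mv 430 (both (five 5 398 399) (mv 397 (both (five 7 397 429) (mv 398 (both (five 7 365 365) (five 6 397 493))))))))))) (mv 558 (both (five 0 523 559) (mv 589 (both (five 6 461 557) (mv 590 (both (five 6 493 621) (mv 622 (both (five 7 493 493) (mv 623 (both (five 4 494 591) (five 4 526 655)))))))))))))))) (both (mv 491 (both (five 3 490 490) (mv 459 (both (mv 427 (both (five 4 427 556) (mv 394 (both (five 7 394 426) (mv 395 (both (five 7 362 362) (five 4 395 492))))))) (both (mv 555 (both (five 2 522 554) (mv 426 (both (five 7 426 458) (mv 460 (both (five 5 427 428) (mv 558 (both (five 0 523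 559) (mv 587 (both (five 5 459 492) (mv 618 (both (five 6 490 586) (mv 619 (both (five 6 522 650) (mv 651 (both (five 5 523 556) (mv 652 (both (five 4 523 620) (five 4 555 684))))))))))))))))))) (both (mv 555 (both (five 2 522 554) (mv 426 (both (five 7 426 458) (mv 427 (both (five 7 394 394) (mv 428 (both (five 5 395 396) (five 5 427 460))))))))) (mv 427 (both (five 4 427 556) (mv 428 (both (five 5 395 396) (mv 555 (both (five 5 427 460) (five 2 522 554))))))))))))) (mv 491 (both (five 3 490 490) (mv 459 (both (mv 427 (both (five 4 427 556) (mv 394 (both (five 7 394 426) (mv 395 (both (five 7 362 362) (five 4 395 492))))))) (both (mv 494 (both (five 1 491 495) (mv 555 (both (five 2 522 554) (mv 426 (both (five 7 426 458) (mv 460 (both (five 5 427 428) (mv 587 (both (five 5 459 492) (mv 618 (both (five 6 490 586) (mv 619 (both (five 6 522 650) (mv 651 (both (five 5 523 556) (mv 652 (both (five 4 523 620) (five 4 555 684))))))))))))))))))) (both (mv 555 (both (five 2 522 554) (mv 426 (both (five 7 426 458) (mv 427 (both (five 7 394 394) (mv 428 (both (five 5 395 396) (five 5 427 460))))))))) (mv 427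 (both (five 4 427 556) (mv 428 (both (five 5 395 396) (mv 555 (both (five 5 427 460) (five 2 522 554)))))))))))))))) (both (mv 522 (both (mv 489 (both (five 3 489 490) (mv 521 (both (five 3 488 488) (mv 553 (both (five 2 520 552) (five 2 521 554))))))) (both (mv 493 (both (five 1 490 494) (mv 521 (both (five 1 489 492) (mv 553 (both (five 2 520 552) (five 2 521 554))))))) (both (mv 489 (both (five 3 489 490) (mv 493 (both (five 1 490 494) (mv 521 (both (five 3 488 488) (five 1 489 492))))))) (mv 490 (both (five 3 489 489) (mv 458 (both (mv 426 (both (five 4 426 555) (mv 393 (both (five 7 393 425) (mv 394 (both (five 7 361 361) (five 4 394 491))))))) (both (mv 493 (both (five 1 490 494) (mv 554 (both (five 2 521 553) (mv 459 (both (five 5 426 427) (mv 586 (both (five 5 458 491) (mv 617 (both (five 6 489 585) (mv 618 (both (five 6 521 649) (mv 619 (both (five 4 490 587) (five 4 522 651))))))))))))))) (mv 426 (both (five 4 426 555) (mv 393 (both (five 7 393 425) (mv 361 (both (five 7 361 394) (mv 427 (both (five 5 394 395) (mv 554 (both (five 5 426 459) (five 2 521 553)))))))))))))))))))) (both (mv 522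 (both (mv 493 (both (five 1 490 494) (mv 521 (both (five 1 489 492) (mv 488 (both (five 3 488 489) (mv 520 (both (five 3 487 487) (mv 552 (both (five 2 519 551) (five 2 520 553))))))))))) (both (mv 521 (both (mv 553 (both (five 2 520 552) (five 2 521 554))) (both (mv 488 (both (five 3 488 489) (mv 520 (both (five 3 487 487) (mv 552 (both (five 2 519 551) (five 2 520 553))))))) (mv 488 (both (five 3 488 489) (mv 520 (both (five 3 487 487) (mv 555 (both (five 0 520 556) (mv 554 (both (five 0 519 519) (five 2 522 526)))))))))))) (both (mv 493 (both (five 1 490 494) (mv 521 (both (five 1 489 492) (mv 488 (both (five 3 488 489) (mv 520 (both (five 3 487 487) (mv 555 (both (five 0 520 556) (mv 554 (both (five 0 519 519) (five 2 522 526))))))))))))) (mv 494 (both (five 1 490 493) (mv 526 (both (five 1 491 495) (mv 554 (both (five 2 521 553) (five 2 522 555))))))))))) (mv 522 (both (mv 490 (both (five 3 489 489) (mv 526 (both (five 3 490 491) (mv 558 (both (five 0 522 557) (five 0 523 559))))))) (both (mv 493 (both (five 1 490 494) (mv 492 (both (five 1 489 521) (mv 557 (both (five 0 522 558) (mv 460 (both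 (five 4 428 428) (five 7 460 589))))))))) (mv 489 (both (five 3 489 490) (mv 493 (both (five 1 490 494) (mv 521 (both (five 3 488 488) (five 1 489 492))))))))))))))) (both (mv 523 (both (mv 522 (both (mv 489 (both (five 3 489 490) (mv 521 (both (five 3 488 488) (mv 557 (both (five 0 521 556) (five 0 522 558))))))) (both (mv 554 (both (five 2 521 553) (mv 526 (both (five 2 522 555) (mv 558 (both (five 0 522 557) (five 0 523 559))))))) (mv 489 (both (five 3 489 490) (mv 521 (both (five 3 488 488) (mv 553 (both (five 2 520 552) (five 2 521 554)))))))))) (both (mv 526 (both (mv 491 (both (five 3 490 490) (mv 459 (both (mv 427 (both (five 4 427 556) (mv 394 (both (five 7 394 426) (mv 395 (both (five 7 362 362) (five 4 395 492))))))) (both (mv 555 (both (five 2 522 554) (mv 460 (both (five 5 427 428) (mv 587 (both (five 5 459 492) (mv 618 (both (five 6 490 586) (mv 619 (both (five 6 522 650) (mv 620 (both (five 4 491 588) (five 4 523 652))))))))))))) (mv 427 (both (five 4 427 556) (mv 394 (both (five 7 394 426) (mv 362 (both (five 7 362 395) (mv 428 (both (five 5 395 396) (mv 555 (both (five 5 427 460)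 (five 2 522 554)))))))))))))))) (mv 494 (both (five 1 491 495) (mv 462 (both (mv 430 (both (five 6 429 557) (mv 431 (both (five 5 398 399) (mv 558 (both (five 5 430 463) (five 0 523 559))))))) (both (mv 430 (both (five 6 429 557) (mv 397 (both (five 7 397 429) (mv 398 (both (five 7 365 365) (mv 399 (both (five 5 366 367) (five 5 398 431))))))))) (both (mv 558 (both (five 0 523 559) (mv 431 (both (five 5 430 463) (mv 461 (both (five 7 429 429) (mv 590 (both (five 7 461 493) (mv 623 (both (five 4 494 591) (mv 622 (both (five 4 526 655) (mv 653 (both (five 6 525 621) (mv 654 (both (five 7 525 557) (five 6 557 685))))))))))))))))) (both (mv 558 (both (five 0 523 559) (mv 429 (both (five 7 429 461) (mv 430 (both (five 7 397 397) (mv 431 (both (five 5 398 399) (five 5 430 463))))))))) (mv 430 (both (five 6 429 557) (mv 429 (both (five 7 397 397) (mv 558 (both (five 7 429 461) (five 0 523 559)))))))))))))))) (both (mv 522 (both (mv 489 (both (five 3 489 490) (mv 521 (both (five 3 488 488) (mv 553 (both (five 2 520 552) (five 2 521 554))))))) (both (mv 493 (both (five 1 490 494) (mv 521 (both (five 1 489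 492) (mv 553 (both (five 2 520 552) (five 2 521 554))))))) (both (mv 489 (both (five 3 489 490) (mv 493 (both (five 1 490 494) (mv 521 (both (five 3 488 488) (five 1 489 492))))))) (mv 490 (both (five 3 489 489) (mv 458 (both (mv 426 (both (five 4 426 555) (mv 393 (both (five 7 393 425) (mv 394 (both (five 7 361 361) (five 4 394 491))))))) (both (mv 493 (both (five 1 490 494) (mv 554 (both (five 2 521 553) (mv 459 (both (five 5 426 427) (mv 586 (both (five 5 458 491) (mv 617 (both (five 6 489 585) (mv 618 (both (five 6 521 649) (mv 619 (both (five 4 490 587) (five 4 522 651))))))))))))))) (mv 426 (both (five 4 426 555) (mv 393 (both (five 7 393 425) (mv 361 (both (five 7 361 394) (mv 427 (both (five 5 394 395) (mv 554 (both (five 5 426 459) (five 2 521 553)))))))))))))))))))) (both (mv 522 (both (mv 554 (both (five 2 521 553) (mv 526 (both (five 2 522 555) (mv 558 (both (five 0 522 557) (five 0 523 559))))))) (both (mv 493 (both (five 1 490 494) (mv 557 (both (five 0 522 558) (mv 556 (both (five 0 521 521) (mv 461 (both (five 6 428 429) (five 6 460 588))))))))) (mv 494 (both (five 1 490 493) (mv 526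 (both (five 1 491 495) (mv 554 (both (five 2 521 553) (five 2 522 555)))))))))) (mv 522 (both (mv 489 (both (five 3 489 490) (mv 521 (both (five 3 488 488) (mv 557 (both (five 0 521 556) (five 0 522 558))))))) (both (mv 490 (both (five 3 489 489) (mv 494 (both (five 1 490 493) (mv 526 (both (five 3 490 491) (five 1 491 495))))))) (mv 493 (both (five 1 490 494) (mv 557 (both (five 0 522 558) (mv 556 (both (five 0 521 521) (mv 461 (both (five 6 428 429) (five 6 460 588))))))))))))))))) (both (mv 523 (both (mv 522 (both (mv 489 (both (five 3 489 490) (mv 521 (both (five 3 488 488) (mv 557 (both (five 0 521 556) (five 0 522 558))))))) (both (mv 554 (both (five 2 521 553) (mv 526 (both (five 2 522 555) (mv 558 (both (five 0 522 557) (five 0 523 559))))))) (mv 489 (both (five 3 489 490) (mv 521 (both (five 3 488 488) (mv 553 (both (five 2 520 552) (five 2 521 554)))))))))) (both (mv 526 (both (mv 494 (both (five 1 491 495) (mv 462 (both (mv 430 (both (five 6 429 557) (mv 397 (both (five 7 397 429) (mv 398 (both (five 7 365 365) (mv 399 (both (five 5 366 367) (five 5 398 431))))))))) (both (mv 558 (both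 (five 0 523 559) (mv 431 (both (five 5 430 463) (mv 430 (both (five 5 398 399) (mv 397 (both (five 7 397 429) (mv 398 (both (five 7 365 365) (five 6 397 493))))))))))) (mv 558 (both (five 0 523 559) (mv 589 (both (five 6 461 557) (mv 590 (both (five 6 493 621) (mv 622 (both (five 7 493 493) (mv 623 (both (five 4 494 591) (five 4 526 655)))))))))))))))) (both (mv 491 (both (five 3 490 490) (mv 459 (both (mv 427 (both (five 4 427 556) (mv 394 (both (five 7 394 426) (mv 395 (both (five 7 362 362) (five 4 395 492))))))) (both (mv 555 (both (five 2 522 554) (mv 426 (both (five 7 426 458) (mv 427 (both (five 7 394 394) (mv 492 (both (five 4 395 395) (mv 587 (both (five 5 459 460) (five 5 491 619))))))))))) (mv 494 (both (five 1 491 495) (mv 555 (both (five 2 522 554) (mv 588 (both (five 4 459 556) (mv 587 (both (five 4 491 620) (mv 618 (both (five 6 490 586) (mv 619 (both (five 6 522 650) (mv 589 (both (five 2 586 590) (mv 557 (both (five 5 493 621) (mv 462 (both (five 6 429 430) (five 5 461 493)))))))))))))))))))))))) (mv 491 (both (five 3 490 490) (mv 459 (both (mv 555 (both (five 2 522 554) (mv 426 (both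 (five 7 426 458) (mv 427 (both (five 7 394 394) (mv 492 (both (five 4 395 395) (mv 587 (both (five 5 459 460) (five 5 491 619))))))))))) (both (mv 555 (both (five 2 522 554) (mv 426 (both (five 7 426 458) (mv 558 (both (five 0 523 559) (mv 588 (both (five 4 459 556) (mv 587 (both (five 4 491 620) (mv 618 (both (five 6 490 586) (mv 619 (both (five 5 491 492) (five 6 522 650))))))))))))))) (both (mv 427 (both (five 4 427 556) (mv 426 (both (five 7 394 394) (mv 555 (both (five 7 426 458) (five 2 522 554))))))) (mv 427 (both (five 4 427 556) (mv 395 (both (five 4 395 492) (mv 362 (both (five 7 362 394) (mv 363 (both (five 7 330 330) (mv 364 (both (five 5 331 332) (five 5 363 396)))))))))))))))))))) (both (mv 522 (both (mv 489 (both (five 3 489 490) (mv 521 (both (five 3 488 488) (mv 553 (both (five 2 520 552) (five 2 521 554))))))) (both (mv 493 (both (five 1 490 494) (mv 521 (both (five 1 489 492) (mv 553 (both (five 2 520 552) (five 2 521 554))))))) (both (mv 489 (both (five 3 489 490) (mv 493 (both (five 1 490 494) (mv 521 (both (five 3 488 488) (five 1 489 492))))))) (mv 490 (both (five 3 489 489)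 (mv 458 (both (mv 426 (both (five 4 426 555) (mv 393 (both (five 7 393 425) (mv 394 (both (five 7 361 361) (five 4 394 491))))))) (both (mv 493 (both (five 1 490 494) (mv 554 (both (five 2 521 553) (mv 459 (both (five 5 426 427) (mv 586 (both (five 5 458 491) (mv 617 (both (five 6 489 585) (mv 618 (both (five 6 521 649) (mv 619 (both (five 4 490 587) (five 4 522 651))))))))))))))) (mv 426 (both (five 4 426 555) (mv 393 (both (five 7 393 425) (mv 361 (both (five 7 361 394) (mv 427 (both (five 5 394 395) (mv 554 (both (five 5 426 459) (five 2 521 553)))))))))))))))))))) (both (mv 522 (both (mv 554 (both (five 2 521 553) (mv 526 (both (five 2 522 555) (mv 558 (both (five 0 522 557) (five 0 523 559))))))) (both (mv 493 (both (five 1 490 494) (mv 557 (both (five 0 522 558) (mv 556 (both (five 0 521 521) (mv 461 (both (five 6 428 429) (five 6 460 588))))))))) (mv 494 (both (five 1 490 493) (mv 526 (both (five 1 491 495) (mv 554 (both (five 2 521 553) (five 2 522 555)))))))))) (mv 522 (both (mv 489 (both (five 3 489 490) (mv 521 (both (five 3 488 488) (mv 557 (both (five 0 521 556) (five 0 522 558)))))))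 (both (mv 490 (both (five 3 489 489) (mv 494 (both (five 1 490 493) (mv 526 (both (five 3 490 491) (five 1 491 495))))))) (mv 493 (both (five 1 490 494) (mv 557 (both (five 0 522 558) (mv 556 (both (five 0 521 521) (mv 461 (both (five 6 428 429) (five 6 460 588))))))))))))))))) (both (mv 523 (both (mv 522 (both (mv 489 (both (five 3 489 490) (mv 521 (both (five 3 488 488) (mv 557 (both (five 0 521 556) (five 0 522 558))))))) (both (mv 554 (both (five 2 521 553) (mv 526 (both (five 2 522 555) (mv 558 (both (five 0 522 557) (five 0 523 559))))))) (mv 489 (both (five 3 489 490) (mv 521 (both (five 3 488 488) (mv 553 (both (five 2 520 552) (five 2 521 554)))))))))) (both (mv 526 (both (mv 491 (both (five 3 490 490) (mv 459 (both (mv 427 (both (five 4 427 556) (mv 394 (both (five 7 394 426) (mv 395 (both (five 7 362 362) (five 4 395 492))))))) (both (mv 555 (both (five 2 522 554) (mv 460 (both (five 5 427 428) (mv 587 (both (five 5 459 492) (mv 618 (both (five 6 490 586) (mv 619 (both (five 6 522 650) (mv 620 (both (five 4 491 588) (five 4 523 652))))))))))))) (mv 427 (both (five 4 427 556) (mv 394 (both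 (five 7 394 426) (mv 362 (both (five 7 362 395) (mv 428 (both (five 5 395 396) (mv 555 (both (five 5 427 460) (five 2 522 554)))))))))))))))) (mv 494 (both (five 1 491 495) (mv 462 (both (mv 430 (both (five 6 429 557) (mv 431 (both (five 5 398 399) (mv 558 (both (five 5 430 463) (five 0 523 559))))))) (both (mv 430 (both (five 6 429 557) (mv 398 (both (five 6 397 493) (mv 365 (both (five 7 365 397) (mv 366 (both (five 7 333 333) (mv 367 (both (five 5 334 335) (five 5 366 399))))))))))) (both (mv 558 (both (five 0 523 559) (mv 431 (both (five 5 430 463) (mv 430 (both (five 5 398 399) (mv 493 (both (five 6 397 398) (mv 590 (both (five 7 461 461) (five 7 493 622))))))))))) (mv 558 (both (five 0 523 559) (mv 589 (both (five 6 461 557) (mv 590 (both (five 6 493 621) (mv 622 (both (five 7 493 493) (mv 623 (both (five 4 494 591) (five 4 526 655))))))))))))))))))) (both (mv 522 (both (mv 489 (both (five 3 489 490) (mv 521 (both (five 3 488 488) (mv 553 (both (five 2 520 552) (five 2 521 554))))))) (both (mv 493 (both (five 1 490 494) (mv 521 (both (five 1 489 492) (mv 553 (both (five 2 520 552) (five 2 521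 554))))))) (both (mv 489 (both (five 3 489 490) (mv 493 (both (five 1 490 494) (mv 521 (both (five 3 488 488) (five 1 489 492))))))) (mv 490 (both (five 3 489 489) (mv 458 (both (mv 426 (both (five 4 426 555) (mv 393 (both (five 7 393 425) (mv 394 (both (five 7 361 361) (five 4 394 491))))))) (both (mv 493 (both (five 1 490 494) (mv 554 (both (five 2 521 553) (mv 459 (both (five 5 426 427) (mv 586 (both (five 5 458 491) (mv 617 (both (five 6 489 585) (mv 618 (both (five 6 521 649) (mv 619 (both (five 4 490 587) (five 4 522 651))))))))))))))) (mv 426 (both (five 4 426 555) (mv 393 (both (five 7 393 425) (mv 361 (both (five 7 361 394) (mv 427 (both (five 5 394 395) (mv 554 (both (five 5 426 459) (five 2 521 553)))))))))))))))))))) (both (mv 522 (both (mv 493 (both (five 1 490 494) (mv 521 (both (five 1 489 492) (mv 488 (both (five 3 488 489) (mv 520 (both (five 3 487 487) (mv 552 (both (five 2 519 551) (five 2 520 553))))))))))) (both (mv 521 (both (mv 553 (both (five 2 520 552) (five 2 521 554))) (both (mv 488 (both (five 3 488 489) (mv 520 (both (five 3 487 487) (mv 552 (both (five 2 519 551) (five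 2 520 553))))))) (mv 488 (both (five 3 488 489) (mv 520 (both (five 3 487 487) (mv 555 (both (five 0 520 556) (mv 554 (both (five 0 519 519) (five 2 522 526)))))))))))) (both (mv 493 (both (five 1 490 494) (mv 521 (both (five 1 489 492) (mv 488 (both (five 3 488 489) (mv 520 (both (five 3 487 487) (mv 555 (both (five 0 520 556) (mv 554 (both (five 0 519 519) (five 2 522 526))))))))))))) (mv 494 (both (five 1 490 493) (mv 526 (both (five 1 491 495) (mv 554 (both (five 2 521 553) (five 2 522 555))))))))))) (mv 522 (both (mv 490 (both (five 3 489 489) (mv 526 (both (five 3 490 491) (mv 558 (both (five 0 522 557) (five 0 523 559))))))) (both (mv 493 (both (five 1 490 494) (mv 492 (both (five 1 489 521) (mv 557 (both (five 0 522 558) (mv 460 (both (five 4 428 428) (five 7 460 589))))))))) (mv 489 (both (five 3 489 490) (mv 493 (both (five 1 490 494) (mv 521 (both (five 3 488 488) (five 1 489 492))))))))))))))) (both (mv 523 (both (mv 522 (both (mv 489 (both (five 3 489 490) (mv 521 (both (five 3 488 488) (mv 557 (both (five 0 521 556) (five 0 522 558))))))) (both (mv 554 (both (five 2 521 553) (mv 526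 (both (five 2 522 555) (mv 558 (both (five 0 522 557) (five 0 523 559))))))) (mv 489 (both (five 3 489 490) (mv 521 (both (five 3 488 488) (mv 553 (both (five 2 520 552) (five 2 521 554)))))))))) (both (mv 526 (both (mv 494 (both (five 1 491 495) (mv 462 (both (mv 430 (both (five 6 429 557) (mv 397 (both (five 7 397 429) (mv 398 (both (five 7 365 365) (mv 399 (both (five 5 366 367) (five 5 398 431))))))))) (both (mv 558 (both (five 0 523 559) (mv 431 (both (five 5 430 463) (mv 430 (both (five 5 398 399) (mv 397 (both (five 7 397 429) (mv 398 (both (five 7 365 365) (five 6 397 493))))))))))) (mv 558 (both (five 0 523 559) (mv 589 (both (five 6 461 557) (mv 590 (both (five 6 493 621) (mv 622 (both (five 7 493 493) (mv 623 (both (five 4 494 591) (five 4 526 655)))))))))))))))) (both (mv 491 (both (five 3 490 490) (mv 459 (both (mv 427 (both (five 4 427 556) (mv 394 (both (five 7 394 426) (mv 395 (both (five 7 362 362) (five 4 395 492))))))) (both (mv 555 (both (five 2 522 554) (mv 426 (both (five 7 426 458) (mv 460 (both (five 5 427 428) (mv 492 (both (five 5 459 587) (mv 556 (both (five 7 459 588) (mv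 429 (both (five 5 428 461) (mv 557 (both (five 4 460 589) (mv 558 (both (five 0 523 559) (mv 590 (both (five 0 555 591) (mv 622 (both (five 7 493 493) (mv 653 (both (five 6 525 621) (mv 654 (both (five 6 557 685) (mv 655 (both (five 4 526 623) (five 4 558 687))))))))))))))))))))))))))) (both (mv 555 (both (five 2 522 554) (mv 426 (both (five 7 426 458) (mv 427 (both (five 7 394 394) (mv 428 (both (five 5 395 396) (five 5 427 460))))))))) (mv 427 (both (five 4 427 556) (mv 428 (both (five 5 395 396) (mv 555 (both (five 5 427 460) (five 2 522 554))))))))))))) (both (mv 491 (both (five 3 490 490) (mv 459 (both (mv 427 (both (five 4 427 556) (mv 394 (both (five 7 394 426) (mv 395 (both (five 7 362 362) (five 4 395 492))))))) (both (mv 494 (both (five 1 491 495) (mv 555 (both (five 2 522 554) (mv 426 (both (five 7 426 458) (mv 460 (both (five 5 427 428) (mv 492 (both (five 5 459 587) (mv 556 (both (five 7 459 588) (mv 461 (both (five 5 428 429) (mv 462 (both (five 2 459 463) (mv 430 (both (five 6 429 557) (mv 398 (both (five 6 397 493) (mv 365 (both (five 7 365 397) (mv 366 (both (five 7 333 333) (mv 367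 (both (five 5 334 335) (five 5 366 399))))))))))))))))))))))))))) (both (mv 555 (both (five 2 522 554) (mv 426 (both (five 7 426 458) (mv 427 (both (five 7 394 394) (mv 428 (both (five 5 395 396) (five 5 427 460))))))))) (mv 427 (both (five 4 427 556) (mv 428 (both (five 5 395 396) (mv 555 (both (five 5 427 460) (five 2 522 554))))))))))))) (both (mv 491 (both (five 3 490 490) (mv 459 (both (mv 427 (both (five 4 427 556) (mv 428 (both (five 5 395 396) (mv 555 (both (five 5 427 460) (five 2 522 554))))))) (both (mv 427 (both (five 4 427 556) (mv 394 (both (five 7 394 426) (mv 395 (both (five 7 362 362) (mv 396 (both (five 5 363 364) (five 5 395 428))))))))) (both (mv 494 (both (five 1 491 495) (mv 555 (both (five 2 522 554) (mv 458 (both (five 7 426 426) (mv 460 (both (five 5 427 428) (mv 461 (both (five 0 458 493) (mv 429 (both (five 1 426 430) (mv 558 (both (five 7 429 462) (five 0 523 559))))))))))))))) (mv 427 (both (five 4 427 556) (mv 426 (both (five 7 394 394) (mv 555 (both (five 7 426 458) (five 2 522 554))))))))))))) (both (mv 494 (both (five 1 491 495) (mv 462 (both (mv 430 (both (five 6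 429 557) (mv 431 (both (five 5 398 399) (mv 558 (both (five 5 430 463) (five 0 523 559))))))) (both (mv 430 (both (five 6 429 557) (mv 397 (both (five 7 397 429) (mv 398 (both (five 7 365 365) (mv 399 (both (five 5 366 367) (five 5 398 431))))))))) (both (mv 491 (both (five 3 490 490) (mv 554 (both (five 2 522 555) (mv 558 (both (five 0 523 559) (mv 461 (both (five 7 429 429) (mv 463 (both (five 5 430 431) (mv 460 (both (five 2 459 492) (mv 427 (both (five 3 427 428) (mv 459 (both (five 3 426 426) (five 4 427 556))))))))))))))))) (mv 430 (both (five 6 429 557) (mv 429 (both (five 7 397 397) (mv 558 (both (five 7 429 461) (five 0 523 559))))))))))))) (mv 494 (both (five 1 491 495) (mv 462 (both (mv 430 (both (five 6 429 557) (mv 431 (both (five 5 398 399) (mv 558 (both (five 5 430 463) (five 0 523 559))))))) (both (mv 430 (both (five 6 429 557) (mv 398 (both (five 6 397 493) (mv 365 (both (five 7 365 397) (mv 366 (both (five 7 333 333) (mv 367 (both (five 5 334 335) (five 5 366 399))))))))))) (both (mv 558 (both (five 0 523 559) (mv 431 (both (five 5 430 463) (mv 430 (both (five 5 398 399) (mv 493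 (both (five 6 397 398) (mv 590 (both (five 7 461 461) (five 7 493 622))))))))))) (mv 558 (both (five 0 523 559) (mv 589 (both (five 6 461 557) (mv 590 (both (five 6 493 621) (mv 622 (both (five 7 493 493) (mv 623 (both (five 4 494 591) (five 4 526 655))))))))))))))))))))))) (both (mv 522 (both (mv 489 (both (five 3 489 490) (mv 521 (both (five 3 488 488) (mv 553 (both (five 2 520 552) (five 2 521 554))))))) (both (mv 493 (both (five 1 490 494) (mv 521 (both (five 1 489 492) (mv 553 (both (five 2 520 552) (five 2 521 554))))))) (both (mv 489 (both (five 3 489 490) (mv 493 (both (five 1 490 494) (mv 521 (both (five 3 488 488) (five 1 489 492))))))) (mv 490 (both (five 3 489 489) (mv 458 (both (mv 426 (both (five 4 426 555) (mv 393 (both (five 7 393 425) (mv 394 (both (five 7 361 361) (five 4 394 491))))))) (both (mv 493 (both (five 1 490 494) (mv 554 (both (five 2 521 553) (mv 459 (both (five 5 426 427) (mv 586 (both (five 5 458 491) (mv 617 (both (five 6 489 585) (mv 618 (both (five 6 521 649) (mv 619 (both (five 4 490 587) (five 4 522 651))))))))))))))) (mv 426 (both (five 4 426 555) (mv 393 (both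 (five 7 393 425) (mv 361 (both (five 7 361 394) (mv 427 (both (five 5 394 395) (mv 554 (both (five 5 426 459) (five 2 521 553)))))))))))))))))))) (both (mv 522 (both (mv 554 (both (five 2 521 553) (mv 526 (both (five 2 522 555) (mv 558 (both (five 0 522 557) (five 0 523 559))))))) (both (mv 493 (both (five 1 490 494) (mv 557 (both (five 0 522 558) (mv 556 (both (five 0 521 521) (mv 461 (both (five 6 428 429) (five 6 460 588))))))))) (mv 494 (both (five 1 490 493) (mv 526 (both (five 1 491 495) (mv 554 (both (five 2 521 553) (five 2 522 555)))))))))) (mv 522 (both (mv 489 (both (five 3 489 490) (mv 521 (both (five 3 488 488) (mv 557 (both (five 0 521 556) (five 0 522 558))))))) (both (mv 490 (both (five 3 489 489) (mv 494 (both (five 1 490 493) (mv 526 (both (five 3 490 491) (five 1 491 495))))))) (mv 493 (both (five 1 490 494) (mv 557 (both (five 0 522 558) (mv 556 (both (five 0 521 521) (mv 461 (both (five 6 428 429) (five 6 460 588))))))))))))))))) (both (mv 523 (both (mv 522 (both (mv 489 (both (five 3 489 490) (mv 521 (both (five 3 488 488) (mv 557 (both (five 0 521 556) (five 0 522 558)))))))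 (both (mv 554 (both (five 2 521 553) (mv 526 (both (five 2 522 555) (mv 558 (both (five 0 522 557) (five 0 523 559))))))) (mv 489 (both (five 3 489 490) (mv 521 (both (five 3 488 488) (mv 553 (both (five 2 520 552) (five 2 521 554)))))))))) (both (mv 526 (both (mv 491 (both (five 3 490 490) (mv 459 (both (mv 427 (both (five 4 427 556) (mv 394 (both (five 7 394 426) (mv 395 (both (five 7 362 362) (five 4 395 492))))))) (both (mv 555 (both (five 2 522 554) (mv 460 (both (five 5 427 428) (mv 587 (both (five 5 459 492) (mv 618 (both (five 6 490 586) (mv 619 (both (five 6 522 650) (mv 620 (both (five 4 491 588) (five 4 523 652))))))))))))) (mv 427 (both (five 4 427 556) (mv 394 (both (five 7 394 426) (mv 362 (both (five 7 362 395) (mv 428 (both (five 5 395 396) (mv 555 (both (five 5 427 460) (five 2 522 554)))))))))))))))) (both (mv 494 (both (five 1 491 495) (mv 462 (both (mv 430 (both (five 6 429 557) (mv 431 (both (five 5 398 399) (mv 558 (both (five 5 430 463) (five 0 523 559))))))) (both (mv 430 (both (five 6 429 557) (mv 397 (both (five 7 397 429) (mv 398 (both (five 7 365 365) (mv 399 (both (five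 5 366 367) (five 5 398 431))))))))) (both (mv 558 (both (five 0 523 559) (mv 431 (both (five 5 430 463) (mv 461 (both (five 7 429 429) (mv 493 (both (five 7 461 590) (mv 557 (both (five 5 461 589) (mv 460 (both (five 7 428 428) (mv 459 (both (five 0 458 458) (mv 427 (both (five 3 426 426) (mv 556 (both (five 7 427 492) (five 6 460 588))))))))))))))))))) (both (mv 558 (both (five 0 523 559) (mv 429 (both (five 7 429 461) (mv 430 (both (five 7 397 397) (mv 431 (both (five 5 398 399) (five 5 430 463))))))))) (mv 430 (both (five 6 429 557) (mv 429 (both (five 7 397 397) (mv 558 (both (five 7 429 461) (five 0 523 559)))))))))))))) (mv 494 (both (five 1 491 495) (mv 462 (both (mv 430 (both (five 6 429 557) (mv 431 (both (five 5 398 399) (mv 558 (both (five 5 430 463) (five 0 523 559))))))) (both (mv 430 (both (five 6 429 557) (mv 397 (both (five 7 397 429) (mv 398 (both (five 7 365 365) (mv 399 (both (five 5 366 367) (five 5 398 431))))))))) (both (mv 490 (both (five 3 490 491) (mv 554 (both (five 2 522 555) (mv 558 (both (five 0 523 559) (mv 431 (both (five 5 430 463) (mv 461 (both (five 7 429 429) (mv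 557 (both (five 6 461 589) (mv 590 (both (five 7 461 493) (mv 622 (both (five 7 525 654) (mv 623 (both (five 4 494 591) (five 4 526 655))))))))))))))))))) (both (mv 558 (both (five 0 523 559) (mv 429 (both (five 7 429 461) (mv 430 (both (five 7 397 397) (mv 431 (both (five 5 398 399) (five 5 430 463))))))))) (mv 430 (both (five 6 429 557) (mv 429 (both (five 7 397 397) (mv 558 (both (five 7 429 461) (five 0 523 559))))))))))))))))) (both (mv 522 (both (mv 489 (both (five 3 489 490) (mv 521 (both (five 3 488 488) (mv 553 (both (five 2 520 552) (five 2 521 554))))))) (both (mv 493 (both (five 1 490 494) (mv 521 (both (five 1 489 492) (mv 553 (both (five 2 520 552) (five 2 521 554))))))) (both (mv 489 (both (five 3 489 490) (mv 493 (both (five 1 490 494) (mv 521 (both (five 3 488 488) (five 1 489 492))))))) (mv 490 (both (five 3 489 489) (mv 458 (both (mv 426 (both (five 4 426 555) (mv 393 (both (five 7 393 425) (mv 394 (both (five 7 361 361) (five 4 394 491))))))) (both (mv 493 (both (five 1 490 494) (mv 554 (both (five 2 521 553) (mv 459 (both (five 5 426 427) (mv 586 (both (five 5 458 491) (mv 617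 (both (five 6 489 585) (mv 618 (both (five 6 521 649) (mv 619 (both (five 4 490 587) (five 4 522 651))))))))))))))) (mv 426 (both (five 4 426 555) (mv 393 (both (five 7 393 425) (mv 361 (both (five 7 361 394) (mv 427 (both (five 5 394 395) (mv 554 (both (five 5 426 459) (five 2 521 553)))))))))))))))))))) (both (mv 522 (both (mv 554 (both (five 2 521 553) (mv 526 (both (five 2 522 555) (mv 558 (both (five 0 522 557) (five 0 523 559))))))) (both (mv 493 (both (five 1 490 494) (mv 557 (both (five 0 522 558) (mv 556 (both (five 0 521 521) (mv 461 (both (five 6 428 429) (five 6 460 588))))))))) (mv 494 (both (five 1 490 493) (mv 526 (both (five 1 491 495) (mv 554 (both (five 2 521 553) (five 2 522 555)))))))))) (mv 522 (both (mv 489 (both (five 3 489 490) (mv 521 (both (five 3 488 488) (mv 557 (both (five 0 521 556) (five 0 522 558))))))) (both (mv 490 (both (five 3 489 489) (mv 494 (both (five 1 490 493) (mv 526 (both (five 3 490 491) (five 1 491 495))))))) (mv 493 (both (five 1 490 494) (mv 557 (both (five 0 522 558) (mv 556 (both (five 0 521 521) (mv 461 (both (five 6 428 429) (five 6 460 588)))))))))))))))))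 (both (mv 523 (both (mv 522 (both (mv 489 (both (five 3 489 490) (mv 521 (both (five 3 488 488) (mv 557 (both (five 0 521 556) (five 0 522 558))))))) (both (mv 554 (both (five 2 521 553) (mv 526 (both (five 2 522 555) (mv 558 (both (five 0 522 557) (five 0 523 559))))))) (mv 489 (both (five 3 489 490) (mv 521 (both (five 3 488 488) (mv 553 (both (five 2 520 552) (five 2 521 554)))))))))) (both (mv 526 (both (mv 491 (both (five 3 490 490) (mv 459 (both (mv 427 (both (five 4 427 556) (mv 394 (both (five 7 394 426) (mv 395 (both (five 7 362 362) (five 4 395 492))))))) (both (mv 555 (both (five 2 522 554) (mv 460 (both (five 5 427 428) (mv 587 (both (five 5 459 492) (mv 618 (both (five 6 490 586) (mv 619 (both (five 6 522 650) (mv 620 (both (five 4 491 588) (five 4 523 652))))))))))))) (mv 427 (both (five 4 427 556) (mv 394 (both (five 7 394 426) (mv 362 (both (five 7 362 395) (mv 428 (both (five 5 395 396) (mv 555 (both (five 5 427 460) (five 2 522 554)))))))))))))))) (both (mv 558 (both (five 0 523 559) (mv 590 (both (mv 493 (both (five 7 493 622) (mv 461 (both (five 4 429 429) (five 7 461 494)))))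 (both (mv 622 (both (five 7 493 493) (mv 653 (both (five 6 525 621) (mv 654 (both (five 6 557 685) (mv 655 (both (five 4 526 623) (five 4 558 687))))))))) (mv 494 (both (five 1 491 495) (mv 555 (both (five 2 522 554) (mv 589 (both (five 6 493 621) (mv 591 (both (five 4 494 623) (mv 588 (both (five 3 555 556) (mv 619 (both (five 2 587 620) (mv 587 (both (five 5 491 492) (five 2 586 618)))))))))))))))))))) (both (mv 493 (both (mv 556 (both (mv 461 (both (five 6 428 429) (mv 491 (both (five 3 490 490) (mv 459 (both (five 4 427 427) (mv 494 (both (five 1 491 495) (mv 458 (both (five 0 458 460) (five 3 458 492))))))))))) (both (mv 491 (both (five 3 490 490) (mv 459 (both (five 4 427 427) (mv 588 (both (five 7 459 492) (five 7 491 620))))))) (mv 461 (both (five 6 428 429) (mv 588 (both (five 6 460 557) (five 5 492 620)))))))) (both (mv 490 (both (five 3 490 491) (mv 558 (both (five 0 523 559) (mv 461 (both (five 4 429 429) (mv 590 (both (five 4 461 557) (five 7 493 622))))))))) (both (mv 494 (both (five 1 491 495) (mv 558 (both (five 0 523 559) (mv 461 (both (five 4 429 429) (five 7 461 590))))))) (mv 556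 (both (mv 491 (both (five 3 490 490) (mv 459 (both (five 4 427 427) (mv 588 (both (five 7 459 492) (five 7 491 620))))))) (both (mv 494 (both (five 1 491 495) (mv 558 (both (five 0 523 559) (mv 588 (both (five 5 492 620) (mv 590 (both (five 7 493 622) (mv 589 (both (five 6 493 621) (mv 591 (both (five 4 494 623) (mv 557 (both (five 3 556 592) (mv 492 (both (five 7 460 460) (mv 587 (both (five 1 554 586) (five 6 491 619))))))))))))))))))) (mv 490 (both (five 3 490 491) (mv 494 (both (five 1 491 495) (mv 558 (both (five 0 523 559) (mv 590 (both (five 7 493 622) (mv 589 (both (five 6 493 621) (mv 591 (both (five 4 494 623) (mv 592 (both (five 3 556 557) (mv 560 (both (five 1 557 561) (mv 625 (both (five 0 589 624) (mv 593 (both (five 4 496 496) (five 0 590 626)))))))))))))))))))))))))))) (both (mv 491 (both (five 3 490 490) (mv 459 (both (mv 427 (both (five 4 427 556) (mv 394 (both (five 7 394 426) (mv 395 (both (five 7 362 362) (mv 396 (both (five 5 363 364) (five 5 395 428))))))))) (both (mv 494 (both (five 1 491 495) (mv 555 (both (five 2 522 554) (mv 426 (both (five 7 426 458) (mv 427 (both (five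 7 394 394) (mv 428 (both (five 5 395 396) (five 5 427 460))))))))))) (both (mv 494 (both (five 1 491 495) (mv 555 (both (five 2 522 554) (mv 426 (both (five 7 426 458) (mv 428 (both (five 5 427 460) (mv 558 (both (five 0 523 559) (mv 588 (both (five 4 459 556) (mv 587 (both (five 4 491 620) (mv 586 (both (five 6 490 618) (mv 589 (both (five 1 554 557) (mv 621 (both (five 6 493 590) (five 0 586 622))))))))))))))))))))) (both (mv 427 (both (five 4 427 556) (mv 428 (both (five 5 395 396) (mv 555 (both (five 5 427 460) (five 2 522 554))))))) (mv 427 (both (five 4 427 556) (mv 426 (both (five 7 394 394) (mv 555 (both (five 7 426 458) (five 2 522 554)))))))))))))) (both (mv 555 (both (five 2 522 554) (mv 587 (both (mv 491 (both (five 3 490 490) (mv 618 (both (five 6 490 586) (mv 619 (both (five 6 522 650) (mv 620 (both (five 4 491 588) (five 4 523 652))))))))) (both (mv 558 (both (five 0 523 559) (mv 619 (both (five 5 491 492) (mv 620 (both (five 4 523 652) (mv 650 (both (five 6 522 618) (mv 651 (both (five 6 554 682) (mv 622 (both (five 2 618 621) (mv 590 (both (five 7 493 493) (mv 648 (both (five 1 616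 649) (mv 654 (both (five 7 525 557) (mv 655 (both (five 4 526 623) (five 4 558 687))))))))))))))))))))) (both (mv 491 (both (five 3 490 490) (mv 460 (both (five 5 459 492) (mv 428 (both (five 5 427 459) (mv 558 (both (five 0 523 559) (mv 586 (both (five 6 490 618) (mv 588 (both (five 4 491 620) (mv 589 (both (five 1 554 557) (mv 622 (both (five 0 586 621) (mv 590 (both (five 7 493 493) (five 0 587 623))))))))))))))))))) (mv 491 (both (five 3 490 490) (mv 492 (both (five 5 459 460) (five 5 491 619))))))))))) (mv 491 (both (five 3 490 490) (mv 459 (both (mv 427 (both (five 4 427 556) (mv 394 (both (five 7 394 426) (mv 395 (both (five 7 362 362) (five 4 395 492))))))) (both (mv 494 (both (five 1 491 495) (mv 555 (both (five 2 522 554) (mv 428 (both (five 5 427 460) (mv 458 (both (five 7 426 426) (mv 493 (both (five 3 458 492) (mv 558 (both (five 0 523 559) (mv 461 (both (five 4 429 429) (five 7 461 590))))))))))))))) (mv 427 (both (five 4 427 556) (mv 428 (both (five 5 395 396) (mv 555 (both (five 5 427 460) (five 2 522 554)))))))))))))))))) (both (mv 522 (both (mv 489 (both (five 3 489 490) (mv 521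 (both (five 3 488 488) (mv 553 (both (five 2 520 552) (five 2 521 554))))))) (both (mv 493 (both (five 1 490 494) (mv 521 (both (five 1 489 492) (mv 553 (both (five 2 520 552) (five 2 521 554))))))) (both (mv 489 (both (five 3 489 490) (mv 493 (both (five 1 490 494) (mv 521 (both (five 3 488 488) (five 1 489 492))))))) (mv 490 (both (five 3 489 489) (mv 458 (both (mv 426 (both (five 4 426 555) (mv 393 (both (five 7 393 425) (mv 394 (both (five 7 361 361) (five 4 394 491))))))) (both (mv 493 (both (five 1 490 494) (mv 554 (both (five 2 521 553) (mv 459 (both (five 5 426 427) (mv 586 (both (five 5 458 491) (mv 617 (both (five 6 489 585) (mv 618 (both (five 6 521 649) (mv 619 (both (five 4 490 587) (five 4 522 651))))))))))))))) (mv 426 (both (five 4 426 555) (mv 393 (both (five 7 393 425) (mv 361 (both (five 7 361 394) (mv 427 (both (five 5 394 395) (mv 554 (both (five 5 426 459) (five 2 521 553)))))))))))))))))))) (both (mv 522 (both (mv 554 (both (five 2 521 553) (mv 526 (both (five 2 522 555) (mv 558 (both (five 0 522 557) (five 0 523 559))))))) (both (mv 493 (both (five 1 490 494) (mv 557 (both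 (five 0 522 558) (mv 556 (both (five 0 521 521) (mv 461 (both (five 6 428 429) (five 6 460 588))))))))) (mv 494 (both (five 1 490 493) (mv 526 (both (five 1 491 495) (mv 554 (both (five 2 521 553) (five 2 522 555)))))))))) (mv 522 (both (mv 489 (both (five 3 489 490) (mv 521 (both (five 3 488 488) (mv 557 (both (five 0 521 556) (five 0 522 558))))))) (both (mv 490 (both (five 3 489 489) (mv 494 (both (five 1 490 493) (mv 526 (both (five 3 490 491) (five 1 491 495))))))) (mv 493 (both (five 1 490 494) (mv 557 (both (five 0 522 558) (mv 556 (both (five 0 521 521) (mv 461 (both (five 6 428 429) (five 6 460 588))))))))))))))))) (mv 523 (both (mv 522 (both (mv 489 (both (five 3 489 490) (mv 521 (both (five 3 488 488) (mv 557 (both (five 0 521 556) (five 0 522 558))))))) (both (mv 554 (both (five 2 521 553) (mv 526 (both (five 2 522 555) (mv 558 (both (five 0 522 557) (five 0 523 559))))))) (mv 489 (both (five 3 489 490) (mv 521 (both (five 3 488 488) (mv 553 (both (five 2 520 552) (five 2 521 554)))))))))) (both (mv 526 (both (mv 557 (both (mv 494 (both (five 1 491 495) (mv 462 (both (five 6 429 430) (mv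 558 (both (five 0 523 559) (five 6 461 589))))))) (both (mv 492 (both (mv 555 (both (five 2 522 554) (mv 558 (both (five 0 523 559) (mv 587 (both (five 5 491 619) (mv 586 (both (five 2 554 556) (mv 589 (both (five 1 554 588) (five 7 492 621))))))))))) (both (mv 460 (both (five 4 428 428) (mv 555 (both (five 2 522 554) (mv 587 (both (five 6 459 556) (five 5 491 619))))))) (mv 460 (both (five 4 428 428) (mv 589 (both (five 7 460 493) (five 7 492 621)))))))) (both (mv 494 (both (five 1 491 495) (mv 462 (both (five 6 429 430) (mv 589 (both (five 5 461 493) (five 5 493 621))))))) (mv 492 (both (mv 460 (both (five 4 428 428) (mv 555 (both (five 2 522 554) (mv 587 (both (five 6 459 556) (five 5 491 619))))))) (mv 494 (both (five 1 491 495) (mv 462 (both (five 6 429 430) (mv 558 (both (five 0 523 559) (mv 461 (both (five 7 429 429) (mv 463 (both (five 5 430 431) (mv 464 (both (five 2 460 493) (mv 433 (both (five 1 429 432) (mv 465 (both (five 1 430 434) (mv 496 (both (five 0 461 497) (five 5 432 560))))))))))))))))))))))))) (both (mv 494 (both (five 1 491 495) (mv 462 (both (mv 430 (both (five 6 429 557)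 (mv 431 (both (five 5 398 399) (mv 558 (both (five 5 430 463) (five 0 523 559))))))) (both (mv 430 (both (five 6 429 557) (mv 397 (both (five 7 397 429) (mv 398 (both (five 7 365 365) (mv 399 (both (five 5 366 367) (five 5 398 431))))))))) (both (mv 491 (both (five 3 490 490) (mv 558 (both (five 0 523 559) (mv 461 (both (five 7 429 429) (mv 463 (both (five 5 430 431) (mv 460 (both (five 2 459 492) (mv 427 (both (five 3 427 428) (mv 459 (both (five 3 426 426) (five 4 427 556))))))))))))))) (mv 430 (both (five 6 429 557) (mv 429 (both (five 7 397 397) (mv 558 (both (five 7 429 461) (five 0 523 559))))))))))))) (both (mv 491 (both (five 3 490 490) (mv 459 (both (mv 427 (both (five 4 427 556) (mv 428 (both (five 5 395 396) (mv 555 (both (five 5 427 460) (five 2 522 554))))))) (both (mv 427 (both (five 4 427 556) (mv 394 (both (five 7 394 426) (mv 395 (both (five 7 362 362) (mv 396 (both (five 5 363 364) (five 5 395 428))))))))) (both (mv 494 (both (five 1 491 495) (mv 555 (both (five 2 522 554) (mv 458 (both (five 7 426 426) (mv 460 (both (five 5 427 428) (mv 461 (both (five 0 458 493) (mv 429 (both (five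 1 426 430) (mv 558 (both (five 7 429 462) (five 0 523 559))))))))))))))) (mv 427 (both (five 4 427 556) (mv 426 (both (five 7 394 394) (mv 555 (both (five 7 426 458) (five 2 522 554))))))))))))) (both (mv 555 (both (five 2 522 554) (mv 587 (both (mv 494 (both (five 1 491 495) (mv 619 (both (five 5 491 492) (mv 650 (both (five 6 522 618) (mv 651 (both (five 6 554 682) (mv 652 (both (five 4 523 620) (five 4 555 684))))))))))) (both (mv 491 (both (five 3 490 490) (mv 618 (both (five 6 490 586) (mv 619 (both (five 6 522 650) (mv 620 (both (five 4 491 588) (five 4 523 652))))))))) (mv 491 (both (five 3 490 490) (mv 460 (both (five 5 459 492) (mv 459 (both (five 5 427 428) (mv 426 (both (five 7 426 458) (mv 427 (both (five 7 394 394) (mv 424 (both (five 0 424 425) (mv 462 (both (five 3 426 461) (mv 494 (both (five 1 491 495) (mv 430 (both (five 6 429 557) (mv 397 (both (five 7 397 429) (mv 398 (both (five 7 365 365) (mv 399 (both (five 5 366 367) (five 5 398 431)))))))))))))))))))))))))))))) (both (mv 491 (both (five 3 490 490) (mv 459 (both (mv 555 (both (five 2 522 554) (mv 426 (both (five 7 426 458)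 (mv 427 (both (five 7 394 394) (mv 395 (both (five 4 395 492) (mv 396 (both (five 5 363 364) (five 5 395 428))))))))))) (both (mv 494 (both (five 1 491 495) (mv 555 (both (five 2 522 554) (mv 426 (both (five 7 426 458) (mv 558 (both (five 0 523 559) (mv 588 (both (five 4 459 556) (mv 587 (both (five 4 491 620) (mv 618 (both (five 6 490 586) (mv 619 (both (five 5 491 492) (five 6 522 650))))))))))))))))) (both (mv 427 (both (five 4 427 556) (mv 426 (both (five 7 394 394) (mv 555 (both (five 7 426 458) (five 2 522 554))))))) (mv 427 (both (five 4 427 556) (mv 395 (both (five 4 395 492) (mv 396 (both (five 5 363 364) (five 5 395 428))))))))))))) (mv 491 (both (five 3 490 490) (mv 459 (both (mv 555 (both (five 2 522 554) (mv 426 (both (five 7 426 458) (mv 427 (both (five 7 394 394) (mv 492 (both (five 4 395 395) (mv 587 (both (five 5 459 460) (five 5 491 619))))))))))) (both (mv 555 (both (five 2 522 554) (mv 426 (both (five 7 426 458) (mv 558 (both (five 0 523 559) (mv 588 (both (five 4 459 556) (mv 587 (both (five 4 491 620) (mv 618 (both (five 6 490 586) (mv 619 (both (five 5 491 492) (five 6 522 650)))))))))))))))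 (both (mv 427 (both (five 4 427 556) (mv 426 (both (five 7 394 394) (mv 555 (both (five 7 426 458) (five 2 522 554))))))) (mv 427 (both (five 4 427 556) (mv 395 (both (five 4 395 492) (mv 362 (both (five 7 362 394) (mv 363 (both (five 7 330 330) (mv 364 (both (five 5 331 332) (five 5 363 396))))))))))))))))))))))) (both (mv 522 (both (mv 489 (both (five 3 489 490) (mv 521 (both (five 3 488 488) (mv 553 (both (five 2 520 552) (five 2 521 554))))))) (both (mv 493 (both (five 1 490 494) (mv 521 (both (five 1 489 492) (mv 553 (both (five 2 520 552) (five 2 521 554))))))) (both (mv 489 (both (five 3 489 490) (mv 493 (both (five 1 490 494) (mv 521 (both (five 3 488 488) (five 1 489 492))))))) (mv 490 (both (five 3 489 489) (mv 458 (both (mv 426 (both (five 4 426 555) (mv 393 (both (five 7 393 425) (mv 394 (both (five 7 361 361) (five 4 394 491))))))) (both (mv 493 (both (five 1 490 494) (mv 554 (both (five 2 521 553) (mv 459 (both (five 5 426 427) (mv 586 (both (five 5 458 491) (mv 617 (both (five 6 489 585) (mv 618 (both (five 6 521 649) (mv 619 (both (five 4 490 587) (five 4 522 651))))))))))))))) (mv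 426 (both (five 4 426 555) (mv 393 (both (five 7 393 425) (mv 361 (both (five 7 361 394) (mv 427 (both (five 5 394 395) (mv 554 (both (five 5 426 459) (five 2 521 553)))))))))))))))))))) (both (mv 522 (both (mv 554 (both (five 2 521 553) (mv 526 (both (five 2 522 555) (mv 558 (both (five 0 522 557) (five 0 523 559))))))) (both (mv 493 (both (five 1 490 494) (mv 557 (both (five 0 522 558) (mv 556 (both (five 0 521 521) (mv 461 (both (five 6 428 429) (five 6 460 588))))))))) (mv 494 (both (five 1 490 493) (mv 526 (both (five 1 491 495) (mv 554 (both (five 2 521 553) (five 2 522 555)))))))))) (mv 522 (both (mv 489 (both (five 3 489 490) (mv 521 (both (five 3 488 488) (mv 557 (both (five 0 521 556) (five 0 522 558))))))) (both (mv 490 (both (five 3 489 489) (mv 494 (both (five 1 490 493) (mv 526 (both (five 3 490 491) (five 1 491 495))))))) (mv 493 (both (five 1 490 494) (mv 557 (both (five 0 522 558) (mv 556 (both (five 0 521 521) (mv 461 (both (five 6 428 429) (five 6 460 588))))))))))))))))))))))))))))))))))))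

theorem L10 : W (S 988530863058807798957393715067720623286798683220635978952802738122718218409262471505648588255249455916730668840373243557345566271959196709010660073920568229888) (S 1224015388765437076001085623133725487581926100214575753502017436915613042176424085585168202707177864570249252845010824967872237814435722388898354623449410168062588578846926218641585907288489712604708627021824) :=
  check_sound (Env.cons L4 (Env.cons L5 (Env.cons L6 (Env.cons L7 (Env.cons L8 (Env.cons L9 Env.nil)))))) (x := 524) (t := tL10) (by decide +kernel)

def tL11 : T :=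
  (both (mv 560 (both (mv 592 (both (five 7 463 463) (mv 623 (both (five 6 495 591) (mv 624 (both (five 6 527 655) (mv 625 (both (five 4 496 593) (five 4 528 657))))))))) (both (mv 494 (both (mv 524 (both (five 2 492 493) (mv 526 (both (five 1 491 523) (mv 558 (both (mv 463 (both (five 5 462 590) (mv 431 (both (five 4 399 399) (five 5 430 462))))) (both (mv 559 (both (five 3 525 561) (mv 591 (both (five 4 462 462) (mv 623 (both (five 4 494 590) (five 7 526 655))))))) (both (mv 559 (both (five 3 525 561) (mv 462 (both (five 4 462 591) (mv 429 (both (five 7 429 461) (mv 430 (both (five 7 397 397) (mv 431 (both (five 5 398 399) (five 5 430 463))))))))))) (mv 559 (both (five 3 525 561) (mv 590 (both (five 5 462 463) (mv 589 (both (five 6 493 621) (mv 588 (both (five 1 555 587) (five 1 556 591))))))))))))))))) (both (mv 493 (both (five 2 492 524) (mv 461 (both (five 3 460 460) (mv 429 (both (mv 396 (both (five 7 396 428) (mv 397 (both (five 7 364 364) (mv 398 (both (five 5 365 366) (five 5 397 430))))))) (both (mv 396 (both (five 7 396 428) (mv 397 (both (five 7 364 364) (mv 462 (both (five 4 365 365)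 (five 3 461 497))))))) (both (mv 398 (both (five 5 397 430) (mv 397 (both (five 5 365 366) (mv 462 (both (five 4 365 365) (five 3 461 497))))))) (mv 428 (both (five 7 396 396) (mv 430 (both (five 5 397 398) (mv 462 (both (five 3 461 497) (mv 427 (both (five 0 426 426) (five 0 427 463))))))))))))))))) (both (mv 497 (both (five 2 493 526) (mv 462 (both (five 3 461 461) (mv 466 (both (five 1 462 465) (mv 498 (both (five 3 462 463) (five 1 463 467))))))))) (mv 524 (both (five 2 492 493) (mv 526 (both (five 2 493 497) (five 1 491 523))))))))) (both (mv 592 (both (mv 623 (both (five 6 495 591) (mv 624 (both (five 6 527 655) (mv 625 (both (five 4 496 593) (five 4 528 657))))))) (mv 497 (both (five 5 464 465) (mv 494 (both (five 2 493 526) (mv 461 (both (five 3 461 462) (mv 493 (both (five 3 460 460) (five 2 492 524))))))))))) (mv 592 (both (five 7 463 463) (mv 497 (both (five 5 464 465) (mv 494 (both (five 2 493 526) (mv 461 (both (five 3 461 462) (mv 493 (both (five 3 460 460) (five 2 492 524))))))))))))))) (both (mv 494 (both (mv 493 (both (five 2 492 524) (mv 464 (both (five 1 461 465) (mv 432 (both (mv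 399 (both (five 7 399 431) (mv 400 (both (five 7 367 367) (mv 401 (both (five 5 368 369) (five 5 400 433))))))) (both (mv 461 (both (five 3 460 460) (mv 429 (both (mv 526 (both (five 4 397 397) (five 4 429 558))) (mv 396 (both (five 7 396 428) (mv 401 (both (five 5 400 433) (mv 400 (both (five 5 368 369) (mv 430 (both (five 5 397 398) (five 1 397 431))))))))))))) (both (mv 398 (both (mv 430 (both (five 6 397 462) (mv 461 (both (five 5 397 429) (five 3 460 460))))) (both (mv 399 (both (five 7 399 431) (mv 400 (both (five 7 367 367) (mv 397 (both (five 0 397 433) (mv 364 (both (five 3 364 365) (mv 368 (both (five 1 365 369) (mv 396 (both (five 3 363 363) (mv 428 (both (five 2 395 427) (five 2 396 429))))))))))))))) (mv 399 (both (five 7 399 431) (mv 367 (both (five 7 367 400) (mv 430 (both (five 5 366 462) (mv 303 (both (five 6 302 335) (mv 460 (both (five 3 460 461) (mv 492 (both (five 3 459 459) (mv 396 (both (five 4 396 428) (mv 397 (both (five 1 364 368) (mv 363 (both (five 3 363 364) (mv 395 (both (five 3 362 362) (five 1 363 366)))))))))))))))))))))))) (both (mv 400 (both (mv 401 (both (five 5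 368 369) (five 5 400 433))) (both (mv 398 (both (mv 430 (both (five 6 397 462) (mv 461 (both (five 5 397 429) (five 3 460 460))))) (both (mv 399 (both (five 7 367 367) (mv 397 (both (five 0 397 433) (mv 364 (both (five 3 364 365) (mv 368 (both (five 1 365 369) (mv 396 (both (five 3 363 363) (mv 428 (both (five 2 395 427) (five 2 396 429))))))))))))) (mv 399 (both (five 7 367 367) (mv 397 (both (five 0 397 433) (mv 364 (both (five 3 364 365) (mv 368 (both (five 1 365 369) (mv 396 (both (five 3 363 363) (mv 427 (both (five 2 395 428) (mv 395 (both (five 2 394 426) (mv 300 (both (five 6 299 332) (mv 430 (both (five 6 397 462) (mv 459 (both (five 5 363 491) (mv 460 (both (five 3 460 461) (five 3 459 492)))))))))))))))))))))))))) (both (mv 399 (both (five 7 367 367) (mv 433 (both (five 5 400 401) (mv 397 (both (five 0 397 398) (mv 434 (both (five 3 399 435) (mv 461 (both (five 3 460 460) (mv 429 (both (five 4 397 526) (mv 396 (both (five 7 364 364) (five 7 396 428))))))))))))))) (mv 367 (both (five 7 367 399) (mv 368 (both (five 7 335 335) (mv 369 (both (five 5 336 337) (five 5 368 401))))))))))) (both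 (mv 399 (both (five 7 399 431) (mv 400 (both (five 7 367 367) (mv 369 (both (five 5 368 401) (mv 368 (both (five 5 336 337) (mv 370 (both (five 2 367 371) (mv 397 (both (five 1 365 398) (mv 461 (both (five 3 460 460) (mv 429 (both (five 4 397 526) (mv 396 (both (five 7 364 364) (five 7 396 428))))))))))))))))))) (mv 431 (both (five 7 399 399) (mv 433 (both (five 5 400 401) (mv 461 (both (five 3 460 460) (mv 430 (both (five 2 429 462) (mv 398 (both (five 3 397 397) (five 5 397 429))))))))))))))))))))) (both (mv 497 (both (five 2 493 526) (mv 461 (both (five 3 461 462) (mv 465 (both (five 1 462 466) (mv 433 (both (five 6 400 401) (mv 560 (both (five 5 432 464) (five 5 464 592))))))))))) (both (mv 493 (both (five 2 492 524) (mv 461 (both (five 3 460 460) (mv 465 (both (five 1 461 464) (mv 497 (both (five 3 461 462) (five 1 462 466))))))))) (both (mv 493 (both (five 2 492 524) (mv 461 (both (five 3 460 460) (mv 497 (both (five 3 461 462) (five 2 493 526))))))) (mv 493 (both (five 2 492 524) (mv 465 (both (five 1 461 464) (mv 497 (both (five 1 462 466) (five 2 493 526)))))))))))) (both (mv 464 (both (mv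 493 (both (mv 494 (both (five 1 461 465) (five 2 492 524))) (both (mv 461 (both (mv 463 (both (mv 431 (both (five 4 399 399) (five 7 431 560))) (mv 462 (both (five 0 460 460) (five 2 460 492))))) (both (mv 429 (both (mv 398 (both (five 5 397 430) (mv 397 (both (five 5 365 366) (mv 524 (both (five 6 396 492) (five 6 428 556))))))) (both (mv 396 (both (five 7 396 428) (mv 397 (both (five 7 364 364) (mv 524 (both (five 6 396 492) (five 6 428 556))))))) (mv 428 (both (five 7 396 396) (mv 427 (both (mv 426 (both (five 0 426 462) (mv 393 (both (five 3 393 394) (mv 425 (both (five 3 392 392) (five 0 425 460))))))) (both (mv 430 (both (five 5 397 398) (mv 394 (both (five 3 394 395) (mv 459 (both (five 2 426 458) (mv 431 (both (five 2 427 460) (mv 399 (both (five 1 396 400) (five 7 399 432))))))))))) (both (mv 398 (both (five 5 397 430) (mv 426 (both (five 0 426 462) (mv 393 (both (five 3 393 394) (mv 425 (both (five 3 392 392) (mv 457 (both (five 2 424 456) (five 2 425 458))))))))))) (mv 398 (both (five 5 397 430) (mv 426 (both (five 0 426 462) (mv 425 (both (five 0 425 460) (mv 457 (both (five 2 424 456)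 (five 2 425 458)))))))))))))))))) (both (mv 429 (both (mv 396 (both (five 7 396 428) (mv 397 (both (five 7 364 364) (mv 398 (both (five 5 365 366) (five 5 397 430))))))) (both (mv 398 (both (five 5 397 430) (mv 397 (both (five 5 365 366) (mv 524 (both (five 6 396 492) (five 6 428 556))))))) (both (mv 396 (both (five 7 396 428) (mv 397 (both (five 7 364 364) (mv 524 (both (five 6 396 492) (five 6 428 556))))))) (mv 428 (both (five 7 396 396) (mv 430 (both (five 5 397 398) (mv 462 (both (five 3 428 463) (mv 427 (both (five 0 426 426) (mv 395 (both (five 3 394 394) (mv 459 (both (five 2 426 458) (mv 524 (both (five 6 428 556) (mv 492 (both (five 7 395 460) (five 4 395 491))))))))))))))))))))) (both (mv 429 (both (mv 398 (both (five 5 397 430) (mv 397 (both (five 5 365 366) (mv 524 (both (five 6 396 492) (five 6 428 556))))))) (both (mv 396 (both (five 7 396 428) (mv 397 (both (five 7 364 364) (mv 524 (both (five 6 396 492) (five 6 428 556))))))) (mv 428 (both (five 7 396 396) (mv 430 (both (five 5 397 398) (mv 431 (both (five 0 428 463) (mv 399 (both (five 1 396 400) (five 7 399 432)))))))))))) (mv 463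 (both (mv 431 (both (five 4 399 399) (five 7 431 560))) (mv 462 (both (five 0 460 460) (mv 429 (both (five 3 428 428) (mv 430 (both (five 5 397 398) (five 3 429 465)))))))))))))) (both (mv 494 (both (five 2 492 524) (mv 460 (both (five 3 460 461) (mv 492 (both (five 3 459 459) (five 1 460 463))))))) (mv 494 (both (five 1 461 465) (mv 460 (both (five 3 460 461) (mv 492 (both (five 3 459 459) (five 1 460 463))))))))))) (both (mv 493 (both (mv 494 (both (five 1 461 465) (five 2 492 524))) (both (mv 560 (both (mv 591 (both (five 6 463 559) (mv 592 (both (five 6 495 623) (mv 593 (both (five 4 464 561) (five 4 496 625))))))) (mv 429 (both (mv 432 (both (mv 399 (both (five 7 399 431) (mv 400 (both (five 7 367 367) (mv 401 (both (five 5 368 369) (mv 398 (both (five 2 397 430) (mv 365 (both (five 3 365 366) (mv 397 (both (five 3 364 364) (five 2 396 428))))))))))))) (both (mv 433 (both (five 5 400 401) (five 5 432 465))) (mv 431 (both (five 7 399 399) (mv 465 (both (five 0 429 430) (five 5 432 433)))))))) (both (mv 461 (both (mv 396 (both (five 7 396 428) (mv 397 (both (five 7 364 364) (mv 398 (both (five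 5 365 366) (five 5 397 430))))))) (both (mv 398 (both (five 5 397 430) (mv 397 (both (five 5 365 366) (mv 524 (both (five 6 396 492) (five 6 428 556))))))) (both (mv 396 (both (five 7 396 428) (mv 397 (both (five 7 364 364) (mv 524 (both (five 6 396 492) (five 6 428 556))))))) (mv 428 (both (five 7 396 396) (mv 427 (both (mv 426 (both (five 0 426 462) (mv 393 (both (five 3 393 394) (mv 425 (both (five 3 392 392) (five 0 425 460))))))) (both (mv 430 (both (five 5 397 398) (mv 395 (both (five 3 394 394) (mv 459 (both (five 2 426 458) (mv 524 (both (five 6 428 556) (mv 492 (both (five 7 395 460) (five 4 395 491))))))))))) (both (mv 426 (both (five 0 426 462) (mv 393 (both (five 3 393 394) (mv 425 (both (five 3 392 392) (mv 457 (both (five 2 424 456) (five 2 425 458))))))))) (mv 426 (both (five 0 426 462) (mv 425 (both (five 0 425 460) (mv 457 (both (five 2 424 456) (five 2 425 458))))))))))))))))) (both (mv 433 (both (five 5 432 465) (mv 397 (both (mv 432 (both (five 5 400 401) (mv 399 (both (five 7 399 431) (mv 400 (both (five 7 367 367) (five 0 397 398))))))) (mv 461 (both (mv 396 (both (five 7 364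 364) (five 7 396 428))) (mv 524 (both (five 6 396 492) (five 6 428 556))))))))) (both (mv 461 (both (mv 396 (both (five 7 396 428) (mv 397 (both (five 7 364 364) (mv 524 (both (five 6 396 492) (five 6 428 556))))))) (mv 433 (both (five 5 432 465) (mv 432 (both (five 5 400 401) (mv 431 (both (five 7 399 399) (mv 430 (both (five 2 428 460) (five 2 429 462))))))))))) (mv 432 (both (mv 433 (both (five 5 400 401) (five 5 432 465))) (both (mv 431 (both (five 7 399 399) (mv 430 (both (five 0 429 465) (mv 461 (both (five 5 397 398) (five 2 428 460))))))) (mv 399 (both (five 7 399 431) (mv 400 (both (five 7 367 367) (mv 401 (both (five 5 368 369) (five 5 400 433))))))))))))))))) (both (mv 432 (both (mv 399 (both (five 7 399 431) (mv 400 (both (five 7 367 367) (mv 401 (both (five 5 368 369) (five 5 400 433))))))) (both (mv 494 (both (five 2 492 524) (mv 461 (both (five 3 460 460) (mv 429 (both (mv 526 (both (five 4 397 397) (five 4 429 558))) (mv 396 (both (five 7 396 428) (mv 401 (both (five 5 400 433) (mv 400 (both (five 5 368 369) (mv 430 (both (five 5 397 398) (five 1 397 431))))))))))))))) (both (mv 398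 (both (mv 399 (both (five 7 399 431) (mv 400 (both (five 7 367 367) (mv 397 (both (five 0 397 433) (mv 364 (both (five 3 364 365) (mv 368 (both (five 1 365 369) (mv 396 (both (five 3 363 363) (mv 428 (both (five 2 395 427) (five 2 396 429))))))))))))))) (both (mv 494 (both (five 2 492 524) (mv 430 (both (five 6 397 462) (mv 461 (both (five 5 397 429) (five 3 460 460))))))) (mv 399 (both (five 7 399 431) (mv 367 (both (five 7 367 400) (mv 494 (both (five 2 492 524) (mv 460 (both (five 3 460 461) (mv 492 (both (five 3 459 459) (mv 396 (both (five 4 396 428) (mv 397 (both (five 1 364 368) (mv 363 (both (five 3 363 364) (mv 395 (both (five 3 362 362) (five 1 363 366)))))))))))))))))))))) (both (mv 400 (both (mv 401 (both (five 5 368 369) (five 5 400 433))) (both (mv 398 (both (mv 494 (both (five 2 492 524) (mv 430 (both (five 6 397 462) (mv 461 (both (five 5 397 429) (five 3 460 460))))))) (both (mv 399 (both (five 7 367 367) (mv 397 (both (five 0 397 433) (mv 364 (both (five 3 364 365) (mv 368 (both (five 1 365 369) (mv 396 (both (five 3 363 363) (mv 428 (both (five 2 395 427) (five 2 396 429)))))))))))))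 (mv 399 (both (five 7 367 367) (mv 397 (both (five 0 397 433) (mv 364 (both (five 3 364 365) (mv 368 (both (five 1 365 369) (mv 396 (both (five 3 363 363) (mv 427 (both (five 2 395 428) (mv 395 (both (five 2 394 426) (mv 300 (both (five 6 299 332) (mv 459 (both (five 5 363 491) (mv 494 (both (five 2 492 524) (mv 460 (both (five 3 460 461) (five 3 459 492)))))))))))))))))))))))))) (both (mv 399 (both (five 7 367 367) (mv 433 (both (five 5 400 401) (mv 397 (both (five 0 397 398) (mv 434 (both (five 3 399 435) (mv 494 (both (five 2 492 524) (mv 461 (both (five 3 460 460) (mv 429 (both (five 4 397 526) (mv 396 (both (five 7 364 364) (five 7 396 428))))))))))))))))) (mv 367 (both (five 7 367 399) (mv 368 (both (five 7 335 335) (mv 369 (both (five 5 336 337) (five 5 368 401))))))))))) (both (mv 399 (both (five 7 399 431) (mv 400 (both (five 7 367 367) (mv 369 (both (five 5 368 401) (mv 368 (both (five 5 336 337) (mv 370 (both (five 2 367 371) (mv 397 (both (five 1 365 398) (mv 494 (both (five 2 492 524) (mv 461 (both (five 3 460 460) (mv 429 (both (five 4 397 526) (mv 396 (both (five 7 364 364) (five 7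 396 428))))))))))))))))))))) (mv 431 (both (five 7 399 399) (mv 433 (both (five 5 400 401) (mv 494 (both (five 2 492 524) (mv 461 (both (five 3 460 460) (mv 430 (both (five 2 429 462) (mv 398 (both (five 3 397 397) (five 5 397 429))))))))))))))))))) (mv 465 (both (five 1 461 494) (mv 433 (both (five 5 432 560) (mv 401 (both (five 6 368 369) (five 5 400 432))))))))))) (both (mv 432 (both (mv 399 (both (five 7 399 431) (mv 400 (both (five 7 367 367) (mv 401 (both (five 5 368 369) (five 5 400 433))))))) (both (mv 400 (both (mv 401 (both (five 5 368 369) (five 5 400 433))) (both (mv 368 (both (five 6 367 463) (mv 335 (both (five 7 335 367) (mv 336 (both (five 7 303 303) (mv 337 (both (five 5 304 305) (five 5 336 369))))))))) (mv 368 (both (five 6 367 463) (mv 335 (both (five 7 335 367) (mv 336 (both (five 7 303 303) (mv 433 (both (five 5 400 401) (five 4 336 465)))))))))))) (both (mv 399 (both (five 7 399 431) (mv 400 (both (five 7 367 367) (mv 368 (both (five 6 367 463) (mv 369 (both (five 5 336 337) (five 5 368 401))))))))) (both (mv 465 (both (mv 466 (both (five 2 463 467) (mv 494 (both (five 2 462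 463) (five 1 461 493))))) (both (mv 399 (both (five 7 399 431) (mv 400 (both (five 7 367 367) (mv 368 (both (five 6 367 463) (mv 336 (both (five 4 336 433) (mv 337 (both (five 5 304 305) (five 5 336 369))))))))))) (mv 431 (both (five 7 399 399) (mv 430 (both (five 0 429 429) (mv 466 (both (five 0 430 433) (five 3 431 467)))))))))) (mv 465 (both (mv 466 (both (five 2 463 467) (mv 494 (both (five 2 462 463) (five 1 461 493))))) (both (mv 431 (both (five 7 399 399) (mv 430 (both (five 0 429 429) (mv 433 (both (five 5 400 401) (mv 397 (both (five 3 397 398) (mv 462 (both (five 2 429 461) (mv 434 (both (five 2 430 463) (mv 403 (both (five 1 399 402) (mv 435 (both (five 1 400 404) (five 2 432 436))))))))))))))))) (mv 431 (both (five 7 399 399) (mv 430 (both (five 0 429 429) (mv 466 (both (five 0 430 433) (five 3 431 467))))))))))))))) (both (mv 432 (both (mv 399 (both (five 7 399 431) (mv 400 (both (five 7 367 367) (mv 401 (both (five 5 368 369) (five 5 400 433))))))) (both (mv 401 (both (five 5 400 433) (mv 400 (both (five 5 368 369) (mv 367 (both (five 7 367 399) (mv 368 (both (five 7 335 335) (five 6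 367 463))))))))) (both (mv 401 (both (five 5 400 433) (mv 400 (both (five 5 368 369) (mv 463 (both (five 6 367 368) (mv 560 (both (five 7 431 431) (five 7 463 592))))))))) (mv 431 (both (five 7 399 399) (mv 560 (both (five 7 431 463) (mv 591 (both (five 6 463 559) (mv 592 (both (five 6 495 623) (mv 593 (both (five 4 464 561) (five 4 496 625))))))))))))))) (mv 560 (both (mv 591 (both (five 6 463 559) (mv 592 (both (five 6 495 623) (mv 593 (both (five 4 464 561) (five 4 496 625))))))) (mv 465 (both (five 5 432 433) (mv 466 (both (five 2 463 467) (mv 494 (both (five 2 462 463) (five 1 461 493)))))))))))))) (both (mv 433 (both (mv 401 (both (mv 399 (both (mv 400 (both (mv 398 (both (five 0 398 434) (mv 365 (both (five 3 365 366) (mv 397 (both (five 3 364 364) (five 0 397 432))))))) (both (mv 402 (both (mv 366 (both (five 3 366 367) (mv 371 (both (five 1 367 370) (mv 403 (both (five 1 368 372) (mv 404 (both (five 2 400 432) (mv 368 (both (five 3 368 369) (mv 304 (both (five 4 304 336) (mv 405 (both (five 2 401 434) (mv 437 (both (five 0 401 436) (five 0 402 438))))))))))))))))) (both (mv 366 (both (five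 3 366 367) (mv 435 (both (five 0 399 434) (mv 403 (both (five 0 400 436) (mv 372 (both (five 1 368 371) (mv 404 (both (five 1 369 373) (five 2 400 432))))))))))) (both (mv 371 (both (five 1 367 370) (mv 403 (both (five 1 368 372) (mv 404 (both (five 2 400 432) (mv 436 (both (five 0 400 435) (five 0 401 437))))))))) (both (mv 366 (both (five 3 366 367) (mv 435 (both (five 0 399 434) (mv 403 (both (five 0 400 436) (mv 404 (both (five 2 400 432) (mv 369 (both (five 3 368 368) (mv 373 (both (five 1 369 372) (mv 405 (both (five 3 369 370) (five 1 370 374))))))))))))))) (mv 366 (both (five 3 366 367) (mv 370 (both (five 1 367 371) (mv 338 (both (five 6 305 306) (mv 434 (both (five 0 399 435) (mv 307 (both (five 5 306 339) (mv 337 (both (five 7 305 305) (mv 466 (both (five 7 337 369) (mv 467 (both (five 4 370 499) (mv 498 (both (five 1 463 497) (five 7 401 530)))))))))))))))))))))))) (both (mv 398 (both (mv 365 (both (five 3 365 366) (mv 397 (both (five 3 364 364) (five 0 397 432))))) (both (mv 366 (both (five 3 365 365) (mv 367 (both (five 3 366 402) (mv 369 (both (five 1 366 370) (mv 430 (both (five 2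 397 429) (mv 335 (both (five 6 302 303) (five 5 334 462))))))))))) (mv 369 (both (five 1 366 370) (mv 397 (both (five 1 365 368) (five 0 397 432)))))))) (both (mv 398 (both (five 0 398 434) (mv 366 (both (five 3 365 365) (mv 367 (both (five 3 366 402) (mv 369 (both (five 1 366 370) (mv 430 (both (five 2 397 429) (mv 335 (both (five 6 302 303) (five 5 334 462))))))))))))) (mv 398 (both (five 0 398 434) (mv 369 (both (five 1 366 370) (mv 397 (both (five 1 365 368) (five 0 397 432)))))))))))) (both (mv 431 (both (five 4 399 463) (mv 432 (both (mv 398 (both (five 3 398 434) (mv 397 (both (five 0 396 396) (five 3 397 430))))) (both (mv 430 (both (five 1 398 402) (mv 397 (both (five 3 397 398) (mv 429 (both (five 3 396 396) (mv 461 (both (five 2 428 460) (five 2 429 462))))))))) (both (mv 434 (both (five 3 398 398) (mv 402 (both (five 1 399 403) (mv 466 (both (five 0 431 467) (mv 369 (both (five 4 337 337) (five 7 369 498))))))))) (mv 402 (both (five 1 398 430) (mv 403 (both (five 2 400 404) (five 1 399 434))))))))))) (both (mv 400 (both (mv 398 (both (mv 365 (both (five 3 365 366) (mv 397 (both (five 3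 364 364) (five 0 397 432))))) (both (mv 366 (both (five 3 365 365) (mv 367 (both (five 3 366 402) (mv 369 (both (five 1 366 370) (mv 430 (both (five 2 397 429) (mv 335 (both (five 6 302 303) (five 5 334 462))))))))))) (mv 369 (both (five 1 366 370) (mv 397 (both (five 1 365 368) (five 0 397 432)))))))) (both (mv 431 (both (five 4 399 463) (mv 402 (both (five 2 398 430) (mv 371 (both (five 1 367 370) (mv 403 (both (five 1 368 372) (mv 404 (both (five 2 400 432) (mv 436 (both (five 0 400 435) (five 0 401 437))))))))))))) (both (mv 398 (both (mv 365 (both (five 3 365 366) (mv 397 (both (five 3 364 364) (five 0 397 432))))) (both (mv 366 (both (five 3 365 365) (mv 369 (both (five 1 366 370) (mv 430 (both (five 2 397 429) (mv 463 (both (five 4 399 431) (five 4 366 462))))))))) (mv 369 (both (five 1 366 370) (mv 397 (both (five 1 365 368) (five 0 397 432)))))))) (both (mv 398 (both (mv 365 (both (five 3 365 366) (mv 397 (both (five 3 364 364) (five 0 397 432))))) (both (mv 366 (both (five 3 365 365) (mv 367 (both (five 3 366 402) (mv 369 (both (five 1 366 370) (mv 431 (both (five 7 366 463) (mv 334 (both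 (five 4 302 302) (mv 368 (both (five 3 333 333) (mv 304 (both (five 6 303 336) (mv 337 (both (five 1 334 338) (mv 305 (both (five 7 272 272) (five 6 304 432))))))))))))))))))) (both (mv 369 (both (five 1 366 370) (mv 397 (both (five 1 365 368) (five 0 397 432))))) (mv 365 (both (five 3 365 366) (mv 369 (both (five 1 366 370) (mv 397 (both (five 3 364 364) (five 1 365 368))))))))))) (both (mv 431 (both (five 4 399 463) (mv 402 (both (five 2 398 430) (mv 366 (both (five 3 366 367) (mv 365 (both (five 3 365 398) (mv 403 (both (five 2 399 432) (mv 372 (both (five 1 368 371) (mv 404 (both (five 1 369 373) (mv 436 (both (five 0 400 435) (five 0 401 437))))))))))))))))) (mv 431 (both (five 4 399 463) (mv 402 (both (five 2 398 430) (mv 366 (both (five 3 366 367) (mv 370 (both (five 1 367 371) (mv 398 (both (five 3 365 365) (five 1 366 369))))))))))))))))) (both (mv 402 (both (mv 431 (both (five 4 399 463) (mv 430 (both (five 2 398 400) (five 1 398 432))))) (both (mv 400 (both (mv 371 (both (five 1 367 370) (mv 403 (both (five 1 368 372) (mv 404 (both (five 2 400 432) (mv 436 (both (five 0 400 435) (five 0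 401 437))))))))) (both (mv 371 (both (five 1 367 370) (mv 403 (both (five 1 368 372) (mv 404 (both (five 2 400 432) (mv 368 (both (five 3 368 369) (mv 304 (both (five 4 304 336) (mv 405 (both (five 2 401 434) (mv 437 (both (five 0 401 436) (five 0 402 438))))))))))))))) (both (mv 435 (both (five 0 399 434) (mv 403 (both (five 0 400 436) (mv 372 (both (five 1 368 371) (mv 404 (both (five 1 369 373) (five 2 400 432))))))))) (both (mv 435 (both (five 0 399 434) (mv 403 (both (five 0 400 436) (mv 404 (both (five 2 400 432) (mv 369 (both (five 3 368 368) (mv 373 (both (five 1 369 372) (mv 405 (both (five 3 369 370) (five 1 370 374))))))))))))) (mv 370 (both (five 1 367 371) (mv 338 (both (five 6 305 306) (mv 434 (both (five 0 399 435) (mv 307 (both (five 5 306 339) (mv 337 (both (five 7 305 305) (mv 466 (both (five 7 337 369) (mv 467 (both (five 4 370 499) (mv 498 (both (five 1 463 497) (five 7 401 530)))))))))))))))))))))) (both (mv 431 (both (five 4 399 463) (mv 432 (both (five 1 398 430) (mv 403 (both (five 2 400 404) (five 1 399 434))))))) (mv 431 (both (five 4 399 463) (mv 400 (both (five 2 398 430)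 (mv 370 (both (five 1 367 371) (mv 338 (both (five 6 305 306) (mv 434 (both (five 0 399 435) (mv 307 (both (five 5 306 339) (mv 337 (both (five 7 305 305) (mv 466 (both (five 7 337 369) (mv 467 (both (five 4 370 499) (mv 498 (both (five 1 463 497) (five 7 401 530))))))))))))))))))))))))) (both (mv 398 (both (mv 400 (both (five 0 398 434) (mv 365 (both (five 3 365 366) (mv 397 (both (five 3 364 364) (five 0 397 432))))))) (both (mv 431 (both (five 4 399 463) (mv 432 (both (five 3 398 434) (mv 397 (both (five 0 396 396) (five 3 397 430))))))) (both (mv 400 (both (mv 365 (both (five 3 365 366) (mv 397 (both (five 3 364 364) (five 0 397 432))))) (both (mv 366 (both (five 3 365 365) (mv 369 (both (five 1 366 370) (mv 430 (both (five 2 397 429) (mv 463 (both (five 4 399 431) (five 4 366 462))))))))) (mv 369 (both (five 1 366 370) (mv 397 (both (five 1 365 368) (five 0 397 432)))))))) (mv 400 (both (five 0 398 434) (mv 366 (both (five 3 365 365) (mv 369 (both (five 1 366 370) (mv 430 (both (five 2 397 429) (mv 463 (both (five 4 399 431) (five 4 366 462))))))))))))))) (both (mv 400 (both (mv 398 (both (five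 0 398 434) (mv 430 (both (five 2 397 429) (mv 431 (both (five 2 398 402) (five 4 399 463))))))) (both (mv 431 (both (five 4 399 463) (mv 402 (both (five 2 398 430) (mv 370 (both (five 1 367 371) (mv 338 (both (five 6 305 306) (mv 434 (both (five 0 399 435) (mv 307 (both (five 5 306 339) (mv 337 (both (five 7 305 305) (mv 466 (both (five 7 337 369) (mv 467 (both (five 4 370 499) (mv 498 (both (five 1 463 497) (five 7 401 530))))))))))))))))))))) (both (mv 431 (both (five 4 399 463) (mv 402 (both (five 2 398 430) (mv 366 (both (five 3 366 367) (mv 370 (both (five 1 367 371) (mv 398 (both (five 3 365 365) (five 1 366 369))))))))))) (mv 398 (both (five 0 398 434) (mv 365 (both (five 3 365 366) (mv 369 (both (five 1 366 370) (mv 397 (both (five 3 364 364) (five 1 365 368))))))))))))) (both (mv 400 (both (mv 398 (both (five 0 398 434) (mv 365 (both (five 3 365 366) (mv 397 (both (five 3 364 364) (five 0 397 432))))))) (both (mv 431 (both (five 4 399 463) (mv 402 (both (five 2 398 430) (mv 371 (both (five 1 367 370) (mv 403 (both (five 1 368 372) (mv 404 (both (five 2 400 432) (mv 436 (both (five 0 400 435)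 (five 0 401 437))))))))))))) (mv 398 (both (five 0 398 434) (mv 430 (both (five 2 397 429) (mv 431 (both (five 2 398 402) (five 4 399 463)))))))))) (mv 400 (both (mv 398 (both (five 0 398 434) (mv 365 (both (five 3 365 366) (mv 397 (both (five 3 364 364) (five 0 397 432))))))) (both (mv 402 (both (mv 366 (both (five 3 366 367) (mv 371 (both (five 1 367 370) (mv 403 (both (five 1 368 372) (mv 404 (both (five 2 400 432) (mv 368 (both (five 3 368 369) (mv 304 (both (five 4 304 336) (mv 405 (both (five 2 401 434) (mv 437 (both (five 0 401 436) (five 0 402 438))))))))))))))))) (both (mv 366 (both (five 3 366 367) (mv 435 (both (five 0 399 434) (mv 403 (both (five 0 400 436) (mv 372 (both (five 1 368 371) (mv 404 (both (five 1 369 373) (five 2 400 432))))))))))) (both (mv 371 (both (five 1 367 370) (mv 403 (both (five 1 368 372) (mv 404 (both (five 2 400 432) (mv 436 (both (five 0 400 435) (five 0 401 437))))))))) (both (mv 366 (both (five 3 366 367) (mv 435 (both (five 0 399 434) (mv 403 (both (five 0 400 436) (mv 404 (both (five 2 400 432) (mv 369 (both (five 3 368 368) (mv 373 (both (five 1 369 372)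 (mv 405 (both (five 3 369 370) (five 1 370 374))))))))))))))) (mv 366 (both (five 3 366 367) (mv 370 (both (five 1 367 371) (mv 338 (both (five 6 305 306) (mv 434 (both (five 0 399 435) (mv 307 (both (five 5 306 339) (mv 337 (both (five 7 305 305) (mv 466 (both (five 7 337 369) (mv 467 (both (five 4 370 499) (mv 498 (both (five 1 463 497) (five 7 401 530)))))))))))))))))))))))) (both (mv 398 (both (mv 365 (both (five 3 365 366) (mv 397 (both (five 3 364 364) (five 0 397 432))))) (both (mv 366 (both (five 3 365 365) (mv 367 (both (five 3 366 402) (mv 369 (both (five 1 366 370) (mv 431 (both (five 7 366 463) (mv 334 (both (five 4 302 302) (mv 368 (both (five 3 333 333) (mv 304 (both (five 6 303 336) (mv 337 (both (five 1 334 338) (mv 305 (both (five 7 272 272) (five 6 304 432))))))))))))))))))) (both (mv 369 (both (five 1 366 370) (mv 397 (both (five 1 365 368) (five 0 397 432))))) (mv 365 (both (five 3 365 366) (mv 369 (both (five 1 366 370) (mv 397 (both (five 3 364 364) (five 1 365 368))))))))))) (both (mv 398 (both (five 0 398 434) (mv 365 (both (five 3 365 366) (mv 369 (both (five 1 366 370) (mv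 397 (both (five 3 364 364) (five 1 365 368))))))))) (mv 398 (both (five 0 398 434) (mv 369 (both (five 1 366 370) (mv 397 (both (five 1 365 368) (five 0 397 432)))))))))))))))))))) (both (mv 369 (both (mv 337 (both (mv 338 (both (five 5 305 306) (mv 465 (both (five 5 337 370) (mv 466 (both (five 4 337 434) (five 4 369 498))))))) (both (mv 304 (both (five 7 304 336) (mv 305 (both (five 7 272 272) (mv 434 (both (five 4 305 402) (five 4 337 466))))))) (mv 304 (both (five 7 304 336) (mv 305 (both (five 7 272 272) (mv 306 (both (five 5 273 274) (five 5 305 338)))))))))) (both (mv 399 (both (mv 465 (both (mv 431 (both (five 4 399 463) (mv 466 (both (five 4 369 498) (mv 432 (both (five 0 430 430) (mv 434 (both (five 3 398 398) (five 0 431 467))))))))) (both (mv 368 (both (five 7 336 336) (mv 370 (both (five 5 337 338) (mv 367 (both (five 2 366 398) (mv 402 (both (five 0 366 366) (five 0 367 403))))))))) (mv 336 (both (five 7 336 368) (mv 338 (both (five 5 337 370) (mv 431 (both (five 4 399 463) (mv 466 (both (five 4 369 498) (mv 432 (both (five 0 430 430) (mv 467 (both (five 0 431 434) (five 3 432 468))))))))))))))))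 (both (mv 370 (both (mv 338 (both (five 5 337 465) (mv 306 (both (five 6 273 274) (five 6 305 402))))) (mv 400 (both (five 1 366 398) (mv 371 (both (five 2 367 368) (five 2 368 372))))))) (both (mv 465 (both (mv 431 (both (five 4 399 463) (mv 466 (both (five 4 369 498) (mv 432 (both (five 0 430 430) (mv 467 (both (five 0 431 434) (five 3 432 468))))))))) (mv 368 (both (five 7 336 336) (mv 370 (both (five 5 337 338) (mv 371 (both (five 2 367 400) (mv 340 (both (five 1 336 339) (mv 372 (both (five 1 337 341) (mv 404 (both (five 0 368 403) (five 0 369 405))))))))))))))) (mv 400 (both (mv 398 (both (five 0 398 434) (mv 365 (both (five 3 365 366) (mv 397 (both (five 3 364 364) (five 0 397 432))))))) (both (mv 431 (both (five 4 399 463) (mv 402 (both (five 2 398 430) (mv 403 (both (five 2 399 432) (mv 435 (both (five 0 399 434) (five 0 400 436))))))))) (both (mv 431 (both (five 4 399 463) (mv 402 (both (five 2 398 430) (mv 366 (both (five 3 366 367) (mv 365 (both (five 3 365 398) (mv 403 (both (five 2 399 432) (mv 372 (both (five 1 368 371) (mv 404 (both (five 1 369 373) (mv 436 (both (five 0 400 435) (five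 0 401 437))))))))))))))))) (mv 398 (both (five 0 398 434) (mv 430 (both (five 2 397 429) (mv 431 (both (five 2 398 402) (five 4 399 463))))))))))))))) (both (mv 337 (both (mv 304 (both (five 7 304 336) (mv 305 (both (five 7 272 272) (mv 434 (both (five 4 305 402) (five 4 337 466))))))) (both (mv 304 (both (five 7 304 336) (mv 305 (both (five 7 272 272) (mv 306 (both (five 5 273 274) (five 5 305 338))))))) (both (mv 306 (both (five 5 305 338) (mv 305 (both (five 5 273 274) (mv 434 (both (five 4 305 402) (five 4 337 466))))))) (mv 336 (both (five 7 304 304) (mv 335 (both (mv 334 (both (five 0 334 370) (mv 301 (both (five 3 301 302) (mv 333 (both (five 3 300 300) (five 0 333 368))))))) (both (mv 338 (both (five 5 305 306) (mv 367 (both (five 2 334 366) (mv 339 (both (five 2 335 368) (mv 307 (both (five 1 304 308) (mv 371 (both (five 0 336 372) (mv 434 (both (five 4 337 466) (mv 403 (both (five 6 306 402) (mv 436 (both (five 4 307 404) (mv 435 (both (five 3 400 400) (five 4 339 468))))))))))))))))))) (mv 306 (both (five 5 305 338) (mv 334 (both (five 0 334 370) (mv 301 (both (five 3 301 302) (mv 333 (both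 (five 3 300 300) (mv 365 (both (five 2 332 364) (five 2 333 366)))))))))))))))))))) (both (mv 337 (both (mv 304 (both (five 7 304 336) (mv 305 (both (five 7 272 272) (mv 306 (both (five 5 273 274) (five 5 305 338))))))) (both (mv 306 (both (five 5 305 338) (mv 305 (both (five 5 273 274) (mv 272 (both (five 7 272 304) (mv 273 (both (five 7 240 240) (mv 400 (both (five 6 272 368) (five 6 304 432))))))))))) (both (mv 304 (both (five 7 304 336) (mv 305 (both (five 7 272 272) (mv 274 (both (five 5 273 306) (mv 273 (both (five 5 241 242) (mv 400 (both (five 6 272 368) (five 6 304 432))))))))))) (both (mv 306 (both (five 5 305 338) (mv 305 (both (five 5 273 274) (mv 400 (both (five 6 304 432) (mv 368 (both (five 6 272 273) (mv 336 (both (five 7 336 465) (mv 335 (both (five 1 302 334) (mv 370 (both (five 3 335 371) (mv 399 (both (five 1 366 398) (mv 431 (both (five 5 367 463) (mv 402 (both (five 2 398 430) (mv 367 (both (five 3 366 366) (five 0 367 403))))))))))))))))))))))) (both (mv 304 (both (five 7 304 336) (mv 305 (both (five 7 272 272) (mv 400 (both (five 6 304 432) (mv 273 (both (five 6 272 368) (mv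 242 (both (five 5 241 274) (mv 370 (both (five 4 273 402) (mv 338 (both (five 4 241 241) (five 5 337 465))))))))))))))) (mv 336 (both (five 7 304 304) (mv 338 (both (five 5 305 306) (mv 465 (both (five 7 336 368) (five 5 337 370))))))))))))) (both (mv 337 (both (mv 338 (both (five 5 305 306) (mv 465 (both (five 5 337 370) (mv 466 (both (five 4 337 434) (five 4 369 498))))))) (both (mv 336 (both (five 7 304 304) (mv 465 (both (five 7 336 368) (mv 466 (both (five 4 337 434) (five 4 369 498))))))) (mv 304 (both (five 7 304 336) (mv 305 (both (five 7 272 272) (mv 306 (both (five 5 273 274) (five 5 305 338)))))))))) (both (mv 337 (both (mv 338 (both (five 5 305 306) (mv 465 (both (five 5 337 370) (mv 466 (both (five 4 337 434) (five 4 369 498))))))) (both (mv 306 (both (five 5 305 338) (mv 305 (both (five 5 273 274) (mv 272 (both (five 7 272 304) (mv 273 (both (five 7 240 240) (mv 400 (both (five 6 272 368) (five 6 304 432))))))))))) (mv 434 (both (five 4 337 466) (mv 305 (both (five 4 305 402) (mv 272 (both (five 7 272 304) (mv 273 (both (five 7 240 240) (mv 400 (both (five 6 272 368) (five 6 304 432))))))))))))))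 (both (mv 337 (both (mv 304 (both (five 7 304 336) (mv 305 (both (five 7 272 272) (mv 434 (both (five 4 305 402) (five 4 337 466))))))) (both (mv 304 (both (five 7 304 336) (mv 305 (both (five 7 272 272) (mv 274 (both (five 5 273 306) (mv 273 (both (five 5 241 242) (mv 400 (both (five 6 272 368) (five 6 304 432))))))))))) (both (mv 434 (both (five 4 337 466) (mv 305 (both (five 4 305 402) (mv 274 (both (five 5 273 306) (mv 273 (both (five 5 241 242) (mv 400 (both (five 6 272 368) (five 6 304 432))))))))))) (mv 336 (both (five 7 304 304) (mv 465 (both (five 7 336 368) (mv 466 (both (five 4 337 434) (five 4 369 498))))))))))) (both (mv 337 (both (mv 304 (both (five 7 304 336) (mv 305 (both (five 7 272 272) (mv 434 (both (five 4 305 402) (five 4 337 466))))))) (both (mv 434 (both (five 4 337 466) (mv 305 (both (five 4 305 402) (mv 272 (both (five 7 272 304) (mv 273 (both (five 7 240 240) (mv 400 (both (five 6 272 368) (five 6 304 432))))))))))) (both (mv 304 (both (five 7 304 336) (mv 305 (both (five 7 272 272) (mv 400 (both (five 6 304 432) (mv 273 (both (five 6 272 368) (mv 242 (both (five 5 241 274)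 (mv 370 (both (five 4 273 402) (mv 338 (both (five 4 241 241) (five 5 337 465))))))))))))))) (both (mv 434 (both (five 4 337 466) (mv 305 (both (five 4 305 402) (mv 400 (both (five 6 304 432) (mv 368 (both (five 6 272 273) (mv 399 (both (five 0 398 398) (mv 370 (both (five 2 367 371) (mv 465 (both (five 7 336 336) (five 5 337 338))))))))))))))) (mv 336 (both (five 7 304 304) (mv 465 (both (five 7 336 368) (mv 466 (both (five 4 337 434) (five 4 369 498)))))))))))) (mv 337 (both (mv 338 (both (five 5 305 306) (mv 465 (both (five 5 337 370) (mv 466 (both (five 4 337 434) (five 4 369 498))))))) (both (mv 336 (both (five 7 304 304) (mv 338 (both (five 5 305 306) (mv 465 (both (five 7 336 368) (five 5 337 370))))))) (mv 304 (both (five 7 304 336) (mv 305 (both (five 7 272 272) (mv 434 (both (five 4 305 402) (five 4 337 466))))))))))))))))))) (both (mv 465 (both (five 6 400 497) (mv 369 (both (mv 336 (both (five 7 336 368) (mv 337 (both (five 7 304 304) (mv 466 (both (five 4 337 434) (five 4 369 498))))))) (both (mv 338 (both (five 5 337 370) (mv 337 (both (five 5 305 306) (mv 466 (both (five 4 337 434)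 (five 4 369 498))))))) (mv 368 (both (five 7 336 336) (mv 367 (both (mv 366 (both (five 0 366 402) (mv 333 (both (five 3 333 334) (mv 365 (both (five 3 332 332) (five 0 365 400))))))) (both (mv 370 (both (five 5 337 338) (mv 399 (both (five 2 366 398) (mv 371 (both (five 2 367 400) (mv 340 (both (five 1 336 339) (mv 372 (both (five 1 337 341) (mv 404 (both (five 0 368 403) (five 0 369 405))))))))))))) (mv 338 (both (five 5 337 370) (mv 366 (both (five 0 366 402) (mv 333 (both (five 3 333 334) (mv 365 (both (five 3 332 332) (mv 397 (both (five 2 364 396) (five 2 365 398))))))))))))))))))))) (both (mv 399 (both (mv 463 (both (five 4 399 431) (mv 497 (both (five 6 400 465) (mv 498 (both (five 3 462 462) (mv 467 (both (five 1 463 466) (mv 499 (both (five 1 464 468) (mv 531 (both (five 0 495 530) (five 0 496 532))))))))))))) (both (mv 400 (both (mv 398 (both (mv 365 (both (five 3 365 366) (mv 397 (both (five 3 364 364) (five 0 397 432))))) (both (mv 366 (both (five 3 365 365) (mv 367 (both (five 3 366 402) (mv 430 (both (five 2 397 429) (mv 335 (both (five 6 302 303) (five 5 334 462))))))))) (mv 397 (both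 (five 0 397 432) (mv 429 (both (five 2 396 428) (five 2 397 430)))))))) (both (mv 402 (both (mv 366 (both (five 3 366 367) (mv 370 (both (five 1 367 371) (mv 338 (both (five 6 305 306) (mv 465 (both (five 6 337 434) (five 5 369 497))))))))) (both (mv 435 (both (five 0 399 434) (mv 403 (both (five 0 400 436) (mv 372 (both (five 1 368 371) (mv 404 (both (five 1 369 373) (five 2 400 432))))))))) (mv 367 (both (five 3 366 366) (mv 368 (both (five 3 367 403) (mv 336 (both (five 4 304 304) (mv 465 (both (five 4 336 432) (five 7 368 497)))))))))))) (both (mv 398 (both (five 0 398 434) (mv 366 (both (five 3 365 365) (mv 367 (both (five 3 366 402) (mv 430 (both (five 2 397 429) (mv 335 (both (five 6 302 303) (five 5 334 462))))))))))) (mv 398 (both (five 0 398 434) (mv 397 (both (five 0 397 432) (mv 429 (both (five 2 396 428) (five 2 397 430))))))))))) (mv 400 (both (mv 398 (both (five 0 398 434) (mv 365 (both (five 3 365 366) (mv 397 (both (five 3 364 364) (five 0 397 432))))))) (both (mv 431 (both (five 4 399 463) (mv 402 (both (five 2 398 430) (mv 371 (both (five 1 367 370) (mv 403 (both (five 1 368 372)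 (mv 404 (both (five 2 400 432) (mv 436 (both (five 0 400 435) (five 0 401 437))))))))))))) (mv 398 (both (five 0 398 434) (mv 430 (both (five 2 397 429) (mv 431 (both (five 2 398 402) (five 4 399 463))))))))))))) (both (mv 431 (both (mv 399 (both (five 4 399 463) (mv 432 (both (mv 398 (both (five 3 398 434) (mv 397 (both (five 0 396 396) (five 3 397 430))))) (both (mv 430 (both (five 1 398 402) (mv 397 (both (five 3 397 398) (mv 429 (both (five 3 396 396) (mv 461 (both (five 2 428 460) (five 2 429 462))))))))) (both (mv 434 (both (five 3 398 398) (mv 402 (both (five 1 399 403) (mv 466 (both (five 0 431 467) (mv 369 (both (five 4 337 337) (five 7 369 498))))))))) (mv 402 (both (five 1 398 430) (mv 403 (both (five 2 400 404) (five 1 399 434))))))))))) (both (mv 465 (both (five 6 400 497) (mv 369 (both (mv 336 (both (five 7 336 368) (mv 337 (both (five 7 304 304) (mv 338 (both (five 5 305 306) (five 5 337 370))))))) (mv 466 (both (five 4 369 498) (mv 432 (both (five 0 430 430) (mv 467 (both (five 0 431 434) (five 3 432 468))))))))))) (both (mv 463 (both (five 4 399 399) (mv 497 (both (five 6 400 465)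 (mv 498 (both (five 3 462 462) (mv 467 (both (five 1 463 466) (mv 499 (both (five 1 464 468) (mv 531 (both (five 0 495 530) (five 0 496 532))))))))))))) (both (mv 463 (both (five 4 399 399) (mv 497 (both (five 6 400 465) (mv 462 (both (five 3 462 498) (mv 432 (both (five 2 430 434) (mv 430 (both (five 1 398 402) (five 2 429 461))))))))))) (mv 432 (both (mv 402 (both (five 1 398 430) (mv 403 (both (five 2 400 404) (five 1 399 434))))) (both (mv 399 (both (five 4 399 463) (mv 434 (both (five 3 398 398) (mv 403 (both (five 1 399 402) (mv 404 (both (five 1 400 435) (mv 465 (both (five 6 400 497) (mv 466 (both (five 0 431 467) (mv 369 (both (five 4 337 337) (mv 368 (both (five 7 336 336) (mv 370 (both (five 5 337 338) (five 0 368 371))))))))))))))))))) (both (mv 399 (both (five 4 399 463) (mv 398 (both (five 3 398 434) (mv 397 (both (five 0 396 396) (five 3 397 430))))))) (mv 430 (both (five 1 398 402) (mv 397 (both (five 3 397 398) (mv 429 (both (five 3 396 396) (mv 461 (both (five 2 428 460) (five 2 429 462)))))))))))))))))) (both (mv 465 (both (five 6 400 497) (mv 369 (both (mv 336 (both (five 7 336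 368) (mv 337 (both (five 7 304 304) (mv 338 (both (five 5 305 306) (five 5 337 370))))))) (both (mv 338 (both (five 5 337 370) (mv 337 (both (five 5 305 306) (mv 466 (both (five 4 337 434) (five 4 369 498))))))) (both (mv 336 (both (five 7 336 368) (mv 337 (both (five 7 304 304) (mv 466 (both (five 4 337 434) (five 4 369 498))))))) (mv 399 (both (mv 431 (both (five 4 399 463) (mv 466 (both (five 4 369 498) (mv 432 (both (five 0 430 430) (mv 434 (both (five 3 398 398) (five 0 431 467))))))))) (mv 368 (both (five 7 336 336) (mv 370 (both (five 5 337 338) (mv 371 (both (five 2 367 400) (mv 340 (both (five 1 336 339) (mv 372 (both (five 1 337 341) (mv 404 (both (five 0 368 403) (five 0 369 405))))))))))))))))))))) (both (mv 465 (both (five 6 400 497) (mv 369 (both (mv 336 (both (five 7 336 368) (mv 337 (both (five 7 304 304) (mv 338 (both (five 5 305 306) (five 5 337 370))))))) (both (mv 338 (both (five 5 337 370) (mv 337 (both (five 5 305 306) (mv 466 (both (five 4 337 434) (five 4 369 498))))))) (both (mv 336 (both (five 7 336 368) (mv 337 (both (five 7 304 304) (mv 466 (both (five 4 337 434) (five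 4 369 498))))))) (mv 368 (both (five 7 336 336) (mv 367 (both (mv 370 (both (five 5 337 338) (mv 334 (both (five 3 334 335) (mv 366 (both (five 3 333 333) (mv 365 (both (five 0 365 400) (mv 397 (both (five 2 364 396) (five 2 365 398))))))))))) (both (mv 370 (both (five 5 337 338) (mv 334 (both (five 3 334 335) (mv 403 (both (five 0 367 402) (mv 371 (both (five 0 368 404) (mv 339 (both (five 1 336 340) (mv 372 (both (five 2 368 400) (mv 466 (both (five 4 369 498) (mv 435 (both (five 6 338 434) (mv 468 (both (five 4 339 436) (mv 467 (both (five 3 432 432) (five 4 371 500))))))))))))))))))))) (both (mv 366 (both (five 0 366 402) (mv 333 (both (five 3 333 334) (mv 365 (both (five 3 332 332) (mv 397 (both (five 2 364 396) (five 2 365 398))))))))) (mv 338 (both (five 5 337 370) (mv 366 (both (five 0 366 402) (mv 365 (both (five 0 365 400) (mv 397 (both (five 2 364 396) (five 2 365 398))))))))))))))))))))) (both (mv 431 (both (mv 463 (both (five 4 399 399) (mv 497 (both (five 6 400 465) (mv 498 (both (five 3 462 462) (mv 467 (both (five 1 463 466) (mv 499 (both (five 1 464 468) (mv 531 (both (five 0 495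 530) (five 0 496 532))))))))))))) (both (mv 432 (both (mv 430 (both (five 1 398 402) (mv 397 (both (five 3 397 398) (mv 429 (both (five 3 396 396) (mv 461 (both (five 2 428 460) (five 2 429 462))))))))) (both (mv 399 (both (five 4 399 463) (mv 400 (both (mv 398 (both (five 0 397 397) (mv 366 (both (five 3 365 365) (mv 302 (both (five 4 302 334) (mv 369 (both (five 1 366 370) (mv 337 (both (five 6 304 305) (mv 336 (both (five 7 304 304) (mv 338 (both (five 5 305 306) (mv 335 (both (five 3 302 303) (five 2 334 367))))))))))))))))) (both (mv 402 (both (five 2 399 403) (mv 367 (both (five 3 366 366) (mv 335 (both (five 4 303 303) (mv 334 (both (five 7 302 302) (mv 336 (both (five 5 303 304) (mv 370 (both (five 1 367 371) (mv 369 (both (five 0 334 337) (five 3 334 368))))))))))))))) (both (mv 398 (both (five 0 397 397) (mv 366 (both (five 3 365 365) (mv 402 (both (five 3 366 367) (five 2 399 403))))))) (mv 398 (both (five 0 397 397) (mv 370 (both (five 1 366 369) (mv 402 (both (five 1 367 371) (five 2 399 403))))))))))))) (both (mv 430 (both (mv 398 (both (five 3 397 397) (mv 462 (both (five 2 429 461)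 (mv 463 (both (five 4 366 366) (five 4 399 399))))))) (both (mv 399 (both (five 4 399 463) (mv 429 (both (five 1 397 400) (mv 461 (both (five 2 428 460) (five 2 429 462))))))) (mv 397 (both (five 3 397 398) (mv 429 (both (five 3 396 396) (five 1 397 400)))))))) (mv 399 (both (five 4 399 463) (mv 402 (both (five 1 398 430) (mv 403 (both (five 2 399 400) (five 2 400 404))))))))))) (both (mv 465 (both (five 6 400 497) (mv 369 (both (mv 336 (both (five 7 336 368) (mv 337 (both (five 7 304 304) (mv 338 (both (five 5 305 306) (five 5 337 370))))))) (both (mv 337 (both (mv 338 (both (five 5 305 306) (five 5 337 370))) (both (mv 466 (both (five 4 369 498) (mv 432 (both (five 0 430 430) (mv 305 (both (five 6 304 400) (mv 272 (both (five 7 272 304) (mv 273 (both (five 7 240 240) (mv 274 (both (five 5 241 242) (five 5 273 306))))))))))))) (mv 370 (both (five 5 337 338) (mv 466 (both (five 4 369 498) (mv 432 (both (five 0 430 430) (mv 305 (both (five 6 304 400) (mv 272 (both (five 7 272 304) (mv 273 (both (five 7 240 240) (five 4 273 402)))))))))))))))) (both (mv 402 (both (mv 432 (both (five 1 398 430) (mv 403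 (both (five 2 399 400) (five 2 400 404))))) (both (mv 336 (both (five 7 336 368) (mv 337 (both (five 7 304 304) (mv 432 (both (five 1 398 430) (mv 305 (both (five 6 304 400) (mv 273 (both (five 4 273 370) (mv 274 (both (five 5 241 242) (five 5 273 306))))))))))))) (mv 368 (both (five 7 336 336) (mv 367 (both (five 0 366 366) (mv 403 (both (five 0 367 370) (five 3 368 404)))))))))) (both (mv 336 (both (five 7 336 368) (mv 337 (both (five 7 304 304) (mv 306 (both (five 5 305 338) (mv 305 (both (five 5 273 274) (mv 432 (both (five 6 304 400) (mv 430 (both (five 1 398 402) (mv 397 (both (five 3 397 398) (mv 429 (both (five 3 396 396) (mv 461 (both (five 2 428 460) (five 2 429 462))))))))))))))))))) (mv 403 (both (mv 466 (both (five 4 369 498) (mv 432 (both (five 0 430 430) (mv 402 (both (five 2 399 400) (five 2 400 404))))))) (both (mv 368 (both (five 7 336 336) (mv 370 (both (five 5 337 338) (mv 371 (both (five 0 368 404) (mv 340 (both (five 1 336 339) (mv 372 (both (five 1 337 341) (five 2 368 400))))))))))) (both (mv 368 (both (five 7 336 336) (mv 370 (both (five 5 337 338) (mv 367 (both (five 0 367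 402) (mv 334 (both (five 3 334 335) (mv 366 (both (five 3 333 333) (mv 365 (both (five 0 365 400) (mv 397 (both (five 2 364 396) (five 2 365 398))))))))))))))) (mv 368 (both (five 7 336 336) (mv 370 (both (five 5 337 338) (mv 402 (both (five 0 367 367) (five 3 368 404)))))))))))))))))) (mv 430 (both (mv 399 (both (five 4 399 463) (mv 400 (both (five 2 398 402) (mv 429 (both (five 2 397 398) (five 1 396 428))))))) (both (mv 432 (both (five 1 398 402) (mv 397 (both (five 3 397 398) (mv 429 (both (five 3 396 396) (five 1 397 400))))))) (both (mv 399 (both (five 4 399 463) (mv 465 (both (five 6 400 497) (mv 432 (both (five 0 430 466) (mv 397 (both (five 3 397 398) (mv 429 (both (five 3 396 396) (five 1 397 400))))))))))) (mv 399 (both (five 4 399 463) (mv 432 (both (five 1 398 402) (mv 465 (both (five 0 430 466) (five 6 400 497))))))))))))))) (both (mv 400 (both (mv 465 (both (five 6 400 497) (mv 369 (both (mv 338 (both (five 5 337 370) (mv 337 (both (five 5 305 306) (mv 304 (both (five 7 304 336) (mv 305 (both (five 7 272 272) (five 6 304 432))))))))) (both (mv 338 (both (five 5 337 370) (mv 337 (both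 (five 5 305 306) (mv 305 (both (five 6 304 432) (mv 272 (both (five 7 272 304) (mv 273 (both (five 7 240 240) (five 6 272 368))))))))))) (both (mv 336 (both (five 7 336 368) (mv 337 (both (five 7 304 304) (mv 305 (both (five 6 304 432) (mv 306 (both (five 5 273 274) (five 5 305 338))))))))) (both (mv 336 (both (five 7 336 368) (mv 337 (both (five 7 304 304) (mv 305 (both (five 6 304 432) (mv 274 (both (five 5 273 306) (mv 273 (both (five 5 241 242) (mv 402 (both (five 4 273 370) (five 4 305 434))))))))))))) (mv 368 (both (five 7 336 336) (mv 370 (both (five 5 337 338) (mv 371 (both (five 2 368 372) (mv 339 (both (five 1 336 340) (mv 403 (both (five 0 368 404) (mv 367 (both (five 0 367 402) (mv 334 (both (five 3 334 335) (mv 366 (both (five 3 333 333) (five 0 365 365)))))))))))))))))))))))) (both (mv 399 (both (mv 398 (both (five 0 398 434) (mv 365 (both (five 3 365 366) (mv 397 (both (five 3 364 364) (five 0 397 432))))))) (both (mv 465 (both (five 6 400 497) (mv 369 (both (mv 338 (both (five 5 337 370) (mv 337 (both (five 5 305 306) (mv 304 (both (five 7 304 336) (mv 305 (both (five 7 272 272) (five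 6 304 432))))))))) (both (mv 338 (both (five 5 337 370) (mv 337 (both (five 5 305 306) (mv 305 (both (five 6 304 432) (mv 272 (both (five 7 272 304) (mv 273 (both (five 7 240 240) (five 6 272 368))))))))))) (both (mv 336 (both (five 7 336 368) (mv 337 (both (five 7 304 304) (mv 305 (both (five 6 304 432) (mv 306 (both (five 5 273 274) (five 5 305 338))))))))) (both (mv 336 (both (five 7 336 368) (mv 337 (both (five 7 304 304) (mv 431 (both (five 4 399 463) (mv 432 (both (five 6 304 305) (mv 430 (both (five 1 397 429) (mv 462 (both (five 2 429 461) (mv 335 (both (five 6 334 367) (mv 334 (both (five 0 334 370) (mv 301 (both (five 3 301 302) (mv 333 (both (five 3 300 300) (mv 365 (both (five 2 332 364) (five 2 333 366))))))))))))))))))))))) (mv 368 (both (five 7 336 336) (mv 370 (both (five 5 337 338) (five 2 367 371)))))))))))) (both (mv 398 (both (five 0 398 434) (mv 365 (both (five 3 365 366) (mv 369 (both (five 1 366 370) (mv 397 (both (five 3 364 364) (five 1 365 368))))))))) (mv 398 (both (five 0 398 434) (mv 369 (both (five 1 366 370) (mv 397 (both (five 1 365 368) (five 0 397 432))))))))))) (both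 (mv 399 (both (mv 431 (both (five 4 399 463) (mv 402 (both (five 2 398 430) (mv 366 (both (five 3 366 367) (mv 370 (both (five 1 367 371) (mv 398 (both (five 3 365 365) (five 1 366 369))))))))))) (both (mv 398 (both (mv 365 (both (five 3 365 366) (mv 397 (both (five 3 364 364) (five 0 397 432))))) (both (mv 366 (both (five 3 365 365) (mv 367 (both (five 3 366 402) (mv 430 (both (five 2 397 429) (mv 335 (both (five 6 302 303) (five 5 334 462))))))))) (mv 397 (both (five 0 397 432) (mv 429 (both (five 2 396 428) (five 2 397 430)))))))) (both (mv 431 (both (five 4 399 463) (mv 402 (both (five 2 398 430) (mv 371 (both (five 1 367 370) (mv 403 (both (five 1 368 372) (mv 404 (both (five 2 400 432) (mv 436 (both (five 0 400 435) (five 0 401 437))))))))))))) (both (mv 398 (both (mv 365 (both (five 3 365 366) (mv 397 (both (five 3 364 364) (five 0 397 432))))) (both (mv 366 (both (five 3 365 365) (mv 369 (both (five 1 366 370) (mv 430 (both (five 2 397 429) (mv 463 (both (five 4 399 431) (five 4 366 462))))))))) (mv 369 (both (five 1 366 370) (mv 397 (both (five 1 365 368) (five 0 397 432)))))))) (mv 398 (both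 (mv 365 (both (five 3 365 366) (mv 397 (both (five 3 364 364) (five 0 397 432))))) (both (mv 366 (both (five 3 365 365) (mv 367 (both (five 3 366 402) (mv 369 (both (five 1 366 370) (mv 431 (both (five 7 366 463) (mv 334 (both (five 4 302 302) (mv 368 (both (five 3 333 333) (mv 304 (both (five 6 303 336) (mv 337 (both (five 1 334 338) (mv 305 (both (five 7 272 272) (five 6 304 432))))))))))))))))))) (both (mv 369 (both (five 1 366 370) (mv 397 (both (five 1 365 368) (five 0 397 432))))) (mv 365 (both (five 3 365 366) (mv 369 (both (five 1 366 370) (mv 397 (both (five 3 364 364) (five 1 365 368)))))))))))))))) (both (mv 399 (both (mv 398 (both (five 0 398 434) (mv 430 (both (five 2 397 429) (mv 431 (both (five 2 398 402) (five 4 399 463))))))) (both (mv 431 (both (five 4 399 463) (mv 402 (both (five 2 398 430) (mv 370 (both (five 1 367 371) (mv 338 (both (five 6 305 306) (mv 465 (both (five 6 337 434) (five 5 369 497))))))))))) (both (mv 398 (both (five 0 398 434) (mv 365 (both (five 3 365 366) (mv 369 (both (five 1 366 370) (mv 397 (both (five 3 364 364) (five 1 365 368))))))))) (mv 431 (both (five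 4 399 463) (mv 402 (both (five 2 398 430) (mv 366 (both (five 3 366 367) (mv 370 (both (five 1 367 371) (mv 398 (both (five 3 365 365) (five 1 366 369))))))))))))))) (both (mv 399 (both (mv 398 (both (five 0 398 434) (mv 365 (both (five 3 365 366) (mv 397 (both (five 3 364 364) (five 0 397 432))))))) (both (mv 431 (both (five 4 399 463) (mv 402 (both (five 2 398 430) (mv 403 (both (five 2 399 432) (mv 435 (both (five 0 399 434) (five 0 400 436))))))))) (both (mv 398 (both (mv 365 (both (five 3 365 366) (mv 397 (both (five 3 364 364) (five 0 397 432))))) (both (mv 366 (both (five 3 365 365) (mv 367 (both (five 3 366 402) (mv 430 (both (five 2 397 429) (mv 335 (both (five 6 302 303) (five 5 334 462))))))))) (mv 397 (both (five 0 397 432) (mv 429 (both (five 2 396 428) (five 2 397 430)))))))) (mv 398 (both (five 0 398 434) (mv 430 (both (five 2 397 429) (mv 431 (both (five 2 398 402) (five 4 399 463))))))))))) (mv 399 (both (mv 398 (both (five 0 398 434) (mv 430 (both (five 2 397 429) (mv 431 (both (five 2 398 402) (five 4 399 463))))))) (both (mv 398 (both (five 0 398 434) (mv 369 (both (five 1 366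 370) (mv 397 (both (five 1 365 368) (five 0 397 432))))))) (mv 431 (both (five 4 399 463) (mv 402 (both (five 2 398 430) (mv 371 (both (five 1 367 370) (mv 403 (both (five 1 368 372) (mv 404 (both (five 2 400 432) (mv 436 (both (five 0 400 435) (five 0 401 437)))))))))))))))))))))) (both (mv 399 (both (mv 463 (both (five 4 399 431) (mv 497 (both (five 6 400 465) (mv 498 (both (five 3 462 462) (mv 467 (both (five 1 463 466) (mv 499 (both (five 1 464 468) (mv 531 (both (five 0 495 530) (five 0 496 532))))))))))))) (both (mv 465 (both (five 6 400 497) (mv 369 (both (mv 466 (both (five 4 369 498) (mv 337 (both (five 4 337 434) (mv 304 (both (five 7 304 336) (mv 305 (both (five 7 272 272) (mv 306 (both (five 5 273 274) (five 5 305 338))))))))))) (both (mv 466 (both (five 4 369 498) (mv 337 (both (five 4 337 434) (mv 304 (both (five 7 304 336) (mv 305 (both (five 7 272 272) (mv 274 (both (five 5 273 306) (mv 242 (both (five 5 241 273) (mv 400 (both (five 6 304 432) (mv 370 (both (five 1 366 398) (mv 371 (both (five 2 368 372) (five 1 367 402))))))))))))))))))) (mv 370 (both (five 5 337 338) (mv 400 (both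 (five 1 366 398) (mv 371 (both (five 2 368 372) (five 1 367 402)))))))))))) (mv 400 (both (mv 398 (both (five 0 398 434) (mv 365 (both (five 3 365 366) (mv 397 (both (five 3 364 364) (five 0 397 432))))))) (both (mv 431 (both (five 4 399 463) (mv 402 (both (five 2 398 430) (mv 371 (both (five 1 367 370) (mv 403 (both (five 1 368 372) (mv 404 (both (five 2 400 432) (mv 436 (both (five 0 400 435) (five 0 401 437))))))))))))) (mv 398 (both (five 0 398 434) (mv 430 (both (five 2 397 429) (mv 431 (both (five 2 398 402) (five 4 399 463))))))))))))) (both (mv 431 (both (mv 463 (both (five 4 399 399) (mv 497 (both (five 6 400 465) (mv 462 (both (five 3 462 498) (mv 432 (both (five 2 430 434) (mv 430 (both (five 1 398 402) (five 2 429 461))))))))))) (both (mv 465 (both (five 6 400 497) (mv 369 (both (mv 336 (both (five 7 336 368) (mv 337 (both (five 7 304 304) (mv 466 (both (five 4 337 434) (five 4 369 498))))))) (both (mv 336 (both (five 7 336 368) (mv 337 (both (five 7 304 304) (mv 306 (both (five 5 305 338) (mv 305 (both (five 5 273 274) (mv 432 (both (five 6 304 400) (mv 430 (both (five 1 398 402) (mv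 397 (both (five 3 397 398) (mv 429 (both (five 3 396 396) (mv 461 (both (five 2 428 460) (five 2 429 462))))))))))))))))))) (mv 466 (both (five 4 369 498) (mv 432 (both (five 0 430 430) (mv 467 (both (five 0 431 434) (five 3 432 468)))))))))))) (both (mv 399 (both (five 4 399 463) (mv 432 (both (mv 398 (both (five 3 398 434) (mv 397 (both (five 0 396 396) (five 3 397 430))))) (both (mv 430 (both (five 1 398 402) (mv 397 (both (five 3 397 398) (mv 429 (both (five 3 396 396) (mv 461 (both (five 2 428 460) (five 2 429 462))))))))) (both (mv 434 (both (five 3 398 398) (mv 402 (both (five 1 399 403) (mv 466 (both (five 0 431 467) (mv 369 (both (five 4 337 337) (five 7 369 498))))))))) (mv 402 (both (five 1 398 430) (mv 403 (both (five 2 400 404) (five 1 399 434))))))))))) (both (mv 463 (both (five 4 399 399) (mv 497 (both (five 6 400 465) (mv 498 (both (five 3 462 462) (mv 467 (both (five 1 463 466) (mv 499 (both (five 1 464 468) (mv 531 (both (five 0 495 530) (five 0 496 532))))))))))))) (mv 430 (both (mv 399 (both (five 4 399 463) (mv 400 (both (five 2 398 402) (mv 429 (both (five 2 397 398) (five 1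 396 428))))))) (both (mv 432 (both (five 1 398 402) (mv 397 (both (five 3 397 398) (mv 429 (both (five 3 396 396) (five 1 397 400))))))) (both (mv 399 (both (five 4 399 463) (mv 465 (both (five 6 400 497) (mv 432 (both (five 0 430 466) (mv 397 (both (five 3 397 398) (mv 429 (both (five 3 396 396) (five 1 397 400))))))))))) (mv 399 (both (five 4 399 463) (mv 432 (both (five 1 398 402) (mv 465 (both (five 0 430 466) (five 6 400 497)))))))))))))))) (both (mv 399 (both (mv 463 (both (five 4 399 431) (mv 497 (both (five 6 400 465) (mv 498 (both (five 3 462 462) (mv 467 (both (five 1 463 466) (mv 499 (both (five 1 464 468) (mv 531 (both (five 0 495 530) (five 0 496 532))))))))))))) (both (mv 465 (both (five 6 400 497) (mv 369 (both (mv 338 (both (five 5 337 370) (mv 337 (both (five 5 305 306) (mv 466 (both (five 4 337 434) (five 4 369 498))))))) (both (mv 466 (both (five 4 369 498) (mv 434 (both (five 4 337 337) (mv 400 (both (five 0 398 398) (mv 435 (both (five 0 399 402) (five 3 399 432))))))))) (mv 370 (both (five 5 337 338) (mv 400 (both (five 1 366 398) (mv 371 (both (five 2 368 372) (five 1 367 402))))))))))))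 (mv 398 (both (mv 400 (both (five 0 398 434) (mv 365 (both (five 3 365 366) (mv 397 (both (five 3 364 364) (five 0 397 432))))))) (both (mv 431 (both (five 4 399 463) (mv 432 (both (five 3 398 434) (mv 397 (both (five 0 396 396) (five 3 397 430))))))) (both (mv 400 (both (mv 365 (both (five 3 365 366) (mv 397 (both (five 3 364 364) (five 0 397 432))))) (both (mv 366 (both (five 3 365 365) (mv 369 (both (five 1 366 370) (mv 430 (both (five 2 397 429) (mv 463 (both (five 4 399 431) (five 4 366 462))))))))) (mv 369 (both (five 1 366 370) (mv 397 (both (five 1 365 368) (five 0 397 432)))))))) (mv 400 (both (five 0 398 434) (mv 366 (both (five 3 365 365) (mv 369 (both (five 1 366 370) (mv 430 (both (five 2 397 429) (mv 463 (both (five 4 399 431) (five 4 366 462)))))))))))))))))) (both (mv 399 (both (mv 463 (both (five 4 399 431) (mv 497 (both (five 6 400 465) (mv 498 (both (five 3 462 462) (mv 467 (both (five 1 463 466) (mv 499 (both (five 1 464 468) (mv 531 (both (five 0 495 530) (five 0 496 532))))))))))))) (both (mv 398 (both (mv 400 (both (five 0 398 434) (mv 365 (both (five 3 365 366) (mv 397 (both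 (five 3 364 364) (five 0 397 432))))))) (both (mv 431 (both (five 4 399 463) (mv 432 (both (five 3 398 434) (mv 397 (both (five 0 396 396) (five 3 397 430))))))) (both (mv 400 (both (mv 365 (both (five 3 365 366) (mv 397 (both (five 3 364 364) (five 0 397 432))))) (both (mv 366 (both (five 3 365 365) (mv 369 (both (five 1 366 370) (mv 430 (both (five 2 397 429) (mv 463 (both (five 4 399 431) (five 4 366 462))))))))) (mv 369 (both (five 1 366 370) (mv 397 (both (five 1 365 368) (five 0 397 432)))))))) (mv 400 (both (five 0 398 434) (mv 366 (both (five 3 365 365) (mv 369 (both (five 1 366 370) (mv 430 (both (five 2 397 429) (mv 463 (both (five 4 399 431) (five 4 366 462))))))))))))))) (mv 434 (both (mv 498 (both (mv 465 (both (five 6 400 497) (mv 466 (both (five 4 369 369) (five 7 401 530))))) (both (mv 497 (both (five 6 400 465) (mv 531 (both (five 0 495 530) (mv 499 (both (five 0 496 532) (mv 467 (both (five 1 464 468) (mv 435 (both (five 7 402 402) (mv 404 (both (five 5 403 436) (mv 403 (both (five 5 371 372) (five 1 400 432))))))))))))))) (both (mv 466 (both (five 7 401 530) (mv 369 (both (five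 4 337 337) (five 7 369 402))))) (mv 497 (both (five 6 400 465) (mv 466 (both (five 1 463 467) (mv 369 (both (five 4 337 337) (five 7 369 402))))))))))) (both (mv 400 (both (five 0 398 398) (mv 435 (both (five 3 399 432) (five 3 400 436))))) (mv 466 (both (mv 369 (both (five 4 337 337) (mv 398 (both (five 0 398 400) (mv 465 (both (five 6 400 497) (mv 368 (both (five 7 336 336) (mv 367 (both (five 2 366 370) (mv 366 (both (five 2 365 397) (five 0 366 402))))))))))))) (both (mv 497 (both (five 6 400 465) (mv 498 (both (five 1 463 467) (five 7 401 530))))) (mv 369 (both (five 4 337 337) (mv 498 (both (five 7 369 402) (five 7 401 530)))))))))))))) (mv 431 (both (mv 463 (both (five 4 399 399) (mv 497 (both (five 6 400 465) (mv 462 (both (five 3 462 498) (mv 432 (both (five 2 430 434) (mv 430 (both (five 1 398 402) (five 2 429 461))))))))))) (both (mv 432 (both (mv 402 (both (five 1 398 430) (mv 403 (both (five 2 400 404) (five 1 399 434))))) (both (mv 463 (both (five 4 399 399) (mv 434 (both (five 2 430 462) (mv 467 (both (five 0 431 466) (mv 435 (both (five 0 432 468) (mv 404 (both (five 1 400 403) (mv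 436 (both (five 3 400 400) (five 1 401 405))))))))))))) (mv 399 (both (five 4 399 463) (mv 430 (both (five 1 398 402) (mv 429 (both (five 1 397 400) (mv 461 (both (five 2 428 460) (five 2 429 462)))))))))))) (both (mv 465 (both (five 6 400 497) (mv 369 (both (mv 336 (both (five 7 336 368) (mv 337 (both (five 7 304 304) (mv 338 (both (five 5 305 306) (five 5 337 370))))))) (mv 466 (both (five 4 369 498) (mv 432 (both (five 0 430 430) (mv 467 (both (five 0 431 434) (five 3 432 468))))))))))) (mv 463 (both (five 4 399 399) (mv 497 (both (five 6 400 465) (mv 498 (both (five 3 462 462) (mv 467 (both (five 1 463 466) (mv 499 (both (five 1 464 468) (mv 531 (both (five 0 495 530) (five 0 496 532))))))))))))))))))))))))))))))) (both (mv 498 (both (mv 560 (both (mv 464 (both (five 5 432 465) (mv 591 (both (five 6 463 559) (mv 592 (both (five 6 495 623) (mv 593 (both (five 4 464 561) (five 4 496 625))))))))) (both (mv 497 (both (mv 467 (both (five 1 463 466) (mv 499 (both (five 1 464 468) (mv 531 (both (five 0 495 530) (five 0 496 532))))))) (mv 592 (both (five 5 464 465) (mv 623 (both (five 6 495 591) (mv 624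 (both (five 6 527 655) (mv 625 (both (five 4 496 593) (five 4 528 657))))))))))) (both (mv 593 (both (mv 592 (both (five 4 496 625) (mv 591 (both (five 6 495 623) (mv 559 (both (five 6 463 464) (mv 594 (both (five 3 558 558) (five 3 559 595))))))))) (both (mv 561 (both (five 4 464 464) (mv 559 (both (mv 558 (both (five 3 525 526) (five 0 558 594))) (both (mv 562 (both (mv 530 (both (five 6 465 466) (five 1 527 531))) (both (mv 590 (both (five 2 558 591) (mv 595 (both (five 0 559 594) (mv 563 (both (five 0 560 596) (mv 531 (both (five 1 528 532) (mv 499 (both (five 7 466 466) (mv 468 (both (five 5 467 500) (mv 467 (both (five 5 435 436) (five 1 464 497))))))))))))))) (both (mv 530 (both (five 6 465 466) (mv 594 (both (five 0 559 595) (five 6 497 625))))) (mv 530 (both (five 1 527 531) (mv 594 (both (five 0 559 595) (five 6 497 625))))))))) (mv 558 (both (five 3 525 526) (mv 590 (both (five 2 557 589) (mv 562 (both (five 2 558 591) (mv 530 (both (five 6 465 466) (five 1 527 531)))))))))))))) (both (mv 497 (both (mv 467 (both (five 1 463 466) (mv 499 (both (five 1 464 468) (mv 531 (both (five 0 495 530)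 (five 0 496 532))))))) (both (mv 595 (both (mv 464 (both (five 4 464 561) (mv 531 (both (five 0 495 530) (mv 499 (both (five 0 496 532) (mv 559 (both (five 6 463 591) (mv 563 (both (five 7 466 466) (mv 594 (both (five 3 559 592) (five 6 498 626))))))))))))) (both (mv 531 (both (five 0 495 530) (mv 499 (both (five 0 496 532) (mv 563 (both (five 7 466 466) (mv 468 (both (five 5 467 500) (mv 594 (both (five 6 498 626) (mv 592 (both (five 3 559 559) (mv 591 (both (five 1 559 562) (five 6 495 623))))))))))))))) (both (mv 561 (both (five 4 464 464) (mv 594 (both (five 3 560 596) (mv 559 (both (five 0 558 558) (five 0 559 562))))))) (mv 531 (both (five 0 495 530) (mv 499 (both (five 0 496 532) (mv 561 (both (five 4 464 464) (mv 563 (both (five 7 466 466) (mv 596 (both (five 0 560 562) (five 4 499 628))))))))))))))) (both (mv 561 (both (five 4 464 464) (mv 559 (both (mv 558 (both (five 3 525 526) (five 0 558 594))) (mv 466 (both (five 1 463 467) (mv 562 (both (five 6 465 530) (mv 591 (both (five 2 558 590) (mv 592 (both (five 2 559 563) (five 6 495 623))))))))))))) (both (mv 531 (both (five 0 495 530) (mv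 499 (both (five 0 496 532) (mv 468 (both (five 1 464 467) (mv 500 (both (five 1 465 469) (mv 404 (both (five 6 403 436) (mv 561 (both (five 4 464 464) (mv 595 (both (five 5 467 563) (mv 594 (both (five 3 560 596) (mv 559 (both (five 0 558 558) (five 0 559 562))))))))))))))))))) (mv 594 (both (mv 467 (both (five 1 463 466) (mv 499 (both (five 1 464 468) (mv 531 (both (five 0 496 532) (mv 563 (both (five 6 466 562) (mv 595 (both (five 6 498 626) (mv 592 (both (five 3 559 559) (mv 623 (both (five 6 495 591) (five 2 591 624))))))))))))))) (both (mv 561 (both (five 4 464 464) (mv 559 (both (five 0 558 558) (mv 595 (both (five 0 559 562) (five 3 559 592))))))) (both (mv 464 (both (five 4 464 561) (mv 467 (both (five 1 463 466) (mv 499 (both (five 1 464 468) (mv 531 (both (five 0 496 532) (mv 563 (both (five 6 466 562) (mv 595 (both (five 6 498 626) (mv 628 (both (five 4 499 596) (mv 627 (both (five 0 592 592) (five 4 531 660))))))))))))))))) (both (mv 466 (both (five 1 463 467) (mv 561 (both (five 4 464 464) (mv 559 (both (five 0 558 558) (mv 595 (both (five 0 559 562) (five 3 560 596))))))))) (both (mv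 467 (both (five 1 463 466) (mv 499 (both (five 1 464 468) (mv 531 (both (five 0 496 532) (mv 561 (both (five 4 464 464) (mv 559 (both (five 0 558 558) (mv 562 (both (five 6 466 563) (mv 591 (both (five 2 558 590) (mv 623 (both (five 6 495 592) (five 5 527 655))))))))))))))))) (mv 466 (both (five 1 463 467) (mv 561 (both (five 4 464 464) (mv 559 (both (five 0 558 558) (mv 595 (both (five 3 559 592) (five 3 560 596)))))))))))))))))))) (both (mv 530 (both (mv 497 (both (five 0 495 531) (mv 466 (both (five 1 463 467) (mv 561 (both (five 6 465 562) (mv 625 (both (five 4 496 592) (five 7 528 657))))))))) (both (mv 497 (both (five 0 495 531) (mv 466 (both (five 1 463 467) (mv 562 (both (five 6 465 561) (mv 595 (both (five 4 466 563) (mv 594 (both (five 4 498 627) (mv 592 (both (five 3 559 559) (mv 623 (both (five 6 495 591) (five 2 591 624))))))))))))))) (both (mv 497 (both (five 0 495 531) (mv 466 (both (five 1 463 467) (mv 562 (both (five 6 465 561) (mv 594 (both (five 6 497 625) (mv 595 (both (five 4 466 563) (five 4 498 627))))))))))) (both (mv 625 (both (five 4 496 592) (mv 561 (both (five 7 528 657)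 (mv 562 (both (five 6 465 466) (five 6 497 594))))))) (both (mv 531 (both (five 0 495 497) (mv 592 (both (five 4 496 625) (mv 623 (both (five 6 495 591) (mv 624 (both (five 6 527 655) (mv 595 (both (five 2 591 594) (mv 563 (both (five 7 498 627) (mv 466 (both (five 4 434 434) (five 7 466 499))))))))))))))) (mv 531 (both (five 0 495 497) (mv 625 (both (five 4 496 592) (mv 561 (both (five 7 528 657) (mv 562 (both (five 1 527 559) (five 6 497 594))))))))))))))) (mv 561 (both (five 4 464 464) (mv 625 (both (five 4 496 592) (five 7 528 657)))))))))) (both (mv 466 (both (mv 465 (both (five 5 432 464) (mv 467 (both (five 1 463 497) (mv 432 (both (five 3 432 468) (mv 431 (both (five 0 430 430) (five 0 431 434))))))))) (both (mv 530 (both (mv 497 (both (five 1 463 467) (five 0 495 531))) (both (mv 562 (both (mv 435 (both (five 5 434 467) (mv 434 (both (five 5 402 403) (mv 563 (both (five 4 434 531) (five 4 466 595))))))) (both (mv 561 (both (five 6 465 593) (mv 531 (both (five 1 527 559) (mv 532 (both (five 2 529 533) (five 1 528 563))))))) (both (mv 435 (both (five 5 434 467) (mv 403 (both (five 5 402 434)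 (mv 561 (both (five 6 465 593) (mv 559 (both (five 1 527 531) (mv 591 (both (five 6 463 464) (five 2 558 590))))))))))) (mv 435 (both (five 5 434 467) (mv 403 (both (five 5 402 434) (mv 561 (both (five 6 465 593) (mv 595 (both (five 4 466 563) (mv 594 (both (five 0 559 559) (five 4 498 627))))))))))))))) (both (mv 531 (both (five 0 495 497) (mv 434 (both (five 4 434 563) (mv 402 (both (five 4 402 499) (mv 403 (both (five 5 370 371) (five 5 402 435))))))))) (mv 467 (both (five 1 463 497) (mv 435 (both (five 5 434 562) (mv 403 (both (five 6 370 371) (five 5 402 434))))))))))) (both (mv 497 (both (five 1 463 467) (mv 530 (both (five 0 495 531) (mv 562 (both (five 7 433 465) (mv 561 (both (five 6 465 593) (mv 595 (both (five 4 466 563) (mv 594 (both (five 0 559 559) (five 4 498 627))))))))))))) (both (mv 465 (both (five 5 432 464) (mv 530 (both (five 7 433 562) (mv 531 (both (five 0 495 497) (mv 434 (both (five 4 434 563) (mv 402 (both (five 4 402 499) (mv 403 (both (five 5 370 371) (five 5 402 435))))))))))))) (mv 434 (both (mv 402 (both (mv 371 (both (five 5 370 403) (mv 370 (both (five 5 338 339) (mv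 499 (both (five 4 370 467) (five 4 402 531))))))) (both (mv 403 (both (five 5 370 371) (mv 404 (both (five 2 401 405) (mv 432 (both (five 1 399 431) (five 1 400 435))))))) (mv 499 (both (five 4 402 531) (mv 467 (both (five 4 370 370) (mv 432 (both (five 0 431 431) (mv 468 (both (five 0 432 435) (five 3 433 469)))))))))))) (both (mv 465 (both (five 5 432 464) (mv 530 (both (five 7 433 562) (mv 435 (both (five 5 402 403) (mv 436 (both (five 2 433 437) (mv 404 (both (five 1 401 405) (mv 468 (both (five 0 433 469) (mv 432 (both (five 0 432 467) (mv 399 (both (five 3 399 400) (mv 431 (both (five 3 398 398) (five 0 430 430))))))))))))))))))) (both (mv 465 (both (five 5 432 464) (mv 530 (both (five 7 433 562) (mv 531 (both (five 4 434 563) (mv 402 (both (five 4 402 499) (mv 370 (both (five 6 337 338) (mv 371 (both (five 5 338 339) (five 5 370 403))))))))))))) (mv 432 (both (mv 431 (both (five 0 431 467) (mv 399 (both (five 3 398 398) (five 7 399 464))))) (both (mv 464 (both (five 5 432 465) (mv 399 (both (five 7 399 431) (mv 400 (both (five 7 367 367) (five 3 399 435))))))) (both (mv 431 (both (five 0 431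 467) (mv 398 (both (five 3 398 399) (mv 430 (both (five 3 397 397) (five 0 430 465))))))) (mv 465 (both (five 5 432 464) (mv 468 (both (five 3 432 467) (mv 530 (both (five 7 433 562) (mv 531 (both (five 4 434 563) (mv 499 (both (five 4 402 402) (mv 500 (both (five 3 465 501) (mv 436 (both (five 6 403 404) (mv 435 (both (five 2 433 437) (five 0 433 469)))))))))))))))))))))))))))))) (mv 465 (both (five 5 432 464) (mv 497 (both (five 5 464 592) (mv 530 (both (five 0 495 531) (mv 562 (both (five 7 433 466) (five 7 465 594)))))))))))))) (both (mv 431 (both (mv 399 (both (five 4 399 463) (mv 432 (both (five 7 399 464) (mv 398 (both (five 3 398 434) (mv 397 (both (five 0 396 396) (five 3 397 430))))))))) (both (mv 432 (both (mv 430 (both (mv 397 (both (five 3 397 398) (mv 429 (both (five 3 396 396) (mv 461 (both (five 2 428 460) (five 2 429 462))))))) (mv 466 (both (five 0 430 465) (mv 434 (both (five 0 431 467) (mv 403 (both (five 1 399 402) (mv 435 (both (five 1 400 404) (five 5 402 530))))))))))) (both (mv 464 (both (five 7 399 399) (mv 465 (both (five 5 432 560) (mv 430 (both (five 0 429 429) (five 0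 430 466))))))) (mv 399 (both (five 7 399 464) (mv 398 (both (five 3 398 434) (mv 397 (both (five 0 396 396) (five 0 397 400)))))))))) (both (mv 560 (both (mv 592 (both (five 7 463 463) (mv 623 (both (five 6 495 591) (mv 624 (both (five 6 527 655) (mv 625 (both (five 4 496 593) (five 4 528 657))))))))) (both (mv 464 (both (five 5 432 465) (mv 591 (both (five 6 463 559) (mv 592 (both (five 6 495 623) (mv 593 (both (five 4 464 561) (five 4 496 625))))))))) (mv 464 (both (five 7 431 463) (five 5 432 465)))))) (mv 432 (both (mv 430 (both (mv 397 (both (five 3 397 398) (mv 429 (both (five 3 396 396) (mv 461 (both (five 2 428 460) (five 2 429 462))))))) (mv 466 (both (five 0 430 465) (mv 434 (both (five 0 431 467) (mv 403 (both (five 1 399 402) (mv 435 (both (five 1 400 404) (five 5 402 530))))))))))) (both (mv 430 (both (mv 397 (both (five 3 397 398) (mv 429 (both (five 3 396 396) (mv 461 (both (five 2 428 460) (five 2 429 462))))))) (both (mv 398 (both (five 3 397 397) (mv 463 (both (five 4 399 399) (mv 366 (both (five 4 334 334) (five 4 366 462))))))) (both (mv 399 (both (five 4 399 463) (mv 461 (both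 (five 2 429 462) (mv 429 (both (five 2 428 460) (mv 396 (both (five 3 396 397) (mv 428 (both (five 3 395 395) (five 1 396 400))))))))))) (both (mv 399 (both (five 4 399 463) (mv 461 (both (five 2 429 462) (mv 429 (both (five 2 428 460) (mv 398 (both (five 5 397 493) (mv 428 (both (five 1 396 400) (five 1 395 427))))))))))) (mv 397 (both (five 3 397 398) (mv 399 (both (five 4 399 463) (mv 429 (both (five 3 396 396) (mv 428 (both (five 1 396 400) (mv 460 (both (five 2 427 459) (five 2 428 461)))))))))))))))) (both (mv 399 (both (five 4 399 463) (mv 398 (both (five 3 398 434) (mv 397 (both (five 0 396 396) (five 0 397 400))))))) (mv 463 (both (five 4 399 399) (mv 434 (both (five 2 430 462) (mv 403 (both (five 1 399 402) (mv 435 (both (five 1 400 404) (mv 466 (both (five 0 431 467) (five 5 402 530))))))))))))))))))) (both (mv 431 (both (mv 432 (both (mv 430 (both (mv 397 (both (five 3 397 398) (mv 429 (both (five 3 396 396) (mv 461 (both (five 2 428 460) (five 2 429 462))))))) (mv 466 (both (five 0 430 465) (mv 434 (both (five 0 431 467) (mv 403 (both (five 1 399 402) (mv 435 (both (five 1 400 404) (five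 5 402 530))))))))))) (both (mv 430 (both (mv 397 (both (five 3 397 398) (mv 429 (both (five 3 396 396) (mv 461 (both (five 2 428 460) (five 2 429 462))))))) (both (mv 398 (both (five 3 397 397) (mv 463 (both (five 4 399 399) (mv 366 (both (five 4 334 334) (five 4 366 462))))))) (both (mv 399 (both (five 4 399 463) (mv 461 (both (five 2 429 462) (mv 429 (both (five 2 428 460) (mv 396 (both (five 3 396 397) (mv 428 (both (five 3 395 395) (five 1 396 400))))))))))) (both (mv 399 (both (five 4 399 463) (mv 461 (both (five 2 429 462) (mv 429 (both (five 2 428 460) (mv 398 (both (five 5 397 493) (mv 428 (both (five 1 396 400) (five 1 395 427))))))))))) (mv 397 (both (five 3 397 398) (mv 399 (both (five 4 399 463) (mv 429 (both (five 3 396 396) (mv 428 (both (five 1 396 400) (mv 460 (both (five 2 427 459) (five 2 428 461)))))))))))))))) (both (mv 399 (both (five 4 399 463) (mv 398 (both (five 3 398 434) (mv 397 (both (five 0 396 396) (five 0 397 400))))))) (mv 463 (both (five 4 399 399) (mv 434 (both (five 2 430 462) (mv 403 (both (five 1 399 402) (mv 435 (both (five 1 400 404) (mv 466 (both (five 0 431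 467) (five 5 402 530))))))))))))))) (both (mv 466 (both (mv 467 (both (five 1 463 497) (mv 432 (both (five 0 431 434) (mv 465 (both (five 0 430 430) (five 3 432 468))))))) (both (mv 530 (both (mv 531 (both (five 0 495 497) (mv 434 (both (five 4 434 563) (mv 402 (both (five 4 402 499) (mv 403 (both (five 5 370 371) (five 5 402 435))))))))) (both (mv 562 (both (five 7 433 465) (mv 593 (both (five 6 465 561) (mv 594 (both (five 6 497 625) (mv 595 (both (five 4 466 563) (five 4 498 627))))))))) (mv 531 (both (five 0 495 497) (mv 562 (both (five 7 433 465) (mv 593 (both (five 6 465 561) (mv 594 (both (five 6 497 625) (mv 626 (both (five 5 498 499) (mv 627 (both (five 4 498 595) (five 4 530 659)))))))))))))))) (both (mv 432 (both (mv 434 (both (five 0 431 467) (mv 403 (both (five 1 399 402) (mv 435 (both (five 1 400 404) (five 5 402 530))))))) (mv 430 (both (five 0 430 465) (mv 397 (both (five 3 397 398) (mv 429 (both (five 3 396 396) (mv 461 (both (five 2 428 460) (five 2 429 462))))))))))) (both (mv 497 (both (five 1 463 467) (mv 530 (both (five 0 495 531) (mv 562 (both (five 7 433 465) (mv 593 (both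 (five 6 465 561) (mv 594 (both (five 6 497 625) (mv 595 (both (five 4 466 563) (five 4 498 627))))))))))))) (mv 467 (both (five 1 463 497) (mv 530 (both (mv 435 (both (five 5 434 562) (mv 403 (both (five 6 370 371) (five 5 402 434))))) (both (mv 435 (both (five 5 434 562) (mv 403 (both (five 6 370 371) (five 6 402 499))))) (both (mv 434 (both (five 0 431 432) (mv 468 (both (five 3 433 469) (mv 563 (both (five 4 434 531) (mv 562 (both (five 4 466 595) (mv 593 (both (five 6 465 561) (mv 594 (both (five 5 466 499) (five 6 497 625))))))))))))) (mv 434 (both (five 0 431 432) (mv 403 (both (five 5 402 435) (mv 402 (both (five 5 370 371) (mv 531 (both (five 4 402 499) (five 4 434 563)))))))))))))))))))) (both (mv 463 (both (five 4 399 399) (mv 462 (both (five 3 462 497) (mv 432 (both (five 2 430 434) (mv 461 (both (five 2 429 430) (five 1 428 460))))))))) (both (mv 463 (both (five 4 399 399) (mv 497 (both (five 3 462 462) (mv 467 (both (five 1 463 466) (mv 499 (both (five 1 464 468) (mv 531 (both (five 0 495 530) (five 0 496 532))))))))))) (mv 466 (both (mv 467 (both (five 1 463 497) (mv 432 (both (five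 0 431 434) (mv 465 (both (five 0 430 430) (five 3 432 468))))))) (both (mv 530 (both (mv 531 (both (five 0 495 497) (mv 434 (both (five 4 434 563) (mv 402 (both (five 4 402 499) (mv 403 (both (five 5 370 371) (five 5 402 435))))))))) (both (mv 562 (both (five 7 433 465) (mv 593 (both (five 6 465 561) (mv 594 (both (five 6 497 625) (mv 595 (both (five 4 466 563) (five 4 498 627))))))))) (mv 531 (both (five 0 495 497) (mv 562 (both (five 7 433 465) (mv 593 (both (five 6 465 561) (mv 594 (both (five 6 497 625) (mv 626 (both (five 5 498 499) (mv 627 (both (five 4 498 595) (five 4 530 659)))))))))))))))) (both (mv 432 (both (mv 399 (both (five 4 399 463) (mv 430 (both (five 0 430 465) (mv 397 (both (five 3 397 398) (mv 429 (both (five 3 396 396) (mv 428 (both (five 1 396 400) (mv 460 (both (five 2 427 459) (five 2 428 461))))))))))))) (mv 434 (both (five 0 431 467) (mv 403 (both (five 1 399 402) (mv 435 (both (five 1 400 404) (five 5 402 530))))))))) (both (mv 497 (both (five 1 463 467) (mv 530 (both (five 0 495 531) (mv 562 (both (five 7 433 465) (mv 593 (both (five 6 465 561) (mv 594 (both (five 6 497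 625) (mv 595 (both (five 4 466 563) (five 4 498 627))))))))))))) (mv 467 (both (five 1 463 497) (mv 530 (both (mv 435 (both (five 5 434 562) (mv 403 (both (five 6 370 371) (five 5 402 434))))) (both (mv 435 (both (five 5 434 562) (mv 403 (both (five 6 370 371) (five 6 402 499))))) (both (mv 434 (both (five 0 431 432) (mv 468 (both (five 3 433 469) (mv 563 (both (five 4 434 531) (mv 562 (both (five 4 466 595) (mv 593 (both (five 6 465 561) (mv 594 (both (five 5 466 499) (five 6 497 625))))))))))))) (mv 434 (both (five 0 431 432) (mv 403 (both (five 5 402 435) (mv 402 (both (five 5 370 371) (mv 531 (both (five 4 402 499) (five 4 434 563))))))))))))))))))))))))) (both (mv 463 (both (mv 431 (both (five 4 399 399) (mv 560 (both (five 7 431 464) (five 7 463 592))))) (both (mv 462 (both (five 3 462 497) (mv 461 (both (five 0 460 460) (mv 464 (both (five 1 429 432) (mv 465 (both (five 1 430 434) (five 5 432 560))))))))) (mv 431 (both (five 4 399 399) (mv 462 (both (five 3 462 497) (mv 432 (both (five 2 430 434) (mv 461 (both (five 2 429 430) (five 1 428 460)))))))))))) (both (mv 463 (both (mv 431 (both (five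 4 399 399) (mv 560 (both (five 7 431 464) (five 7 463 592))))) (mv 497 (both (five 3 462 462) (mv 467 (both (five 1 463 466) (mv 499 (both (five 1 464 468) (mv 531 (both (five 0 495 530) (five 0 496 532))))))))))) (mv 497 (both (mv 463 (both (five 3 462 462) (mv 499 (both (five 3 463 464) (mv 531 (both (five 0 495 530) (five 0 496 532))))))) (both (mv 463 (both (five 3 462 462) (mv 467 (both (five 1 463 466) (mv 499 (both (five 3 463 464) (five 1 464 468))))))) (mv 466 (both (five 1 463 467) (mv 530 (both (five 0 495 531) (mv 562 (both (five 7 433 465) (mv 593 (both (five 6 465 561) (mv 594 (both (five 6 497 625) (mv 595 (both (five 4 466 563) (five 4 498 627)))))))))))))))))))))) (both (mv 431 (both (mv 432 (both (mv 399 (both (five 7 399 464) (mv 398 (both (five 3 398 434) (mv 397 (both (five 0 396 396) (five 3 397 430))))))) (both (mv 434 (both (mv 399 (both (five 3 398 398) (mv 435 (both (five 3 399 400) (mv 467 (both (five 0 431 466) (five 0 432 468))))))) (both (mv 403 (both (five 1 399 402) (mv 435 (both (five 1 400 404) (mv 467 (both (five 0 431 466) (five 0 432 468))))))) (mv 398 (both (five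 3 398 399) (mv 402 (both (five 1 399 403) (mv 430 (both (five 3 397 397) (five 1 398 401)))))))))) (both (mv 401 (both (five 5 400 464) (mv 402 (both (five 1 398 430) (mv 403 (both (five 2 400 404) (five 1 399 434))))))) (mv 464 (both (five 7 399 399) (five 5 400 401))))))) (both (mv 432 (both (mv 430 (both (mv 397 (both (five 3 397 398) (mv 429 (both (five 3 396 396) (mv 461 (both (five 2 428 460) (five 2 429 462))))))) (both (mv 397 (both (five 3 397 398) (mv 401 (both (five 1 398 402) (mv 429 (both (five 3 396 396) (five 1 397 400))))))) (both (mv 401 (both (five 1 398 402) (mv 429 (both (five 1 397 400) (mv 461 (both (five 2 428 460) (five 2 429 462))))))) (mv 397 (both (five 3 397 398) (mv 401 (both (five 1 398 402) (mv 462 (both (five 2 429 461) (mv 434 (both (five 2 430 463) (mv 467 (both (five 0 431 466) (mv 435 (both (five 0 432 468) (mv 404 (both (five 1 400 403) (mv 436 (both (five 3 400 400) (five 1 401 405))))))))))))))))))))) (both (mv 463 (both (mv 560 (both (five 7 431 464) (five 7 463 592))) (mv 434 (both (five 2 430 462) (mv 403 (both (five 1 399 402) (mv 435 (both (five 1 400 404)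 (mv 467 (both (five 0 431 466) (five 0 432 468))))))))))) (both (mv 401 (both (five 5 400 464) (mv 402 (both (five 1 398 430) (mv 403 (both (five 2 399 400) (five 2 400 404))))))) (mv 464 (both (five 5 400 401) (mv 560 (both (five 7 431 463) (mv 591 (both (five 6 463 559) (mv 592 (both (five 6 495 623) (mv 593 (both (five 4 464 561) (five 4 496 625))))))))))))))) (both (mv 463 (both (five 4 399 399) (mv 560 (both (five 7 431 464) (five 7 463 592))))) (mv 432 (both (mv 434 (both (mv 399 (both (five 3 398 398) (mv 435 (both (five 3 399 400) (mv 467 (both (five 0 431 466) (five 0 432 468))))))) (both (mv 403 (both (five 1 399 402) (mv 435 (both (five 1 400 404) (mv 467 (both (five 0 431 466) (five 0 432 468))))))) (mv 398 (both (five 3 398 399) (mv 402 (both (five 1 399 403) (mv 430 (both (five 3 397 397) (five 1 398 401)))))))))) (both (mv 430 (both (mv 397 (both (five 3 397 398) (mv 429 (both (five 3 396 396) (mv 461 (both (five 2 428 460) (five 2 429 462))))))) (both (mv 397 (both (five 3 397 398) (mv 401 (both (five 1 398 402) (mv 429 (both (five 3 396 396) (five 1 397 400))))))) (both (mv 401 (both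 (five 1 398 402) (mv 429 (both (five 1 397 400) (mv 461 (both (five 2 428 460) (five 2 429 462))))))) (mv 397 (both (five 3 397 398) (mv 401 (both (five 1 398 402) (mv 462 (both (five 2 429 461) (mv 434 (both (five 2 430 463) (mv 467 (both (five 0 431 466) (mv 435 (both (five 0 432 468) (mv 404 (both (five 1 400 403) (mv 436 (both (five 3 400 400) (five 1 401 405))))))))))))))))))))) (both (mv 430 (both (mv 401 (both (five 1 398 402) (mv 429 (both (five 1 397 400) (mv 461 (both (five 2 428 460) (five 2 429 462))))))) (both (mv 398 (both (five 3 397 397) (mv 463 (both (five 4 399 399) (mv 366 (both (five 4 334 334) (five 4 366 462))))))) (mv 397 (both (five 3 397 398) (mv 401 (both (five 1 398 402) (mv 429 (both (five 3 396 396) (five 1 397 400)))))))))) (both (mv 399 (both (five 4 399 463) (mv 398 (both (five 3 398 434) (mv 397 (both (five 0 396 396) (five 0 397 400))))))) (mv 463 (both (five 4 399 399) (mv 434 (both (five 2 430 462) (mv 403 (both (five 1 399 402) (mv 435 (both (five 1 400 404) (mv 467 (both (five 0 431 466) (five 0 432 468)))))))))))))))))))) (both (mv 465 (both (mv 401 (both (five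 6 400 497) (mv 369 (both (mv 336 (both (five 7 336 368) (mv 337 (both (five 7 304 304) (mv 466 (both (five 4 337 434) (five 4 369 498))))))) (both (mv 338 (both (five 5 337 370) (mv 337 (both (five 5 305 306) (mv 466 (both (five 4 337 434) (five 4 369 498))))))) (mv 368 (both (five 7 336 336) (mv 367 (both (mv 366 (both (five 0 366 402) (mv 333 (both (five 3 333 334) (mv 365 (both (five 3 332 332) (five 0 365 400))))))) (both (mv 370 (both (five 5 337 338) (mv 399 (both (five 2 366 398) (mv 371 (both (five 2 367 400) (mv 340 (both (five 1 336 339) (mv 372 (both (five 1 337 341) (mv 404 (both (five 0 368 403) (five 0 369 405))))))))))))) (mv 338 (both (five 5 337 370) (mv 366 (both (five 0 366 402) (mv 333 (both (five 3 333 334) (mv 365 (both (five 3 332 332) (mv 397 (both (five 2 364 396) (five 2 365 398))))))))))))))))))))) (mv 560 (both (five 5 432 464) (mv 592 (both (five 7 463 463) (mv 623 (both (five 6 495 591) (mv 624 (both (five 6 527 655) (mv 625 (both (five 4 496 593) (five 4 528 657))))))))))))) (both (mv 465 (both (mv 464 (both (five 5 432 560) (mv 401 (both (five 6 368 369) (five 5 400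 432))))) (both (mv 401 (both (five 6 400 497) (mv 369 (both (mv 336 (both (five 7 336 368) (mv 337 (both (five 7 304 304) (mv 338 (both (five 5 305 306) (five 5 337 370))))))) (both (mv 338 (both (five 5 337 370) (mv 337 (both (five 5 305 306) (mv 466 (both (five 4 337 434) (five 4 369 498))))))) (both (mv 336 (both (five 7 336 368) (mv 337 (both (five 7 304 304) (mv 466 (both (five 4 337 434) (five 4 369 498))))))) (mv 368 (both (five 7 336 336) (mv 367 (both (mv 370 (both (five 5 337 338) (mv 334 (both (five 3 334 335) (mv 366 (both (five 3 333 333) (mv 365 (both (five 0 365 400) (mv 397 (both (five 2 364 396) (five 2 365 398))))))))))) (both (mv 370 (both (five 5 337 338) (mv 334 (both (five 3 334 335) (mv 403 (both (five 0 367 402) (mv 371 (both (five 0 368 404) (mv 339 (both (five 1 336 340) (mv 372 (both (five 2 368 400) (mv 466 (both (five 4 369 498) (mv 435 (both (five 6 338 434) (mv 468 (both (five 4 339 436) (mv 467 (both (five 3 432 432) (five 4 371 500))))))))))))))))))))) (both (mv 366 (both (five 0 366 402) (mv 333 (both (five 3 333 334) (mv 365 (both (five 3 332 332) (mv 397 (both (five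 2 364 396) (five 2 365 398))))))))) (mv 338 (both (five 5 337 370) (mv 366 (both (five 0 366 402) (mv 365 (both (five 0 365 400) (mv 397 (both (five 2 364 396) (five 2 365 398))))))))))))))))))))) (mv 560 (both (five 5 432 464) (mv 592 (both (five 5 464 497) (mv 623 (both (five 6 495 591) (mv 624 (both (five 6 527 655) (mv 625 (both (five 4 496 593) (five 4 528 657)))))))))))))) (mv 464 (both (mv 401 (both (five 5 400 432) (mv 465 (both (five 6 368 369) (five 6 400 497))))) (both (mv 432 (both (five 5 400 401) (mv 431 (both (five 7 399 399) (mv 560 (both (five 7 431 463) (mv 591 (both (five 6 463 559) (mv 592 (both (five 6 495 623) (mv 593 (both (five 4 464 561) (five 4 496 625))))))))))))) (mv 560 (both (five 5 432 465) (mv 591 (both (five 6 463 559) (mv 592 (both (five 6 495 623) (mv 593 (both (five 4 464 561) (five 4 496 625)))))))))))))))))) (both (mv 494 (both (mv 524 (both (five 2 492 493) (mv 526 (both (five 2 493 497) (five 1 491 523))))) (both (mv 497 (both (five 2 493 526) (mv 462 (both (five 3 461 461) (mv 466 (both (five 1 462 465) (mv 498 (both (five 3 462 463) (five 1 463 467)))))))))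 (mv 493 (both (five 2 492 524) (mv 460 (both (five 3 460 461) (mv 464 (both (five 1 461 465) (mv 492 (both (five 3 459 459) (five 1 460 463)))))))))))) (both (mv 497 (both (mv 494 (both (five 2 493 526) (mv 462 (both (five 3 461 461) (mv 466 (both (five 1 462 465) (mv 498 (both (five 3 462 463) (five 1 463 467))))))))) (both (mv 463 (both (mv 431 (both (five 4 399 399) (mv 560 (both (five 7 431 464) (five 7 463 592))))) (mv 498 (both (five 3 462 462) (mv 467 (both (five 1 463 466) (mv 499 (both (five 1 464 468) (mv 531 (both (five 0 495 530) (five 0 496 532))))))))))) (both (mv 494 (both (five 2 493 526) (mv 465 (both (five 1 462 466) (mv 433 (both (five 6 400 401) (mv 560 (both (five 5 432 464) (five 5 464 592))))))))) (mv 494 (both (five 2 493 526) (mv 462 (both (five 3 461 461) (mv 463 (both (five 3 462 498) (mv 431 (both (five 4 399 399) (mv 560 (both (five 7 431 464) (five 7 463 592))))))))))))))) (both (mv 494 (both (mv 493 (both (five 2 492 524) (mv 461 (both (five 3 460 460) (mv 465 (both (five 1 461 464) (mv 497 (both (five 3 461 462) (five 1 462 466))))))))) (both (mv 497 (both (mv 462 (both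 (five 3 461 461) (mv 466 (both (five 1 462 465) (mv 498 (both (five 3 462 463) (five 1 463 467))))))) (both (mv 462 (both (five 3 461 461) (mv 463 (both (five 3 462 498) (mv 431 (both (five 4 399 399) (mv 560 (both (five 7 431 464) (five 7 463 592))))))))) (mv 465 (both (five 1 462 466) (mv 433 (both (five 6 400 401) (mv 560 (both (five 5 432 464) (five 5 464 592)))))))))) (both (mv 493 (both (five 2 492 524) (mv 461 (both (five 3 460 460) (mv 429 (both (mv 396 (both (five 7 396 428) (mv 397 (both (five 7 364 364) (mv 398 (both (five 5 365 366) (five 5 397 430))))))) (both (mv 396 (both (five 7 396 428) (mv 397 (both (five 7 364 364) (mv 462 (both (five 4 365 365) (five 3 461 497))))))) (both (mv 398 (both (five 5 397 430) (mv 397 (both (five 5 365 366) (mv 462 (both (five 4 365 365) (five 3 461 497))))))) (mv 428 (both (five 7 396 396) (mv 430 (both (five 5 397 398) (mv 462 (both (five 3 461 497) (mv 427 (both (five 0 426 426) (five 0 427 463))))))))))))))))) (mv 493 (both (five 2 492 524) (mv 464 (both (five 1 461 465) (mv 463 (both (five 1 460 492) (mv 431 (both (five 4 399 399) (five 7 431 560)))))))))))))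 (both (mv 494 (both (mv 524 (both (five 2 492 493) (mv 526 (both (five 2 493 497) (five 1 491 523))))) (both (mv 497 (both (five 2 493 526) (mv 462 (both (five 3 461 461) (mv 463 (both (five 3 462 498) (mv 431 (both (five 4 399 399) (mv 560 (both (five 7 431 464) (five 7 463 592))))))))))) (both (mv 493 (both (five 2 492 524) (mv 460 (both (five 3 460 461) (mv 492 (both (five 3 459 459) (mv 396 (both (five 4 396 428) (mv 463 (both (five 1 460 464) (mv 399 (both (five 4 399 431) (mv 491 (both (five 1 459 462) (mv 490 (both (five 0 490 526) (mv 522 (both (five 2 489 521) (five 2 490 523))))))))))))))))))) (mv 493 (both (five 2 492 524) (mv 461 (both (five 3 460 460) (mv 429 (both (mv 396 (both (five 7 396 428) (mv 397 (both (five 7 364 364) (mv 398 (both (five 5 365 366) (five 5 397 430))))))) (both (mv 396 (both (five 7 396 428) (mv 397 (both (five 7 364 364) (mv 462 (both (five 4 365 365) (five 3 461 497))))))) (both (mv 398 (both (five 5 397 430) (mv 397 (both (five 5 365 366) (mv 462 (both (five 4 365 365) (five 3 461 497))))))) (mv 428 (both (five 7 396 396) (mv 430 (both (five 5 397 398) (mv 462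 (both (five 3 461 497) (mv 427 (both (five 0 426 426) (five 0 427 463))))))))))))))))))))) (mv 494 (both (mv 524 (both (five 2 492 493) (mv 526 (both (five 2 493 497) (five 1 491 523))))) (both (mv 497 (both (five 2 493 526) (mv 465 (both (five 1 462 466) (mv 433 (both (five 6 400 401) (mv 560 (both (five 5 432 464) (five 5 464 592))))))))) (mv 493 (both (five 2 492 524) (mv 464 (both (five 1 461 465) (mv 463 (both (five 1 460 492) (mv 431 (both (five 4 399 399) (five 7 431 560))))))))))))))))))))

theorem L11 : W (S 988530863263394711950902581943544979338523630234176106830494287465423928915270833780940747935453836687099678662303661315318070710035275243128497139753601204224) (S 7923608872588584638713587978481045661298577944928502085171077703995742182582064268444437350583342952813691015976224570811028824330631029520735473504570571562608912090967413344195770157808486851805184) :=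
  check_sound Env.nil (x := 495) (t := tL11) (by decide +kernel)

end P062.Cert
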