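import Vale.Agent.P062.Check
import Vale.Agent.P062.Cert.C1

/-! Snaky certificate, part 2 (machine generated, checked by the kernel) -/

set_option maxRecDepth 100000

namespace P062.Cert

open T

def tL12 : T :=
  (both (mv 560 (both (mv 526 (both (mv 494 (both (mv 495 (both (five 2 493 497) (mv 524 (both (five 2 492 493) (five 1 491 523))))) (both (mv 558 (both (mv 559 (both (five 3 525 561) (mv 462 (both (five 4 462 591) (mv 429 (both (five 7 429 461) (mv 430 (both (five 7 397 397) (mv 431 (both (five 5 398 399) (five 5 430 463))))))))))) (both (mv 462 (both (mv 429 (both (five 7 429 461) (mv 430 (both (five 7 397 397) (mv 431 (both (five 5 398 399) (five 5 430 463))))))) (both (mv 431 (both (five 5 430 463) (mv 430 (both (five 5 398 399) (mv 397 (both (five 7 397 429) (mv 398 (both (five 7 365 365) (five 6 397 493))))))))) (both (mv 431 (both (five 5 430 463) (mv 430 (both (five 5 398 399) (mv 493 (both (five 6 397 398) (mv 590 (both (five 7 461 461) (five 7 493 622))))))))) (mv 461 (both (five 7 429 429) (mv 590 (both (five 7 461 493) (mv 621 (both (five 6 493 589) (mv 622 (both (five 6 525 653) (mv 623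 (both (five 4 494 591) (five 4 526 655))))))))))))))) (both (mv 590 (both (mv 621 (both (five 6 493 589) (mv 622 (both (five 6 525 653) (mv 623 (both (five 4 494 591) (five 4 526 655))))))) (both (mv 461 (both (five 7 461 493) (mv 559 (both (five 3 525 561) (mv 523 (both (five 0 523 524) (mv 589 (both (five 6 493 621) (mv 588 (both (five 1 555 587) (five 1 556 591))))))))))) (mv 493 (both (five 7 461 461) (five 7 493 622)))))) (both (mv 559 (both (five 3 525 561) (mv 462 (both (five 4 462 591) (mv 431 (both (five 5 430 463) (mv 430 (both (five 5 398 399) (mv 397 (both (five 7 397 429) (mv 398 (both (five 7 365 365) (five 6 397 493))))))))))))) (mv 462 (both (mv 429 (both (five 7 429 461) (mv 430 (both (five 7 397 397) (mv 431 (both (five 5 398 399) (five 5 430 463))))))) (both (mv 431 (both (five 5 430 463) (mv 430 (both (five 5 398 399) (mv 397 (both (five 7 397 429) (mv 398 (both (five 7 365 365) (five 6 397 493))))))))) (both (mv 431 (both (five 5 430 463) (mv 430 (both (five 5 398 399) (mv 493 (both (five 6 397 398) (mv 590 (both (five 7 461 461) (five 7 493 622))))))))) (both (mv 430 (both (mv 397 (both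 (five 7 397 429) (mv 398 (both (five 7 365 365) (five 6 397 493))))) (both (mv 493 (both (five 6 397 398) (mv 590 (both (five 7 461 461) (five 7 493 622))))) (mv 429 (both (five 7 397 397) (five 7 429 461)))))) (mv 461 (both (five 7 429 429) (mv 460 (both (mv 463 (both (five 5 430 431) (mv 427 (both (five 3 427 428) (mv 459 (both (five 3 426 426) (mv 491 (both (five 2 458 490) (five 2 459 492))))))))) (both (mv 493 (both (five 7 461 590) (mv 459 (both (five 0 458 458) (mv 426 (both (five 3 426 427) (mv 491 (both (five 2 458 490) (mv 559 (both (five 3 525 561) (mv 523 (both (five 0 523 524) (mv 428 (both (five 5 427 555) (mv 396 (both (five 4 364 364) (five 4 396 492))))))))))))))))) (both (mv 431 (both (five 5 430 463) (mv 493 (both (five 7 461 590) (mv 459 (both (five 0 458 458) (mv 427 (both (five 3 426 426) (mv 559 (both (five 3 525 561) (mv 524 (both (five 0 523 523) (mv 492 (both (five 7 427 556) (mv 395 (both (five 4 363 363) (five 7 395 428))))))))))))))))) (both (mv 463 (both (five 5 430 431) (mv 428 (both (five 3 427 427) (mv 492 (both (five 2 459 491) (mv 493 (both (five 4 396 396) (five 7 461 590)))))))))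 (both (mv 431 (both (five 5 430 463) (mv 493 (both (five 7 461 590) (mv 459 (both (five 0 458 458) (mv 426 (both (five 3 426 427) (mv 491 (both (five 2 458 490) (mv 559 (both (five 3 525 561) (mv 523 (both (five 0 523 524) (mv 555 (both (five 5 427 428) (mv 586 (both (five 6 458 554) (mv 587 (both (five 6 490 618) (mv 588 (both (five 4 459 556) (five 4 491 620))))))))))))))))))))))) (both (mv 431 (both (five 5 430 463) (mv 493 (both (five 7 461 590) (mv 459 (both (five 0 458 458) (mv 491 (both (five 2 458 490) (mv 559 (both (five 3 525 561) (mv 523 (both (five 0 523 524) (mv 428 (both (five 5 427 555) (mv 396 (both (five 4 364 364) (five 4 396 492))))))))))))))))) (mv 431 (both (five 5 430 463) (mv 493 (both (five 7 461 590) (mv 459 (both (five 0 458 458) (mv 427 (both (five 3 426 426) (mv 491 (both (five 2 458 490) (mv 559 (both (five 3 525 561) (mv 523 (both (five 0 523 524) (mv 522 (both (five 2 490 492) (five 6 426 554)))))))))))))))))))))))))))))))))))) (mv 558 (both (mv 495 (both (five 2 493 497) (mv 463 (both (five 5 462 590) (mv 431 (both (five 4 399 399) (five 5 430 462))))))) (both (mv 559 (both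 (five 3 525 561) (mv 591 (both (five 4 462 462) (mv 623 (both (five 4 494 590) (five 7 526 655))))))) (both (mv 559 (both (five 3 525 561) (mv 462 (both (five 4 462 591) (mv 429 (both (five 7 429 461) (mv 430 (both (five 7 397 397) (mv 431 (both (five 5 398 399) (five 5 430 463))))))))))) (mv 495 (both (five 2 493 497) (mv 559 (both (five 3 525 561) (mv 590 (both (five 5 462 463) (mv 589 (both (five 6 493 621) (mv 588 (both (five 1 555 587) (five 1 556 591)))))))))))))))))) (both (mv 527 (both (five 1 493 497) (mv 524 (both (five 0 524 559) (five 1 492 495))))) (both (mv 527 (both (five 0 525 561) (mv 524 (both (five 0 524 559) (five 1 492 495))))) (mv 527 (both (five 0 525 561) (five 1 493 497))))))) (both (mv 592 (both (mv 495 (both (five 7 463 463) (mv 497 (both (five 5 464 465) (mv 494 (both (five 2 493 526) (mv 461 (both (five 3 461 462) (mv 493 (both (five 3 460 460) (five 2 492 524))))))))))) (mv 623 (both (five 6 495 591) (mv 624 (both (five 6 527 655) (mv 625 (both (five 4 496 593) (five 4 528 657))))))))) (both (mv 592 (both (mv 623 (both (five 6 495 591) (mv 624 (both (five 6 527 655) (mv 625 (both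 (five 4 496 593) (five 4 528 657))))))) (both (mv 465 (both (five 5 464 497) (mv 495 (both (five 7 463 463) (mv 624 (both (five 7 495 527) (mv 625 (both (five 4 496 593) (five 4 528 657))))))))) (both (mv 465 (both (five 5 464 497) (mv 495 (both (five 7 463 463) (mv 623 (both (five 6 495 591) (mv 624 (both (five 7 495 527) (five 6 527 655))))))))) (mv 495 (both (five 7 463 463) (mv 494 (both (mv 497 (both (five 5 464 465) (mv 462 (both (five 3 461 461) (mv 591 (both (five 6 495 623) (mv 527 (both (five 7 462 559) (mv 398 (both (five 4 398 430) (mv 498 (both (five 2 495 499) (mv 466 (both (five 1 463 467) (mv 530 (both (five 0 495 531) (mv 593 (both (five 4 496 625) (mv 562 (both (five 6 465 561) (mv 563 (both (five 1 559 594) (five 4 466 595))))))))))))))))))))))) (both (mv 493 (both (five 2 492 524) (mv 460 (both (five 3 460 461) (mv 492 (both (five 3 459 459) (five 0 492 527))))))) (both (mv 465 (both (five 5 464 497) (mv 493 (both (five 2 492 524) (mv 527 (both (five 0 492 492) (mv 591 (both (five 6 495 623) (mv 559 (both (five 7 462 462) (mv 590 (both (five 6 494 622) (mv 561 (both (five 2 558 562) (five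 1 557 589))))))))))))))) (mv 493 (both (five 2 492 524) (mv 461 (both (five 3 460 460) (mv 497 (both (five 3 461 462) (five 5 464 465))))))))))))))))) (both (mv 592 (both (mv 623 (both (five 6 495 591) (mv 624 (both (five 6 527 655) (mv 625 (both (five 4 496 593) (five 4 528 657))))))) (both (mv 495 (both (five 7 463 463) (mv 624 (both (five 7 495 527) (mv 625 (both (five 4 496 593) (five 4 528 657))))))) (both (mv 495 (both (five 7 463 463) (mv 623 (both (five 6 495 591) (mv 624 (both (five 7 495 527) (five 6 527 655))))))) (mv 591 (both (five 6 495 623) (mv 590 (both (mv 463 (both (five 7 463 495) (mv 593 (both (five 4 496 625) (mv 621 (both (five 2 589 622) (mv 589 (both (five 2 588 620) (mv 559 (both (five 1 556 588) (mv 594 (both (five 3 558 558) (five 3 559 595))))))))))))) (both (mv 463 (both (five 7 463 495) (mv 593 (both (five 4 496 625) (mv 561 (both (five 1 558 562) (mv 526 (both (five 0 525 527) (mv 558 (both (five 3 525 559) (mv 493 (both (five 7 493 622) (mv 461 (both (five 4 429 429) (five 7 461 494))))))))))))))) (both (mv 561 (both (five 1 557 589) (mv 562 (both (five 2 558 559) (five 2 559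 563))))) (mv 463 (both (five 7 463 495) (mv 561 (both (five 1 557 589) (mv 562 (both (five 2 559 563) (five 1 558 593))))))))))))))))) (both (mv 592 (both (mv 623 (both (five 6 495 591) (mv 624 (both (five 6 527 655) (mv 625 (both (five 4 496 593) (five 4 528 657))))))) (both (mv 624 (both (mv 625 (both (five 4 496 593) (five 4 528 657))) (both (mv 497 (both (five 5 464 465) (mv 527 (both (five 1 493 526) (mv 498 (both (five 2 495 499) (mv 656 (both (five 7 527 559) (mv 687 (both (five 6 559 655) (mv 688 (both (five 6 591 719) (mv 689 (both (five 4 560 657) (five 4 592 721))))))))))))))) (mv 497 (both (five 5 464 465) (mv 527 (both (five 1 493 526) (mv 498 (both (five 2 495 499) (mv 559 (both (five 7 527 656) (mv 593 (both (five 4 496 625) (mv 594 (both (five 3 559 595) (mv 558 (both (five 0 558 561) (five 3 558 591)))))))))))))))))) (both (mv 497 (both (five 5 464 465) (mv 527 (both (five 1 493 526) (mv 498 (both (five 2 495 499) (mv 625 (both (five 4 496 593) (mv 624 (both (five 4 528 657) (mv 655 (both (five 6 527 623) (mv 656 (both (five 7 527 559) (five 6 559 687))))))))))))))) (both (mv 624 (both (mv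 497 (both (five 5 464 465) (mv 527 (both (five 1 493 526) (mv 498 (both (five 2 495 499) (mv 656 (both (five 7 527 559) (mv 687 (both (five 6 559 655) (mv 688 (both (five 6 591 719) (mv 689 (both (five 4 560 657) (five 4 592 721))))))))))))))) (both (mv 561 (both (mv 591 (both (five 6 495 623) (mv 562 (both (five 2 559 563) (mv 590 (both (five 1 557 589) (five 1 558 593))))))) (both (mv 465 (both (five 5 464 497) (mv 527 (both (five 0 525 526) (mv 562 (both (five 3 527 563) (mv 656 (both (five 7 527 559) (mv 688 (both (five 5 560 593) (mv 689 (both (five 4 560 657) (five 4 592 721))))))))))))) (mv 465 (both (five 5 464 497) (mv 526 (both (five 0 525 527) (mv 558 (both (five 3 525 559) (mv 591 (both (five 6 495 623) (mv 590 (both (five 1 557 589) (mv 493 (both (five 7 493 622) (mv 461 (both (five 4 429 429) (five 7 461 494)))))))))))))))))) (mv 623 (both (five 6 495 591) (five 6 527 655)))))) (both (mv 497 (both (five 5 464 465) (mv 527 (both (five 1 493 526) (mv 498 (both (five 2 495 499) (mv 623 (both (five 6 495 591) (mv 624 (both (five 6 527 655) (mv 656 (both (five 7 527 559) (mv 657 (both (five 4 528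 625) (five 4 560 689))))))))))))))) (mv 561 (both (mv 591 (both (five 6 495 623) (mv 562 (both (five 2 559 563) (mv 590 (both (five 1 557 589) (five 1 558 593))))))) (both (mv 497 (both (five 5 464 465) (mv 527 (both (five 1 493 526) (mv 498 (both (five 2 495 499) (mv 562 (both (five 3 527 563) (mv 593 (both (five 4 496 625) (mv 530 (both (five 6 465 466) (mv 559 (both (five 1 527 531) (mv 594 (both (five 0 558 558) (five 0 559 595))))))))))))))))) (mv 526 (both (five 0 525 527) (mv 558 (both (five 3 525 559) (mv 591 (both (five 6 495 623) (mv 590 (both (five 1 557 589) (mv 493 (both (five 7 493 622) (mv 461 (both (five 4 429 429) (five 7 461 494)))))))))))))))))))))) (both (mv 592 (both (mv 495 (both (five 7 463 463) (mv 624 (both (five 7 495 527) (mv 625 (both (five 4 496 593) (five 4 528 657))))))) (both (mv 497 (both (five 5 464 465) (mv 527 (both (five 1 493 526) (mv 498 (both (five 2 495 499) (mv 625 (both (five 4 496 593) (mv 624 (both (five 4 528 657) (mv 655 (both (five 6 527 623) (mv 656 (both (five 7 527 559) (five 6 559 687))))))))))))))) (mv 495 (both (five 7 463 463) (mv 497 (both (five 5 464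 465) (mv 494 (both (five 2 493 526) (mv 461 (both (five 3 461 462) (mv 493 (both (five 3 460 460) (five 2 492 524)))))))))))))) (both (mv 592 (both (mv 495 (both (five 7 463 463) (mv 624 (both (five 7 495 527) (mv 625 (both (five 4 496 593) (five 4 528 657))))))) (both (mv 624 (both (mv 625 (both (five 4 496 593) (five 4 528 657))) (both (mv 497 (both (five 5 464 465) (mv 527 (both (five 1 493 526) (mv 498 (both (five 2 495 499) (mv 656 (both (five 7 527 559) (mv 687 (both (five 6 559 655) (mv 688 (both (five 6 591 719) (mv 689 (both (five 4 560 657) (five 4 592 721))))))))))))))) (mv 497 (both (five 5 464 465) (mv 527 (both (five 1 493 526) (mv 498 (both (five 2 495 499) (mv 559 (both (five 7 527 656) (mv 593 (both (five 4 496 625) (mv 594 (both (five 3 559 595) (mv 558 (both (five 0 558 561) (five 3 558 591)))))))))))))))))) (mv 495 (both (five 7 463 463) (mv 497 (both (five 5 464 465) (mv 494 (both (five 2 493 526) (mv 461 (both (five 3 461 462) (mv 493 (both (five 3 460 460) (five 2 492 524)))))))))))))) (both (mv 592 (both (mv 623 (both (five 6 495 591) (mv 624 (both (five 6 527 655) (mv 625 (both (five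 4 496 593) (five 4 528 657))))))) (both (mv 495 (both (five 7 463 463) (mv 624 (both (five 7 495 527) (mv 625 (both (five 4 496 593) (five 4 528 657))))))) (both (mv 495 (both (five 7 463 463) (mv 623 (both (five 6 495 591) (mv 624 (both (five 7 495 527) (five 6 527 655))))))) (mv 495 (both (five 7 463 463) (mv 497 (both (five 5 464 465) (mv 527 (both (five 1 493 526) (mv 498 (both (five 2 495 499) (mv 466 (both (five 1 463 467) (mv 530 (both (five 0 495 531) (mv 591 (both (five 6 495 623) (mv 593 (both (five 4 496 625) (mv 562 (both (five 6 465 561) (mv 563 (both (five 1 559 594) (five 4 466 595))))))))))))))))))))))))) (mv 592 (both (mv 495 (both (five 7 463 463) (mv 624 (both (five 7 495 527) (mv 625 (both (five 4 496 593) (five 4 528 657))))))) (both (mv 561 (both (mv 591 (both (five 6 495 623) (mv 562 (both (five 2 559 563) (mv 590 (both (five 1 557 589) (five 1 558 593))))))) (both (mv 497 (both (five 5 464 465) (mv 527 (both (five 1 493 526) (mv 498 (both (five 2 495 499) (mv 562 (both (five 3 527 563) (mv 593 (both (five 4 496 625) (mv 530 (both (five 6 465 466) (mv 559 (both (five 1 527 531) (mv 594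 (both (five 0 558 558) (five 0 559 595))))))))))))))))) (mv 526 (both (five 0 525 527) (mv 558 (both (five 3 525 559) (mv 591 (both (five 6 495 623) (mv 590 (both (five 1 557 589) (mv 493 (both (five 7 493 622) (mv 461 (both (five 4 429 429) (five 7 461 494)))))))))))))))) (mv 495 (both (five 7 463 463) (mv 497 (both (five 5 464 465) (mv 494 (both (five 2 493 526) (mv 461 (both (five 3 461 462) (mv 493 (both (five 3 460 460) (five 2 492 524))))))))))))))))))))))) (both (ref 0) (both (mv 495 (both (mv 494 (both (mv 524 (both (five 2 492 493) (mv 526 (both (five 2 493 497) (five 1 491 523))))) (both (mv 497 (both (five 2 493 526) (mv 462 (both (five 3 461 461) (mv 466 (both (five 1 462 465) (mv 498 (both (five 3 462 463) (five 1 463 467))))))))) (mv 493 (both (five 2 492 524) (mv 460 (both (five 3 460 461) (mv 464 (both (five 1 461 465) (mv 492 (both (five 3 459 459) (five 1 460 463)))))))))))) (both (mv 527 (both (mv 559 (both (mv 464 (both (five 6 431 432) (five 5 463 591))) (both (mv 591 (both (five 5 495 623) (mv 590 (both (five 6 494 622) (mv 463 (both (five 6 462 558) (mv 430 (both (five 7 430 462) (mv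 431 (both (five 7 398 398) (five 4 399 399))))))))))) (mv 463 (both (mv 430 (both (five 7 430 462) (mv 431 (both (five 7 398 398) (five 4 399 399))))) (both (mv 462 (both (five 7 430 430) (mv 461 (both (five 0 460 460) (mv 464 (both (five 5 431 432) (mv 428 (both (five 3 428 429) (mv 493 (both (five 2 460 492) (mv 494 (both (five 1 461 465) (five 2 492 524))))))))))))) (mv 431 (both (five 4 399 399) (mv 432 (both (five 5 399 400) (five 5 431 464))))))))))) (both (mv 464 (both (mv 432 (both (mv 399 (both (five 7 399 431) (mv 400 (both (five 7 367 367) (mv 401 (both (five 5 368 369) (five 5 400 433))))))) (both (mv 400 (both (mv 401 (both (five 5 368 369) (five 5 400 433))) (both (mv 368 (both (five 6 367 463) (mv 335 (both (five 7 335 367) (mv 336 (both (five 7 303 303) (mv 337 (both (five 5 304 305) (five 5 336 369))))))))) (mv 368 (both (five 6 367 463) (mv 335 (both (five 7 335 367) (mv 336 (both (five 7 303 303) (mv 433 (both (five 5 400 401) (five 4 336 465)))))))))))) (both (mv 399 (both (five 7 399 431) (mv 400 (both (five 7 367 367) (mv 368 (both (five 6 367 463) (mv 369 (both (five 5 336 337) (five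 5 368 401))))))))) (both (mv 465 (both (mv 466 (both (five 2 463 467) (mv 494 (both (five 2 462 463) (five 1 461 493))))) (both (mv 399 (both (five 7 399 431) (mv 400 (both (five 7 367 367) (mv 368 (both (five 6 367 463) (mv 336 (both (five 4 336 433) (mv 337 (both (five 5 304 305) (five 5 336 369))))))))))) (mv 431 (both (five 7 399 399) (mv 430 (both (five 0 429 429) (mv 466 (both (five 0 430 433) (five 3 431 467)))))))))) (mv 465 (both (mv 466 (both (five 2 463 467) (mv 494 (both (five 2 462 463) (five 1 461 493))))) (both (mv 431 (both (five 7 399 399) (mv 430 (both (five 0 429 429) (mv 433 (both (five 5 400 401) (mv 397 (both (five 3 397 398) (mv 462 (both (five 2 429 461) (mv 434 (both (five 2 430 463) (mv 403 (both (five 1 399 402) (mv 435 (both (five 1 400 404) (five 2 432 436))))))))))))))))) (mv 431 (both (five 7 399 399) (mv 430 (both (five 0 429 429) (mv 466 (both (five 0 430 433) (five 3 431 467))))))))))))))) (both (mv 463 (both (mv 559 (both (five 5 463 591) (mv 462 (both (five 7 430 430) (mv 461 (both (five 0 460 460) (mv 428 (both (five 3 428 429) (mv 493 (both (five 2 460 492) (mv 465 (both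 (five 2 461 494) (mv 434 (both (five 1 430 433) (mv 466 (both (five 1 431 435) (five 2 463 467))))))))))))))))) (both (mv 431 (both (five 4 399 399) (mv 398 (both (five 7 398 430) (mv 526 (both (five 6 430 558) (mv 493 (both (five 3 492 492) (mv 465 (both (five 1 461 494) (mv 466 (both (five 2 463 467) (mv 434 (both (five 1 431 435) (mv 433 (both (five 1 430 462) (mv 401 (both (five 6 368 369) (mv 498 (both (five 0 463 499) (five 7 401 530))))))))))))))))))))) (mv 431 (both (five 4 399 399) (mv 558 (both (five 6 430 526) (mv 559 (both (five 6 462 590) (five 5 463 591)))))))))) (mv 432 (both (five 6 399 400) (five 6 431 559)))))) (both (mv 493 (both (mv 492 (both (five 0 492 494) (five 3 492 526))) (both (mv 526 (both (five 3 492 492) (five 1 492 524))) (both (mv 494 (both (five 0 492 492) (five 2 492 524))) (mv 524 (both (five 2 492 494) (five 1 492 526))))))) (both (mv 559 (both (mv 464 (both (five 6 431 432) (five 5 463 591))) (both (mv 463 (both (mv 430 (both (five 7 430 462) (mv 431 (both (five 7 398 398) (five 4 399 399))))) (both (mv 462 (both (five 7 430 430) (mv 461 (both (five 0 460 460) (mv 464 (both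 (five 5 431 432) (mv 429 (both (five 3 428 428) (mv 526 (both (five 1 492 524) (mv 558 (both (five 7 429 494) (five 6 462 590))))))))))))) (mv 431 (both (five 4 399 399) (mv 432 (both (five 5 399 400) (five 5 431 464)))))))) (mv 591 (both (five 5 495 623) (mv 590 (both (five 6 494 622) (mv 463 (both (five 6 462 558) (mv 430 (both (five 7 430 462) (mv 431 (both (five 7 398 398) (five 4 399 399)))))))))))))) (mv 559 (both (mv 464 (both (five 6 431 432) (five 5 463 591))) (both (mv 591 (both (five 5 495 623) (mv 590 (both (five 6 494 622) (mv 463 (both (five 6 462 558) (mv 430 (both (five 7 430 462) (mv 431 (both (five 7 398 398) (five 4 399 399))))))))))) (mv 463 (both (mv 430 (both (five 7 430 462) (mv 431 (both (five 7 398 398) (five 4 399 399))))) (both (mv 432 (both (five 5 431 464) (mv 462 (both (five 7 430 430) (mv 461 (both (five 0 460 460) (mv 526 (both (five 1 492 524) (mv 493 (both (five 3 492 492) (mv 558 (both (five 4 429 429) (five 6 462 590))))))))))))) (mv 431 (both (five 4 399 399) (mv 432 (both (five 5 399 400) (five 5 431 464)))))))))))))))) (both (mv 464 (both (mv 432 (both (mv 399 (both (five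 7 399 431) (mv 400 (both (five 7 367 367) (mv 401 (both (five 5 368 369) (five 5 400 433))))))) (both (mv 400 (both (mv 401 (both (five 5 368 369) (five 5 400 433))) (both (mv 368 (both (five 6 367 463) (mv 335 (both (five 7 335 367) (mv 336 (both (five 7 303 303) (mv 337 (both (five 5 304 305) (five 5 336 369))))))))) (mv 368 (both (five 6 367 463) (mv 335 (both (five 7 335 367) (mv 336 (both (five 7 303 303) (mv 433 (both (five 5 400 401) (five 4 336 465)))))))))))) (both (mv 399 (both (five 7 399 431) (mv 400 (both (five 7 367 367) (mv 368 (both (five 6 367 463) (mv 369 (both (five 5 336 337) (five 5 368 401))))))))) (both (mv 465 (both (mv 466 (both (five 2 463 467) (mv 494 (both (five 2 462 463) (five 1 461 493))))) (both (mv 399 (both (five 7 399 431) (mv 400 (both (five 7 367 367) (mv 368 (both (five 6 367 463) (mv 336 (both (five 4 336 433) (mv 337 (both (five 5 304 305) (five 5 336 369))))))))))) (mv 431 (both (five 7 399 399) (mv 430 (both (five 0 429 429) (mv 466 (both (five 0 430 433) (five 3 431 467)))))))))) (mv 465 (both (mv 466 (both (five 2 463 467) (mv 494 (both (five 2 462 463) (five 1 461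 493))))) (both (mv 431 (both (five 7 399 399) (mv 430 (both (five 0 429 429) (mv 433 (both (five 5 400 401) (mv 397 (both (five 3 397 398) (mv 462 (both (five 2 429 461) (mv 434 (both (five 2 430 463) (mv 403 (both (five 1 399 402) (mv 435 (both (five 1 400 404) (five 2 432 436))))))))))))))))) (mv 431 (both (five 7 399 399) (mv 430 (both (five 0 429 429) (mv 466 (both (five 0 430 433) (five 3 431 467))))))))))))))) (both (mv 432 (both (mv 399 (both (five 7 399 431) (mv 400 (both (five 7 367 367) (mv 401 (both (five 5 368 369) (five 5 400 433))))))) (both (mv 465 (both (mv 431 (both (five 7 399 399) (mv 430 (both (five 0 429 429) (mv 466 (both (five 0 430 433) (five 3 431 467))))))) (both (mv 431 (both (five 7 399 399) (mv 430 (both (five 0 429 429) (mv 433 (both (five 5 400 401) (mv 398 (both (five 3 397 397) (mv 462 (both (five 2 429 461) (mv 494 (both (five 1 461 493) (five 4 398 527))))))))))))) (mv 466 (both (five 2 463 467) (mv 494 (both (five 1 461 493) (five 1 462 497)))))))) (mv 527 (both (five 6 399 400) (five 6 431 559)))))) (both (mv 432 (both (mv 527 (both (five 6 399 400) (five 6 431 559))) (both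 (mv 399 (both (five 7 399 431) (mv 400 (both (five 7 367 367) (mv 401 (both (five 5 368 369) (five 5 400 433))))))) (mv 431 (both (five 7 399 399) (mv 430 (both (mv 527 (both (five 6 431 559) (mv 398 (both (five 7 398 463) (mv 494 (both (five 4 398 462) (mv 493 (both (five 0 492 492) (five 2 492 524))))))))) (both (mv 433 (both (five 5 400 401) (mv 397 (both (five 3 397 398) (mv 429 (both (five 3 396 396) (mv 461 (both (five 2 428 460) (five 2 429 462))))))))) (both (mv 433 (both (five 5 400 401) (mv 397 (both (five 3 397 398) (mv 429 (both (five 3 396 396) (mv 428 (both (five 0 428 463) (mv 460 (both (five 2 427 459) (five 2 428 461))))))))))) (mv 433 (both (five 5 400 401) (mv 461 (both (five 2 429 462) (mv 429 (both (five 2 428 460) (mv 396 (both (five 3 396 397) (mv 428 (both (five 3 395 395) (five 0 428 463)))))))))))))))))))) (both (mv 432 (both (mv 527 (both (five 6 399 400) (five 6 431 559))) (both (mv 399 (both (five 7 399 431) (mv 400 (both (five 7 367 367) (mv 401 (both (five 5 368 369) (five 5 400 433))))))) (mv 463 (both (mv 433 (both (five 5 400 401) (mv 434 (both (five 2 431 435) (mv 462 (both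 (five 1 429 461) (five 1 430 465))))))) (both (mv 431 (both (five 7 399 399) (mv 527 (both (five 5 431 559) (mv 430 (both (five 7 398 398) (mv 429 (both (five 0 428 428) (five 0 429 465))))))))) (mv 431 (both (five 7 399 399) (mv 433 (both (five 5 400 401) (mv 434 (both (five 2 430 462) (mv 403 (both (five 1 399 402) (mv 435 (both (five 1 400 404) (mv 467 (both (five 0 431 466) (five 0 432 468))))))))))))))))))) (both (mv 494 (both (mv 493 (both (five 1 461 465) (five 2 492 524))) (both (mv 497 (both (mv 462 (both (five 3 461 461) (mv 466 (both (five 1 462 465) (mv 498 (both (five 3 462 463) (five 1 463 467))))))) (both (mv 462 (both (five 3 461 461) (mv 498 (both (five 3 462 463) (mv 499 (both (five 2 495 527) (mv 531 (both (five 0 495 530) (five 0 496 532))))))))) (both (mv 462 (both (five 3 461 461) (mv 465 (both (five 1 462 466) (mv 433 (both (five 6 400 401) (mv 463 (both (five 1 430 434) (mv 430 (both (five 3 429 429) (mv 398 (both (five 4 366 366) (five 4 398 527))))))))))))) (mv 466 (both (five 1 462 465) (mv 498 (both (five 1 463 467) (mv 499 (both (five 2 495 527) (mv 531 (both (five 0 495 530) (five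 0 496 532))))))))))))) (mv 493 (both (five 2 492 524) (mv 460 (both (five 3 460 461) (mv 492 (both (five 3 459 459) (five 0 492 527)))))))))) (both (mv 432 (both (mv 527 (both (five 6 399 400) (five 6 431 559))) (both (mv 465 (both (mv 466 (both (five 2 463 467) (mv 494 (both (five 2 462 463) (five 1 461 493))))) (both (mv 399 (both (five 7 399 431) (mv 400 (both (five 7 367 367) (mv 368 (both (five 6 367 463) (mv 336 (both (five 4 336 433) (mv 337 (both (five 5 304 305) (five 5 336 369))))))))))) (mv 431 (both (five 7 399 399) (mv 430 (both (five 0 429 429) (mv 466 (both (five 0 430 433) (five 3 431 467)))))))))) (mv 465 (both (mv 466 (both (five 2 463 467) (mv 494 (both (five 2 462 463) (five 1 461 493))))) (both (mv 431 (both (five 7 399 399) (mv 430 (both (five 0 429 429) (mv 527 (both (five 6 431 559) (mv 398 (both (five 7 398 463) (mv 494 (both (five 4 398 462) (mv 493 (both (five 0 492 492) (five 2 492 524))))))))))))) (mv 431 (both (five 7 399 399) (mv 430 (both (five 0 429 429) (mv 466 (both (five 0 430 433) (five 3 431 467))))))))))))) (both (mv 432 (both (mv 527 (both (five 6 399 400) (five 6 431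 559))) (both (mv 399 (both (five 7 399 431) (mv 400 (both (five 7 367 367) (mv 368 (both (five 6 367 463) (mv 369 (both (five 5 336 337) (five 5 368 401))))))))) (mv 465 (both (mv 431 (both (five 7 399 399) (mv 430 (both (five 0 429 429) (mv 527 (both (five 6 431 559) (mv 398 (both (five 7 398 463) (mv 494 (both (five 4 398 462) (mv 493 (both (five 0 492 492) (five 2 492 524))))))))))))) (both (mv 431 (both (five 7 399 399) (mv 430 (both (five 0 429 429) (mv 466 (both (five 3 430 463) (five 3 431 467))))))) (mv 466 (both (five 2 463 467) (mv 494 (both (five 1 461 493) (five 1 462 497))))))))))) (both (mv 432 (both (mv 527 (both (five 6 399 400) (five 6 431 559))) (both (mv 399 (both (five 7 399 431) (mv 400 (both (five 7 367 367) (mv 401 (both (five 5 368 369) (five 5 400 433))))))) (mv 465 (both (mv 431 (both (five 7 399 399) (mv 430 (both (five 0 429 429) (mv 433 (both (five 5 400 401) (mv 398 (both (five 3 397 397) (mv 527 (both (five 7 398 463) (five 6 431 559))))))))))) (mv 466 (both (five 2 463 467) (mv 494 (both (five 1 461 493) (five 1 462 497)))))))))) (mv 432 (both (mv 527 (both (five 6 399 400)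 (five 6 431 559))) (mv 433 (both (five 5 400 401) (mv 434 (both (mv 431 (both (five 7 399 399) (mv 403 (both (five 1 399 402) (mv 435 (both (five 1 400 404) (mv 467 (both (five 0 431 466) (five 0 432 468))))))))) (both (mv 435 (both (five 2 431 463) (mv 403 (both (five 1 400 404) (mv 436 (both (five 2 432 465) (mv 468 (both (five 0 432 467) (five 0 433 469))))))))) (both (mv 431 (both (five 7 399 399) (mv 402 (both (five 1 399 403) (mv 463 (both (five 2 430 462) (mv 466 (both (five 0 431 467) (mv 465 (both (five 2 462 494) (mv 370 (both (five 6 337 338) (five 6 369 497))))))))))))) (both (mv 399 (both (five 7 399 431) (mv 435 (both (five 2 431 463) (mv 403 (both (five 1 400 404) (mv 436 (both (five 2 432 465) (mv 469 (both (five 0 433 468) (mv 437 (both (five 0 434 470) (mv 406 (both (five 1 402 405) (mv 438 (both (five 3 402 402) (five 1 403 407))))))))))))))))) (mv 399 (both (five 7 399 431) (mv 435 (both (five 2 431 463) (mv 436 (both (five 2 432 465) (mv 468 (both (five 0 432 467) (five 0 433 469))))))))))))))))))))))))))) (both (mv 527 (both (mv 559 (both (mv 464 (both (five 6 431 432) (five 5 463 591)))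 (both (mv 591 (both (five 5 495 623) (mv 590 (both (five 6 494 622) (mv 463 (both (five 6 462 558) (mv 430 (both (five 7 430 462) (mv 431 (both (five 7 398 398) (five 4 399 399))))))))))) (mv 463 (both (mv 430 (both (five 7 430 462) (mv 431 (both (five 7 398 398) (five 4 399 399))))) (both (mv 432 (both (five 5 431 464) (mv 462 (both (five 7 430 430) (mv 461 (both (five 0 460 460) (mv 526 (both (five 1 492 524) (mv 493 (both (five 3 492 492) (mv 558 (both (five 4 429 429) (five 6 462 590))))))))))))) (mv 431 (both (five 4 399 399) (mv 432 (both (five 5 399 400) (five 5 431 464))))))))))) (both (mv 559 (both (mv 464 (both (five 6 431 432) (five 5 463 591))) (both (mv 591 (both (five 5 495 623) (mv 590 (both (five 6 494 622) (mv 463 (both (five 6 462 558) (mv 430 (both (five 7 430 462) (mv 431 (both (five 7 398 398) (five 4 399 399))))))))))) (mv 463 (both (mv 430 (both (five 7 430 462) (mv 431 (both (five 7 398 398) (five 4 399 399))))) (both (mv 462 (both (five 7 430 430) (mv 461 (both (five 0 460 460) (mv 464 (both (five 6 431 432) (five 0 461 497))))))) (mv 431 (both (five 4 399 399) (mv 432 (both (five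 5 399 400) (five 5 431 464))))))))))) (mv 526 (both (five 1 493 497) (five 1 492 524)))))) (both (mv 526 (both (mv 497 (both (five 2 493 494) (five 1 493 527))) (both (mv 494 (both (five 2 493 497) (mv 524 (both (five 2 492 493) (five 1 491 523))))) (both (mv 524 (both (five 1 492 527) (mv 494 (both (five 2 492 493) (five 1 491 523))))) (mv 527 (both (five 1 493 497) (five 1 492 524))))))) (mv 497 (both (mv 526 (both (five 2 493 494) (five 1 493 527))) (both (mv 498 (both (mv 499 (both (five 2 495 527) (mv 531 (both (five 0 495 530) (five 0 496 532))))) (mv 462 (both (five 3 462 463) (mv 466 (both (five 1 463 467) (mv 494 (both (five 3 461 461) (five 1 462 465))))))))) (both (mv 494 (both (five 2 493 526) (mv 462 (both (five 3 461 461) (mv 466 (both (five 1 462 465) (mv 498 (both (five 3 462 463) (five 1 463 467))))))))) (mv 527 (both (five 1 493 526) (mv 498 (both (five 2 495 499) (mv 463 (both (five 3 462 462) (mv 431 (both (five 4 399 399) (mv 398 (both (five 7 398 430) (mv 432 (both (five 5 399 400) (mv 466 (both (five 1 463 467) (mv 530 (both (five 0 495 531) (mv 559 (both (five 5 431 464) (mv 590 (both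 (five 6 462 558) (mv 591 (both (five 6 494 622) (five 5 495 623))))))))))))))))))))))))))))))))) (both (mv 560 (both (mv 592 (both (mv 623 (both (five 6 495 591) (mv 624 (both (five 6 527 655) (mv 625 (both (five 4 496 593) (five 4 528 657))))))) (both (mv 465 (both (five 5 464 497) (mv 495 (both (five 7 463 463) (mv 624 (both (five 7 495 527) (mv 625 (both (five 4 496 593) (five 4 528 657))))))))) (both (mv 465 (both (five 5 464 497) (mv 495 (both (five 7 463 463) (mv 623 (both (five 6 495 591) (mv 624 (both (five 7 495 527) (five 6 527 655))))))))) (mv 495 (both (five 7 463 463) (mv 494 (both (mv 497 (both (five 5 464 465) (mv 462 (both (five 3 461 461) (mv 591 (both (five 6 495 623) (mv 527 (both (five 7 462 559) (mv 398 (both (five 4 398 430) (mv 498 (both (five 2 495 499) (mv 466 (both (five 1 463 467) (mv 530 (both (five 0 495 531) (mv 593 (both (five 4 496 625) (mv 562 (both (five 6 465 561) (mv 563 (both (five 1 559 594) (five 4 466 595))))))))))))))))))))))) (both (mv 493 (both (five 2 492 524) (mv 460 (both (five 3 460 461) (mv 492 (both (five 3 459 459) (five 0 492 527))))))) (both (mv 465 (both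 (five 5 464 497) (mv 493 (both (five 2 492 524) (mv 527 (both (five 0 492 492) (mv 591 (both (five 6 495 623) (mv 559 (both (five 7 462 462) (mv 590 (both (five 6 494 622) (mv 561 (both (five 2 558 562) (five 1 557 589))))))))))))))) (mv 493 (both (five 2 492 524) (mv 461 (both (five 3 460 460) (mv 497 (both (five 3 461 462) (five 5 464 465))))))))))))))))) (both (mv 464 (both (mv 433 (both (five 5 432 465) (mv 432 (both (five 5 400 401) (mv 559 (both (five 6 431 527) (five 6 463 591))))))) (both (mv 431 (both (five 7 431 463) (mv 432 (both (five 7 399 399) (mv 559 (both (five 6 431 527) (five 6 463 591))))))) (mv 463 (both (five 7 431 431) (mv 462 (both (mv 461 (both (five 0 461 497) (mv 428 (both (five 3 428 429) (mv 460 (both (five 3 427 427) (five 0 460 495))))))) (both (mv 465 (both (five 5 432 433) (mv 494 (both (five 2 461 493) (mv 466 (both (five 2 462 495) (mv 435 (both (five 1 431 434) (mv 467 (both (five 1 432 436) (mv 499 (both (five 0 463 498) (five 0 464 500))))))))))))) (mv 433 (both (five 5 432 465) (mv 461 (both (five 0 461 497) (mv 428 (both (five 3 428 429) (mv 460 (both (five 3 427 427)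 (mv 492 (both (five 2 459 491) (five 2 460 493))))))))))))))))))) (both (mv 592 (both (mv 623 (both (five 6 495 591) (mv 624 (both (five 6 527 655) (mv 625 (both (five 4 496 593) (five 4 528 657))))))) (both (mv 465 (both (five 5 464 497) (mv 464 (both (five 5 432 433) (mv 593 (both (five 4 464 561) (five 4 496 625))))))) (mv 465 (both (five 5 464 497) (mv 464 (both (five 5 432 433) (mv 591 (both (five 6 463 559) (five 6 495 623)))))))))) (both (mv 464 (both (mv 465 (both (five 5 432 433) (mv 592 (both (five 5 464 497) (mv 593 (both (five 4 464 561) (five 4 496 625))))))) (both (mv 431 (both (five 7 431 463) (mv 432 (both (five 7 399 399) (mv 401 (both (five 5 400 433) (mv 400 (both (five 5 368 369) (mv 527 (both (five 6 399 495) (five 6 431 559))))))))))) (mv 431 (both (five 7 431 463) (mv 432 (both (five 7 399 399) (mv 527 (both (five 6 431 559) (mv 495 (both (five 6 399 400) (mv 592 (both (five 7 495 624) (mv 593 (both (five 4 464 561) (five 4 496 625)))))))))))))))) (mv 592 (both (mv 623 (both (five 6 495 591) (mv 624 (both (five 6 527 655) (mv 625 (both (five 4 496 593) (five 4 528 657))))))) (both (mv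 495 (both (five 7 463 463) (mv 623 (both (five 6 495 591) (mv 624 (both (five 7 495 527) (five 6 527 655))))))) (mv 463 (both (five 7 463 495) (mv 464 (both (five 7 431 431) (mv 593 (both (five 4 464 561) (five 4 496 625))))))))))))))) (both (mv 560 (both (mv 592 (both (mv 623 (both (five 6 495 591) (mv 624 (both (five 6 527 655) (mv 625 (both (five 4 496 593) (five 4 528 657))))))) (both (mv 495 (both (five 7 463 463) (mv 623 (both (five 6 495 591) (mv 624 (both (five 7 495 527) (five 6 527 655))))))) (mv 463 (both (five 7 463 495) (mv 464 (both (five 7 431 431) (mv 593 (both (five 4 464 561) (five 4 496 625)))))))))) (both (mv 592 (both (mv 623 (both (five 6 495 591) (mv 624 (both (five 6 527 655) (mv 625 (both (five 4 496 593) (five 4 528 657))))))) (both (mv 495 (both (five 7 463 463) (mv 624 (both (five 7 495 527) (mv 625 (both (five 4 496 593) (five 4 528 657))))))) (both (mv 495 (both (five 7 463 463) (mv 623 (both (five 6 495 591) (mv 624 (both (five 7 495 527) (five 6 527 655))))))) (mv 591 (both (five 6 495 623) (mv 590 (both (mv 463 (both (five 7 463 495) (mv 593 (both (five 4 496 625) (mv 621 (both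 (five 2 589 622) (mv 589 (both (five 2 588 620) (mv 559 (both (five 1 556 588) (mv 594 (both (five 3 558 558) (five 3 559 595))))))))))))) (both (mv 463 (both (five 7 463 495) (mv 593 (both (five 4 496 625) (mv 561 (both (five 1 558 562) (mv 526 (both (five 0 525 527) (mv 558 (both (five 3 525 559) (mv 493 (both (five 7 493 622) (mv 461 (both (five 4 429 429) (five 7 461 494))))))))))))))) (both (mv 561 (both (five 1 557 589) (mv 562 (both (five 2 558 559) (five 2 559 563))))) (mv 463 (both (five 7 463 495) (mv 561 (both (five 1 557 589) (mv 562 (both (five 2 559 563) (five 1 558 593))))))))))))))))) (both (mv 464 (both (mv 431 (both (five 7 431 463) (mv 432 (both (five 7 399 399) (mv 433 (both (five 5 400 401) (five 5 432 465))))))) (both (mv 433 (both (five 5 432 465) (mv 432 (both (five 5 400 401) (mv 559 (both (five 6 431 527) (five 6 463 591))))))) (both (mv 431 (both (five 7 431 463) (mv 432 (both (five 7 399 399) (mv 559 (both (five 6 431 527) (five 6 463 591))))))) (mv 431 (both (five 7 431 463) (mv 433 (both (five 5 432 465) (mv 559 (both (five 6 463 591) (mv 561 (both (five 4 464 593) (mv 526 (both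 (five 0 525 527) (five 3 525 558))))))))))))))) (both (mv 464 (both (mv 591 (both (five 6 463 559) (mv 592 (both (five 6 495 623) (mv 593 (both (five 4 464 561) (five 4 496 625))))))) (mv 431 (both (five 7 431 463) (mv 432 (both (five 7 399 399) (mv 433 (both (five 5 400 401) (five 5 432 465))))))))) (both (mv 464 (both (mv 431 (both (five 7 431 463) (mv 432 (both (five 7 399 399) (mv 433 (both (five 5 400 401) (five 5 432 465))))))) (both (mv 433 (both (five 5 432 465) (mv 432 (both (five 5 400 401) (mv 527 (both (five 6 431 559) (mv 495 (both (five 6 399 400) (mv 592 (both (five 7 495 624) (mv 593 (both (five 4 464 561) (five 4 496 625))))))))))))) (both (mv 431 (both (five 7 431 463) (mv 432 (both (five 7 399 399) (mv 527 (both (five 6 431 559) (mv 495 (both (five 6 399 400) (mv 592 (both (five 7 495 624) (mv 593 (both (five 4 464 561) (five 4 496 625))))))))))))) (mv 433 (both (five 5 432 465) (mv 463 (both (five 7 431 431) (mv 495 (both (five 7 463 592) (mv 561 (both (five 4 464 593) (mv 526 (both (five 0 525 527) (mv 558 (both (five 3 525 559) (mv 494 (both (five 5 462 590) (mv 524 (both (five 2 492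 493) (five 1 491 523))))))))))))))))))))) (both (mv 464 (both (mv 591 (both (five 6 463 559) (mv 592 (both (five 6 495 623) (mv 593 (both (five 4 464 561) (five 4 496 625))))))) (both (mv 433 (both (five 5 432 465) (mv 432 (both (five 5 400 401) (mv 399 (both (five 7 399 431) (mv 400 (both (five 7 367 367) (mv 397 (both (five 0 397 398) (mv 434 (both (five 3 399 435) (mv 527 (both (five 6 399 495) (mv 561 (both (five 0 525 526) (five 4 464 593))))))))))))))))) (mv 433 (both (five 5 432 465) (mv 432 (both (five 5 400 401) (mv 559 (both (five 6 431 527) (five 6 463 591)))))))))) (mv 464 (both (mv 431 (both (five 7 431 463) (mv 432 (both (five 7 399 399) (mv 433 (both (five 5 400 401) (five 5 432 465))))))) (both (mv 433 (both (five 5 432 465) (mv 432 (both (five 5 400 401) (mv 559 (both (five 6 431 527) (five 6 463 591))))))) (both (mv 431 (both (five 7 431 463) (mv 432 (both (five 7 399 399) (mv 559 (both (five 6 431 527) (five 6 463 591))))))) (mv 433 (both (five 5 432 465) (mv 463 (both (five 7 431 431) (mv 591 (both (five 6 463 559) (mv 592 (both (five 7 463 495) (five 6 495 623)))))))))))))))))))) (both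 (mv 464 (both (mv 560 (both (mv 591 (both (five 6 463 559) (mv 592 (both (five 6 495 623) (mv 593 (both (five 4 464 561) (five 4 496 625))))))) (mv 431 (both (five 7 431 463) (mv 432 (both (five 7 399 399) (mv 433 (both (five 5 400 401) (five 5 432 465))))))))) (both (mv 432 (both (mv 399 (both (five 7 399 431) (mv 400 (both (five 7 367 367) (mv 401 (both (five 5 368 369) (five 5 400 433))))))) (both (mv 400 (both (mv 399 (both (five 7 367 367) (five 7 399 431))) (both (mv 527 (both (five 6 431 559) (mv 497 (both (five 1 493 526) (mv 368 (both (five 4 368 465) (mv 335 (both (five 7 335 367) (mv 336 (both (five 7 303 303) (mv 337 (both (five 5 304 305) (five 5 336 369))))))))))))) (mv 431 (both (five 7 399 399) (mv 527 (both (five 6 431 559) (mv 497 (both (five 1 493 526) (mv 368 (both (five 4 368 465) (mv 336 (both (five 6 335 463) (mv 337 (both (five 5 304 305) (five 5 336 369)))))))))))))))) (both (mv 401 (both (five 5 400 433) (mv 400 (both (five 5 368 369) (mv 367 (both (five 7 367 399) (mv 368 (both (five 7 335 335) (mv 497 (both (five 4 368 465) (mv 527 (both (five 1 493 526) (five 6 431 559)))))))))))))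 (both (mv 463 (both (mv 527 (both (five 6 431 559) (mv 497 (both (five 1 493 526) (mv 462 (both (five 0 461 461) (mv 498 (both (five 0 462 465) (five 3 463 499))))))))) (both (mv 401 (both (five 5 400 433) (mv 400 (both (five 5 368 369) (mv 527 (both (five 6 431 559) (mv 497 (both (five 1 493 526) (mv 368 (both (five 4 368 465) (mv 335 (both (five 7 335 367) (mv 336 (both (five 7 303 303) (five 6 335 431))))))))))))))) (mv 433 (both (five 5 400 401) (mv 434 (both (five 2 431 435) (mv 462 (both (five 2 430 431) (five 1 429 461)))))))))) (mv 463 (both (mv 527 (both (five 6 431 559) (mv 497 (both (five 1 493 526) (mv 462 (both (five 0 461 461) (mv 498 (both (five 0 462 465) (five 3 463 499))))))))) (both (mv 431 (both (five 7 399 399) (mv 433 (both (five 5 400 401) (mv 434 (both (five 2 431 435) (mv 402 (both (five 1 399 403) (mv 466 (both (five 0 431 467) (mv 430 (both (five 0 430 465) (mv 397 (both (five 3 397 398) (mv 429 (both (five 3 396 396) (five 0 428 428))))))))))))))))) (mv 433 (both (five 5 400 401) (mv 434 (both (five 2 431 435) (mv 462 (both (five 2 430 431) (five 1 429 461))))))))))))))) (both (mv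 560 (both (mv 465 (both (five 5 432 433) (mv 592 (both (five 5 464 497) (mv 593 (both (five 4 464 561) (five 4 496 625))))))) (both (mv 431 (both (five 7 431 463) (mv 465 (both (five 5 432 433) (mv 591 (both (five 6 463 559) (mv 592 (both (five 5 464 497) (five 6 495 623))))))))) (mv 559 (both (five 6 463 591) (mv 561 (both (five 4 464 593) (mv 526 (both (five 0 525 527) (five 3 525 558)))))))))) (both (mv 527 (both (mv 432 (both (five 6 431 559) (mv 399 (both (five 7 399 431) (mv 400 (both (five 7 367 367) (mv 369 (both (five 5 368 401) (mv 368 (both (five 5 336 337) (mv 497 (both (five 4 368 465) (five 1 493 526))))))))))))) (both (mv 559 (both (five 6 431 432) (mv 591 (both (five 6 463 560) (five 5 495 623))))) (both (mv 463 (both (mv 497 (both (five 1 493 526) (mv 462 (both (five 0 461 461) (mv 498 (both (five 0 462 465) (five 3 463 499))))))) (mv 431 (both (five 7 431 560) (mv 399 (both (five 4 367 367) (five 7 399 432))))))) (mv 526 (both (five 1 493 497) (mv 492 (both (five 3 492 493) (mv 524 (both (five 3 491 491) (mv 560 (both (five 0 524 559) (five 0 525 561))))))))))))) (both (mv 527 (both (mv 526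 (both (five 1 493 497) (mv 492 (both (five 3 492 493) (mv 524 (both (five 3 491 491) (mv 560 (both (five 0 524 559) (five 0 525 561))))))))) (both (mv 526 (both (five 1 493 497) (mv 493 (both (five 3 492 492) (mv 560 (both (five 0 525 561) (mv 431 (both (five 7 431 463) (mv 432 (both (five 7 399 399) (mv 401 (both (five 5 400 433) (mv 400 (both (five 5 368 369) (mv 429 (both (five 1 397 430) (mv 461 (both (five 4 429 558) (mv 396 (both (five 7 396 428) (mv 397 (both (five 7 364 364) (five 4 397 494))))))))))))))))))))))) (mv 432 (both (five 6 431 559) (mv 399 (both (five 7 399 431) (mv 400 (both (five 7 367 367) (mv 401 (both (five 5 368 369) (five 5 400 433)))))))))))) (both (mv 560 (both (mv 465 (both (five 5 432 433) (mv 592 (both (five 5 464 497) (mv 593 (both (five 4 464 561) (five 4 496 625))))))) (both (mv 433 (both (five 5 432 465) (mv 432 (both (five 5 400 401) (mv 559 (both (five 6 431 527) (five 6 463 591))))))) (mv 591 (both (five 6 463 559) (mv 592 (both (five 6 495 623) (mv 593 (both (five 4 464 561) (five 4 496 625)))))))))) (mv 431 (both (mv 399 (both (five 7 399 432) (mv 463 (both (five 4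 367 367) (five 7 431 560))))) (both (mv 560 (both (five 7 431 463) (mv 465 (both (five 5 432 433) (mv 592 (both (five 5 464 497) (mv 593 (both (five 4 464 561) (five 4 496 625))))))))) (both (mv 432 (both (five 7 399 399) (mv 465 (both (mv 430 (both (five 0 429 429) (mv 466 (both (five 0 430 433) (five 3 431 467))))) (both (mv 430 (both (five 0 429 429) (mv 466 (both (five 3 430 463) (five 3 431 467))))) (mv 401 (both (five 5 400 433) (mv 400 (both (five 5 368 369) (mv 368 (both (five 4 368 497) (mv 335 (both (five 7 335 367) (mv 336 (both (five 7 303 303) (five 6 335 463)))))))))))))))) (mv 432 (both (five 7 399 399) (mv 433 (both (five 5 400 401) (mv 465 (both (five 5 432 560) (mv 430 (both (five 0 429 429) (five 0 430 466)))))))))))))))))))) (both (mv 560 (both (mv 592 (both (mv 623 (both (five 6 495 591) (mv 624 (both (five 6 527 655) (mv 625 (both (five 4 496 593) (five 4 528 657))))))) (both (mv 465 (both (five 5 464 497) (mv 464 (both (five 5 432 433) (mv 593 (both (five 4 464 561) (five 4 496 625))))))) (mv 465 (both (five 5 464 497) (mv 464 (both (five 5 432 433) (mv 591 (both (five 6 463 559) (five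 6 495 623)))))))))) (both (mv 592 (both (mv 623 (both (five 6 495 591) (mv 624 (both (five 6 527 655) (mv 625 (both (five 4 496 593) (five 4 528 657))))))) (mv 495 (both (five 7 463 463) (mv 497 (both (five 5 464 465) (mv 526 (both (five 2 493 494) (five 1 493 527))))))))) (both (mv 464 (both (mv 431 (both (five 7 431 463) (mv 432 (both (five 7 399 399) (mv 433 (both (five 5 400 401) (five 5 432 465))))))) (both (mv 433 (both (five 5 432 465) (mv 432 (both (five 5 400 401) (mv 559 (both (five 6 431 527) (five 6 463 591))))))) (both (mv 431 (both (five 7 431 463) (mv 432 (both (five 7 399 399) (mv 559 (both (five 6 431 527) (five 6 463 591))))))) (mv 431 (both (five 7 431 463) (mv 433 (both (five 5 432 465) (mv 559 (both (five 6 463 591) (mv 561 (both (five 4 464 593) (mv 526 (both (five 0 525 527) (five 3 525 558))))))))))))))) (both (mv 464 (both (mv 465 (both (five 5 432 433) (mv 592 (both (five 5 464 497) (mv 593 (both (five 4 464 561) (five 4 496 625))))))) (both (mv 431 (both (five 7 431 463) (mv 432 (both (five 7 399 399) (mv 401 (both (five 5 400 433) (mv 400 (both (five 5 368 369) (mv 527 (both (five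 6 399 495) (five 6 431 559))))))))))) (mv 431 (both (five 7 431 463) (mv 432 (both (five 7 399 399) (mv 527 (both (five 6 431 559) (mv 495 (both (five 6 399 400) (mv 592 (both (five 7 495 624) (mv 593 (both (five 4 464 561) (five 4 496 625)))))))))))))))) (both (mv 592 (both (mv 623 (both (five 6 495 591) (mv 624 (both (five 6 527 655) (mv 625 (both (five 4 496 593) (five 4 528 657))))))) (both (mv 495 (both (five 7 463 463) (mv 623 (both (five 6 495 591) (mv 624 (both (five 7 495 527) (five 6 527 655))))))) (mv 463 (both (five 7 463 495) (mv 464 (both (five 7 431 431) (mv 593 (both (five 4 464 561) (five 4 496 625)))))))))) (mv 464 (both (mv 431 (both (five 7 431 463) (mv 432 (both (five 7 399 399) (mv 433 (both (five 5 400 401) (five 5 432 465))))))) (both (mv 433 (both (five 5 432 465) (mv 432 (both (five 5 400 401) (mv 559 (both (five 6 431 527) (five 6 463 591))))))) (both (mv 431 (both (five 7 431 463) (mv 432 (both (five 7 399 399) (mv 559 (both (five 6 431 527) (five 6 463 591))))))) (mv 433 (both (five 5 432 465) (mv 463 (both (five 7 431 431) (mv 591 (both (five 6 463 559) (mv 592 (both (five 7 463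 495) (five 6 495 623))))))))))))))))))) (both (mv 527 (both (mv 526 (both (five 1 493 497) (mv 492 (both (five 3 492 493) (mv 524 (both (five 3 491 491) (mv 560 (both (five 0 524 559) (five 0 525 561))))))))) (both (mv 464 (both (mv 559 (both (five 6 431 432) (mv 591 (both (five 6 463 560) (five 5 495 623))))) (both (mv 560 (both (mv 465 (both (five 5 432 433) (mv 592 (both (five 5 464 497) (mv 593 (both (five 4 464 561) (five 4 496 625))))))) (both (mv 591 (both (five 6 463 559) (mv 592 (both (five 6 495 623) (mv 593 (both (five 4 464 561) (five 4 496 625))))))) (both (mv 465 (both (five 5 432 433) (mv 591 (both (five 6 463 559) (mv 592 (both (five 5 464 497) (five 6 495 623))))))) (mv 465 (both (five 5 432 433) (mv 559 (both (five 6 463 591) (mv 561 (both (five 4 464 593) (mv 562 (both (five 3 527 563) (mv 530 (both (five 1 527 531) (mv 594 (both (five 0 559 595) (mv 498 (both (five 7 465 497) (mv 467 (both (five 5 466 499) (mv 466 (both (five 5 434 435) (five 2 463 495))))))))))))))))))))))) (both (mv 432 (both (mv 399 (both (five 7 399 431) (mv 400 (both (five 7 367 367) (mv 401 (both (five 5 368 369)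 (five 5 400 433))))))) (both (mv 399 (both (five 7 399 431) (mv 400 (both (five 7 367 367) (five 6 399 495))))) (mv 433 (both (five 5 400 401) (mv 560 (both (five 5 432 465) (mv 593 (both (five 4 464 561) (mv 592 (both (five 4 496 625) (mv 623 (both (five 6 495 591) (mv 624 (both (five 7 495 495) (five 6 527 655)))))))))))))))) (mv 432 (both (five 6 431 559) (mv 399 (both (five 7 399 431) (mv 400 (both (five 7 367 367) (mv 401 (both (five 5 368 369) (five 5 400 433))))))))))))) (both (mv 526 (both (mv 492 (both (five 3 492 493) (mv 524 (both (five 3 491 491) (mv 560 (both (five 0 524 559) (five 0 525 561))))))) (both (mv 492 (both (five 3 492 493) (mv 524 (both (five 3 491 491) (five 1 492 495))))) (both (mv 464 (both (mv 559 (both (five 6 431 432) (mv 591 (both (five 6 463 560) (five 5 495 623))))) (both (mv 432 (both (five 6 431 559) (mv 399 (both (five 7 399 431) (mv 400 (both (five 7 367 367) (mv 401 (both (five 5 368 369) (five 5 400 433))))))))) (both (mv 432 (both (mv 399 (both (five 7 399 431) (mv 400 (both (five 7 367 367) (mv 401 (both (five 5 368 369) (five 5 400 433))))))) (both (mv 399 (both (five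 7 399 431) (mv 400 (both (five 7 367 367) (five 6 399 495))))) (mv 433 (both (five 5 400 401) (mv 560 (both (five 5 432 465) (mv 593 (both (five 4 464 561) (mv 592 (both (five 4 496 625) (mv 623 (both (five 6 495 591) (mv 624 (both (five 7 495 495) (five 6 527 655)))))))))))))))) (mv 492 (both (five 3 492 493) (mv 560 (both (five 0 525 561) (mv 433 (both (five 5 432 465) (mv 591 (both (five 6 463 559) (mv 592 (both (five 6 495 623) (mv 624 (both (five 7 495 495) (mv 625 (both (five 4 496 593) (five 4 528 657))))))))))))))))))) (mv 495 (both (five 1 492 524) (mv 560 (both (five 0 525 561) (mv 592 (both (five 7 495 624) (mv 591 (both (five 6 495 623) (mv 464 (both (five 5 463 559) (mv 432 (both (five 6 399 400) (mv 433 (both (five 5 400 401) (five 5 432 465))))))))))))))))))) (mv 526 (both (five 1 493 497) (mv 492 (both (five 3 492 493) (mv 524 (both (five 3 491 491) (five 1 492 495))))))))))) (both (mv 560 (both (mv 592 (both (mv 623 (both (five 6 495 591) (mv 624 (both (five 6 527 655) (mv 625 (both (five 4 496 593) (five 4 528 657))))))) (both (mv 495 (both (five 7 463 463) (mv 623 (both (five 6 495 591)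 (mv 624 (both (five 7 495 527) (five 6 527 655))))))) (mv 463 (both (five 7 463 495) (mv 464 (both (five 7 431 431) (mv 593 (both (five 4 464 561) (five 4 496 625)))))))))) (both (mv 592 (both (mv 623 (both (five 6 495 591) (mv 624 (both (five 6 527 655) (mv 625 (both (five 4 496 593) (five 4 528 657))))))) (both (mv 463 (both (five 7 463 495) (mv 464 (both (five 7 431 431) (mv 593 (both (five 4 464 561) (five 4 496 625))))))) (mv 463 (both (five 7 463 495) (mv 464 (both (five 7 431 431) (mv 591 (both (five 6 463 559) (five 6 495 623)))))))))) (both (mv 464 (both (mv 431 (both (five 7 431 463) (mv 432 (both (five 7 399 399) (mv 559 (both (five 6 431 527) (five 6 463 591))))))) (both (mv 431 (both (five 7 431 463) (mv 432 (both (five 7 399 399) (mv 401 (both (five 5 400 433) (mv 400 (both (five 5 368 369) (mv 527 (both (five 6 399 495) (mv 561 (both (five 0 525 526) (five 4 464 593))))))))))))) (both (mv 559 (both (five 6 463 591) (mv 561 (both (five 4 464 593) (mv 526 (both (five 0 525 527) (five 3 525 558))))))) (mv 432 (both (mv 399 (both (five 7 399 431) (mv 400 (both (five 7 367 367) (mv 401 (both (five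 5 368 369) (five 5 400 433))))))) (both (mv 401 (both (five 5 400 433) (mv 400 (both (five 5 368 369) (mv 367 (both (five 7 367 399) (mv 368 (both (five 7 335 335) (mv 365 (both (five 0 365 366) (mv 495 (both (five 6 367 463) (mv 559 (both (five 6 463 591) (mv 561 (both (five 4 464 593) (mv 526 (both (five 3 525 558) (mv 494 (both (five 2 493 497) (mv 524 (both (five 2 492 493) (five 1 491 523))))))))))))))))))))))) (both (mv 401 (both (five 5 400 433) (mv 400 (both (five 5 368 369) (mv 463 (both (five 7 431 431) (mv 495 (both (five 6 367 368) (mv 559 (both (five 6 463 591) (mv 561 (both (five 4 464 593) (mv 526 (both (five 3 525 558) (mv 494 (both (five 2 493 497) (mv 524 (both (five 2 492 493) (five 1 491 523))))))))))))))))))) (mv 431 (both (five 7 399 399) (five 7 431 463))))))))))) (both (mv 592 (both (mv 623 (both (five 6 495 591) (mv 624 (both (five 6 527 655) (mv 625 (both (five 4 496 593) (five 4 528 657))))))) (both (mv 495 (both (five 7 463 463) (mv 624 (both (five 7 495 527) (mv 625 (both (five 4 496 593) (five 4 528 657))))))) (both (mv 495 (both (five 7 463 463) (mv 623 (both (five 6 495 591)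 (mv 624 (both (five 7 495 527) (five 6 527 655))))))) (mv 591 (both (five 6 495 623) (mv 590 (both (mv 463 (both (five 7 463 495) (mv 593 (both (five 4 496 625) (mv 621 (both (five 2 589 622) (mv 589 (both (five 2 588 620) (mv 559 (both (five 1 556 588) (mv 594 (both (five 3 558 558) (five 3 559 595))))))))))))) (both (mv 463 (both (five 7 463 495) (mv 593 (both (five 4 496 625) (mv 561 (both (five 1 558 562) (mv 526 (both (five 0 525 527) (mv 558 (both (five 3 525 559) (mv 493 (both (five 7 493 622) (mv 461 (both (five 4 429 429) (five 7 461 494))))))))))))))) (both (mv 561 (both (five 1 557 589) (mv 562 (both (five 2 558 559) (five 2 559 563))))) (mv 463 (both (five 7 463 495) (mv 561 (both (five 1 557 589) (mv 562 (both (five 2 559 563) (five 1 558 593))))))))))))))))) (both (mv 592 (both (mv 623 (both (five 6 495 591) (mv 624 (both (five 6 527 655) (mv 625 (both (five 4 496 593) (five 4 528 657))))))) (both (mv 495 (both (five 7 463 463) (mv 624 (both (five 7 495 527) (mv 625 (both (five 4 496 593) (five 4 528 657))))))) (mv 463 (both (five 7 463 495) (mv 464 (both (five 7 431 431) (mv 591 (both (five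 6 463 559) (five 6 495 623)))))))))) (both (mv 527 (both (mv 526 (both (five 1 493 497) (five 0 525 561))) (both (mv 593 (both (mv 561 (both (five 4 464 464) (mv 625 (both (five 4 496 592) (five 7 528 657))))) (both (mv 592 (both (five 4 496 625) (mv 623 (both (five 6 495 591) (mv 624 (both (five 6 527 655) (mv 559 (both (five 7 527 656) (mv 594 (both (five 3 559 595) (mv 561 (both (five 0 558 558) (mv 562 (both (five 3 527 563) (mv 530 (both (five 1 527 531) (mv 498 (both (five 6 465 466) (mv 499 (both (five 5 466 467) (five 2 495 497))))))))))))))))))))) (both (mv 592 (both (five 4 496 625) (mv 591 (both (five 6 495 623) (mv 559 (both (five 6 463 464) (mv 594 (both (five 3 558 558) (five 3 559 595))))))))) (mv 464 (both (five 4 464 561) (mv 432 (both (five 6 431 559) (mv 399 (both (five 7 399 431) (mv 400 (both (five 7 367 367) (mv 401 (both (five 5 368 369) (five 5 400 433))))))))))))))) (both (mv 526 (both (five 1 493 497) (mv 492 (both (five 3 492 493) (mv 524 (both (five 3 491 491) (five 0 524 559))))))) (mv 526 (both (five 0 525 561) (mv 492 (both (five 3 492 493) (mv 524 (both (five 3 491 491) (five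 0 524 559))))))))))) (both (mv 464 (both (mv 431 (both (five 7 431 463) (mv 432 (both (five 7 399 399) (mv 401 (both (five 5 400 433) (mv 400 (both (five 5 368 369) (mv 527 (both (five 6 399 495) (five 6 431 559))))))))))) (both (mv 561 (both (five 4 464 593) (mv 527 (both (five 0 525 526) (mv 432 (both (five 6 431 559) (mv 399 (both (five 7 399 431) (mv 400 (both (five 7 367 367) (mv 401 (both (five 5 368 369) (five 5 400 433))))))))))))) (both (mv 561 (both (five 4 464 593) (mv 527 (both (five 0 525 526) (mv 432 (both (five 6 431 559) (mv 400 (both (five 6 399 495) (mv 401 (both (five 5 368 369) (five 5 400 433))))))))))) (mv 463 (both (five 7 431 431) (mv 592 (both (five 7 463 495) (mv 593 (both (five 4 464 561) (five 4 496 625))))))))))) (mv 464 (both (mv 431 (both (five 7 431 463) (mv 432 (both (five 7 399 399) (mv 401 (both (five 5 400 433) (mv 400 (both (five 5 368 369) (mv 402 (both (five 2 399 403) (mv 429 (both (five 1 397 430) (mv 527 (both (five 6 399 495) (mv 526 (both (five 1 493 497) (five 0 525 561))))))))))))))))) (both (mv 463 (both (five 7 431 431) (mv 591 (both (five 6 463 559) (mv 592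 (both (five 7 463 495) (five 6 495 623))))))) (mv 559 (both (five 6 463 591) (mv 527 (both (five 6 431 432) (mv 526 (both (five 1 493 497) (five 0 525 561)))))))))))))))))) (both (mv 495 (both (mv 526 (both (mv 497 (both (five 2 493 494) (five 1 493 527))) (both (mv 494 (both (five 2 493 497) (mv 524 (both (five 2 492 493) (five 1 491 523))))) (both (mv 524 (both (five 1 492 527) (mv 494 (both (five 2 492 493) (five 1 491 523))))) (mv 527 (both (five 1 493 497) (five 1 492 524))))))) (both (mv 560 (both (mv 592 (both (five 7 463 463) (mv 623 (both (five 6 495 591) (mv 624 (both (five 6 527 655) (mv 625 (both (five 4 496 593) (five 4 528 657))))))))) (both (mv 592 (both (mv 624 (both (five 7 495 527) (mv 625 (both (five 4 496 593) (five 4 528 657))))) (both (mv 623 (both (five 6 495 591) (mv 624 (both (five 6 527 655) (mv 625 (both (five 4 496 593) (five 4 528 657))))))) (both (mv 591 (both (five 6 495 623) (mv 593 (both (five 4 496 625) (mv 464 (both (five 4 464 561) (mv 433 (both (five 5 432 465) (mv 432 (both (five 5 400 401) (mv 399 (both (five 7 399 431) (mv 400 (both (five 7 367 367) (five 6 399 527)))))))))))))))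 (mv 623 (both (five 6 495 591) (mv 624 (both (five 7 495 527) (five 6 527 655))))))))) (both (mv 464 (both (mv 465 (both (five 5 432 433) (mv 466 (both (five 2 463 467) (mv 494 (both (five 2 462 463) (five 1 461 493))))))) (both (mv 433 (both (five 5 432 465) (mv 432 (both (five 5 400 401) (mv 399 (both (five 7 399 431) (mv 400 (both (five 7 367 367) (five 6 399 527))))))))) (mv 431 (both (five 7 431 463) (mv 432 (both (five 7 399 399) (mv 527 (both (five 6 399 400) (mv 561 (both (five 0 525 526) (five 4 464 593)))))))))))) (mv 463 (both (five 7 463 592) (mv 431 (both (five 4 399 399) (five 7 431 464))))))))) (both (mv 494 (both (mv 493 (both (five 2 492 524) (mv 460 (both (five 3 460 461) (mv 492 (both (five 3 459 459) (five 0 492 527))))))) (both (mv 497 (both (mv 462 (both (five 3 461 461) (mv 466 (both (five 1 462 465) (mv 498 (both (five 3 462 463) (five 1 463 467))))))) (both (mv 462 (both (five 3 461 461) (mv 463 (both (five 3 462 498) (mv 431 (both (five 4 399 399) (mv 560 (both (five 7 431 464) (five 7 463 592))))))))) (mv 465 (both (five 1 462 466) (mv 433 (both (five 6 400 401) (mv 560 (both (five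 5 432 464) (five 5 464 592)))))))))) (mv 493 (both (five 2 492 524) (mv 464 (both (five 1 461 465) (mv 463 (both (five 1 460 492) (mv 431 (both (five 4 399 399) (five 7 431 560)))))))))))) (both (mv 494 (both (mv 524 (both (five 2 492 493) (mv 526 (both (five 2 493 497) (five 1 491 523))))) (both (mv 497 (both (five 2 493 526) (mv 462 (both (five 3 461 461) (mv 466 (both (five 1 462 465) (mv 498 (both (five 3 462 463) (five 1 463 467))))))))) (mv 493 (both (five 2 492 524) (mv 460 (both (five 3 460 461) (mv 464 (both (five 1 461 465) (mv 492 (both (five 3 459 459) (five 1 460 463)))))))))))) (mv 560 (both (mv 463 (both (five 7 463 592) (mv 431 (both (five 4 399 399) (five 7 431 464))))) (both (mv 464 (both (mv 433 (both (five 5 432 465) (mv 432 (both (five 5 400 401) (mv 527 (both (five 6 399 400) (mv 561 (both (five 0 525 526) (five 4 464 593))))))))) (both (mv 431 (both (five 7 431 463) (mv 432 (both (five 7 399 399) (mv 527 (both (five 6 399 400) (mv 561 (both (five 0 525 526) (five 4 464 593))))))))) (mv 463 (both (five 7 431 431) (mv 465 (both (five 5 432 433) (mv 466 (both (five 2 463 467) (mv 434 (both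 (five 1 431 435) (mv 498 (both (five 0 463 499) (mv 462 (both (five 0 462 497) (mv 429 (both (five 3 429 430) (mv 461 (both (five 3 428 428) (five 0 460 460)))))))))))))))))))) (both (mv 592 (both (mv 624 (both (five 7 495 527) (mv 625 (both (five 4 496 593) (five 4 528 657))))) (both (mv 623 (both (five 6 495 591) (mv 624 (both (five 6 527 655) (mv 625 (both (five 4 496 593) (five 4 528 657))))))) (both (mv 591 (both (five 6 495 623) (mv 593 (both (five 4 496 625) (mv 464 (both (five 4 464 561) (mv 433 (both (five 5 432 465) (mv 432 (both (five 5 400 401) (mv 399 (both (five 7 399 431) (mv 400 (both (five 7 367 367) (five 6 399 527))))))))))))))) (mv 623 (both (five 6 495 591) (mv 624 (both (five 7 495 527) (five 6 527 655))))))))) (mv 592 (both (five 7 463 463) (mv 623 (both (five 6 495 591) (mv 624 (both (five 6 527 655) (mv 625 (both (five 4 496 593) (five 4 528 657)))))))))))))))))) (both (mv 527 (both (mv 526 (both (five 1 493 497) (mv 492 (both (five 3 492 493) (mv 524 (both (five 3 491 491) (five 1 492 495))))))) (both (mv 559 (both (mv 464 (both (five 6 431 432) (mv 591 (both (five 6 463 560) (five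 5 495 623))))) (both (mv 464 (both (five 6 431 432) (mv 560 (both (mv 465 (both (five 5 432 433) (mv 592 (both (five 5 464 497) (mv 593 (both (five 4 464 561) (five 4 496 625))))))) (both (mv 465 (both (five 5 432 433) (mv 561 (both (five 4 464 593) (mv 562 (both (five 3 527 563) (mv 530 (both (five 1 527 531) (mv 594 (both (five 0 559 595) (mv 498 (both (five 7 465 497) (mv 467 (both (five 5 466 499) (mv 466 (both (five 5 434 435) (five 2 463 495))))))))))))))))) (both (mv 593 (both (five 4 464 561) (mv 592 (both (five 4 496 625) (mv 495 (both (five 4 463 463) (five 7 495 624))))))) (mv 465 (both (five 5 432 433) (mv 592 (both (five 5 464 497) (mv 495 (both (five 4 463 463) (five 7 495 624))))))))))))) (both (mv 591 (both (five 5 495 623) (mv 495 (both (mv 590 (both (five 6 494 622) (mv 463 (both (five 6 462 558) (mv 592 (both (five 4 463 560) (five 4 495 624))))))) (mv 494 (both (five 7 462 462) (mv 493 (both (five 0 492 492) (five 2 492 524))))))))) (mv 464 (both (five 6 431 432) (mv 591 (both (five 5 463 495) (five 5 495 623))))))))) (both (mv 526 (both (mv 492 (both (five 3 492 493) (mv 524 (both (five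 3 491 491) (five 1 492 495))))) (both (mv 492 (both (five 3 492 493) (mv 524 (both (five 3 491 491) (mv 560 (both (five 0 524 559) (five 0 525 561))))))) (both (mv 464 (both (mv 559 (both (five 6 431 432) (mv 591 (both (five 6 463 560) (five 5 495 623))))) (both (mv 432 (both (five 6 431 559) (mv 400 (both (five 6 399 495) (mv 401 (both (five 5 368 369) (five 5 400 433))))))) (both (mv 492 (both (five 3 492 493) (mv 560 (both (five 0 525 561) (mv 433 (both (five 5 432 465) (mv 432 (both (five 5 400 401) (mv 495 (both (five 6 399 400) (mv 592 (both (five 7 463 463) (mv 623 (both (five 6 495 591) (mv 624 (both (five 6 527 655) (mv 625 (both (five 4 496 593) (five 4 528 657))))))))))))))))))) (mv 560 (both (five 0 525 561) (mv 433 (both (five 5 432 465) (mv 591 (both (five 6 463 559) (mv 592 (both (five 6 495 623) (mv 624 (both (five 7 495 495) (mv 625 (both (five 4 496 593) (five 4 528 657))))))))))))))))) (mv 495 (both (five 1 492 524) (mv 560 (both (five 0 525 561) (mv 592 (both (five 7 495 624) (mv 591 (both (five 6 495 623) (mv 464 (both (five 5 463 559) (mv 432 (both (five 6 399 400) (mv 433 (both (five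 5 400 401) (five 5 432 465))))))))))))))))))) (both (mv 526 (both (five 1 493 497) (mv 492 (both (five 3 492 493) (mv 524 (both (five 3 491 491) (mv 560 (both (five 0 524 559) (five 0 525 561))))))))) (mv 464 (both (mv 559 (both (five 6 431 432) (mv 591 (both (five 6 463 560) (five 5 495 623))))) (both (mv 526 (both (five 1 493 497) (mv 560 (both (five 0 525 561) (mv 433 (both (five 5 432 465) (mv 432 (both (five 5 400 401) (mv 495 (both (five 6 399 400) (mv 592 (both (five 7 463 463) (mv 623 (both (five 6 495 591) (mv 624 (both (five 6 527 655) (mv 625 (both (five 4 496 593) (five 4 528 657))))))))))))))))))) (both (mv 560 (both (mv 465 (both (five 5 432 433) (mv 592 (both (five 5 464 497) (mv 593 (both (five 4 464 561) (five 4 496 625))))))) (both (mv 591 (both (five 6 463 559) (mv 592 (both (five 6 495 623) (mv 593 (both (five 4 464 561) (five 4 496 625))))))) (both (mv 465 (both (five 5 432 433) (mv 591 (both (five 6 463 559) (mv 592 (both (five 5 464 497) (five 6 495 623))))))) (mv 465 (both (five 5 432 433) (mv 559 (both (five 6 463 591) (mv 561 (both (five 4 464 593) (mv 562 (both (five 3 527 563) (mv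 530 (both (five 1 527 531) (mv 594 (both (five 0 559 595) (mv 498 (both (five 7 465 497) (mv 467 (both (five 5 466 499) (mv 466 (both (five 5 434 435) (five 2 463 495))))))))))))))))))))))) (mv 432 (both (five 6 431 559) (mv 400 (both (five 6 399 495) (mv 401 (both (five 5 368 369) (five 5 400 433)))))))))))))))) (mv 497 (both (mv 495 (both (mv 494 (both (five 2 493 526) (mv 461 (both (five 3 461 462) (mv 493 (both (five 3 460 460) (five 2 492 524))))))) (both (mv 463 (both (mv 431 (both (five 4 399 399) (mv 560 (both (five 7 431 464) (five 7 463 592))))) (mv 498 (both (five 3 462 462) (mv 467 (both (five 1 463 466) (mv 499 (both (five 1 464 468) (mv 531 (both (five 0 495 530) (five 0 496 532))))))))))) (mv 494 (both (five 2 493 526) (mv 465 (both (five 1 462 466) (mv 433 (both (five 6 400 401) (mv 560 (both (five 5 432 464) (five 5 464 592)))))))))))) (both (mv 498 (both (mv 495 (both (mv 462 (both (five 3 462 463) (mv 466 (both (five 1 463 467) (mv 494 (both (five 3 461 461) (five 1 462 465))))))) (both (mv 466 (both (five 1 463 467) (mv 465 (both (five 1 462 494) (mv 433 (both (five 6 400 401) (mv 560 (both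 (five 5 432 464) (five 5 464 592))))))))) (mv 463 (both (five 3 462 462) (mv 431 (both (five 4 399 399) (mv 560 (both (five 7 431 464) (five 7 463 592)))))))))) (both (mv 499 (both (five 2 495 527) (mv 468 (both (five 1 464 467) (mv 500 (both (five 1 465 469) (mv 532 (both (five 0 496 531) (five 0 497 533))))))))) (mv 499 (both (five 2 495 527) (mv 463 (both (five 3 463 464) (mv 495 (both (five 3 462 462) (mv 531 (both (five 0 495 530) (five 0 496 532)))))))))))) (both (mv 464 (both (mv 527 (both (five 1 493 526) (mv 432 (both (five 6 431 559) (mv 399 (both (five 7 399 431) (mv 400 (both (five 7 367 367) (mv 401 (both (five 5 368 369) (five 5 400 433))))))))))) (both (mv 463 (both (mv 462 (both (five 0 461 461) (mv 498 (both (five 0 462 465) (five 3 463 499))))) (mv 431 (both (five 7 431 560) (mv 399 (both (five 4 367 367) (five 7 399 432))))))) (both (mv 560 (both (mv 465 (both (five 5 432 433) (five 5 464 592))) (mv 463 (both (five 7 431 431) (mv 461 (both (five 0 461 462) (mv 498 (both (five 3 463 499) (mv 526 (both (five 1 493 527) (mv 561 (both (five 4 464 593) (mv 558 (both (five 3 525 559) (mv 493 (both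 (five 4 429 429) (mv 590 (both (five 7 461 494) (five 7 493 622))))))))))))))))))) (mv 527 (both (five 1 493 526) (mv 432 (both (five 6 431 559) (mv 401 (both (five 5 400 433) (mv 400 (both (five 5 368 369) (mv 367 (both (five 7 367 399) (mv 368 (both (five 7 335 335) (five 4 368 465))))))))))))))))) (both (mv 526 (both (five 1 493 527) (mv 495 (both (five 2 493 494) (mv 463 (both (mv 431 (both (five 4 399 399) (mv 560 (both (five 7 431 464) (five 7 463 592))))) (mv 498 (both (five 3 462 462) (mv 467 (both (five 1 463 466) (mv 499 (both (five 1 464 468) (mv 531 (both (five 0 495 530) (five 0 496 532))))))))))))))) (both (mv 560 (both (mv 464 (both (mv 431 (both (five 7 431 463) (mv 432 (both (five 7 399 399) (mv 401 (both (five 5 400 433) (mv 400 (both (five 5 368 369) (mv 527 (both (five 6 399 495) (five 6 431 559))))))))))) (both (mv 561 (both (five 4 464 593) (mv 527 (both (five 0 525 526) (mv 432 (both (five 6 431 559) (mv 399 (both (five 7 399 431) (mv 400 (both (five 7 367 367) (mv 401 (both (five 5 368 369) (five 5 400 433))))))))))))) (both (mv 561 (both (five 4 464 593) (mv 527 (both (five 0 525 526)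 (mv 432 (both (five 6 431 559) (mv 400 (both (five 6 399 495) (mv 401 (both (five 5 368 369) (five 5 400 433))))))))))) (mv 463 (both (five 7 431 431) (mv 592 (both (five 7 463 495) (mv 593 (both (five 4 464 561) (five 4 496 625))))))))))) (both (mv 465 (both (five 5 464 592) (mv 433 (both (five 6 400 401) (five 5 432 464))))) (both (mv 464 (both (mv 431 (both (five 7 431 463) (mv 432 (both (five 7 399 399) (mv 433 (both (five 5 400 401) (five 5 432 465))))))) (both (mv 431 (both (five 7 431 463) (mv 432 (both (five 7 399 399) (mv 527 (both (five 1 493 526) (five 6 431 559))))))) (both (mv 561 (both (five 4 464 593) (mv 527 (both (five 0 525 526) (mv 432 (both (five 6 431 559) (mv 400 (both (five 6 399 495) (mv 401 (both (five 5 368 369) (five 5 400 433))))))))))) (mv 433 (both (five 5 432 465) (mv 463 (both (five 7 431 431) (mv 461 (both (five 0 461 462) (mv 526 (both (five 1 493 527) (mv 561 (both (five 4 464 593) (mv 558 (both (five 3 525 559) (mv 493 (both (five 4 429 429) (mv 590 (both (five 7 461 494) (five 7 493 622))))))))))))))))))))) (mv 526 (both (five 1 493 527) (mv 495 (both (five 2 493 494) (mv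 592 (both (five 7 463 463) (five 5 464 465))))))))))) (both (mv 527 (both (five 1 493 526) (mv 498 (both (five 2 495 499) (mv 495 (both (mv 466 (both (five 1 463 467) (mv 465 (both (five 1 462 494) (mv 433 (both (five 6 400 401) (mv 530 (both (five 0 495 531) (five 7 433 562))))))))) (both (mv 462 (both (five 3 462 463) (mv 494 (both (five 3 461 461) (mv 493 (both (five 0 492 492) (five 2 492 524))))))) (mv 463 (both (five 3 462 462) (mv 431 (both (five 4 399 399) (mv 398 (both (five 7 398 430) (mv 432 (both (five 5 399 400) (mv 464 (both (five 5 431 559) (mv 433 (both (five 5 400 401) (mv 434 (both (five 2 431 435) (mv 402 (both (five 1 399 403) (mv 466 (both (five 0 431 467) (mv 465 (both (five 6 369 370) (mv 530 (both (five 0 495 531) (five 7 433 562)))))))))))))))))))))))))))))) (both (mv 527 (both (five 1 493 526) (mv 498 (both (five 2 495 499) (mv 495 (both (mv 466 (both (five 1 463 467) (mv 465 (both (five 1 462 494) (mv 433 (both (five 6 400 401) (mv 530 (both (five 0 495 531) (five 7 433 562))))))))) (mv 463 (both (five 3 462 462) (mv 431 (both (five 4 399 399) (five 4 431 560))))))))))) (both (mv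 560 (both (mv 465 (both (five 5 464 592) (mv 433 (both (five 6 400 401) (five 5 432 464))))) (both (mv 464 (both (mv 431 (both (five 7 431 463) (mv 432 (both (five 7 399 399) (mv 433 (both (five 5 400 401) (five 5 432 465))))))) (both (mv 561 (both (five 4 464 593) (mv 527 (both (five 0 525 526) (mv 432 (both (five 6 431 559) (mv 400 (both (five 6 399 495) (mv 401 (both (five 5 368 369) (five 5 400 433))))))))))) (both (mv 431 (both (five 7 431 463) (mv 432 (both (five 7 399 399) (mv 527 (both (five 1 493 526) (five 6 431 559))))))) (mv 431 (both (five 7 431 463) (mv 465 (both (five 5 432 433) (mv 527 (both (five 1 493 526) (mv 498 (both (five 2 495 499) (mv 561 (both (five 4 464 593) (mv 562 (both (five 3 527 563) (mv 530 (both (five 7 465 594) (mv 531 (both (five 0 495 495) (five 1 527 559))))))))))))))))))))) (both (mv 464 (both (mv 431 (both (five 7 431 463) (mv 432 (both (five 7 399 399) (mv 401 (both (five 5 400 433) (mv 400 (both (five 5 368 369) (mv 527 (both (five 6 399 495) (five 6 431 559))))))))))) (both (mv 561 (both (five 4 464 593) (mv 527 (both (five 0 525 526) (mv 432 (both (five 6 431 559)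 (mv 399 (both (five 7 399 431) (mv 400 (both (five 7 367 367) (mv 401 (both (five 5 368 369) (five 5 400 433))))))))))))) (both (mv 561 (both (five 4 464 593) (mv 527 (both (five 0 525 526) (mv 432 (both (five 6 431 559) (mv 400 (both (five 6 399 495) (mv 401 (both (five 5 368 369) (five 5 400 433))))))))))) (mv 463 (both (five 7 431 431) (mv 592 (both (five 7 463 495) (mv 593 (both (five 4 464 561) (five 4 496 625))))))))))) (mv 527 (both (five 1 493 526) (mv 498 (both (five 2 495 499) (mv 592 (both (five 5 464 465) (mv 624 (both (five 7 495 495) (mv 625 (both (five 4 496 593) (five 4 528 657))))))))))))))) (mv 465 (both (mv 433 (both (five 6 400 401) (mv 560 (both (five 5 432 464) (five 5 464 592))))) (both (mv 495 (both (mv 527 (both (five 1 493 526) (mv 498 (both (five 2 495 499) (mv 466 (both (five 1 463 467) (mv 530 (both (five 0 495 531) (mv 560 (both (five 5 464 592) (mv 562 (both (five 7 465 594) (mv 561 (both (five 3 527 563) (five 6 465 593))))))))))))))) (both (mv 466 (both (five 1 462 494) (mv 498 (both (five 1 463 467) (mv 499 (both (five 2 495 527) (mv 531 (both (five 0 495 530) (five 0 496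 532))))))))) (mv 494 (both (five 2 493 526) (mv 461 (both (five 3 461 462) (mv 493 (both (five 3 460 460) (five 2 492 524)))))))))) (mv 495 (both (mv 433 (both (five 6 400 401) (mv 527 (both (five 1 493 526) (mv 498 (both (five 2 495 499) (mv 530 (both (five 0 495 531) (mv 562 (both (five 7 433 466) (five 7 465 594))))))))))) (both (mv 466 (both (five 1 462 494) (mv 498 (both (five 1 463 467) (mv 499 (both (five 2 495 527) (mv 531 (both (five 0 495 530) (five 0 496 532))))))))) (mv 494 (both (five 2 493 526) (mv 461 (both (five 3 461 462) (mv 493 (both (five 3 460 460) (five 2 492 524)))))))))))))))))))))))))))))))))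

theorem L12 : W (S 988530863058807798957393715067720623286798683220635978952802738122718218409262471505648588255249455916730668840373243557345566271959196709010660073920568229888) (S 13789130662249713288143163328314162054296773780758190544945561275853979359984621283299358123309665725955142268906481166728817451531639091646731705010555275357306690959190090704325572001641248224813907580892162365063168) :=
  check_sound (Env.cons L11 Env.nil) (x := 496) (t := tL12) (by decide +kernel)

def tL13 : T :=
  (both (mv 494 (both (mv 557 (both (mv 559 (both (mv 527 (both (mv 462 (both (five 7 462 591) (mv 430 (both (five 4 398 398) (five 7 430 463))))) (both (mv 558 (both (five 1 524 556) (mv 463 (both (five 6 462 590) (mv 560 (both (five 4 431 431) (five 4 463 592))))))) (mv 556 (both (five 1 524 558) (mv 591 (both (five 7 462 462) (mv 496 (both (five 5 463 464) (five 5 495 623)))))))))) (both (mv 527 (both (mv 462 (both (five 7 462 591) (mv 430 (both (five 4 398 398) (five 7 430 463))))) (both (mv 558 (both (five 1 524 556) (mv 463 (both (five 6 462 590) (mv 560 (both (five 4 431 431) (five 4 463 592))))))) (mv 462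 (both (five 7 462 591) (mv 398 (both (five 6 397 430) (mv 558 (both (five 1 524 556) (mv 560 (both (five 3 524 524) (mv 592 (both (five 0 557 593) (five 7 495 624)))))))))))))) (both (mv 524 (both (five 2 492 496) (mv 523 (both (five 1 490 522) (mv 558 (both (five 3 523 556) (five 3 524 560))))))) (both (mv 591 (both (mv 496 (both (five 2 492 524) (mv 560 (both (five 6 463 464) (mv 623 (both (five 6 495 592) (five 5 527 655))))))) (both (mv 527 (both (five 7 462 462) (mv 592 (both (five 4 495 624) (mv 560 (both (five 4 463 463) (mv 622 (both (five 6 494 590) (mv 623 (both (five 6 526 654) (five 5 527 655))))))))))) (mv 496 (both (five 2 492 524) (mv 527 (both (five 7 462 462) (five 5 463 464)))))))) (mv 527 (both (mv 462 (both (five 7 462 591) (mv 430 (both (five 4 398 398) (five 7 430 463))))) (both (mv 496 (both (five 2 492 524) (mv 432 (both (five 6 431 464) (mv 558 (both (five 1 524 556) (mv 463 (both (five 6 462 590) (mv 430 (both (five 7 430 462) (mv 431 (both (five 7 398 398) (five 4 399 399))))))))))))) (mv 496 (both (five 2 492 524) (mv 464 (both (five 6 431 432) (five 5 463 591))))))))))))) (both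 (mv 589 (both (five 5 461 462) (mv 620 (both (five 6 492 588) (mv 621 (both (five 6 524 652) (mv 622 (both (five 4 493 590) (five 4 525 654))))))))) (both (mv 589 (both (mv 620 (both (five 6 492 588) (mv 621 (both (five 6 524 652) (mv 622 (both (five 4 493 590) (five 4 525 654))))))) (both (mv 524 (both (five 2 492 496) (mv 620 (both (five 6 492 588) (mv 621 (both (five 6 524 652) (mv 653 (both (five 7 524 556) (mv 654 (both (five 4 525 622) (five 4 557 686))))))))))) (both (mv 524 (both (five 2 492 496) (mv 522 (both (five 1 490 523) (mv 622 (both (five 4 493 590) (mv 621 (both (five 4 525 654) (mv 652 (both (five 6 524 620) (mv 653 (both (five 7 524 556) (five 6 556 684))))))))))))) (both (mv 621 (both (mv 622 (both (five 4 493 590) (five 4 525 654))) (both (mv 524 (both (five 2 492 496) (mv 522 (both (five 1 490 523) (mv 653 (both (five 7 524 556) (mv 684 (both (five 6 556 652) (mv 685 (both (five 6 588 716) (mv 686 (both (five 4 557 654) (five 4 589 718))))))))))))) (mv 524 (both (five 2 492 496) (mv 522 (both (five 1 490 523) (mv 556 (both (five 7 524 653) (mv 590 (both (five 4 493 622) (mv 555 (both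 (five 0 554 554) (mv 591 (both (five 0 555 558) (five 3 555 588)))))))))))))))) (both (mv 558 (both (mv 588 (both (five 6 492 620) (mv 559 (both (five 2 556 560) (mv 556 (both (five 2 555 587) (five 1 524 527))))))) (both (mv 524 (both (five 2 492 496) (mv 523 (both (five 0 522 522) (mv 559 (both (five 3 523 556) (five 3 524 560))))))) (both (mv 524 (both (five 2 492 496) (mv 522 (both (five 1 490 523) (mv 620 (both (five 6 492 588) (mv 621 (both (five 6 524 652) (mv 653 (both (five 7 524 556) (mv 685 (both (five 5 557 590) (mv 686 (both (five 4 557 654) (five 4 589 718))))))))))))))) (mv 496 (both (five 2 492 524) (mv 588 (both (five 6 492 620) (mv 559 (both (five 2 556 560) (mv 587 (both (five 1 554 586) (five 1 555 590))))))))))))) (mv 558 (both (mv 524 (both (five 2 492 496) (mv 523 (both (five 0 522 522) (mv 559 (both (five 3 523 556) (five 3 524 560))))))) (both (mv 496 (both (five 2 492 524) (mv 588 (both (five 6 492 620) (mv 587 (both (five 1 554 586) (mv 590 (both (five 4 493 622) (mv 555 (both (five 3 554 554) (mv 591 (both (five 0 555 556) (mv 592 (both (five 3 557 593) (mv 560 (both (five 7 463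 463) (five 1 557 561))))))))))))))))) (both (mv 496 (both (five 2 492 524) (mv 588 (both (five 6 492 620) (mv 587 (both (five 1 554 586) (mv 559 (both (five 2 555 556) (five 1 555 590))))))))) (mv 588 (both (five 6 492 620) (mv 559 (both (five 2 556 560) (mv 587 (both (five 1 554 586) (five 1 555 590))))))))))))))))) (both (mv 524 (both (five 2 492 496) (mv 522 (both (five 1 490 523) (mv 589 (both (five 5 461 462) (mv 620 (both (five 6 492 588) (mv 621 (both (five 6 524 652) (mv 653 (both (five 7 524 556) (mv 654 (both (five 4 525 622) (five 4 557 686))))))))))))))) (mv 559 (both (mv 524 (both (five 2 492 496) (mv 523 (both (five 1 490 522) (mv 558 (both (five 3 523 556) (five 3 524 560))))))) (both (mv 527 (both (mv 462 (both (five 7 462 591) (mv 430 (both (five 4 398 398) (five 7 430 463))))) (both (mv 558 (both (five 1 524 556) (mv 463 (both (five 6 462 590) (mv 560 (both (five 4 431 431) (five 4 463 592))))))) (mv 556 (both (five 1 524 558) (mv 591 (both (five 7 462 462) (mv 496 (both (five 5 463 464) (five 5 495 623)))))))))) (both (mv 527 (both (mv 462 (both (five 7 462 591) (mv 430 (both (five 4 398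 398) (five 7 430 463))))) (both (mv 558 (both (five 1 524 556) (mv 463 (both (five 6 462 590) (mv 560 (both (five 4 431 431) (five 4 463 592))))))) (mv 462 (both (five 7 462 591) (mv 398 (both (five 6 397 430) (mv 558 (both (five 1 524 556) (mv 560 (both (five 3 524 524) (mv 592 (both (five 0 557 593) (five 7 495 624)))))))))))))) (both (mv 462 (both (five 5 461 589) (mv 398 (both (five 6 397 430) (mv 496 (both (five 2 492 524) (mv 591 (both (five 7 462 527) (mv 560 (both (five 6 463 464) (mv 623 (both (five 6 495 592) (five 5 527 655))))))))))))) (mv 527 (both (mv 462 (both (five 7 462 591) (mv 430 (both (five 4 398 398) (five 7 430 463))))) (both (mv 496 (both (five 2 492 524) (mv 432 (both (five 6 431 464) (mv 558 (both (five 1 524 556) (mv 463 (both (five 6 462 590) (mv 430 (both (five 7 430 462) (mv 431 (both (five 7 398 398) (five 4 399 399))))))))))))) (mv 496 (both (five 2 492 524) (mv 464 (both (five 6 431 432) (five 5 463 591)))))))))))))))))) (both (mv 492 (both (five 0 492 527) (mv 459 (both (five 3 459 460) (mv 463 (both (five 1 460 464) (mv 491 (both (five 3 458 458) (five 1 459 462)))))))))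 (mv 524 (both (five 2 492 496) (mv 523 (both (five 2 491 492) (five 1 490 522)))))))) (both (mv 461 (both (mv 557 (both (mv 588 (both (five 6 460 556) (mv 589 (both (five 6 492 620) (mv 590 (both (five 4 461 558) (five 4 493 622))))))) (mv 428 (both (five 7 428 460) (mv 429 (both (five 7 396 396) (mv 430 (both (five 5 397 398) (five 5 429 462))))))))) (both (mv 429 (both (mv 396 (both (five 7 396 428) (mv 397 (both (five 7 364 364) (mv 398 (both (five 5 365 366) (five 5 397 430))))))) (both (mv 398 (both (five 5 397 430) (mv 397 (both (five 5 365 366) (mv 524 (both (five 6 396 492) (five 6 428 556))))))) (both (mv 396 (both (five 7 396 428) (mv 397 (both (five 7 364 364) (mv 524 (both (five 6 396 492) (five 6 428 556))))))) (mv 428 (both (five 7 396 396) (mv 462 (both (mv 427 (both (five 0 426 426) (mv 430 (both (five 5 397 398) (mv 395 (both (five 3 394 394) (mv 459 (both (five 2 426 458) (mv 524 (both (five 6 428 556) (mv 492 (both (five 7 395 460) (five 4 395 491))))))))))))) (both (mv 426 (both (five 0 426 427) (mv 463 (both (five 3 428 464) (mv 460 (both (five 0 460 496) (mv 491 (both (five 2 459 492)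 (mv 459 (both (five 2 458 490) (mv 458 (both (five 3 425 425) (five 1 425 457))))))))))))) (both (mv 398 (both (five 5 397 430) (mv 463 (both (five 3 428 464) (mv 496 (both (five 0 460 460) (mv 431 (both (five 4 399 399) (mv 560 (both (five 4 431 527) (five 7 463 592))))))))))) (mv 426 (both (five 0 426 427) (mv 430 (both (five 5 397 398) (mv 463 (both (five 3 428 464) (mv 524 (both (five 6 428 556) (mv 527 (both (five 7 430 559) (mv 431 (both (five 4 431 560) (mv 399 (both (five 1 396 400) (five 4 399 496))))))))))))))))))))))))) (both (mv 557 (both (mv 588 (both (five 6 460 556) (mv 589 (both (five 6 492 620) (mv 590 (both (five 4 461 558) (five 4 493 622))))))) (both (mv 430 (both (five 5 429 462) (mv 398 (both (five 5 397 429) (mv 590 (both (five 4 461 558) (mv 589 (both (five 4 493 622) (mv 492 (both (five 7 460 460) (mv 620 (both (five 6 492 588) (mv 621 (both (five 7 492 524) (five 6 524 652))))))))))))))) (both (mv 430 (both (five 5 429 462) (mv 429 (both (five 5 397 398) (mv 524 (both (five 6 428 556) (mv 397 (both (five 6 396 492) (mv 396 (both (five 7 364 364) (mv 394 (both (five 0 394 395) (mv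 431 (both (five 3 396 432) (mv 558 (both (five 4 461 590) (mv 560 (both (five 3 524 559) (mv 463 (both (five 4 431 527) (mv 496 (both (five 4 399 399) (five 7 431 464))))))))))))))))))))))) (mv 430 (both (five 5 429 462) (mv 429 (both (five 5 397 398) (mv 556 (both (five 6 428 524) (five 6 460 588))))))))))) (both (mv 429 (both (mv 396 (both (five 7 396 428) (mv 397 (both (five 7 364 364) (mv 398 (both (five 5 365 366) (five 5 397 430))))))) (both (mv 396 (both (five 7 396 428) (mv 397 (both (five 7 364 364) (mv 524 (both (five 6 396 492) (five 6 428 556))))))) (both (mv 398 (both (five 5 397 430) (mv 397 (both (five 5 365 366) (mv 524 (both (five 6 396 492) (five 6 428 556))))))) (mv 396 (both (five 7 396 428) (mv 430 (both (five 5 397 398) (mv 524 (both (five 6 428 556) (mv 557 (both (five 5 429 462) (mv 590 (both (five 4 461 558) (mv 589 (both (five 4 493 622) (mv 620 (both (five 6 492 588) (mv 621 (both (five 7 492 492) (five 6 524 652))))))))))))))))))))) (both (mv 557 (both (mv 460 (both (five 7 428 428) (mv 589 (both (five 7 460 492) (mv 590 (both (five 4 461 558) (five 4 493 622))))))) (both (mv 460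 (both (five 7 428 428) (mv 588 (both (five 6 460 556) (mv 589 (both (five 7 460 492) (five 6 492 620))))))) (mv 556 (both (five 6 460 588) (mv 558 (both (five 4 461 590) (mv 559 (both (five 1 524 527) (mv 524 (both (five 3 523 523) (five 3 524 560)))))))))))) (mv 557 (both (mv 428 (both (five 7 428 460) (mv 429 (both (five 7 396 396) (mv 430 (both (five 5 397 398) (five 5 429 462))))))) (both (mv 430 (both (five 5 429 462) (mv 429 (both (five 5 397 398) (mv 396 (both (five 7 396 428) (mv 397 (both (five 7 364 364) (mv 394 (both (five 0 394 395) (mv 431 (both (five 3 396 432) (mv 524 (both (five 6 396 492) (mv 558 (both (five 4 461 590) (mv 560 (both (five 3 524 559) (mv 463 (both (five 4 431 527) (mv 496 (both (five 4 399 399) (five 7 431 464))))))))))))))))))))))) (mv 590 (both (five 4 461 558) (mv 589 (both (five 4 493 622) (mv 492 (both (five 7 460 460) (mv 620 (both (five 6 492 588) (mv 621 (both (five 7 492 524) (five 6 524 652)))))))))))))))))))) (both (mv 461 (both (mv 557 (both (mv 588 (both (five 6 460 556) (mv 589 (both (five 6 492 620) (mv 590 (both (five 4 461 558) (five 4 493 622))))))) (mv 428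 (both (five 7 428 460) (mv 429 (both (five 7 396 396) (mv 430 (both (five 5 397 398) (five 5 429 462))))))))) (both (mv 429 (both (mv 396 (both (five 7 396 428) (mv 397 (both (five 7 364 364) (mv 398 (both (five 5 365 366) (five 5 397 430))))))) (both (mv 396 (both (five 7 396 428) (mv 397 (both (five 7 364 364) (mv 366 (both (five 5 365 398) (mv 365 (both (five 5 333 334) (mv 367 (both (five 2 364 368) (mv 394 (both (five 1 362 395) (mv 494 (both (five 4 365 462) (mv 496 (both (five 3 460 460) (five 2 492 524))))))))))))))))) (both (mv 462 (both (mv 524 (both (five 6 428 556) (mv 496 (both (five 2 492 494) (mv 463 (both (five 0 460 460) (mv 431 (both (five 4 399 399) (mv 560 (both (five 7 431 464) (five 7 463 592))))))))))) (both (mv 428 (both (five 7 396 396) (mv 463 (both (five 3 428 464) (mv 496 (both (five 0 460 460) (mv 431 (both (five 4 399 399) (mv 560 (both (five 4 431 527) (five 7 463 592))))))))))) (mv 396 (both (five 7 396 428) (mv 397 (both (five 7 364 364) (mv 365 (both (five 4 365 494) (mv 333 (both (five 4 333 430) (mv 334 (both (five 5 301 302) (five 5 333 366)))))))))))))) (both (mv 398 (both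 (five 5 397 430) (mv 397 (both (five 5 365 366) (mv 364 (both (five 7 364 396) (mv 365 (both (five 7 332 332) (mv 494 (both (five 4 365 462) (mv 496 (both (five 3 460 460) (five 2 492 524))))))))))))) (both (mv 460 (both (mv 494 (both (five 3 460 496) (mv 459 (both (five 0 458 458) (five 0 459 462))))) (both (mv 430 (both (five 5 397 398) (mv 431 (both (five 2 428 432) (mv 459 (both (five 2 427 428) (five 1 426 458))))))) (mv 398 (both (five 5 397 430) (mv 366 (both (five 5 365 397) (mv 496 (both (five 3 460 494) (mv 463 (both (five 0 460 462) (mv 431 (both (five 4 399 399) (mv 560 (both (five 7 431 464) (five 7 463 592)))))))))))))))) (mv 460 (both (mv 494 (both (five 3 460 496) (mv 459 (both (five 0 458 458) (five 0 459 462))))) (both (mv 428 (both (five 7 396 396) (mv 430 (both (five 5 397 398) (mv 431 (both (five 2 428 432) (five 2 427 459))))))) (mv 496 (both (five 3 460 494) (mv 463 (both (five 0 460 462) (mv 431 (both (five 4 399 399) (mv 560 (both (five 7 431 464) (five 7 463 592)))))))))))))))))) (both (mv 557 (both (mv 588 (both (five 6 460 556) (mv 589 (both (five 6 492 620) (mv 590 (both (five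 4 461 558) (five 4 493 622))))))) (both (mv 428 (both (five 7 428 460) (mv 462 (both (five 5 429 430) (mv 494 (both (five 5 461 589) (mv 496 (both (five 3 461 497) (five 2 492 524))))))))) (mv 556 (both (five 6 460 588) (mv 558 (both (five 4 461 590) (mv 559 (both (five 1 524 527) (mv 524 (both (five 3 523 523) (five 3 524 560)))))))))))) (both (mv 557 (both (mv 588 (both (five 6 460 556) (mv 589 (both (five 6 492 620) (mv 590 (both (five 4 461 558) (five 4 493 622))))))) (both (mv 462 (both (five 5 429 430) (mv 589 (both (five 5 461 494) (mv 590 (both (five 4 461 558) (five 4 493 622))))))) (mv 430 (both (five 5 429 462) (mv 429 (both (five 5 397 398) (mv 556 (both (five 6 428 524) (five 6 460 588)))))))))) (both (mv 557 (both (mv 588 (both (five 6 460 556) (mv 589 (both (five 6 492 620) (mv 590 (both (five 4 461 558) (five 4 493 622))))))) (both (mv 460 (both (five 7 428 428) (mv 496 (both (five 3 460 494) (mv 590 (both (five 4 461 558) (mv 589 (both (five 4 493 622) (mv 620 (both (five 6 492 588) (mv 621 (both (five 6 524 652) (mv 592 (both (five 2 588 591) (mv 560 (both (five 7 463 463) (mv 624 (both (five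 7 495 527) (mv 625 (both (five 4 496 593) (five 4 528 657))))))))))))))))))))) (both (mv 428 (both (five 7 428 460) (mv 429 (both (five 7 396 396) (mv 556 (both (five 6 428 524) (five 6 460 588))))))) (mv 428 (both (five 7 428 460) (mv 429 (both (five 7 396 396) (mv 524 (both (five 6 428 556) (mv 496 (both (five 2 492 494) (mv 558 (both (five 4 461 590) (mv 522 (both (five 0 522 523) (mv 560 (both (five 3 524 559) (mv 463 (both (five 7 463 592) (mv 431 (both (five 4 399 399) (five 7 431 464))))))))))))))))))))))) (mv 557 (both (mv 462 (both (five 5 429 430) (mv 589 (both (five 5 461 494) (mv 590 (both (five 4 461 558) (five 4 493 622))))))) (both (mv 460 (both (five 7 428 428) (mv 496 (both (five 3 460 494) (mv 590 (both (five 4 461 558) (mv 589 (both (five 4 493 622) (mv 620 (both (five 6 492 588) (mv 621 (both (five 6 524 652) (mv 592 (both (five 2 588 591) (mv 560 (both (five 7 463 463) (mv 624 (both (five 7 495 527) (mv 625 (both (five 4 496 593) (five 4 528 657))))))))))))))))))))) (mv 428 (both (five 7 428 460) (mv 429 (both (five 7 396 396) (mv 430 (both (five 5 397 398) (five 5 429 462))))))))))))))))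 (both (mv 557 (both (mv 589 (both (mv 620 (both (five 6 492 588) (mv 621 (both (five 6 524 652) (mv 622 (both (five 4 493 590) (five 4 525 654))))))) (mv 492 (both (five 7 460 460) (mv 494 (both (five 5 461 462) (five 0 492 527))))))) (both (mv 461 (both (mv 428 (both (five 7 428 460) (mv 429 (both (five 7 396 396) (mv 430 (both (five 5 397 398) (five 5 429 462))))))) (mv 556 (both (five 6 460 588) (mv 558 (both (five 4 461 590) (mv 559 (both (five 1 524 527) (mv 524 (both (five 3 523 523) (five 3 524 560))))))))))) (both (mv 589 (both (mv 620 (both (five 6 492 588) (mv 621 (both (five 6 524 652) (mv 622 (both (five 4 493 590) (five 4 525 654))))))) (both (mv 462 (both (five 5 461 494) (mv 430 (both (five 5 429 461) (mv 620 (both (five 6 492 588) (mv 621 (both (five 6 524 652) (mv 654 (both (five 4 525 622) (mv 653 (both (five 4 557 686) (mv 524 (both (five 7 524 556) (five 7 492 492))))))))))))))) (both (mv 462 (both (five 5 461 494) (mv 461 (both (five 5 429 430) (mv 590 (both (five 4 461 558) (five 4 493 622))))))) (mv 462 (both (five 5 461 494) (mv 461 (both (five 5 429 430) (mv 556 (both (five 6 460 588)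 (mv 558 (both (five 4 461 590) (mv 559 (both (five 1 524 527) (mv 524 (both (five 3 523 523) (five 3 524 560))))))))))))))))) (both (mv 589 (both (mv 620 (both (five 6 492 588) (mv 621 (both (five 6 524 652) (mv 622 (both (five 4 493 590) (five 4 525 654))))))) (both (mv 492 (both (five 7 460 460) (mv 620 (both (five 6 492 588) (mv 621 (both (five 7 492 524) (five 6 524 652))))))) (mv 460 (both (five 7 460 492) (mv 461 (both (five 7 428 428) (mv 590 (both (five 4 461 558) (five 4 493 622)))))))))) (both (mv 461 (both (mv 462 (both (five 5 429 430) (mv 589 (both (five 5 461 494) (mv 590 (both (five 4 461 558) (five 4 493 622))))))) (both (mv 460 (both (five 7 428 428) (mv 589 (both (five 7 460 492) (mv 590 (both (five 4 461 558) (five 4 493 622))))))) (mv 428 (both (five 7 428 460) (mv 429 (both (five 7 396 396) (mv 430 (both (five 5 397 398) (five 5 429 462)))))))))) (mv 461 (both (mv 428 (both (five 7 428 460) (mv 429 (both (five 7 396 396) (mv 430 (both (five 5 397 398) (five 5 429 462))))))) (both (mv 430 (both (five 5 429 462) (mv 429 (both (five 5 397 398) (mv 556 (both (five 6 428 524) (five 6 460 588)))))))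 (mv 460 (both (five 7 428 428) (mv 588 (both (five 6 460 556) (mv 589 (both (five 7 460 492) (five 6 492 620)))))))))))))))) (both (mv 461 (both (mv 557 (both (mv 588 (both (five 6 460 556) (mv 589 (both (five 6 492 620) (mv 590 (both (five 4 461 558) (five 4 493 622))))))) (mv 428 (both (five 7 428 460) (mv 429 (both (five 7 396 396) (mv 430 (both (five 5 397 398) (five 5 429 462))))))))) (both (mv 494 (both (mv 492 (both (five 0 492 527) (mv 463 (both (five 1 460 464) (mv 491 (both (five 1 459 462) (mv 458 (both (five 3 458 459) (mv 490 (both (five 3 457 457) (mv 522 (both (five 2 489 521) (five 2 490 523))))))))))))) (both (mv 460 (both (five 3 460 496) (mv 459 (both (five 0 458 458) (five 0 459 462))))) (both (mv 460 (both (five 3 460 496) (mv 492 (both (five 3 459 459) (five 0 492 527))))) (mv 460 (both (five 3 460 496) (mv 492 (both (five 0 492 527) (mv 396 (both (five 4 396 428) (mv 463 (both (five 1 460 464) (mv 462 (both (five 2 459 491) (mv 398 (both (five 6 397 430) (mv 431 (both (five 1 428 432) (mv 399 (both (five 7 366 366) (five 6 366 367))))))))))))))))))))) (both (mv 557 (both (mv 588 (both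 (five 6 460 556) (mv 589 (both (five 6 492 620) (mv 590 (both (five 4 461 558) (five 4 493 622))))))) (both (mv 462 (both (five 5 429 430) (mv 494 (both (five 5 461 589) (mv 492 (both (five 0 492 527) (mv 463 (both (five 1 460 464) (five 1 459 491))))))))) (mv 462 (both (five 5 429 430) (mv 556 (both (five 6 460 588) (mv 558 (both (five 4 461 590) (mv 527 (both (five 1 524 559) (mv 492 (both (five 0 492 494) (mv 463 (both (five 2 460 464) (mv 431 (both (five 4 431 560) (mv 399 (both (five 4 399 496) (mv 400 (both (five 5 367 368) (five 5 399 432)))))))))))))))))))))) (mv 557 (both (mv 588 (both (five 6 460 556) (mv 589 (both (five 6 492 620) (mv 590 (both (five 4 461 558) (five 4 493 622))))))) (mv 460 (both (five 7 428 428) (mv 494 (both (five 3 460 496) (mv 492 (both (five 3 459 459) (five 0 492 527))))))))))))) (both (mv 494 (both (mv 524 (both (five 2 492 496) (mv 523 (both (five 2 491 492) (five 1 490 522))))) (both (mv 492 (both (mv 459 (both (five 3 459 460) (mv 463 (both (five 1 460 464) (mv 491 (both (five 3 458 458) (five 1 459 462))))))) (both (mv 463 (both (five 1 460 464) (mv 462 (both (five 1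 459 491) (mv 430 (both (five 6 397 398) (mv 557 (both (five 5 429 461) (five 5 461 589))))))))) (mv 460 (both (five 3 459 459) (mv 428 (both (five 4 396 396) (mv 461 (both (five 3 460 496) (five 7 428 557)))))))))) (both (mv 492 (both (mv 463 (both (five 1 460 464) (mv 462 (both (five 1 459 491) (mv 430 (both (five 6 397 398) (mv 557 (both (five 5 429 461) (five 5 461 589))))))))) (both (mv 459 (both (five 3 459 460) (mv 491 (both (five 3 458 458) (mv 523 (both (five 2 490 522) (five 2 491 524))))))) (mv 460 (both (five 3 459 459) (mv 428 (both (five 4 396 396) (mv 524 (both (five 2 491 523) (five 4 428 557)))))))))) (mv 496 (both (five 2 492 524) (mv 461 (both (five 3 460 460) (mv 429 (both (mv 396 (both (five 7 396 428) (mv 397 (both (five 7 364 364) (mv 398 (both (five 5 365 366) (five 5 397 430))))))) (both (mv 396 (both (five 7 396 428) (mv 397 (both (five 7 364 364) (mv 462 (both (five 4 365 365) (five 3 461 497))))))) (both (mv 398 (both (five 5 397 430) (mv 397 (both (five 5 365 366) (mv 462 (both (five 4 365 365) (five 3 461 497))))))) (mv 428 (both (five 7 396 396) (mv 430 (both (five 5 397 398)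 (mv 462 (both (five 3 461 497) (mv 427 (both (five 0 426 426) (five 0 427 463))))))))))))))))))))) (both (mv 494 (both (mv 492 (both (five 0 492 527) (mv 524 (both (five 2 492 496) (five 2 491 523))))) (both (mv 496 (both (five 2 492 524) (mv 461 (both (five 3 460 460) (mv 429 (both (mv 396 (both (five 7 396 428) (mv 397 (both (five 7 364 364) (mv 398 (both (five 5 365 366) (five 5 397 430))))))) (both (mv 396 (both (five 7 396 428) (mv 397 (both (five 7 364 364) (mv 462 (both (five 4 365 365) (five 3 461 497))))))) (both (mv 398 (both (five 5 397 430) (mv 397 (both (five 5 365 366) (mv 462 (both (five 4 365 365) (five 3 461 497))))))) (mv 428 (both (five 7 396 396) (mv 430 (both (five 5 397 398) (mv 462 (both (five 3 461 497) (mv 427 (both (five 0 426 426) (five 0 427 463))))))))))))))))) (mv 492 (both (five 0 492 527) (mv 459 (both (five 3 459 460) (mv 463 (both (five 1 460 464) (mv 491 (both (five 3 458 458) (five 1 459 462)))))))))))) (both (mv 461 (both (mv 557 (both (mv 588 (both (five 6 460 556) (mv 589 (both (five 6 492 620) (mv 590 (both (five 4 461 558) (five 4 493 622))))))) (both (mv 462 (both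 (five 5 429 430) (mv 589 (both (five 5 461 494) (mv 590 (both (five 4 461 558) (five 4 493 622))))))) (mv 430 (both (five 5 429 462) (mv 429 (both (five 5 397 398) (mv 556 (both (five 6 428 524) (five 6 460 588)))))))))) (both (mv 429 (both (mv 396 (both (five 7 396 428) (mv 397 (both (five 7 364 364) (mv 398 (both (five 5 365 366) (five 5 397 430))))))) (both (mv 396 (both (five 7 396 428) (mv 397 (both (five 7 364 364) (mv 524 (both (five 6 396 492) (five 6 428 556))))))) (both (mv 398 (both (five 5 397 430) (mv 397 (both (five 5 365 366) (mv 524 (both (five 6 396 492) (five 6 428 556))))))) (mv 396 (both (five 7 396 428) (mv 398 (both (five 5 397 430) (mv 524 (both (five 6 428 556) (mv 494 (both (five 2 492 496) (mv 523 (both (five 2 491 492) (five 1 490 522))))))))))))))) (both (mv 557 (both (mv 588 (both (five 6 460 556) (mv 589 (both (five 6 492 620) (mv 590 (both (five 4 461 558) (five 4 493 622))))))) (both (mv 462 (both (five 5 429 430) (mv 494 (both (five 5 461 589) (mv 492 (both (five 0 492 527) (mv 463 (both (five 1 460 464) (five 1 459 491))))))))) (mv 462 (both (five 5 429 430) (mv 556 (both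 (five 6 460 588) (mv 558 (both (five 4 461 590) (mv 527 (both (five 1 524 559) (mv 492 (both (five 0 492 494) (mv 463 (both (five 2 460 464) (mv 431 (both (five 4 431 560) (mv 399 (both (five 4 399 496) (mv 400 (both (five 5 367 368) (five 5 399 432)))))))))))))))))))))) (both (mv 429 (both (mv 396 (both (five 7 396 428) (mv 397 (both (five 7 364 364) (mv 398 (both (five 5 365 366) (five 5 397 430))))))) (both (mv 396 (both (five 7 396 428) (mv 397 (both (five 7 364 364) (mv 524 (both (five 6 396 492) (five 6 428 556))))))) (both (mv 398 (both (five 5 397 430) (mv 397 (both (five 5 365 366) (mv 524 (both (five 6 396 492) (five 6 428 556))))))) (mv 396 (both (five 7 396 428) (mv 430 (both (five 5 397 398) (mv 524 (both (five 6 428 556) (mv 557 (both (five 5 429 462) (mv 590 (both (five 4 461 558) (mv 589 (both (five 4 493 622) (mv 620 (both (five 6 492 588) (mv 621 (both (five 7 492 492) (five 6 524 652))))))))))))))))))))) (both (mv 494 (both (mv 496 (both (five 2 492 524) (mv 462 (both (five 3 461 497) (mv 557 (both (five 5 461 589) (mv 556 (both (five 6 460 588) (mv 558 (both (five 4 461 590) (mv 559 (both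 (five 1 524 527) (mv 592 (both (five 0 556 591) (mv 560 (both (five 7 463 463) (five 0 557 593))))))))))))))))) (both (mv 492 (both (five 0 492 527) (mv 463 (both (five 1 460 464) (mv 491 (both (five 1 459 462) (mv 458 (both (five 3 458 459) (mv 490 (both (five 3 457 457) (mv 522 (both (five 2 489 521) (five 2 490 523))))))))))))) (mv 524 (both (five 2 492 496) (mv 523 (both (five 2 491 492) (five 1 490 522)))))))) (mv 494 (both (mv 492 (both (five 0 492 527) (mv 524 (both (five 2 492 496) (five 2 491 523))))) (both (mv 496 (both (five 2 492 524) (mv 429 (both (mv 396 (both (five 7 396 428) (mv 397 (both (five 7 364 364) (mv 398 (both (five 5 365 366) (five 5 397 430))))))) (both (mv 396 (both (five 7 396 428) (mv 397 (both (five 7 364 364) (mv 462 (both (five 4 365 365) (five 3 461 497))))))) (both (mv 398 (both (five 5 397 430) (mv 397 (both (five 5 365 366) (mv 462 (both (five 4 365 365) (five 3 461 497))))))) (mv 428 (both (five 7 396 396) (mv 430 (both (five 5 397 398) (mv 462 (both (five 3 461 497) (mv 427 (both (five 0 426 426) (five 0 427 463))))))))))))))) (mv 492 (both (five 0 492 527) (mv 463 (both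 (five 1 460 464) (mv 491 (both (five 1 459 462) (mv 458 (both (five 3 458 459) (mv 490 (both (five 3 457 457) (mv 522 (both (five 2 489 521) (five 2 490 523)))))))))))))))))))))) (both (mv 461 (both (mv 557 (both (mv 588 (both (five 6 460 556) (mv 589 (both (five 6 492 620) (mv 590 (both (five 4 461 558) (five 4 493 622))))))) (mv 460 (both (five 7 428 428) (mv 494 (both (five 3 460 496) (mv 492 (both (five 3 459 459) (five 0 492 527))))))))) (both (mv 557 (both (mv 460 (both (five 7 428 428) (mv 589 (both (five 7 460 492) (mv 590 (both (five 4 461 558) (five 4 493 622))))))) (both (mv 460 (both (five 7 428 428) (mv 588 (both (five 6 460 556) (mv 589 (both (five 7 460 492) (five 6 492 620))))))) (mv 556 (both (five 6 460 588) (mv 558 (both (five 4 461 590) (mv 559 (both (five 1 524 527) (mv 524 (both (five 3 523 523) (five 3 524 560)))))))))))) (both (mv 429 (both (mv 396 (both (five 7 396 428) (mv 397 (both (five 7 364 364) (mv 398 (both (five 5 365 366) (five 5 397 430))))))) (both (mv 396 (both (five 7 396 428) (mv 397 (both (five 7 364 364) (mv 524 (both (five 6 396 492) (five 6 428 556))))))) (both (mv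 398 (both (five 5 397 430) (mv 397 (both (five 5 365 366) (mv 524 (both (five 6 396 492) (five 6 428 556))))))) (mv 396 (both (five 7 396 428) (mv 398 (both (five 5 397 430) (mv 524 (both (five 6 428 556) (mv 494 (both (five 2 492 496) (mv 523 (both (five 2 491 492) (five 1 490 522))))))))))))))) (both (mv 557 (both (mv 588 (both (five 6 460 556) (mv 589 (both (five 6 492 620) (mv 590 (both (five 4 461 558) (five 4 493 622))))))) (both (mv 460 (both (five 7 428 428) (mv 496 (both (five 3 460 494) (mv 590 (both (five 4 461 558) (mv 589 (both (five 4 493 622) (mv 620 (both (five 6 492 588) (mv 621 (both (five 6 524 652) (mv 592 (both (five 2 588 591) (mv 560 (both (five 7 463 463) (mv 624 (both (five 7 495 527) (mv 625 (both (five 4 496 593) (five 4 528 657))))))))))))))))))))) (both (mv 428 (both (five 7 428 460) (mv 429 (both (five 7 396 396) (mv 556 (both (five 6 428 524) (five 6 460 588))))))) (mv 428 (both (five 7 428 460) (mv 429 (both (five 7 396 396) (mv 524 (both (five 6 428 556) (mv 496 (both (five 2 492 494) (mv 558 (both (five 4 461 590) (mv 522 (both (five 0 522 523) (mv 560 (both (five 3 524 559)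 (mv 463 (both (five 7 463 592) (mv 431 (both (five 4 399 399) (five 7 431 464))))))))))))))))))))))) (mv 494 (both (mv 496 (both (five 3 460 460) (five 2 492 524))) (both (mv 492 (both (five 0 492 527) (mv 459 (both (five 3 459 460) (mv 491 (both (five 3 458 458) (mv 523 (both (five 2 490 522) (five 2 491 524))))))))) (both (mv 460 (both (five 3 460 496) (mv 492 (both (five 3 459 459) (five 0 492 527))))) (mv 492 (both (five 0 492 527) (mv 524 (both (five 2 492 496) (five 2 491 523)))))))))))))) (both (mv 494 (both (mv 496 (both (five 2 492 524) (mv 461 (both (five 3 460 460) (mv 462 (both (five 3 461 497) (mv 557 (both (five 5 461 589) (mv 556 (both (five 6 460 588) (mv 558 (both (five 4 461 590) (mv 559 (both (five 1 524 527) (mv 592 (both (five 0 556 591) (mv 560 (both (five 7 463 463) (five 0 557 593))))))))))))))))))) (both (mv 492 (both (five 0 492 527) (mv 459 (both (five 3 459 460) (mv 463 (both (five 1 460 464) (mv 491 (both (five 3 458 458) (five 1 459 462))))))))) (mv 524 (both (five 2 492 496) (mv 523 (both (five 2 491 492) (five 1 490 522)))))))) (mv 494 (both (mv 492 (both (five 0 492 527) (mv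 459 (both (five 3 459 460) (mv 463 (both (five 1 460 464) (mv 491 (both (five 3 458 458) (five 1 459 462))))))))) (both (mv 496 (both (five 2 492 524) (mv 461 (both (five 3 460 460) (mv 429 (both (mv 396 (both (five 7 396 428) (mv 397 (both (five 7 364 364) (mv 398 (both (five 5 365 366) (five 5 397 430))))))) (both (mv 396 (both (five 7 396 428) (mv 397 (both (five 7 364 364) (mv 462 (both (five 4 365 365) (five 3 461 497))))))) (both (mv 398 (both (five 5 397 430) (mv 397 (both (five 5 365 366) (mv 462 (both (five 4 365 365) (five 3 461 497))))))) (mv 428 (both (five 7 396 396) (mv 430 (both (five 5 397 398) (mv 462 (both (five 3 461 497) (mv 427 (both (five 0 426 426) (five 0 427 463))))))))))))))))) (both (mv 492 (both (five 0 492 527) (mv 460 (both (five 3 459 459) (mv 428 (both (five 4 396 396) (mv 461 (both (five 3 460 496) (five 7 428 557))))))))) (mv 492 (both (five 0 492 527) (mv 463 (both (five 1 460 464) (mv 462 (both (five 1 459 491) (mv 430 (both (five 6 397 398) (mv 557 (both (five 5 429 461) (five 5 461 589)))))))))))))))))))))))))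

theorem L13 : W (S 988530863161101255454148148505632801312661156727406042891648512794071073662266652643294668095351646301915173751338452436331818490997235976069578606837084717056) (S 1723641332781214160863721422684637867499880964722113465023300370887079468019402626828253901442817405539327060654206880250141240479486198998859824851324287275245645704538798124334261615679944127483556844380250861207552) :=
  check_sound Env.nil (x := 493) (t := tL13) (by decide +kernel)

def tL14 : T :=
  (both (mv 589 (both (mv 620 (both (five 6 492 588) (mv 621 (both (five 6 524 652) (mv 622 (both (five 4 493 590) (five 4 525 654))))))) (both (mv 492 (both (five 7 460 460) (mv 620 (both (five 6 492 588) (mv 621 (both (five 7 492 524) (five 6 524 652))))))) (mv 460 (both (five 7 460 492) (mv 461 (both (five 7 428 428) (mv 590 (both (five 4 461 558) (five 4 493 622)))))))))) (both (mv 589 (both (mv 620 (both (five 6 492 588) (mv 621 (both (five 6 524 652) (mv 622 (both (five 4 493 590) (five 4 525 654))))))) (both (mv 492 (both (five 7 460 460) (mv 621 (both (five 7 492 524) (mv 622 (both (five 4 493 590) (five 4 525 654)))))))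 (both (mv 492 (both (five 7 460 460) (mv 620 (both (five 6 492 588) (mv 621 (both (five 7 492 524) (five 6 524 652))))))) (mv 588 (both (five 6 492 620) (mv 558 (both (mv 559 (both (five 2 556 560) (mv 556 (both (five 2 555 587) (five 1 524 527))))) (both (mv 460 (both (five 7 460 492) (mv 587 (both (five 1 554 586) (mv 590 (both (five 4 493 622) (mv 555 (both (five 3 554 554) (mv 556 (both (five 0 555 591) (mv 522 (both (five 3 522 523) (mv 619 (both (five 2 586 618) (mv 651 (both (five 5 523 524) (five 5 555 683))))))))))))))))) (both (mv 590 (both (five 4 493 622) (mv 559 (both (five 2 556 560) (mv 556 (both (five 1 524 527) (mv 591 (both (five 0 556 592) (five 0 555 555))))))))) (mv 559 (both (five 2 556 560) (mv 587 (both (five 1 554 586) (five 1 555 590))))))))))))))) (both (mv 461 (both (mv 428 (both (five 7 428 460) (mv 429 (both (five 7 396 396) (mv 430 (both (five 5 397 398) (five 5 429 462))))))) (mv 556 (both (five 6 460 588) (mv 558 (both (five 4 461 590) (mv 559 (both (five 1 524 527) (mv 524 (both (five 3 523 523) (five 3 524 560))))))))))) (both (mv 461 (both (mv 428 (both (five 7 428 460)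 (mv 429 (both (five 7 396 396) (mv 430 (both (five 5 397 398) (five 5 429 462))))))) (both (mv 430 (both (five 5 429 462) (mv 429 (both (five 5 397 398) (mv 524 (both (five 6 428 556) (mv 492 (both (five 6 396 397) (mv 589 (both (five 7 492 621) (mv 590 (both (five 4 461 558) (five 4 493 622))))))))))))) (mv 460 (both (five 7 428 428) (mv 589 (both (five 7 460 492) (mv 590 (both (five 4 461 558) (five 4 493 622)))))))))) (both (mv 589 (both (mv 620 (both (five 6 492 588) (mv 621 (both (five 6 524 652) (mv 622 (both (five 4 493 590) (five 4 525 654))))))) (both (mv 590 (both (five 4 493 622) (mv 461 (both (five 4 461 558) (mv 430 (both (five 5 429 462) (mv 429 (both (five 5 397 398) (mv 396 (both (five 7 396 428) (mv 397 (both (five 7 364 364) (mv 524 (both (five 6 396 492) (five 6 428 556))))))))))))))) (both (mv 620 (both (five 6 492 588) (mv 621 (both (five 6 524 652) (mv 654 (both (five 4 525 622) (mv 653 (both (five 4 557 686) (mv 524 (both (five 7 524 556) (five 7 492 492))))))))))) (mv 620 (both (five 6 492 588) (mv 621 (both (five 6 524 652) (mv 524 (both (five 7 492 492) (mv 556 (both (five 7 524 653)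 (mv 461 (both (five 6 428 429) (mv 558 (both (five 4 461 590) (mv 559 (both (five 3 523 523) (five 3 524 560))))))))))))))))))) (both (mv 461 (both (mv 428 (both (five 7 428 460) (mv 429 (both (five 7 396 396) (mv 430 (both (five 5 397 398) (five 5 429 462))))))) (both (mv 430 (both (five 5 429 462) (mv 429 (both (five 5 397 398) (mv 556 (both (five 6 428 524) (five 6 460 588))))))) (mv 460 (both (five 7 428 428) (mv 588 (both (five 6 460 556) (mv 589 (both (five 7 460 492) (five 6 492 620)))))))))) (mv 461 (both (mv 588 (both (five 6 460 556) (mv 589 (both (five 6 492 620) (mv 590 (both (five 4 461 558) (five 4 493 622))))))) (mv 428 (both (five 7 428 460) (mv 429 (both (five 7 396 396) (mv 430 (both (five 5 397 398) (five 5 429 462)))))))))))))))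

theorem L14 : W (S 988530863084381163081582323427198667793264301597328494937514181790556432222513516790060108215275003513026795068114545777092129326718706525775389707149697351680) (S 361184868868302718998365840431312610109195885560258973736314617522675545112482265501217010790742080783907136708475362373076459359481601048053770149798688472488547552625063488009024576890805519183954990596096) :=
  check_sound Env.nil (x := 557) (t := tL14) (by decide +kernel)

def tL15 : T :=
  (both (mv 461 (both (mv 588 (both (five 6 460 556) (mv 589 (both (five 6 492 620) (mv 590 (both (five 4 461 558) (five 4 493 622))))))) (mv 428 (both (five 7 428 460) (mv 429 (both (five 7 396 396) (mv 430 (both (five 5 397 398) (five 5 429 462))))))))) (both (mv 589 (both (mv 620 (both (five 6 492 588) (mv 621 (both (five 6 524 652) (mv 622 (both (five 4 493 590) (five 4 525 654))))))) (both (mv 494 (both (five 5 461 462) (mv 524 (both (five 2 492 496) (mv 522 (both (five 1 490 523) (mv 622 (both (five 4 493 590) (mv 621 (both (five 4 525 654) (mv 652 (both (five 6 524 620) (mv 653 (both (five 7 524 556) (five 6 556 684)))))))))))))))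 (both (mv 620 (both (five 6 492 588) (mv 621 (both (five 6 524 652) (mv 654 (both (five 4 525 622) (mv 653 (both (five 4 557 686) (mv 524 (both (five 7 524 556) (mv 494 (both (five 2 492 496) (five 5 461 462))))))))))))) (both (mv 590 (both (five 4 493 622) (mv 494 (both (five 5 461 462) (mv 496 (both (five 2 492 524) (mv 465 (both (five 1 461 464) (mv 497 (both (five 1 462 466) (mv 592 (both (five 5 464 560) (mv 591 (both (five 3 556 556) (mv 624 (both (five 0 589 625) (mv 588 (both (five 0 588 623) (mv 558 (both (five 3 557 593) (mv 587 (both (five 1 554 586) (five 1 555 559))))))))))))))))))))))) (mv 588 (both (five 6 492 620) (mv 494 (both (five 5 461 462) (mv 496 (both (five 2 492 524) (mv 465 (both (five 1 461 464) (mv 497 (both (five 1 462 466) (mv 560 (both (five 5 464 592) (mv 559 (both (five 2 556 558) (mv 591 (both (five 1 556 590) (mv 623 (both (five 5 527 655) (five 5 495 527)))))))))))))))))))))))) (both (mv 461 (both (mv 428 (both (five 7 428 460) (mv 429 (both (five 7 396 396) (mv 430 (both (five 5 397 398) (five 5 429 462))))))) (mv 556 (both (five 6 460 588) (mv 558 (both (five 4 461 590)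 (mv 559 (both (five 1 524 527) (mv 524 (both (five 3 523 523) (five 3 524 560))))))))))) (both (mv 589 (both (mv 620 (both (five 6 492 588) (mv 621 (both (five 6 524 652) (mv 622 (both (five 4 493 590) (five 4 525 654))))))) (both (mv 494 (both (five 5 461 462) (mv 496 (both (five 2 492 524) (mv 465 (both (five 1 461 464) (mv 497 (both (five 1 462 466) (mv 592 (both (five 5 464 560) (mv 620 (both (five 6 492 588) (mv 621 (both (five 6 524 652) (mv 622 (both (five 4 525 654) (mv 623 (both (five 1 588 591) (mv 624 (both (five 1 589 593) (mv 656 (both (five 0 620 655) (five 0 621 657))))))))))))))))))))))) (both (mv 588 (both (five 6 492 620) (mv 494 (both (five 5 461 462) (mv 496 (both (five 2 492 524) (mv 465 (both (five 1 461 464) (mv 497 (both (five 1 462 466) (mv 560 (both (five 5 464 592) (mv 559 (both (five 2 556 558) (mv 591 (both (five 1 556 590) (mv 623 (both (five 5 527 655) (five 5 495 527))))))))))))))))))) (mv 462 (both (five 5 461 494) (mv 461 (both (five 5 429 430) (mv 590 (both (five 4 461 558) (five 4 493 622))))))))))) (both (mv 461 (both (mv 462 (both (five 5 429 430) (mv 589 (both (five 5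 461 494) (mv 590 (both (five 4 461 558) (five 4 493 622))))))) (both (mv 558 (both (five 4 461 590) (mv 559 (both (mv 524 (both (five 3 524 560) (mv 523 (both (five 0 522 522) (five 3 523 556))))) (both (mv 460 (both (five 7 428 428) (mv 496 (both (five 3 460 494) (mv 527 (both (five 1 524 556) (mv 464 (both (five 6 431 432) (five 5 463 591))))))))) (mv 428 (both (five 7 428 460) (mv 396 (both (five 7 396 429) (mv 560 (both (five 3 524 524) (mv 592 (both (five 0 557 593) (mv 624 (both (five 7 495 527) (mv 623 (both (five 6 527 655) (mv 496 (both (five 6 495 591) (mv 465 (both (five 5 464 497) (mv 464 (both (five 5 432 433) (five 1 461 494)))))))))))))))))))))))) (mv 428 (both (five 7 428 460) (mv 429 (both (five 7 396 396) (mv 430 (both (five 5 397 398) (five 5 429 462)))))))))) (both (mv 461 (both (mv 428 (both (five 7 428 460) (mv 429 (both (five 7 396 396) (mv 430 (both (five 5 397 398) (five 5 429 462))))))) (both (mv 428 (both (five 7 428 460) (mv 429 (both (five 7 396 396) (mv 556 (both (five 6 428 524) (five 6 460 588))))))) (mv 462 (both (five 5 429 430) (mv 494 (both (five 5 461 589) (mv 496 (both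 (five 3 461 497) (five 2 492 524)))))))))) (mv 589 (both (mv 620 (both (five 6 492 588) (mv 621 (both (five 6 524 652) (mv 622 (both (five 4 493 590) (five 4 525 654))))))) (both (mv 590 (both (five 4 493 622) (mv 591 (both (mv 558 (both (five 4 461 461) (mv 556 (both (five 0 555 555) (mv 559 (both (five 1 524 527) (mv 524 (both (five 3 523 523) (five 3 524 560))))))))) (both (mv 592 (both (five 3 556 556) (mv 560 (both (five 1 557 561) (mv 625 (both (five 0 589 624) (mv 593 (both (five 4 496 496) (five 0 590 626))))))))) (both (mv 558 (both (five 4 461 461) (mv 592 (both (five 3 557 593) (mv 560 (both (five 1 557 561) (mv 624 (both (five 7 495 527) (five 0 589 625))))))))) (mv 461 (both (five 4 461 558) (mv 428 (both (five 7 428 460) (mv 429 (both (five 7 396 396) (mv 556 (both (five 6 428 524) (five 3 556 592))))))))))))))) (both (mv 621 (both (mv 620 (both (five 6 492 588) (five 6 524 652))) (both (mv 654 (both (five 4 525 622) (mv 653 (both (five 4 557 686) (mv 556 (both (five 7 524 524) (mv 588 (both (five 6 460 461) (five 7 556 685))))))))) (mv 652 (both (five 6 524 620) (mv 653 (both (five 6 556 684)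 (mv 654 (both (five 4 525 622) (five 4 557 686)))))))))) (mv 588 (both (five 6 492 620) (mv 558 (both (mv 559 (both (five 2 556 560) (mv 556 (both (five 2 555 587) (five 1 524 527))))) (both (mv 559 (both (five 2 556 560) (mv 587 (both (five 1 554 586) (five 1 555 590))))) (mv 461 (both (five 6 460 556) (five 4 461 590))))))))))))))))))

theorem L15 : W (S 988530863186674619578336756865110845819126775104098558876359956461909287475517697927706188055377193898211299979079754656078381545756745792834308240066213838848) (S 561843130309997966457434768199130629121898000485192278324599800859126862173114093855696197937466455196547824634624690708609732810118242836625594355528511468171699905887627211538279313689315725635075409182720) :=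
  check_sound Env.nil (x := 557) (t := tL15) (by decide +kernel)

def tL16 : T :=
  (both (mv 589 (both (mv 620 (both (five 6 492 588) (mv 621 (both (five 6 524 652) (mv 622 (both (five 4 493 590) (five 4 525 654))))))) (mv 492 (both (five 7 460 460) (mv 494 (both (five 5 461 462) (five 0 492 527))))))) (both (mv 461 (both (mv 428 (both (five 7 428 460) (mv 429 (both (five 7 396 396) (mv 430 (both (five 5 397 398) (five 5 429 462))))))) (both (mv 429 (both (mv 430 (both (five 5 397 398) (five 5 429 462))) (both (mv 396 (both (five 7 396 428) (mv 397 (both (five 7 364 364) (mv 366 (both (five 5 365 398) (mv 365 (both (five 5 333 334) (mv 367 (both (five 2 364 368) (mv 394 (both (five 1 362 395) (mv 494 (both (five 4 365 462) (mv 527 (both (five 0 492 492) (mv 556 (both (five 6 460 588) (mv 558 (both (five 1 524 559) (five 4 461 590))))))))))))))))))))) (both (mv 396 (both (five 7 396 428) (mv 397 (both (five 7 364 364) (mv 462 (both (five 5 429 430) (mv 494 (both (five 4 365 365) (mv 527 (both (five 0 492 492) (mv 556 (both (five 6 460 588) (mv 558 (both (five 1 524 559) (five 4 461 590))))))))))))))) (mv 396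 (both (five 7 396 428) (mv 397 (both (five 7 364 364) (mv 398 (both (five 5 365 366) (five 5 397 430))))))))))) (both (mv 460 (both (five 7 428 428) (mv 494 (both (five 3 460 496) (mv 492 (both (five 3 459 459) (five 0 492 527))))))) (mv 430 (both (five 5 429 462) (mv 398 (both (five 5 397 429) (mv 556 (both (five 6 460 588) (mv 558 (both (five 4 461 590) (mv 527 (both (five 1 524 559) (mv 494 (both (five 0 492 492) (mv 496 (both (five 3 460 460) (mv 464 (both (five 1 461 465) (mv 432 (both (five 6 399 400) (mv 431 (both (five 7 399 399) (mv 433 (both (five 3 397 397) (five 5 400 401))))))))))))))))))))))))))) (both (mv 461 (both (mv 588 (both (five 6 460 556) (mv 589 (both (five 6 492 620) (mv 590 (both (five 4 461 558) (five 4 493 622))))))) (mv 428 (both (five 7 428 460) (mv 429 (both (five 7 396 396) (mv 430 (both (five 5 397 398) (five 5 429 462))))))))) (both (mv 589 (both (mv 620 (both (five 6 492 588) (mv 621 (both (five 6 524 652) (mv 622 (both (five 4 493 590) (five 4 525 654))))))) (both (mv 462 (both (five 5 461 494) (mv 461 (both (five 5 429 430) (mv 588 (both (five 6 460 556) (five 6 492 620)))))))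 (mv 462 (both (five 5 461 494) (mv 461 (both (five 5 429 430) (mv 590 (both (five 4 461 558) (five 4 493 622)))))))))) (both (mv 461 (both (mv 588 (both (five 6 460 556) (mv 589 (both (five 6 492 620) (mv 590 (both (five 4 461 558) (five 4 493 622))))))) (mv 460 (both (five 7 428 428) (mv 494 (both (five 3 460 496) (mv 492 (both (five 3 459 459) (five 0 492 527))))))))) (both (mv 461 (both (mv 428 (both (five 7 428 460) (mv 429 (both (five 7 396 396) (mv 430 (both (five 5 397 398) (five 5 429 462))))))) (both (mv 462 (both (five 5 429 430) (mv 494 (both (five 5 461 589) (mv 496 (both (five 3 461 497) (mv 464 (both (five 1 461 465) (mv 527 (both (five 0 492 492) (mv 432 (both (five 6 399 400) (five 6 431 559))))))))))))) (mv 460 (both (five 7 428 428) (mv 588 (both (five 6 460 556) (mv 589 (both (five 7 460 492) (five 6 492 620)))))))))) (mv 461 (both (mv 462 (both (five 5 429 430) (mv 589 (both (five 5 461 494) (mv 590 (both (five 4 461 558) (five 4 493 622))))))) (both (mv 460 (both (five 7 428 428) (mv 589 (both (five 7 460 492) (mv 590 (both (five 4 461 558) (five 4 493 622))))))) (mv 428 (both (five 7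 428 460) (mv 429 (both (five 7 396 396) (mv 430 (both (five 5 397 398) (five 5 429 462))))))))))))))))

theorem L16 : W (S 988530863186674619578336756865110845819126775104098558876359956461909287475517697927706188055377193898211299979079754656078381545756745792834308240066213838848) (S 93438783879360135144947344266572655424650351145366529944779640063418358219788154372888662969663953335514471222259729857728560231960636311744505812915362018127144859783145910601989735576239138144256) :=
  check_sound Env.nil (x := 557) (t := tL16) (by decide +kernel)

def tL17 : T :=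
  (both (mv 557 (both (mv 589 (both (five 5 461 462) (mv 620 (both (five 6 492 588) (mv 621 (both (five 6 524 652) (mv 622 (both (five 4 493 590) (five 4 525 654))))))))) (both (mv 590 (both (mv 527 (both (five 0 492 492) (mv 558 (both (five 4 461 461) (mv 556 (both (five 1 524 559) (mv 555 (both (five 0 555 591) (mv 522 (both (five 3 522 523) (mv 554 (both (five 3 521 521) (mv 586 (both (five 2 553 585) (five 2 554 587))))))))))))))) (both (mv 527 (both (five 0 492 492) (mv 622 (both (five 4 493 589) (mv 558 (both (five 7 525 654) (mv 556 (both (five 1 524 559) (mv 555 (both (five 0 555 591) (mv 522 (both (five 3 522 523) (mv 554 (both (five 3 521 521) (mv 586 (both (five 2 553 585) (five 2 554 587))))))))))))))))) (both (mv 589 (both (five 4 493 622) (mv 588 (both (five 6 492 620) (mv 556 (both (five 6 460 461) (mv 591 (both (five 3 555 555) (five 3 556 592))))))))) (mv 492 (both (five 0 492 527) (mv 558 (both (five 4 461 461) (mv 622 (both (five 4 493 589) (five 7 525 654))))))))))) (both (mv 527 (both (five 0 492 492) (mv 559 (both (mv 591 (both (five 7 462 462) (mv 496 (both (five 5 463 464) (five 5 495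 623))))) (both (mv 556 (both (five 1 524 558) (mv 461 (both (five 6 460 588) (mv 462 (both (five 5 429 430) (mv 496 (both (five 3 461 497) (mv 464 (both (five 6 431 432) (five 1 461 465))))))))))) (mv 558 (both (five 1 524 556) (mv 590 (both (five 4 461 461) (mv 622 (both (five 6 494 591) (five 7 525 654)))))))))))) (mv 462 (both (five 5 461 589) (mv 430 (both (five 6 397 398) (five 5 429 461))))))))) (both (mv 462 (both (mv 430 (both (five 6 397 398) (mv 557 (both (five 5 429 461) (five 5 461 589))))) (both (mv 492 (both (five 0 492 527) (mv 523 (both (five 2 491 524) (mv 491 (both (five 2 490 522) (mv 458 (both (five 3 458 459) (mv 490 (both (five 3 457 457) (five 1 458 461))))))))))) (mv 398 (both (five 6 397 430) (mv 527 (both (five 0 492 492) (mv 557 (both (five 5 461 589) (mv 559 (both (five 7 462 591) (mv 558 (both (five 1 524 556) (mv 560 (both (five 3 524 524) (mv 592 (both (five 0 557 593) (five 7 495 624)))))))))))))))))) (both (mv 496 (both (five 2 492 524) (mv 464 (both (five 1 461 465) (mv 432 (both (mv 527 (both (five 6 399 400) (five 6 431 559))) (both (mv 399 (both (five 7 399 431) (mv 400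 (both (five 7 367 367) (mv 401 (both (five 5 368 369) (five 5 400 433))))))) (mv 399 (both (five 7 399 431) (mv 401 (both (five 5 400 433) (mv 559 (both (five 6 431 527) (mv 560 (both (five 6 463 591) (mv 593 (both (five 4 464 561) (mv 592 (both (five 4 496 625) (mv 557 (both (five 0 557 558) (mv 462 (both (five 5 461 589) (mv 430 (both (five 6 397 398) (five 5 429 461)))))))))))))))))))))))))) (mv 524 (both (five 2 492 496) (mv 523 (both (five 2 491 492) (five 1 490 522))))))))

theorem L17 : W (S 988530863186674619578336756865110845819126775104098558876359956461909287475517697927706188055377193898211299979079754656078381545756745792834308240066213838848) (S 93438784123020751683242974663291848374974211939331577050093258291625308986374123785270135905939094408997990773358327849878793943926819147291012720643723003630086750971797077494452278445497464651776) :=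
  check_sound Env.nil (x := 494) (t := tL17) (by decide +kernel)

def tL18 : T :=
  (both (mv 589 (both (mv 494 (both (mv 524 (both (five 2 492 496) (mv 523 (both (five 1 490 522) (five 2 491 492))))) (both (mv 496 (both (five 2 492 524) (mv 464 (both (five 1 461 465) (mv 560 (both (mv 591 (both (five 6 463 559) (mv 592 (both (five 6 495 623) (mv 593 (both (five 4 464 561) (five 4 496 625))))))) (both (mv 593 (both (five 4 464 561) (mv 592 (both (five 4 496 625) (mv 527 (both (five 7 495 624) (mv 432 (both (five 6 399 400) (five 6 431 559))))))))) (both (mv 593 (both (five 4 464 561) (mv 592 (both (five 4 496 625) (mv 623 (both (five 6 495 591) (mv 624 (both (five 7 495 527) (five 6 527 655))))))))) (both (mv 591 (both (five 6 463 559) (mv 592 (both (five 6 495 623) (mv 624 (both (five 7 495 527) (mv 625 (both (five 4 528 657) (five 0 589 590))))))))) (mv 593 (both (five 4 464 561) (mv 559 (both (five 6 463 591) (mv 432 (both (five 6 431 527) (mv 399 (both (five 7 399 431) (mv 400 (both (five 7 367 367) (mv 401 (both (five 5 368 369) (five 5 400 433)))))))))))))))))))))) (both (mv 527 (both (five 0 492 492)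 (mv 592 (both (mv 624 (both (five 7 495 560) (mv 591 (both (five 4 495 559) (mv 590 (both (five 0 589 625) (mv 620 (both (five 2 588 621) (mv 588 (both (five 2 587 619) (five 0 588 623))))))))))) (both (mv 591 (both (mv 559 (both (five 4 495 624) (five 7 462 462))) (both (mv 590 (both (mv 621 (both (five 2 588 620) (mv 593 (both (five 2 589 622) (mv 626 (both (five 0 590 625) (mv 594 (both (five 0 591 627) (mv 562 (both (five 1 558 561) (five 1 559 563))))))))))) (both (mv 624 (both (five 0 589 625) (mv 588 (both (five 0 588 623) (mv 619 (both (five 2 587 620) (mv 587 (both (five 2 586 618) (mv 555 (both (five 3 554 554) (five 3 555 556))))))))))) (both (mv 625 (both (five 0 589 624) (mv 593 (both (five 0 590 626) (mv 622 (both (five 2 589 621) (mv 594 (both (five 2 590 623) (mv 562 (both (five 1 558 561) (five 1 559 563))))))))))) (mv 620 (both (five 2 588 621) (mv 588 (both (five 2 587 619) (mv 623 (both (five 0 588 624) (mv 587 (both (five 0 587 622) (mv 555 (both (five 3 554 554) (five 3 555 556))))))))))))))) (mv 559 (both (five 7 462 462) (mv 496 (both (five 5 495 623) (five 5 463 464)))))))) (both (mv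 496 (both (mv 591 (both (mv 560 (both (five 6 495 623) (mv 590 (both (five 1 557 561) (mv 621 (both (five 2 588 620) (mv 593 (both (five 2 589 622) (five 4 496 625))))))))) (both (mv 559 (both (five 7 462 462) (mv 590 (both (five 6 494 622) (mv 560 (both (five 1 556 588) (five 1 557 561))))))) (mv 559 (both (five 5 495 623) (five 7 462 462)))))) (both (mv 464 (both (five 1 461 465) (mv 432 (both (five 6 399 400) (five 6 431 559))))) (mv 465 (both (five 1 461 464) (mv 497 (both (five 5 464 560) (five 1 462 466)))))))) (both (mv 496 (both (mv 464 (both (five 1 461 465) (mv 432 (both (five 6 399 400) (five 6 431 559))))) (both (mv 560 (both (five 7 495 624) (mv 593 (both (five 4 496 625) (mv 497 (both (five 5 464 465) (mv 498 (both (five 2 495 499) (mv 530 (both (five 0 495 531) (mv 466 (both (five 1 463 467) (mv 562 (both (five 6 465 561) (mv 595 (both (five 4 466 563) (mv 594 (both (five 4 498 627) (five 3 559 559))))))))))))))))))) (both (mv 560 (both (five 7 495 624) (mv 593 (both (five 4 496 625) (mv 464 (both (five 4 464 561) (mv 432 (both (five 6 431 559) (mv 399 (both (five 7 399 431) (mv 400 (both (five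 7 367 367) (mv 401 (both (five 5 368 369) (five 5 400 433))))))))))))))) (mv 465 (both (five 1 461 464) (mv 497 (both (five 5 464 560) (five 1 462 466))))))))) (both (mv 560 (both (five 7 495 624) (mv 496 (both (mv 591 (both (five 6 495 623) (mv 590 (both (five 1 557 561) (mv 621 (both (five 2 588 620) (mv 593 (both (five 2 589 622) (five 4 496 625))))))))) (mv 465 (both (five 5 464 497) (five 1 461 464))))))) (mv 591 (both (mv 559 (both (five 4 495 624) (five 7 462 462))) (both (mv 560 (both (five 7 495 624) (mv 623 (both (five 6 495 496) (mv 687 (both (five 5 559 655) (mv 590 (both (five 1 557 561) (mv 620 (both (five 2 588 621) (mv 588 (both (five 2 587 619) (mv 587 (both (five 0 587 622) (mv 555 (both (five 3 554 554) (five 3 555 556))))))))))))))))) (mv 559 (both (five 7 462 462) (mv 496 (both (five 5 495 623) (five 5 463 464)))))))))))))))) (mv 492 (both (five 0 492 527) (mv 523 (both (five 2 491 524) (mv 491 (both (five 2 490 522) (mv 459 (both (five 3 458 458) (five 3 459 460))))))))))))) (both (mv 557 (both (mv 620 (both (five 6 492 588) (mv 621 (both (five 6 524 652) (mv 622 (both (five 4 525 654)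 (five 4 493 590))))))) (both (mv 622 (both (five 4 493 590) (mv 621 (both (five 4 525 654) (mv 492 (both (five 7 492 524) (five 7 460 460))))))) (both (mv 620 (both (five 6 492 588) (mv 621 (both (five 6 524 652) (mv 492 (both (five 7 492 524) (five 7 460 460))))))) (mv 588 (both (five 6 492 620) (mv 558 (both (mv 587 (both (five 1 554 586) (mv 559 (both (five 1 555 590) (five 2 556 560))))) (both (mv 587 (both (five 1 554 586) (mv 590 (both (five 4 493 622) (mv 618 (both (five 2 586 619) (mv 555 (both (five 3 554 554) (mv 591 (both (five 3 555 556) (mv 623 (both (five 0 588 624) (mv 687 (both (five 7 558 655) (mv 592 (both (five 3 557 593) (mv 560 (both (five 1 557 561) (five 6 495 496))))))))))))))))))) (both (mv 587 (both (five 1 554 586) (mv 559 (both (five 2 555 556) (five 2 556 560))))) (both (mv 590 (both (five 4 493 622) (mv 559 (both (five 2 556 560) (mv 556 (both (five 1 524 527) (mv 591 (both (five 0 556 592) (five 0 555 555))))))))) (mv 622 (both (five 4 493 590) (mv 587 (both (five 1 554 586) (mv 556 (both (five 2 555 559) (mv 492 (both (five 7 460 460) (mv 524 (both (five 6 491 619) (mv 522 (both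 (five 0 522 523) (mv 491 (both (five 7 459 459) (mv 490 (both (five 2 489 521) (five 0 489 489)))))))))))))))))))))))))))) (both (mv 557 (both (mv 620 (both (five 6 492 588) (mv 621 (both (five 6 524 652) (mv 622 (both (five 4 525 654) (five 4 493 590))))))) (both (mv 622 (both (five 4 493 590) (mv 621 (both (five 4 525 654) (mv 652 (both (five 6 524 620) (mv 653 (both (five 6 556 684) (mv 650 (both (five 1 618 651) (mv 623 (both (five 2 620 624) (mv 524 (both (five 7 524 556) (mv 494 (both (five 2 492 496) (five 5 461 462))))))))))))))))) (both (mv 620 (both (five 6 492 588) (mv 621 (both (five 6 524 652) (mv 654 (both (five 4 525 622) (mv 653 (both (five 4 557 686) (mv 524 (both (five 7 524 556) (mv 494 (both (five 2 492 496) (five 5 461 462))))))))))))) (both (mv 590 (both (five 4 493 622) (mv 494 (both (five 5 461 462) (mv 496 (both (five 2 492 524) (mv 465 (both (five 1 461 464) (mv 497 (both (five 1 462 466) (mv 592 (both (five 5 464 560) (mv 591 (both (five 3 556 556) (mv 624 (both (five 0 589 625) (mv 588 (both (five 0 588 623) (mv 558 (both (five 3 557 593) (mv 587 (both (five 1 554 586) (five 1 555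 559))))))))))))))))))))))) (mv 588 (both (five 6 492 620) (mv 494 (both (five 5 461 462) (mv 496 (both (five 2 492 524) (mv 465 (both (five 1 461 464) (mv 497 (both (five 1 462 466) (mv 560 (both (five 5 464 592) (mv 559 (both (five 2 556 558) (mv 591 (both (five 1 556 590) (mv 623 (both (five 5 527 655) (five 5 495 527)))))))))))))))))))))))) (both (mv 557 (both (mv 620 (both (five 6 492 588) (mv 621 (both (five 6 524 652) (mv 622 (both (five 4 525 654) (five 4 493 590))))))) (mv 492 (both (five 7 460 460) (mv 494 (both (five 0 492 527) (five 5 461 462))))))) (both (mv 557 (both (mv 492 (both (five 7 460 460) (mv 494 (both (five 0 492 527) (five 5 461 462))))) (both (mv 622 (both (five 4 493 590) (mv 621 (both (five 4 525 654) (mv 492 (both (five 7 492 524) (five 7 460 460))))))) (mv 622 (both (five 4 493 590) (mv 621 (both (five 4 525 654) (mv 652 (both (five 6 524 620) (mv 653 (both (five 6 556 684) (mv 650 (both (five 1 618 651) (mv 623 (both (five 2 620 624) (mv 524 (both (five 7 524 556) (mv 494 (both (five 2 492 496) (five 5 461 462)))))))))))))))))))) (both (mv 557 (both (mv 492 (both (five 7 460 460)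 (mv 494 (both (five 0 492 527) (five 5 461 462))))) (both (mv 620 (both (five 6 492 588) (mv 621 (both (five 6 524 652) (mv 492 (both (five 7 492 524) (five 7 460 460))))))) (mv 620 (both (five 6 492 588) (mv 621 (both (five 6 524 652) (mv 654 (both (five 4 525 622) (mv 653 (both (five 4 557 686) (mv 524 (both (five 7 524 556) (mv 494 (both (five 2 492 496) (five 5 461 462)))))))))))))))) (both (mv 557 (both (mv 492 (both (five 7 460 460) (mv 494 (both (five 0 492 527) (five 5 461 462))))) (both (mv 622 (both (five 4 493 590) (mv 621 (both (five 4 525 654) (mv 492 (both (five 7 492 524) (five 7 460 460))))))) (mv 590 (both (five 4 493 622) (mv 494 (both (five 5 461 462) (mv 496 (both (five 2 492 524) (mv 465 (both (five 1 461 464) (mv 497 (both (five 1 462 466) (mv 592 (both (five 5 464 560) (mv 591 (both (five 3 556 556) (mv 624 (both (five 0 589 625) (mv 588 (both (five 0 588 623) (mv 558 (both (five 3 557 593) (mv 587 (both (five 1 554 586) (five 1 555 559)))))))))))))))))))))))))) (both (mv 557 (both (mv 620 (both (five 6 492 588) (mv 621 (both (five 6 524 652) (mv 622 (both (five 4 525 654) (five 4 493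 590))))))) (both (mv 622 (both (five 4 493 590) (mv 621 (both (five 4 525 654) (mv 492 (both (five 7 492 524) (five 7 460 460))))))) (both (mv 620 (both (five 6 492 588) (mv 621 (both (five 6 524 652) (mv 492 (both (five 7 492 524) (five 7 460 460))))))) (mv 590 (both (five 4 493 622) (mv 494 (both (five 5 461 462) (mv 496 (both (five 2 492 524) (mv 465 (both (five 1 461 464) (mv 497 (both (five 1 462 466) (mv 592 (both (five 5 464 560) (mv 591 (both (five 3 556 556) (mv 624 (both (five 0 589 625) (mv 588 (both (five 0 588 623) (mv 558 (both (five 3 557 593) (mv 587 (both (five 1 554 586) (five 1 555 559))))))))))))))))))))))))))) (both (mv 557 (both (mv 492 (both (five 7 460 460) (mv 494 (both (five 0 492 527) (five 5 461 462))))) (both (mv 620 (both (five 6 492 588) (mv 621 (both (five 6 524 652) (mv 492 (both (five 7 492 524) (five 7 460 460))))))) (mv 588 (both (five 6 492 620) (mv 494 (both (five 5 461 462) (mv 496 (both (five 2 492 524) (mv 465 (both (five 1 461 464) (mv 497 (both (five 1 462 466) (mv 560 (both (five 5 464 592) (mv 559 (both (five 2 556 558) (mv 591 (both (five 1 556 590) (mv 623 (both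 (five 5 527 655) (five 5 495 527)))))))))))))))))))))) (mv 494 (both (mv 524 (both (five 2 492 496) (mv 523 (both (five 1 490 522) (five 2 491 492))))) (both (mv 557 (both (five 5 461 462) (mv 620 (both (five 6 492 588) (mv 590 (both (five 4 493 622) (mv 496 (both (five 2 492 524) (mv 465 (both (five 1 461 464) (mv 497 (both (five 1 462 466) (mv 592 (both (five 5 464 560) (mv 591 (both (five 3 556 556) (mv 625 (both (five 0 589 624) (mv 593 (both (five 0 590 626) (five 3 557 558))))))))))))))))))))) (mv 557 (both (five 5 461 462) (mv 492 (both (five 0 492 527) (five 7 460 460)))))))))))))))))) (both (ref 0) (both (ref 1) (both (ref 2) (both (mv 494 (both (mv 492 (both (five 0 492 527) (mv 524 (both (five 2 492 496) (five 2 491 523))))) (both (mv 492 (both (five 0 492 527) (mv 459 (both (five 3 459 460) (mv 491 (both (five 3 458 458) (mv 523 (both (five 2 490 522) (five 2 491 524))))))))) (both (mv 496 (both (five 2 492 524) (mv 461 (both (five 3 460 460) (mv 465 (both (five 1 461 464) (mv 497 (both (five 3 461 462) (five 1 462 466))))))))) (mv 496 (both (mv 460 (both (five 3 460 461) (mv 492 (both (five 3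 459 459) (five 0 492 527))))) (both (mv 464 (both (five 1 461 465) (mv 527 (both (five 0 492 492) (mv 432 (both (five 6 399 400) (five 6 431 559))))))) (mv 461 (both (five 3 460 460) (mv 465 (both (five 1 461 464) (mv 497 (both (five 3 461 462) (five 1 462 466)))))))))))))) (both (mv 461 (both (mv 557 (both (mv 588 (both (five 6 460 556) (mv 589 (both (five 6 492 620) (mv 590 (both (five 4 461 558) (five 4 493 622))))))) (both (mv 462 (both (five 5 429 430) (mv 589 (both (five 5 461 494) (mv 590 (both (five 4 461 558) (five 4 493 622))))))) (mv 430 (both (five 5 429 462) (mv 429 (both (five 5 397 398) (mv 556 (both (five 6 428 524) (five 6 460 588)))))))))) (both (mv 429 (both (mv 396 (both (five 7 396 428) (mv 397 (both (five 7 364 364) (mv 398 (both (five 5 365 366) (five 5 397 430))))))) (both (mv 396 (both (five 7 396 428) (mv 397 (both (five 7 364 364) (mv 524 (both (five 6 396 492) (five 6 428 556))))))) (both (mv 398 (both (five 5 397 430) (mv 397 (both (five 5 365 366) (mv 524 (both (five 6 396 492) (five 6 428 556))))))) (mv 396 (both (five 7 396 428) (mv 398 (both (five 5 397 430) (mv 524 (both (five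 6 428 556) (mv 494 (both (five 2 492 496) (mv 523 (both (five 2 491 492) (five 1 490 522))))))))))))))) (both (mv 557 (both (mv 462 (both (five 5 429 430) (mv 589 (both (five 5 461 494) (mv 590 (both (five 4 461 558) (five 4 493 622))))))) (both (mv 460 (both (five 7 428 428) (mv 588 (both (five 6 460 556) (mv 589 (both (five 7 460 492) (five 6 492 620))))))) (mv 430 (both (five 5 429 462) (mv 460 (both (five 7 428 428) (mv 494 (both (five 3 460 496) (mv 459 (both (five 0 458 458) (five 3 459 492)))))))))))) (both (mv 557 (both (mv 588 (both (five 6 460 556) (mv 589 (both (five 6 492 620) (mv 590 (both (five 4 461 558) (five 4 493 622))))))) (both (mv 460 (both (five 7 428 428) (mv 589 (both (five 7 460 492) (mv 590 (both (five 4 461 558) (five 4 493 622))))))) (mv 428 (both (five 7 428 460) (mv 429 (both (five 7 396 396) (mv 556 (both (five 6 428 524) (five 6 460 588)))))))))) (mv 557 (both (mv 462 (both (five 5 429 430) (mv 589 (both (five 5 461 494) (mv 590 (both (five 4 461 558) (five 4 493 622))))))) (both (mv 460 (both (five 7 428 428) (mv 589 (both (five 7 460 492) (mv 590 (both (five 4 461 558) (five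 4 493 622))))))) (mv 428 (both (five 7 428 460) (mv 429 (both (five 7 396 396) (mv 430 (both (five 5 397 398) (five 5 429 462))))))))))))))) (both (ref 3) (mv 494 (both (mv 496 (both (five 2 492 524) (mv 464 (both (five 1 461 465) (mv 560 (both (mv 591 (both (five 6 463 559) (mv 592 (both (five 6 495 623) (mv 593 (both (five 4 464 561) (five 4 496 625))))))) (both (mv 593 (both (five 4 464 561) (mv 592 (both (five 4 496 625) (mv 623 (both (five 6 495 591) (mv 624 (both (five 7 495 527) (five 6 527 655))))))))) (both (mv 593 (both (five 4 464 561) (mv 592 (both (five 4 496 625) (mv 527 (both (five 7 495 624) (mv 432 (both (five 6 399 400) (five 6 431 559))))))))) (mv 559 (both (five 6 463 591) (mv 432 (both (five 6 431 527) (mv 399 (both (five 7 399 431) (mv 400 (both (five 7 367 367) (mv 401 (both (five 5 368 369) (five 5 400 433))))))))))))))))))) (both (mv 492 (both (five 0 492 527) (mv 460 (both (five 3 459 459) (mv 428 (both (five 4 396 396) (mv 461 (both (five 3 460 496) (five 7 428 557))))))))) (both (mv 492 (both (five 0 492 527) (mv 459 (both (five 3 459 460) (mv 491 (both (five 3 458 458) (mv 523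 (both (five 2 490 522) (five 2 491 524))))))))) (mv 524 (both (five 2 492 496) (mv 523 (both (five 2 491 492) (five 1 490 522))))))))))))))))

theorem L18 : W (S 988530863161101255454148148505632801312661156727406042891648512794071073662266652643294668095351646301915173751338452436331818490997235976069578606837084717056) (S 1244081215699397921734077454189930016010873147348341150859084219394369645069725522004455947845085301559605518862985304741156923432748315635137896974465690407340124147255130883733378180309741232324933276663808) :=
  check_sound (Env.cons L14 (Env.cons L15 (Env.cons L16 (Env.cons L17 Env.nil)))) (x := 493) (t := tL18) (by decide +kernel)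

def tL19 : T :=
  (both (mv 431 (both (mv 399 (both (five 4 399 496) (mv 366 (both (five 7 366 398) (mv 367 (both (five 7 334 334) (mv 368 (both (five 5 335 336) (five 5 367 400))))))))) (both (mv 399 (both (mv 366 (both (five 7 366 398) (mv 367 (both (five 7 334 334) (mv 368 (both (five 5 335 336) (five 5 367 400))))))) (both (mv 366 (both (five 7 366 398) (mv 367 (both (five 7 334 334) (mv 336 (both (five 5 335 368) (mv 335 (both (five 5 303 304) (mv 462 (both (five 6 334 430) (five 6 366 494))))))))))) (both (mv 367 (both (mv 368 (both (five 5 335 336) (five 5 367 400))) (both (mv 462 (both (five 6 366 494) (mv 335 (both (five 6 334 430) (mv 302 (both (five 7 302 334) (mv 303 (both (five 7 270 270) (mv 304 (both (five 5 271 272) (five 5 303 336))))))))))) (mv 400 (both (five 5 367 368) (mv 462 (both (five 6 366 494) (mv 335 (both (five 6 334 430) (mv 432 (both (five 4 303 303) (five 4 335 464)))))))))))) (both (mv 366 (both (five 7 366 398) (mv 367 (both (five 7 334 334) (mv 462 (both (five 6 366 494) (mv 335 (both (five 6 334 430) (mv 304 (both (five 5 303 336) (mv 303 (both (five 5 271 272) (mv 432 (both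 (five 4 303 400) (five 4 335 464))))))))))))))) (mv 398 (both (five 7 366 366) (mv 397 (both (mv 396 (both (five 0 396 432) (mv 363 (both (five 3 363 364) (mv 395 (both (five 3 362 362) (five 0 395 430))))))) (both (mv 400 (both (five 5 367 368) (mv 364 (both (five 3 364 365) (mv 396 (both (five 3 363 363) (mv 428 (both (five 2 395 427) (five 2 396 429))))))))) (both (mv 400 (both (five 5 367 368) (mv 364 (both (five 3 364 365) (mv 428 (both (five 2 396 429) (mv 433 (both (five 0 397 432) (mv 401 (both (five 0 398 434) (mv 370 (both (five 1 366 369) (mv 402 (both (five 1 367 371) (five 2 398 430))))))))))))))) (mv 368 (both (five 5 367 400) (mv 396 (both (five 0 396 432) (mv 395 (both (five 0 395 430) (mv 427 (both (five 2 394 426) (five 2 395 428)))))))))))))))))))) (both (mv 430 (both (mv 432 (both (mv 429 (both (mv 401 (both (five 1 397 400) (mv 433 (both (five 1 398 402) (mv 398 (both (five 3 397 397) (mv 461 (both (five 2 428 460) (five 5 397 493))))))))) (both (mv 397 (both (five 3 396 396) (mv 401 (both (five 1 397 400) (mv 433 (both (five 3 397 398) (five 1 398 402))))))) (mv 460 (both (five 2 428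 461) (mv 428 (both (five 2 427 459) (mv 396 (both (five 3 395 395) (mv 492 (both (five 4 396 493) (mv 523 (both (five 6 395 491) (mv 524 (both (five 6 427 555) (five 4 428 557)))))))))))))))) (both (mv 429 (both (mv 396 (both (five 3 396 397) (mv 400 (both (five 1 397 401) (mv 336 (both (five 6 335 368) (mv 428 (both (five 3 395 395) (mv 460 (both (five 2 427 459) (five 2 428 461))))))))))) (both (mv 396 (both (five 3 396 397) (mv 400 (both (five 1 397 401) (mv 336 (both (five 6 335 368) (mv 428 (both (five 3 395 395) (mv 460 (both (five 2 427 459) (mv 492 (both (five 4 396 493) (mv 523 (both (five 6 395 491) (mv 524 (both (five 6 427 555) (five 4 428 557))))))))))))))))) (both (mv 396 (both (five 3 396 397) (mv 400 (both (five 1 397 401) (mv 336 (both (five 6 335 368) (mv 428 (both (five 3 395 395) (mv 462 (both (five 0 427 427) (mv 398 (both (five 4 366 366) (mv 493 (both (five 5 397 461) (five 6 397 494))))))))))))))) (mv 461 (both (five 2 428 460) (mv 398 (both (five 5 397 493) (mv 366 (both (five 4 334 334) (five 4 366 462))))))))))) (both (mv 433 (both (mv 397 (both (five 3 397 398) (mv 401 (both (five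 1 398 402) (mv 429 (both (five 3 396 396) (five 1 397 400))))))) (mv 434 (both (five 2 430 462) (mv 466 (both (five 0 430 465) (five 0 431 467))))))) (both (mv 462 (both (mv 433 (both (five 2 430 434) (five 2 429 461))) (both (mv 398 (both (five 4 366 366) (mv 433 (both (five 3 397 397) (five 2 430 434))))) (mv 398 (both (five 4 366 366) (mv 461 (both (five 1 428 460) (mv 493 (both (five 6 397 494) (five 5 429 557)))))))))) (mv 433 (both (mv 434 (both (five 2 430 462) (mv 466 (both (five 0 430 465) (five 0 431 467))))) (both (mv 401 (both (five 1 398 402) (mv 400 (both (five 1 397 429) (mv 368 (both (five 6 335 336) (mv 465 (both (five 0 430 466) (five 7 368 497))))))))) (mv 401 (both (five 1 398 402) (mv 429 (both (five 1 397 400) (mv 461 (both (five 2 428 460) (five 2 429 462))))))))))))))) (both (mv 429 (both (mv 432 (both (mv 397 (both (five 3 396 396) (mv 401 (both (five 1 397 400) (mv 433 (both (five 3 397 398) (five 1 398 402))))))) (both (mv 460 (both (five 2 428 461) (mv 428 (both (five 2 427 459) (mv 396 (both (five 3 395 395) (mv 492 (both (five 4 396 493) (mv 523 (both (five 6 395 491) (mv 524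 (both (five 6 427 555) (five 4 428 557))))))))))))) (mv 401 (both (five 1 397 400) (mv 433 (both (five 1 398 402) (mv 398 (both (five 3 397 397) (mv 461 (both (five 2 428 460) (five 5 397 493)))))))))))) (both (mv 432 (both (mv 397 (both (five 3 396 396) (mv 401 (both (five 1 397 400) (mv 433 (both (five 3 397 398) (five 1 398 402))))))) (both (mv 461 (both (five 2 428 460) (mv 464 (both (five 0 429 465) (mv 493 (both (five 5 397 398) (mv 494 (both (five 1 460 492) (mv 496 (both (five 2 492 524) (five 7 431 560))))))))))) (mv 396 (both (five 3 396 397) (mv 400 (both (five 1 397 401) (mv 368 (both (five 6 335 336) (five 6 367 464)))))))))) (both (mv 428 (both (five 0 428 464) (mv 395 (both (five 3 395 396) (mv 427 (both (five 3 394 394) (mv 459 (both (five 2 426 458) (five 2 427 460))))))))) (mv 464 (both (five 0 428 428) (mv 465 (both (five 0 429 432) (five 3 430 466))))))))) (both (mv 462 (both (mv 398 (both (five 4 366 366) (mv 493 (both (five 6 397 494) (mv 461 (both (five 5 429 557) (mv 432 (both (five 2 429 433) (five 1 428 460))))))))) (both (mv 461 (both (mv 432 (both (five 2 429 433) (five 1 428 460)))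 (mv 493 (both (five 5 429 557) (mv 464 (both (five 2 460 492) (mv 496 (both (five 0 461 497) (five 7 431 560))))))))) (both (mv 496 (both (mv 560 (both (five 7 431 464) (five 7 463 592))) (mv 398 (both (five 4 366 366) (mv 494 (both (five 6 397 493) (mv 397 (both (five 7 365 365) (mv 395 (both (five 0 395 396) (mv 433 (both (five 3 397 432) (mv 497 (both (five 3 462 498) (mv 465 (both (five 6 400 401) (five 1 462 466))))))))))))))))) (mv 496 (both (mv 560 (both (five 7 431 464) (five 7 463 592))) (mv 366 (both (five 4 366 398) (mv 461 (both (five 0 460 460) (mv 497 (both (five 3 461 494) (five 3 462 498))))))))))))) (both (mv 493 (both (mv 462 (both (mv 461 (both (five 5 429 557) (mv 464 (both (five 2 460 492) (mv 496 (both (five 0 461 497) (five 7 431 560))))))) (mv 398 (both (five 4 366 366) (five 6 397 494))))) (both (mv 494 (both (mv 524 (both (five 2 492 496) (mv 523 (both (five 2 491 492) (five 1 490 522))))) (both (mv 492 (both (five 1 460 464) (mv 459 (both (five 3 459 460) (mv 491 (both (five 3 458 458) (mv 523 (both (five 2 490 522) (five 2 491 524))))))))) (both (mv 496 (both (five 2 492 524) (mv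 560 (both (five 7 431 464) (five 7 463 592))))) (mv 464 (both (five 1 460 492) (mv 465 (both (five 2 462 466) (five 1 461 496))))))))) (both (mv 462 (both (mv 398 (both (five 4 366 366) (five 6 397 494))) (mv 461 (both (five 5 429 557) (mv 460 (both (five 1 427 459) (five 0 460 496))))))) (both (mv 461 (both (mv 398 (both (five 5 397 429) (mv 366 (both (five 4 334 334) (five 4 366 462))))) (both (mv 429 (both (five 5 397 398) (mv 428 (both (five 0 428 464) (mv 395 (both (five 3 395 396) (mv 427 (both (five 3 394 394) (mv 459 (both (five 2 426 458) (five 2 427 460))))))))))) (mv 462 (both (five 5 429 557) (mv 460 (both (five 1 427 459) (five 0 460 496)))))))) (mv 462 (both (mv 398 (both (five 4 366 366) (five 6 397 494))) (mv 461 (both (five 5 429 557) (mv 459 (both (five 1 427 460) (mv 464 (both (five 2 460 492) (mv 429 (both (five 3 428 428) (five 3 429 465)))))))))))))))) (both (mv 464 (both (mv 432 (both (mv 496 (both (five 7 431 560) (mv 433 (both (five 5 400 401) (mv 434 (both (five 2 431 435) (five 2 430 462))))))) (both (mv 368 (both (five 6 367 400) (mv 429 (both (five 0 428 428) (mv 396 (both (five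 3 396 397) (mv 461 (both (five 2 428 460) (mv 496 (both (five 7 431 560) (mv 462 (both (five 0 461 497) (mv 493 (both (five 2 460 492) (five 5 429 557))))))))))))))) (mv 400 (both (five 6 367 368) (mv 429 (both (five 1 397 401) (five 0 428 428)))))))) (both (mv 462 (both (mv 496 (both (five 7 431 560) (mv 497 (both (five 3 462 498) (five 0 461 461))))) (both (mv 465 (both (five 3 430 466) (mv 433 (both (five 1 430 434) (mv 432 (both (five 2 429 461) (mv 368 (both (five 6 367 400) (mv 401 (both (five 1 398 402) (mv 369 (both (five 7 336 336) (five 6 336 337))))))))))))) (mv 465 (both (five 3 430 466) (mv 433 (both (five 1 430 434) (mv 493 (both (five 2 461 494) (mv 496 (both (five 7 431 560) (mv 401 (both (five 6 368 369) (five 5 400 432)))))))))))))) (both (mv 429 (both (five 0 428 428) (mv 465 (both (five 3 429 462) (five 3 430 466))))) (mv 429 (both (five 0 428 428) (mv 465 (both (five 0 429 432) (five 3 430 466))))))))) (both (mv 462 (both (mv 398 (both (five 4 366 366) (mv 494 (both (five 6 397 493) (mv 397 (both (five 7 365 365) (mv 396 (both (five 0 395 395) (mv 432 (both (five 3 396 429) (five 3 397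 433))))))))))) (both (mv 461 (both (mv 432 (both (five 2 429 433) (five 1 428 460))) (mv 493 (both (five 5 429 557) (mv 464 (both (five 2 460 492) (mv 496 (both (five 0 461 497) (five 7 431 560))))))))) (mv 496 (both (mv 560 (both (five 7 431 464) (five 7 463 592))) (mv 366 (both (five 4 366 398) (mv 461 (both (five 0 460 460) (mv 497 (both (five 3 461 494) (five 3 462 498)))))))))))) (both (mv 464 (both (mv 432 (both (mv 400 (both (five 6 367 368) (mv 429 (both (five 1 397 401) (five 0 428 428))))) (both (mv 496 (both (five 7 431 560) (mv 433 (both (five 5 400 401) (mv 434 (both (five 2 431 435) (five 2 430 462))))))) (mv 368 (both (five 6 367 400) (mv 429 (both (five 0 428 428) (mv 397 (both (five 3 396 396) (mv 398 (both (five 3 397 433) (mv 366 (both (five 4 334 334) (five 4 366 462)))))))))))))) (both (mv 433 (both (mv 465 (both (five 3 430 466) (mv 496 (both (five 7 431 560) (mv 401 (both (five 6 368 369) (five 5 400 432))))))) (both (mv 496 (both (five 7 431 560) (mv 432 (both (five 5 400 401) (mv 434 (both (five 2 431 435) (five 2 430 462))))))) (both (mv 465 (both (five 3 430 466) (mv 434 (both (five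 1 430 462) (mv 435 (both (five 2 431 432) (five 2 432 436))))))) (mv 465 (both (five 3 430 466) (mv 434 (both (five 1 430 462) (mv 435 (both (five 2 432 436) (mv 496 (both (five 7 431 560) (mv 401 (both (five 6 368 369) (five 6 400 497))))))))))))))) (both (mv 429 (both (five 0 428 428) (mv 465 (both (five 3 429 462) (five 3 430 466))))) (mv 429 (both (five 0 428 428) (mv 465 (both (five 0 429 432) (five 3 430 466))))))))) (mv 464 (both (mv 462 (both (mv 496 (both (five 7 431 560) (mv 497 (both (five 3 462 498) (five 0 461 461))))) (mv 398 (both (five 4 366 366) (mv 429 (both (five 0 428 428) (mv 494 (both (five 6 397 493) (mv 397 (both (five 7 365 365) (mv 432 (both (five 3 397 433) (mv 400 (both (five 6 367 368) (five 1 397 401))))))))))))))) (both (mv 433 (both (mv 465 (both (five 3 430 466) (mv 496 (both (five 7 431 560) (mv 401 (both (five 6 368 369) (five 5 400 432))))))) (both (mv 496 (both (five 7 431 560) (mv 432 (both (five 5 400 401) (mv 434 (both (five 2 431 435) (five 2 430 462))))))) (both (mv 465 (both (five 3 430 466) (mv 434 (both (five 1 430 462) (mv 435 (both (five 2 431 432) (five 2 432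 436))))))) (mv 465 (both (five 3 430 466) (mv 434 (both (five 1 430 462) (mv 435 (both (five 2 432 436) (mv 496 (both (five 7 431 560) (mv 401 (both (five 6 368 369) (five 6 400 497))))))))))))))) (both (mv 429 (both (five 0 428 428) (mv 465 (both (five 0 429 432) (five 3 430 466))))) (mv 429 (both (five 0 428 428) (mv 465 (both (five 3 429 462) (five 3 430 466))))))))))))))))) (both (mv 399 (both (five 4 399 496) (mv 367 (both (mv 368 (both (five 5 335 336) (five 5 367 400))) (both (mv 462 (both (five 6 366 494) (mv 335 (both (five 6 334 430) (mv 302 (both (five 7 302 334) (mv 303 (both (five 7 270 270) (mv 304 (both (five 5 271 272) (five 5 303 336))))))))))) (mv 400 (both (five 5 367 368) (mv 462 (both (five 6 366 494) (mv 335 (both (five 6 334 430) (mv 432 (both (five 4 303 303) (five 4 335 464)))))))))))))) (both (mv 399 (both (five 4 399 496) (mv 366 (both (five 7 366 398) (mv 367 (both (five 7 334 334) (mv 462 (both (five 6 366 494) (mv 335 (both (five 6 334 430) (mv 304 (both (five 5 303 336) (mv 303 (both (five 5 271 272) (mv 432 (both (five 4 303 400) (five 4 335 464))))))))))))))))) (both (mv 399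 (both (five 4 399 496) (mv 366 (both (five 7 366 398) (mv 367 (both (five 7 334 334) (mv 336 (both (five 5 335 368) (mv 335 (both (five 5 303 304) (mv 462 (both (five 6 334 430) (five 6 366 494))))))))))))) (mv 399 (both (five 4 399 496) (mv 398 (both (five 7 366 366) (mv 397 (both (mv 396 (both (five 0 396 432) (mv 363 (both (five 3 363 364) (mv 395 (both (five 3 362 362) (five 0 395 430))))))) (both (mv 400 (both (five 5 367 368) (mv 364 (both (five 3 364 365) (mv 396 (both (five 3 363 363) (mv 428 (both (five 2 395 427) (five 2 396 429))))))))) (both (mv 400 (both (five 5 367 368) (mv 364 (both (five 3 364 365) (mv 428 (both (five 2 396 429) (mv 433 (both (five 0 397 432) (mv 401 (both (five 0 398 434) (mv 370 (both (five 1 366 369) (mv 402 (both (five 1 367 371) (five 2 398 430))))))))))))))) (mv 368 (both (five 5 367 400) (mv 396 (both (five 0 396 432) (mv 395 (both (five 0 395 430) (mv 427 (both (five 2 394 426) (five 2 395 428)))))))))))))))))))))))) (both (mv 527 (both (mv 431 (both (five 4 431 560) (mv 398 (both (five 7 398 430) (mv 399 (both (five 7 366 366) (mv 400 (both (five 5 367 368) (five 5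 399 432))))))))) (both (mv 559 (both (mv 590 (both (five 6 462 558) (mv 591 (both (five 6 494 622) (mv 592 (both (five 4 463 560) (five 4 495 624))))))) (both (mv 432 (both (five 5 431 464) (mv 462 (both (five 7 430 430) (mv 590 (both (five 6 462 558) (mv 591 (both (five 7 462 494) (five 6 494 622))))))))) (both (mv 432 (both (five 5 431 464) (mv 462 (both (five 7 430 430) (mv 591 (both (five 7 462 494) (mv 592 (both (five 4 463 560) (five 4 495 624))))))))) (mv 462 (both (five 7 430 430) (mv 464 (both (five 5 431 432) (mv 558 (both (five 6 462 590) (mv 560 (both (five 4 463 592) (mv 557 (both (five 3 524 524) (mv 589 (both (five 2 556 588) (mv 493 (both (five 5 461 494) (mv 492 (both (five 7 460 460) (five 2 460 461))))))))))))))))))))) (both (mv 432 (both (mv 400 (both (five 5 399 431) (mv 464 (both (five 6 367 368) (five 5 431 559))))) (both (mv 559 (both (five 5 431 464) (mv 462 (both (five 7 430 430) (mv 590 (both (five 6 462 558) (mv 591 (both (five 7 462 494) (five 6 494 622))))))))) (both (mv 431 (both (five 5 399 400) (mv 430 (both (five 7 398 398) (mv 462 (both (five 7 430 559) (mv 433 (both (five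 2 430 434) (five 2 429 461))))))))) (mv 431 (both (five 5 399 400) (mv 462 (both (mv 433 (both (five 2 430 434) (mv 461 (both (five 1 428 460) (five 1 429 464))))) (both (mv 398 (both (five 7 398 430) (mv 399 (both (five 7 366 366) (mv 367 (both (five 6 366 494) (mv 335 (both (five 4 335 464) (mv 336 (both (five 5 303 304) (five 5 335 368))))))))))) (mv 430 (both (five 7 398 398) (mv 433 (both (five 2 430 434) (five 2 429 461)))))))))))))) (mv 560 (both (five 4 431 431) (mv 592 (both (five 4 463 559) (five 7 495 624))))))))) (both (mv 493 (both (mv 461 (both (mv 429 (both (mv 396 (both (five 7 396 428) (mv 397 (both (five 7 364 364) (mv 398 (both (five 5 365 366) (five 5 397 430))))))) (both (mv 398 (both (five 5 397 430) (mv 397 (both (five 5 365 366) (mv 364 (both (five 7 364 396) (mv 365 (both (five 7 332 332) (mv 492 (both (five 6 364 460) (five 6 396 524))))))))))) (both (mv 398 (both (five 5 397 430) (mv 397 (both (five 5 365 366) (mv 492 (both (five 6 396 524) (mv 460 (both (five 6 364 365) (mv 557 (both (five 7 428 428) (five 7 460 589))))))))))) (mv 428 (both (five 7 396 396) (mv 557 (both (five 7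 428 460) (mv 590 (both (five 4 461 558) (mv 589 (both (five 4 493 622) (mv 620 (both (five 6 492 588) (mv 621 (both (five 6 524 652) (mv 492 (both (five 7 492 524) (mv 592 (both (five 2 588 591) (mv 560 (both (five 7 463 496) (mv 527 (both (five 4 463 559) (five 7 495 624))))))))))))))))))))))))) (both (mv 462 (both (mv 464 (both (five 2 460 492) (mv 429 (both (five 3 428 428) (mv 430 (both (five 5 397 398) (five 3 429 465))))))) (both (mv 460 (both (five 0 460 496) (mv 428 (both (five 3 427 427) (mv 396 (both (five 4 364 364) (five 7 396 429))))))) (mv 460 (both (five 0 460 496) (mv 492 (both (five 2 460 464) (five 2 459 491)))))))) (both (mv 462 (both (mv 430 (both (five 5 429 557) (mv 366 (both (five 6 365 398) (mv 464 (both (five 2 460 492) (mv 433 (both (five 1 429 432) (mv 465 (both (five 1 430 434) (mv 496 (both (five 0 461 497) (five 5 432 560))))))))))))) (both (mv 430 (both (five 5 429 557) (mv 366 (both (five 6 365 398) (mv 492 (both (five 2 460 464) (mv 491 (both (five 2 459 460) (five 1 458 490))))))))) (both (mv 460 (both (five 0 460 496) (mv 427 (both (five 3 427 428) (mv 459 (both (five 3 426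 426) (mv 491 (both (five 2 458 490) (five 2 459 492))))))))) (mv 430 (both (five 5 429 557) (mv 366 (both (five 6 365 398) (mv 496 (both (five 0 460 460) (mv 464 (both (five 0 461 497) (mv 433 (both (five 1 429 432) (mv 465 (both (five 1 430 434) (five 5 432 560))))))))))))))))) (both (mv 462 (both (mv 430 (both (five 5 429 557) (mv 398 (both (five 4 366 366) (five 5 397 429))))) (mv 464 (both (five 2 460 492) (mv 433 (both (five 1 429 432) (mv 465 (both (five 1 430 434) (mv 496 (both (five 0 461 497) (five 5 432 560))))))))))) (both (mv 462 (both (mv 430 (both (five 5 429 557) (mv 398 (both (five 4 366 366) (five 5 397 429))))) (mv 492 (both (five 2 460 464) (mv 491 (both (five 2 459 460) (five 1 458 490))))))) (both (mv 462 (both (mv 460 (both (five 0 460 496) (mv 428 (both (five 7 428 557) (mv 396 (both (five 4 364 364) (five 7 396 429))))))) (both (mv 464 (both (five 2 460 492) (mv 433 (both (five 1 429 432) (mv 465 (both (five 1 430 434) (mv 496 (both (five 0 461 497) (five 5 432 560))))))))) (mv 492 (both (five 2 460 464) (mv 491 (both (five 2 459 460) (five 1 458 490)))))))) (mv 462 (both (mv 430 (both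 (five 5 429 557) (mv 398 (both (five 4 366 366) (five 5 397 429))))) (mv 496 (both (five 0 460 460) (mv 464 (both (five 0 461 497) (mv 433 (both (five 1 429 432) (mv 465 (both (five 1 430 434) (five 5 432 560)))))))))))))))))) (both (mv 461 (both (mv 462 (both (mv 430 (both (five 5 429 557) (mv 398 (both (five 4 366 366) (five 5 397 429))))) (mv 492 (both (five 2 460 464) (mv 491 (both (five 2 459 460) (five 1 458 490))))))) (both (mv 429 (both (mv 396 (both (five 7 396 428) (mv 397 (both (five 7 364 364) (mv 398 (both (five 5 365 366) (five 5 397 430))))))) (both (mv 398 (both (five 5 397 430) (mv 397 (both (five 5 365 366) (mv 364 (both (five 7 364 396) (mv 365 (both (five 7 332 332) (mv 492 (both (five 6 364 460) (five 6 396 524))))))))))) (both (mv 398 (both (five 5 397 430) (mv 397 (both (five 5 365 366) (mv 492 (both (five 6 396 524) (mv 460 (both (five 6 364 365) (mv 557 (both (five 7 428 428) (five 7 460 589))))))))))) (both (mv 396 (both (five 7 396 428) (mv 397 (both (five 7 364 364) (mv 492 (both (five 6 396 524) (mv 494 (both (five 1 460 464) (five 0 492 527))))))))) (mv 398 (both (five 5 397 430)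 (mv 428 (both (five 7 396 396) (mv 557 (both (five 7 428 460) (mv 590 (both (five 4 461 558) (mv 589 (both (five 4 493 622) (mv 620 (both (five 6 492 588) (mv 621 (both (five 6 524 652) (mv 492 (both (five 7 492 524) (mv 494 (both (five 1 460 464) (five 0 492 527)))))))))))))))))))))))) (both (mv 428 (both (mv 396 (both (five 7 396 429) (mv 460 (both (five 4 364 364) (five 7 428 557))))) (both (mv 557 (both (five 7 428 460) (mv 462 (both (five 5 429 430) (mv 589 (both (five 5 461 494) (mv 590 (both (five 4 461 558) (five 4 493 622))))))))) (mv 429 (both (five 7 396 396) (mv 430 (both (five 5 397 398) (mv 462 (both (five 0 427 427) (five 3 428 464)))))))))) (both (mv 492 (both (mv 494 (both (five 1 460 464) (five 0 492 527))) (both (mv 462 (both (five 2 460 464) (mv 491 (both (five 2 459 460) (five 1 458 490))))) (mv 494 (both (five 0 492 527) (mv 459 (both (five 3 459 460) (mv 491 (both (five 3 458 458) (five 1 459 462)))))))))) (both (mv 557 (both (mv 462 (both (five 5 429 430) (mv 589 (both (five 5 461 494) (mv 590 (both (five 4 461 558) (five 4 493 622))))))) (both (mv 460 (both (five 7 428 428) (mv 589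 (both (five 7 460 492) (mv 590 (both (five 4 461 558) (five 4 493 622))))))) (mv 428 (both (five 7 428 460) (mv 429 (both (five 7 396 396) (mv 430 (both (five 5 397 398) (five 5 429 462)))))))))) (mv 462 (both (mv 430 (both (five 5 429 557) (mv 398 (both (five 4 366 366) (five 5 397 429))))) (mv 464 (both (five 2 460 492) (mv 433 (both (five 1 429 432) (mv 465 (both (five 1 430 434) (five 2 461 494))))))))))))))) (both (mv 496 (both (mv 560 (both (five 7 463 592) (mv 464 (both (mv 433 (both (five 5 432 465) (mv 432 (both (five 5 400 401) (mv 559 (both (five 6 431 527) (five 6 463 591))))))) (both (mv 465 (both (five 5 432 433) (mv 466 (both (five 2 463 467) (mv 434 (both (five 1 431 435) (mv 498 (both (five 0 463 499) (mv 462 (both (five 0 462 497) (mv 429 (both (five 3 429 430) (mv 461 (both (five 3 428 428) (five 0 460 460))))))))))))))) (mv 559 (both (five 6 463 591) (mv 527 (both (five 5 431 432) (mv 462 (both (five 7 430 430) (mv 497 (both (five 3 462 498) (five 0 461 461)))))))))))))) (both (mv 494 (both (five 2 492 524) (mv 461 (both (five 3 460 460) (mv 462 (both (five 3 461 497) (mv 430 (both (five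 5 429 557) (mv 398 (both (five 4 366 366) (five 5 397 429))))))))))) (mv 494 (both (five 2 492 524) (mv 464 (both (five 1 461 465) (mv 560 (both (five 7 463 592) (mv 559 (both (five 6 463 591) (mv 432 (both (five 5 431 527) (mv 400 (both (five 6 367 368) (mv 401 (both (five 5 368 369) (five 5 400 433)))))))))))))))))) (both (mv 494 (both (mv 492 (both (five 0 492 527) (mv 524 (both (five 2 492 496) (five 2 491 523))))) (both (mv 496 (both (five 2 492 524) (mv 461 (both (five 3 460 460) (mv 462 (both (five 3 461 497) (mv 430 (both (five 5 429 557) (mv 398 (both (five 4 366 366) (five 5 397 429))))))))))) (mv 492 (both (five 0 492 527) (mv 459 (both (five 3 459 460) (mv 491 (both (five 3 458 458) (five 1 459 462)))))))))) (both (mv 494 (both (mv 492 (both (five 1 460 464) (five 0 492 527))) (both (mv 496 (both (five 2 492 524) (mv 464 (both (five 1 461 465) (mv 560 (both (five 7 463 592) (mv 559 (both (five 6 463 591) (mv 432 (both (five 5 431 527) (mv 400 (both (five 6 367 368) (mv 401 (both (five 5 368 369) (five 5 400 433))))))))))))))) (both (mv 492 (both (five 0 492 527) (mv 524 (both (five 2 492 496) (five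 2 491 523))))) (mv 464 (both (five 1 460 492) (mv 465 (both (five 2 462 466) (five 1 461 496))))))))) (both (mv 494 (both (mv 464 (both (five 1 460 492) (mv 465 (both (five 2 462 466) (five 1 461 496))))) (both (mv 464 (both (five 1 460 492) (mv 465 (both (five 2 461 462) (five 2 462 466))))) (mv 496 (both (five 2 492 524) (mv 461 (both (five 3 460 460) (mv 462 (both (five 3 461 497) (mv 430 (both (five 5 429 557) (mv 398 (both (five 4 366 366) (five 5 397 429)))))))))))))) (mv 494 (both (mv 496 (both (mv 461 (both (five 3 460 460) (mv 462 (both (five 3 461 497) (mv 430 (both (five 5 429 557) (mv 398 (both (five 4 366 366) (five 5 397 429))))))))) (mv 464 (both (five 1 461 465) (mv 560 (both (five 7 463 592) (mv 559 (both (five 6 463 591) (mv 432 (both (five 5 431 527) (mv 400 (both (five 6 367 368) (mv 401 (both (five 5 368 369) (five 5 400 433))))))))))))))) (both (mv 492 (both (five 0 492 527) (mv 459 (both (five 3 459 460) (mv 491 (both (five 3 458 458) (five 1 459 462))))))) (mv 464 (both (five 1 460 492) (mv 465 (both (five 2 462 466) (five 1 461 496))))))))))))))) (both (mv 431 (both (mv 399 (both (five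 4 399 496) (mv 366 (both (five 7 366 398) (mv 367 (both (five 7 334 334) (mv 368 (both (five 5 335 336) (five 5 367 400))))))))) (both (mv 527 (both (mv 430 (both (five 7 398 398) (mv 559 (both (five 7 430 462) (mv 590 (both (five 6 462 558) (mv 591 (both (five 6 494 622) (mv 496 (both (five 5 463 464) (five 5 495 623))))))))))) (both (mv 432 (both (five 5 399 400) (mv 559 (both (five 5 431 464) (mv 590 (both (five 6 462 558) (mv 591 (both (five 6 494 622) (mv 462 (both (five 7 462 494) (mv 433 (both (five 2 430 434) (mv 460 (both (five 1 428 461) (mv 623 (both (five 5 495 496) (mv 624 (both (five 4 527 656) (five 4 495 592))))))))))))))))))) (both (mv 430 (both (five 7 398 398) (mv 429 (both (mv 464 (both (five 0 428 428) (mv 465 (both (five 0 429 432) (five 3 430 466))))) (both (mv 428 (both (five 0 428 464) (mv 395 (both (five 3 395 396) (mv 427 (both (five 3 394 394) (mv 459 (both (five 2 426 458) (five 2 427 460))))))))) (both (mv 432 (both (five 5 399 400) (mv 396 (both (five 3 396 397) (mv 428 (both (five 3 395 395) (mv 460 (both (five 2 427 459) (five 2 428 461))))))))) (mv 432 (both (five 5 399 400)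 (mv 396 (both (five 3 396 397) (mv 460 (both (five 2 428 461) (mv 465 (both (five 0 429 464) (mv 433 (both (five 0 430 466) (mv 402 (both (five 1 398 401) (mv 434 (both (five 1 399 403) (five 2 430 462))))))))))))))))))))) (both (mv 400 (both (five 5 399 432) (mv 430 (both (five 7 398 398) (mv 559 (both (five 7 430 462) (mv 590 (both (five 6 462 558) (mv 591 (both (five 6 494 622) (mv 623 (both (five 5 495 496) (mv 624 (both (five 4 527 656) (five 4 495 592))))))))))))))) (mv 398 (both (five 7 398 430) (mv 432 (both (five 5 399 400) (mv 559 (both (five 5 431 464) (mv 590 (both (five 6 462 558) (mv 591 (both (five 6 494 622) (mv 623 (both (five 5 495 496) (mv 624 (both (five 4 527 656) (five 4 495 592)))))))))))))))))))) (both (mv 399 (both (mv 366 (both (five 7 366 398) (mv 367 (both (five 7 334 334) (mv 368 (both (five 5 335 336) (five 5 367 400))))))) (both (mv 366 (both (five 7 366 398) (mv 367 (both (five 7 334 334) (mv 336 (both (five 5 335 368) (mv 335 (both (five 5 303 304) (mv 462 (both (five 6 334 430) (five 6 366 494))))))))))) (both (mv 367 (both (mv 368 (both (five 5 335 336) (five 5 367 400)))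 (both (mv 462 (both (five 6 366 494) (mv 335 (both (five 6 334 430) (mv 302 (both (five 7 302 334) (mv 303 (both (five 7 270 270) (mv 304 (both (five 5 271 272) (five 5 303 336))))))))))) (mv 400 (both (five 5 367 368) (mv 462 (both (five 6 366 494) (mv 335 (both (five 6 334 430) (mv 432 (both (five 4 303 303) (five 4 335 464)))))))))))) (both (mv 366 (both (five 7 366 398) (mv 367 (both (five 7 334 334) (mv 462 (both (five 6 366 494) (mv 335 (both (five 6 334 430) (mv 304 (both (five 5 303 336) (mv 303 (both (five 5 271 272) (mv 432 (both (five 4 303 400) (five 4 335 464))))))))))))))) (mv 398 (both (five 7 366 366) (mv 400 (both (five 5 367 368) (mv 527 (both (five 7 398 430) (five 5 399 432)))))))))))) (both (mv 399 (both (five 4 399 496) (mv 368 (both (five 5 367 400) (mv 367 (both (five 5 335 336) (mv 334 (both (five 7 334 366) (mv 335 (both (five 7 302 302) (mv 462 (both (five 6 334 430) (five 6 366 494))))))))))))) (mv 399 (both (five 4 399 496) (mv 366 (both (five 7 366 398) (mv 367 (both (five 7 334 334) (mv 336 (both (five 5 335 368) (mv 335 (both (five 5 303 304) (mv 462 (both (five 6 334 430) (five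 6 366 494)))))))))))))))))) (both (mv 431 (both (mv 399 (both (five 4 399 496) (mv 366 (both (five 7 366 398) (mv 367 (both (five 7 334 334) (mv 368 (both (five 5 335 336) (five 5 367 400))))))))) (both (mv 527 (both (five 4 431 560) (mv 430 (both (five 7 398 398) (mv 559 (both (five 7 430 462) (mv 590 (both (five 6 462 558) (mv 591 (both (five 6 494 622) (mv 623 (both (five 5 495 496) (mv 624 (both (five 4 527 656) (five 4 495 592))))))))))))))) (both (mv 527 (both (five 4 431 560) (mv 398 (both (five 7 398 430) (mv 399 (both (five 7 366 366) (mv 400 (both (five 5 367 368) (five 5 399 432))))))))) (mv 399 (both (five 4 399 496) (mv 368 (both (five 5 367 400) (mv 367 (both (five 5 335 336) (mv 334 (both (five 7 334 366) (mv 335 (both (five 7 302 302) (mv 462 (both (five 6 334 430) (five 6 366 494))))))))))))))))) (both (mv 431 (both (mv 527 (both (five 4 431 560) (mv 430 (both (five 7 398 398) (mv 559 (both (five 7 430 462) (mv 590 (both (five 6 462 558) (mv 591 (both (five 6 494 622) (mv 496 (both (five 5 463 464) (five 5 495 623))))))))))))) (both (mv 399 (both (five 4 399 496) (mv 366 (both (five 7 366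 398) (mv 367 (both (five 7 334 334) (mv 368 (both (five 5 335 336) (five 5 367 400))))))))) (both (mv 527 (both (five 4 431 560) (mv 398 (both (five 7 398 430) (mv 399 (both (five 7 366 366) (mv 400 (both (five 5 367 368) (five 5 399 432))))))))) (mv 399 (both (five 4 399 496) (mv 368 (both (five 5 367 400) (mv 367 (both (five 5 335 336) (mv 334 (both (five 7 334 366) (mv 335 (both (five 7 302 302) (mv 462 (both (five 6 334 430) (five 6 366 494))))))))))))))))) (mv 560 (both (mv 431 (both (five 4 431 527) (mv 496 (both (five 4 399 399) (five 7 431 464))))) (both (mv 527 (both (five 4 431 431) (mv 592 (both (five 4 463 559) (five 7 495 624))))) (both (mv 496 (both (five 7 463 592) (mv 431 (both (five 4 399 399) (five 7 431 464))))) (mv 592 (both (five 7 463 496) (mv 527 (both (five 4 463 559) (five 7 495 624)))))))))))))))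

theorem L19 : W (S 988530863161101255454148148505632801312661156727406042891648512794071073662266652643294668095351646301915173751338452436331818490997235976069578606837084717056) (S 317691865221152253047630724559184026955095685796695829580429123606020153341317445872933358136648167777933523115739958882898258681143452062456652137920322969622288697624649883092339956030569510338560) :=
  check_sound Env.nil (x := 463) (t := tL19) (by decide +kernel)

def tL20 : T :=
  (both (mv 589 (both (mv 620 (both (five 6 492 588) (mv 621 (both (five 6 524 652) (mv 622 (both (five 4 493 590) (five 4 525 654))))))) (both (mv 592 (both (mv 620 (both (five 6 492 588) (mv 621 (both (five 6 524 652) (mv 622 (both (five 4 525 654) (mv 623 (both (five 1 588 591) (mv 624 (both (five 1 589 593) (mv 656 (both (five 0 620 655) (five 0 621 657))))))))))))) (both (mv 492 (both (five 7 460 460) (mv 527 (both (five 0 492 494) (mv 560 (both (five 7 495 624) (mv 463 (both (five 7 463 496) (five 4 431 431))))))))) (mv 492 (both (five 7 460 460) (mv 494 (both (five 0 492 527) (mv 464 (both (five 1 460 463) (mv 496 (both (five 1 461 465) (mv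 620 (both (five 6 492 588) (mv 621 (both (five 6 524 652) (mv 622 (both (five 4 525 654) (mv 591 (both (five 1 588 623) (mv 560 (both (five 6 463 559) (mv 593 (both (five 4 464 561) (five 4 496 625)))))))))))))))))))))))) (both (mv 560 (both (mv 588 (both (five 6 492 620) (mv 559 (both (five 2 556 558) (mv 591 (both (five 1 556 590) (mv 623 (both (five 5 527 655) (mv 496 (both (five 6 495 592) (five 6 463 464))))))))))) (both (mv 460 (both (five 7 460 492) (mv 588 (both (five 6 492 620) (mv 559 (both (five 2 556 558) (mv 591 (both (five 1 556 590) (mv 496 (both (five 6 463 464) (mv 623 (both (five 5 527 655) (five 5 495 527))))))))))))) (both (mv 492 (both (five 7 460 460) (mv 527 (both (five 0 492 494) (mv 592 (both (five 7 495 624) (mv 463 (both (five 4 463 559) (five 4 431 431))))))))) (mv 492 (both (five 7 460 460) (mv 494 (both (five 0 492 527) (mv 464 (both (five 1 460 463) (mv 496 (both (five 1 461 465) (mv 588 (both (five 6 492 620) (mv 593 (both (five 4 464 561) (mv 592 (both (five 4 496 625) (mv 591 (both (five 6 495 623) (mv 590 (both (five 3 556 556) (five 3 557 558))))))))))))))))))))))) (mv 592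 (both (mv 492 (both (five 7 460 460) (mv 527 (both (five 0 492 494) (mv 560 (both (five 7 495 624) (mv 463 (both (five 7 463 496) (five 4 431 431))))))))) (both (mv 590 (both (five 4 493 622) (mv 591 (both (five 3 556 556) (mv 625 (both (five 0 589 624) (mv 593 (both (five 0 590 626) (five 3 557 558))))))))) (mv 460 (both (five 7 460 492) (mv 590 (both (five 4 493 622) (mv 591 (both (five 3 556 556) (mv 558 (both (five 3 557 593) (mv 560 (both (five 1 557 561) (mv 496 (both (five 7 463 463) (five 6 495 623)))))))))))))))))))) (both (mv 461 (both (mv 556 (both (five 6 460 588) (mv 558 (both (five 4 461 590) (mv 559 (both (five 1 524 527) (mv 592 (both (five 0 556 591) (mv 560 (both (five 0 557 593) (mv 496 (both (five 7 463 463) (mv 465 (both (five 5 464 497) (mv 464 (both (five 5 432 433) (five 1 461 494))))))))))))))))) (both (mv 463 (both (mv 560 (both (mv 431 (both (five 4 431 527) (mv 496 (both (five 4 399 399) (five 7 431 464))))) (both (mv 527 (both (five 4 431 431) (mv 592 (both (five 4 463 559) (five 7 495 624))))) (both (mv 496 (both (five 7 463 592) (mv 431 (both (five 4 399 399) (five 7 431 464)))))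 (mv 592 (both (five 7 463 496) (mv 527 (both (five 4 463 559) (five 7 495 624))))))))) (both (mv 428 (both (five 7 428 460) (mv 396 (both (five 7 396 429) (mv 556 (both (five 6 460 588) (mv 558 (both (five 4 461 590) (mv 559 (both (five 1 524 527) (mv 592 (both (five 0 556 591) (mv 560 (both (five 7 463 496) (five 0 557 593))))))))))))))) (both (mv 428 (both (five 7 428 460) (mv 429 (both (five 7 396 396) (mv 430 (both (five 5 397 398) (mv 431 (both (five 0 428 464) (mv 399 (both (five 1 396 400) (five 4 399 496))))))))))) (mv 428 (both (five 7 428 460) (mv 396 (both (five 7 396 429) (mv 556 (both (five 6 460 588) (mv 558 (both (five 4 461 590) (mv 527 (both (five 1 524 559) (mv 431 (both (five 4 431 560) (mv 398 (both (five 7 398 430) (mv 399 (both (five 7 366 366) (mv 400 (both (five 5 367 368) (five 5 399 432))))))))))))))))))))))) (both (mv 429 (both (mv 396 (both (five 7 396 428) (mv 397 (both (five 7 364 364) (mv 398 (both (five 5 365 366) (five 5 397 430))))))) (both (mv 398 (both (five 5 397 430) (mv 397 (both (five 5 365 366) (mv 364 (both (five 7 364 396) (mv 365 (both (five 7 332 332) (mv 362 (both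 (five 0 362 363) (mv 399 (both (five 3 364 400) (mv 492 (both (five 6 364 460) (mv 527 (both (five 0 492 494) (mv 556 (both (five 6 460 588) (mv 558 (both (five 1 524 559) (five 4 461 590))))))))))))))))))))) (both (mv 398 (both (five 5 397 430) (mv 397 (both (five 5 365 366) (mv 460 (both (five 7 428 428) (mv 492 (both (five 6 364 365) (mv 527 (both (five 0 492 494) (mv 556 (both (five 6 460 588) (mv 558 (both (five 1 524 559) (five 4 461 590))))))))))))))) (mv 428 (both (five 7 396 396) (five 7 428 460))))))) (mv 460 (both (five 7 428 428) (mv 494 (both (five 3 460 496) (mv 459 (both (five 0 458 458) (five 3 459 492))))))))))) (both (mv 590 (both (mv 558 (both (five 4 461 461) (mv 622 (both (five 4 493 589) (five 7 525 654))))) (both (mv 592 (both (mv 558 (both (five 4 461 461) (mv 591 (both (five 3 557 593) (mv 556 (both (five 0 555 555) (five 0 556 559))))))) (both (mv 560 (both (mv 496 (both (five 7 463 463) (mv 465 (both (five 5 464 497) (mv 464 (both (five 5 432 433) (five 1 461 494))))))) (both (mv 527 (both (five 7 495 624) (mv 463 (both (five 4 463 559) (five 4 431 431))))) (mv 624 (both (five 7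 495 527) (mv 623 (both (five 6 527 655) (mv 496 (both (five 6 495 591) (mv 465 (both (five 5 464 497) (mv 464 (both (five 5 432 433) (five 1 461 494)))))))))))))) (both (mv 560 (both (mv 527 (both (five 7 495 624) (mv 463 (both (five 4 463 559) (five 4 431 431))))) (both (mv 496 (both (five 7 463 463) (mv 465 (both (five 5 464 497) (mv 464 (both (five 5 432 433) (five 1 461 494))))))) (mv 461 (both (five 4 461 558) (mv 556 (both (five 6 460 588) (mv 624 (both (five 7 495 527) (mv 623 (both (five 6 527 655) (mv 625 (both (five 4 528 657) (mv 496 (both (five 4 496 593) (mv 465 (both (five 5 464 497) (mv 464 (both (five 5 432 433) (five 1 461 494)))))))))))))))))))) (mv 560 (both (mv 496 (both (five 7 463 463) (mv 465 (both (five 5 464 497) (mv 464 (both (five 5 432 433) (five 1 461 494))))))) (mv 558 (both (five 4 461 461) (mv 591 (both (five 3 557 593) (mv 555 (both (five 0 555 556) (mv 622 (both (five 7 525 654) (mv 624 (both (five 7 495 527) (mv 623 (both (five 6 527 655) (mv 625 (both (five 3 590 626) (five 4 528 657))))))))))))))))))))) (both (mv 589 (both (five 4 493 622) (mv 588 (both (five 6 492 620)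 (mv 556 (both (five 6 460 461) (mv 591 (both (five 3 555 555) (five 3 556 592))))))))) (both (mv 558 (both (five 4 461 461) (mv 556 (both (mv 555 (both (five 0 555 591) (mv 522 (both (five 3 522 523) (mv 554 (both (five 3 521 521) (mv 586 (both (five 2 553 585) (five 2 554 587))))))))) (both (mv 559 (both (five 1 524 527) (mv 587 (both (five 2 555 588) (mv 555 (both (five 2 554 586) (mv 522 (both (five 3 522 523) (mv 554 (both (five 3 521 521) (five 0 554 589))))))))))) (mv 559 (both (five 1 524 527) (mv 592 (both (five 0 556 591) (mv 560 (both (five 0 557 593) (mv 496 (both (five 7 463 463) (mv 465 (both (five 5 464 497) (mv 464 (both (five 5 432 433) (five 1 461 494)))))))))))))))))) (mv 589 (both (five 4 493 622) (mv 591 (both (mv 592 (both (five 3 556 556) (mv 560 (both (five 1 557 561) (mv 625 (both (five 0 589 624) (mv 593 (both (five 4 496 496) (five 0 590 626))))))))) (both (mv 588 (both (five 6 492 620) (mv 555 (both (five 3 555 556) (mv 559 (both (five 1 556 560) (mv 587 (both (five 3 554 554) (five 1 555 558))))))))) (both (mv 588 (both (five 6 492 620) (mv 559 (both (five 1 556 560) (mv 558 (both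 (five 1 555 587) (mv 463 (both (five 6 462 527) (mv 592 (both (five 3 557 593) (mv 624 (both (five 0 588 623) (five 0 589 625))))))))))))) (mv 556 (both (five 3 556 592) (mv 555 (both (five 0 554 554) (five 0 555 558)))))))))))))))) (both (mv 560 (both (mv 527 (both (mv 592 (both (five 7 495 624) (mv 463 (both (five 7 463 496) (five 4 431 431))))) (mv 492 (both (five 0 492 494) (mv 460 (both (five 7 460 589) (mv 428 (both (five 4 396 396) (five 7 428 461))))))))) (both (mv 460 (both (mv 428 (both (five 7 428 461) (mv 492 (both (five 4 396 396) (five 7 460 589))))) (both (mv 461 (both (five 7 428 428) (mv 496 (both (five 3 460 494) (mv 463 (both (five 7 463 592) (mv 431 (both (five 4 399 399) (five 7 431 464))))))))) (mv 492 (both (five 7 460 589) (mv 494 (both (five 3 459 459) (mv 464 (both (five 1 460 463) (mv 496 (both (five 1 461 465) (mv 591 (both (five 6 463 559) (mv 592 (both (five 6 495 623) (mv 593 (both (five 4 464 561) (five 4 496 625)))))))))))))))))) (both (mv 460 (both (mv 428 (both (five 7 428 461) (mv 492 (both (five 4 396 396) (five 7 460 589))))) (both (mv 461 (both (five 7 428 428) (mv 496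 (both (five 3 460 494) (mv 588 (both (five 6 460 556) (mv 589 (both (five 6 492 620) (mv 559 (both (five 2 556 558) (mv 464 (both (five 6 463 591) (mv 431 (both (five 7 431 463) (mv 432 (both (five 7 399 399) (mv 433 (both (five 5 432 465) (five 5 400 401))))))))))))))))))) (both (mv 492 (both (five 7 460 589) (mv 494 (both (five 3 459 459) (five 0 492 527))))) (mv 428 (both (five 7 428 461) (mv 492 (both (five 4 396 396) (mv 494 (both (five 3 459 459) (five 0 492 527))))))))))) (both (mv 527 (both (mv 592 (both (five 7 495 624) (mv 463 (both (five 4 463 559) (five 4 431 431))))) (mv 492 (both (five 0 492 494) (mv 460 (both (five 7 460 589) (mv 428 (both (five 4 396 396) (five 7 428 461))))))))) (both (mv 460 (both (mv 428 (both (five 7 428 461) (mv 492 (both (five 4 396 396) (five 7 460 589))))) (both (mv 492 (both (five 7 460 589) (mv 494 (both (five 3 459 459) (five 0 492 527))))) (mv 461 (both (five 7 428 428) (mv 496 (both (five 3 460 494) (mv 592 (both (mv 623 (both (five 6 495 591) (mv 624 (both (five 6 527 655) (mv 625 (both (five 4 496 593) (five 4 528 657))))))) (both (mv 465 (both (five 5 464 497)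 (mv 464 (both (five 5 432 433) (mv 593 (both (five 4 464 561) (five 4 496 625))))))) (mv 465 (both (five 5 464 497) (mv 464 (both (five 5 432 433) (mv 591 (both (five 6 463 559) (five 6 495 623))))))))))))))))) (mv 592 (both (mv 527 (both (five 7 495 624) (mv 463 (both (five 4 463 559) (five 4 431 431))))) (both (mv 496 (both (five 7 463 463) (mv 623 (both (five 6 495 591) (mv 624 (both (five 6 527 655) (mv 625 (both (five 4 496 593) (five 4 528 657))))))))) (both (mv 463 (both (five 7 463 496) (mv 527 (both (five 4 431 431) (five 4 463 559))))) (mv 624 (both (five 7 495 527) (mv 623 (both (five 6 527 655) (mv 496 (both (five 6 495 591) (mv 593 (both (five 4 496 625) (mv 464 (both (five 4 464 561) (mv 465 (both (five 5 464 497) (five 5 432 433))))))))))))))))))))))) (both (mv 590 (both (mv 558 (both (five 4 461 461) (mv 622 (both (five 4 493 589) (five 7 525 654))))) (both (mv 461 (both (five 4 461 558) (mv 460 (both (five 7 428 428) (mv 494 (both (five 3 460 496) (mv 492 (both (five 3 459 459) (five 0 492 527))))))))) (mv 589 (both (five 4 493 622) (mv 592 (both (mv 492 (both (five 7 460 460) (mv 527 (both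 (five 0 492 494) (mv 560 (both (five 7 495 624) (mv 463 (both (five 7 463 496) (five 4 431 431))))))))) (both (mv 492 (both (five 7 460 460) (mv 527 (both (five 0 492 494) (mv 591 (both (five 3 556 556) (mv 624 (both (five 4 495 559) (five 0 589 625))))))))) (mv 591 (both (five 3 556 556) (mv 560 (both (five 1 557 561) (mv 496 (both (five 7 463 463) (five 6 495 623))))))))))))))) (both (mv 589 (both (mv 620 (both (five 6 492 588) (mv 621 (both (five 6 524 652) (mv 622 (both (five 4 493 590) (five 4 525 654))))))) (both (mv 460 (both (five 7 460 492) (mv 461 (both (five 7 428 428) (mv 588 (both (five 6 460 556) (five 6 492 620))))))) (mv 460 (both (five 7 460 492) (mv 461 (both (five 7 428 428) (mv 590 (both (five 4 461 558) (five 4 493 622)))))))))) (both (mv 460 (both (mv 428 (both (five 7 428 461) (mv 492 (both (five 4 396 396) (five 7 460 589))))) (both (mv 461 (both (five 7 428 428) (mv 496 (both (five 3 460 494) (mv 590 (both (five 4 461 558) (mv 589 (both (five 4 493 622) (mv 620 (both (five 6 492 588) (mv 621 (both (five 6 524 652) (mv 592 (both (five 2 588 591) (mv 560 (both (five 7 463 463) (mv 624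 (both (five 7 495 527) (mv 625 (both (five 4 496 593) (five 4 528 657))))))))))))))))))))) (both (mv 492 (both (five 7 460 589) (mv 494 (both (five 3 459 459) (five 0 492 527))))) (mv 428 (both (five 7 428 461) (mv 492 (both (five 4 396 396) (mv 494 (both (five 3 459 459) (five 0 492 527))))))))))) (mv 589 (both (mv 620 (both (five 6 492 588) (mv 621 (both (five 6 524 652) (mv 622 (both (five 4 493 590) (five 4 525 654))))))) (both (mv 592 (both (mv 492 (both (five 7 460 460) (mv 527 (both (five 0 492 494) (mv 560 (both (five 7 495 624) (mv 463 (both (five 7 463 496) (five 4 431 431))))))))) (both (mv 622 (both (five 4 493 590) (mv 621 (both (five 4 525 654) (mv 620 (both (five 6 524 652) (mv 623 (both (five 1 588 591) (mv 624 (both (five 1 589 593) (mv 656 (both (five 0 620 655) (five 0 621 657))))))))))))) (mv 590 (both (five 4 493 622) (mv 591 (both (five 3 556 556) (mv 560 (both (five 1 557 561) (mv 496 (both (five 7 463 463) (five 6 495 623)))))))))))) (both (mv 460 (both (five 7 460 492) (mv 461 (both (five 7 428 428) (mv 496 (both (five 3 460 494) (mv 556 (both (five 6 460 588) (mv 590 (both (five 4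 493 622) (mv 554 (both (five 0 554 555) (mv 592 (both (five 3 556 591) (mv 560 (both (five 7 463 463) (mv 624 (both (five 7 495 527) (mv 625 (both (five 4 496 593) (five 4 528 657))))))))))))))))))))) (mv 460 (both (five 7 460 492) (mv 461 (both (five 7 428 428) (mv 588 (both (five 6 460 556) (five 6 492 620))))))))))))))))))

theorem L20 : W (S 988530863186674619578336756865110845819126775104098558876359956461909287475517697927706188055377193898211299979079754656078381545756745792834308240066213838848) (S 1139953163509198678132197541530168692950609147322064341304244321808800976837078373176276609578602212953883637349887818749408460142742668078423570969569537078847035204759695298733325860986027872616448) :=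
  check_sound Env.nil (x := 557) (t := tL20) (by decide +kernel)

def tL21 : T :=
  (both (mv 589 (both (mv 620 (both (five 6 492 588) (mv 621 (both (five 6 524 652) (mv 622 (both (five 4 493 590) (five 4 525 654))))))) (both (mv 492 (both (five 7 460 460) (mv 620 (both (five 6 492 588) (mv 621 (both (five 7 492 524) (five 6 524 652))))))) (mv 460 (both (five 7 460 492) (mv 461 (both (five 7 428 428) (mv 590 (both (five 4 461 558) (five 4 493 622)))))))))) (both (mv 461 (both (mv 429 (both (mv 428 (both (five 7 396 396) (five 7 428 460))) (both (mv 398 (both (five 5 397 430) (mv 397 (both (five 5 365 366) (mv 364 (both (five 7 364 396) (mv 365 (both (five 7 332 332) (mv 492 (both (five 6 364 460) (five 6 396 524))))))))))) (both (mv 396 (both (five 7 396 428) (mv 397 (both (five 7 364 364) (mv 398 (both (five 5 365 366) (five 5 397 430))))))) (mv 398 (both (five 5 397 430) (mv 397 (both (five 5 365 366) (mv 460 (both (five 7 428 428) (mv 492 (both (five 6 364 365) (five 6 396 524))))))))))))) (both (mv 556 (both (five 6 460 588) (mv 558 (both (five 4 461 590) (mv 559 (both (five 1 524 527) (mv 524 (both (five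 3 523 523) (five 3 524 560))))))))) (mv 429 (both (mv 396 (both (five 7 396 428) (mv 397 (both (five 7 364 364) (mv 398 (both (five 5 365 366) (five 5 397 430))))))) (both (mv 398 (both (five 5 397 430) (mv 397 (both (five 5 365 366) (mv 364 (both (five 7 364 396) (mv 365 (both (five 7 332 332) (mv 362 (both (five 0 362 363) (mv 399 (both (five 3 364 400) (mv 492 (both (five 6 364 460) (mv 527 (both (five 0 492 494) (mv 556 (both (five 6 460 588) (mv 558 (both (five 1 524 559) (five 4 461 590))))))))))))))))))))) (both (mv 398 (both (five 5 397 430) (mv 397 (both (five 5 365 366) (mv 460 (both (five 7 428 428) (mv 492 (both (five 6 364 365) (mv 527 (both (five 0 492 494) (mv 556 (both (five 6 460 588) (mv 558 (both (five 1 524 559) (five 4 461 590))))))))))))))) (mv 428 (both (five 7 396 396) (five 7 428 460)))))))))) (both (mv 589 (both (mv 620 (both (five 6 492 588) (mv 621 (both (five 6 524 652) (mv 622 (both (five 4 493 590) (five 4 525 654))))))) (both (mv 492 (both (five 7 460 460) (mv 621 (both (five 7 492 524) (mv 622 (both (five 4 493 590) (five 4 525 654))))))) (both (mv 492 (both (five 7 460 460)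 (mv 620 (both (five 6 492 588) (mv 621 (both (five 7 492 524) (five 6 524 652))))))) (mv 588 (both (five 6 492 620) (mv 558 (both (mv 559 (both (five 2 556 560) (mv 556 (both (five 2 555 587) (five 1 524 527))))) (both (mv 460 (both (five 7 460 492) (mv 587 (both (five 1 554 586) (mv 590 (both (five 4 493 622) (mv 555 (both (five 3 554 554) (mv 556 (both (five 0 555 591) (mv 522 (both (five 3 522 523) (mv 619 (both (five 2 586 618) (mv 651 (both (five 5 523 524) (five 5 555 683))))))))))))))))) (both (mv 590 (both (five 4 493 622) (mv 559 (both (five 2 556 560) (mv 556 (both (five 1 524 527) (mv 591 (both (five 0 556 592) (five 0 555 555))))))))) (mv 559 (both (five 2 556 560) (mv 587 (both (five 1 554 586) (five 1 555 590))))))))))))))) (both (mv 589 (both (mv 620 (both (five 6 492 588) (mv 621 (both (five 6 524 652) (mv 622 (both (five 4 493 590) (five 4 525 654))))))) (both (mv 621 (both (mv 620 (both (five 6 492 588) (five 6 524 652))) (both (mv 654 (both (five 4 525 622) (mv 653 (both (five 4 557 686) (mv 556 (both (five 7 524 524) (mv 588 (both (five 6 460 461) (five 7 556 685))))))))) (mv 652 (both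 (five 6 524 620) (mv 653 (both (five 6 556 684) (mv 654 (both (five 4 525 622) (five 4 557 686)))))))))) (both (mv 590 (both (five 4 493 622) (mv 591 (both (mv 556 (both (five 3 556 592) (mv 555 (both (five 0 554 554) (five 0 555 558))))) (both (mv 558 (both (five 4 461 461) (mv 556 (both (five 0 555 555) (mv 559 (both (five 1 524 527) (mv 524 (both (five 3 523 523) (five 3 524 560))))))))) (both (mv 592 (both (five 3 556 556) (mv 560 (both (five 1 557 561) (mv 624 (both (five 7 495 527) (five 0 589 625))))))) (mv 558 (both (five 4 461 461) (mv 592 (both (five 3 557 593) (mv 560 (both (five 1 557 561) (mv 624 (both (five 7 495 527) (five 0 589 625))))))))))))))) (mv 588 (both (five 6 492 620) (mv 558 (both (mv 559 (both (five 2 556 560) (mv 556 (both (five 2 555 587) (five 1 524 527))))) (both (mv 559 (both (five 2 556 560) (mv 587 (both (five 1 554 586) (five 1 555 590))))) (mv 461 (both (five 6 460 556) (five 4 461 590)))))))))))) (both (mv 492 (both (mv 460 (both (five 7 460 589) (mv 428 (both (five 4 396 396) (five 7 428 461))))) (both (mv 494 (both (five 0 492 527) (mv 463 (both (five 1 460 464) (mv 524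 (both (five 2 491 523) (mv 589 (both (five 7 492 621) (mv 590 (both (five 4 493 622) (mv 461 (both (five 4 461 558) (mv 429 (both (five 6 396 397) (five 6 428 556))))))))))))))) (mv 494 (both (five 0 492 527) (mv 459 (both (five 3 459 460) (mv 491 (both (five 3 458 458) (mv 523 (both (five 2 490 522) (five 2 491 524)))))))))))) (both (mv 589 (both (mv 492 (both (five 7 460 460) (mv 621 (both (five 7 492 524) (mv 652 (both (five 6 524 620) (mv 653 (both (five 6 556 684) (mv 654 (both (five 4 525 622) (five 4 557 686))))))))))) (both (mv 621 (both (mv 620 (both (five 6 492 588) (five 6 524 652))) (both (mv 654 (both (five 4 525 622) (mv 653 (both (five 4 557 686) (mv 556 (both (five 7 524 524) (mv 588 (both (five 6 460 461) (five 7 556 685))))))))) (mv 652 (both (five 6 524 620) (mv 653 (both (five 6 556 684) (mv 654 (both (five 4 525 622) (five 4 557 686)))))))))) (both (mv 461 (both (mv 556 (both (five 6 460 588) (mv 429 (both (five 6 428 524) (mv 396 (both (five 7 396 428) (mv 397 (both (five 7 364 364) (mv 398 (both (five 5 365 366) (five 5 397 430))))))))))) (both (mv 492 (both (five 7 460 460) (mv 524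 (both (five 7 492 621) (mv 429 (both (five 6 396 397) (five 6 428 556))))))) (mv 460 (both (five 7 428 428) (five 7 460 492)))))) (mv 460 (both (five 7 460 492) (mv 461 (both (five 7 428 428) (mv 588 (both (five 6 460 556) (five 6 492 620))))))))))) (mv 589 (both (mv 620 (both (five 6 492 588) (mv 621 (both (five 6 524 652) (mv 622 (both (five 4 493 590) (five 4 525 654))))))) (both (mv 460 (both (five 7 460 492) (mv 461 (both (five 7 428 428) (mv 588 (both (five 6 460 556) (five 6 492 620))))))) (mv 460 (both (five 7 460 492) (mv 461 (both (five 7 428 428) (mv 590 (both (five 4 461 558) (five 4 493 622))))))))))))))))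

theorem L21 : W (S 988530863186674619578336756865110845819126775104098558876359956461909287475517697927706188055377193898211299979079754656078381545756745792834308240066213838848) (S 601974781353732414668078540376861981818428420705445702366520591770323982287358007963300409101766731772692877344430749394119346379980357579297415596017548651943825502559381698163560598199415147347645969727488) :=
  check_sound Env.nil (x := 557) (t := tL21) (by decide +kernel)

def tL22 : T :=
  (both (mv 557 (both (mv 588 (both (five 6 460 556) (mv 589 (both (five 6 492 620) (mv 590 (both (five 4 461 558) (five 4 493 622))))))) (both (mv 460 (both (five 7 428 428) (mv 589 (both (five 7 460 492) (mv 590 (both (five 4 461 558) (five 4 493 622))))))) (mv 428 (both (five 7 428 460) (mv 429 (both (five 7 396 396) (mv 556 (both (five 6 428 524) (five 6 460 588)))))))))) (both (mv 429 (both (mv 396 (both (five 7 396 428) (mv 397 (both (five 7 364 364) (mv 398 (both (five 5 365 366) (five 5 397 430))))))) (both (mv 396 (both (five 7 396 428) (mv 397 (both (five 7 364 364) (mv 524 (both (five 6 396 492) (five 6 428 556))))))) (both (mv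 398 (both (five 5 397 430) (mv 397 (both (five 5 365 366) (mv 524 (both (five 6 396 492) (five 6 428 556))))))) (mv 396 (both (five 7 396 428) (mv 398 (both (five 5 397 430) (mv 524 (both (five 6 428 556) (mv 494 (both (five 2 492 496) (mv 523 (both (five 2 491 492) (five 1 490 522))))))))))))))) (both (mv 557 (both (mv 588 (both (five 6 460 556) (mv 589 (both (five 6 492 620) (mv 590 (both (five 4 461 558) (five 4 493 622))))))) (mv 460 (both (five 7 428 428) (mv 494 (both (five 3 460 496) (mv 459 (both (five 0 458 458) (five 3 459 492))))))))) (both (mv 524 (both (mv 494 (both (five 2 492 496) (mv 523 (both (five 2 491 492) (five 1 490 522))))) (both (mv 429 (both (five 6 428 556) (mv 397 (both (five 6 396 492) (mv 398 (both (five 5 365 366) (five 5 397 430))))))) (mv 494 (both (five 2 492 496) (mv 522 (both (five 1 490 523) (mv 556 (both (five 6 428 429) (mv 588 (both (five 6 460 557) (five 5 492 620)))))))))))) (both (mv 460 (both (mv 428 (both (five 7 428 557) (mv 396 (both (five 4 364 364) (five 7 396 429))))) (mv 494 (both (five 3 460 496) (mv 459 (both (five 0 458 458) (five 3 459 492))))))) (mv 557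 (both (mv 588 (both (five 6 460 556) (mv 589 (both (five 6 492 620) (mv 590 (both (five 4 461 558) (five 4 493 622))))))) (both (mv 460 (both (five 7 428 428) (mv 496 (both (five 3 460 494) (mv 590 (both (five 4 461 558) (mv 589 (both (five 4 493 622) (mv 620 (both (five 6 492 588) (mv 621 (both (five 6 524 652) (mv 592 (both (five 2 588 591) (mv 560 (both (five 7 463 463) (mv 465 (both (five 5 464 497) (mv 464 (both (five 5 432 433) (mv 593 (both (five 4 464 561) (five 4 496 625))))))))))))))))))))))) (both (mv 428 (both (five 7 428 460) (mv 429 (both (five 7 396 396) (mv 524 (both (five 6 428 556) (mv 496 (both (five 2 492 494) (mv 558 (both (five 4 461 590) (mv 522 (both (five 0 522 523) (mv 560 (both (five 3 524 559) (mv 463 (both (five 7 463 592) (mv 431 (both (five 4 399 399) (five 7 431 464))))))))))))))))))) (mv 428 (both (five 7 428 460) (mv 429 (both (five 7 396 396) (mv 556 (both (five 6 428 524) (five 6 460 588))))))))))))))))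

theorem L22 : W (S 988530863186674619578336756865110845819126775104098558876359956461909287475517697927706188055377193898211299979079754656078381545756745792834308240066213838848) (S 18687756939472726728420641177279206054873241560415709414331859098089426283128083519836013008832037258264629547071689806163749001710017322731222442811878066931874357814230160197779675094533474877440) :=
  check_sound Env.nil (x := 461) (t := tL22) (by decide +kernel)

def tL23 : T :=
  (both (mv 589 (both (mv 620 (both (five 6 492 588) (mv 621 (both (five 6 524 652) (mv 622 (both (five 4 493 590) (five 4 525 654))))))) (mv 492 (both (five 7 460 460) (mv 494 (both (five 0 492 527) (mv 524 (both (five 2 492 496) (five 2 491 523))))))))) (both (mv 461 (both (mv 556 (both (five 6 460 588) (mv 429 (both (five 6 428 524) (mv 396 (both (five 7 396 428) (mv 397 (both (five 7 364 364) (mv 398 (both (five 5 365 366) (five 5 397 430))))))))))) (both (mv 460 (both (five 7 428 428) (mv 494 (both (five 3 460 496) (mv 492 (both (five 3 459 459) (five 0 492 527))))))) (mv 494 (both (mv 496 (both (five 3 460 460) (five 2 492 524))) (both (mv 492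 (both (five 0 492 527) (mv 459 (both (five 3 459 460) (mv 491 (both (five 3 458 458) (mv 523 (both (five 2 490 522) (five 2 491 524))))))))) (both (mv 460 (both (five 3 460 496) (mv 492 (both (five 3 459 459) (five 0 492 527))))) (mv 492 (both (five 0 492 527) (mv 524 (both (five 2 492 496) (five 2 491 523)))))))))))) (both (mv 590 (both (mv 558 (both (five 4 461 461) (mv 622 (both (five 4 493 589) (five 7 525 654))))) (both (mv 461 (both (five 4 461 558) (mv 556 (both (five 6 460 588) (mv 429 (both (five 6 428 524) (mv 396 (both (five 7 396 428) (mv 397 (both (five 7 364 364) (mv 398 (both (five 5 365 366) (five 5 397 430))))))))))))) (both (mv 589 (both (five 4 493 622) (mv 556 (both (mv 555 (both (five 0 554 554) (mv 591 (both (five 0 555 558) (five 3 556 592))))) (both (mv 620 (both (five 6 492 588) (mv 621 (both (five 6 524 652) (mv 618 (both (five 1 586 619) (mv 653 (both (five 7 524 524) (mv 685 (both (five 5 557 558) (mv 686 (both (five 4 557 654) (five 4 589 718))))))))))))) (mv 555 (both (five 0 554 554) (mv 588 (both (five 3 555 591) (five 6 492 620)))))))))) (mv 589 (both (five 4 493 622) (mv 588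 (both (five 6 492 620) (mv 556 (both (five 6 460 461) (mv 591 (both (five 3 555 555) (five 3 556 592))))))))))))) (both (mv 589 (both (mv 620 (both (five 6 492 588) (mv 621 (both (five 6 524 652) (mv 622 (both (five 4 493 590) (five 4 525 654))))))) (both (mv 460 (both (five 7 460 492) (mv 461 (both (five 7 428 428) (mv 588 (both (five 6 460 556) (five 6 492 620))))))) (mv 460 (both (five 7 460 492) (mv 461 (both (five 7 428 428) (mv 590 (both (five 4 461 558) (five 4 493 622)))))))))) (mv 492 (both (mv 460 (both (five 7 460 589) (mv 428 (both (five 4 396 396) (five 7 428 461))))) (both (mv 494 (both (five 0 492 527) (mv 463 (both (five 1 460 464) (mv 524 (both (five 2 491 523) (mv 589 (both (five 7 492 621) (mv 590 (both (five 4 493 622) (mv 461 (both (five 4 461 558) (mv 429 (both (five 6 396 397) (five 6 428 556))))))))))))))) (mv 494 (both (five 0 492 527) (mv 459 (both (five 3 459 460) (mv 491 (both (five 3 458 458) (mv 523 (both (five 2 490 522) (five 2 491 524))))))))))))))))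

theorem L23 : W (S 988530863186674619578336756865110845819126775104098558876359956461909287475517697927706188055377193898211299979079754656078381545756745792834308240066213838848) (S 1378913066257076649783855740201634404989650663853751824675043792898119148155914385062310766855137749441470860070407718800889142349581301532977883860739971595938319503916320779999755062014760158174299335178734790508544) :=
  check_sound Env.nil (x := 557) (t := tL23) (by decide +kernel)

def tL24 : T :=
  (both (mv 494 (both (mv 496 (both (five 3 460 460) (five 2 492 524))) (both (mv 492 (both (five 0 492 527) (mv 459 (both (five 3 459 460) (mv 491 (both (five 3 458 458) (mv 523 (both (five 2 490 522) (five 2 491 524))))))))) (both (mv 460 (both (five 3 460 496) (mv 492 (both (five 3 459 459) (five 0 492 527))))) (mv 492 (both (five 0 492 527) (mv 524 (both (five 2 492 496) (five 2 491 523))))))))) (both (mv 557 (both (mv 588 (both (five 6 460 556) (mv 589 (both (five 6 492 620) (mv 590 (both (five 4 461 558) (five 4 493 622))))))) (both (mv 460 (both (five 7 428 428) (mv 589 (both (five 7 460 492) (mv 590 (both (five 4 461 558)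 (five 4 493 622))))))) (mv 428 (both (five 7 428 460) (mv 429 (both (five 7 396 396) (mv 556 (both (five 6 428 524) (five 6 460 588)))))))))) (both (mv 429 (both (mv 396 (both (five 7 396 428) (mv 397 (both (five 7 364 364) (mv 398 (both (five 5 365 366) (five 5 397 430))))))) (both (mv 396 (both (five 7 396 428) (mv 397 (both (five 7 364 364) (mv 524 (both (five 6 396 492) (five 6 428 556))))))) (both (mv 398 (both (five 5 397 430) (mv 397 (both (five 5 365 366) (mv 524 (both (five 6 396 492) (five 6 428 556))))))) (mv 396 (both (five 7 396 428) (mv 398 (both (five 5 397 430) (mv 524 (both (five 6 428 556) (mv 494 (both (five 2 492 496) (mv 523 (both (five 2 491 492) (five 1 490 522))))))))))))))) (both (mv 460 (both (mv 428 (both (five 7 428 557) (mv 396 (both (five 4 364 364) (five 7 396 429))))) (mv 494 (both (five 3 460 496) (mv 459 (both (five 0 458 458) (five 3 459 492))))))) (mv 557 (both (mv 588 (both (five 6 460 556) (mv 589 (both (five 6 492 620) (mv 590 (both (five 4 461 558) (five 4 493 622))))))) (both (mv 460 (both (five 7 428 428) (mv 496 (both (five 3 460 494) (mv 590 (both (five 4 461 558)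 (mv 589 (both (five 4 493 622) (mv 620 (both (five 6 492 588) (mv 621 (both (five 6 524 652) (mv 592 (both (five 2 588 591) (mv 560 (both (five 7 463 463) (mv 624 (both (five 7 495 527) (mv 625 (both (five 4 496 593) (five 4 528 657))))))))))))))))))))) (both (mv 428 (both (five 7 428 460) (mv 429 (both (five 7 396 396) (mv 398 (both (five 5 397 430) (mv 366 (both (five 5 365 397) (mv 524 (both (five 6 428 556) (mv 496 (both (five 2 492 494) (mv 558 (both (five 4 461 590) (mv 522 (both (five 0 522 523) (mv 560 (both (five 3 524 559) (mv 592 (both (five 7 463 463) (mv 623 (both (five 6 495 591) (mv 624 (both (five 6 527 655) (mv 625 (both (five 4 496 593) (five 4 528 657))))))))))))))))))))))))))) (mv 428 (both (five 7 428 460) (mv 429 (both (five 7 396 396) (mv 556 (both (five 6 428 524) (five 6 460 588)))))))))))))))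

theorem L24 : W (S 988530863186674619578336756865110845819126775104098558876359956461909287475517697927706188055377193898211299979079754656078381545756745792834308240066213838848) (S 766198027835119169842309142786829569990043816415398881505186484566814532949518638406354985182855761224932332030518137121601356760714462839931874874263440847457813608901206703466369268498306045050880) :=
  check_sound Env.nil (x := 461) (t := tL24) (by decide +kernel)

end P062.Cert
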