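import Vale.Agent.P062.Check
import Vale.Agent.P062.Cert.C2

/-! Snaky certificate, part 3 (machine generated, checked by the kernel) -/

set_option maxRecDepth 100000

namespace P062.Cert

open T

def tL25 : T :=
  (both (ref 0) (both (mv 496 (both (mv 560 (both (mv 463 (both (five 7 463 592) (mv 431 (both (five 4 399 399) (five 7 431 464))))) (both (mv 464 (both (mv 431 (both (five 7 431 463) (mv 432 (both (five 7 399 399) (mv 433 (both (five 5 400 401) (five 5 432 465))))))) (both (mv 433 (both (five 5 432 465) (mv 432 (both (five 5 400 401) (mv 559 (both (five 6 431 527) (five 6 463 591))))))) (both (mv 431 (both (five 7 431 463) (mv 432 (both (five 7 399 399) (mv 559 (both (five 6 431 527) (five 6 463 591))))))) (mv 559 (both (five 6 463 591) (mv 558 (both (mv 557 (both (five 3 524 524) (mv 588 (both (five 2 556 589) (mv 556 (both (five 2 555 587) (five 1 524 527))))))) (both (mv 433 (both (five 5 432 465) (mv 463 (both (five 7 431 431) (mv 561 (both (five 4 464 593) (mv 590 (both (five 6 462 527) (five 2 557 589))))))))) (both (mv 557 (both (five 3 524 524) (mv 589 (both (five 2 556 588) (mv 561 (both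 (five 2 557 590) (five 4 464 593))))))) (mv 431 (both (five 7 431 463) (mv 433 (both (five 5 432 465) (mv 557 (both (five 3 524 524) (mv 461 (both (five 4 461 590) (mv 556 (both (five 1 524 527) (five 6 460 588))))))))))))))))))))) (both (mv 592 (both (mv 623 (both (five 6 495 591) (mv 624 (both (five 6 527 655) (mv 625 (both (five 4 496 593) (five 4 528 657))))))) (both (mv 465 (both (five 5 464 497) (mv 464 (both (five 5 432 433) (mv 593 (both (five 4 464 561) (five 4 496 625))))))) (mv 465 (both (five 5 464 497) (mv 464 (both (five 5 432 433) (mv 591 (both (five 6 463 559) (five 6 495 623)))))))))) (mv 592 (both (five 7 463 463) (mv 623 (both (five 6 495 591) (mv 624 (both (five 6 527 655) (mv 625 (both (five 4 496 593) (five 4 528 657))))))))))))) (both (mv 464 (both (mv 432 (both (mv 527 (both (five 6 399 400) (five 6 431 559))) (mv 401 (both (five 5 400 433) (mv 431 (both (five 7 399 399) (mv 465 (both (five 1 461 494) (mv 430 (both (five 0 429 429) (mv 466 (both (five 3 430 463) (five 3 431 467))))))))))))) (both (mv 465 (both (five 1 461 494) (mv 433 (both (five 5 432 560) (mv 401 (both (five 6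 368 369) (five 6 400 497))))))) (mv 560 (both (mv 431 (both (five 7 431 463) (mv 432 (both (five 7 399 399) (mv 559 (both (five 6 431 527) (five 6 463 591))))))) (both (mv 592 (both (five 7 463 463) (mv 623 (both (five 6 495 591) (mv 624 (both (five 6 527 655) (mv 625 (both (five 4 496 593) (five 4 528 657))))))))) (mv 593 (both (five 4 464 561) (mv 592 (both (five 4 496 625) (mv 527 (both (five 7 495 624) (mv 432 (both (five 6 399 400) (five 6 431 559))))))))))))))) (both (mv 461 (both (mv 494 (both (five 3 460 460) (five 2 492 524))) (both (mv 557 (both (mv 590 (both (five 4 461 558) (mv 589 (both (five 4 493 622) (mv 620 (both (five 6 492 588) (mv 621 (both (five 6 524 652) (mv 592 (both (five 2 588 591) (mv 560 (both (five 7 463 463) (mv 624 (both (five 7 495 527) (mv 625 (both (five 4 496 593) (five 4 528 657))))))))))))))))) (both (mv 428 (both (five 7 428 460) (mv 429 (both (five 7 396 396) (mv 398 (both (five 5 397 430) (mv 366 (both (five 5 365 397) (mv 524 (both (five 6 428 556) (mv 558 (both (five 4 461 590) (mv 522 (both (five 0 522 523) (mv 560 (both (five 3 524 559) (mv 592 (both (five 7 463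 463) (mv 623 (both (five 6 495 591) (mv 624 (both (five 6 527 655) (mv 625 (both (five 4 496 593) (five 4 528 657))))))))))))))))))))))))) (mv 428 (both (five 7 428 460) (mv 429 (both (five 7 396 396) (mv 556 (both (five 6 428 524) (five 6 460 588)))))))))) (both (mv 460 (both (five 3 460 494) (mv 428 (both (five 7 428 557) (mv 396 (both (five 4 364 364) (five 7 396 429))))))) (mv 524 (both (five 2 492 494) (mv 429 (both (five 6 428 556) (mv 396 (both (five 7 396 428) (mv 397 (both (five 7 364 364) (mv 398 (both (five 5 365 366) (five 5 397 430))))))))))))))) (both (mv 464 (both (mv 494 (both (five 1 461 465) (five 2 492 524))) (both (mv 432 (both (mv 527 (both (five 6 399 400) (five 6 431 559))) (both (mv 399 (both (five 7 399 431) (mv 400 (both (five 7 367 367) (mv 401 (both (five 5 368 369) (five 5 400 433))))))) (mv 431 (both (five 7 399 399) (mv 430 (both (mv 433 (both (five 5 400 401) (mv 398 (both (five 3 397 397) (mv 527 (both (five 7 398 463) (five 6 431 559))))))) (both (mv 429 (both (five 0 429 465) (mv 461 (both (five 5 397 398) (five 2 428 460))))) (mv 401 (both (five 5 400 433) (mv 429 (both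 (five 0 429 465) (mv 428 (both (five 0 428 463) (mv 460 (both (five 2 427 459) (five 2 428 461))))))))))))))))) (mv 461 (both (mv 494 (both (five 3 460 460) (five 2 492 524))) (both (mv 429 (both (mv 398 (both (five 5 397 430) (mv 397 (both (five 5 365 366) (mv 364 (both (five 7 364 396) (mv 365 (both (five 7 332 332) (mv 362 (both (five 0 362 363) (mv 399 (both (five 3 364 400) (mv 431 (both (five 7 399 432) (five 4 399 463))))))))))))))) (both (mv 398 (both (five 5 397 430) (mv 397 (both (five 5 365 366) (mv 556 (both (five 6 428 524) (mv 557 (both (five 6 460 588) (mv 428 (both (five 7 428 460) (mv 399 (both (five 2 396 400) (mv 431 (both (five 7 399 432) (five 4 399 463))))))))))))))) (mv 428 (both (five 7 396 396) (mv 556 (both (five 6 428 524) (mv 557 (both (five 7 428 460) (five 6 460 588)))))))))) (both (mv 460 (both (five 3 460 494) (mv 428 (both (five 7 428 557) (mv 396 (both (five 4 364 364) (five 7 396 429))))))) (mv 524 (both (five 2 492 494) (mv 429 (both (five 6 428 556) (mv 396 (both (five 7 396 428) (mv 397 (both (five 7 364 364) (mv 398 (both (five 5 365 366) (five 5 397 430))))))))))))))))))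 (both (mv 494 (both (five 2 492 524) (mv 464 (both (five 1 461 465) (mv 560 (both (mv 591 (both (five 6 463 559) (mv 592 (both (five 6 495 623) (mv 593 (both (five 4 464 561) (five 4 496 625))))))) (both (mv 593 (both (five 4 464 561) (mv 592 (both (five 4 496 625) (mv 623 (both (five 6 495 591) (mv 624 (both (five 7 495 527) (five 6 527 655))))))))) (both (mv 593 (both (five 4 464 561) (mv 592 (both (five 4 496 625) (mv 527 (both (five 7 495 624) (mv 432 (both (five 6 399 400) (five 6 431 559))))))))) (mv 559 (both (five 6 463 591) (mv 432 (both (five 6 431 527) (mv 399 (both (five 7 399 431) (mv 400 (both (five 7 367 367) (mv 401 (both (five 5 368 369) (five 5 400 433))))))))))))))))))) (both (mv 494 (both (five 2 492 524) (mv 464 (both (five 1 461 465) (mv 432 (both (mv 399 (both (five 7 399 431) (mv 400 (both (five 7 367 367) (mv 401 (both (five 5 368 369) (five 5 400 433))))))) (both (mv 401 (both (five 5 400 433) (mv 400 (both (five 5 368 369) (mv 367 (both (five 7 367 399) (mv 368 (both (five 7 335 335) (five 6 367 463))))))))) (both (mv 401 (both (five 5 400 433) (mv 400 (both (five 5 368 369) (mv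 463 (both (five 6 367 368) (mv 560 (both (five 7 431 431) (five 7 463 592))))))))) (mv 431 (both (five 7 399 399) (mv 560 (both (five 7 431 463) (mv 591 (both (five 6 463 559) (mv 592 (both (five 6 495 623) (mv 593 (both (five 4 464 561) (five 4 496 625))))))))))))))))))) (mv 560 (both (mv 494 (both (five 2 492 524) (mv 460 (both (five 3 460 461) (mv 464 (both (five 1 461 465) (mv 431 (both (five 7 431 463) (mv 432 (both (five 7 399 399) (mv 400 (both (five 6 399 527) (mv 401 (both (five 5 368 369) (five 5 400 433))))))))))))))) (both (mv 592 (both (mv 624 (both (five 7 495 527) (mv 625 (both (five 4 496 593) (five 4 528 657))))) (both (mv 623 (both (five 6 495 591) (mv 624 (both (five 6 527 655) (mv 625 (both (five 4 496 593) (five 4 528 657))))))) (both (mv 591 (both (five 6 495 623) (mv 593 (both (five 4 496 625) (mv 464 (both (five 4 464 561) (mv 433 (both (five 5 432 465) (mv 432 (both (five 5 400 401) (mv 399 (both (five 7 399 431) (mv 400 (both (five 7 367 367) (five 6 399 527))))))))))))))) (mv 623 (both (five 6 495 591) (mv 624 (both (five 7 495 527) (five 6 527 655))))))))) (mv 592 (both (five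 7 463 463) (mv 623 (both (five 6 495 591) (mv 624 (both (five 6 527 655) (mv 625 (both (five 4 496 593) (five 4 528 657))))))))))))))))))) (both (mv 557 (both (mv 589 (both (mv 620 (both (five 6 492 588) (mv 621 (both (five 6 524 652) (mv 622 (both (five 4 493 590) (five 4 525 654))))))) (both (mv 492 (both (five 7 460 460) (mv 620 (both (five 6 492 588) (mv 621 (both (five 7 492 524) (five 6 524 652))))))) (mv 460 (both (five 7 460 492) (mv 461 (both (five 7 428 428) (mv 590 (both (five 4 461 558) (five 4 493 622)))))))))) (both (mv 461 (both (mv 429 (both (mv 428 (both (five 7 396 396) (five 7 428 460))) (both (mv 398 (both (five 5 397 430) (mv 397 (both (five 5 365 366) (mv 364 (both (five 7 364 396) (mv 365 (both (five 7 332 332) (mv 492 (both (five 6 364 460) (five 6 396 524))))))))))) (both (mv 396 (both (five 7 396 428) (mv 397 (both (five 7 364 364) (mv 398 (both (five 5 365 366) (five 5 397 430))))))) (mv 398 (both (five 5 397 430) (mv 397 (both (five 5 365 366) (mv 460 (both (five 7 428 428) (mv 492 (both (five 6 364 365) (five 6 396 524))))))))))))) (both (mv 556 (both (five 6 460 588) (mv 558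 (both (five 4 461 590) (mv 559 (both (five 1 524 527) (mv 524 (both (five 3 523 523) (five 3 524 560))))))))) (mv 463 (both (mv 560 (both (mv 431 (both (five 4 431 527) (mv 496 (both (five 4 399 399) (five 7 431 464))))) (both (mv 527 (both (five 4 431 431) (mv 592 (both (five 4 463 559) (five 7 495 624))))) (both (mv 496 (both (five 7 463 592) (mv 431 (both (five 4 399 399) (five 7 431 464))))) (mv 592 (both (five 7 463 496) (mv 527 (both (five 4 463 559) (five 7 495 624))))))))) (both (mv 428 (both (five 7 428 460) (mv 396 (both (five 7 396 429) (mv 556 (both (five 6 460 588) (mv 558 (both (five 4 461 590) (mv 559 (both (five 1 524 527) (mv 592 (both (five 0 556 591) (mv 560 (both (five 7 463 496) (five 0 557 593))))))))))))))) (both (mv 428 (both (five 7 428 460) (mv 429 (both (five 7 396 396) (mv 430 (both (five 5 397 398) (mv 431 (both (five 0 428 464) (mv 399 (both (five 1 396 400) (five 4 399 496))))))))))) (mv 428 (both (five 7 428 460) (mv 396 (both (five 7 396 429) (mv 556 (both (five 6 460 588) (mv 558 (both (five 4 461 590) (mv 527 (both (five 1 524 559) (mv 431 (both (five 4 431 560) (mv 398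 (both (five 7 398 430) (mv 399 (both (five 7 366 366) (mv 400 (both (five 5 367 368) (five 5 399 432)))))))))))))))))))))))))) (both (mv 589 (both (mv 620 (both (five 6 492 588) (mv 621 (both (five 6 524 652) (mv 622 (both (five 4 493 590) (five 4 525 654))))))) (both (mv 492 (both (five 7 460 460) (mv 621 (both (five 7 492 524) (mv 622 (both (five 4 493 590) (five 4 525 654))))))) (both (mv 492 (both (five 7 460 460) (mv 620 (both (five 6 492 588) (mv 621 (both (five 7 492 524) (five 6 524 652))))))) (mv 588 (both (five 6 492 620) (mv 558 (both (mv 559 (both (five 2 556 560) (mv 556 (both (five 2 555 587) (five 1 524 527))))) (both (mv 460 (both (five 7 460 492) (mv 587 (both (five 1 554 586) (mv 590 (both (five 4 493 622) (mv 555 (both (five 3 554 554) (mv 556 (both (five 0 555 591) (mv 522 (both (five 3 522 523) (mv 619 (both (five 2 586 618) (mv 651 (both (five 5 523 524) (five 5 555 683))))))))))))))))) (both (mv 590 (both (five 4 493 622) (mv 559 (both (five 2 556 560) (mv 556 (both (five 1 524 527) (mv 591 (both (five 0 556 592) (five 0 555 555))))))))) (mv 559 (both (five 2 556 560) (mv 587 (both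 (five 1 554 586) (five 1 555 590))))))))))))))) (both (mv 560 (both (mv 592 (both (mv 527 (both (five 7 495 624) (mv 463 (both (five 4 463 559) (five 4 431 431))))) (both (mv 496 (both (five 7 463 463) (mv 623 (both (five 6 495 591) (mv 624 (both (five 6 527 655) (mv 625 (both (five 4 496 593) (five 4 528 657))))))))) (both (mv 463 (both (five 7 463 496) (mv 527 (both (five 4 431 431) (five 4 463 559))))) (mv 624 (both (five 7 495 527) (mv 623 (both (five 6 527 655) (mv 496 (both (five 6 495 591) (mv 593 (both (five 4 496 625) (mv 464 (both (five 4 464 561) (mv 465 (both (five 5 464 497) (five 5 432 433))))))))))))))))) (both (mv 589 (both (mv 460 (both (five 7 460 492) (mv 461 (both (five 7 428 428) (mv 590 (both (five 4 461 558) (five 4 493 622))))))) (both (mv 492 (both (five 7 460 460) (mv 621 (both (five 7 492 524) (mv 652 (both (five 6 524 620) (mv 653 (both (five 6 556 684) (mv 654 (both (five 4 525 622) (five 4 557 686))))))))))) (both (mv 590 (both (five 4 493 622) (mv 558 (both (five 4 461 461) (mv 559 (both (five 3 524 524) (five 2 557 561))))))) (mv 460 (both (five 7 460 492) (mv 461 (both (five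 7 428 428) (mv 558 (both (five 4 461 590) (mv 524 (both (five 3 524 559) (mv 429 (both (five 6 428 556) (mv 430 (both (five 5 397 398) (mv 431 (both (five 2 428 432) (mv 463 (both (five 4 431 527) (mv 496 (both (five 4 399 399) (five 7 431 464))))))))))))))))))))))) (both (mv 558 (both (mv 559 (both (five 3 524 524) (mv 527 (both (five 1 524 556) (mv 592 (both (five 7 495 624) (five 4 463 463))))))) (mv 590 (both (five 4 461 461) (mv 622 (both (five 4 493 589) (five 7 525 654))))))) (both (mv 558 (both (mv 590 (both (five 4 461 461) (mv 622 (both (five 4 493 589) (five 7 525 654))))) (mv 559 (both (five 3 524 524) (mv 592 (both (five 0 557 593) (mv 591 (both (five 0 556 556) (mv 623 (both (five 5 527 655) (five 6 495 496))))))))))) (mv 592 (both (mv 624 (both (five 7 495 527) (mv 623 (both (five 6 527 655) (mv 657 (both (five 4 528 625) (mv 656 (both (five 4 560 689) (mv 622 (both (five 0 621 621) (mv 590 (both (five 4 493 589) (mv 558 (both (five 4 461 461) (five 7 525 654))))))))))))))) (both (mv 496 (both (five 7 463 463) (mv 465 (both (five 5 464 497) (mv 464 (both (five 5 432 433) (mv 593 (both (five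 4 464 561) (five 4 496 625))))))))) (mv 463 (both (five 7 463 496) (mv 527 (both (five 4 431 431) (five 7 495 624))))))))))))) (both (mv 589 (both (mv 492 (both (five 7 460 460) (mv 621 (both (five 7 492 524) (mv 652 (both (five 6 524 620) (mv 653 (both (five 6 556 684) (mv 654 (both (five 4 525 622) (five 4 557 686))))))))))) (both (mv 621 (both (mv 620 (both (five 6 492 588) (five 6 524 652))) (both (mv 654 (both (five 4 525 622) (mv 653 (both (five 4 557 686) (mv 556 (both (five 7 524 524) (mv 588 (both (five 6 460 461) (five 7 556 685))))))))) (mv 652 (both (five 6 524 620) (mv 653 (both (five 6 556 684) (mv 654 (both (five 4 525 622) (five 4 557 686)))))))))) (both (mv 461 (both (mv 556 (both (five 6 460 588) (mv 429 (both (five 6 428 524) (mv 396 (both (five 7 396 428) (mv 397 (both (five 7 364 364) (mv 398 (both (five 5 365 366) (five 5 397 430))))))))))) (both (mv 492 (both (five 7 460 460) (mv 524 (both (five 7 492 621) (mv 429 (both (five 6 396 397) (five 6 428 556))))))) (mv 460 (both (five 7 428 428) (five 7 460 492)))))) (mv 460 (both (five 7 460 492) (mv 461 (both (five 7 428 428) (mv 588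 (both (five 6 460 556) (five 6 492 620))))))))))) (both (mv 589 (both (mv 620 (both (five 6 492 588) (mv 621 (both (five 6 524 652) (mv 622 (both (five 4 493 590) (five 4 525 654))))))) (both (mv 621 (both (mv 620 (both (five 6 492 588) (five 6 524 652))) (both (mv 654 (both (five 4 525 622) (mv 653 (both (five 4 557 686) (mv 556 (both (five 7 524 524) (mv 588 (both (five 6 460 461) (five 7 556 685))))))))) (mv 652 (both (five 6 524 620) (mv 653 (both (five 6 556 684) (mv 654 (both (five 4 525 622) (five 4 557 686)))))))))) (both (mv 590 (both (five 4 493 622) (mv 591 (both (mv 556 (both (five 3 556 592) (mv 555 (both (five 0 554 554) (five 0 555 558))))) (both (mv 558 (both (five 4 461 461) (mv 556 (both (five 0 555 555) (mv 559 (both (five 1 524 527) (mv 524 (both (five 3 523 523) (five 3 524 560))))))))) (both (mv 592 (both (five 3 556 556) (mv 560 (both (five 1 557 561) (mv 624 (both (five 7 495 527) (five 0 589 625))))))) (mv 558 (both (five 4 461 461) (mv 592 (both (five 3 557 593) (mv 560 (both (five 1 557 561) (mv 624 (both (five 7 495 527) (five 0 589 625))))))))))))))) (mv 588 (both (five 6 492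 620) (mv 558 (both (mv 559 (both (five 2 556 560) (mv 556 (both (five 2 555 587) (five 1 524 527))))) (both (mv 559 (both (five 2 556 560) (mv 587 (both (five 1 554 586) (five 1 555 590))))) (mv 461 (both (five 6 460 556) (five 4 461 590)))))))))))) (mv 589 (both (mv 620 (both (five 6 492 588) (mv 621 (both (five 6 524 652) (mv 622 (both (five 4 493 590) (five 4 525 654))))))) (both (mv 460 (both (five 7 460 492) (mv 461 (both (five 7 428 428) (mv 588 (both (five 6 460 556) (five 6 492 620))))))) (mv 460 (both (five 7 460 492) (mv 461 (both (five 7 428 428) (mv 590 (both (five 4 461 558) (five 4 493 622))))))))))))))))) (both (ref 1) (both (ref 2) (both (mv 494 (both (mv 496 (both (five 2 492 524) (mv 464 (both (five 1 461 465) (mv 560 (both (mv 591 (both (five 6 463 559) (mv 592 (both (five 6 495 623) (mv 593 (both (five 4 464 561) (five 4 496 625))))))) (both (mv 593 (both (five 4 464 561) (mv 592 (both (five 4 496 625) (mv 623 (both (five 6 495 591) (mv 624 (both (five 7 495 527) (five 6 527 655))))))))) (both (mv 593 (both (five 4 464 561) (mv 592 (both (five 4 496 625) (mv 527 (both (five 7 495 624)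 (mv 432 (both (five 6 399 400) (five 6 431 559))))))))) (mv 559 (both (five 6 463 591) (mv 432 (both (five 6 431 527) (mv 399 (both (five 7 399 431) (mv 400 (both (five 7 367 367) (mv 401 (both (five 5 368 369) (five 5 400 433))))))))))))))))))) (both (mv 492 (both (five 0 492 527) (mv 460 (both (five 3 459 459) (mv 428 (both (five 4 396 396) (mv 461 (both (five 3 460 496) (five 7 428 557))))))))) (both (mv 492 (both (five 0 492 527) (mv 459 (both (five 3 459 460) (mv 491 (both (five 3 458 458) (mv 523 (both (five 2 490 522) (five 2 491 524))))))))) (mv 524 (both (five 2 492 496) (mv 523 (both (five 2 491 492) (five 1 490 522))))))))) (both (ref 3) (both (mv 494 (both (mv 464 (both (mv 492 (both (five 1 460 463) (five 0 492 527))) (both (mv 496 (both (five 1 461 465) (mv 560 (both (mv 431 (both (five 7 431 463) (mv 432 (both (five 7 399 399) (mv 559 (both (five 6 431 527) (five 6 463 591))))))) (both (mv 592 (both (five 7 463 463) (mv 623 (both (five 6 495 591) (mv 624 (both (five 6 527 655) (mv 625 (both (five 4 496 593) (five 4 528 657))))))))) (mv 593 (both (five 4 464 561) (mv 592 (both (five 4 496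 625) (mv 527 (both (five 7 495 624) (mv 432 (both (five 6 399 400) (five 6 431 559)))))))))))))) (both (mv 496 (both (five 1 461 465) (mv 527 (both (five 0 492 492) (mv 432 (both (five 6 399 400) (five 6 431 559))))))) (mv 463 (both (five 1 460 492) (mv 465 (both (five 2 462 466) (five 1 461 496))))))))) (both (mv 496 (both (five 2 492 524) (mv 464 (both (five 1 461 465) (mv 560 (both (mv 591 (both (five 6 463 559) (mv 592 (both (five 6 495 623) (mv 593 (both (five 4 464 561) (five 4 496 625))))))) (both (mv 593 (both (five 4 464 561) (mv 592 (both (five 4 496 625) (mv 623 (both (five 6 495 591) (mv 624 (both (five 7 495 527) (five 6 527 655))))))))) (both (mv 593 (both (five 4 464 561) (mv 592 (both (five 4 496 625) (mv 527 (both (five 7 495 624) (mv 432 (both (five 6 399 400) (five 6 431 559))))))))) (mv 559 (both (five 6 463 591) (mv 432 (both (five 6 431 527) (mv 399 (both (five 7 399 431) (mv 400 (both (five 7 367 367) (mv 401 (both (five 5 368 369) (five 5 400 433))))))))))))))))))) (both (mv 492 (both (five 0 492 527) (mv 491 (both (mv 523 (both (five 2 490 522) (five 2 491 524))) (both (mv 458 (both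 (five 3 458 459) (mv 463 (both (five 1 460 464) (mv 490 (both (five 3 457 457) (mv 489 (both (five 0 489 524) (mv 521 (both (five 2 488 520) (five 2 489 522))))))))))) (both (mv 458 (both (five 3 458 459) (mv 490 (both (five 3 457 457) (mv 522 (both (five 2 489 521) (five 2 490 523))))))) (mv 458 (both (five 3 458 459) (mv 463 (both (five 1 460 464) (mv 490 (both (five 3 457 457) (mv 524 (both (five 0 489 489) (five 2 491 523))))))))))))))) (mv 524 (both (five 2 492 496) (mv 523 (both (five 2 491 492) (five 1 490 522))))))))) (both (ref 4) (both (mv 494 (both (mv 496 (both (five 2 492 524) (mv 464 (both (five 1 461 465) (mv 432 (both (mv 527 (both (five 6 399 400) (five 6 431 559))) (both (mv 399 (both (five 7 399 431) (mv 400 (both (five 7 367 367) (mv 401 (both (five 5 368 369) (five 5 400 433))))))) (mv 401 (both (five 5 400 433) (mv 431 (both (five 7 399 399) (mv 460 (both (five 3 460 461) (mv 559 (both (five 6 431 527) (mv 560 (both (five 7 431 463) (five 6 463 591)))))))))))))))))) (both (mv 492 (both (five 0 492 527) (mv 459 (both (five 3 459 460) (mv 491 (both (five 3 458 458) (mv 523 (both (five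 2 490 522) (five 2 491 524))))))))) (both (mv 492 (both (five 0 492 527) (mv 460 (both (five 3 459 459) (mv 428 (both (five 4 396 396) (mv 461 (both (five 3 460 496) (five 7 428 557))))))))) (mv 524 (both (five 2 492 496) (mv 523 (both (five 2 491 492) (five 1 490 522))))))))) (both (mv 494 (both (mv 492 (both (five 0 492 527) (mv 460 (both (five 3 459 459) (mv 428 (both (five 4 396 396) (mv 557 (both (five 7 428 461) (five 4 428 524))))))))) (both (mv 496 (both (five 2 492 524) (mv 464 (both (five 1 461 465) (mv 432 (both (mv 527 (both (five 6 399 400) (five 6 431 559))) (both (mv 399 (both (five 7 399 431) (mv 400 (both (five 7 367 367) (mv 401 (both (five 5 368 369) (five 5 400 433))))))) (mv 401 (both (five 5 400 433) (mv 431 (both (five 7 399 399) (mv 460 (both (five 3 460 461) (mv 559 (both (five 6 431 527) (mv 560 (both (five 7 431 463) (five 6 463 591)))))))))))))))))) (both (mv 496 (both (five 2 492 524) (mv 460 (both (five 3 460 461) (mv 464 (both (five 1 461 465) (mv 492 (both (five 3 459 459) (five 1 460 463))))))))) (mv 464 (both (mv 492 (both (five 1 460 463) (five 0 492 527))) (both (mv 496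 (both (five 1 461 465) (mv 560 (both (mv 431 (both (five 7 431 463) (mv 432 (both (five 7 399 399) (mv 559 (both (five 6 431 527) (five 6 463 591))))))) (both (mv 592 (both (five 7 463 463) (mv 623 (both (five 6 495 591) (mv 624 (both (five 6 527 655) (mv 625 (both (five 4 496 593) (five 4 528 657))))))))) (mv 593 (both (five 4 464 561) (mv 592 (both (five 4 496 625) (mv 527 (both (five 7 495 624) (mv 432 (both (five 6 399 400) (five 6 431 559)))))))))))))) (both (mv 496 (both (five 1 461 465) (mv 527 (both (five 0 492 492) (mv 432 (both (five 6 399 400) (five 6 431 559))))))) (mv 463 (both (five 1 460 492) (mv 465 (both (five 2 462 466) (five 1 461 496))))))))))))) (mv 494 (both (mv 496 (both (five 2 492 524) (mv 560 (both (mv 463 (both (five 7 463 592) (mv 431 (both (five 4 399 399) (five 7 431 464))))) (both (mv 460 (both (five 3 460 461) (mv 463 (both (five 7 463 592) (mv 431 (both (five 4 399 399) (five 4 431 527))))))) (both (mv 460 (both (five 3 460 461) (mv 464 (both (five 1 461 465) (mv 593 (both (five 4 464 561) (mv 592 (both (five 4 496 625) (mv 527 (both (five 7 495 624) (mv 432 (both (five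 6 399 400) (five 6 431 559))))))))))))) (mv 464 (both (five 1 461 465) (mv 431 (both (five 7 431 463) (mv 432 (both (five 7 399 399) (mv 400 (both (five 6 399 527) (mv 401 (both (five 5 368 369) (five 5 400 433))))))))))))))))) (both (mv 492 (both (five 0 492 527) (mv 459 (both (five 3 459 460) (mv 491 (both (five 3 458 458) (mv 523 (both (five 2 490 522) (five 2 491 524))))))))) (both (mv 492 (both (five 0 492 527) (mv 460 (both (five 3 459 459) (mv 428 (both (five 4 396 396) (mv 461 (both (five 3 460 496) (five 7 428 557))))))))) (mv 524 (both (five 2 492 496) (mv 523 (both (five 2 491 492) (five 1 490 522))))))))))))))))))))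

theorem L25 : W (S 988530863161101255454148148505632801312661156727406042891648512794071073662266652643294668095351646301915173751338452436331818490997235976069578606837084717056) (S 1378913068945897340260345597529308166475273932677610292578777624716307283920084759843102152774339599128698972705573602024834624873483879902069412783166798039353888835718387364065315833021446836882372671790783592923136) :=
  check_sound (Env.cons L20 (Env.cons L21 (Env.cons L22 (Env.cons L23 (Env.cons L24 Env.nil))))) (x := 493) (t := tL25) (by decide +kernel)

def tL26 : T :=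
  (both (mv 557 (both (mv 588 (both (five 6 460 556) (mv 589 (both (five 6 492 620) (mv 590 (both (five 4 461 558) (five 4 493 622))))))) (both (mv 462 (both (five 5 429 430) (mv 589 (both (five 5 461 494) (mv 590 (both (five 4 461 558) (five 4 493 622))))))) (mv 430 (both (five 5 429 462) (mv 429 (both (five 5 397 398) (mv 556 (both (five 6 428 524) (five 6 460 588)))))))))) (both (mv 429 (both (mv 396 (both (five 7 396 428) (mv 397 (both (five 7 364 364) (mv 398 (both (five 5 365 366) (five 5 397 430))))))) (both (mv 396 (both (five 7 396 428) (mv 397 (both (five 7 364 364) (mv 366 (both (five 5 365 398) (mv 365 (both (five 5 333 334) (mv 367 (both (five 2 364 368) (mv 394 (both (five 1 362 395) (mv 494 (both (five 4 365 462) (mv 496 (both (five 3 460 460) (five 2 492 524))))))))))))))))) (both (mv 462 (both (mv 396 (both (five 7 396 428) (mv 397 (both (five 7 364 364) (mv 365 (both (five 4 365 494) (mv 333 (both (five 4 333 430) (mv 334 (both (five 5 301 302) (five 5 333 366))))))))))) (both (mv 524 (both (five 6 428 556) (mv 496 (both (five 2 492 494) (mv 463 (both (five 0 460 460) (mv 497 (both (five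 0 461 464) (five 3 462 498))))))))) (mv 428 (both (five 7 396 396) (mv 426 (both (five 0 426 427) (mv 463 (both (five 3 428 464) (mv 460 (both (five 0 460 496) (mv 431 (both (five 1 428 432) (mv 459 (both (five 2 427 430) (mv 458 (both (five 3 425 425) (five 1 425 457)))))))))))))))))) (both (mv 398 (both (five 5 397 430) (mv 397 (both (five 5 365 366) (mv 364 (both (five 7 364 396) (mv 365 (both (five 7 332 332) (mv 494 (both (five 4 365 462) (mv 496 (both (five 3 460 460) (five 2 492 524))))))))))))) (both (mv 460 (both (mv 494 (both (five 3 460 496) (mv 459 (both (five 0 458 458) (five 0 459 462))))) (both (mv 430 (both (five 5 397 398) (mv 431 (both (five 2 428 432) (mv 459 (both (five 2 427 428) (five 1 426 458))))))) (mv 398 (both (five 5 397 430) (mv 397 (both (five 5 365 366) (mv 494 (both (five 3 460 496) (mv 365 (both (five 4 365 462) (mv 332 (both (five 7 332 364) (mv 333 (both (five 7 300 300) (five 6 332 428)))))))))))))))) (mv 460 (both (mv 494 (both (five 3 460 496) (mv 459 (both (five 0 458 458) (five 0 459 462))))) (both (mv 428 (both (five 7 396 396) (mv 430 (both (five 5 397 398) (mv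 431 (both (five 2 428 432) (five 2 427 459))))))) (mv 396 (both (five 7 396 428) (mv 430 (both (five 5 397 398) (mv 431 (both (five 2 428 432) (mv 496 (both (five 3 460 494) (mv 463 (both (five 4 399 399) (five 0 460 462)))))))))))))))))))) (both (mv 557 (both (mv 588 (both (five 6 460 556) (mv 589 (both (five 6 492 620) (mv 590 (both (five 4 461 558) (five 4 493 622))))))) (mv 428 (both (five 7 428 460) (mv 429 (both (five 7 396 396) (mv 430 (both (five 5 397 398) (five 5 429 462))))))))) (both (mv 429 (both (mv 396 (both (five 7 396 428) (mv 397 (both (five 7 364 364) (mv 398 (both (five 5 365 366) (five 5 397 430))))))) (both (mv 398 (both (five 5 397 430) (mv 397 (both (five 5 365 366) (mv 399 (both (mv 364 (both (five 7 364 396) (mv 365 (both (five 7 332 332) (five 3 364 400))))) (both (mv 524 (both (five 6 428 556) (mv 496 (both (five 2 492 494) (mv 431 (both (five 4 399 463) (mv 432 (both (five 7 399 464) (mv 433 (both (five 0 397 400) (five 3 398 434))))))))))) (mv 396 (both (five 7 364 364) (mv 367 (both (five 1 364 368) (mv 431 (both (five 0 396 432) (mv 496 (both (five 4 399 463) (mv 494 (both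 (five 3 460 460) (five 2 492 524)))))))))))))))))) (both (mv 430 (both (five 5 397 398) (mv 431 (both (mv 524 (both (five 6 428 556) (mv 496 (both (five 2 492 494) (mv 399 (both (five 4 399 463) (mv 400 (both (five 1 396 428) (mv 401 (both (five 2 398 402) (five 1 397 432))))))))))) (both (mv 524 (both (five 6 428 556) (mv 496 (both (five 2 492 494) (mv 399 (both (five 4 399 463) (mv 428 (both (five 1 396 400) (mv 460 (both (five 2 427 459) (five 7 428 557))))))))))) (both (mv 432 (both (five 2 428 460) (mv 400 (both (five 1 397 401) (mv 463 (both (five 5 399 527) (mv 368 (both (five 6 335 336) (five 6 367 464))))))))) (both (mv 432 (both (five 2 428 460) (mv 464 (both (five 0 429 465) (mv 428 (both (five 0 428 463) (mv 496 (both (five 7 399 399) (mv 524 (both (five 2 492 494) (five 6 428 556))))))))))) (mv 432 (both (five 2 428 460) (mv 400 (both (five 1 397 401) (mv 399 (both (five 1 396 428) (mv 464 (both (five 0 429 465) (five 7 399 496)))))))))))))))) (mv 428 (both (five 7 396 396) (mv 556 (both (five 6 428 524) (mv 557 (both (five 7 428 460) (five 6 460 588))))))))))) (both (mv 557 (both (mv 588 (both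 (five 6 460 556) (mv 589 (both (five 6 492 620) (mv 590 (both (five 4 461 558) (five 4 493 622))))))) (mv 460 (both (five 7 428 428) (mv 494 (both (five 3 460 496) (mv 459 (both (five 0 458 458) (five 0 459 462))))))))) (mv 460 (both (mv 428 (both (five 7 428 557) (mv 396 (both (five 4 364 364) (five 7 396 429))))) (mv 494 (both (five 3 460 496) (mv 459 (both (five 0 458 458) (five 0 459 462))))))))))))

theorem L26 : W (S 988530863186674619578336756865110845819126775104098558876359956461909287475517697927706188055377193898211299979079754656078381545756745792834308240066213838848) (S 21755412192866237635013494702325533032713797482840681667042464707947886788988148142470830592743906974474560004632354900067858100771423658244631653968840387357396422608818268797379480125440) :=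
  check_sound Env.nil (x := 461) (t := tL26) (by decide +kernel)

def tL27 : T :=
  (both (mv 557 (both (mv 588 (both (five 6 460 556) (mv 589 (both (five 6 492 620) (mv 590 (both (five 4 461 558) (five 4 493 622))))))) (both (mv 460 (both (five 7 428 428) (mv 589 (both (five 7 460 492) (mv 590 (both (five 4 461 558) (five 4 493 622))))))) (mv 428 (both (five 7 428 460) (mv 429 (both (five 7 396 396) (mv 556 (both (five 6 428 524) (five 6 460 588)))))))))) (both (mv 429 (both (mv 396 (both (five 7 396 428) (mv 397 (both (five 7 364 364) (mv 398 (both (five 5 365 366) (five 5 397 430))))))) (both (mv 398 (both (five 5 397 430) (mv 397 (both (five 5 365 366) (mv 524 (both (five 6 396 492) (five 6 428 556))))))) (both (mv 396 (both (five 7 396 428) (mv 397 (both (five 7 364 364) (mv 524 (both (five 6 396 492) (five 6 428 556))))))) (mv 428 (both (five 7 396 396) (mv 462 (both (mv 427 (both (five 0 426 426) (mv 430 (both (five 5 397 398) (mv 395 (both (five 3 394 394) (mv 459 (both (five 2 426 458) (mv 524 (both (five 6 428 556) (mv 492 (both (five 7 395 460) (five 4 395 491))))))))))))) (both (mv 426 (both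 (five 0 426 427) (mv 463 (both (five 3 428 464) (mv 460 (both (five 0 460 496) (mv 491 (both (five 2 459 492) (mv 459 (both (five 2 458 490) (mv 458 (both (five 3 425 425) (five 1 425 457))))))))))))) (both (mv 430 (both (five 5 397 398) (mv 463 (both (five 3 428 464) (mv 460 (both (five 0 460 496) (mv 431 (both (five 2 428 432) (five 1 427 459))))))))) (mv 427 (both (five 0 426 426) (mv 430 (both (five 5 397 398) (five 0 427 463))))))))))))))) (both (mv 557 (both (mv 588 (both (five 6 460 556) (mv 589 (both (five 6 492 620) (mv 590 (both (five 4 461 558) (five 4 493 622))))))) (mv 460 (both (five 7 428 428) (mv 462 (both (five 5 429 430) (mv 463 (both (five 0 460 496) (mv 492 (both (five 2 460 464) (five 2 459 491))))))))))) (both (mv 429 (both (mv 396 (both (five 7 396 428) (mv 397 (both (five 7 364 364) (mv 398 (both (five 5 365 366) (five 5 397 430))))))) (both (mv 396 (both (five 7 396 428) (mv 397 (both (five 7 364 364) (mv 524 (both (five 6 396 492) (five 6 428 556))))))) (both (mv 398 (both (five 5 397 430) (mv 397 (both (five 5 365 366) (mv 524 (both (five 6 396 492) (five 6 428 556))))))) (mv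 396 (both (five 7 396 428) (mv 430 (both (five 5 397 398) (mv 524 (both (five 6 428 556) (mv 557 (both (five 5 429 462) (mv 590 (both (five 4 461 558) (mv 589 (both (five 4 493 622) (mv 620 (both (five 6 492 588) (mv 621 (both (five 7 492 492) (five 6 524 652))))))))))))))))))))) (both (mv 557 (both (mv 588 (both (five 6 460 556) (mv 589 (both (five 6 492 620) (mv 590 (both (five 4 461 558) (five 4 493 622))))))) (both (mv 590 (both (five 4 461 558) (mv 589 (both (five 4 493 622) (mv 492 (both (five 7 460 460) (mv 620 (both (five 6 492 588) (mv 621 (both (five 7 492 524) (five 6 524 652))))))))))) (both (mv 430 (both (five 5 429 462) (mv 429 (both (five 5 397 398) (mv 524 (both (five 6 428 556) (mv 492 (both (five 6 396 397) (mv 589 (both (five 7 492 621) (mv 590 (both (five 4 461 558) (five 4 493 622))))))))))))) (mv 430 (both (five 5 429 462) (mv 429 (both (five 5 397 398) (mv 556 (both (five 6 428 524) (five 6 460 588))))))))))) (both (mv 429 (both (mv 396 (both (five 7 396 428) (mv 397 (both (five 7 364 364) (mv 398 (both (five 5 365 366) (five 5 397 430))))))) (both (mv 398 (both (five 5 397 430) (mv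 397 (both (five 5 365 366) (mv 364 (both (five 7 364 396) (mv 365 (both (five 7 332 332) (mv 492 (both (five 6 364 460) (five 6 396 524))))))))))) (both (mv 396 (both (five 7 396 428) (mv 397 (both (five 7 364 364) (mv 366 (both (five 5 365 398) (mv 365 (both (five 5 333 334) (mv 492 (both (five 6 364 460) (five 6 396 524))))))))))) (both (mv 398 (both (five 5 397 430) (mv 397 (both (five 5 365 366) (mv 492 (both (five 6 396 524) (mv 460 (both (five 6 364 365) (mv 557 (both (five 7 428 428) (five 7 460 589))))))))))) (both (mv 396 (both (five 7 396 428) (mv 397 (both (five 7 364 364) (mv 492 (both (five 6 396 524) (mv 460 (both (five 6 364 365) (mv 557 (both (five 7 460 589) (mv 462 (both (five 5 429 430) (mv 463 (both (five 2 460 464) (five 2 459 491))))))))))))))) (mv 396 (both (five 7 396 428) (mv 430 (both (five 5 397 398) (mv 557 (both (five 5 429 462) (mv 590 (both (five 4 461 558) (mv 589 (both (five 4 493 622) (mv 492 (both (five 7 460 460) (mv 620 (both (five 6 492 588) (mv 621 (both (five 7 492 524) (five 6 524 652))))))))))))))))))))))) (mv 557 (both (mv 588 (both (five 6 460 556) (mv 589 (both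 (five 6 492 620) (mv 590 (both (five 4 461 558) (five 4 493 622))))))) (mv 428 (both (five 7 428 460) (mv 429 (both (five 7 396 396) (mv 430 (both (five 5 397 398) (five 5 429 462)))))))))))))))

theorem L27 : W (S 109836762689956576060653454582692514008639056685755466473868633686159760000617723256018554050711010861117372120970204827326767081793015384824832618803486523392) (S 18687756800238088682730388676892101144804495937067302064877870007919602591788326526048446643194430434668106119322366411700427260085353714405992795666153705954645945204386883771854855313827465003008) :=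
  check_sound Env.nil (x := 461) (t := tL27) (by decide +kernel)

def tL28 : T :=
  (both (mv 464 (both (mv 432 (both (mv 527 (both (five 6 399 400) (five 6 431 559))) (mv 401 (both (five 5 400 433) (mv 431 (both (five 7 399 399) (mv 465 (both (five 1 461 494) (mv 430 (both (five 0 429 429) (mv 466 (both (five 3 430 463) (five 3 431 467))))))))))))) (both (mv 465 (both (five 1 461 494) (mv 433 (both (five 5 432 560) (mv 401 (both (five 6 368 369) (five 6 400 497))))))) (mv 560 (both (mv 431 (both (five 7 431 463) (mv 432 (both (five 7 399 399) (mv 559 (both (five 6 431 527) (five 6 463 591))))))) (both (mv 592 (both (five 7 463 463) (mv 623 (both (five 6 495 591) (mv 624 (both (five 6 527 655) (mv 625 (both (five 4 496 593) (five 4 528 657))))))))) (mv 593 (both (five 4 464 561) (mv 592 (both (five 4 496 625) (mv 527 (both (five 7 495 624) (mv 432 (both (five 6 399 400) (five 6 431 559))))))))))))))) (both (mv 557 (both (mv 589 (both (mv 620 (both (five 6 492 588) (mv 621 (both (five 6 524 652) (mv 622 (both (five 4 493 590) (five 4 525 654))))))) (both (mv 462 (both (five 5 461 494) (mv 461 (both (five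 5 429 430) (mv 588 (both (five 6 460 556) (five 6 492 620))))))) (mv 462 (both (five 5 461 494) (mv 461 (both (five 5 429 430) (mv 590 (both (five 4 461 558) (five 4 493 622)))))))))) (both (mv 589 (both (mv 620 (both (five 6 492 588) (mv 621 (both (five 6 524 652) (mv 622 (both (five 4 493 590) (five 4 525 654))))))) (both (mv 592 (both (mv 560 (both (five 7 463 463) (mv 624 (both (five 7 495 527) (mv 625 (both (five 4 496 593) (five 4 528 657))))))) (both (mv 620 (both (five 6 492 588) (mv 621 (both (five 6 524 652) (mv 622 (both (five 4 525 654) (mv 623 (both (five 1 588 591) (mv 624 (both (five 1 589 593) (mv 656 (both (five 0 620 655) (five 0 621 657))))))))))))) (both (mv 494 (both (five 5 461 462) (mv 527 (both (five 0 492 492) (mv 560 (both (five 7 463 463) (mv 497 (both (five 5 464 465) (mv 498 (both (five 2 495 499) (mv 466 (both (five 1 463 467) (mv 530 (both (five 0 495 531) (mv 591 (both (five 6 495 623) (mv 593 (both (five 4 496 625) (mv 562 (both (five 6 465 561) (mv 563 (both (five 1 559 594) (five 4 466 595))))))))))))))))))))))) (mv 462 (both (five 5 461 494) (mv 560 (both (five 7 463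 463) (mv 623 (both (five 6 495 591) (mv 624 (both (five 7 495 527) (five 6 527 655))))))))))))) (both (mv 560 (both (mv 463 (both (five 7 463 592) (mv 431 (both (five 4 399 399) (five 4 431 527))))) (both (mv 462 (both (five 5 461 494) (mv 588 (both (five 6 492 620) (mv 559 (both (five 2 556 558) (mv 591 (both (five 1 556 590) (mv 623 (both (five 5 527 655) (five 5 495 527))))))))))) (mv 592 (both (five 7 463 463) (mv 623 (both (five 6 495 591) (mv 624 (both (five 6 527 655) (mv 625 (both (five 4 496 593) (five 4 528 657)))))))))))) (mv 463 (both (mv 431 (both (five 4 399 399) (mv 560 (both (five 4 431 527) (five 7 463 592))))) (both (mv 494 (both (five 5 461 462) (mv 527 (both (five 0 492 492) (mv 590 (both (five 4 493 622) (mv 559 (both (five 6 462 558) (mv 591 (both (five 5 495 623) (mv 592 (both (five 3 556 556) (five 4 495 624))))))))))))) (both (mv 431 (both (five 4 399 399) (mv 462 (both (five 5 461 494) (mv 497 (both (five 3 462 498) (mv 527 (both (five 4 431 560) (mv 430 (both (five 7 398 398) (five 7 430 559))))))))))) (mv 399 (both (five 4 399 431) (mv 462 (both (five 5 461 494) (mv 497 (both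 (five 3 462 498) (mv 590 (both (five 4 493 622) (mv 592 (both (five 7 463 560) (mv 591 (both (five 3 556 556) (mv 625 (both (five 0 589 624) (mv 593 (both (five 0 590 626) (five 3 557 558))))))))))))))))))))))))) (both (mv 461 (both (mv 556 (both (five 6 460 588) (mv 558 (both (five 4 461 590) (mv 559 (both (five 1 524 527) (mv 592 (both (five 0 556 591) (mv 560 (both (five 7 463 463) (five 0 557 593))))))))))) (both (mv 429 (both (mv 430 (both (five 5 397 398) (five 5 429 462))) (both (mv 396 (both (five 7 396 428) (mv 397 (both (five 7 364 364) (mv 366 (both (five 5 365 398) (mv 365 (both (five 5 333 334) (mv 367 (both (five 2 364 368) (mv 394 (both (five 1 362 395) (mv 494 (both (five 4 365 462) (mv 527 (both (five 0 492 492) (mv 556 (both (five 6 460 588) (mv 558 (both (five 1 524 559) (five 4 461 590))))))))))))))))))))) (both (mv 396 (both (five 7 396 428) (mv 397 (both (five 7 364 364) (mv 462 (both (five 5 429 430) (mv 494 (both (five 4 365 365) (mv 527 (both (five 0 492 492) (mv 556 (both (five 6 460 588) (mv 558 (both (five 1 524 559) (five 4 461 590))))))))))))))) (mv 396 (both (five 7 396 428)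 (mv 397 (both (five 7 364 364) (mv 398 (both (five 5 365 366) (five 5 397 430))))))))))) (mv 462 (both (five 5 429 430) (mv 497 (both (five 3 461 494) (mv 498 (both (five 3 462 463) (mv 467 (both (five 1 463 466) (mv 499 (both (five 1 464 468) (mv 531 (both (five 0 495 530) (five 0 496 532)))))))))))))))) (both (mv 590 (both (mv 558 (both (five 4 461 461) (mv 622 (both (five 4 493 589) (five 7 525 654))))) (both (mv 592 (both (mv 560 (both (five 7 463 463) (mv 624 (both (five 7 495 527) (mv 625 (both (five 4 496 593) (five 4 528 657))))))) (both (mv 558 (both (five 4 461 461) (mv 591 (both (five 3 557 593) (mv 556 (both (five 0 555 555) (five 0 556 559))))))) (mv 560 (both (five 7 463 463) (mv 623 (both (five 6 495 591) (mv 624 (both (five 7 495 527) (five 6 527 655)))))))))) (mv 589 (both (five 4 493 622) (mv 620 (both (five 6 492 588) (mv 621 (both (five 6 524 652) (mv 592 (both (five 2 588 591) (mv 560 (both (five 7 463 463) (mv 624 (both (five 7 495 527) (mv 625 (both (five 4 496 593) (five 4 528 657)))))))))))))))))) (both (mv 494 (both (mv 462 (both (five 5 461 589) (mv 430 (both (five 6 397 398)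 (five 5 429 461))))) (both (mv 527 (both (five 0 492 492) (mv 559 (both (mv 556 (both (five 1 524 558) (mv 588 (both (five 6 460 461) (mv 620 (both (five 6 492 589) (five 5 524 652))))))) (mv 591 (both (five 5 495 623) (mv 592 (both (five 4 495 624) (mv 560 (both (five 7 463 463) (mv 497 (both (five 5 464 465) (mv 498 (both (five 2 495 499) (mv 466 (both (five 1 463 467) (mv 530 (both (five 0 495 531) (mv 593 (both (five 4 496 625) (mv 562 (both (five 6 465 561) (mv 563 (both (five 1 559 594) (five 4 466 595))))))))))))))))))))))))) (both (mv 462 (both (mv 430 (both (five 6 397 398) (five 5 429 461))) (both (mv 461 (both (five 3 461 497) (mv 492 (both (five 0 492 527) (mv 491 (both (five 1 459 463) (five 1 458 490))))))) (mv 398 (both (five 6 397 430) (mv 492 (both (five 0 492 527) (mv 491 (both (five 1 459 463) (mv 458 (both (five 3 458 459) (mv 490 (both (five 3 457 457) (mv 522 (both (five 2 489 521) (five 2 490 523)))))))))))))))) (mv 462 (both (five 5 461 589) (mv 492 (both (five 0 492 527) (mv 491 (both (five 1 459 463) (mv 458 (both (five 3 458 459) (mv 490 (both (five 3 457 457) (mv 522 (both (five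 2 489 521) (five 2 490 523))))))))))))))))) (both (mv 462 (both (mv 430 (both (five 5 429 461) (mv 494 (both (five 6 397 398) (five 5 461 589))))) (both (mv 463 (both (mv 431 (both (five 4 399 399) (mv 560 (both (five 4 431 527) (five 7 463 592))))) (both (mv 430 (both (five 5 429 461) (mv 366 (both (five 4 366 398) (mv 431 (both (five 4 399 399) (mv 497 (both (five 3 462 498) (mv 527 (both (five 7 430 559) (mv 432 (both (five 5 399 400) (mv 433 (both (five 2 430 434) (mv 401 (both (five 1 398 402) (five 6 400 465))))))))))))))))) (mv 461 (both (five 5 429 430) (mv 498 (both (five 3 462 497) (mv 590 (both (five 4 461 558) (mv 589 (both (five 4 493 622) (mv 592 (both (five 7 463 560) (mv 591 (both (five 3 556 556) (mv 620 (both (five 2 588 621) (mv 625 (both (five 0 589 624) (mv 593 (both (five 0 590 626) (mv 562 (both (five 1 558 561) (mv 594 (both (five 6 497 530) (five 1 559 563)))))))))))))))))))))))))) (both (mv 494 (both (five 5 461 589) (mv 492 (both (five 0 492 527) (mv 491 (both (five 1 459 463) (mv 458 (both (five 3 458 459) (mv 490 (both (five 3 457 457) (mv 522 (both (five 2 489 521) (five 2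 490 523))))))))))))) (mv 430 (both (five 5 429 461) (mv 398 (both (five 6 397 494) (mv 366 (both (five 4 366 463) (mv 333 (both (five 7 333 365) (mv 334 (both (five 7 301 301) (mv 335 (both (five 5 302 303) (five 5 334 367))))))))))))))))) (both (mv 589 (both (mv 620 (both (five 6 492 588) (mv 621 (both (five 6 524 652) (mv 622 (both (five 4 493 590) (five 4 525 654))))))) (both (mv 463 (both (mv 431 (both (five 4 399 399) (mv 560 (both (five 4 431 527) (five 7 463 592))))) (both (mv 431 (both (five 4 399 399) (mv 462 (both (five 5 461 494) (mv 430 (both (five 5 429 461) (mv 497 (both (five 3 462 498) (mv 527 (both (five 7 430 559) (mv 432 (both (five 5 399 400) (mv 433 (both (five 2 430 434) (mv 401 (both (five 1 398 402) (five 6 400 465))))))))))))))))) (mv 462 (both (five 5 461 494) (mv 430 (both (five 5 429 461) (mv 366 (both (five 4 366 398) (mv 497 (both (five 3 462 498) (mv 592 (both (five 7 463 560) (mv 622 (both (five 4 493 590) (mv 621 (both (five 4 525 654) (mv 620 (both (five 6 524 652) (mv 623 (both (five 1 588 591) (mv 624 (both (five 1 589 593) (mv 656 (both (five 0 620 655) (five 0 621 657))))))))))))))))))))))))))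 (both (mv 462 (both (five 5 461 494) (mv 461 (both (five 5 429 430) (mv 588 (both (five 6 460 556) (five 6 492 620))))))) (mv 462 (both (five 5 461 494) (mv 461 (both (five 5 429 430) (mv 556 (both (five 6 460 588) (mv 590 (both (five 4 493 622) (mv 554 (both (five 0 554 555) (mv 592 (both (five 3 556 591) (mv 560 (both (five 7 463 463) (mv 624 (both (five 7 495 527) (mv 625 (both (five 4 496 593) (five 4 528 657))))))))))))))))))))))) (mv 462 (both (mv 430 (both (five 5 429 461) (mv 494 (both (five 6 397 398) (five 5 461 589))))) (both (mv 461 (both (five 5 429 430) (mv 590 (both (five 4 461 558) (mv 589 (both (five 4 493 622) (mv 620 (both (five 6 492 588) (mv 621 (both (five 6 524 652) (mv 592 (both (five 2 588 591) (mv 560 (both (five 7 463 463) (mv 624 (both (five 7 495 527) (mv 625 (both (five 4 496 593) (five 4 528 657))))))))))))))))))) (both (mv 494 (both (five 5 461 589) (mv 492 (both (five 0 492 527) (mv 491 (both (five 1 459 463) (mv 458 (both (five 3 458 459) (mv 490 (both (five 3 457 457) (mv 522 (both (five 2 489 521) (five 2 490 523))))))))))))) (mv 430 (both (five 5 429 461) (mv 398 (both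 (five 6 397 494) (mv 366 (both (five 4 366 463) (mv 333 (both (five 7 333 365) (mv 334 (both (five 7 301 301) (mv 335 (both (five 5 302 303) (five 5 334 367))))))))))))))))))))))))) (both (mv 464 (both (mv 560 (both (mv 591 (both (five 6 463 559) (mv 592 (both (five 6 495 623) (mv 593 (both (five 4 464 561) (five 4 496 625))))))) (both (mv 593 (both (five 4 464 561) (mv 592 (both (five 4 496 625) (mv 623 (both (five 6 495 591) (mv 624 (both (five 7 495 527) (five 6 527 655))))))))) (both (mv 593 (both (five 4 464 561) (mv 592 (both (five 4 496 625) (mv 527 (both (five 7 495 624) (mv 432 (both (five 6 399 400) (five 6 431 559))))))))) (mv 559 (both (five 6 463 591) (mv 432 (both (five 6 431 527) (mv 399 (both (five 7 399 431) (mv 400 (both (five 7 367 367) (mv 401 (both (five 5 368 369) (five 5 400 433))))))))))))))) (both (mv 465 (both (five 1 461 494) (mv 433 (both (five 5 432 560) (mv 401 (both (five 6 368 369) (five 6 400 497))))))) (mv 494 (both (five 1 461 465) (mv 527 (both (five 0 492 492) (mv 432 (both (five 6 399 400) (five 6 431 559)))))))))) (both (mv 560 (both (mv 464 (both (mv 433 (both (five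 5 432 465) (mv 432 (both (five 5 400 401) (mv 559 (both (five 6 431 527) (five 6 463 591))))))) (both (mv 431 (both (five 7 431 463) (mv 432 (both (five 7 399 399) (mv 559 (both (five 6 431 527) (five 6 463 591))))))) (mv 463 (both (five 7 431 431) (mv 465 (both (five 5 432 433) (mv 466 (both (five 2 463 467) (mv 434 (both (five 1 431 435) (mv 498 (both (five 0 463 499) (mv 462 (both (five 0 462 497) (mv 429 (both (five 3 429 430) (mv 461 (both (five 3 428 428) (five 2 460 492)))))))))))))))))))) (both (mv 592 (both (mv 623 (both (five 6 495 591) (mv 624 (both (five 6 527 655) (mv 625 (both (five 4 496 593) (five 4 528 657))))))) (both (mv 465 (both (five 5 464 497) (mv 464 (both (five 5 432 433) (mv 593 (both (five 4 464 561) (five 4 496 625))))))) (mv 465 (both (five 5 464 497) (mv 464 (both (five 5 432 433) (mv 591 (both (five 6 463 559) (five 6 495 623)))))))))) (mv 463 (both (five 7 463 592) (mv 431 (both (five 4 399 399) (five 4 431 527)))))))) (both (mv 494 (both (mv 464 (both (five 1 461 465) (mv 527 (both (five 0 492 492) (mv 432 (both (five 6 399 400) (five 6 431 559))))))) (both (mv 462 (both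 (mv 430 (both (five 6 397 398) (mv 557 (both (five 5 429 461) (five 5 461 589))))) (mv 492 (both (five 0 492 527) (mv 491 (both (five 1 459 463) (mv 458 (both (five 3 458 459) (mv 490 (both (five 3 457 457) (mv 522 (both (five 2 489 521) (five 2 490 523))))))))))))) (both (mv 497 (both (mv 462 (both (five 3 461 461) (mv 498 (both (five 3 462 463) (mv 467 (both (five 1 463 466) (mv 499 (both (five 1 464 468) (mv 531 (both (five 0 495 530) (five 0 496 532))))))))))) (both (mv 465 (both (five 1 461 464) (five 1 462 466))) (mv 462 (both (five 3 461 461) (mv 398 (both (five 6 397 430) (mv 463 (both (five 3 462 498) (mv 464 (both (five 1 461 465) (five 1 460 492)))))))))))) (mv 465 (both (five 1 461 464) (mv 497 (both (five 1 462 466) (mv 462 (both (five 3 461 461) (mv 498 (both (five 3 462 463) (mv 499 (both (five 2 495 527) (mv 531 (both (five 0 495 530) (five 0 496 532))))))))))))))))) (both (mv 464 (both (mv 432 (both (mv 399 (both (five 7 399 431) (mv 400 (both (five 7 367 367) (mv 401 (both (five 5 368 369) (five 5 400 433))))))) (both (mv 401 (both (five 5 400 433) (mv 400 (both (five 5 368 369) (mv 367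 (both (five 7 367 399) (mv 368 (both (five 7 335 335) (five 6 367 463))))))))) (both (mv 401 (both (five 5 400 433) (mv 400 (both (five 5 368 369) (mv 463 (both (five 6 367 368) (mv 560 (both (five 7 431 431) (five 7 463 592))))))))) (mv 431 (both (five 7 399 399) (mv 560 (both (five 7 431 463) (mv 591 (both (five 6 463 559) (mv 592 (both (five 6 495 623) (mv 593 (both (five 4 464 561) (five 4 496 625))))))))))))))) (both (mv 432 (both (mv 399 (both (five 7 399 431) (mv 400 (both (five 7 367 367) (mv 401 (both (five 5 368 369) (five 5 400 433))))))) (both (mv 401 (both (five 5 400 433) (mv 400 (both (five 5 368 369) (mv 368 (both (five 6 367 463) (mv 465 (both (five 1 461 494) (five 4 368 497))))))))) (mv 431 (both (five 7 399 399) (mv 465 (both (five 1 461 494) (mv 430 (both (five 0 429 429) (mv 466 (both (five 3 430 463) (five 3 431 467)))))))))))) (both (mv 465 (both (five 1 461 494) (mv 433 (both (five 5 432 560) (mv 401 (both (five 6 368 369) (five 6 400 497))))))) (mv 494 (both (five 1 461 465) (mv 463 (both (five 1 460 492) (mv 431 (both (five 4 399 399) (five 7 431 560))))))))))) (both (mv 463 (both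 (mv 431 (both (five 4 399 399) (mv 560 (both (five 7 431 464) (five 7 463 592))))) (both (mv 462 (both (mv 497 (both (five 3 462 498) (mv 461 (both (five 0 461 464) (five 3 461 494))))) (both (mv 494 (both (mv 492 (both (five 1 460 464) (five 0 492 527))) (mv 430 (both (five 6 397 398) (mv 557 (both (five 5 429 461) (five 5 461 589))))))) (both (mv 497 (both (five 3 462 498) (mv 461 (both (five 0 461 464) (mv 430 (both (five 5 429 557) (mv 398 (both (five 4 366 366) (five 5 397 429))))))))) (both (mv 494 (both (mv 430 (both (five 6 397 398) (mv 497 (both (five 3 462 498) (mv 559 (both (five 7 430 527) (mv 560 (both (five 7 463 592) (mv 589 (both (five 5 461 557) (mv 591 (both (five 6 463 464) (mv 590 (both (five 1 556 588) (mv 561 (both (five 2 557 558) (five 2 558 562))))))))))))))))) (both (mv 492 (both (five 1 460 464) (five 1 459 491))) (mv 492 (both (five 1 459 491) (five 0 492 527)))))) (mv 497 (both (five 3 462 498) (mv 461 (both (five 3 461 494) (mv 430 (both (five 5 429 557) (mv 398 (both (five 4 366 366) (five 5 397 429)))))))))))))) (both (mv 527 (both (mv 559 (both (mv 590 (both (five 6 462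 558) (mv 591 (both (five 6 494 622) (five 5 495 623))))) (mv 432 (both (five 5 431 464) (mv 462 (both (five 7 430 430) (mv 494 (both (five 0 492 492) (mv 497 (both (five 3 461 461) (five 3 462 498))))))))))) (both (mv 462 (both (mv 431 (both (five 4 399 399) (mv 430 (both (five 7 398 398) (mv 432 (both (five 5 399 400) (mv 433 (both (five 2 430 434) (mv 401 (both (five 1 398 402) (five 5 400 464))))))))))) (mv 494 (both (five 0 492 492) (mv 497 (both (five 3 461 461) (five 3 462 498))))))) (both (mv 431 (both (five 4 399 399) (mv 430 (both (five 7 398 398) (mv 462 (both (five 7 430 559) (mv 494 (both (five 0 492 492) (mv 497 (both (five 3 461 461) (five 3 462 498))))))))))) (mv 431 (both (five 4 399 399) (mv 432 (both (five 5 399 400) (mv 559 (both (five 5 431 464) (mv 590 (both (five 6 462 558) (mv 591 (both (five 6 494 622) (five 5 495 623))))))))))))))) (mv 431 (both (five 4 399 399) (mv 560 (both (five 4 431 527) (five 7 463 592))))))))) (both (mv 464 (both (mv 560 (both (mv 431 (both (five 7 431 463) (mv 432 (both (five 7 399 399) (mv 559 (both (five 6 431 527) (five 6 463 591))))))) (both (mv 592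 (both (five 7 463 463) (mv 623 (both (five 6 495 591) (mv 624 (both (five 6 527 655) (mv 625 (both (five 4 496 593) (five 4 528 657))))))))) (mv 593 (both (five 4 464 561) (mv 592 (both (five 4 496 625) (mv 527 (both (five 7 495 624) (mv 432 (both (five 6 399 400) (five 6 431 559)))))))))))) (both (mv 494 (both (five 1 461 465) (mv 527 (both (five 0 492 492) (mv 432 (both (five 6 399 400) (five 6 431 559))))))) (mv 494 (both (five 1 461 465) (mv 463 (both (five 1 460 492) (mv 431 (both (five 4 399 399) (five 7 431 560)))))))))) (mv 463 (both (mv 431 (both (five 4 399 399) (mv 560 (both (five 7 431 464) (five 7 463 592))))) (both (mv 494 (both (mv 492 (both (five 1 460 464) (five 0 492 527))) (both (mv 492 (both (five 0 492 527) (mv 462 (both (five 1 459 491) (mv 430 (both (five 6 397 398) (mv 557 (both (five 5 429 461) (five 5 461 589))))))))) (mv 465 (both (five 1 461 464) (mv 497 (both (five 1 462 466) (mv 462 (both (five 3 461 461) (five 3 462 498)))))))))) (mv 431 (both (five 4 399 399) (mv 560 (both (five 4 431 527) (five 7 463 592))))))))))))))))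

theorem L28 : W (S 988530863186674619578336756865110845819126775104098558876359956461909287475517697927706188055377193898211299979079754656078381545756745792834308240066213838848) (S 1139953163509198678325819651707873180353267355940524497888032922885138232687664787822313379483438945329724056297886804999985319456904113373691457704718710291215955180547980526442403265731505372004352) :=
  check_sound Env.nil (x := 496) (t := tL28) (by decide +kernel)

def tL29 : T :=
  (both (mv 589 (both (mv 620 (both (five 6 492 588) (mv 621 (both (five 6 524 652) (mv 622 (both (five 4 493 590) (five 4 525 654))))))) (both (mv 462 (both (five 5 461 494) (mv 461 (both (five 5 429 430) (mv 588 (both (five 6 460 556) (five 6 492 620))))))) (mv 462 (both (five 5 461 494) (mv 461 (both (five 5 429 430) (mv 590 (both (five 4 461 558) (five 4 493 622)))))))))) (both (mv 524 (both (mv 494 (both (five 2 492 496) (mv 523 (both (five 2 491 492) (five 1 490 522))))) (both (mv 461 (both (mv 430 (both (five 5 429 462) (mv 429 (both (five 5 397 398) (mv 396 (both (five 7 396 428) (mv 397 (both (five 7 364 364) (five 6 396 492)))))))))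 (mv 556 (both (five 6 460 588) (mv 558 (both (five 4 461 590) (mv 559 (both (five 3 523 523) (five 3 524 560))))))))) (both (mv 461 (both (mv 556 (both (five 6 428 429) (five 6 460 588))) (both (mv 430 (both (five 5 429 462) (mv 429 (both (five 5 397 398) (mv 396 (both (five 7 396 428) (mv 397 (both (five 7 364 364) (five 6 396 492))))))))) (mv 430 (both (five 5 429 462) (mv 496 (both (five 2 492 494) (mv 556 (both (five 6 460 588) (mv 558 (both (five 4 461 590) (mv 560 (both (five 3 524 559) (mv 463 (both (five 7 463 592) (mv 431 (both (five 4 399 399) (five 7 431 464)))))))))))))))))) (mv 461 (both (mv 556 (both (five 6 428 429) (five 6 460 588))) (mv 496 (both (five 2 492 494) (mv 558 (both (five 4 461 590) (mv 522 (both (five 0 522 523) (mv 560 (both (five 3 524 559) (mv 463 (both (five 7 463 592) (mv 431 (both (five 4 399 399) (five 7 431 464))))))))))))))))))) (both (mv 589 (both (mv 620 (both (five 6 492 588) (mv 621 (both (five 6 524 652) (mv 622 (both (five 4 493 590) (five 4 525 654))))))) (mv 494 (both (five 5 461 462) (mv 524 (both (five 2 492 496) (mv 523 (both (five 2 491 492) (five 1 490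 522))))))))) (both (mv 589 (both (mv 620 (both (five 6 492 588) (mv 621 (both (five 6 524 652) (mv 622 (both (five 4 493 590) (five 4 525 654))))))) (both (mv 622 (both (five 4 493 590) (mv 621 (both (five 4 525 654) (mv 652 (both (five 6 524 620) (mv 653 (both (five 6 556 684) (mv 524 (both (five 7 524 556) (five 7 492 492))))))))))) (both (mv 622 (both (five 4 493 590) (mv 621 (both (five 4 525 654) (mv 524 (both (five 7 492 492) (mv 556 (both (five 7 524 653) (mv 461 (both (five 6 428 429) (five 6 460 588))))))))))) (both (mv 621 (both (mv 620 (both (five 6 492 588) (five 6 524 652))) (both (mv 524 (both (five 7 492 492) (mv 556 (both (five 7 524 653) (mv 461 (both (five 6 428 429) (five 6 460 588))))))) (mv 652 (both (five 6 524 620) (mv 653 (both (five 6 556 684) (mv 524 (both (five 7 524 556) (five 7 492 492)))))))))) (mv 588 (both (five 6 492 620) (mv 556 (both (five 6 460 461) (mv 590 (both (five 4 493 622) (mv 591 (both (five 3 555 555) (five 3 556 592)))))))))))))) (mv 494 (both (mv 524 (both (five 2 492 496) (mv 523 (both (five 2 491 492) (five 1 490 522))))) (mv 462 (both (five 5 461 589) (mv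 430 (both (five 6 397 398) (five 5 429 461)))))))))))

theorem L29 : W (S 988530863186674619578336756865110845819126775104098558876359956461909287475517697927706188055377193898211299979079754656078381545756745792834308240066213838848) (S 80263304292624195905874739376933853131265654351189945447993809496427852862768965375366336453555062263347404136720051362386496820554578368248010979499574360996739069805934528199831693318860099357494749429760) :=
  check_sound Env.nil (x := 557) (t := tL29) (by decide +kernel)

def tL30 : T :=
  (both (ref 0) (both (mv 557 (both (mv 589 (both (mv 620 (both (five 6 492 588) (mv 621 (both (five 6 524 652) (mv 622 (both (five 4 493 590) (five 4 525 654))))))) (both (mv 590 (both (five 4 493 622) (mv 461 (both (five 4 461 558) (mv 430 (both (five 5 429 462) (mv 429 (both (five 5 397 398) (mv 396 (both (five 7 396 428) (mv 397 (both (five 7 364 364) (mv 524 (both (five 6 396 492) (five 6 428 556))))))))))))))) (both (mv 620 (both (five 6 492 588) (mv 621 (both (five 6 524 652) (mv 654 (both (five 4 525 622) (mv 653 (both (five 4 557 686) (mv 524 (both (five 7 524 556) (five 7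 492 492))))))))))) (mv 620 (both (five 6 492 588) (mv 621 (both (five 6 524 652) (mv 524 (both (five 7 492 492) (mv 556 (both (five 7 524 653) (mv 461 (both (five 6 428 429) (mv 558 (both (five 4 461 590) (mv 559 (both (five 3 523 523) (five 3 524 560))))))))))))))))))) (both (mv 589 (both (mv 620 (both (five 6 492 588) (mv 621 (both (five 6 524 652) (mv 622 (both (five 4 493 590) (five 4 525 654))))))) (both (mv 620 (both (five 6 492 588) (mv 621 (both (five 6 524 652) (mv 654 (both (five 4 525 622) (mv 653 (both (five 4 557 686) (mv 524 (both (five 7 524 556) (five 7 492 492))))))))))) (both (mv 622 (both (five 4 493 590) (mv 621 (both (five 4 525 654) (mv 652 (both (five 6 524 620) (mv 653 (both (five 6 556 684) (mv 524 (both (five 7 524 556) (five 7 492 492))))))))))) (both (mv 621 (both (mv 622 (both (five 4 493 590) (five 4 525 654))) (both (mv 524 (both (five 7 492 492) (mv 653 (both (five 7 524 556) (mv 684 (both (five 6 556 652) (mv 685 (both (five 6 588 716) (mv 686 (both (five 4 557 654) (five 4 589 718))))))))))) (mv 524 (both (five 7 492 492) (mv 556 (both (five 7 524 653) (mv 590 (both (five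 4 493 622) (mv 555 (both (five 0 554 554) (mv 591 (both (five 0 555 558) (five 3 555 588)))))))))))))) (both (mv 621 (both (mv 620 (both (five 6 492 588) (five 6 524 652))) (both (mv 524 (both (five 7 492 492) (mv 653 (both (five 7 524 556) (mv 684 (both (five 6 556 652) (mv 685 (both (five 6 588 716) (mv 686 (both (five 4 557 654) (five 4 589 718))))))))))) (mv 558 (both (mv 524 (both (five 7 492 492) (mv 523 (both (five 0 522 522) (mv 559 (both (five 3 523 556) (five 3 524 560))))))) (both (mv 524 (both (five 7 492 492) (mv 653 (both (five 7 524 556) (mv 685 (both (five 5 557 590) (mv 686 (both (five 4 557 654) (five 4 589 718))))))))) (mv 588 (both (five 6 492 620) (mv 559 (both (five 2 556 560) (mv 587 (both (five 1 554 586) (five 1 555 590))))))))))))) (mv 588 (both (five 6 492 620) (mv 558 (both (mv 559 (both (five 2 556 560) (mv 556 (both (five 2 555 587) (five 1 524 527))))) (both (mv 587 (both (five 1 554 586) (mv 590 (both (five 4 493 622) (mv 618 (both (five 2 586 619) (mv 555 (both (five 3 554 554) (mv 591 (both (five 3 555 556) (mv 623 (both (five 0 588 624) (mv 687 (both (five 7 558 655) (mv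 592 (both (five 3 557 593) (mv 560 (both (five 1 557 561) (five 6 495 496))))))))))))))))))) (both (mv 587 (both (five 1 554 586) (mv 559 (both (five 2 555 556) (five 1 555 590))))) (both (mv 590 (both (five 4 493 622) (mv 559 (both (five 2 556 560) (mv 556 (both (five 1 524 527) (mv 591 (both (five 0 556 592) (five 0 555 555))))))))) (mv 559 (both (five 2 556 560) (mv 587 (both (five 1 554 586) (five 1 555 590)))))))))))))))))) (both (mv 590 (both (mv 558 (both (five 4 461 461) (mv 622 (both (five 4 493 589) (five 7 525 654))))) (both (mv 592 (both (mv 589 (both (five 4 493 622) (mv 620 (both (five 6 492 588) (mv 621 (both (five 2 588 591) (five 6 524 652))))))) (mv 560 (both (mv 463 (both (five 7 463 496) (mv 527 (both (five 4 431 431) (five 4 463 559))))) (both (mv 624 (both (five 7 495 527) (mv 655 (both (five 6 527 623) (mv 656 (both (five 6 559 687) (mv 657 (both (five 4 560 689) (five 4 528 625))))))))) (mv 496 (both (five 7 463 463) (mv 465 (both (five 5 464 497) (mv 464 (both (five 5 432 433) (mv 593 (both (five 4 464 561) (five 4 496 625)))))))))))))) (mv 560 (both (mv 592 (both (mv 527 (both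 (five 7 495 624) (mv 463 (both (five 4 463 559) (five 4 431 431))))) (both (mv 496 (both (five 7 463 463) (mv 623 (both (five 6 495 591) (mv 624 (both (five 6 527 655) (mv 625 (both (five 4 496 593) (five 4 528 657))))))))) (both (mv 463 (both (five 7 463 496) (mv 527 (both (five 4 431 431) (five 4 463 559))))) (mv 624 (both (five 7 495 527) (mv 623 (both (five 6 527 655) (mv 496 (both (five 6 495 591) (mv 593 (both (five 4 496 625) (mv 464 (both (five 4 464 561) (mv 465 (both (five 5 464 497) (five 5 432 433))))))))))))))))) (both (mv 461 (both (five 4 461 558) (mv 430 (both (five 5 429 462) (mv 429 (both (five 5 397 398) (mv 396 (both (five 7 396 428) (mv 397 (both (five 7 364 364) (mv 394 (both (five 0 394 395) (mv 431 (both (five 3 396 432) (mv 463 (both (five 4 431 527) (mv 496 (both (five 4 399 399) (five 7 431 464))))))))))))))))))) (both (mv 558 (both (five 4 461 461) (mv 559 (both (five 3 524 524) (mv 592 (both (five 0 557 593) (mv 624 (both (five 7 495 527) (mv 655 (both (five 6 527 623) (mv 656 (both (five 6 559 687) (mv 657 (both (five 4 560 689) (five 4 528 625))))))))))))))) (mv 558 (both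 (five 4 461 461) (mv 559 (both (five 3 524 524) (mv 592 (both (five 0 557 593) (mv 496 (both (five 7 463 463) (mv 591 (both (five 6 463 464) (five 6 495 623)))))))))))))))))) (both (mv 560 (both (mv 558 (both (mv 559 (both (five 3 524 524) (mv 527 (both (five 1 524 556) (mv 592 (both (five 7 495 624) (five 4 463 463))))))) (mv 590 (both (five 4 461 461) (mv 622 (both (five 4 493 589) (five 7 525 654))))))) (both (mv 558 (both (mv 590 (both (five 4 461 461) (mv 622 (both (five 4 493 589) (five 7 525 654))))) (both (mv 559 (both (five 3 524 524) (mv 527 (both (five 1 524 556) (mv 463 (both (five 4 431 431) (mv 462 (both (five 7 430 430) (mv 464 (both (five 5 431 432) (mv 461 (both (five 2 460 492) (mv 496 (both (five 0 461 497) (five 5 463 591))))))))))))))) (mv 559 (both (five 3 524 524) (mv 527 (both (five 1 524 556) (mv 590 (both (five 6 462 463) (mv 622 (both (five 4 493 589) (five 7 525 654)))))))))))) (both (mv 592 (both (mv 527 (both (five 7 495 624) (mv 463 (both (five 4 463 559) (five 4 431 431))))) (both (mv 496 (both (five 7 463 463) (mv 623 (both (five 6 495 591) (mv 624 (both (five 6 527 655)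 (mv 625 (both (five 4 496 593) (five 4 528 657))))))))) (both (mv 463 (both (five 7 463 496) (mv 527 (both (five 4 431 431) (five 4 463 559))))) (mv 624 (both (five 7 495 527) (mv 623 (both (five 6 527 655) (mv 496 (both (five 6 495 591) (mv 593 (both (five 4 496 625) (mv 464 (both (five 4 464 561) (mv 465 (both (five 5 464 497) (five 5 432 433))))))))))))))))) (both (mv 558 (both (mv 590 (both (five 4 461 461) (mv 622 (both (five 4 493 589) (five 7 525 654))))) (mv 559 (both (five 3 524 524) (mv 592 (both (five 0 557 593) (mv 591 (both (five 0 556 556) (mv 623 (both (five 5 527 655) (five 6 495 496))))))))))) (mv 592 (both (mv 624 (both (five 7 495 527) (mv 623 (both (five 6 527 655) (mv 657 (both (five 4 528 625) (mv 656 (both (five 4 560 689) (mv 622 (both (five 0 621 621) (mv 590 (both (five 4 493 589) (mv 558 (both (five 4 461 461) (five 7 525 654))))))))))))))) (both (mv 496 (both (five 7 463 463) (mv 465 (both (five 5 464 497) (mv 464 (both (five 5 432 433) (mv 593 (both (five 4 464 561) (five 4 496 625))))))))) (mv 463 (both (five 7 463 496) (mv 527 (both (five 4 431 431) (five 7 495 624)))))))))))))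 (both (mv 589 (both (mv 620 (both (five 6 492 588) (mv 621 (both (five 6 524 652) (mv 622 (both (five 4 493 590) (five 4 525 654))))))) (both (mv 622 (both (five 4 493 590) (mv 621 (both (five 4 525 654) (mv 652 (both (five 6 524 620) (mv 653 (both (five 6 556 684) (mv 524 (both (five 7 524 556) (five 7 492 492))))))))))) (both (mv 622 (both (five 4 493 590) (mv 621 (both (five 4 525 654) (mv 524 (both (five 7 492 492) (mv 556 (both (five 7 524 653) (mv 461 (both (five 6 428 429) (five 6 460 588))))))))))) (both (mv 621 (both (mv 620 (both (five 6 492 588) (five 6 524 652))) (both (mv 524 (both (five 7 492 492) (mv 556 (both (five 7 524 653) (mv 461 (both (five 6 428 429) (five 6 460 588))))))) (mv 652 (both (five 6 524 620) (mv 653 (both (five 6 556 684) (mv 524 (both (five 7 524 556) (five 7 492 492)))))))))) (mv 588 (both (five 6 492 620) (mv 556 (both (five 6 460 461) (mv 590 (both (five 4 493 622) (mv 591 (both (five 3 555 555) (five 3 556 592)))))))))))))) (both (mv 463 (both (mv 560 (both (mv 431 (both (five 4 431 527) (mv 496 (both (five 4 399 399) (five 7 431 464))))) (both (mv 527 (both (five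 4 431 431) (mv 592 (both (five 4 463 559) (five 7 495 624))))) (both (mv 496 (both (five 7 463 592) (mv 431 (both (five 4 399 399) (five 7 431 464))))) (mv 592 (both (five 7 463 496) (mv 527 (both (five 4 463 559) (five 7 495 624))))))))) (both (mv 461 (both (mv 556 (both (five 6 460 588) (mv 429 (both (five 6 428 524) (mv 396 (both (five 7 396 428) (mv 397 (both (five 7 364 364) (mv 398 (both (five 5 365 366) (five 5 397 430))))))))))) (both (mv 399 (both (mv 431 (both (five 4 399 496) (mv 366 (both (five 7 366 398) (mv 367 (both (five 7 334 334) (mv 368 (both (five 5 335 336) (five 5 367 400))))))))) (both (mv 556 (both (five 6 460 588) (mv 429 (both (five 6 428 524) (mv 396 (both (five 7 396 428) (mv 397 (both (five 7 364 364) (mv 398 (both (five 5 365 366) (mv 368 (both (five 1 364 367) (mv 400 (both (five 1 365 369) (mv 432 (both (five 0 397 433) (five 6 367 464))))))))))))))))) (both (mv 431 (both (five 4 399 496) (mv 366 (both (five 7 366 398) (mv 334 (both (five 7 334 367) (mv 556 (both (five 6 460 588) (mv 429 (both (five 6 428 524) (mv 396 (both (five 7 396 428) (mv 397 (both (five 7 364 364)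 (five 5 333 365))))))))))))))) (both (mv 431 (both (five 4 399 496) (mv 368 (both (five 5 367 400) (mv 367 (both (five 5 335 336) (mv 334 (both (five 7 334 366) (mv 335 (both (five 7 302 302) (mv 332 (both (five 0 332 333) (mv 369 (both (five 3 334 370) (mv 464 (both (five 4 335 432) (mv 462 (both (five 2 460 492) (mv 429 (both (five 3 428 428) (mv 556 (both (five 6 428 524) (five 6 460 588))))))))))))))))))))))) (both (mv 431 (both (five 4 399 496) (mv 368 (both (five 5 367 400) (mv 367 (both (five 5 335 336) (mv 556 (both (five 6 460 588) (mv 429 (both (five 6 428 524) (mv 396 (both (five 7 396 428) (mv 397 (both (five 7 364 364) (five 1 364 398))))))))))))))) (mv 431 (both (five 4 399 496) (mv 368 (both (five 5 367 400) (mv 398 (both (five 7 366 366) (mv 556 (both (five 6 460 588) (mv 429 (both (five 6 428 524) (mv 396 (both (five 7 396 428) (mv 397 (both (five 7 364 364) (five 0 396 432))))))))))))))))))))) (mv 462 (both (five 5 429 430) (mv 464 (both (five 2 460 492) (mv 432 (both (five 1 429 433) (mv 400 (both (five 6 367 368) (mv 496 (both (five 0 461 497) (five 6 399 527)))))))))))))) (both (mv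 461 (both (mv 556 (both (five 6 460 588) (mv 429 (both (five 6 428 524) (mv 396 (both (five 7 396 428) (mv 397 (both (five 7 364 364) (mv 398 (both (five 5 365 366) (five 5 397 430))))))))))) (both (mv 462 (both (five 5 429 430) (mv 464 (both (five 2 460 492) (mv 432 (both (five 1 429 433) (mv 400 (both (five 6 367 368) (mv 496 (both (five 0 461 497) (five 6 399 527))))))))))) (mv 556 (both (five 6 460 588) (mv 559 (both (mv 429 (both (five 6 428 524) (mv 428 (both (five 7 396 396) (mv 464 (both (five 3 428 462) (mv 527 (both (five 5 431 432) (mv 591 (both (five 5 463 496) (mv 592 (both (five 4 463 560) (five 4 495 624))))))))))))) (both (mv 524 (both (five 6 428 429) (mv 558 (both (five 3 523 523) (five 3 524 560))))) (mv 527 (both (five 1 524 558) (mv 464 (both (five 5 431 432) (mv 462 (both (five 2 460 492) (mv 496 (both (five 0 461 497) (five 5 463 591))))))))))))))))) (both (mv 461 (both (mv 556 (both (five 6 460 588) (mv 429 (both (five 6 428 524) (mv 396 (both (five 7 396 428) (mv 397 (both (five 7 364 364) (mv 398 (both (five 5 365 366) (five 5 397 430))))))))))) (both (mv 399 (both (mv 431 (both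 (five 4 399 496) (mv 366 (both (five 7 366 398) (mv 367 (both (five 7 334 334) (mv 368 (both (five 5 335 336) (five 5 367 400))))))))) (both (mv 556 (both (five 6 460 588) (mv 429 (both (five 6 428 524) (mv 396 (both (five 7 396 428) (mv 397 (both (five 7 364 364) (mv 398 (both (five 5 365 366) (mv 368 (both (five 1 364 367) (mv 400 (both (five 1 365 369) (mv 432 (both (five 0 397 433) (five 6 367 464))))))))))))))))) (both (mv 431 (both (five 4 399 496) (mv 366 (both (five 7 366 398) (mv 334 (both (five 7 334 367) (mv 556 (both (five 6 460 588) (mv 429 (both (five 6 428 524) (mv 396 (both (five 7 396 428) (mv 397 (both (five 7 364 364) (five 5 333 365))))))))))))))) (both (mv 431 (both (five 4 399 496) (mv 368 (both (five 5 367 400) (mv 367 (both (five 5 335 336) (mv 334 (both (five 7 334 366) (mv 335 (both (five 7 302 302) (mv 332 (both (five 0 332 333) (mv 369 (both (five 3 334 370) (mv 464 (both (five 4 335 432) (mv 462 (both (five 2 460 492) (mv 429 (both (five 3 428 428) (mv 556 (both (five 6 428 524) (five 6 460 588))))))))))))))))))))))) (both (mv 431 (both (five 4 399 496) (mv 368 (both (five 5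 367 400) (mv 367 (both (five 5 335 336) (mv 556 (both (five 6 460 588) (mv 429 (both (five 6 428 524) (mv 396 (both (five 7 396 428) (mv 397 (both (five 7 364 364) (five 1 364 398))))))))))))))) (mv 431 (both (five 4 399 496) (mv 368 (both (five 5 367 400) (mv 398 (both (five 7 366 366) (mv 556 (both (five 6 460 588) (mv 429 (both (five 6 428 524) (mv 396 (both (five 7 396 428) (mv 397 (both (five 7 364 364) (five 0 396 432))))))))))))))))))))) (mv 462 (both (five 5 429 430) (mv 464 (both (five 2 460 492) (mv 432 (both (five 1 429 433) (mv 368 (both (five 6 367 400) (mv 496 (both (five 0 461 497) (mv 431 (both (five 4 399 399) (five 7 431 560)))))))))))))))) (both (mv 461 (both (mv 556 (both (five 6 460 588) (mv 429 (both (five 6 428 524) (mv 396 (both (five 7 396 428) (mv 397 (both (five 7 364 364) (mv 398 (both (five 5 365 366) (five 5 397 430))))))))))) (both (mv 527 (both (mv 560 (both (five 4 431 431) (mv 592 (both (five 4 463 559) (five 7 495 624))))) (both (mv 556 (both (five 6 460 588) (mv 429 (both (five 6 428 524) (mv 428 (both (five 7 396 396) (mv 464 (both (five 3 428 462) (mv 559 (both (five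 5 431 432) (five 1 524 558))))))))))) (mv 431 (both (five 4 431 560) (mv 400 (both (five 5 399 432) (mv 368 (both (five 5 367 399) (mv 556 (both (five 6 460 588) (mv 429 (both (five 6 428 524) (mv 396 (both (five 7 396 428) (mv 397 (both (five 7 364 364) (mv 366 (both (five 5 365 398) (mv 365 (both (five 5 333 334) (five 2 364 367)))))))))))))))))))))) (mv 462 (both (five 5 429 430) (mv 464 (both (five 2 460 492) (mv 432 (both (five 1 429 433) (mv 400 (both (five 6 367 368) (mv 527 (both (five 5 399 431) (five 5 431 559)))))))))))))) (mv 431 (both (mv 399 (both (five 4 399 496) (mv 398 (both (five 7 366 366) (mv 527 (both (five 7 398 430) (five 4 431 560))))))) (both (mv 399 (both (five 4 399 496) (mv 366 (both (five 7 366 398) (mv 367 (both (five 7 334 334) (mv 368 (both (five 5 335 336) (five 5 367 400))))))))) (both (mv 527 (both (five 4 431 560) (mv 400 (both (five 5 399 432) (mv 430 (both (five 7 398 398) (mv 462 (both (five 5 429 461) (five 7 430 559))))))))) (mv 399 (both (five 4 399 496) (mv 400 (both (five 5 367 368) (mv 527 (both (five 5 399 432) (five 4 431 560))))))))))))))))) (mv 463 (both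 (mv 560 (both (mv 431 (both (five 4 431 527) (mv 496 (both (five 4 399 399) (five 7 431 464))))) (both (mv 527 (both (five 4 431 431) (mv 592 (both (five 4 463 559) (five 7 495 624))))) (both (mv 496 (both (five 7 463 592) (mv 431 (both (five 4 399 399) (five 7 431 464))))) (mv 592 (both (five 7 463 496) (mv 527 (both (five 4 463 559) (five 7 495 624))))))))) (both (mv 461 (both (mv 588 (both (five 6 460 556) (mv 589 (both (five 6 492 620) (mv 590 (both (five 4 461 558) (five 4 493 622))))))) (mv 462 (both (five 5 429 430) (mv 464 (both (five 2 460 492) (mv 432 (both (five 1 429 433) (mv 400 (both (five 6 367 368) (mv 496 (both (five 0 461 497) (five 6 399 527))))))))))))) (both (mv 461 (both (mv 588 (both (five 6 460 556) (mv 589 (both (five 6 492 620) (mv 590 (both (five 4 461 558) (five 4 493 622))))))) (mv 462 (both (five 5 429 430) (mv 464 (both (five 2 460 492) (mv 432 (both (five 1 429 433) (mv 368 (both (five 6 367 400) (mv 496 (both (five 0 461 497) (mv 431 (both (five 4 399 399) (five 7 431 560))))))))))))))) (mv 461 (both (mv 588 (both (five 6 460 556) (mv 589 (both (five 6 492 620) (mv 590 (both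 (five 4 461 558) (five 4 493 622))))))) (mv 430 (both (five 5 429 462) (mv 398 (both (five 5 397 429) (mv 431 (both (five 7 398 527) (mv 366 (both (five 4 334 334) (five 7 366 399)))))))))))))))))))))) (both (mv 557 (both (mv 589 (both (mv 620 (both (five 6 492 588) (mv 621 (both (five 6 524 652) (mv 622 (both (five 4 493 590) (five 4 525 654))))))) (both (mv 462 (both (five 5 461 494) (mv 461 (both (five 5 429 430) (mv 588 (both (five 6 460 556) (five 6 492 620))))))) (mv 462 (both (five 5 461 494) (mv 461 (both (five 5 429 430) (mv 590 (both (five 4 461 558) (five 4 493 622)))))))))) (both (mv 461 (both (mv 430 (both (five 5 429 462) (mv 429 (both (five 5 397 398) (mv 556 (both (five 6 428 524) (five 6 460 588))))))) (both (mv 429 (both (mv 430 (both (five 5 397 398) (five 5 429 462))) (both (mv 396 (both (five 7 396 428) (mv 397 (both (five 7 364 364) (mv 492 (both (five 6 396 524) (mv 494 (both (five 0 492 527) (mv 463 (both (five 1 460 464) (mv 491 (both (five 1 459 462) (mv 458 (both (five 3 458 459) (mv 490 (both (five 3 457 457) (mv 522 (both (five 2 489 521) (five 2 490 523))))))))))))))))))) (mv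 396 (both (five 7 396 428) (mv 397 (both (five 7 364 364) (mv 398 (both (five 5 365 366) (five 5 397 430)))))))))) (both (mv 556 (both (five 6 460 588) (mv 558 (both (five 4 461 590) (mv 559 (both (five 1 524 527) (mv 524 (both (five 3 523 523) (five 3 524 560))))))))) (mv 429 (both (mv 430 (both (five 5 397 398) (five 5 429 462))) (both (mv 396 (both (five 7 396 428) (mv 397 (both (five 7 364 364) (mv 366 (both (five 5 365 398) (mv 365 (both (five 5 333 334) (mv 367 (both (five 2 364 368) (mv 394 (both (five 1 362 395) (mv 494 (both (five 4 365 462) (mv 527 (both (five 0 492 492) (mv 556 (both (five 6 460 588) (mv 558 (both (five 1 524 559) (five 4 461 590))))))))))))))))))))) (both (mv 396 (both (five 7 396 428) (mv 397 (both (five 7 364 364) (mv 462 (both (five 5 429 430) (mv 494 (both (five 4 365 365) (mv 527 (both (five 0 492 492) (mv 556 (both (five 6 460 588) (mv 558 (both (five 1 524 559) (five 4 461 590))))))))))))))) (mv 396 (both (five 7 396 428) (mv 397 (both (five 7 364 364) (mv 398 (both (five 5 365 366) (five 5 397 430))))))))))))))) (both (mv 589 (both (mv 620 (both (five 6 492 588) (mv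 621 (both (five 6 524 652) (mv 622 (both (five 4 493 590) (five 4 525 654))))))) (mv 494 (both (five 5 461 462) (mv 492 (both (five 0 492 527) (mv 491 (both (mv 523 (both (five 2 490 522) (five 2 491 524))) (both (mv 458 (both (five 3 458 459) (mv 463 (both (five 1 460 464) (mv 490 (both (five 3 457 457) (mv 489 (both (five 0 489 524) (mv 521 (both (five 2 488 520) (five 2 489 522))))))))))) (both (mv 458 (both (five 3 458 459) (mv 490 (both (five 3 457 457) (mv 522 (both (five 2 489 521) (five 2 490 523))))))) (mv 458 (both (five 3 458 459) (mv 463 (both (five 1 460 464) (mv 490 (both (five 3 457 457) (mv 524 (both (five 0 489 489) (five 2 491 523))))))))))))))))))) (both (mv 589 (both (mv 620 (both (five 6 492 588) (mv 621 (both (five 6 524 652) (mv 622 (both (five 4 493 590) (five 4 525 654))))))) (both (mv 622 (both (five 4 493 590) (mv 621 (both (five 4 525 654) (mv 652 (both (five 6 524 620) (mv 653 (both (five 6 556 684) (mv 524 (both (five 7 524 556) (five 7 492 492))))))))))) (both (mv 622 (both (five 4 493 590) (mv 621 (both (five 4 525 654) (mv 524 (both (five 7 492 492) (mv 556 (both (five 7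 524 653) (mv 461 (both (five 6 428 429) (five 6 460 588))))))))))) (both (mv 621 (both (mv 620 (both (five 6 492 588) (five 6 524 652))) (both (mv 524 (both (five 7 492 492) (mv 556 (both (five 7 524 653) (mv 461 (both (five 6 428 429) (five 6 460 588))))))) (mv 652 (both (five 6 524 620) (mv 653 (both (five 6 556 684) (mv 524 (both (five 7 524 556) (five 7 492 492)))))))))) (mv 588 (both (five 6 492 620) (mv 556 (both (five 6 460 461) (mv 590 (both (five 4 493 622) (mv 591 (both (five 3 555 555) (five 3 556 592)))))))))))))) (mv 494 (both (mv 462 (both (five 5 461 589) (mv 430 (both (five 6 397 398) (five 5 429 461))))) (mv 492 (both (five 0 492 527) (mv 491 (both (mv 523 (both (five 2 490 522) (five 2 491 524))) (both (mv 458 (both (five 3 458 459) (mv 463 (both (five 1 460 464) (mv 490 (both (five 3 457 457) (mv 489 (both (five 0 489 524) (mv 521 (both (five 2 488 520) (five 2 489 522))))))))))) (both (mv 458 (both (five 3 458 459) (mv 490 (both (five 3 457 457) (mv 522 (both (five 2 489 521) (five 2 490 523))))))) (mv 458 (both (five 3 458 459) (mv 463 (both (five 1 460 464) (mv 490 (both (five 3 457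 457) (mv 524 (both (five 0 489 489) (five 2 491 523)))))))))))))))))))))) (both (ref 1) (both (mv 496 (both (mv 494 (both (five 2 492 524) (mv 464 (both (five 1 461 465) (mv 560 (both (mv 591 (both (five 6 463 559) (mv 592 (both (five 6 495 623) (mv 593 (both (five 4 464 561) (five 4 496 625))))))) (both (mv 593 (both (five 4 464 561) (mv 592 (both (five 4 496 625) (mv 623 (both (five 6 495 591) (mv 624 (both (five 7 495 527) (five 6 527 655))))))))) (both (mv 593 (both (five 4 464 561) (mv 592 (both (five 4 496 625) (mv 527 (both (five 7 495 624) (mv 432 (both (five 6 399 400) (five 6 431 559))))))))) (mv 559 (both (five 6 463 591) (mv 432 (both (five 6 431 527) (mv 399 (both (five 7 399 431) (mv 400 (both (five 7 367 367) (mv 401 (both (five 5 368 369) (five 5 400 433))))))))))))))))))) (both (mv 560 (both (mv 463 (both (five 7 463 592) (mv 431 (both (five 4 399 399) (five 7 431 464))))) (both (mv 464 (both (mv 431 (both (five 7 431 463) (mv 432 (both (five 7 399 399) (mv 433 (both (five 5 400 401) (five 5 432 465))))))) (both (mv 433 (both (five 5 432 465) (mv 432 (both (five 5 400 401) (mv 559 (both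 (five 6 431 527) (five 6 463 591))))))) (both (mv 431 (both (five 7 431 463) (mv 432 (both (five 7 399 399) (mv 559 (both (five 6 431 527) (five 6 463 591))))))) (mv 559 (both (five 6 463 591) (mv 558 (both (mv 557 (both (five 3 524 524) (mv 588 (both (five 2 556 589) (mv 556 (both (five 2 555 587) (five 1 524 527))))))) (both (mv 433 (both (five 5 432 465) (mv 463 (both (five 7 431 431) (mv 561 (both (five 4 464 593) (mv 590 (both (five 6 462 527) (five 2 557 589))))))))) (both (mv 557 (both (five 3 524 524) (mv 589 (both (five 2 556 588) (mv 561 (both (five 2 557 590) (five 4 464 593))))))) (mv 431 (both (five 7 431 463) (mv 433 (both (five 5 432 465) (mv 557 (both (five 3 524 524) (mv 461 (both (five 4 461 590) (mv 556 (both (five 1 524 527) (five 6 460 588))))))))))))))))))))) (both (mv 592 (both (mv 623 (both (five 6 495 591) (mv 624 (both (five 6 527 655) (mv 625 (both (five 4 496 593) (five 4 528 657))))))) (both (mv 465 (both (five 5 464 497) (mv 464 (both (five 5 432 433) (mv 593 (both (five 4 464 561) (five 4 496 625))))))) (mv 465 (both (five 5 464 497) (mv 464 (both (five 5 432 433) (mv 591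 (both (five 6 463 559) (five 6 495 623)))))))))) (mv 592 (both (five 7 463 463) (mv 623 (both (five 6 495 591) (mv 624 (both (five 6 527 655) (mv 625 (both (five 4 496 593) (five 4 528 657))))))))))))) (both (mv 464 (both (mv 432 (both (mv 527 (both (five 6 399 400) (five 6 431 559))) (mv 401 (both (five 5 400 433) (mv 431 (both (five 7 399 399) (mv 465 (both (five 1 461 494) (mv 430 (both (five 0 429 429) (mv 466 (both (five 3 430 463) (five 3 431 467))))))))))))) (both (mv 465 (both (five 1 461 494) (mv 433 (both (five 5 432 560) (mv 401 (both (five 6 368 369) (five 6 400 497))))))) (mv 560 (both (mv 431 (both (five 7 431 463) (mv 432 (both (five 7 399 399) (mv 559 (both (five 6 431 527) (five 6 463 591))))))) (both (mv 592 (both (five 7 463 463) (mv 623 (both (five 6 495 591) (mv 624 (both (five 6 527 655) (mv 625 (both (five 4 496 593) (five 4 528 657))))))))) (mv 593 (both (five 4 464 561) (mv 592 (both (five 4 496 625) (mv 527 (both (five 7 495 624) (mv 432 (both (five 6 399 400) (five 6 431 559))))))))))))))) (both (mv 461 (both (mv 524 (both (five 2 492 494) (mv 429 (both (five 6 428 556) (mv 396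 (both (five 7 396 428) (mv 397 (both (five 7 364 364) (mv 398 (both (five 5 365 366) (five 5 397 430))))))))))) (both (mv 557 (both (mv 588 (both (five 6 460 556) (mv 589 (both (five 6 492 620) (mv 590 (both (five 4 461 558) (five 4 493 622))))))) (mv 430 (both (five 5 429 462) (mv 429 (both (five 5 397 398) (mv 396 (both (five 7 396 428) (mv 397 (both (five 7 364 364) (mv 394 (both (five 0 394 395) (mv 431 (both (five 3 396 432) (mv 463 (both (five 4 399 399) (mv 560 (both (five 4 431 527) (five 7 463 592))))))))))))))))))) (both (mv 494 (both (five 2 492 524) (mv 462 (both (five 3 461 497) (mv 557 (both (five 5 461 589) (mv 556 (both (five 6 460 588) (mv 558 (both (five 4 461 590) (mv 559 (both (five 1 524 527) (mv 592 (both (five 0 556 591) (mv 560 (both (five 7 463 463) (five 0 557 593))))))))))))))))) (mv 494 (both (five 2 492 524) (mv 462 (both (five 3 461 497) (mv 430 (both (five 6 397 398) (five 5 429 557))))))))))) (both (mv 494 (both (five 2 492 524) (mv 465 (both (five 1 461 464) (mv 497 (both (five 1 462 466) (mv 462 (both (five 3 461 461) (mv 498 (both (five 3 462 463) (mv 499 (both (five 2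 495 527) (mv 531 (both (five 0 495 530) (five 0 496 532))))))))))))))) (mv 560 (both (mv 494 (both (five 2 492 524) (mv 464 (both (five 1 461 465) (mv 431 (both (five 7 431 463) (mv 432 (both (five 7 399 399) (mv 401 (both (five 5 400 433) (mv 400 (both (five 5 368 369) (mv 402 (both (five 2 399 403) (mv 430 (both (five 1 397 429) (mv 462 (both (five 6 397 398) (mv 557 (both (five 5 429 461) (five 5 461 589))))))))))))))))))))) (both (mv 592 (both (mv 623 (both (five 6 495 591) (mv 624 (both (five 6 527 655) (mv 625 (both (five 4 496 593) (five 4 528 657))))))) (both (mv 465 (both (five 5 464 497) (mv 464 (both (five 5 432 433) (mv 593 (both (five 4 464 561) (five 4 496 625))))))) (mv 465 (both (five 5 464 497) (mv 464 (both (five 5 432 433) (mv 591 (both (five 6 463 559) (five 6 495 623)))))))))) (mv 592 (both (five 7 463 463) (mv 623 (both (five 6 495 591) (mv 624 (both (five 6 527 655) (mv 625 (both (five 4 496 593) (five 4 528 657)))))))))))))))))) (both (mv 494 (both (mv 464 (both (mv 492 (both (five 1 460 463) (five 0 492 527))) (both (mv 496 (both (five 1 461 465) (mv 560 (both (mv 431 (both (five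 7 431 463) (mv 432 (both (five 7 399 399) (mv 559 (both (five 6 431 527) (five 6 463 591))))))) (both (mv 592 (both (five 7 463 463) (mv 623 (both (five 6 495 591) (mv 624 (both (five 6 527 655) (mv 625 (both (five 4 496 593) (five 4 528 657))))))))) (mv 593 (both (five 4 464 561) (mv 592 (both (five 4 496 625) (mv 527 (both (five 7 495 624) (mv 432 (both (five 6 399 400) (five 6 431 559)))))))))))))) (both (mv 496 (both (five 1 461 465) (mv 527 (both (five 0 492 492) (mv 432 (both (five 6 399 400) (five 6 431 559))))))) (mv 463 (both (five 1 460 492) (mv 465 (both (five 2 462 466) (five 1 461 496))))))))) (both (mv 496 (both (five 2 492 524) (mv 464 (both (five 1 461 465) (mv 560 (both (mv 591 (both (five 6 463 559) (mv 592 (both (five 6 495 623) (mv 593 (both (five 4 464 561) (five 4 496 625))))))) (both (mv 593 (both (five 4 464 561) (mv 592 (both (five 4 496 625) (mv 623 (both (five 6 495 591) (mv 624 (both (five 7 495 527) (five 6 527 655))))))))) (both (mv 593 (both (five 4 464 561) (mv 592 (both (five 4 496 625) (mv 527 (both (five 7 495 624) (mv 432 (both (five 6 399 400) (five 6 431 559)))))))))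 (mv 559 (both (five 6 463 591) (mv 432 (both (five 6 431 527) (mv 399 (both (five 7 399 431) (mv 400 (both (five 7 367 367) (mv 401 (both (five 5 368 369) (five 5 400 433))))))))))))))))))) (both (mv 492 (both (five 0 492 527) (mv 491 (both (mv 523 (both (five 2 490 522) (five 2 491 524))) (both (mv 458 (both (five 3 458 459) (mv 463 (both (five 1 460 464) (mv 490 (both (five 3 457 457) (mv 489 (both (five 0 489 524) (mv 521 (both (five 2 488 520) (five 2 489 522))))))))))) (both (mv 458 (both (five 3 458 459) (mv 490 (both (five 3 457 457) (mv 522 (both (five 2 489 521) (five 2 490 523))))))) (mv 458 (both (five 3 458 459) (mv 463 (both (five 1 460 464) (mv 490 (both (five 3 457 457) (mv 524 (both (five 0 489 489) (five 2 491 523))))))))))))))) (mv 524 (both (five 2 492 496) (mv 523 (both (five 2 491 492) (five 1 490 522))))))))) (both (ref 2) (both (mv 494 (both (mv 496 (both (five 2 492 524) (mv 465 (both (five 1 461 464) (mv 497 (both (five 1 462 466) (mv 462 (both (five 3 461 461) (mv 498 (both (five 3 462 463) (mv 499 (both (five 2 495 527) (mv 531 (both (five 0 495 530) (five 0 496 532)))))))))))))))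 (both (mv 492 (both (five 0 492 527) (mv 463 (both (five 1 460 464) (mv 462 (both (five 1 459 491) (mv 430 (both (five 6 397 398) (mv 557 (both (five 5 429 461) (five 5 461 589))))))))))) (mv 524 (both (five 2 492 496) (mv 523 (both (five 2 491 492) (five 1 490 522)))))))) (mv 557 (both (mv 494 (both (mv 524 (both (five 2 492 496) (mv 523 (both (five 2 491 492) (five 1 490 522))))) (mv 462 (both (five 5 461 589) (mv 430 (both (five 6 397 398) (five 5 429 461))))))) (both (mv 461 (both (mv 430 (both (five 5 429 462) (mv 429 (both (five 5 397 398) (mv 556 (both (five 6 428 524) (five 6 460 588))))))) (both (mv 430 (both (five 5 429 462) (mv 429 (both (five 5 397 398) (mv 396 (both (five 7 396 428) (mv 397 (both (five 7 364 364) (mv 394 (both (five 0 394 395) (mv 431 (both (five 3 396 432) (mv 524 (both (five 6 396 492) (mv 496 (both (five 2 492 494) (mv 558 (both (five 4 461 590) (mv 522 (both (five 0 522 523) (mv 560 (both (five 3 524 559) (mv 592 (both (five 7 463 463) (mv 623 (both (five 6 495 591) (mv 624 (both (five 6 527 655) (mv 625 (both (five 4 496 593) (five 4 528 657)))))))))))))))))))))))))))))))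 (both (mv 556 (both (five 6 460 588) (mv 558 (both (five 4 461 590) (mv 559 (both (five 1 524 527) (mv 524 (both (five 3 523 523) (five 3 524 560))))))))) (mv 429 (both (mv 430 (both (five 5 397 398) (five 5 429 462))) (both (mv 396 (both (five 7 396 428) (mv 397 (both (five 7 364 364) (mv 366 (both (five 5 365 398) (mv 365 (both (five 5 333 334) (mv 367 (both (five 2 364 368) (mv 394 (both (five 1 362 395) (mv 494 (both (five 4 365 462) (mv 527 (both (five 0 492 492) (mv 556 (both (five 6 460 588) (mv 558 (both (five 1 524 559) (five 4 461 590))))))))))))))))))))) (both (mv 396 (both (five 7 396 428) (mv 397 (both (five 7 364 364) (mv 462 (both (five 5 429 430) (mv 494 (both (five 4 365 365) (mv 527 (both (five 0 492 492) (mv 556 (both (five 6 460 588) (mv 558 (both (five 1 524 559) (five 4 461 590))))))))))))))) (mv 396 (both (five 7 396 428) (mv 397 (both (five 7 364 364) (mv 398 (both (five 5 365 366) (five 5 397 430))))))))))))))) (both (mv 589 (both (mv 620 (both (five 6 492 588) (mv 621 (both (five 6 524 652) (mv 622 (both (five 4 493 590) (five 4 525 654))))))) (mv 494 (both (five 5 461 462) (mv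 524 (both (five 2 492 496) (mv 523 (both (five 2 491 492) (five 1 490 522))))))))) (both (mv 589 (both (mv 620 (both (five 6 492 588) (mv 621 (both (five 6 524 652) (mv 622 (both (five 4 493 590) (five 4 525 654))))))) (both (mv 622 (both (five 4 493 590) (mv 621 (both (five 4 525 654) (mv 652 (both (five 6 524 620) (mv 653 (both (five 6 556 684) (mv 524 (both (five 7 524 556) (five 7 492 492))))))))))) (both (mv 622 (both (five 4 493 590) (mv 621 (both (five 4 525 654) (mv 524 (both (five 7 492 492) (mv 556 (both (five 7 524 653) (mv 461 (both (five 6 428 429) (five 6 460 588))))))))))) (both (mv 621 (both (mv 620 (both (five 6 492 588) (five 6 524 652))) (both (mv 524 (both (five 7 492 492) (mv 556 (both (five 7 524 653) (mv 461 (both (five 6 428 429) (five 6 460 588))))))) (mv 652 (both (five 6 524 620) (mv 653 (both (five 6 556 684) (mv 524 (both (five 7 524 556) (five 7 492 492)))))))))) (mv 588 (both (five 6 492 620) (mv 556 (both (five 6 460 461) (mv 590 (both (five 4 493 622) (mv 591 (both (five 3 555 555) (five 3 556 592)))))))))))))) (mv 589 (both (mv 620 (both (five 6 492 588) (mv 621 (both (five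 6 524 652) (mv 622 (both (five 4 493 590) (five 4 525 654))))))) (both (mv 462 (both (five 5 461 494) (mv 461 (both (five 5 429 430) (mv 588 (both (five 6 460 556) (five 6 492 620))))))) (mv 462 (both (five 5 461 494) (mv 461 (both (five 5 429 430) (mv 590 (both (five 4 461 558) (five 4 493 622)))))))))))))))))))))))

theorem L30 : W (S 988530863161101255454148148505632801312661156727406042891648512794071073662266652643294668095351646301915173751338452436331818490997235976069578606837084717056) (S 1723641335991746327635121470761001880411745899487231553502781568967121748606761468667792494283775890603715298175804634395371941133060782059208631112692412572913087447273617548198937653569509058208994929769027674832896) :=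
  check_sound (Env.cons L28 (Env.cons L29 (Env.cons L17 Env.nil))) (x := 493) (t := tL30) (by decide +kernel)

def tL31 : T :=
  (both (mv 493 (both (mv 524 (both (five 6 428 556) (mv 397 (both (five 6 396 492) (mv 364 (both (five 7 364 396) (mv 365 (both (five 7 332 332) (mv 366 (both (five 5 333 334) (five 5 365 398))))))))))) (both (mv 428 (both (five 7 396 396) (mv 557 (both (five 7 428 460) (mv 588 (both (five 6 460 556) (mv 589 (both (five 6 492 620) (mv 590 (both (five 4 461 558) (five 4 493 622))))))))))) (both (mv 556 (both (five 6 428 524) (mv 557 (both (five 6 460 588) (mv 460 (both (five 7 428 428) (mv 589 (both (five 7 460 492) (mv 590 (both (five 4 461 558) (five 4 493 622))))))))))) (mv 396 (both (five 7 396 428) (mv 397 (both (five 7 364 364) (mv 366 (both (five 5 365 398) (mv 365 (both (five 5 333 334) (mv 492 (both (five 6 364 460) (five 6 396 524))))))))))))))) (both (mv 430 (both (mv 432 (both (five 2 428 460) (mv 400 (both (five 1 397 401) (mv 368 (both (five 6 335 336) (five 6 367 464))))))) (both (mv 493 (both (five 5 397 398) (mv 557 (both (mv 556 (both (five 6 428 524) (five 6 460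 588))) (both (mv 590 (both (five 4 461 558) (mv 589 (both (five 4 493 622) (mv 492 (both (five 7 460 460) (mv 620 (both (five 6 492 588) (mv 621 (both (five 7 492 524) (five 6 524 652))))))))))) (both (mv 588 (both (five 6 460 556) (mv 589 (both (five 6 492 620) (mv 590 (both (five 4 461 558) (five 4 493 622))))))) (mv 524 (both (five 6 428 556) (mv 492 (both (five 6 396 397) (mv 589 (both (five 7 492 621) (mv 590 (both (five 4 461 558) (five 4 493 622))))))))))))))) (mv 493 (both (five 5 397 398) (mv 524 (both (five 6 428 556) (mv 397 (both (five 6 396 492) (mv 396 (both (five 7 364 364) (five 3 396 432)))))))))))) (both (mv 493 (both (mv 396 (both (five 7 396 428) (mv 397 (both (five 7 364 364) (mv 524 (both (five 6 396 492) (five 6 428 556))))))) (both (mv 398 (both (five 5 397 430) (mv 397 (both (five 5 365 366) (mv 524 (both (five 6 396 492) (five 6 428 556))))))) (mv 428 (both (five 7 396 396) (mv 430 (both (five 5 397 398) (five 0 428 464)))))))) (both (mv 430 (both (mv 464 (both (five 0 428 428) (mv 465 (both (five 0 429 432) (five 3 430 466))))) (mv 493 (both (five 5 397 398) (mv 557 (both (mv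 556 (both (five 6 428 524) (five 6 460 588))) (both (mv 590 (both (five 4 461 558) (mv 589 (both (five 4 493 622) (mv 492 (both (five 7 460 460) (mv 620 (both (five 6 492 588) (mv 621 (both (five 7 492 524) (five 6 524 652))))))))))) (both (mv 588 (both (five 6 460 556) (mv 589 (both (five 6 492 620) (mv 590 (both (five 4 461 558) (five 4 493 622))))))) (mv 524 (both (five 6 428 556) (mv 492 (both (five 6 396 397) (mv 589 (both (five 7 492 621) (mv 590 (both (five 4 461 558) (five 4 493 622))))))))))))))))) (mv 430 (both (mv 464 (both (five 0 428 428) (mv 465 (both (five 0 429 432) (five 3 430 466))))) (both (mv 432 (both (five 2 428 460) (mv 400 (both (five 1 397 401) (mv 368 (both (five 6 335 336) (five 6 367 464))))))) (both (mv 428 (both (five 0 428 464) (mv 395 (both (five 3 395 396) (mv 427 (both (five 3 394 394) (mv 459 (both (five 2 426 458) (five 2 427 460))))))))) (mv 460 (both (five 2 428 432) (mv 459 (both (five 2 427 428) (five 1 426 458)))))))))))))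

theorem L31 : W (S 109836762664383211966236160375907867127315371199312444584568507558946968087248149680386978493039484819873282576544607065157316068220950638140487411940362027008) (S 18687756800238088682730388676892101144804495936878698504705731655842421463203445116256280186420268965702563092437999417770879673458357675886862441806383423430820332493087391954035214689641827401728) :=
  check_sound Env.nil (x := 429) (t := tL31) (by decide +kernel)

def tL32 : T :=
  (both (mv 431 (both (mv 461 (both (ref 0) (both (mv 430 (both (mv 464 (both (mv 432 (both (mv 400 (both (five 6 367 368) (mv 429 (both (five 1 397 401) (five 0 428 428))))) (both (mv 496 (both (five 7 431 560) (mv 433 (both (five 5 400 401) (mv 434 (both (five 2 431 435) (five 2 430 462))))))) (mv 368 (both (five 6 367 400) (mv 429 (both (five 0 428 428) (mv 397 (both (five 3 396 396) (mv 398 (both (five 3 397 433) (mv 366 (both (five 4 334 334) (five 4 366 462)))))))))))))) (both (mv 433 (both (mv 465 (both (five 3 430 466) (mv 496 (both (five 7 431 560) (mv 401 (both (five 6 368 369) (five 5 400 432))))))) (both (mv 496 (both (five 7 431 560)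 (mv 432 (both (five 5 400 401) (mv 434 (both (five 2 431 435) (five 2 430 462))))))) (both (mv 465 (both (five 3 430 466) (mv 434 (both (five 1 430 462) (mv 435 (both (five 2 431 432) (five 2 432 436))))))) (mv 465 (both (five 3 430 466) (mv 434 (both (five 1 430 462) (mv 435 (both (five 2 432 436) (mv 496 (both (five 7 431 560) (mv 401 (both (five 6 368 369) (five 6 400 497))))))))))))))) (both (mv 429 (both (five 0 428 428) (mv 465 (both (five 3 429 462) (five 3 430 466))))) (mv 429 (both (five 0 428 428) (mv 465 (both (five 0 429 432) (five 3 430 466))))))))) (both (mv 429 (both (mv 464 (both (five 0 428 428) (mv 465 (both (five 0 429 432) (five 3 430 466))))) (both (mv 493 (both (five 5 397 398) (mv 524 (both (five 6 428 556) (mv 397 (both (five 6 396 492) (mv 396 (both (five 7 364 364) (five 3 396 432))))))))) (mv 398 (both (five 5 397 493) (mv 334 (both (five 6 333 366) (mv 428 (both (five 0 428 464) (mv 395 (both (five 3 395 396) (mv 427 (both (five 3 394 394) (mv 426 (both (five 1 394 397) (mv 458 (both (five 2 425 457) (five 2 426 459)))))))))))))))))) (both (mv 493 (both (mv 398 (both (five 5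 397 429) (mv 366 (both (five 4 334 334) (five 4 366 462))))) (both (mv 557 (both (five 5 429 462) (mv 588 (both (five 6 460 556) (mv 589 (both (five 6 492 620) (mv 590 (both (five 4 461 558) (five 4 493 622))))))))) (mv 429 (both (five 5 397 398) (mv 396 (both (five 7 396 428) (mv 397 (both (five 7 364 364) (mv 524 (both (five 6 396 492) (five 6 428 556)))))))))))) (both (mv 433 (both (mv 464 (both (mv 496 (both (five 7 431 560) (mv 462 (both (five 0 461 497) (mv 493 (both (five 2 460 492) (five 5 429 557))))))) (both (mv 465 (both (five 3 430 466) (mv 462 (both (five 1 430 434) (mv 493 (both (five 2 460 492) (five 5 429 557))))))) (mv 465 (both (five 3 430 466) (mv 496 (both (five 7 431 560) (mv 401 (both (five 6 368 369) (five 6 400 497)))))))))) (both (mv 432 (both (mv 401 (both (five 1 398 402) (mv 464 (both (five 5 400 496) (mv 337 (both (five 6 336 369) (mv 368 (both (five 6 367 400) (mv 434 (both (five 2 431 435) (mv 466 (both (five 0 430 465) (five 0 431 467))))))))))))) (both (mv 397 (both (five 3 397 398) (mv 402 (both (five 1 398 401) (mv 434 (both (five 1 399 403) (mv 435 (both (five 2 431 464)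 (mv 467 (both (five 0 431 466) (five 0 432 468))))))))))) (both (mv 398 (both (five 3 397 397) (mv 334 (both (five 4 334 366) (mv 401 (both (five 1 398 402) (mv 464 (both (five 5 400 496) (mv 368 (both (five 6 367 400) (mv 369 (both (five 6 336 337) (mv 336 (both (five 7 336 465) (mv 272 (both (five 4 272 304) (mv 335 (both (five 0 333 333) (mv 370 (both (five 3 334 367) (five 3 335 371))))))))))))))))))))) (both (mv 397 (both (five 3 397 398) (mv 466 (both (five 0 430 465) (mv 434 (both (five 0 431 467) (mv 403 (both (five 1 399 402) (mv 435 (both (five 1 400 404) (five 2 431 464))))))))))) (both (mv 397 (both (five 3 397 398) (mv 402 (both (five 1 398 401) (mv 434 (both (five 1 399 403) (mv 466 (both (five 0 430 465) (five 0 431 467))))))))) (mv 397 (both (five 3 397 398) (mv 466 (both (five 0 430 465) (mv 434 (both (five 0 431 467) (mv 464 (both (five 2 431 435) (mv 496 (both (five 5 400 401) (five 7 431 560))))))))))))))))) (both (mv 432 (both (five 2 429 462) (mv 402 (both (five 1 398 401) (mv 434 (both (five 1 399 403) (mv 466 (both (five 0 430 465) (five 0 431 467))))))))) (both (mv 432 (both (five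 2 429 462) (mv 402 (both (five 1 398 401) (mv 434 (both (five 1 399 403) (mv 435 (both (five 2 431 464) (mv 467 (both (five 0 431 466) (five 0 432 468))))))))))) (both (mv 432 (both (five 2 429 462) (mv 398 (both (five 3 397 397) (mv 334 (both (five 4 334 366) (mv 401 (both (five 1 398 402) (mv 464 (both (five 5 400 496) (mv 368 (both (five 6 367 400) (mv 369 (both (five 6 336 337) (mv 336 (both (five 7 336 465) (mv 272 (both (five 4 272 304) (mv 335 (both (five 0 333 333) (mv 370 (both (five 3 334 367) (five 3 335 371))))))))))))))))))))))) (mv 432 (both (five 2 429 462) (mv 466 (both (five 0 430 465) (mv 434 (both (five 0 431 467) (mv 403 (both (five 1 399 402) (mv 435 (both (five 1 400 404) (five 2 431 464))))))))))))))))) (mv 464 (both (mv 496 (both (five 7 431 560) (mv 462 (both (five 0 461 497) (mv 493 (both (five 2 460 492) (five 5 429 557))))))) (mv 429 (both (five 0 428 428) (mv 465 (both (five 0 429 432) (five 3 430 466)))))))))))) (both (mv 493 (both (mv 557 (both (mv 588 (both (five 6 460 556) (mv 589 (both (five 6 492 620) (mv 590 (both (five 4 461 558) (five 4 493 622))))))) (both (mv 460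 (both (five 7 428 428) (mv 589 (both (five 7 460 492) (mv 590 (both (five 4 461 558) (five 4 493 622))))))) (mv 428 (both (five 7 428 460) (mv 429 (both (five 7 396 396) (mv 556 (both (five 6 428 524) (five 6 460 588)))))))))) (both (mv 429 (both (mv 396 (both (five 7 396 428) (mv 397 (both (five 7 364 364) (mv 398 (both (five 5 365 366) (five 5 397 430))))))) (both (mv 396 (both (five 7 396 428) (mv 397 (both (five 7 364 364) (mv 524 (both (five 6 396 492) (five 6 428 556))))))) (both (mv 398 (both (five 5 397 430) (mv 397 (both (five 5 365 366) (mv 524 (both (five 6 396 492) (five 6 428 556))))))) (mv 396 (both (five 7 396 428) (mv 430 (both (five 5 397 398) (mv 524 (both (five 6 428 556) (mv 557 (both (five 5 429 462) (mv 590 (both (five 4 461 558) (mv 589 (both (five 4 493 622) (mv 620 (both (five 6 492 588) (mv 621 (both (five 7 492 492) (five 6 524 652))))))))))))))))))))) (both (mv 429 (both (mv 396 (both (five 7 396 428) (mv 397 (both (five 7 364 364) (mv 524 (both (five 6 396 492) (five 6 428 556))))))) (both (mv 398 (both (five 5 397 430) (mv 397 (both (five 5 365 366) (mv 524 (both (five 6 396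 492) (five 6 428 556))))))) (mv 396 (both (five 7 396 428) (mv 430 (both (five 5 397 398) (mv 432 (both (five 2 428 460) (mv 401 (both (five 1 397 400) (mv 433 (both (five 1 398 402) (five 2 429 462)))))))))))))) (both (mv 462 (both (mv 557 (both (five 5 429 430) (mv 588 (both (five 6 460 556) (mv 589 (both (five 6 492 620) (mv 590 (both (five 4 461 558) (five 4 493 622))))))))) (mv 460 (both (five 1 428 432) (five 0 460 496))))) (mv 462 (both (mv 460 (both (five 1 428 432) (five 0 460 496))) (mv 430 (both (five 5 429 557) (mv 398 (both (five 4 366 366) (five 5 397 429)))))))))))) (both (mv 462 (both (mv 460 (both (five 0 460 496) (mv 427 (both (five 3 427 428) (mv 459 (both (five 3 426 426) (five 1 427 430))))))) (both (mv 430 (both (mv 366 (both (five 4 366 398) (mv 460 (both (five 1 427 459) (mv 428 (both (five 3 427 427) (mv 429 (both (five 0 428 464) (mv 395 (both (five 3 395 396) (mv 492 (both (five 2 459 491) (mv 397 (both (five 6 364 365) (five 5 396 524))))))))))))))) (both (mv 493 (both (five 5 429 557) (mv 464 (both (five 2 460 492) (mv 429 (both (five 3 428 428) (five 3 429 465))))))) (both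 (mv 366 (both (five 4 366 398) (mv 460 (both (five 1 427 459) (mv 427 (both (five 3 427 428) (mv 492 (both (five 2 459 491) (mv 493 (both (five 2 460 464) (five 5 429 557))))))))))) (both (mv 366 (both (five 4 366 398) (mv 459 (both (five 1 427 460) (mv 493 (both (five 5 429 557) (mv 464 (both (five 2 460 492) (mv 465 (both (five 3 429 429) (five 3 430 466))))))))))) (mv 366 (both (five 4 366 398) (mv 460 (both (five 1 427 459) (mv 428 (both (five 3 427 427) (mv 493 (both (five 7 428 557) (mv 396 (both (five 4 364 364) (five 7 396 429)))))))))))))))) (both (mv 464 (both (mv 496 (both (five 0 461 497) (five 7 431 560))) (both (mv 429 (both (five 3 428 428) (mv 465 (both (five 3 429 430) (mv 434 (both (five 1 430 433) (mv 466 (both (five 1 431 435) (mv 498 (both (five 0 462 497) (five 0 463 499))))))))))) (mv 493 (both (five 2 460 492) (mv 496 (both (five 7 431 560) (mv 557 (both (five 5 429 430) (mv 588 (both (five 6 460 556) (mv 589 (both (five 6 492 620) (mv 590 (both (five 4 461 558) (five 4 493 622)))))))))))))))) (both (mv 460 (both (five 0 460 496) (mv 428 (both (five 3 427 427) (mv 493 (both (five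 7 428 557) (mv 396 (both (five 4 364 364) (five 7 396 429))))))))) (mv 460 (both (five 0 460 496) (mv 430 (both (five 1 427 459) (mv 492 (both (five 2 459 491) (mv 493 (both (five 2 460 464) (five 5 429 557)))))))))))))) (both (mv 462 (both (mv 464 (both (mv 496 (both (five 0 461 497) (five 7 431 560))) (both (mv 465 (both (mv 434 (both (five 1 430 433) (mv 466 (both (five 1 431 435) (mv 498 (both (five 0 462 497) (five 0 463 499))))))) (both (mv 428 (both (five 3 428 429) (mv 492 (both (five 2 460 493) (mv 498 (both (five 0 462 497) (mv 466 (both (five 0 463 499) (mv 435 (both (five 1 431 434) (mv 467 (both (five 3 431 432) (five 1 432 436))))))))))))) (both (mv 428 (both (five 3 428 429) (mv 432 (both (five 1 429 433) (mv 368 (both (five 6 367 400) (mv 466 (both (five 3 431 467) (mv 498 (both (five 0 462 497) (five 0 463 499))))))))))) (mv 433 (both (five 1 429 432) (five 1 430 434))))))) (mv 493 (both (five 2 460 492) (mv 557 (both (mv 429 (both (five 3 428 428) (mv 556 (both (five 6 428 524) (five 6 460 588))))) (both (mv 588 (both (five 6 460 556) (mv 589 (both (five 6 492 620) (mv 590 (both (five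 4 461 558) (five 4 493 622))))))) (both (mv 428 (both (five 3 428 429) (mv 432 (both (five 1 429 433) (mv 368 (both (five 6 367 400) (mv 560 (both (five 7 431 496) (mv 590 (both (five 4 461 558) (mv 589 (both (five 4 493 622) (mv 588 (both (five 6 492 620) (mv 591 (both (five 1 556 559) (mv 592 (both (five 1 557 561) (mv 624 (both (five 0 588 623) (five 0 589 625))))))))))))))))))))) (mv 429 (both (five 3 428 428) (mv 432 (both (five 1 429 433) (mv 368 (both (five 6 367 400) (mv 524 (both (five 6 428 556) (mv 558 (both (five 4 461 590) (mv 560 (both (five 7 431 496) (five 3 524 559)))))))))))))))))))))) (both (mv 432 (both (five 1 428 460) (mv 433 (both (five 2 430 434) (five 1 429 464))))) (mv 460 (both (five 0 460 496) (mv 428 (both (five 3 427 427) (mv 493 (both (five 7 428 557) (mv 396 (both (five 4 364 364) (five 7 396 429)))))))))))) (both (mv 462 (both (mv 460 (both (five 1 428 432) (five 0 460 496))) (both (mv 464 (both (mv 496 (both (five 0 461 497) (five 7 431 560))) (both (mv 429 (both (five 3 428 428) (mv 465 (both (five 3 429 430) (mv 434 (both (five 1 430 433) (mv 466 (both (five 1 431 435)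 (mv 498 (both (five 0 462 497) (five 0 463 499))))))))))) (mv 428 (both (five 3 428 429) (mv 433 (both (five 1 429 432) (mv 465 (both (five 1 430 434) (mv 466 (both (five 3 430 430) (mv 496 (both (five 2 463 467) (five 7 431 560)))))))))))))) (both (mv 432 (both (five 1 428 460) (mv 433 (both (five 2 429 430) (five 2 430 434))))) (mv 460 (both (five 0 460 496) (mv 427 (both (five 3 427 428) (mv 459 (both (five 3 426 426) (five 1 427 430))))))))))) (mv 462 (both (mv 460 (both (five 1 428 432) (five 0 460 496))) (both (mv 464 (both (mv 496 (both (five 0 461 497) (five 7 431 560))) (mv 432 (both (five 1 429 433) (mv 368 (both (five 6 367 400) (mv 493 (both (five 2 460 492) (mv 557 (both (five 5 429 430) (mv 588 (both (five 6 460 556) (mv 589 (both (five 6 492 620) (mv 590 (both (five 4 461 558) (five 4 493 622))))))))))))))))) (both (mv 432 (both (five 1 428 460) (mv 433 (both (five 2 429 430) (five 2 430 434))))) (mv 460 (both (five 0 460 496) (mv 430 (both (five 1 427 459) (mv 492 (both (five 2 459 491) (mv 493 (both (five 2 460 464) (five 5 429 557)))))))))))))))))))) (both (mv 430 (both (mv 429 (both (mv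 464 (both (five 0 428 428) (mv 465 (both (five 0 429 432) (five 3 430 466))))) (both (mv 432 (both (mv 400 (both (five 1 397 401) (mv 368 (both (five 6 335 336) (five 6 367 464))))) (both (mv 396 (both (five 3 396 397) (mv 400 (both (five 1 397 401) (mv 368 (both (five 6 335 336) (five 5 367 399))))))) (mv 396 (both (five 3 396 397) (mv 461 (both (five 2 428 460) (mv 433 (both (five 2 429 462) (mv 465 (both (five 0 429 464) (five 0 430 466)))))))))))) (both (mv 428 (both (mv 395 (both (five 3 395 396) (mv 427 (both (five 3 394 394) (five 0 427 462))))) (both (mv 399 (both (five 1 396 400) (mv 427 (both (five 0 427 462) (mv 459 (both (five 2 426 458) (five 2 427 460))))))) (mv 395 (both (five 3 395 396) (mv 400 (both (five 1 396 399) (mv 432 (both (five 1 397 401) (mv 460 (both (five 2 427 459) (five 2 428 461)))))))))))) (mv 428 (both (five 0 428 464) (mv 395 (both (five 3 395 396) (mv 427 (both (five 3 394 394) (mv 459 (both (five 2 426 458) (five 2 427 460))))))))))))) (both (mv 399 (both (mv 368 (both (five 5 367 400) (mv 367 (both (five 5 335 336) (mv 334 (both (five 7 334 366) (mv 335 (both (five 7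 302 302) (five 6 334 462))))))))) (both (mv 368 (both (five 5 367 400) (mv 367 (both (five 5 335 336) (mv 335 (both (five 6 334 462) (mv 302 (both (five 7 302 334) (mv 303 (both (five 7 270 270) (five 6 302 398))))))))))) (both (mv 366 (both (five 7 366 398) (mv 367 (both (five 7 334 334) (mv 335 (both (five 6 334 462) (mv 336 (both (five 5 303 304) (five 5 335 368))))))))) (both (mv 366 (both (five 7 366 398) (mv 367 (both (five 7 334 334) (mv 335 (both (five 6 334 462) (mv 304 (both (five 5 303 336) (mv 303 (both (five 5 271 272) (mv 432 (both (five 4 303 400) (five 4 335 464))))))))))))) (mv 398 (both (five 7 366 366) (mv 400 (both (five 5 367 368) (mv 401 (both (five 2 398 402) (mv 369 (both (five 1 366 370) (mv 433 (both (five 0 398 434) (mv 397 (both (five 0 397 432) (mv 364 (both (five 3 364 365) (mv 396 (both (five 3 363 363) (five 0 395 395)))))))))))))))))))))) (both (mv 399 (both (mv 400 (both (five 5 367 368) (mv 401 (both (five 2 398 402) (mv 429 (both (five 1 396 428) (five 1 397 432))))))) (both (mv 367 (both (mv 366 (both (five 7 334 334) (five 7 366 398))) (both (mv 336 (both (five 5 335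 368) (mv 335 (both (five 5 303 304) (mv 302 (both (five 7 302 334) (mv 303 (both (five 7 270 270) (five 6 302 398))))))))) (both (mv 334 (both (five 7 334 366) (mv 335 (both (five 7 302 302) (mv 336 (both (five 5 303 304) (five 5 335 368))))))) (mv 336 (both (five 5 335 368) (mv 335 (both (five 5 303 304) (mv 398 (both (five 6 302 303) (five 7 366 366))))))))))) (mv 429 (both (mv 464 (both (five 0 428 428) (mv 465 (both (five 0 429 432) (five 3 430 466))))) (both (mv 398 (both (five 7 366 366) (mv 400 (both (five 2 397 401) (mv 461 (both (five 5 397 493) (mv 432 (both (five 2 428 460) (mv 397 (both (five 3 396 396) (five 3 397 433))))))))))) (mv 428 (both (five 0 428 464) (mv 395 (both (five 3 395 396) (mv 427 (both (five 3 394 394) (mv 459 (both (five 2 426 458) (five 2 427 460))))))))))))))) (both (mv 399 (both (mv 368 (both (five 5 367 400) (mv 367 (both (five 5 335 336) (mv 334 (both (five 7 334 366) (mv 335 (both (five 7 302 302) (five 6 334 462))))))))) (both (mv 368 (both (five 5 367 400) (mv 367 (both (five 5 335 336) (mv 335 (both (five 6 334 462) (mv 302 (both (five 7 302 334) (mv 303 (both (five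 7 270 270) (five 6 302 398))))))))))) (both (mv 367 (both (mv 366 (both (five 7 334 334) (five 7 366 398))) (both (mv 335 (both (five 6 334 462) (mv 302 (both (five 7 302 334) (mv 303 (both (five 7 270 270) (five 6 302 398))))))) (both (mv 334 (both (five 7 334 366) (mv 335 (both (five 7 302 302) (five 6 334 462))))) (mv 335 (both (five 6 334 462) (mv 398 (both (five 6 302 303) (five 7 366 366))))))))) (mv 398 (both (five 7 366 366) (mv 400 (both (five 5 367 368) (mv 401 (both (five 2 398 402) (five 2 397 429))))))))))) (mv 398 (both (mv 366 (both (five 4 334 334) (five 4 366 462))) (mv 429 (both (mv 464 (both (five 0 428 428) (mv 465 (both (five 0 429 432) (five 3 430 466))))) (both (mv 461 (both (five 5 397 493) (mv 432 (both (five 2 428 460) (mv 397 (both (five 3 396 396) (five 3 397 433))))))) (mv 428 (both (five 0 428 464) (mv 395 (both (five 3 395 396) (mv 427 (both (five 3 394 394) (mv 459 (both (five 2 426 458) (five 2 427 460))))))))))))))))))) (both (mv 399 (both (five 4 399 496) (mv 366 (both (five 7 366 398) (mv 367 (both (five 7 334 334) (mv 368 (both (five 5 335 336) (five 5 367 400)))))))))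 (mv 496 (both (five 4 399 399) (mv 560 (both (five 7 431 464) (five 7 463 592))))))))) (both (mv 461 (both (mv 431 (both (mv 527 (both (five 4 431 560) (mv 398 (both (five 7 398 430) (mv 399 (both (five 7 366 366) (mv 400 (both (five 5 367 368) (five 5 399 432))))))))) (both (ref 0) (both (mv 557 (both (mv 527 (both (five 4 431 560) (mv 432 (both (five 5 399 400) (mv 559 (both (five 5 431 464) (mv 558 (both (five 1 524 556) (five 6 462 590))))))))) (both (mv 493 (both (mv 588 (both (five 6 460 556) (mv 589 (both (five 6 492 620) (mv 590 (both (five 4 461 558) (five 4 493 622))))))) (both (mv 460 (both (five 7 428 428) (mv 589 (both (five 7 460 492) (mv 590 (both (five 4 461 558) (five 4 493 622))))))) (mv 428 (both (five 7 428 460) (mv 429 (both (five 7 396 396) (mv 556 (both (five 6 428 524) (five 6 460 588)))))))))) (both (mv 493 (both (mv 460 (both (five 7 428 428) (mv 588 (both (five 6 460 556) (mv 589 (both (five 7 460 492) (five 6 492 620))))))) (both (mv 527 (both (five 4 431 560) (mv 400 (both (five 5 399 432) (mv 368 (both (five 5 367 399) (mv 556 (both (five 6 460 588) (mv 429 (both (five 6 428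 524) (mv 396 (both (five 7 396 428) (mv 397 (both (five 7 364 364) (mv 366 (both (five 5 365 398) (mv 365 (both (five 5 333 334) (five 2 364 367))))))))))))))))))) (both (mv 428 (both (five 7 428 460) (mv 396 (both (five 7 396 429) (mv 527 (both (five 4 431 560) (mv 400 (both (five 5 399 432) (mv 399 (both (five 5 367 368) (mv 398 (both (five 7 366 366) (mv 397 (both (five 2 395 427) (mv 364 (both (five 3 363 363) (five 3 364 365))))))))))))))))) (mv 527 (both (five 4 431 560) (mv 400 (both (five 5 399 432) (mv 368 (both (five 5 367 399) (mv 588 (both (five 6 460 556) (mv 589 (both (five 6 492 620) (mv 492 (both (five 7 460 460) (mv 621 (both (five 7 492 524) (mv 622 (both (five 4 493 590) (five 4 525 654))))))))))))))))))))) (both (mv 527 (both (five 4 431 560) (mv 432 (both (five 5 399 400) (mv 559 (both (five 5 431 464) (mv 590 (both (five 6 462 558) (mv 622 (both (five 6 494 591) (mv 589 (both (five 4 493 493) (mv 654 (both (five 4 525 621) (five 7 557 686))))))))))))))) (mv 527 (both (five 4 431 560) (mv 432 (both (five 5 399 400) (mv 559 (both (five 5 431 464) (mv 556 (both (five 1 524 558) (mv 493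 (both (five 6 460 588) (mv 428 (both (five 7 428 460) (mv 429 (both (five 7 396 396) (five 6 428 524)))))))))))))))))))) (both (mv 429 (both (mv 493 (both (mv 396 (both (five 7 396 428) (mv 397 (both (five 7 364 364) (mv 524 (both (five 6 396 492) (five 6 428 556))))))) (both (mv 428 (both (five 7 396 396) (mv 557 (both (five 7 428 460) (mv 588 (both (five 6 460 556) (mv 589 (both (five 6 492 620) (mv 590 (both (five 4 461 558) (five 4 493 622))))))))))) (both (mv 557 (both (mv 556 (both (five 6 428 524) (five 6 460 588))) (both (mv 590 (both (five 4 461 558) (mv 589 (both (five 4 493 622) (mv 492 (both (five 7 460 460) (mv 620 (both (five 6 492 588) (mv 621 (both (five 7 492 524) (five 6 524 652))))))))))) (both (mv 588 (both (five 6 460 556) (mv 589 (both (five 6 492 620) (mv 590 (both (five 4 461 558) (five 4 493 622))))))) (mv 524 (both (five 6 428 556) (mv 492 (both (five 6 396 397) (mv 589 (both (five 7 492 621) (mv 590 (both (five 4 461 558) (five 4 493 622))))))))))))) (mv 396 (both (five 7 396 428) (mv 397 (both (five 7 364 364) (mv 492 (both (five 6 396 524) (mv 365 (both (five 6 364 460) (mv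 366 (both (five 5 333 334) (mv 368 (both (five 2 364 367) (mv 394 (both (five 1 362 395) (mv 400 (both (five 5 367 399) (mv 527 (both (five 5 399 432) (five 4 431 560))))))))))))))))))))))) (both (mv 493 (both (mv 396 (both (five 7 396 428) (mv 397 (both (five 7 364 364) (mv 524 (both (five 6 396 492) (five 6 428 556))))))) (both (mv 557 (both (mv 556 (both (five 6 428 524) (five 6 460 588))) (both (mv 590 (both (five 4 461 558) (mv 589 (both (five 4 493 622) (mv 492 (both (five 7 460 460) (mv 620 (both (five 6 492 588) (mv 621 (both (five 7 492 524) (five 6 524 652))))))))))) (both (mv 588 (both (five 6 460 556) (mv 589 (both (five 6 492 620) (mv 590 (both (five 4 461 558) (five 4 493 622))))))) (mv 524 (both (five 6 428 556) (mv 492 (both (five 6 396 397) (mv 589 (both (five 7 492 621) (mv 590 (both (five 4 461 558) (five 4 493 622))))))))))))) (mv 428 (both (five 7 396 396) (mv 430 (both (five 0 428 464) (mv 460 (both (five 2 427 459) (five 7 428 557)))))))))) (both (mv 527 (both (five 4 431 560) (mv 432 (both (five 5 399 400) (mv 430 (both (five 2 428 460) (mv 464 (both (five 0 429 465) (five 5 431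 559))))))))) (mv 527 (both (five 4 431 560) (mv 400 (both (five 5 399 432) (mv 399 (both (five 5 367 368) (mv 428 (both (five 1 396 430) (mv 493 (both (five 7 396 396) (mv 556 (both (five 6 428 524) (mv 557 (both (five 6 460 588) (mv 558 (both (five 1 524 559) (five 4 461 590))))))))))))))))))))) (both (mv 493 (both (mv 557 (both (mv 588 (both (five 6 460 556) (mv 589 (both (five 6 492 620) (mv 590 (both (five 4 461 558) (five 4 493 622))))))) (both (mv 460 (both (five 7 428 428) (mv 589 (both (five 7 460 492) (mv 590 (both (five 4 461 558) (five 4 493 622))))))) (mv 428 (both (five 7 428 460) (mv 429 (both (five 7 396 396) (mv 556 (both (five 6 428 524) (five 6 460 588)))))))))) (both (mv 557 (both (mv 460 (both (five 7 428 428) (mv 589 (both (five 7 460 492) (mv 590 (both (five 4 461 558) (five 4 493 622))))))) (both (mv 460 (both (five 7 428 428) (mv 588 (both (five 6 460 556) (mv 589 (both (five 7 460 492) (five 6 492 620))))))) (mv 556 (both (five 6 460 588) (mv 558 (both (five 4 461 590) (mv 559 (both (five 1 524 527) (mv 524 (both (five 3 523 523) (five 3 524 560)))))))))))) (both (mv 527 (both (five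 4 431 560) (mv 398 (both (five 7 398 430) (mv 399 (both (five 7 366 366) (mv 368 (both (five 5 367 400) (mv 367 (both (five 5 335 336) (mv 369 (both (five 2 366 370) (mv 396 (both (five 1 364 397) (mv 428 (both (five 7 396 429) (mv 460 (both (five 4 364 364) (five 4 396 492))))))))))))))))))) (mv 527 (both (five 4 431 560) (mv 398 (both (five 7 398 430) (mv 366 (both (five 7 366 399) (mv 429 (both (five 5 365 397) (mv 556 (both (five 6 428 524) (mv 557 (both (five 6 460 588) (mv 558 (both (five 1 524 559) (five 4 461 590))))))))))))))))))) (mv 527 (both (five 4 431 560) (mv 430 (both (five 7 398 398) (mv 429 (both (mv 464 (both (five 0 428 428) (mv 465 (both (five 0 429 432) (five 3 430 466))))) (both (mv 432 (both (five 2 428 460) (mv 464 (both (five 0 429 465) (five 5 431 559))))) (both (mv 428 (both (five 0 428 464) (mv 395 (both (five 3 395 396) (mv 427 (both (five 3 394 394) (mv 459 (both (five 2 426 458) (five 2 427 460))))))))) (mv 460 (both (five 2 428 432) (mv 459 (both (five 2 427 428) (five 1 426 458))))))))))))))))))) (both (mv 493 (both (mv 462 (both (mv 430 (both (five 5 429 557) (mv 398 (both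 (five 4 366 366) (five 5 397 429))))) (mv 492 (both (five 2 460 464) (mv 491 (both (five 2 459 460) (five 1 458 490))))))) (both (mv 429 (both (mv 398 (both (five 5 397 430) (mv 397 (both (five 5 365 366) (mv 524 (both (five 6 396 492) (five 6 428 556))))))) (both (mv 396 (both (five 7 396 428) (mv 397 (both (five 7 364 364) (mv 524 (both (five 6 396 492) (five 6 428 556))))))) (mv 398 (both (five 5 397 430) (mv 428 (both (five 7 396 396) (mv 462 (both (five 3 428 464) (mv 427 (both (five 0 426 426) (five 3 427 460)))))))))))) (both (mv 557 (both (mv 588 (both (five 6 460 556) (mv 589 (both (five 6 492 620) (mv 590 (both (five 4 461 558) (five 4 493 622))))))) (mv 460 (both (five 7 428 428) (mv 462 (both (five 5 429 430) (mv 492 (both (five 2 460 464) (five 2 459 491))))))))) (both (mv 557 (both (mv 588 (both (five 6 460 556) (mv 589 (both (five 6 492 620) (mv 590 (both (five 4 461 558) (five 4 493 622))))))) (both (mv 460 (both (five 7 428 428) (mv 589 (both (five 7 460 492) (mv 590 (both (five 4 461 558) (five 4 493 622))))))) (mv 428 (both (five 7 428 460) (mv 429 (both (five 7 396 396) (mv 556 (both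 (five 6 428 524) (five 6 460 588)))))))))) (both (mv 429 (both (mv 396 (both (five 7 396 428) (mv 397 (both (five 7 364 364) (mv 398 (both (five 5 365 366) (five 5 397 430))))))) (both (mv 396 (both (five 7 396 428) (mv 397 (both (five 7 364 364) (mv 524 (both (five 6 396 492) (five 6 428 556))))))) (both (mv 398 (both (five 5 397 430) (mv 397 (both (five 5 365 366) (mv 524 (both (five 6 396 492) (five 6 428 556))))))) (mv 396 (both (five 7 396 428) (mv 430 (both (five 5 397 398) (mv 524 (both (five 6 428 556) (mv 557 (both (five 5 429 462) (mv 590 (both (five 4 461 558) (mv 589 (both (five 4 493 622) (mv 620 (both (five 6 492 588) (mv 621 (both (five 7 492 492) (five 6 524 652))))))))))))))))))))) (mv 557 (both (mv 588 (both (five 6 460 556) (mv 589 (both (five 6 492 620) (mv 590 (both (five 4 461 558) (five 4 493 622))))))) (mv 428 (both (five 7 428 460) (mv 429 (both (five 7 396 396) (mv 430 (both (five 5 397 398) (five 5 429 462))))))))))))))) (both (mv 431 (both (mv 527 (both (five 4 431 560) (mv 398 (both (five 7 398 430) (mv 399 (both (five 7 366 366) (mv 400 (both (five 5 367 368) (five 5 399 432)))))))))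 (both (mv 430 (both (mv 399 (both (mv 368 (both (five 5 367 400) (mv 367 (both (five 5 335 336) (mv 334 (both (five 7 334 366) (mv 335 (both (five 7 302 302) (five 6 334 462))))))))) (both (mv 368 (both (five 5 367 400) (mv 367 (both (five 5 335 336) (mv 335 (both (five 6 334 462) (mv 302 (both (five 7 302 334) (mv 303 (both (five 7 270 270) (five 6 302 398))))))))))) (both (mv 367 (both (mv 366 (both (five 7 334 334) (five 7 366 398))) (both (mv 335 (both (five 6 334 462) (mv 302 (both (five 7 302 334) (mv 303 (both (five 7 270 270) (five 6 302 398))))))) (both (mv 334 (both (five 7 334 366) (mv 335 (both (five 7 302 302) (five 6 334 462))))) (mv 335 (both (five 6 334 462) (mv 398 (both (five 6 302 303) (five 7 366 366))))))))) (mv 398 (both (five 7 366 366) (mv 400 (both (five 5 367 368) (mv 401 (both (five 2 398 402) (five 2 397 429))))))))))) (both (mv 429 (both (mv 464 (both (five 0 428 428) (mv 465 (both (five 0 429 432) (five 3 430 466))))) (both (mv 428 (both (five 0 428 464) (mv 395 (both (five 3 395 396) (mv 427 (both (five 3 394 394) (mv 459 (both (five 2 426 458) (five 2 427 460))))))))) (both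 (mv 432 (both (five 2 428 460) (mv 400 (both (five 1 397 401) (mv 368 (both (five 6 335 336) (five 6 367 464))))))) (mv 460 (both (five 2 428 432) (mv 459 (both (five 2 427 428) (five 1 426 458))))))))) (both (mv 399 (both (mv 368 (both (five 5 367 400) (mv 367 (both (five 5 335 336) (mv 334 (both (five 7 334 366) (mv 335 (both (five 7 302 302) (five 6 334 462))))))))) (both (mv 368 (both (five 5 367 400) (mv 367 (both (five 5 335 336) (mv 335 (both (five 6 334 462) (mv 302 (both (five 7 302 334) (mv 303 (both (five 7 270 270) (five 6 302 398))))))))))) (both (mv 366 (both (five 7 366 398) (mv 367 (both (five 7 334 334) (mv 335 (both (five 6 334 462) (mv 336 (both (five 5 303 304) (five 5 335 368))))))))) (both (mv 366 (both (five 7 366 398) (mv 367 (both (five 7 334 334) (mv 335 (both (five 6 334 462) (mv 304 (both (five 5 303 336) (mv 303 (both (five 5 271 272) (mv 432 (both (five 4 303 400) (five 4 335 464))))))))))))) (mv 398 (both (five 7 366 366) (mv 400 (both (five 5 367 368) (mv 401 (both (five 2 398 402) (mv 369 (both (five 1 366 370) (mv 433 (both (five 0 398 434) (mv 397 (both (five 0 397 432)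 (mv 364 (both (five 3 364 365) (mv 396 (both (five 3 363 363) (five 0 395 395)))))))))))))))))))))) (mv 432 (both (mv 460 (both (five 2 428 429) (five 1 428 462))) (both (mv 429 (both (five 2 428 460) (mv 464 (both (five 0 428 428) (five 0 429 465))))) (mv 433 (both (five 2 429 462) (mv 466 (both (five 0 430 465) (mv 434 (both (five 0 431 467) (mv 403 (both (five 1 399 402) (mv 435 (both (five 1 400 404) (five 2 431 464)))))))))))))))))) (both (mv 527 (both (five 4 431 560) (mv 430 (both (five 7 398 398) (mv 462 (both (five 7 430 559) (mv 460 (both (five 1 427 459) (mv 428 (both (five 3 427 427) (mv 429 (both (five 0 428 464) (mv 395 (both (five 3 395 396) (mv 492 (both (five 2 459 491) (mv 397 (both (five 6 364 365) (five 5 396 524))))))))))))))))))) (mv 527 (both (five 4 431 560) (mv 432 (both (five 5 399 400) (mv 462 (both (five 1 428 460) (mv 433 (both (five 2 430 434) (five 1 429 464))))))))))))) (both (mv 527 (both (mv 560 (both (five 4 431 431) (mv 592 (both (five 4 463 559) (five 7 495 624))))) (both (mv 559 (both (mv 590 (both (five 6 462 558) (mv 591 (both (five 6 494 622) (mv 592 (both (five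 4 463 560) (five 4 495 624))))))) (both (mv 462 (both (five 7 430 430) (mv 464 (both (five 5 431 432) (mv 492 (both (five 2 460 493) (mv 460 (both (five 2 459 491) (mv 427 (both (five 3 427 428) (mv 459 (both (five 3 426 426) (mv 363 (both (five 4 363 395) (mv 556 (both (five 7 427 524) (mv 558 (both (five 1 524 557) (five 6 462 590))))))))))))))))))) (both (mv 591 (both (mv 592 (both (five 4 463 560) (five 4 495 624))) (both (mv 430 (both (five 7 430 462) (mv 432 (both (five 5 431 464) (mv 622 (both (five 6 494 590) (mv 623 (both (five 6 526 654) (mv 655 (both (five 5 527 560) (mv 656 (both (five 4 527 624) (five 4 559 688))))))))))))) (both (mv 430 (both (five 7 430 462) (mv 432 (both (five 5 431 464) (mv 560 (both (five 4 463 592) (mv 622 (both (five 6 494 590) (mv 623 (both (five 6 526 654) (five 5 527 655))))))))))) (mv 430 (both (five 7 430 462) (mv 432 (both (five 5 431 464) (mv 622 (both (five 6 494 590) (mv 623 (both (five 6 526 654) (mv 624 (both (five 4 527 656) (five 4 495 592))))))))))))))) (mv 557 (both (mv 432 (both (five 5 431 464) (mv 462 (both (five 7 430 430) (mv 556 (both (five 1 524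 558) (mv 493 (both (five 6 460 588) (mv 460 (both (five 7 428 428) (mv 492 (both (five 2 459 491) (five 7 460 589))))))))))))) (both (mv 558 (both (five 1 524 556) (mv 560 (both (five 3 524 524) (five 4 463 592))))) (mv 462 (both (five 7 430 430) (mv 464 (both (five 5 431 432) (mv 492 (both (five 2 460 493) (mv 460 (both (five 2 459 491) (mv 428 (both (five 3 427 427) (five 4 428 524)))))))))))))))))) (both (mv 431 (both (mv 398 (both (five 7 398 430) (mv 399 (both (five 7 366 366) (mv 400 (both (five 5 367 368) (five 5 399 432))))))) (both (mv 430 (both (five 7 398 398) (mv 462 (both (five 7 430 559) (mv 460 (both (five 1 427 459) (mv 427 (both (five 3 427 428) (mv 492 (both (five 2 459 491) (mv 493 (both (five 2 460 464) (five 5 429 557))))))))))))) (mv 432 (both (five 5 399 400) (mv 462 (both (five 1 428 460) (mv 433 (both (five 2 430 434) (five 1 429 464)))))))))) (mv 431 (both (five 4 431 560) (mv 398 (both (five 7 398 430) (mv 399 (both (five 7 366 366) (mv 400 (both (five 5 367 368) (five 5 399 432))))))))))))) (both (mv 527 (both (mv 560 (both (five 4 431 431) (mv 592 (both (five 4 463 559) (five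 7 495 624))))) (both (mv 493 (both (mv 557 (both (mv 588 (both (five 6 460 556) (mv 589 (both (five 6 492 620) (mv 590 (both (five 4 461 558) (five 4 493 622))))))) (both (mv 460 (both (five 7 428 428) (mv 589 (both (five 7 460 492) (mv 590 (both (five 4 461 558) (five 4 493 622))))))) (mv 428 (both (five 7 428 460) (mv 429 (both (five 7 396 396) (mv 556 (both (five 6 428 524) (five 6 460 588)))))))))) (both (mv 429 (both (mv 524 (both (five 6 428 556) (mv 397 (both (five 6 396 492) (mv 364 (both (five 7 364 396) (mv 365 (both (five 7 332 332) (mv 366 (both (five 5 333 334) (five 5 365 398))))))))))) (both (mv 428 (both (five 7 396 396) (mv 462 (both (five 3 428 464) (mv 427 (both (five 0 426 426) (five 3 427 460))))))) (mv 524 (both (five 6 428 556) (mv 397 (both (five 6 396 492) (mv 366 (both (five 5 365 398) (mv 365 (both (five 5 333 334) (mv 332 (both (five 7 332 364) (mv 333 (both (five 7 300 300) (mv 330 (both (five 0 330 331) (mv 368 (both (five 3 332 367) (mv 428 (both (five 6 332 460) (mv 464 (both (five 3 428 462) (mv 432 (both (five 6 367 400) (five 5 431 559)))))))))))))))))))))))))) (both (mv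 557 (both (mv 556 (both (five 6 460 588) (mv 558 (both (five 1 524 559) (five 4 461 590))))) (both (mv 460 (both (five 7 428 428) (mv 588 (both (five 6 460 556) (mv 589 (both (five 7 460 492) (five 6 492 620))))))) (mv 460 (both (five 7 428 428) (mv 589 (both (five 7 460 492) (mv 590 (both (five 4 461 558) (five 4 493 622)))))))))) (both (mv 557 (both (mv 556 (both (five 6 460 588) (mv 558 (both (five 1 524 559) (five 4 461 590))))) (both (mv 590 (both (five 4 461 558) (mv 589 (both (five 4 493 622) (mv 492 (both (five 7 460 460) (mv 620 (both (five 6 492 588) (mv 621 (both (five 7 492 524) (five 6 524 652))))))))))) (both (mv 588 (both (five 6 460 556) (mv 589 (both (five 6 492 620) (mv 492 (both (five 7 460 460) (mv 621 (both (five 7 492 524) (mv 622 (both (five 4 493 590) (five 4 525 654))))))))))) (both (mv 556 (both (five 6 460 588) (mv 429 (both (five 6 428 524) (mv 559 (both (five 1 524 558) (mv 432 (both (five 5 431 464) (mv 431 (both (five 5 399 400) (mv 460 (both (five 1 428 462) (mv 492 (both (five 7 460 589) (mv 397 (both (five 6 364 365) (mv 396 (both (five 7 364 364) (mv 398 (both (five 5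 365 366) (five 0 396 399))))))))))))))))))))) (mv 558 (both (five 4 461 590) (mv 559 (both (five 1 524 556) (mv 464 (both (five 5 431 432) (mv 492 (both (five 2 460 462) (mv 589 (both (five 7 460 460) (mv 621 (both (five 7 492 524) (mv 652 (both (five 6 524 620) (mv 653 (both (five 6 556 684) (mv 654 (both (five 4 525 622) (five 4 557 686)))))))))))))))))))))))) (both (mv 557 (both (mv 428 (both (five 7 428 460) (mv 429 (both (five 7 396 396) (mv 464 (both (five 3 428 462) (mv 432 (both (five 5 431 559) (mv 400 (both (five 6 367 368) (five 5 399 431))))))))))) (mv 588 (both (five 6 460 556) (mv 589 (both (five 6 492 620) (mv 590 (both (five 4 461 558) (five 4 493 622))))))))) (both (mv 429 (both (mv 396 (both (five 7 396 428) (mv 397 (both (five 7 364 364) (mv 524 (both (five 6 396 492) (five 6 428 556))))))) (both (mv 556 (both (five 6 428 524) (mv 557 (both (five 6 460 588) (mv 558 (both (five 1 524 559) (five 4 461 590))))))) (mv 428 (both (five 7 396 396) (mv 464 (both (five 3 428 462) (mv 432 (both (five 5 431 559) (mv 400 (both (five 6 367 368) (five 5 399 431)))))))))))) (mv 428 (both (mv 396 (both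 (five 7 396 429) (mv 460 (both (five 4 364 364) (five 7 428 557))))) (both (mv 429 (both (five 7 396 396) (mv 464 (both (five 3 428 462) (mv 432 (both (five 5 431 559) (mv 400 (both (five 6 367 368) (five 5 399 431))))))))) (mv 460 (both (five 7 428 557) (mv 462 (both (five 3 427 427) (mv 492 (both (five 2 460 464) (five 2 459 491))))))))))))))))) (both (mv 493 (both (mv 557 (both (mv 556 (both (five 6 460 588) (mv 558 (both (five 1 524 559) (five 4 461 590))))) (both (mv 460 (both (five 7 428 428) (mv 588 (both (five 6 460 556) (mv 589 (both (five 7 460 492) (five 6 492 620))))))) (mv 460 (both (five 7 428 428) (mv 589 (both (five 7 460 492) (mv 590 (both (five 4 461 558) (five 4 493 622)))))))))) (both (mv 429 (both (mv 524 (both (five 6 428 556) (mv 397 (both (five 6 396 492) (mv 364 (both (five 7 364 396) (mv 365 (both (five 7 332 332) (mv 366 (both (five 5 333 334) (five 5 365 398))))))))))) (both (mv 428 (both (five 7 396 396) (mv 462 (both (five 3 428 464) (mv 427 (both (five 0 426 426) (five 3 427 460))))))) (mv 524 (both (five 6 428 556) (mv 397 (both (five 6 396 492) (mv 366 (both (five 5 365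 398) (mv 365 (both (five 5 333 334) (mv 332 (both (five 7 332 364) (mv 333 (both (five 7 300 300) (mv 330 (both (five 0 330 331) (mv 368 (both (five 3 332 367) (mv 428 (both (five 6 332 460) (mv 464 (both (five 3 428 462) (mv 432 (both (five 6 367 400) (five 5 431 559)))))))))))))))))))))))))) (both (mv 557 (both (mv 588 (both (five 6 460 556) (mv 589 (both (five 6 492 620) (mv 590 (both (five 4 461 558) (five 4 493 622))))))) (both (mv 460 (both (five 7 428 428) (mv 589 (both (five 7 460 492) (mv 590 (both (five 4 461 558) (five 4 493 622))))))) (mv 428 (both (five 7 428 460) (mv 429 (both (five 7 396 396) (mv 556 (both (five 6 428 524) (five 6 460 588)))))))))) (both (mv 557 (both (mv 556 (both (five 6 460 588) (mv 558 (both (five 1 524 559) (five 4 461 590))))) (both (mv 590 (both (five 4 461 558) (mv 589 (both (five 4 493 622) (mv 492 (both (five 7 460 460) (mv 620 (both (five 6 492 588) (mv 621 (both (five 7 492 524) (five 6 524 652))))))))))) (both (mv 588 (both (five 6 460 556) (mv 589 (both (five 6 492 620) (mv 492 (both (five 7 460 460) (mv 621 (both (five 7 492 524) (mv 622 (both (five 4 493 590)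 (five 4 525 654))))))))))) (both (mv 556 (both (five 6 460 588) (mv 524 (both (five 6 428 429) (mv 559 (both (five 1 524 558) (mv 464 (both (five 5 431 432) (mv 492 (both (five 2 460 462) (mv 589 (both (five 4 460 460) (five 7 492 621))))))))))))) (mv 558 (both (five 4 461 590) (mv 559 (both (five 1 524 556) (mv 464 (both (five 5 431 432) (mv 492 (both (five 2 460 462) (mv 589 (both (five 7 460 460) (mv 621 (both (five 7 492 524) (mv 652 (both (five 6 524 620) (mv 653 (both (five 6 556 684) (mv 654 (both (five 4 525 622) (five 4 557 686)))))))))))))))))))))))) (both (mv 557 (both (mv 556 (both (five 6 460 588) (mv 558 (both (five 1 524 559) (five 4 461 590))))) (both (mv 428 (both (five 7 428 460) (mv 429 (both (five 7 396 396) (mv 556 (both (five 6 428 524) (five 6 460 588))))))) (both (mv 428 (both (five 7 428 460) (mv 396 (both (five 7 396 429) (mv 590 (both (five 4 461 558) (mv 589 (both (five 4 493 622) (mv 620 (both (five 6 492 588) (mv 621 (both (five 6 524 652) (mv 592 (both (five 2 588 591) (mv 560 (both (five 4 463 559) (five 7 495 624))))))))))))))))) (mv 428 (both (five 7 428 460) (mv 396 (both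 (five 7 396 429) (mv 558 (both (five 4 461 590) (mv 559 (both (five 1 524 556) (mv 560 (both (five 3 524 524) (five 4 463 592))))))))))))))) (both (mv 559 (both (mv 590 (both (five 6 462 558) (mv 591 (both (five 6 494 622) (mv 592 (both (five 4 463 560) (five 4 495 624))))))) (mv 464 (both (five 5 431 432) (mv 462 (both (five 2 460 492) (mv 428 (both (five 3 428 429) (mv 460 (both (five 3 427 427) (five 7 428 557))))))))))) (mv 559 (both (mv 590 (both (five 6 462 558) (mv 591 (both (five 6 494 622) (mv 592 (both (five 4 463 560) (five 4 495 624))))))) (both (mv 464 (both (five 5 431 432) (mv 462 (both (five 2 460 492) (mv 429 (both (five 3 428 428) (mv 556 (both (five 6 428 524) (mv 557 (both (five 6 460 588) (mv 592 (both (five 4 463 560) (mv 591 (both (five 4 495 624) (mv 590 (both (five 3 556 589) (five 6 494 622))))))))))))))))) (mv 464 (both (five 5 431 432) (mv 462 (both (five 2 460 492) (mv 429 (both (five 3 428 428) (mv 556 (both (five 6 428 524) (mv 557 (both (five 1 524 558) (five 6 460 588))))))))))))))))))))) (mv 431 (both (five 4 431 560) (mv 432 (both (five 5 399 400) (mv 462 (both (five 1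 428 460) (mv 433 (both (five 2 430 434) (five 1 429 464))))))))))))) (both (mv 527 (both (mv 560 (both (five 4 431 431) (mv 592 (both (five 4 463 559) (five 7 495 624))))) (both (mv 559 (both (mv 590 (both (five 6 462 558) (mv 591 (both (five 6 494 622) (mv 592 (both (five 4 463 560) (five 4 495 624))))))) (both (mv 462 (both (five 7 430 430) (mv 464 (both (five 5 431 432) (mv 429 (both (five 3 428 428) (mv 493 (both (five 2 460 492) (mv 556 (both (five 6 428 524) (mv 557 (both (five 1 524 558) (five 6 460 588))))))))))))) (mv 591 (both (mv 592 (both (five 4 463 560) (five 4 495 624))) (both (mv 430 (both (five 7 430 462) (mv 432 (both (five 5 431 464) (mv 622 (both (five 6 494 590) (mv 623 (both (five 6 526 654) (mv 655 (both (five 5 527 560) (mv 656 (both (five 4 527 624) (five 4 559 688))))))))))))) (both (mv 430 (both (five 7 430 462) (mv 432 (both (five 5 431 464) (mv 560 (both (five 4 463 592) (mv 622 (both (five 6 494 590) (mv 623 (both (five 6 526 654) (five 5 527 655))))))))))) (mv 430 (both (five 7 430 462) (mv 432 (both (five 5 431 464) (mv 622 (both (five 6 494 590) (mv 623 (both (five 6 526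 654) (mv 624 (both (five 4 527 656) (five 4 495 592)))))))))))))))))) (both (mv 430 (both (mv 398 (both (five 7 398 431) (mv 462 (both (five 4 366 366) (five 7 430 559))))) (both (mv 431 (both (five 7 398 398) (mv 432 (both (five 5 399 400) (mv 464 (both (five 5 431 559) (mv 429 (both (five 0 428 428) (five 0 429 465))))))))) (both (mv 462 (both (five 7 430 559) (mv 493 (both (five 5 429 557) (mv 464 (both (five 2 460 492) (mv 429 (both (five 3 428 428) (five 3 429 465))))))))) (mv 398 (both (five 7 398 431) (mv 366 (both (five 4 366 462) (mv 429 (both (five 6 333 334) (five 5 397 493))))))))))) (mv 431 (both (five 4 431 560) (mv 398 (both (five 7 398 430) (mv 399 (both (five 7 366 366) (mv 400 (both (five 5 367 368) (five 5 399 432))))))))))))) (both (mv 493 (both (mv 429 (both (mv 396 (both (five 7 396 428) (mv 397 (both (five 7 364 364) (mv 398 (both (five 5 365 366) (five 5 397 430))))))) (both (mv 396 (both (five 7 396 428) (mv 397 (both (five 7 364 364) (mv 524 (both (five 6 396 492) (five 6 428 556))))))) (both (mv 398 (both (five 5 397 430) (mv 397 (both (five 5 365 366) (mv 524 (both (five 6 396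 492) (five 6 428 556))))))) (mv 428 (both (five 7 396 396) (mv 430 (both (five 5 397 398) (mv 427 (both (five 0 427 462) (mv 395 (both (five 3 394 394) (mv 459 (both (five 2 426 458) (mv 524 (both (five 6 428 556) (mv 492 (both (five 7 395 460) (five 4 395 491))))))))))))))))))) (both (mv 557 (both (mv 460 (both (five 7 428 428) (mv 589 (both (five 7 460 492) (mv 590 (both (five 4 461 558) (five 4 493 622))))))) (both (mv 460 (both (five 7 428 428) (mv 588 (both (five 6 460 556) (mv 589 (both (five 7 460 492) (five 6 492 620))))))) (mv 556 (both (five 6 460 588) (mv 558 (both (five 4 461 590) (mv 559 (both (five 1 524 527) (mv 524 (both (five 3 523 523) (five 3 524 560)))))))))))) (both (mv 429 (both (mv 396 (both (five 7 396 428) (mv 397 (both (five 7 364 364) (mv 398 (both (five 5 365 366) (five 5 397 430))))))) (both (mv 396 (both (five 7 396 428) (mv 397 (both (five 7 364 364) (mv 524 (both (five 6 396 492) (five 6 428 556))))))) (both (mv 398 (both (five 5 397 430) (mv 397 (both (five 5 365 366) (mv 524 (both (five 6 396 492) (five 6 428 556))))))) (mv 396 (both (five 7 396 428) (mv 430 (both (five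 5 397 398) (mv 524 (both (five 6 428 556) (mv 557 (both (five 5 429 462) (mv 590 (both (five 4 461 558) (mv 589 (both (five 4 493 622) (mv 620 (both (five 6 492 588) (mv 621 (both (five 7 492 492) (five 6 524 652))))))))))))))))))))) (both (mv 557 (both (mv 588 (both (five 6 460 556) (mv 589 (both (five 6 492 620) (mv 590 (both (five 4 461 558) (five 4 493 622))))))) (both (mv 590 (both (five 4 461 558) (mv 589 (both (five 4 493 622) (mv 492 (both (five 7 460 460) (mv 620 (both (five 6 492 588) (mv 621 (both (five 7 492 524) (five 6 524 652))))))))))) (both (mv 430 (both (five 5 429 462) (mv 429 (both (five 5 397 398) (mv 524 (both (five 6 428 556) (mv 492 (both (five 6 396 397) (mv 589 (both (five 7 492 621) (mv 590 (both (five 4 461 558) (five 4 493 622))))))))))))) (mv 430 (both (five 5 429 462) (mv 429 (both (five 5 397 398) (mv 556 (both (five 6 428 524) (five 6 460 588))))))))))) (both (mv 557 (both (mv 430 (both (five 5 429 462) (mv 398 (both (five 5 397 429) (mv 431 (both (five 7 398 527) (mv 366 (both (five 4 334 334) (five 7 366 399))))))))) (mv 460 (both (five 7 428 428) (mv 589 (both (five 7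 460 492) (mv 590 (both (five 4 461 558) (five 4 493 622))))))))) (mv 557 (both (mv 588 (both (five 6 460 556) (mv 589 (both (five 6 492 620) (mv 590 (both (five 4 461 558) (five 4 493 622))))))) (mv 428 (both (five 7 428 460) (mv 429 (both (five 7 396 396) (mv 430 (both (five 5 397 398) (five 5 429 462))))))))))))))) (both (mv 431 (both (mv 527 (both (five 4 431 560) (mv 398 (both (five 7 398 430) (mv 399 (both (five 7 366 366) (mv 400 (both (five 5 367 368) (five 5 399 432))))))))) (both (mv 399 (both (mv 366 (both (five 7 366 398) (mv 367 (both (five 7 334 334) (mv 368 (both (five 5 335 336) (five 5 367 400))))))) (both (mv 462 (both (mv 432 (both (five 1 428 460) (mv 433 (both (five 2 429 430) (five 2 430 434))))) (both (mv 368 (both (five 5 367 400) (mv 367 (both (five 5 335 336) (mv 430 (both (five 6 334 335) (mv 493 (both (five 5 429 557) (mv 464 (both (five 2 460 492) (mv 465 (both (five 3 429 429) (five 3 430 466))))))))))))) (mv 432 (both (five 1 428 460) (mv 433 (both (five 2 430 434) (five 1 429 464)))))))) (both (mv 462 (both (mv 432 (both (five 1 428 460) (mv 433 (both (five 2 429 430) (five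 2 430 434))))) (both (mv 493 (both (mv 430 (both (five 5 429 557) (mv 398 (both (five 4 366 366) (five 5 397 429))))) (mv 492 (both (five 2 460 464) (mv 491 (both (five 2 459 460) (five 1 458 490))))))) (both (mv 432 (both (five 1 428 460) (mv 433 (both (five 2 430 434) (five 1 429 464))))) (mv 366 (both (five 7 366 398) (mv 367 (both (five 7 334 334) (mv 335 (both (five 6 334 430) (mv 304 (both (five 5 303 336) (mv 303 (both (five 5 271 272) (mv 432 (both (five 4 303 400) (five 4 335 464))))))))))))))))) (both (mv 366 (both (five 7 366 398) (mv 367 (both (five 7 334 334) (mv 336 (both (five 5 335 368) (mv 335 (both (five 5 303 304) (mv 432 (both (five 4 335 464) (mv 462 (both (five 6 334 430) (five 1 428 460))))))))))))) (mv 432 (both (mv 462 (both (five 1 428 460) (mv 433 (both (five 2 430 434) (five 1 429 464))))) (both (mv 368 (both (five 5 367 400) (mv 398 (both (five 7 366 366) (mv 397 (both (five 0 396 396) (mv 433 (both (five 3 397 430) (five 3 398 434))))))))) (mv 368 (both (five 5 367 400) (mv 398 (both (five 7 366 366) (mv 397 (both (five 0 396 396) (mv 460 (both (five 1 428 462) (mv 429 (both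 (five 2 428 430) (mv 492 (both (five 6 364 365) (mv 524 (both (five 6 396 493) (five 5 428 556))))))))))))))))))))))) (both (mv 527 (both (five 4 431 560) (mv 430 (both (five 7 398 398) (mv 462 (both (five 7 430 559) (mv 493 (both (five 5 429 557) (mv 464 (both (five 2 460 492) (mv 465 (both (five 3 429 429) (five 3 430 466))))))))))))) (mv 527 (both (five 4 431 560) (mv 432 (both (five 5 399 400) (mv 462 (both (five 1 428 460) (mv 433 (both (five 2 430 434) (five 1 429 464))))))))))))) (both (mv 462 (both (mv 460 (both (mv 428 (both (five 3 427 427) (mv 432 (both (five 1 428 431) (mv 464 (both (five 3 428 429) (five 1 429 433))))))) (both (mv 431 (both (five 1 428 432) (mv 492 (both (five 2 459 491) (mv 493 (both (five 2 460 464) (mv 527 (both (five 4 431 560) (mv 557 (both (five 7 460 589) (mv 556 (both (five 6 460 588) (mv 558 (both (five 1 524 559) (five 4 461 590))))))))))))))) (mv 427 (both (five 3 427 428) (mv 459 (both (five 3 426 426) (mv 491 (both (five 2 458 490) (five 2 459 492)))))))))) (both (mv 464 (both (mv 432 (both (five 1 429 433) (mv 400 (both (five 6 367 368) (mv 527 (both (five 5 399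 431) (five 5 431 559))))))) (mv 493 (both (five 2 460 492) (mv 557 (both (five 5 429 430) (mv 588 (both (five 6 460 556) (mv 589 (both (five 6 492 620) (mv 590 (both (five 4 461 558) (five 4 493 622))))))))))))) (both (mv 460 (both (mv 431 (both (five 1 428 432) (mv 459 (both (five 1 427 430) (mv 491 (both (five 2 458 490) (five 2 459 492))))))) (mv 428 (both (five 3 427 427) (mv 493 (both (five 7 428 557) (mv 396 (both (five 4 364 364) (five 7 396 429))))))))) (both (mv 460 (both (mv 428 (both (five 3 427 427) (mv 432 (both (five 1 428 431) (mv 464 (both (five 3 428 429) (five 1 429 433))))))) (both (mv 427 (both (five 3 427 428) (mv 459 (both (five 3 426 426) (mv 491 (both (five 2 458 490) (five 2 459 492))))))) (mv 431 (both (five 1 428 432) (mv 459 (both (five 1 427 430) (mv 491 (both (five 2 458 490) (five 2 459 492)))))))))) (both (mv 464 (both (mv 428 (both (five 3 428 429) (mv 460 (both (five 3 427 427) (mv 492 (both (five 2 459 491) (five 2 460 493))))))) (both (mv 429 (both (five 3 428 428) (mv 465 (both (five 3 429 430) (mv 434 (both (five 1 430 433) (mv 466 (both (five 1 431 435) (mv 498 (both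 (five 0 462 497) (five 0 463 499))))))))))) (mv 493 (both (five 2 460 492) (mv 557 (both (five 5 429 430) (mv 588 (both (five 6 460 556) (mv 589 (both (five 6 492 620) (mv 590 (both (five 4 461 558) (five 4 493 622)))))))))))))) (mv 431 (both (mv 527 (both (five 4 431 560) (mv 430 (both (five 7 430 559) (mv 460 (both (five 1 427 459) (mv 428 (both (five 3 427 427) (mv 493 (both (five 7 428 557) (mv 396 (both (five 4 364 364) (five 7 396 429))))))))))))) (both (mv 527 (both (five 4 431 560) (mv 430 (both (five 7 430 559) (mv 432 (both (five 5 399 400) (five 2 429 433))))))) (mv 432 (both (five 1 428 460) (mv 433 (both (five 2 430 434) (five 1 429 464)))))))))))))) (mv 527 (both (mv 560 (both (five 4 431 431) (mv 592 (both (five 4 463 559) (five 7 495 624))))) (both (mv 559 (both (mv 590 (both (five 6 462 558) (mv 591 (both (five 6 494 622) (mv 592 (both (five 4 463 560) (five 4 495 624))))))) (both (mv 462 (both (five 7 430 430) (mv 464 (both (five 5 431 432) (mv 428 (both (five 3 428 429) (mv 460 (both (five 3 427 427) (mv 557 (both (five 7 428 493) (mv 558 (both (five 1 524 556) (five 6 462 590)))))))))))))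 (both (mv 591 (both (mv 592 (both (five 4 463 560) (five 4 495 624))) (both (mv 430 (both (five 7 430 462) (mv 432 (both (five 5 431 464) (mv 622 (both (five 6 494 590) (mv 623 (both (five 6 526 654) (mv 655 (both (five 5 527 560) (mv 656 (both (five 4 527 624) (five 4 559 688))))))))))))) (both (mv 430 (both (five 7 430 462) (mv 432 (both (five 5 431 464) (mv 560 (both (five 4 463 592) (mv 622 (both (five 6 494 590) (mv 623 (both (five 6 526 654) (five 5 527 655))))))))))) (mv 430 (both (five 7 430 462) (mv 432 (both (five 5 431 464) (mv 622 (both (five 6 494 590) (mv 623 (both (five 6 526 654) (mv 624 (both (five 4 527 656) (five 4 495 592))))))))))))))) (mv 462 (both (five 7 430 430) (mv 464 (both (five 5 431 432) (mv 428 (both (five 3 428 429) (mv 460 (both (five 3 427 427) (mv 557 (both (five 7 428 493) (mv 558 (both (five 1 524 556) (mv 560 (both (five 3 524 524) (five 4 463 592))))))))))))))))))) (both (mv 430 (both (mv 398 (both (five 7 398 431) (mv 462 (both (five 4 366 366) (five 7 430 559))))) (both (mv 431 (both (five 7 398 398) (mv 432 (both (five 5 399 400) (mv 464 (both (five 5 431 559) (mv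 429 (both (five 0 428 428) (five 0 429 465))))))))) (both (mv 462 (both (five 7 430 559) (mv 398 (both (five 4 366 366) (mv 493 (both (five 5 397 429) (five 5 429 557))))))) (both (mv 559 (both (five 7 430 462) (mv 432 (both (five 5 431 464) (mv 431 (both (five 5 399 400) (mv 429 (both (five 2 428 460) (mv 396 (both (five 3 396 397) (mv 428 (both (five 3 395 395) (five 7 396 493))))))))))))) (mv 398 (both (five 7 398 431) (mv 366 (both (five 4 366 462) (mv 429 (both (five 6 333 334) (five 5 397 493)))))))))))) (mv 431 (both (five 4 431 560) (mv 398 (both (five 7 398 430) (mv 399 (both (five 7 366 366) (mv 400 (both (five 5 367 368) (five 5 399 432))))))))))))))))))))))) (both (mv 559 (both (mv 557 (both (mv 493 (both (mv 589 (both (mv 620 (both (five 6 492 588) (mv 621 (both (five 6 524 652) (mv 622 (both (five 4 493 590) (five 4 525 654))))))) (both (mv 492 (both (five 7 460 460) (mv 621 (both (five 7 492 524) (mv 622 (both (five 4 493 590) (five 4 525 654))))))) (both (mv 492 (both (five 7 460 460) (mv 620 (both (five 6 492 588) (mv 621 (both (five 7 492 524) (five 6 524 652))))))) (mv 460 (both (five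 7 460 492) (mv 588 (both (five 6 492 620) (mv 590 (both (five 4 493 622) (mv 587 (both (five 1 555 558) (mv 554 (both (five 3 554 555) (mv 586 (both (five 3 553 553) (mv 618 (both (five 2 585 617) (five 2 586 619))))))))))))))))))) (both (mv 461 (both (mv 428 (both (five 7 428 460) (mv 429 (both (five 7 396 396) (mv 556 (both (five 6 428 524) (five 6 460 588))))))) (both (mv 430 (both (five 5 429 462) (mv 429 (both (five 5 397 398) (mv 556 (both (five 6 428 524) (five 6 460 588))))))) (mv 460 (both (five 7 428 428) (mv 462 (both (five 5 429 430) (mv 492 (both (five 2 460 464) (five 2 459 491)))))))))) (both (mv 461 (both (mv 428 (both (five 7 428 460) (mv 429 (both (five 7 396 396) (mv 430 (both (five 5 397 398) (five 5 429 462))))))) (both (mv 430 (both (five 5 429 462) (mv 429 (both (five 5 397 398) (mv 524 (both (five 6 428 556) (mv 492 (both (five 6 396 397) (mv 589 (both (five 7 492 621) (mv 590 (both (five 4 461 558) (five 4 493 622))))))))))))) (mv 460 (both (five 7 428 428) (mv 589 (both (five 7 460 492) (mv 590 (both (five 4 461 558) (five 4 493 622)))))))))) (both (mv 589 (both (mv 620 (both (five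 6 492 588) (mv 621 (both (five 6 524 652) (mv 622 (both (five 4 493 590) (five 4 525 654))))))) (both (mv 622 (both (five 4 493 590) (mv 621 (both (five 4 525 654) (mv 652 (both (five 6 524 620) (mv 653 (both (five 6 556 684) (mv 524 (both (five 7 524 556) (five 7 492 492))))))))))) (both (mv 622 (both (five 4 493 590) (mv 621 (both (five 4 525 654) (mv 524 (both (five 7 492 492) (mv 556 (both (five 7 524 653) (mv 461 (both (five 6 428 429) (five 6 460 588))))))))))) (both (mv 621 (both (mv 620 (both (five 6 492 588) (five 6 524 652))) (both (mv 524 (both (five 7 492 492) (mv 556 (both (five 7 524 653) (mv 461 (both (five 6 428 429) (five 6 460 588))))))) (mv 652 (both (five 6 524 620) (mv 653 (both (five 6 556 684) (mv 524 (both (five 7 524 556) (five 7 492 492)))))))))) (mv 588 (both (five 6 492 620) (mv 556 (both (five 6 460 461) (mv 590 (both (five 4 493 622) (mv 591 (both (five 3 555 555) (five 3 556 592)))))))))))))) (mv 461 (both (mv 588 (both (five 6 460 556) (mv 589 (both (five 6 492 620) (mv 590 (both (five 4 461 558) (five 4 493 622))))))) (mv 428 (both (five 7 428 460) (mv 429 (both (five 7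 396 396) (mv 430 (both (five 5 397 398) (five 5 429 462)))))))))))))) (both (mv 493 (both (mv 589 (both (mv 620 (both (five 6 492 588) (mv 621 (both (five 6 524 652) (mv 622 (both (five 4 493 590) (five 4 525 654))))))) (both (mv 492 (both (five 7 460 460) (mv 621 (both (five 7 492 524) (mv 622 (both (five 4 493 590) (five 4 525 654))))))) (both (mv 492 (both (five 7 460 460) (mv 620 (both (five 6 492 588) (mv 621 (both (five 7 492 524) (five 6 524 652))))))) (mv 460 (both (five 7 460 492) (mv 588 (both (five 6 492 620) (mv 590 (both (five 4 493 622) (mv 591 (both (five 1 556 560) (mv 556 (both (five 3 555 555) (five 3 556 592))))))))))))))) (both (mv 461 (both (mv 428 (both (five 7 428 460) (mv 429 (both (five 7 396 396) (mv 556 (both (five 6 428 524) (five 6 460 588))))))) (both (mv 430 (both (five 5 429 462) (mv 429 (both (five 5 397 398) (mv 556 (both (five 6 428 524) (five 6 460 588))))))) (mv 460 (both (five 7 428 428) (mv 462 (both (five 5 429 430) (mv 492 (both (five 2 460 464) (five 2 459 491)))))))))) (both (mv 589 (both (mv 620 (both (five 6 492 588) (mv 621 (both (five 6 524 652) (mv 622 (both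 (five 4 493 590) (five 4 525 654))))))) (both (mv 622 (both (five 4 493 590) (mv 621 (both (five 4 525 654) (mv 652 (both (five 6 524 620) (mv 653 (both (five 6 556 684) (mv 524 (both (five 7 524 556) (five 7 492 492))))))))))) (both (mv 622 (both (five 4 493 590) (mv 621 (both (five 4 525 654) (mv 524 (both (five 7 492 492) (mv 556 (both (five 7 524 653) (mv 461 (both (five 6 428 429) (five 6 460 588))))))))))) (both (mv 621 (both (mv 620 (both (five 6 492 588) (five 6 524 652))) (both (mv 524 (both (five 7 492 492) (mv 556 (both (five 7 524 653) (mv 461 (both (five 6 428 429) (five 6 460 588))))))) (mv 652 (both (five 6 524 620) (mv 653 (both (five 6 556 684) (mv 524 (both (five 7 524 556) (five 7 492 492)))))))))) (mv 588 (both (five 6 492 620) (mv 556 (both (five 6 460 461) (mv 590 (both (five 4 493 622) (mv 591 (both (five 3 555 555) (five 3 556 592)))))))))))))) (both (mv 461 (both (mv 428 (both (five 7 428 460) (mv 429 (both (five 7 396 396) (mv 430 (both (five 5 397 398) (five 5 429 462))))))) (both (mv 428 (both (five 7 428 460) (mv 429 (both (five 7 396 396) (mv 398 (both (five 5 397 430) (mv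 397 (both (five 5 365 366) (mv 524 (both (five 6 396 492) (five 6 428 556))))))))))) (both (mv 430 (both (five 5 429 462) (mv 429 (both (five 5 397 398) (mv 396 (both (five 7 396 428) (mv 397 (both (five 7 364 364) (mv 524 (both (five 6 396 492) (five 6 428 556))))))))))) (both (mv 430 (both (five 5 429 462) (mv 429 (both (five 5 397 398) (mv 524 (both (five 6 428 556) (mv 492 (both (five 6 396 397) (mv 589 (both (five 7 460 460) (five 7 492 621))))))))))) (mv 460 (both (five 7 428 428) (mv 462 (both (five 0 460 496) (mv 492 (both (five 2 460 464) (five 2 459 491)))))))))))) (both (mv 461 (both (mv 428 (both (five 7 428 460) (mv 429 (both (five 7 396 396) (mv 430 (both (five 5 397 398) (five 5 429 462))))))) (both (mv 428 (both (five 7 428 460) (mv 429 (both (five 7 396 396) (mv 556 (both (five 6 428 524) (five 6 460 588))))))) (both (mv 430 (both (five 5 429 462) (mv 429 (both (five 5 397 398) (mv 556 (both (five 6 428 524) (five 6 460 588))))))) (mv 428 (both (five 7 428 460) (mv 462 (both (five 5 429 430) (mv 588 (both (five 6 460 556) (mv 589 (both (five 6 492 620) (mv 590 (both (five 4 493 622) (mv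 560 (both (five 1 556 591) (mv 496 (both (five 7 463 592) (mv 497 (both (five 0 461 464) (five 3 462 498))))))))))))))))))))) (mv 589 (both (mv 620 (both (five 6 492 588) (mv 621 (both (five 6 524 652) (mv 622 (both (five 4 493 590) (five 4 525 654))))))) (mv 460 (both (five 7 460 492) (mv 461 (both (five 7 428 428) (mv 462 (both (five 5 429 430) (five 0 460 496))))))))))))))) (both (mv 560 (both (mv 496 (both (five 7 463 592) (mv 464 (both (five 6 463 591) (mv 465 (both (five 5 432 433) (mv 466 (both (five 2 463 467) (mv 434 (both (five 1 431 435) (mv 498 (both (five 0 463 499) (mv 462 (both (five 0 462 497) (mv 429 (both (five 3 429 430) (mv 461 (both (five 3 428 428) (five 0 460 460))))))))))))))))))) (both (mv 589 (both (mv 558 (both (five 2 556 588) (mv 621 (both (mv 652 (both (five 6 524 620) (mv 653 (both (five 6 556 684) (mv 654 (both (five 4 557 686) (five 4 525 622))))))) (both (mv 652 (both (five 6 524 620) (mv 653 (both (five 6 556 684) (mv 590 (both (five 5 557 685) (five 2 557 561))))))) (both (mv 654 (both (five 4 525 622) (mv 653 (both (five 4 557 686) (mv 590 (both (five 5 557 685) (five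 2 557 561))))))) (mv 620 (both (five 6 524 652) (mv 622 (both (five 4 525 654) (mv 590 (both (five 2 557 561) (mv 619 (both (five 1 586 618) (five 1 587 591))))))))))))))) (both (mv 590 (both (mv 493 (both (five 4 493 622) (mv 460 (both (five 7 460 492) (mv 461 (both (five 7 428 428) (mv 462 (both (five 5 429 430) (five 0 460 496))))))))) (mv 561 (both (five 2 557 558) (mv 562 (both (five 2 558 591) (mv 595 (both (five 0 559 594) (mv 563 (both (five 0 560 596) (mv 531 (both (five 1 527 530) (five 1 528 532))))))))))))) (both (mv 493 (both (mv 620 (both (five 6 492 588) (mv 621 (both (five 6 524 652) (mv 622 (both (five 4 493 590) (five 4 525 654))))))) (mv 460 (both (five 7 460 492) (mv 461 (both (five 7 428 428) (mv 462 (both (five 5 429 430) (five 0 460 496))))))))) (mv 588 (both (five 2 556 558) (mv 493 (both (five 6 492 620) (mv 460 (both (five 7 460 492) (mv 461 (both (five 7 428 428) (mv 462 (both (five 5 429 430) (five 0 460 496))))))))))))))) (both (mv 558 (both (mv 589 (both (five 2 556 588) (mv 593 (both (five 0 557 592) (mv 561 (both (five 2 557 590) (five 0 558 594))))))) (both (mv 592 (both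 (five 0 557 593) (mv 624 (both (mv 655 (both (five 6 527 623) (mv 656 (both (five 6 559 687) (mv 657 (both (five 4 560 689) (five 4 528 625))))))) (both (mv 591 (both (five 0 556 556) (mv 656 (both (five 7 559 688) (mv 657 (both (five 4 528 625) (five 4 560 689))))))) (both (mv 591 (both (five 0 556 556) (mv 655 (both (five 5 527 623) (mv 656 (both (five 6 559 687) (five 7 559 688))))))) (mv 591 (both (five 0 556 556) (mv 623 (both (five 5 527 655) (mv 625 (both (five 4 528 657) (mv 626 (both (five 3 590 590) (five 3 591 627))))))))))))))) (both (mv 589 (both (five 2 556 588) (mv 621 (both (mv 652 (both (five 6 524 620) (mv 653 (both (five 6 556 684) (mv 654 (both (five 4 557 686) (five 4 525 622))))))) (both (mv 652 (both (five 6 524 620) (mv 653 (both (five 6 556 684) (mv 590 (both (five 5 557 685) (five 2 557 561))))))) (both (mv 654 (both (five 4 525 622) (mv 653 (both (five 4 557 686) (mv 590 (both (five 5 557 685) (five 2 557 561))))))) (mv 620 (both (five 6 524 652) (mv 622 (both (five 4 525 654) (mv 590 (both (five 2 557 561) (mv 619 (both (five 1 586 618) (five 1 587 591))))))))))))))) (mv 588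 (both (five 2 556 589) (mv 592 (both (five 0 557 593) (mv 556 (both (five 2 555 587) (five 0 556 591))))))))))) (mv 592 (both (five 7 463 496) (mv 558 (both (five 0 557 593) (mv 589 (both (five 2 556 588) (mv 590 (both (five 2 557 561) (mv 493 (both (five 4 461 461) (five 4 493 622))))))))))))))) (both (mv 558 (both (mv 524 (both (five 3 524 560) (mv 523 (both (five 0 522 522) (five 3 523 556))))) (both (mv 556 (both (mv 523 (both (five 3 523 524) (mv 555 (both (five 3 522 522) (mv 591 (both (five 0 555 590) (five 0 556 592))))))) (both (mv 587 (both (five 2 555 588) (mv 555 (both (five 2 554 586) (mv 591 (both (five 0 555 590) (five 0 556 592))))))) (mv 524 (both (five 3 523 523) (mv 588 (both (five 2 555 587) (mv 620 (both (five 5 492 493) (five 5 524 652)))))))))) (both (mv 592 (both (mv 560 (both (five 7 463 496) (five 0 557 593))) (both (mv 591 (both (five 0 556 556) (mv 593 (both (five 3 557 590) (five 3 558 594))))) (mv 496 (both (five 7 463 560) (mv 556 (both (five 0 556 591) (mv 588 (both (five 2 555 587) (mv 461 (both (five 6 460 493) (mv 462 (both (five 0 460 460) (mv 497 (both (five 0 461 464)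 (five 3 462 498)))))))))))))))) (mv 560 (both (five 3 524 524) (mv 496 (both (five 7 463 592) (mv 464 (both (five 6 463 591) (mv 465 (both (five 5 432 433) (mv 466 (both (five 2 463 467) (mv 434 (both (five 1 431 435) (mv 498 (both (five 0 463 499) (mv 462 (both (five 0 462 497) (mv 429 (both (five 3 429 430) (mv 461 (both (five 3 428 428) (five 0 460 460))))))))))))))))))))))))) (both (mv 558 (both (mv 524 (both (five 3 524 560) (mv 523 (both (five 0 522 522) (five 3 523 556))))) (both (mv 556 (both (mv 523 (both (five 3 523 524) (mv 555 (both (five 3 522 522) (mv 587 (both (five 2 554 586) (five 2 555 588))))))) (both (mv 587 (both (five 2 555 588) (mv 555 (both (five 2 554 586) (mv 591 (both (five 0 555 590) (five 0 556 592))))))) (both (mv 523 (both (five 3 523 524) (mv 555 (both (five 3 522 522) (mv 591 (both (five 0 555 590) (five 0 556 592))))))) (mv 524 (both (five 3 523 523) (mv 588 (both (five 2 555 587) (mv 591 (both (five 0 556 592) (mv 620 (both (five 5 524 652) (mv 619 (both (five 6 523 651) (mv 589 (both (five 2 587 590) (mv 492 (both (five 4 460 460) (five 7 492 621))))))))))))))))))) (both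 (mv 592 (both (mv 560 (both (five 7 463 496) (five 0 557 593))) (both (mv 591 (both (five 0 556 556) (mv 593 (both (five 3 557 590) (five 3 558 594))))) (mv 556 (both (five 0 556 591) (mv 560 (both (five 7 463 496) (mv 588 (both (five 2 555 587) (five 2 556 589)))))))))) (mv 560 (both (five 3 524 524) (mv 496 (both (five 7 463 592) (mv 464 (both (five 6 463 591) (mv 465 (both (five 5 432 433) (mv 466 (both (five 2 463 467) (mv 434 (both (five 1 431 435) (mv 498 (both (five 0 463 499) (mv 462 (both (five 0 462 497) (mv 429 (both (five 3 429 430) (mv 461 (both (five 3 428 428) (five 0 460 460))))))))))))))))))))))))) (both (mv 589 (both (mv 493 (both (mv 620 (both (five 6 492 588) (mv 621 (both (five 6 524 652) (mv 622 (both (five 4 493 590) (five 4 525 654))))))) (mv 460 (both (five 7 460 492) (mv 461 (both (five 7 428 428) (mv 462 (both (five 5 429 430) (five 0 460 496))))))))) (both (mv 621 (both (mv 652 (both (five 6 524 620) (mv 653 (both (five 6 556 684) (mv 654 (both (five 4 525 622) (five 4 557 686))))))) (mv 524 (both (five 7 492 492) (mv 558 (both (five 3 524 560) (mv 523 (both (five 0 522 522)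 (five 3 523 556))))))))) (both (mv 524 (both (mv 558 (both (five 3 524 560) (mv 523 (both (five 0 522 522) (five 3 523 556))))) (mv 492 (both (five 7 492 621) (mv 460 (both (five 4 428 428) (five 7 460 493))))))) (mv 588 (both (mv 558 (both (five 2 556 560) (mv 587 (both (five 1 554 586) (five 1 555 590))))) (mv 493 (both (five 6 492 620) (mv 461 (both (five 6 460 556) (mv 428 (both (five 7 428 460) (mv 429 (both (five 7 396 396) (mv 430 (both (five 5 397 398) (five 5 429 462))))))))))))))))) (both (mv 558 (both (mv 524 (both (five 3 524 560) (mv 523 (both (five 0 522 522) (five 3 523 556))))) (both (mv 556 (both (mv 523 (both (five 3 523 524) (mv 555 (both (five 3 522 522) (mv 591 (both (five 0 555 590) (five 0 556 592))))))) (both (mv 587 (both (five 2 555 588) (mv 555 (both (five 2 554 586) (mv 591 (both (five 0 555 590) (five 0 556 592))))))) (mv 524 (both (five 3 523 523) (mv 588 (both (five 2 555 587) (mv 620 (both (five 5 492 493) (five 5 524 652)))))))))) (both (mv 592 (both (mv 560 (both (five 7 463 496) (five 0 557 593))) (both (mv 591 (both (five 0 556 556) (mv 593 (both (five 3 557 590) (five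 3 558 594))))) (mv 556 (both (five 0 556 591) (mv 560 (both (five 7 463 496) (mv 588 (both (five 2 555 587) (five 2 556 589)))))))))) (mv 560 (both (five 3 524 524) (mv 589 (both (five 2 556 588) (mv 593 (both (five 0 557 592) (mv 561 (both (five 2 557 590) (five 0 558 594))))))))))))) (both (mv 560 (both (mv 496 (both (five 7 463 592) (mv 464 (both (five 6 463 591) (mv 465 (both (five 5 432 433) (mv 466 (both (five 2 463 467) (mv 434 (both (five 1 431 435) (mv 498 (both (five 0 463 499) (mv 462 (both (five 0 462 497) (mv 429 (both (five 3 429 430) (mv 461 (both (five 3 428 428) (five 0 460 460))))))))))))))))))) (both (mv 589 (both (mv 621 (both (mv 652 (both (five 6 524 620) (mv 653 (both (five 6 556 684) (mv 654 (both (five 4 525 622) (five 4 557 686))))))) (both (mv 652 (both (five 6 524 620) (mv 653 (both (five 6 556 684) (mv 524 (both (five 7 524 556) (five 7 492 492))))))) (mv 492 (both (five 7 492 524) (mv 493 (both (five 7 460 460) (mv 622 (both (five 4 493 590) (five 4 525 654)))))))))) (both (mv 590 (both (mv 493 (both (five 4 493 622) (mv 460 (both (five 7 460 492) (mv 461 (both (five 7 428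 428) (mv 462 (both (five 5 429 430) (five 0 460 496))))))))) (mv 561 (both (five 2 557 558) (mv 562 (both (five 2 558 591) (mv 595 (both (five 0 559 594) (mv 563 (both (five 0 560 596) (mv 531 (both (five 1 527 530) (five 1 528 532))))))))))))) (both (mv 524 (both (five 3 524 558) (mv 492 (both (five 7 492 621) (mv 460 (both (five 4 428 428) (five 4 460 556))))))) (mv 558 (both (five 3 524 524) (mv 590 (both (five 2 557 561) (mv 493 (both (five 4 461 461) (five 4 493 622))))))))))) (both (mv 558 (both (five 3 524 524) (mv 592 (both (five 0 557 593) (mv 624 (both (mv 655 (both (five 6 527 623) (mv 656 (both (five 6 559 687) (mv 657 (both (five 4 560 689) (five 4 528 625))))))) (both (mv 591 (both (five 0 556 556) (mv 656 (both (five 7 559 688) (mv 657 (both (five 4 528 625) (five 4 560 689))))))) (both (mv 591 (both (five 0 556 556) (mv 655 (both (five 5 527 623) (mv 656 (both (five 6 559 687) (five 7 559 688))))))) (mv 591 (both (five 0 556 556) (mv 623 (both (five 5 527 655) (mv 625 (both (five 4 528 657) (mv 626 (both (five 3 590 590) (five 3 591 627))))))))))))))))) (mv 558 (both (five 3 524 524) (mv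 592 (both (five 7 463 496) (five 0 557 593))))))))) (both (mv 589 (both (mv 621 (both (mv 652 (both (five 6 524 620) (mv 653 (both (five 6 556 684) (mv 654 (both (five 4 525 622) (five 4 557 686))))))) (both (mv 654 (both (five 4 525 622) (mv 653 (both (five 4 557 686) (mv 524 (both (five 7 524 556) (five 7 492 492))))))) (mv 492 (both (five 7 492 524) (mv 493 (both (five 7 460 460) (mv 620 (both (five 6 492 588) (five 6 524 652)))))))))) (both (mv 560 (both (mv 496 (both (five 7 463 592) (mv 464 (both (five 6 463 591) (mv 465 (both (five 5 432 433) (mv 466 (both (five 2 463 467) (mv 434 (both (five 1 431 435) (mv 498 (both (five 0 463 499) (mv 462 (both (five 0 462 497) (mv 429 (both (five 3 429 430) (mv 461 (both (five 3 428 428) (five 0 460 460))))))))))))))))))) (mv 558 (both (five 3 524 524) (five 2 556 588))))) (both (mv 588 (both (mv 493 (both (five 6 492 620) (mv 460 (both (five 7 460 492) (mv 461 (both (five 7 428 428) (mv 462 (both (five 5 429 430) (five 0 460 496))))))))) (mv 558 (both (five 2 556 560) (mv 587 (both (five 2 555 556) (five 1 554 586))))))) (mv 621 (both (mv 652 (both (five 6 524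 620) (mv 653 (both (five 6 556 684) (mv 654 (both (five 4 525 622) (five 4 557 686))))))) (mv 524 (both (five 7 492 492) (mv 558 (both (five 3 524 560) (mv 523 (both (five 0 522 522) (five 3 523 556))))))))))))) (mv 560 (both (mv 558 (both (five 3 524 524) (mv 592 (both (five 7 463 496) (five 0 557 593))))) (both (mv 496 (both (five 7 463 592) (mv 464 (both (five 6 463 591) (mv 465 (both (five 5 432 433) (mv 466 (both (five 2 463 467) (mv 434 (both (five 1 431 435) (mv 498 (both (five 0 463 499) (mv 462 (both (five 0 462 497) (mv 429 (both (five 3 429 430) (mv 461 (both (five 3 428 428) (five 0 460 460))))))))))))))))))) (mv 558 (both (five 3 524 524) (mv 589 (both (five 2 556 588) (mv 590 (both (five 2 557 561) (mv 493 (both (five 4 461 461) (five 4 493 622)))))))))))))))))))))) (both (mv 527 (both (mv 590 (both (five 6 462 558) (mv 591 (both (five 6 494 622) (mv 623 (both (five 5 495 496) (mv 624 (both (five 4 527 656) (five 4 495 592))))))))) (both (mv 462 (both (five 7 430 430) (mv 464 (both (five 5 431 432) (mv 496 (both (five 5 463 591) (mv 497 (both (five 3 462 498) (five 0 461 461))))))))) (both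 (mv 462 (both (five 7 430 430) (mv 461 (both (mv 460 (both (five 0 460 496) (mv 427 (both (five 3 427 428) (mv 459 (both (five 3 426 426) (mv 491 (both (five 2 458 490) (five 2 459 492))))))))) (both (mv 464 (both (five 5 431 432) (mv 429 (both (five 3 428 428) (mv 493 (both (five 2 460 492) (mv 556 (both (five 6 428 524) (mv 557 (both (five 1 524 558) (five 6 460 588))))))))))) (both (mv 432 (both (five 5 431 464) (mv 460 (both (five 0 460 496) (mv 491 (both (five 2 459 492) (mv 459 (both (five 2 458 490) (mv 427 (both (five 3 426 426) (mv 558 (both (five 6 462 590) (mv 556 (both (five 1 524 557) (mv 523 (both (five 4 427 524) (mv 554 (both (five 6 426 522) (mv 555 (both (five 6 458 586) (five 4 459 588))))))))))))))))))))) (mv 460 (both (five 0 460 496) (mv 428 (both (five 3 427 427) (mv 493 (both (five 7 428 557) (mv 396 (both (five 4 364 364) (five 7 396 429))))))))))))))) (mv 462 (both (five 7 430 430) (mv 464 (both (five 5 431 432) (mv 461 (both (mv 428 (both (five 3 428 429) (mv 460 (both (five 3 427 427) (mv 492 (both (five 2 459 491) (five 2 460 493))))))) (both (mv 428 (both (five 3 428 429) (mv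 460 (both (five 3 427 427) (mv 492 (both (five 2 459 491) (mv 557 (both (five 4 428 524) (mv 558 (both (five 1 524 556) (five 6 462 590))))))))))) (both (mv 493 (both (five 2 460 492) (mv 590 (both (five 6 462 558) (mv 591 (both (five 6 494 622) (mv 624 (both (five 4 495 592) (mv 623 (both (five 4 527 656) (mv 588 (both (five 0 588 589) (mv 556 (both (five 6 460 557) (mv 524 (both (five 6 428 429) (five 5 492 620))))))))))))))))) (both (mv 428 (both (five 3 428 429) (mv 460 (both (five 3 427 427) (mv 557 (both (five 7 428 493) (mv 558 (both (five 1 524 556) (five 6 462 590))))))))) (mv 492 (both (five 2 460 493) (mv 460 (both (five 2 459 491) (mv 427 (both (five 3 427 428) (mv 459 (both (five 3 426 426) (mv 363 (both (five 4 363 395) (mv 556 (both (five 7 427 524) (mv 558 (both (five 1 524 557) (five 6 462 590)))))))))))))))))))))))))))) (both (mv 557 (both (mv 527 (both (mv 558 (both (five 1 524 556) (five 6 462 590))) (both (mv 591 (both (mv 592 (both (five 4 463 560) (five 4 495 624))) (both (mv 430 (both (five 7 430 462) (mv 432 (both (five 5 431 464) (mv 622 (both (five 6 494 590) (mv 623 (both (five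 6 526 654) (mv 655 (both (five 5 527 560) (mv 656 (both (five 4 527 624) (five 4 559 688))))))))))))) (both (mv 430 (both (five 7 430 462) (mv 432 (both (five 5 431 464) (mv 560 (both (five 4 463 592) (mv 622 (both (five 6 494 590) (mv 623 (both (five 6 526 654) (five 5 527 655))))))))))) (mv 430 (both (five 7 430 462) (mv 432 (both (five 5 431 464) (mv 622 (both (five 6 494 590) (mv 623 (both (five 6 526 654) (mv 624 (both (five 4 527 656) (five 4 495 592))))))))))))))) (mv 558 (both (five 1 524 556) (mv 560 (both (five 3 524 524) (five 4 463 592)))))))) (both (mv 558 (both (mv 524 (both (five 3 524 560) (mv 523 (both (five 0 522 522) (five 3 523 556))))) (both (mv 556 (both (mv 587 (both (five 2 555 588) (mv 555 (both (five 2 554 586) (mv 591 (both (five 0 555 590) (five 0 556 592))))))) (both (mv 588 (both (five 2 555 587) (mv 493 (both (five 6 460 461) (mv 620 (both (five 6 492 589) (five 5 524 652))))))) (mv 591 (both (five 0 556 592) (mv 590 (both (five 0 555 555) (mv 493 (both (five 4 461 461) (mv 622 (both (five 4 493 589) (five 7 525 654)))))))))))) (mv 560 (both (five 3 524 524) (mv 589 (both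 (five 2 556 588) (mv 593 (both (five 0 557 592) (mv 561 (both (five 2 557 590) (five 0 558 594)))))))))))) (both (mv 493 (both (mv 589 (both (mv 620 (both (five 6 492 588) (mv 621 (both (five 6 524 652) (mv 622 (both (five 4 493 590) (five 4 525 654))))))) (both (mv 492 (both (five 7 460 460) (mv 621 (both (five 7 492 524) (mv 622 (both (five 4 493 590) (five 4 525 654))))))) (both (mv 492 (both (five 7 460 460) (mv 620 (both (five 6 492 588) (mv 621 (both (five 7 492 524) (five 6 524 652))))))) (mv 460 (both (five 7 460 492) (mv 588 (both (five 6 492 620) (mv 590 (both (five 4 493 622) (mv 591 (both (five 1 556 560) (mv 556 (both (five 3 555 555) (five 3 556 592))))))))))))))) (both (mv 461 (both (mv 556 (both (five 6 460 588) (mv 429 (both (five 6 428 524) (mv 396 (both (five 7 396 428) (mv 397 (both (five 7 364 364) (mv 398 (both (five 5 365 366) (five 5 397 430))))))))))) (both (mv 556 (both (five 6 460 588) (mv 429 (both (five 6 428 524) (mv 428 (both (five 7 396 396) (mv 464 (both (five 3 428 462) (mv 527 (both (five 5 431 432) (mv 592 (both (five 4 463 560) (mv 591 (both (five 4 495 624) (mv 590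 (both (five 3 556 589) (five 6 494 622))))))))))))))))) (mv 462 (both (five 5 429 430) (mv 464 (both (five 2 460 492) (mv 432 (both (five 1 429 433) (five 5 431 527)))))))))) (both (mv 461 (both (mv 428 (both (five 7 428 460) (mv 429 (both (five 7 396 396) (mv 430 (both (five 5 397 398) (five 5 429 462))))))) (both (mv 428 (both (five 7 428 460) (mv 429 (both (five 7 396 396) (mv 398 (both (five 5 397 430) (mv 397 (both (five 5 365 366) (mv 524 (both (five 6 396 492) (five 6 428 556))))))))))) (both (mv 462 (both (five 5 429 430) (mv 464 (both (five 2 460 492) (mv 432 (both (five 1 429 433) (five 5 431 527))))))) (mv 428 (both (five 7 428 460) (mv 429 (both (five 7 396 396) (mv 464 (both (five 3 428 462) (mv 432 (both (five 5 431 527) (mv 368 (both (five 6 367 400) (mv 524 (both (five 6 428 556) (mv 397 (both (five 6 396 492) (mv 366 (both (five 5 365 398) (mv 365 (both (five 5 333 334) (mv 332 (both (five 7 332 364) (mv 333 (both (five 7 300 300) (five 3 332 367))))))))))))))))))))))))))) (both (mv 461 (both (mv 428 (both (five 7 428 460) (mv 429 (both (five 7 396 396) (mv 430 (both (five 5 397 398) (five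 5 429 462))))))) (both (mv 428 (both (five 7 428 460) (mv 429 (both (five 7 396 396) (mv 556 (both (five 6 428 524) (five 6 460 588))))))) (both (mv 430 (both (five 5 429 462) (mv 429 (both (five 5 397 398) (mv 556 (both (five 6 428 524) (five 6 460 588))))))) (mv 428 (both (five 7 428 460) (mv 430 (both (five 5 429 462) (mv 588 (both (five 6 460 556) (mv 589 (both (five 6 492 620) (mv 590 (both (five 4 493 622) (mv 591 (both (five 1 556 560) (mv 624 (both (five 0 588 623) (mv 592 (both (five 4 495 527) (five 0 589 625))))))))))))))))))))) (both (mv 589 (both (mv 620 (both (five 6 492 588) (mv 621 (both (five 6 524 652) (mv 622 (both (five 4 493 590) (five 4 525 654))))))) (both (mv 492 (both (five 7 460 460) (mv 620 (both (five 6 492 588) (mv 621 (both (five 7 492 524) (five 6 524 652))))))) (both (mv 492 (both (five 7 460 460) (mv 621 (both (five 7 492 524) (mv 622 (both (five 4 493 590) (five 4 525 654))))))) (mv 460 (both (five 7 460 492) (mv 428 (both (five 7 428 461) (mv 588 (both (five 6 492 620) (mv 590 (both (five 4 493 622) (mv 591 (both (five 1 556 560) (mv 624 (both (five 0 588 623) (mv 592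 (both (five 4 495 527) (five 0 589 625))))))))))))))))))) (mv 461 (both (mv 428 (both (five 7 428 460) (mv 429 (both (five 7 396 396) (mv 430 (both (five 5 397 398) (five 5 429 462))))))) (both (mv 460 (both (five 7 428 428) (mv 588 (both (five 6 460 556) (mv 589 (both (five 7 460 492) (five 6 492 620))))))) (mv 462 (both (five 5 429 430) (mv 464 (both (five 2 460 492) (mv 432 (both (five 1 429 433) (five 5 431 527)))))))))))))))) (both (mv 558 (both (mv 590 (both (five 6 462 527) (mv 493 (both (five 4 461 461) (mv 622 (both (five 4 493 589) (five 7 525 654))))))) (both (mv 560 (both (five 3 524 524) (mv 589 (both (five 2 556 588) (mv 593 (both (five 0 557 592) (mv 561 (both (five 2 557 590) (five 0 558 594))))))))) (mv 560 (both (five 3 524 524) (mv 592 (both (five 4 463 527) (five 0 557 593)))))))) (both (mv 558 (both (mv 524 (both (five 3 524 560) (mv 523 (both (five 0 522 522) (five 3 523 556))))) (both (mv 560 (both (five 3 524 524) (mv 592 (both (five 4 463 527) (five 0 557 593))))) (mv 556 (both (five 1 524 527) (mv 588 (both (five 2 555 587) (mv 493 (both (five 6 460 461) (mv 620 (both (five 6 492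 589) (five 5 524 652)))))))))))) (both (mv 558 (both (mv 524 (both (five 3 524 560) (mv 523 (both (five 0 522 522) (five 3 523 556))))) (mv 590 (both (five 6 462 527) (mv 493 (both (five 4 461 461) (mv 622 (both (five 4 493 589) (five 7 525 654))))))))) (mv 558 (both (mv 590 (both (five 6 462 527) (mv 493 (both (five 4 461 461) (mv 622 (both (five 4 493 589) (five 7 525 654))))))) (both (mv 556 (both (mv 587 (both (five 2 555 588) (mv 555 (both (five 2 554 586) (mv 591 (both (five 0 555 590) (five 0 556 592))))))) (both (mv 588 (both (five 2 555 587) (mv 493 (both (five 6 460 461) (mv 620 (both (five 6 492 589) (five 5 524 652))))))) (mv 591 (both (five 0 556 592) (mv 590 (both (five 0 555 555) (mv 493 (both (five 4 461 461) (mv 622 (both (five 4 493 589) (five 7 525 654)))))))))))) (both (mv 556 (both (five 1 524 527) (mv 588 (both (five 2 555 587) (mv 493 (both (five 6 460 461) (mv 620 (both (five 6 492 589) (five 5 524 652))))))))) (mv 527 (both (five 1 524 556) (five 6 462 590)))))))))))))) (both (mv 527 (both (mv 590 (both (five 6 462 558) (mv 591 (both (five 6 494 622) (mv 496 (both (five 5 463 464)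 (five 5 495 623))))))) (both (mv 430 (both (five 7 430 462) (mv 590 (both (five 6 462 558) (mv 591 (both (five 6 494 622) (mv 623 (both (five 5 495 496) (mv 655 (both (five 5 527 560) (mv 656 (both (five 4 527 624) (five 4 559 688))))))))))))) (both (mv 462 (both (five 7 430 430) (mv 464 (both (five 5 431 432) (mv 496 (both (five 5 463 591) (mv 497 (both (five 3 462 498) (five 0 461 461))))))))) (both (mv 462 (both (five 7 430 430) (mv 461 (both (mv 464 (both (five 5 431 432) (mv 429 (both (five 3 428 428) (mv 493 (both (five 2 460 492) (mv 556 (both (five 6 428 524) (mv 557 (both (five 1 524 558) (five 6 460 588))))))))))) (both (mv 460 (both (mv 427 (both (five 3 427 428) (mv 459 (both (five 3 426 426) (mv 491 (both (five 2 458 490) (five 2 459 492))))))) (both (mv 491 (both (five 2 459 492) (mv 459 (both (five 2 458 490) (mv 427 (both (five 3 426 426) (mv 558 (both (five 6 462 590) (mv 556 (both (five 1 524 557) (mv 523 (both (five 4 427 524) (mv 554 (both (five 6 426 522) (mv 555 (both (five 6 458 586) (five 4 459 588))))))))))))))))) (both (mv 428 (both (five 3 427 427) (mv 493 (both (five 7 428 557)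 (mv 396 (both (five 4 364 364) (five 7 396 429))))))) (mv 491 (both (five 2 459 492) (mv 459 (both (five 2 458 490) (mv 558 (both (five 6 462 590) (mv 557 (both (five 1 524 556) (mv 428 (both (five 7 428 493) (mv 364 (both (five 6 363 396) (mv 523 (both (five 5 427 555) (mv 524 (both (five 0 522 522) (five 3 524 560))))))))))))))))))))) (both (mv 464 (both (five 5 431 432) (mv 428 (both (five 3 428 429) (mv 460 (both (five 3 427 427) (mv 492 (both (five 2 459 491) (five 2 460 493))))))))) (both (mv 464 (both (five 5 431 432) (mv 428 (both (five 3 428 429) (mv 460 (both (five 3 427 427) (mv 492 (both (five 2 459 491) (mv 557 (both (five 4 428 524) (mv 558 (both (five 1 524 556) (five 6 462 590))))))))))))) (both (mv 556 (both (mv 558 (both (five 1 524 557) (five 6 462 590))) (both (mv 464 (both (five 5 431 432) (mv 492 (both (five 2 460 493) (mv 460 (both (five 2 459 491) (mv 524 (both (five 5 428 429) (mv 427 (both (five 7 427 459) (mv 587 (both (five 6 459 555) (mv 588 (both (five 6 491 619) (mv 589 (both (five 4 460 557) (five 4 492 621))))))))))))))))) (mv 464 (both (five 5 431 432) (mv 492 (both (five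 2 460 493) (mv 460 (both (five 2 459 491) (mv 524 (both (five 5 428 429) (mv 427 (both (five 7 427 459) (mv 587 (both (five 6 459 555) (mv 588 (both (five 6 491 619) (mv 589 (both (five 4 492 621) (mv 590 (both (five 6 462 558) (mv 591 (both (five 1 556 560) (five 6 494 622)))))))))))))))))))))))) (both (mv 464 (both (five 5 431 432) (mv 428 (both (five 3 428 429) (mv 460 (both (five 3 427 427) (mv 557 (both (five 7 428 493) (mv 558 (both (five 1 524 556) (five 6 462 590))))))))))) (mv 464 (both (five 5 431 432) (mv 492 (both (five 2 460 493) (mv 460 (both (five 2 459 491) (mv 427 (both (five 3 427 428) (mv 459 (both (five 3 426 426) (mv 363 (both (five 4 363 395) (mv 556 (both (five 7 427 524) (mv 558 (both (five 1 524 557) (five 6 462 590)))))))))))))))))))))))))) (mv 462 (both (five 7 430 430) (mv 461 (both (mv 460 (both (five 0 460 496) (mv 427 (both (five 3 427 428) (mv 459 (both (five 3 426 426) (mv 491 (both (five 2 458 490) (five 2 459 492))))))))) (both (mv 464 (both (five 5 431 432) (mv 429 (both (five 3 428 428) (mv 493 (both (five 2 460 492) (mv 556 (both (five 6 428 524) (mv 557 (both (five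 1 524 558) (five 6 460 588))))))))))) (both (mv 432 (both (five 5 431 464) (mv 460 (both (five 0 460 496) (mv 491 (both (five 2 459 492) (mv 459 (both (five 2 458 490) (mv 427 (both (five 3 426 426) (mv 558 (both (five 6 462 590) (mv 556 (both (five 1 524 557) (mv 523 (both (five 4 427 524) (mv 554 (both (five 6 426 522) (mv 555 (both (five 6 458 586) (five 4 459 588))))))))))))))))))))) (mv 460 (both (five 0 460 496) (mv 428 (both (five 3 427 427) (mv 493 (both (five 7 428 557) (mv 396 (both (five 4 364 364) (five 7 396 429)))))))))))))))))))) (both (mv 527 (both (mv 590 (both (five 6 462 558) (mv 591 (both (five 6 494 622) (mv 623 (both (five 5 495 496) (mv 624 (both (five 4 527 656) (five 4 495 592))))))))) (both (mv 590 (both (five 6 462 558) (mv 591 (both (five 6 494 622) (mv 623 (both (five 5 495 496) (mv 655 (both (five 5 527 560) (mv 656 (both (five 4 527 624) (five 4 559 688))))))))))) (both (mv 591 (both (mv 592 (both (five 4 463 560) (five 4 495 624))) (both (mv 623 (both (five 5 495 496) (mv 655 (both (five 5 527 560) (mv 656 (both (five 4 527 624) (five 4 559 688))))))) (both (mv 623 (both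 (five 5 495 496) (mv 624 (both (five 4 527 656) (five 4 495 592))))) (mv 430 (both (five 7 430 462) (mv 560 (both (five 4 463 592) (mv 623 (both (five 5 527 655) (five 5 495 496))))))))))) (mv 430 (both (five 7 430 462) (mv 558 (both (five 6 462 590) (mv 557 (both (five 1 524 556) (mv 560 (both (five 3 524 524) (five 4 463 592))))))))))))) (both (mv 527 (both (mv 590 (both (five 6 462 558) (mv 591 (both (five 6 494 622) (mv 496 (both (five 5 463 464) (five 5 495 623))))))) (both (mv 464 (both (five 5 431 432) (mv 591 (both (five 5 463 496) (mv 592 (both (five 4 463 560) (five 4 495 624))))))) (mv 558 (both (five 6 462 590) (mv 557 (both (five 1 524 556) (mv 560 (both (five 3 524 524) (five 4 463 592)))))))))) (both (mv 527 (both (mv 592 (both (five 4 463 560) (mv 591 (both (five 4 495 624) (mv 622 (both (five 6 494 590) (mv 623 (both (five 5 495 496) (five 6 526 654))))))))) (both (mv 462 (both (five 7 430 430) (mv 464 (both (five 5 431 432) (mv 496 (both (five 5 463 591) (mv 497 (both (five 3 462 498) (five 0 461 461))))))))) (both (mv 591 (both (mv 592 (both (five 4 463 560) (five 4 495 624))) (both (mv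 430 (both (five 7 430 462) (mv 432 (both (five 5 431 464) (mv 622 (both (five 6 494 590) (mv 623 (both (five 6 526 654) (mv 655 (both (five 5 527 560) (mv 656 (both (five 4 527 624) (five 4 559 688))))))))))))) (both (mv 430 (both (five 7 430 462) (mv 432 (both (five 5 431 464) (mv 560 (both (five 4 463 592) (mv 622 (both (five 6 494 590) (mv 623 (both (five 6 526 654) (five 5 527 655))))))))))) (mv 430 (both (five 7 430 462) (mv 432 (both (five 5 431 464) (mv 622 (both (five 6 494 590) (mv 623 (both (five 6 526 654) (mv 624 (both (five 4 527 656) (five 4 495 592))))))))))))))) (mv 464 (both (five 5 431 432) (mv 465 (both (mv 560 (both (five 4 463 592) (mv 496 (both (five 5 432 433) (mv 466 (both (five 2 463 467) (mv 434 (both (five 1 431 435) (mv 498 (both (five 0 463 499) (mv 561 (both (five 4 464 593) (mv 562 (both (five 3 527 563) (mv 530 (both (five 1 527 531) (mv 594 (both (five 7 465 497) (five 0 559 595))))))))))))))))))) (both (mv 462 (both (five 7 430 430) (mv 434 (both (five 1 430 433) (mv 466 (both (five 1 431 435) (mv 498 (both (five 0 462 497) (five 0 463 499))))))))) (both (mv 462 (both (five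 7 430 430) (mv 433 (both (five 1 430 434) (mv 560 (both (five 5 432 496) (five 4 463 592))))))) (mv 462 (both (five 7 430 430) (mv 497 (both (five 0 462 498) (mv 461 (both (five 0 461 496) (mv 428 (both (five 3 428 429) (mv 460 (both (five 3 427 427) (mv 492 (both (five 2 459 491) (five 2 460 493))))))))))))))))))))))) (both (mv 527 (both (mv 558 (both (five 6 462 590) (mv 557 (both (five 1 524 556) (mv 560 (both (five 3 524 524) (five 4 463 592))))))) (both (mv 462 (both (five 7 430 430) (mv 461 (both (mv 460 (both (five 0 460 496) (mv 427 (both (five 3 427 428) (mv 459 (both (five 3 426 426) (mv 491 (both (five 2 458 490) (five 2 459 492))))))))) (both (mv 464 (both (five 5 431 432) (mv 429 (both (five 3 428 428) (mv 493 (both (five 2 460 492) (mv 556 (both (five 6 428 524) (mv 557 (both (five 1 524 558) (five 6 460 588))))))))))) (both (mv 432 (both (five 5 431 464) (mv 460 (both (five 0 460 496) (mv 491 (both (five 2 459 492) (mv 459 (both (five 2 458 490) (mv 427 (both (five 3 426 426) (mv 558 (both (five 6 462 590) (mv 556 (both (five 1 524 557) (mv 523 (both (five 4 427 524) (mv 554 (both (five 6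 426 522) (mv 555 (both (five 6 458 586) (five 4 459 588))))))))))))))))))))) (mv 460 (both (five 0 460 496) (mv 428 (both (five 3 427 427) (mv 493 (both (five 7 428 557) (mv 396 (both (five 4 364 364) (five 7 396 429))))))))))))))) (mv 464 (both (five 5 431 432) (mv 465 (both (mv 560 (both (five 4 463 592) (mv 496 (both (five 5 432 433) (mv 466 (both (five 2 463 467) (mv 434 (both (five 1 431 435) (mv 498 (both (five 0 463 499) (mv 561 (both (five 4 464 593) (mv 562 (both (five 3 527 563) (mv 530 (both (five 1 527 531) (mv 594 (both (five 7 465 497) (five 0 559 595))))))))))))))))))) (both (mv 462 (both (five 7 430 430) (mv 434 (both (five 1 430 433) (mv 466 (both (five 1 431 435) (mv 498 (both (five 0 462 497) (five 0 463 499))))))))) (both (mv 462 (both (five 7 430 430) (mv 433 (both (five 1 430 434) (mv 560 (both (five 5 432 496) (five 4 463 592))))))) (mv 462 (both (five 7 430 430) (mv 497 (both (five 0 462 498) (mv 461 (both (five 0 461 496) (mv 428 (both (five 3 428 429) (mv 460 (both (five 3 427 427) (mv 492 (both (five 2 459 491) (five 2 460 493)))))))))))))))))))))) (mv 462 (both (mv 461 (both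 (mv 460 (both (five 0 460 496) (mv 427 (both (five 3 427 428) (mv 459 (both (five 3 426 426) (mv 491 (both (five 2 458 490) (five 2 459 492))))))))) (both (mv 493 (both (mv 430 (both (five 5 429 557) (mv 398 (both (five 4 366 366) (five 5 397 429))))) (mv 492 (both (five 2 460 464) (mv 491 (both (five 2 459 460) (five 1 458 490))))))) (both (mv 464 (both (mv 429 (both (five 3 428 428) (mv 465 (both (five 3 429 430) (mv 497 (both (five 0 461 496) (five 0 462 498))))))) (both (mv 429 (both (five 3 428 428) (mv 465 (both (five 3 429 430) (mv 434 (both (five 1 430 433) (mv 466 (both (five 1 431 435) (mv 498 (both (five 0 462 497) (five 0 463 499))))))))))) (both (mv 433 (both (five 1 429 432) (mv 465 (both (five 1 430 434) (mv 496 (both (five 0 461 497) (five 5 432 560))))))) (mv 428 (both (five 3 428 429) (mv 432 (both (five 1 429 433) (mv 368 (both (five 6 367 400) (mv 493 (both (five 2 460 492) (mv 557 (both (five 5 429 430) (mv 588 (both (five 6 460 556) (mv 589 (both (five 6 492 620) (mv 560 (both (five 2 556 558) (mv 496 (both (five 6 463 591) (five 7 463 592))))))))))))))))))))))) (mv 496 (both (five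 0 460 460) (mv 464 (both (five 0 461 497) (mv 433 (both (five 1 429 432) (mv 465 (both (five 1 430 434) (five 5 432 560))))))))))))) (both (mv 464 (both (mv 527 (both (five 5 431 432) (mv 591 (both (five 5 463 496) (mv 592 (both (five 4 463 560) (five 4 495 624))))))) (both (mv 432 (both (five 5 431 527) (mv 368 (both (five 6 367 400) (mv 433 (both (five 1 429 461) (mv 434 (both (five 2 431 435) (five 1 430 465))))))))) (mv 496 (both (mv 497 (both (five 3 462 498) (five 0 461 461))) (mv 560 (both (five 6 463 591) (five 7 463 592)))))))) (both (mv 461 (both (mv 493 (both (mv 430 (both (five 5 429 557) (mv 398 (both (five 4 366 366) (five 5 397 429))))) (mv 492 (both (five 2 460 464) (mv 491 (both (five 2 459 460) (five 1 458 490))))))) (both (mv 464 (both (mv 432 (both (five 1 429 433) (five 5 431 527))) (mv 428 (both (five 3 428 429) (mv 460 (both (five 3 427 427) (mv 492 (both (five 2 459 491) (five 2 460 493))))))))) (both (mv 430 (both (five 7 430 527) (mv 398 (both (five 4 366 366) (mv 493 (both (five 5 397 429) (five 5 429 557))))))) (both (mv 464 (both (mv 432 (both (five 1 429 433) (five 5 431 527)))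 (both (mv 429 (both (five 3 428 428) (mv 465 (both (five 3 429 430) (mv 434 (both (five 1 430 433) (mv 466 (both (five 1 431 435) (mv 498 (both (five 0 462 497) (five 0 463 499))))))))))) (mv 527 (both (five 7 430 430) (five 5 431 432)))))) (mv 430 (both (five 7 430 527) (mv 366 (both (five 4 366 398) (mv 493 (both (five 5 429 557) (mv 492 (both (five 2 460 464) (mv 491 (both (five 2 459 460) (five 1 458 490)))))))))))))))) (both (mv 461 (both (mv 430 (both (five 7 430 527) (mv 398 (both (five 4 366 366) (mv 493 (both (five 5 397 429) (five 5 429 557))))))) (mv 460 (both (five 0 460 496) (mv 427 (both (five 3 427 428) (mv 459 (both (five 3 426 426) (mv 491 (both (five 2 458 490) (five 2 459 492))))))))))) (mv 527 (both (five 7 430 430) (mv 464 (both (five 5 431 432) (mv 591 (both (five 5 463 496) (mv 592 (both (five 4 463 560) (five 4 495 624))))))))))))))))))))))) (both (mv 431 (both (mv 399 (both (five 4 399 496) (mv 366 (both (five 7 366 398) (mv 367 (both (five 7 334 334) (mv 368 (both (five 5 335 336) (five 5 367 400))))))))) (both (mv 527 (both (mv 432 (both (five 5 399 400) (mv 559 (both (five 5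 431 464) (mv 590 (both (five 6 462 558) (mv 591 (both (five 6 494 622) (mv 623 (both (five 5 495 496) (mv 624 (both (five 4 527 656) (five 4 495 592))))))))))))) (both (mv 430 (both (five 7 398 398) (mv 429 (both (mv 464 (both (five 0 428 428) (mv 465 (both (five 0 429 432) (five 3 430 466))))) (both (mv 428 (both (five 0 428 464) (mv 395 (both (five 3 395 396) (mv 427 (both (five 3 394 394) (mv 459 (both (five 2 426 458) (five 2 427 460))))))))) (both (mv 432 (both (five 5 399 400) (mv 396 (both (five 3 396 397) (mv 428 (both (five 3 395 395) (mv 460 (both (five 2 427 459) (five 2 428 461))))))))) (mv 432 (both (five 5 399 400) (mv 396 (both (five 3 396 397) (mv 460 (both (five 2 428 461) (mv 465 (both (five 0 429 464) (mv 433 (both (five 0 430 466) (mv 402 (both (five 1 398 401) (mv 434 (both (five 1 399 403) (five 2 430 462))))))))))))))))))))) (mv 430 (both (five 7 398 398) (mv 559 (both (five 7 430 462) (mv 590 (both (five 6 462 558) (mv 591 (both (five 6 494 622) (mv 623 (both (five 5 495 496) (mv 624 (both (five 4 527 656) (five 4 495 592)))))))))))))))) (both (mv 399 (both (mv 366 (both (five 7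 366 398) (mv 367 (both (five 7 334 334) (mv 368 (both (five 5 335 336) (five 5 367 400))))))) (both (mv 367 (both (mv 368 (both (five 5 335 336) (five 5 367 400))) (both (mv 334 (both (five 7 334 366) (mv 335 (both (five 7 302 302) (mv 304 (both (five 5 303 336) (mv 303 (both (five 5 271 272) (mv 432 (both (five 4 303 400) (five 4 335 464))))))))))) (both (mv 334 (both (five 7 334 366) (mv 335 (both (five 7 302 302) (mv 336 (both (five 5 303 304) (five 5 335 368))))))) (mv 334 (both (five 7 334 366) (mv 335 (both (five 7 302 302) (mv 400 (both (five 5 367 368) (mv 432 (both (five 4 303 303) (five 4 335 464))))))))))))) (both (mv 367 (both (mv 366 (both (five 7 334 334) (five 7 366 398))) (both (mv 334 (both (five 7 334 366) (mv 335 (both (five 7 302 302) (mv 336 (both (five 5 303 304) (five 5 335 368))))))) (mv 336 (both (five 5 335 368) (mv 335 (both (five 5 303 304) (mv 430 (both (five 6 334 462) (mv 398 (both (five 7 398 527) (mv 429 (both (mv 464 (both (five 0 428 428) (mv 465 (both (five 0 429 432) (five 3 430 466))))) (both (mv 461 (both (five 5 397 493) (mv 432 (both (five 2 428 460) (mv 397 (both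 (five 3 396 396) (five 3 397 433))))))) (mv 428 (both (five 0 428 464) (mv 395 (both (five 3 395 396) (mv 427 (both (five 3 394 394) (mv 459 (both (five 2 426 458) (five 2 427 460))))))))))))))))))))))) (both (mv 400 (both (five 5 367 368) (mv 430 (both (mv 401 (both (five 2 398 402) (mv 429 (both (five 1 396 428) (five 1 397 432))))) (both (mv 527 (both (five 7 398 398) (five 5 399 432))) (mv 398 (both (five 7 398 527) (mv 401 (both (five 2 398 402) (five 2 397 429)))))))))) (mv 398 (both (five 7 366 366) (mv 432 (both (mv 397 (both (five 0 396 396) (mv 433 (both (five 3 397 430) (five 3 398 434))))) (both (mv 397 (both (five 0 396 396) (mv 433 (both (five 0 397 400) (five 3 398 434))))) (mv 527 (both (five 5 399 400) (five 7 398 430))))))))))))) (both (mv 399 (both (five 4 399 496) (mv 367 (both (mv 368 (both (five 5 335 336) (five 5 367 400))) (both (mv 334 (both (five 7 334 366) (mv 335 (both (five 7 302 302) (mv 304 (both (five 5 303 336) (mv 303 (both (five 5 271 272) (mv 432 (both (five 4 303 400) (five 4 335 464))))))))))) (both (mv 334 (both (five 7 334 366) (mv 335 (both (five 7 302 302) (mv 336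 (both (five 5 303 304) (five 5 335 368))))))) (mv 334 (both (five 7 334 366) (mv 335 (both (five 7 302 302) (mv 400 (both (five 5 367 368) (mv 432 (both (five 4 303 303) (five 4 335 464))))))))))))))) (mv 399 (both (five 4 399 496) (mv 367 (both (mv 366 (both (five 7 334 334) (five 7 366 398))) (both (mv 334 (both (five 7 334 366) (mv 335 (both (five 7 302 302) (mv 336 (both (five 5 303 304) (five 5 335 368))))))) (mv 336 (both (five 5 335 368) (mv 335 (both (five 5 303 304) (mv 430 (both (five 6 334 462) (mv 398 (both (five 7 398 527) (mv 429 (both (mv 464 (both (five 0 428 428) (mv 465 (both (five 0 429 432) (five 3 430 466))))) (both (mv 461 (both (five 5 397 493) (mv 432 (both (five 2 428 460) (mv 397 (both (five 3 396 396) (five 3 397 433))))))) (mv 428 (both (five 0 428 464) (mv 395 (both (five 3 395 396) (mv 427 (both (five 3 394 394) (mv 459 (both (five 2 426 458) (five 2 427 460)))))))))))))))))))))))))))))) (both (mv 431 (both (mv 399 (both (five 4 399 496) (mv 366 (both (five 7 366 398) (mv 367 (both (five 7 334 334) (mv 368 (both (five 5 335 336) (five 5 367 400))))))))) (both (mv 527 (both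 (five 4 431 560) (mv 430 (both (five 7 398 398) (mv 559 (both (five 7 430 462) (mv 590 (both (five 6 462 558) (mv 591 (both (five 6 494 622) (mv 623 (both (five 5 495 496) (mv 624 (both (five 4 527 656) (five 4 495 592))))))))))))))) (both (mv 527 (both (five 4 431 560) (mv 398 (both (five 7 398 430) (mv 399 (both (five 7 366 366) (mv 400 (both (five 5 367 368) (five 5 399 432))))))))) (mv 399 (both (five 4 399 496) (mv 400 (both (five 5 367 368) (mv 527 (both (five 5 399 432) (five 4 431 560))))))))))) (both (mv 431 (both (mv 527 (both (five 4 431 560) (mv 430 (both (five 7 398 398) (mv 559 (both (five 7 430 462) (mv 590 (both (five 6 462 558) (mv 591 (both (five 6 494 622) (mv 496 (both (five 5 463 464) (five 5 495 623))))))))))))) (both (mv 399 (both (five 4 399 496) (mv 366 (both (five 7 366 398) (mv 367 (both (five 7 334 334) (mv 368 (both (five 5 335 336) (five 5 367 400))))))))) (both (mv 527 (both (five 4 431 560) (mv 398 (both (five 7 398 430) (mv 399 (both (five 7 366 366) (mv 400 (both (five 5 367 368) (five 5 399 432))))))))) (mv 399 (both (five 4 399 496) (mv 400 (both (five 5 367 368) (mv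 527 (both (five 5 399 432) (five 4 431 560))))))))))) (both (mv 560 (both (mv 431 (both (five 4 431 527) (mv 496 (both (five 4 399 399) (five 7 431 464))))) (both (mv 527 (both (five 4 431 431) (mv 592 (both (five 4 463 559) (five 7 495 624))))) (both (mv 496 (both (five 7 463 592) (mv 431 (both (five 4 399 399) (five 7 431 464))))) (mv 592 (both (five 7 463 496) (mv 527 (both (five 4 463 559) (five 7 495 624))))))))) (mv 431 (both (mv 496 (both (five 4 399 399) (mv 560 (both (five 7 431 464) (five 7 463 592))))) (both (mv 527 (both (five 4 431 560) (mv 430 (both (five 7 398 398) (mv 429 (both (mv 464 (both (five 0 428 428) (mv 465 (both (five 0 429 432) (five 3 430 466))))) (both (mv 428 (both (five 0 428 464) (mv 395 (both (five 3 395 396) (mv 427 (both (five 3 394 394) (mv 459 (both (five 2 426 458) (five 2 427 460))))))))) (both (mv 432 (both (five 5 399 400) (mv 396 (both (five 3 396 397) (mv 428 (both (five 3 395 395) (mv 460 (both (five 2 427 459) (five 2 428 461))))))))) (mv 432 (both (five 5 399 400) (mv 396 (both (five 3 396 397) (mv 460 (both (five 2 428 461) (mv 465 (both (five 0 429 464) (mv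 433 (both (five 0 430 466) (mv 402 (both (five 1 398 401) (mv 434 (both (five 1 399 403) (five 2 430 462))))))))))))))))))))))) (mv 399 (both (five 4 399 496) (mv 366 (both (five 7 366 398) (mv 367 (both (five 7 334 334) (mv 368 (both (five 5 335 336) (five 5 367 400)))))))))))))))))))

theorem L32 : W (S 988530863161101255454148148505632801312661156727406042891648512794071073662266652643294668095351646301915173751338452436331818490997235976069578606837084717056) (S 5056588163380696160672471308236715921508613164343883851704325028235645842242841688480230006434679061374395419563350686690977396095680566498980417930550191672741848034915500332514918039114282037270508598198272) :=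
  check_sound (Env.cons L31 Env.nil) (x := 463) (t := tL32) (by decide +kernel)

def tL33 : T :=
  (both (mv 399 (both (five 4 399 496) (mv 366 (both (five 7 366 398) (mv 367 (both (five 7 334 334) (mv 368 (both (five 5 335 336) (five 5 367 400))))))))) (both (mv 527 (both (mv 432 (both (five 5 399 400) (mv 559 (both (five 5 431 464) (mv 590 (both (five 6 462 558) (mv 591 (both (five 6 494 622) (mv 623 (both (five 5 495 496) (mv 624 (both (five 4 527 656) (five 4 495 592))))))))))))) (both (mv 430 (both (five 7 398 398) (mv 429 (both (mv 464 (both (five 0 428 428) (mv 465 (both (five 0 429 432) (five 3 430 466))))) (both (mv 428 (both (five 0 428 464) (mv 395 (both (five 3 395 396) (mv 427 (both (five 3 394 394) (mv 459 (both (five 2 426 458) (five 2 427 460))))))))) (both (mv 432 (both (five 5 399 400) (mv 396 (both (five 3 396 397) (mv 428 (both (five 3 395 395) (mv 460 (both (five 2 427 459) (five 2 428 461))))))))) (mv 432 (both (five 5 399 400) (mv 396 (both (five 3 396 397) (mv 460 (both (five 2 428 461) (mv 465 (both (five 0 429 464) (mv 433 (both (five 0 430 466) (mv 402 (both (five 1 398 401) (mv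 434 (both (five 1 399 403) (five 2 430 462))))))))))))))))))))) (mv 430 (both (five 7 398 398) (mv 559 (both (five 7 430 462) (mv 590 (both (five 6 462 558) (mv 591 (both (five 6 494 622) (mv 623 (both (five 5 495 496) (mv 624 (both (five 4 527 656) (five 4 495 592)))))))))))))))) (both (mv 399 (both (mv 366 (both (five 7 366 398) (mv 367 (both (five 7 334 334) (mv 368 (both (five 5 335 336) (five 5 367 400))))))) (both (mv 368 (both (five 5 367 400) (mv 367 (both (five 5 335 336) (mv 334 (both (five 7 334 366) (mv 335 (both (five 7 302 302) (mv 462 (both (five 6 334 430) (five 6 366 494))))))))))) (both (mv 366 (both (five 7 366 398) (mv 367 (both (five 7 334 334) (mv 336 (both (five 5 335 368) (mv 335 (both (five 5 303 304) (mv 462 (both (five 6 334 430) (five 6 366 494))))))))))) (both (mv 398 (both (five 7 366 366) (mv 432 (both (mv 397 (both (five 0 396 396) (mv 433 (both (five 3 397 430) (five 3 398 434))))) (both (mv 397 (both (five 0 396 396) (mv 433 (both (five 0 397 400) (five 3 398 434))))) (mv 527 (both (five 5 399 400) (five 7 398 430)))))))) (mv 400 (both (five 5 367 368) (mv 430 (both (mv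 401 (both (five 2 398 402) (mv 429 (both (five 1 396 428) (five 1 397 432))))) (both (mv 527 (both (five 7 398 398) (five 5 399 432))) (mv 398 (both (five 7 398 527) (mv 401 (both (five 2 398 402) (five 2 397 429))))))))))))))) (both (mv 399 (both (five 4 399 496) (mv 368 (both (five 5 367 400) (mv 367 (both (five 5 335 336) (mv 334 (both (five 7 334 366) (mv 335 (both (five 7 302 302) (mv 462 (both (five 6 334 430) (five 6 366 494))))))))))))) (mv 399 (both (five 4 399 496) (mv 366 (both (five 7 366 398) (mv 367 (both (five 7 334 334) (mv 336 (both (five 5 335 368) (mv 335 (both (five 5 303 304) (mv 462 (both (five 6 334 430) (five 6 366 494)))))))))))))))))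

theorem L33 : W (S 878694100599011500038254787038048956425870434461987288923037217554104420927208026656084902037668196573831061118863363224032932990995899793594455980345688850432) (S 299004108438318494117572421467175161355768083508780930112041220324486536868318200044653788618050888625652970735013230639643300555052888046592894323126453740738341871529714366141129419897432772182016) :=
  check_sound Env.nil (x := 431) (t := tL33) (by decide +kernel)

end P062.Cert
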