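import Vale.Agent.P062.Check
import Vale.Agent.P062.Cert.C2
import Vale.Agent.P062.Cert.C3

/-! Snaky certificate, part 4 (machine generated, checked by the kernel) -/

set_option maxRecDepth 100000

namespace P062.Cert

open T

def tL34 : T :=
  (both (mv 431 (both (mv 496 (both (five 4 399 399) (mv 560 (both (five 7 431 464) (five 7 463 592))))) (both (mv 399 (both (mv 366 (both (five 7 366 398) (mv 367 (both (five 7 334 334) (mv 368 (both (five 5 335 336) (five 5 367 400))))))) (both (mv 366 (both (five 7 366 398) (mv 367 (both (five 7 334 334) (mv 336 (both (five 5 335 368) (mv 335 (both (five 5 303 304) (mv 462 (both (five 6 334 430) (five 6 366 494))))))))))) (both (mv 367 (both (mv 368 (both (five 5 335 336) (five 5 367 400))) (both (mv 462 (both (five 6 366 494) (mv 335 (both (five 6 334 430) (mv 302 (both (five 7 302 334) (mv 303 (both (five 7 270 270) (mv 304 (both (five 5 271 272) (five 5 303 336))))))))))) (mv 400 (both (five 5 367 368) (mv 462 (both (five 6 366 494) (mv 335 (both (five 6 334 430) (mv 432 (both (five 4 303 303) (five 4 335 464)))))))))))) (both (mv 366 (both (five 7 366 398)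 (mv 367 (both (five 7 334 334) (mv 462 (both (five 6 366 494) (mv 335 (both (five 6 334 430) (mv 304 (both (five 5 303 336) (mv 303 (both (five 5 271 272) (mv 432 (both (five 4 303 400) (five 4 335 464))))))))))))))) (mv 398 (both (five 7 366 366) (mv 397 (both (mv 396 (both (five 0 396 432) (mv 363 (both (five 3 363 364) (mv 395 (both (five 3 362 362) (five 0 395 430))))))) (both (mv 400 (both (five 5 367 368) (mv 364 (both (five 3 364 365) (mv 396 (both (five 3 363 363) (mv 428 (both (five 2 395 427) (five 2 396 429))))))))) (both (mv 400 (both (five 5 367 368) (mv 364 (both (five 3 364 365) (mv 428 (both (five 2 396 429) (mv 433 (both (five 0 397 432) (mv 401 (both (five 0 398 434) (mv 370 (both (five 1 366 369) (mv 402 (both (five 1 367 371) (five 2 398 430))))))))))))))) (mv 368 (both (five 5 367 400) (mv 396 (both (five 0 396 432) (mv 395 (both (five 0 395 430) (mv 427 (both (five 2 394 426) (five 2 395 428)))))))))))))))))))) (both (mv 430 (both (mv 398 (both (mv 366 (both (five 4 334 334) (five 4 366 462))) (mv 429 (both (mv 464 (both (five 0 428 428) (mv 465 (both (five 0 429 432) (five 3 430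 466))))) (both (mv 461 (both (five 5 397 493) (mv 432 (both (five 2 428 460) (mv 397 (both (five 3 396 396) (five 3 397 433))))))) (mv 428 (both (five 0 428 464) (mv 395 (both (five 3 395 396) (mv 427 (both (five 3 394 394) (mv 459 (both (five 2 426 458) (five 2 427 460)))))))))))))) (both (mv 432 (both (mv 462 (both (mv 433 (both (five 2 430 434) (five 2 429 461))) (both (mv 398 (both (five 4 366 366) (mv 433 (both (five 3 397 397) (five 2 430 434))))) (mv 398 (both (five 4 366 366) (mv 461 (both (five 1 428 460) (mv 493 (both (five 6 397 494) (five 5 429 557)))))))))) (both (mv 429 (both (mv 397 (both (five 3 396 396) (mv 401 (both (five 1 397 400) (mv 433 (both (five 3 397 398) (five 1 398 402))))))) (both (mv 401 (both (five 1 397 400) (mv 433 (both (five 1 398 402) (mv 461 (both (five 2 428 460) (mv 465 (both (five 0 430 466) (mv 493 (both (five 5 397 398) (mv 396 (both (five 7 396 428) (mv 496 (both (five 6 400 497) (mv 524 (both (five 2 492 494) (five 6 428 556))))))))))))))))) (both (mv 401 (both (five 1 397 400) (mv 433 (both (five 1 398 402) (mv 398 (both (five 3 397 397) (mv 461 (both (five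 2 428 460) (five 5 397 493))))))))) (mv 396 (both (five 3 396 397) (mv 428 (both (five 3 395 395) (mv 460 (both (five 2 427 459) (five 2 428 461))))))))))) (both (mv 429 (both (mv 461 (both (five 2 428 460) (mv 398 (both (five 5 397 493) (mv 366 (both (five 4 334 334) (five 4 366 462))))))) (both (mv 396 (both (five 3 396 397) (mv 400 (both (five 1 397 401) (mv 336 (both (five 6 335 368) (mv 428 (both (five 3 395 395) (mv 427 (both (five 0 427 462) (mv 459 (both (five 2 426 458) (five 2 427 460))))))))))))) (both (mv 396 (both (five 3 396 397) (mv 400 (both (five 1 397 401) (mv 336 (both (five 6 335 368) (mv 428 (both (five 3 395 395) (mv 462 (both (five 0 427 427) (mv 398 (both (five 4 366 366) (mv 493 (both (five 5 397 461) (five 6 397 494))))))))))))))) (mv 396 (both (five 3 396 397) (mv 428 (both (five 3 395 395) (mv 460 (both (five 2 427 459) (five 2 428 461))))))))))) (both (mv 433 (both (mv 397 (both (five 3 397 398) (mv 401 (both (five 1 398 402) (mv 429 (both (five 3 396 396) (five 1 397 400))))))) (mv 434 (both (five 2 430 462) (mv 466 (both (five 0 430 465) (five 0 431 467))))))) (mv 433 (both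 (mv 434 (both (five 2 430 462) (mv 466 (both (five 0 430 465) (five 0 431 467))))) (both (mv 401 (both (five 1 398 402) (mv 400 (both (five 1 397 429) (mv 368 (both (five 6 335 336) (mv 465 (both (five 0 430 466) (five 7 368 497))))))))) (mv 401 (both (five 1 398 402) (mv 429 (both (five 1 397 400) (mv 461 (both (five 2 428 460) (five 2 429 462))))))))))))))) (both (mv 429 (both (mv 464 (both (five 0 428 428) (mv 465 (both (five 0 429 432) (five 3 430 466))))) (both (mv 432 (both (mv 397 (both (five 3 396 396) (mv 401 (both (five 1 397 400) (mv 433 (both (five 3 397 398) (five 1 398 402))))))) (both (mv 401 (both (five 1 397 400) (mv 433 (both (five 1 398 402) (mv 461 (both (five 2 428 460) (mv 465 (both (five 0 430 466) (mv 493 (both (five 5 397 398) (mv 396 (both (five 7 396 428) (mv 496 (both (five 6 400 497) (mv 524 (both (five 2 492 494) (five 6 428 556))))))))))))))))) (both (mv 401 (both (five 1 397 400) (mv 433 (both (five 1 398 402) (mv 398 (both (five 3 397 397) (mv 461 (both (five 2 428 460) (five 5 397 493))))))))) (mv 396 (both (five 3 396 397) (mv 428 (both (five 3 395 395) (mv 460 (both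 (five 2 427 459) (five 2 428 461))))))))))) (both (mv 432 (both (mv 400 (both (five 1 397 401) (mv 368 (both (five 6 335 336) (five 6 367 464))))) (both (mv 397 (both (five 3 396 396) (mv 401 (both (five 1 397 400) (mv 433 (both (five 3 397 398) (five 1 398 402))))))) (mv 396 (both (five 3 396 397) (mv 461 (both (five 2 428 460) (mv 464 (both (five 0 429 465) (mv 493 (both (five 5 397 398) (mv 496 (both (five 7 431 560) (mv 524 (both (five 2 492 494) (five 6 428 556)))))))))))))))) (mv 428 (both (five 0 428 464) (mv 395 (both (five 3 395 396) (mv 427 (both (five 3 394 394) (mv 459 (both (five 2 426 458) (five 2 427 460))))))))))))) (both (mv 462 (both (mv 398 (both (five 4 366 366) (mv 493 (both (five 6 397 494) (mv 461 (both (five 5 429 557) (mv 432 (both (five 2 429 433) (five 1 428 460))))))))) (both (mv 496 (both (mv 560 (both (five 7 431 464) (five 7 463 592))) (mv 461 (both (five 0 460 460) (mv 497 (both (five 3 461 494) (five 3 462 498))))))) (both (mv 496 (both (mv 560 (both (five 7 431 464) (five 7 463 592))) (mv 398 (both (five 4 366 366) (mv 494 (both (five 6 397 493) (mv 397 (both (five 7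 365 365) (mv 395 (both (five 0 395 396) (mv 433 (both (five 3 397 432) (mv 497 (both (five 3 462 498) (mv 465 (both (five 6 400 401) (five 1 462 466))))))))))))))))) (mv 464 (both (mv 496 (both (five 7 431 560) (mv 497 (both (five 3 462 498) (five 0 461 461))))) (both (mv 465 (both (five 3 430 466) (mv 433 (both (five 1 430 434) (mv 432 (both (five 2 429 461) (mv 368 (both (five 6 367 400) (mv 401 (both (five 1 398 402) (mv 369 (both (five 7 336 336) (five 6 336 337))))))))))))) (mv 366 (both (five 4 366 398) (mv 465 (both (five 3 430 466) (mv 433 (both (five 1 430 434) (mv 496 (both (five 7 431 560) (mv 401 (both (five 6 368 369) (five 5 400 432)))))))))))))))))) (both (mv 461 (both (mv 429 (both (mv 428 (both (five 0 428 464) (mv 395 (both (five 3 395 396) (mv 427 (both (five 3 394 394) (mv 459 (both (five 2 426 458) (five 2 427 460))))))))) (both (mv 493 (both (five 5 397 398) (mv 524 (both (five 6 428 556) (mv 496 (both (five 2 492 494) (mv 560 (both (five 7 431 464) (five 7 463 592))))))))) (mv 493 (both (five 5 397 398) (mv 428 (both (five 7 396 396) (mv 460 (both (five 2 427 459) (five 7 428 557))))))))))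 (both (mv 462 (both (mv 493 (both (five 5 429 557) (mv 398 (both (five 6 365 366) (five 6 397 494))))) (both (mv 460 (both (five 1 427 459) (mv 428 (both (five 3 427 427) (mv 493 (both (five 7 428 557) (mv 396 (both (five 4 364 364) (five 7 396 429))))))))) (mv 366 (both (five 4 366 398) (mv 460 (both (five 1 427 459) (mv 428 (both (five 3 427 427) (mv 429 (both (five 0 428 464) (mv 396 (both (five 3 395 395) (mv 364 (both (five 4 332 332) (mv 331 (both (five 7 331 363) (mv 365 (both (five 5 332 333) (mv 397 (both (five 5 333 334) (five 4 365 494)))))))))))))))))))))) (both (mv 496 (both (mv 560 (both (five 7 431 464) (five 7 463 592))) (mv 462 (both (five 0 460 460) (mv 497 (both (five 3 461 494) (five 3 462 498))))))) (both (mv 429 (both (mv 398 (both (five 5 397 493) (mv 366 (both (five 4 334 334) (five 4 366 462))))) (both (mv 428 (both (five 0 428 464) (mv 395 (both (five 3 395 396) (mv 427 (both (five 3 394 394) (five 0 427 462))))))) (mv 493 (both (five 5 397 398) (mv 524 (both (five 6 428 556) (mv 496 (both (five 2 492 494) (mv 560 (both (five 7 431 464) (five 7 463 592)))))))))))) (mv 462 (both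 (mv 460 (both (five 1 427 459) (five 0 460 496))) (mv 398 (both (five 4 366 366) (mv 493 (both (five 5 397 429) (five 5 429 557)))))))))))) (both (mv 464 (both (mv 432 (both (mv 400 (both (five 6 367 368) (mv 429 (both (five 1 397 401) (five 0 428 428))))) (both (mv 496 (both (five 7 431 560) (mv 433 (both (five 5 400 401) (mv 434 (both (five 2 431 435) (five 2 430 462))))))) (mv 368 (both (five 6 367 400) (mv 429 (both (five 0 428 428) (mv 396 (both (five 3 396 397) (mv 461 (both (five 2 428 460) (mv 462 (both (five 2 429 433) (mv 496 (both (five 0 461 497) (five 7 431 560)))))))))))))))) (both (mv 433 (both (mv 465 (both (five 3 430 466) (mv 496 (both (five 7 431 560) (mv 401 (both (five 6 368 369) (five 5 400 432))))))) (both (mv 496 (both (five 7 431 560) (mv 432 (both (five 5 400 401) (mv 434 (both (five 2 431 435) (five 2 430 462))))))) (both (mv 465 (both (five 3 430 466) (mv 434 (both (five 1 430 462) (mv 435 (both (five 2 431 432) (five 2 432 436))))))) (mv 465 (both (five 3 430 466) (mv 434 (both (five 1 430 462) (mv 435 (both (five 2 432 436) (mv 496 (both (five 7 431 560) (mv 401 (both (five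 6 368 369) (five 6 400 497))))))))))))))) (both (mv 429 (both (five 0 428 428) (mv 465 (both (five 3 429 462) (five 3 430 466))))) (mv 429 (both (five 0 428 428) (mv 465 (both (five 0 429 432) (five 3 430 466))))))))) (both (mv 464 (both (mv 432 (both (mv 400 (both (five 6 367 368) (mv 429 (both (five 1 397 401) (five 0 428 428))))) (both (mv 496 (both (five 7 431 560) (mv 433 (both (five 5 400 401) (mv 434 (both (five 2 431 435) (five 2 430 462))))))) (mv 368 (both (five 6 367 400) (mv 429 (both (five 0 428 428) (mv 397 (both (five 3 396 396) (mv 398 (both (five 3 397 433) (mv 366 (both (five 4 334 334) (five 4 366 462)))))))))))))) (both (mv 433 (both (mv 465 (both (five 3 430 466) (mv 496 (both (five 7 431 560) (mv 401 (both (five 6 368 369) (five 5 400 432))))))) (both (mv 496 (both (five 7 431 560) (mv 432 (both (five 5 400 401) (mv 434 (both (five 2 431 435) (five 2 430 462))))))) (both (mv 465 (both (five 3 430 466) (mv 434 (both (five 1 430 462) (mv 435 (both (five 2 431 432) (five 2 432 436))))))) (mv 465 (both (five 3 430 466) (mv 434 (both (five 1 430 462) (mv 435 (both (five 2 432 436) (mv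 496 (both (five 7 431 560) (mv 401 (both (five 6 368 369) (five 6 400 497))))))))))))))) (both (mv 429 (both (five 0 428 428) (mv 465 (both (five 3 429 462) (five 3 430 466))))) (mv 429 (both (five 0 428 428) (mv 465 (both (five 0 429 432) (five 3 430 466))))))))) (mv 464 (both (mv 432 (both (mv 400 (both (five 6 367 368) (mv 429 (both (five 1 397 401) (five 0 428 428))))) (both (mv 496 (both (five 7 431 560) (mv 433 (both (five 5 400 401) (mv 434 (both (five 2 431 435) (five 2 430 462))))))) (mv 368 (both (five 6 367 400) (mv 429 (both (five 0 428 428) (mv 461 (both (five 2 428 460) (mv 398 (both (five 5 397 493) (mv 366 (both (five 4 334 334) (five 4 366 462)))))))))))))) (both (mv 433 (both (mv 465 (both (five 3 430 466) (mv 496 (both (five 7 431 560) (mv 401 (both (five 6 368 369) (five 5 400 432))))))) (both (mv 496 (both (five 7 431 560) (mv 432 (both (five 5 400 401) (mv 434 (both (five 2 431 435) (five 2 430 462))))))) (both (mv 465 (both (five 3 430 466) (mv 434 (both (five 1 430 462) (mv 435 (both (five 2 431 432) (five 2 432 436))))))) (mv 465 (both (five 3 430 466) (mv 434 (both (five 1 430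 462) (mv 435 (both (five 2 432 436) (mv 496 (both (five 7 431 560) (mv 401 (both (five 6 368 369) (five 6 400 497))))))))))))))) (both (mv 429 (both (five 0 428 428) (mv 465 (both (five 0 429 432) (five 3 430 466))))) (mv 429 (both (five 0 428 428) (mv 465 (both (five 3 429 462) (five 3 430 466))))))))))))))))) (mv 399 (both (five 4 399 496) (mv 366 (both (five 7 366 398) (mv 367 (both (five 7 334 334) (mv 368 (both (five 5 335 336) (five 5 367 400))))))))))))) (both (mv 559 (both (mv 557 (both (mv 493 (both (mv 589 (both (mv 620 (both (five 6 492 588) (mv 621 (both (five 6 524 652) (mv 622 (both (five 4 493 590) (five 4 525 654))))))) (both (mv 494 (both (five 5 461 462) (mv 524 (both (five 2 492 496) (mv 522 (both (five 1 490 523) (mv 622 (both (five 4 493 590) (mv 621 (both (five 4 525 654) (mv 652 (both (five 6 524 620) (mv 653 (both (five 7 524 556) (five 6 556 684))))))))))))))) (both (mv 494 (both (five 5 461 462) (mv 524 (both (five 2 492 496) (mv 523 (both (five 1 490 522) (mv 556 (both (five 3 523 558) (mv 590 (both (five 4 493 622) (mv 555 (both (five 0 554 554) (mv 591 (both (five 3 555 588)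 (five 3 556 592))))))))))))))) (mv 494 (both (five 5 461 462) (mv 524 (both (five 2 492 496) (mv 523 (both (five 1 490 522) (mv 556 (both (five 3 523 558) (mv 620 (both (five 5 492 588) (mv 621 (both (five 6 524 652) (five 7 524 653))))))))))))))))) (both (mv 461 (both (mv 428 (both (five 7 428 460) (mv 429 (both (five 7 396 396) (mv 430 (both (five 5 397 398) (five 5 429 462))))))) (both (mv 428 (both (five 7 428 460) (mv 429 (both (five 7 396 396) (mv 556 (both (five 6 428 524) (five 6 460 588))))))) (both (mv 430 (both (five 5 429 462) (mv 429 (both (five 5 397 398) (mv 556 (both (five 6 428 524) (five 6 460 588))))))) (mv 428 (both (five 7 428 460) (mv 462 (both (five 5 429 430) (mv 556 (both (five 6 460 588) (mv 558 (both (five 4 461 590) (mv 524 (both (five 3 523 523) (mv 496 (both (five 2 492 494) (mv 497 (both (five 0 461 464) (five 3 462 498))))))))))))))))))) (both (mv 590 (both (mv 558 (both (five 4 461 461) (mv 622 (both (five 4 493 589) (five 7 525 654))))) (both (mv 461 (both (five 4 461 558) (mv 556 (both (five 6 460 588) (mv 429 (both (five 6 428 524) (mv 396 (both (five 7 396 428) (mv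 397 (both (five 7 364 364) (mv 398 (both (five 5 365 366) (five 5 397 430))))))))))))) (both (mv 589 (both (five 4 493 622) (mv 556 (both (mv 555 (both (five 0 554 554) (mv 591 (both (five 0 555 558) (five 3 556 592))))) (both (mv 620 (both (five 6 492 588) (mv 621 (both (five 6 524 652) (mv 618 (both (five 1 586 619) (mv 653 (both (five 7 524 524) (mv 685 (both (five 5 557 558) (mv 686 (both (five 4 557 654) (five 4 589 718))))))))))))) (mv 555 (both (five 0 554 554) (mv 588 (both (five 3 555 591) (five 6 492 620)))))))))) (mv 589 (both (five 4 493 622) (mv 588 (both (five 6 492 620) (mv 556 (both (five 6 460 461) (mv 591 (both (five 3 555 555) (five 3 556 592))))))))))))) (both (mv 589 (both (mv 620 (both (five 6 492 588) (mv 621 (both (five 6 524 652) (mv 622 (both (five 4 493 590) (five 4 525 654))))))) (mv 462 (both (five 5 461 494) (mv 461 (both (five 5 429 430) (mv 460 (both (five 7 428 428) (five 0 460 496))))))))) (mv 462 (both (mv 430 (both (five 5 429 461) (mv 494 (both (five 6 397 398) (five 5 461 589))))) (both (mv 461 (both (five 5 429 430) (mv 460 (both (five 7 428 428) (five 0 460 496)))))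 (mv 494 (both (five 5 461 589) (mv 465 (both (five 2 461 464) (mv 496 (both (five 2 492 524) (mv 497 (both (five 1 462 466) (five 3 462 498))))))))))))))))) (both (mv 496 (both (mv 560 (both (five 7 463 592) (mv 464 (both (five 6 463 591) (mv 465 (both (five 5 432 433) (mv 466 (both (five 2 463 467) (mv 434 (both (five 1 431 435) (mv 498 (both (five 0 463 499) (mv 462 (both (five 0 462 497) (mv 429 (both (five 3 429 430) (mv 461 (both (five 3 428 428) (five 0 460 460))))))))))))))))))) (both (mv 493 (both (mv 461 (both (mv 462 (both (five 0 460 460) (mv 497 (both (five 0 461 464) (five 3 462 498))))) (both (mv 428 (both (five 7 428 460) (mv 429 (both (five 7 396 396) (mv 556 (both (five 6 428 524) (five 6 460 588))))))) (mv 430 (both (five 5 429 462) (mv 429 (both (five 5 397 398) (mv 556 (both (five 6 428 524) (five 6 460 588)))))))))) (both (mv 494 (both (five 2 492 524) (mv 589 (both (five 5 461 462) (mv 620 (both (five 6 492 588) (mv 621 (both (five 6 524 652) (mv 622 (both (five 4 493 590) (five 4 525 654))))))))))) (both (mv 461 (both (mv 494 (both (five 3 460 460) (five 2 492 524))) (both (mv 428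 (both (five 7 428 460) (mv 429 (both (five 7 396 396) (mv 556 (both (five 6 428 524) (five 6 460 588))))))) (both (mv 524 (both (five 2 492 494) (mv 429 (both (five 6 428 556) (mv 396 (both (five 7 396 428) (mv 397 (both (five 7 364 364) (mv 398 (both (five 5 365 366) (five 5 397 430))))))))))) (mv 460 (both (five 7 428 428) (five 3 460 494))))))) (mv 461 (both (mv 460 (both (five 7 428 428) (five 3 460 494))) (both (mv 462 (both (five 5 429 430) (mv 497 (both (five 0 461 464) (five 3 461 494))))) (mv 462 (both (five 0 460 460) (mv 497 (both (five 0 461 464) (five 3 462 498)))))))))))) (both (mv 560 (both (five 7 463 592) (mv 464 (both (five 6 463 591) (mv 465 (both (five 5 432 433) (mv 466 (both (five 2 462 494) (five 2 463 467))))))))) (mv 493 (both (mv 494 (both (five 2 492 524) (mv 589 (both (five 5 461 462) (mv 620 (both (five 6 492 588) (mv 621 (both (five 6 524 652) (mv 622 (both (five 4 493 590) (five 4 525 654))))))))))) (both (mv 461 (both (mv 428 (both (five 7 428 460) (mv 429 (both (five 7 396 396) (mv 556 (both (five 6 428 524) (five 6 460 588))))))) (both (mv 430 (both (five 5 429 462) (mv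 429 (both (five 5 397 398) (mv 556 (both (five 6 428 524) (five 6 460 588))))))) (mv 460 (both (five 7 428 428) (five 0 460 462)))))) (both (mv 461 (both (mv 460 (both (five 7 428 428) (five 3 460 494))) (mv 430 (both (five 5 429 462) (mv 398 (both (five 5 397 429) (mv 560 (both (five 7 463 592) (mv 588 (both (five 6 460 556) (mv 589 (both (five 6 492 620) (mv 590 (both (five 1 556 591) (five 4 493 622))))))))))))))) (both (mv 461 (both (mv 494 (both (five 3 460 460) (five 2 492 524))) (both (mv 428 (both (five 7 428 460) (mv 429 (both (five 7 396 396) (mv 556 (both (five 6 428 524) (five 6 460 588))))))) (both (mv 524 (both (five 2 492 494) (mv 429 (both (five 6 428 556) (mv 396 (both (five 7 396 428) (mv 397 (both (five 7 364 364) (mv 398 (both (five 5 365 366) (five 5 397 430))))))))))) (mv 460 (both (five 7 428 428) (five 3 460 494))))))) (mv 494 (both (five 2 492 524) (mv 462 (both (five 5 461 589) (mv 430 (both (five 6 397 398) (five 5 429 461)))))))))))))))) (both (mv 558 (both (mv 524 (both (five 3 524 560) (mv 523 (both (five 0 522 522) (five 3 523 556))))) (both (mv 556 (both (mv 587 (both (five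 2 555 588) (mv 555 (both (five 2 554 586) (mv 591 (both (five 0 555 590) (five 0 556 592))))))) (both (mv 588 (both (five 2 555 587) (mv 493 (both (five 6 460 461) (mv 620 (both (five 6 492 589) (five 5 524 652))))))) (mv 591 (both (five 0 556 592) (mv 590 (both (five 0 555 555) (mv 493 (both (five 4 461 461) (mv 622 (both (five 4 493 589) (five 7 525 654)))))))))))) (mv 560 (both (five 3 524 524) (mv 589 (both (five 2 556 588) (mv 593 (both (five 0 557 592) (mv 561 (both (five 2 557 590) (five 0 558 594)))))))))))) (both (mv 558 (both (mv 524 (both (five 3 524 560) (mv 523 (both (five 0 522 522) (five 3 523 556))))) (both (mv 556 (both (mv 523 (both (five 3 523 524) (mv 555 (both (five 3 522 522) (mv 587 (both (five 2 554 586) (five 2 555 588))))))) (both (mv 587 (both (five 2 555 588) (mv 555 (both (five 2 554 586) (mv 591 (both (five 0 555 590) (five 0 556 592))))))) (both (mv 523 (both (five 3 523 524) (mv 555 (both (five 3 522 522) (mv 591 (both (five 0 555 590) (five 0 556 592))))))) (mv 524 (both (five 3 523 523) (mv 588 (both (five 2 555 587) (mv 591 (both (five 0 556 592) (mv 620 (both (five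 5 524 652) (mv 619 (both (five 6 523 651) (mv 590 (both (five 2 587 589) (mv 621 (both (five 1 587 622) (five 4 524 653))))))))))))))))))) (both (mv 592 (both (mv 560 (both (five 7 463 496) (five 0 557 593))) (both (mv 591 (both (five 0 556 556) (mv 593 (both (five 3 557 590) (five 3 558 594))))) (mv 556 (both (five 0 556 591) (mv 560 (both (five 7 463 496) (mv 588 (both (five 2 555 587) (five 2 556 589)))))))))) (mv 560 (both (five 3 524 524) (mv 589 (both (five 2 556 588) (mv 593 (both (five 0 557 592) (mv 561 (both (five 2 557 590) (five 0 558 594))))))))))))) (both (mv 560 (both (mv 592 (both (five 7 463 496) (mv 558 (both (five 0 557 593) (mv 589 (both (five 2 556 588) (mv 590 (both (five 2 557 561) (mv 493 (both (five 4 461 461) (five 4 493 622))))))))))) (both (mv 558 (both (mv 589 (both (five 2 556 588) (mv 593 (both (five 0 557 592) (mv 561 (both (five 2 557 590) (five 0 558 594))))))) (both (mv 592 (both (five 0 557 593) (mv 624 (both (mv 655 (both (five 6 527 623) (mv 656 (both (five 6 559 687) (mv 657 (both (five 4 560 689) (five 4 528 625))))))) (both (mv 591 (both (five 0 556 556) (mv 656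 (both (five 7 559 688) (mv 657 (both (five 4 528 625) (five 4 560 689))))))) (both (mv 591 (both (five 0 556 556) (mv 655 (both (five 5 527 623) (mv 656 (both (five 6 559 687) (five 7 559 688))))))) (mv 591 (both (five 0 556 556) (mv 623 (both (five 5 527 655) (mv 625 (both (five 4 528 657) (mv 626 (both (five 3 590 590) (five 3 591 627))))))))))))))) (both (mv 589 (both (five 2 556 588) (mv 621 (both (mv 652 (both (five 6 524 620) (mv 653 (both (five 6 556 684) (mv 654 (both (five 4 557 686) (five 4 525 622))))))) (both (mv 652 (both (five 6 524 620) (mv 653 (both (five 6 556 684) (mv 590 (both (five 5 557 685) (five 2 557 561))))))) (both (mv 654 (both (five 4 525 622) (mv 653 (both (five 4 557 686) (mv 590 (both (five 5 557 685) (five 2 557 561))))))) (mv 620 (both (five 6 524 652) (mv 622 (both (five 4 525 654) (mv 590 (both (five 2 557 561) (mv 619 (both (five 1 586 618) (five 1 587 591))))))))))))))) (mv 588 (both (five 2 556 589) (mv 592 (both (five 0 557 593) (mv 556 (both (five 2 555 587) (five 0 556 591))))))))))) (both (mv 589 (both (mv 558 (both (five 2 556 588) (mv 621 (both (mv 652 (both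 (five 6 524 620) (mv 653 (both (five 6 556 684) (mv 654 (both (five 4 557 686) (five 4 525 622))))))) (both (mv 652 (both (five 6 524 620) (mv 653 (both (five 6 556 684) (mv 590 (both (five 5 557 685) (five 2 557 561))))))) (both (mv 654 (both (five 4 525 622) (mv 653 (both (five 4 557 686) (mv 590 (both (five 5 557 685) (five 2 557 561))))))) (mv 620 (both (five 6 524 652) (mv 622 (both (five 4 525 654) (mv 590 (both (five 2 557 561) (mv 619 (both (five 1 586 618) (five 1 587 591))))))))))))))) (both (mv 590 (both (mv 561 (both (five 2 557 558) (mv 562 (both (five 2 558 591) (mv 595 (both (five 0 559 594) (mv 563 (both (five 0 560 596) (mv 531 (both (five 1 527 530) (five 1 528 532))))))))))) (mv 493 (both (five 4 493 622) (mv 462 (both (five 5 461 494) (mv 461 (both (five 5 429 430) (mv 460 (both (five 7 428 428) (five 0 460 496))))))))))) (both (mv 493 (both (mv 620 (both (five 6 492 588) (mv 621 (both (five 6 524 652) (mv 622 (both (five 4 493 590) (five 4 525 654))))))) (mv 462 (both (five 5 461 494) (mv 461 (both (five 5 429 430) (mv 460 (both (five 7 428 428) (five 0 460 496))))))))) (mv 588 (both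 (five 2 556 558) (mv 493 (both (five 6 492 620) (mv 461 (both (five 6 460 556) (mv 428 (both (five 7 428 460) (mv 429 (both (five 7 396 396) (mv 430 (both (five 5 397 398) (five 5 429 462))))))))))))))))) (mv 496 (both (five 7 463 592) (mv 464 (both (five 6 463 591) (mv 465 (both (five 5 432 433) (mv 466 (both (five 2 463 467) (mv 434 (both (five 1 431 435) (mv 498 (both (five 0 463 499) (mv 462 (both (five 0 462 497) (mv 429 (both (five 3 429 430) (mv 461 (both (five 3 428 428) (five 0 460 460))))))))))))))))))))))) (both (mv 558 (both (mv 524 (both (five 3 524 560) (mv 523 (both (five 0 522 522) (five 3 523 556))))) (both (mv 556 (both (mv 523 (both (five 3 523 524) (mv 555 (both (five 3 522 522) (mv 591 (both (five 0 555 590) (five 0 556 592))))))) (both (mv 587 (both (five 2 555 588) (mv 555 (both (five 2 554 586) (mv 591 (both (five 0 555 590) (five 0 556 592))))))) (mv 524 (both (five 3 523 523) (mv 588 (both (five 2 555 587) (mv 620 (both (five 5 492 493) (five 5 524 652)))))))))) (both (mv 592 (both (mv 560 (both (five 7 463 496) (five 0 557 593))) (both (mv 591 (both (five 0 556 556) (mv 593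 (both (five 3 557 590) (five 3 558 594))))) (mv 496 (both (five 7 463 560) (mv 556 (both (five 0 556 591) (mv 588 (both (five 2 555 587) (mv 461 (both (five 6 460 493) (mv 462 (both (five 0 460 460) (mv 497 (both (five 0 461 464) (five 3 462 498)))))))))))))))) (mv 560 (both (five 3 524 524) (mv 496 (both (five 7 463 592) (mv 464 (both (five 6 463 591) (mv 465 (both (five 5 432 433) (mv 466 (both (five 2 463 467) (mv 434 (both (five 1 431 435) (mv 498 (both (five 0 463 499) (mv 462 (both (five 0 462 497) (mv 429 (both (five 3 429 430) (mv 461 (both (five 3 428 428) (five 0 460 460))))))))))))))))))))))))) (both (mv 493 (both (mv 589 (both (mv 620 (both (five 6 492 588) (mv 621 (both (five 6 524 652) (mv 622 (both (five 4 493 590) (five 4 525 654))))))) (mv 494 (both (five 5 461 462) (mv 524 (both (five 2 492 496) (mv 523 (both (five 1 490 522) (mv 558 (both (five 3 523 556) (five 3 524 560))))))))))) (both (mv 461 (both (mv 428 (both (five 7 428 460) (mv 429 (both (five 7 396 396) (mv 430 (both (five 5 397 398) (five 5 429 462))))))) (both (mv 428 (both (five 7 428 460) (mv 429 (both (five 7 396 396)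 (mv 556 (both (five 6 428 524) (five 6 460 588))))))) (both (mv 430 (both (five 5 429 462) (mv 429 (both (five 5 397 398) (mv 556 (both (five 6 428 524) (five 6 460 588))))))) (mv 428 (both (five 7 428 460) (mv 462 (both (five 5 429 430) (mv 556 (both (five 6 460 588) (mv 558 (both (five 4 461 590) (mv 524 (both (five 3 523 523) (mv 496 (both (five 2 492 494) (mv 497 (both (five 0 461 464) (five 3 462 498))))))))))))))))))) (both (mv 558 (both (mv 524 (both (five 3 524 560) (mv 523 (both (five 0 522 522) (five 3 523 556))))) (mv 590 (both (five 4 461 461) (mv 622 (both (five 4 493 589) (five 7 525 654))))))) (both (mv 461 (both (mv 428 (both (five 7 428 460) (mv 429 (both (five 7 396 396) (mv 430 (both (five 5 397 398) (five 5 429 462))))))) (both (mv 428 (both (five 7 428 460) (mv 429 (both (five 7 396 396) (mv 556 (both (five 6 428 524) (five 6 460 588))))))) (mv 462 (both (five 5 429 430) (mv 494 (both (five 5 461 589) (mv 496 (both (five 3 461 497) (five 2 492 524)))))))))) (mv 589 (both (mv 620 (both (five 6 492 588) (mv 621 (both (five 6 524 652) (mv 622 (both (five 4 493 590) (five 4 525 654)))))))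 (mv 462 (both (five 5 461 494) (mv 461 (both (five 5 429 430) (mv 460 (both (five 7 428 428) (five 0 460 496)))))))))))))) (both (mv 560 (both (mv 558 (both (five 3 524 524) (mv 592 (both (five 7 463 496) (five 0 557 593))))) (both (mv 496 (both (five 7 463 592) (mv 464 (both (five 6 463 591) (mv 465 (both (five 5 432 433) (mv 466 (both (five 2 463 467) (mv 434 (both (five 1 431 435) (mv 498 (both (five 0 463 499) (mv 462 (both (five 0 462 497) (mv 429 (both (five 3 429 430) (mv 461 (both (five 3 428 428) (five 0 460 460))))))))))))))))))) (mv 558 (both (five 3 524 524) (mv 589 (both (five 2 556 588) (mv 590 (both (five 2 557 561) (mv 493 (both (five 4 461 461) (five 4 493 622)))))))))))) (both (mv 493 (both (mv 558 (both (mv 524 (both (five 3 524 560) (mv 523 (both (five 0 522 522) (five 3 523 556))))) (mv 590 (both (five 4 461 461) (mv 622 (both (five 4 493 589) (five 7 525 654))))))) (both (mv 524 (both (mv 558 (both (five 3 524 560) (mv 523 (both (five 0 522 522) (five 3 523 556))))) (both (mv 494 (both (five 2 492 496) (mv 589 (both (five 5 461 462) (mv 622 (both (five 4 493 590) (mv 621 (both (five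 4 525 654) (mv 652 (both (five 6 524 620) (mv 653 (both (five 7 524 556) (five 6 556 684))))))))))))) (mv 496 (both (five 2 492 494) (mv 560 (both (five 3 524 558) (five 7 463 592)))))))) (both (mv 462 (both (mv 430 (both (five 5 429 461) (mv 494 (both (five 6 397 398) (five 5 461 589))))) (both (mv 461 (both (five 5 429 430) (mv 460 (both (five 7 428 428) (five 0 460 496))))) (mv 494 (both (five 5 461 589) (mv 465 (both (five 2 461 464) (mv 496 (both (five 2 492 524) (mv 497 (both (five 1 462 466) (five 3 462 498)))))))))))) (both (mv 590 (both (mv 622 (both (five 4 493 589) (mv 654 (both (five 7 525 558) (mv 686 (both (five 5 558 591) (mv 717 (both (five 6 589 685) (mv 718 (both (five 6 621 749) (mv 719 (both (five 4 590 687) (five 4 622 751))))))))))))) (both (mv 461 (both (five 4 461 558) (mv 428 (both (five 7 428 460) (mv 429 (both (five 7 396 396) (mv 430 (both (five 5 397 398) (five 5 429 462))))))))) (mv 589 (both (five 4 493 622) (mv 462 (both (five 5 461 494) (mv 461 (both (five 5 429 430) (mv 460 (both (five 7 428 428) (five 0 460 496)))))))))))) (mv 461 (both (mv 428 (both (five 7 428 460)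 (mv 429 (both (five 7 396 396) (mv 430 (both (five 5 397 398) (five 5 429 462))))))) (mv 558 (both (five 4 461 590) (mv 524 (both (five 3 524 560) (mv 523 (both (five 0 522 522) (five 3 523 556)))))))))))))) (mv 560 (both (mv 558 (both (five 3 524 524) (mv 592 (both (five 7 463 496) (five 0 557 593))))) (both (mv 558 (both (five 3 524 524) (mv 588 (both (five 2 556 589) (mv 592 (both (five 0 557 593) (mv 556 (both (five 2 555 587) (five 0 556 591))))))))) (both (mv 496 (both (five 7 463 592) (mv 464 (both (five 6 463 591) (mv 465 (both (five 5 432 433) (mv 466 (both (five 2 463 467) (mv 434 (both (five 1 431 435) (mv 498 (both (five 0 463 499) (mv 462 (both (five 0 462 497) (mv 429 (both (five 3 429 430) (mv 461 (both (five 3 428 428) (five 0 460 460))))))))))))))))))) (mv 496 (both (mv 464 (both (five 6 463 591) (mv 465 (both (five 5 432 433) (mv 466 (both (five 2 462 494) (five 2 463 467))))))) (both (mv 558 (both (five 3 524 524) (mv 588 (both (five 2 556 589) (mv 556 (both (five 2 555 587) (mv 461 (both (five 6 460 493) (mv 462 (both (five 0 460 460) (mv 497 (both (five 3 461 494) (five 3 462 498)))))))))))))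 (mv 558 (both (five 3 524 524) (mv 588 (both (five 2 556 589) (mv 556 (both (five 2 555 587) (mv 461 (both (five 6 460 493) (mv 462 (both (five 0 460 460) (mv 497 (both (five 0 461 464) (five 3 462 498)))))))))))))))))))))))))))))) (both (mv 527 (both (mv 462 (both (five 7 430 430) (mv 591 (both (five 7 462 494) (mv 464 (both (five 5 463 496) (five 5 431 432))))))) (both (mv 462 (both (five 7 430 430) (mv 590 (both (five 6 462 558) (mv 591 (both (five 7 462 494) (five 6 494 622))))))) (both (mv 590 (both (five 6 462 558) (mv 591 (both (five 6 494 622) (mv 496 (both (five 5 463 464) (five 5 495 623))))))) (mv 462 (both (five 7 430 430) (mv 461 (both (mv 464 (both (five 5 431 432) (mv 428 (both (five 3 428 429) (mv 460 (both (five 3 427 427) (mv 557 (both (five 7 428 493) (mv 558 (both (five 1 524 556) (five 6 462 590))))))))))) (both (mv 460 (both (five 0 460 496) (mv 427 (both (five 3 427 428) (mv 459 (both (five 3 426 426) (five 0 459 494))))))) (both (mv 464 (both (five 5 431 432) (mv 428 (both (five 3 428 429) (mv 497 (both (five 0 461 496) (mv 465 (both (five 0 462 498) (mv 494 (both (five 2 462 466)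 (five 2 461 493))))))))))) (mv 432 (both (five 5 431 464) (mv 460 (both (five 0 460 496) (mv 459 (both (five 0 459 494) (mv 426 (both (five 3 426 427) (mv 458 (both (five 3 425 425) (mv 490 (both (five 2 457 489) (five 2 458 491))))))))))))))))))))))) (both (mv 527 (both (mv 462 (both (five 7 430 430) (mv 590 (both (five 6 462 558) (mv 591 (both (five 7 462 494) (five 6 494 622))))))) (both (mv 462 (both (five 7 430 430) (mv 591 (both (five 7 462 494) (mv 592 (both (five 4 463 560) (five 4 495 624))))))) (mv 558 (both (five 6 462 590) (mv 557 (both (five 1 524 556) (mv 560 (both (five 3 524 524) (five 4 463 592)))))))))) (both (mv 527 (both (mv 590 (both (five 6 462 558) (mv 591 (both (five 6 494 622) (mv 496 (both (five 5 463 464) (five 5 495 623))))))) (both (mv 464 (both (five 5 431 432) (mv 591 (both (five 5 463 496) (mv 592 (both (five 4 463 560) (five 4 495 624))))))) (mv 558 (both (five 6 462 590) (mv 557 (both (five 1 524 556) (mv 560 (both (five 3 524 524) (five 4 463 592)))))))))) (both (mv 527 (both (mv 558 (both (five 6 462 590) (mv 557 (both (five 1 524 556) (mv 560 (both (five 3 524 524)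 (five 4 463 592))))))) (both (mv 462 (both (five 7 430 430) (mv 461 (both (mv 464 (both (five 5 431 432) (mv 428 (both (five 3 428 429) (mv 460 (both (five 3 427 427) (mv 557 (both (five 7 428 493) (mv 558 (both (five 1 524 556) (five 6 462 590))))))))))) (both (mv 460 (both (five 0 460 496) (mv 427 (both (five 3 427 428) (mv 459 (both (five 3 426 426) (five 0 459 494))))))) (both (mv 464 (both (five 5 431 432) (mv 428 (both (five 3 428 429) (mv 497 (both (five 0 461 496) (mv 465 (both (five 0 462 498) (mv 494 (both (five 2 462 466) (five 2 461 493))))))))))) (mv 432 (both (five 5 431 464) (mv 460 (both (five 0 460 496) (mv 459 (both (five 0 459 494) (mv 426 (both (five 3 426 427) (mv 458 (both (five 3 425 425) (mv 490 (both (five 2 457 489) (five 2 458 491))))))))))))))))))) (mv 496 (both (mv 462 (both (five 7 430 430) (mv 461 (both (five 0 460 460) (mv 464 (both (five 6 431 432) (five 0 461 497))))))) (both (mv 462 (both (five 7 430 430) (mv 461 (both (five 0 460 460) (mv 497 (both (five 3 461 494) (five 3 462 498))))))) (mv 464 (both (five 5 431 432) (mv 560 (both (five 7 463 592) (mv 465 (both (five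 5 432 433) (mv 466 (both (five 2 462 494) (five 2 463 467))))))))))))))) (mv 527 (both (mv 462 (both (five 7 430 430) (mv 591 (both (five 7 462 494) (mv 464 (both (five 5 463 496) (five 5 431 432))))))) (both (mv 462 (both (five 7 430 430) (mv 591 (both (five 7 462 494) (mv 592 (both (five 4 463 560) (five 4 495 624))))))) (both (mv 464 (both (five 5 431 432) (mv 591 (both (five 5 463 496) (mv 592 (both (five 4 463 560) (five 4 495 624))))))) (mv 496 (both (mv 462 (both (five 7 430 430) (mv 461 (both (five 0 460 460) (mv 464 (both (five 6 431 432) (five 0 461 497))))))) (both (mv 462 (both (five 7 430 430) (mv 461 (both (five 0 460 460) (mv 497 (both (five 3 461 494) (five 3 462 498))))))) (mv 464 (both (five 5 431 432) (mv 560 (both (five 7 463 592) (mv 465 (both (five 5 432 433) (mv 466 (both (five 2 462 494) (five 2 463 467)))))))))))))))))))))) (both (mv 527 (both (mv 560 (both (five 4 431 431) (mv 592 (both (five 4 463 559) (five 7 495 624))))) (both (mv 559 (both (mv 462 (both (five 7 430 430) (mv 590 (both (five 6 462 558) (mv 591 (both (five 7 462 494) (five 6 494 622))))))) (both (mv 462 (both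 (five 7 430 430) (mv 591 (both (five 7 462 494) (mv 592 (both (five 4 463 560) (five 4 495 624))))))) (mv 558 (both (five 6 462 590) (mv 557 (both (five 1 524 556) (mv 560 (both (five 3 524 524) (five 4 463 592)))))))))) (both (mv 432 (both (mv 400 (both (five 5 399 431) (mv 464 (both (five 6 367 368) (five 5 431 559))))) (both (mv 559 (both (five 5 431 464) (mv 462 (both (five 7 430 430) (mv 590 (both (five 6 462 558) (mv 591 (both (five 7 462 494) (five 6 494 622))))))))) (both (mv 431 (both (five 5 399 400) (mv 430 (both (five 7 398 398) (mv 462 (both (five 7 430 559) (mv 433 (both (five 2 430 434) (five 2 429 461))))))))) (mv 431 (both (five 5 399 400) (mv 462 (both (mv 433 (both (five 2 430 434) (mv 461 (both (five 1 428 460) (five 1 429 464))))) (both (mv 398 (both (five 7 398 430) (mv 399 (both (five 7 366 366) (mv 367 (both (five 6 366 494) (mv 335 (both (five 4 335 464) (mv 336 (both (five 5 303 304) (five 5 335 368))))))))))) (mv 430 (both (five 7 398 398) (mv 433 (both (five 2 430 434) (five 2 429 461)))))))))))))) (mv 431 (both (five 4 431 560) (mv 398 (both (five 7 398 430) (mv 399 (both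 (five 7 366 366) (mv 400 (both (five 5 367 368) (five 5 399 432))))))))))))) (both (ref 0) (both (mv 431 (both (mv 399 (both (five 4 399 496) (mv 366 (both (five 7 366 398) (mv 367 (both (five 7 334 334) (mv 368 (both (five 5 335 336) (five 5 367 400))))))))) (both (mv 527 (both (five 4 431 560) (mv 430 (both (five 7 398 398) (mv 559 (both (five 7 430 462) (mv 590 (both (five 6 462 558) (mv 591 (both (five 6 494 622) (mv 623 (both (five 5 495 496) (mv 624 (both (five 4 527 656) (five 4 495 592))))))))))))))) (both (mv 527 (both (five 4 431 560) (mv 398 (both (five 7 398 430) (mv 399 (both (five 7 366 366) (mv 400 (both (five 5 367 368) (five 5 399 432))))))))) (mv 399 (both (five 4 399 496) (mv 400 (both (five 5 367 368) (mv 527 (both (five 5 399 432) (five 4 431 560))))))))))) (both (mv 560 (both (mv 431 (both (five 4 431 527) (mv 496 (both (five 4 399 399) (five 7 431 464))))) (both (mv 527 (both (five 4 431 431) (mv 592 (both (five 4 463 559) (five 7 495 624))))) (both (mv 496 (both (five 7 463 592) (mv 431 (both (five 4 399 399) (five 7 431 464))))) (mv 592 (both (five 7 463 496) (mv 527 (both (five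 4 463 559) (five 7 495 624))))))))) (mv 431 (both (mv 527 (both (five 4 431 560) (mv 430 (both (five 7 398 398) (mv 559 (both (five 7 430 462) (mv 590 (both (five 6 462 558) (mv 591 (both (five 6 494 622) (mv 496 (both (five 5 463 464) (five 5 495 623))))))))))))) (both (mv 399 (both (five 4 399 496) (mv 366 (both (five 7 366 398) (mv 367 (both (five 7 334 334) (mv 368 (both (five 5 335 336) (five 5 367 400))))))))) (both (mv 527 (both (five 4 431 560) (mv 398 (both (five 7 398 430) (mv 399 (both (five 7 366 366) (mv 400 (both (five 5 367 368) (five 5 399 432))))))))) (mv 399 (both (five 4 399 496) (mv 400 (both (five 5 367 368) (mv 527 (both (five 5 399 432) (five 4 431 560)))))))))))))))))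

theorem L34 : W (S 988530863161101255454148148505632801312661156727406042891648512794071073662266652643294668095351646301915173751338452436331818490997235976069578606837084717056) (S 14805966308658335085675370816386132674381523391457569295061113166005441156551459513801308023139792058904127173957898793240509065754631211754712907413569239297029337856574622719924438472081316409126162086163427490114414747582464) :=
  check_sound (Env.cons L33 Env.nil) (x := 463) (t := tL34) (by decide +kernel)

def tL35 : T :=
  (both (mv 430 (both (mv 557 (both (five 5 429 462) (mv 588 (both (five 6 460 556) (mv 589 (both (five 6 492 620) (mv 590 (both (five 4 461 558) (five 4 493 622))))))))) (mv 429 (both (five 5 397 398) (mv 431 (both (mv 396 (both (five 7 396 428) (mv 397 (both (five 7 364 364) (five 3 396 432))))) (both (mv 464 (both (mv 432 (both (five 0 429 465) (mv 399 (both (five 7 399 496) (mv 400 (both (five 1 397 401) (five 1 396 428))))))) (both (mv 463 (both (five 0 428 428) (mv 496 (both (five 4 399 399) (five 7 431 560))))) (both (mv 428 (both (five 0 428 463) (mv 400 (both (five 1 396 399) (mv 432 (both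 (five 1 397 401) (five 0 429 465))))))) (both (mv 432 (both (five 0 429 465) (mv 399 (both (five 7 399 496) (mv 335 (both (five 4 335 367) (mv 400 (both (five 1 397 401) (mv 368 (both (five 5 367 463) (mv 336 (both (five 7 303 303) (mv 337 (both (five 5 304 305) (five 5 336 369))))))))))))))) (mv 428 (both (five 0 428 463) (mv 432 (both (five 0 429 465) (mv 401 (both (five 1 397 400) (mv 433 (both (five 1 398 402) (five 5 400 496)))))))))))))) (both (mv 464 (both (mv 432 (both (five 0 429 465) (mv 401 (both (five 1 397 400) (mv 433 (both (five 1 398 402) (five 5 400 496))))))) (both (mv 496 (both (mv 465 (both (five 1 461 494) (mv 433 (both (five 5 432 560) (mv 401 (both (five 6 368 369) (five 6 400 497))))))) (both (mv 463 (both (five 4 399 399) (mv 465 (both (five 3 430 466) (five 1 461 494))))) (mv 560 (both (five 7 431 463) (mv 591 (both (five 6 463 559) (mv 592 (both (five 6 495 623) (mv 593 (both (five 4 464 561) (five 4 496 625)))))))))))) (both (mv 496 (both (mv 432 (both (five 7 399 399) (mv 401 (both (five 1 397 400) (five 5 400 433))))) (mv 560 (both (five 7 431 463) (mv 591 (both (five 6 463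 559) (mv 592 (both (five 6 495 623) (mv 593 (both (five 4 464 561) (five 4 496 625))))))))))) (both (mv 432 (both (five 0 429 465) (mv 396 (both (five 3 396 397) (mv 400 (both (five 1 397 401) (mv 368 (both (five 6 367 463) (mv 335 (both (five 7 335 367) (mv 336 (both (five 7 303 303) (mv 337 (both (five 5 304 305) (five 5 336 369))))))))))))))) (mv 432 (both (five 0 429 465) (mv 396 (both (five 3 396 397) (mv 496 (both (five 7 399 399) (mv 560 (both (five 7 431 463) (mv 591 (both (five 6 463 559) (mv 592 (both (five 6 495 623) (mv 593 (both (five 4 464 561) (five 4 496 625)))))))))))))))))))) (mv 428 (both (five 7 396 396) (mv 399 (both (five 1 396 400) (mv 463 (both (five 0 428 464) (five 4 399 496))))))))))))))) (both (mv 462 (both (mv 460 (both (mv 494 (both (five 3 460 496) (mv 459 (both (five 0 458 458) (five 3 459 492))))) (both (mv 463 (both (five 0 460 496) (mv 492 (both (five 2 460 464) (five 2 459 491))))) (mv 459 (both (five 0 459 494) (mv 426 (both (five 3 426 427) (mv 458 (both (five 3 425 425) (mv 490 (both (five 2 457 489) (five 2 458 491)))))))))))) (both (mv 429 (both (mv 396 (both (five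 7 396 428) (mv 397 (both (five 7 364 364) (mv 365 (both (five 4 365 494) (mv 366 (both (five 5 333 334) (five 5 365 398))))))))) (both (mv 396 (both (five 7 396 428) (mv 397 (both (five 7 364 364) (mv 365 (both (five 4 365 494) (mv 333 (both (five 4 333 430) (mv 334 (both (five 5 301 302) (five 5 333 366))))))))))) (both (mv 398 (both (five 5 397 430) (mv 397 (both (five 5 365 366) (mv 494 (both (five 4 365 365) (mv 496 (both (five 3 461 497) (mv 464 (both (five 1 461 465) (mv 463 (both (five 1 460 492) (mv 431 (both (five 4 399 399) (five 7 431 560))))))))))))))) (mv 428 (both (five 7 396 396) (mv 427 (both (five 0 426 426) (mv 430 (both (five 5 397 398) (five 0 427 463))))))))))) (both (mv 463 (both (mv 460 (both (five 0 460 496) (mv 492 (both (five 2 460 464) (five 2 459 491))))) (both (mv 464 (both (five 2 460 492) (mv 429 (both (five 3 428 428) (mv 430 (both (five 5 397 398) (five 3 429 465))))))) (mv 460 (both (five 0 460 496) (mv 428 (both (five 3 427 427) (mv 396 (both (five 4 364 364) (five 7 396 429)))))))))) (both (mv 429 (both (mv 396 (both (five 7 396 428) (mv 397 (both (five 7 364 364) (mv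 398 (both (five 5 365 366) (five 5 397 430))))))) (both (mv 396 (both (five 7 396 428) (mv 397 (both (five 7 364 364) (mv 365 (both (five 4 365 494) (mv 366 (both (five 5 333 334) (five 5 365 398))))))))) (both (mv 396 (both (five 7 396 428) (mv 397 (both (five 7 364 364) (mv 365 (both (five 4 365 494) (mv 333 (both (five 4 333 430) (mv 334 (both (five 5 301 302) (five 5 333 366))))))))))) (both (mv 398 (both (five 5 397 430) (mv 397 (both (five 5 365 366) (mv 364 (both (five 7 364 396) (mv 365 (both (five 7 332 332) (five 4 365 494))))))))) (both (mv 398 (both (five 5 397 430) (mv 397 (both (five 5 365 366) (mv 365 (both (five 4 365 494) (mv 332 (both (five 7 332 364) (mv 333 (both (five 7 300 300) (mv 460 (both (five 6 332 428) (five 6 364 492))))))))))))) (mv 428 (both (five 7 396 396) (mv 427 (both (five 0 426 426) (mv 430 (both (five 5 397 398) (mv 394 (both (five 3 394 395) (mv 459 (both (five 2 426 458) (mv 460 (both (five 1 427 431) (five 0 459 494))))))))))))))))))) (both (mv 460 (both (mv 459 (both (five 0 459 494) (mv 426 (both (five 3 426 427) (mv 458 (both (five 3 425 425) (mv 490 (both (five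 2 457 489) (five 2 458 491))))))))) (both (mv 463 (both (five 0 460 496) (mv 428 (both (five 3 427 427) (mv 396 (both (five 4 364 364) (five 7 396 429))))))) (mv 494 (both (five 0 459 459) (five 3 460 496)))))) (mv 460 (both (mv 463 (both (five 0 460 496) (mv 492 (both (five 2 460 464) (five 2 459 491))))) (mv 459 (both (five 0 459 494) (mv 430 (both (five 1 427 431) (mv 398 (both (five 6 365 366) (five 5 397 429))))))))))))))) (both (mv 460 (both (mv 428 (both (five 7 428 557) (mv 396 (both (five 4 364 364) (five 7 396 429))))) (mv 494 (both (five 3 460 496) (mv 459 (both (five 0 458 458) (five 3 459 492))))))) (both (mv 557 (both (mv 588 (both (five 6 460 556) (mv 589 (both (five 6 492 620) (mv 590 (both (five 4 461 558) (five 4 493 622))))))) (mv 428 (both (five 7 428 460) (mv 429 (both (five 7 396 396) (mv 430 (both (five 5 397 398) (five 5 429 462))))))))) (mv 557 (both (mv 588 (both (five 6 460 556) (mv 589 (both (five 6 492 620) (mv 590 (both (five 4 461 558) (five 4 493 622))))))) (mv 496 (both (mv 494 (both (five 3 460 460) (mv 464 (both (five 1 461 465) (mv 463 (both (five 1 460 492) (mv 431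 (both (five 4 399 399) (five 7 431 560))))))))) (both (mv 462 (both (five 5 429 430) (mv 463 (both (five 0 460 460) (mv 497 (both (five 0 461 464) (five 3 462 498))))))) (both (mv 462 (both (five 5 429 430) (mv 494 (both (five 3 461 497) (mv 464 (both (five 1 461 465) (mv 463 (both (five 1 460 492) (mv 431 (both (five 4 399 399) (five 7 431 560))))))))))) (mv 462 (both (five 5 429 430) (mv 494 (both (five 3 460 460) (five 3 461 497)))))))))))))))

theorem L35 : W (S 988530863186674619578336756865110845819126775104098558876359956461909287475517697927706188055377193898211299979079754656078381545756745792834308240066213838848) (S 195798709735796138715121452316481408398817476324169625942558807039005474162244460473582855796775581893780698234489788277669426257317332326345709471860704896081057225275528918821598572576768) :=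
  check_sound Env.nil (x := 461) (t := tL35) (by decide +kernel)

def tL36 : T :=
  (both (mv 589 (both (mv 620 (both (five 6 492 588) (mv 621 (both (five 6 524 652) (mv 622 (both (five 4 493 590) (five 4 525 654))))))) (mv 492 (both (five 7 460 460) (mv 494 (both (five 5 461 462) (five 0 492 527))))))) (both (mv 461 (both (mv 428 (both (five 7 428 460) (mv 429 (both (five 7 396 396) (mv 430 (both (five 5 397 398) (five 5 429 462))))))) (both (mv 429 (both (mv 396 (both (five 7 396 428) (mv 397 (both (five 7 364 364) (mv 398 (both (five 5 365 366) (five 5 397 430))))))) (both (mv 398 (both (five 5 397 430) (mv 397 (both (five 5 365 366) (mv 364 (both (five 7 364 396) (mv 365 (both (five 7 332 332) (mv 362 (both (five 0 362 363) (mv 399 (both (five 3 364 400) (mv 492 (both (five 6 364 460) (mv 527 (both (five 0 492 494) (mv 556 (both (five 6 460 588) (mv 558 (both (five 1 524 559) (five 4 461 590))))))))))))))))))))) (both (mv 398 (both (five 5 397 430) (mv 397 (both (five 5 365 366) (mv 460 (both (five 7 428 428) (mv 492 (both (five 6 364 365) (mv 527 (both (five 0 492 494) (mv 556 (both (five 6 460 588)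 (mv 558 (both (five 1 524 559) (five 4 461 590))))))))))))))) (mv 428 (both (five 7 396 396) (five 7 428 460))))))) (both (mv 460 (both (five 7 428 428) (mv 556 (both (five 6 460 588) (mv 558 (both (five 4 461 590) (mv 527 (both (five 1 524 559) (mv 494 (both (five 0 492 492) (mv 459 (both (five 0 458 458) (five 0 459 462))))))))))))) (both (mv 429 (both (mv 430 (both (five 5 397 398) (five 5 429 462))) (both (mv 396 (both (five 7 396 428) (mv 397 (both (five 7 364 364) (mv 366 (both (five 5 365 398) (mv 365 (both (five 5 333 334) (mv 367 (both (five 2 364 368) (mv 394 (both (five 1 362 395) (mv 494 (both (five 4 365 462) (mv 527 (both (five 0 492 492) (mv 556 (both (five 6 460 588) (mv 558 (both (five 1 524 559) (five 4 461 590))))))))))))))))))))) (both (mv 396 (both (five 7 396 428) (mv 397 (both (five 7 364 364) (mv 462 (both (five 5 429 430) (mv 494 (both (five 4 365 365) (mv 527 (both (five 0 492 492) (mv 556 (both (five 6 460 588) (mv 558 (both (five 1 524 559) (five 4 461 590))))))))))))))) (mv 396 (both (five 7 396 428) (mv 397 (both (five 7 364 364) (mv 398 (both (five 5 365 366) (five 5 397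 430))))))))))) (mv 462 (both (five 5 429 430) (mv 556 (both (five 6 460 588) (mv 558 (both (five 4 461 590) (mv 527 (both (five 1 524 559) (mv 492 (both (five 0 492 494) (mv 463 (both (five 2 460 464) (mv 491 (both (five 2 459 460) (five 1 458 490)))))))))))))))))))) (both (mv 589 (both (mv 620 (both (five 6 492 588) (mv 621 (both (five 6 524 652) (mv 622 (both (five 4 493 590) (five 4 525 654))))))) (both (mv 460 (both (five 7 460 492) (mv 461 (both (five 7 428 428) (mv 588 (both (five 6 460 556) (five 6 492 620))))))) (mv 460 (both (five 7 460 492) (mv 461 (both (five 7 428 428) (mv 590 (both (five 4 461 558) (five 4 493 622)))))))))) (both (mv 589 (both (mv 620 (both (five 6 492 588) (mv 621 (both (five 6 524 652) (mv 622 (both (five 4 493 590) (five 4 525 654))))))) (both (mv 462 (both (five 5 461 494) (mv 461 (both (five 5 429 430) (mv 588 (both (five 6 460 556) (five 6 492 620))))))) (mv 462 (both (five 5 461 494) (mv 461 (both (five 5 429 430) (mv 590 (both (five 4 461 558) (five 4 493 622)))))))))) (both (mv 461 (both (mv 428 (both (five 7 428 460) (mv 429 (both (five 7 396 396) (mv 430 (both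 (five 5 397 398) (five 5 429 462))))))) (both (mv 460 (both (five 7 428 428) (mv 588 (both (five 6 460 556) (mv 589 (both (five 7 460 492) (five 6 492 620))))))) (mv 462 (both (five 5 429 430) (mv 494 (both (five 5 461 589) (mv 492 (both (five 0 492 527) (mv 463 (both (five 1 460 464) (five 1 459 491)))))))))))) (mv 461 (both (mv 462 (both (five 5 429 430) (mv 589 (both (five 5 461 494) (mv 590 (both (five 4 461 558) (five 4 493 622))))))) (both (mv 460 (both (five 7 428 428) (mv 589 (both (five 7 460 492) (mv 590 (both (five 4 461 558) (five 4 493 622))))))) (mv 428 (both (five 7 428 460) (mv 429 (both (five 7 396 396) (mv 430 (both (five 5 397 398) (five 5 429 462)))))))))))))))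

theorem L36 : W (S 988530863186674619578336756865110845819126775104098558876359956461909287475517697927706188055377193898211299979079754656078381545756745792834308240066213838848) (S 93438783879360135144947344266572655424650351144762359217274977319787395404287410010917713765176910272103648783028428664723237300479143695294649971746349599043891099825989526666890806872362671144960) :=
  check_sound Env.nil (x := 557) (t := tL36) (by decide +kernel)

def tL37 : T :=
  (both (mv 496 (both (mv 461 (both (five 3 460 460) (mv 465 (both (five 1 461 464) (mv 497 (both (five 3 461 462) (five 1 462 466))))))) (both (mv 461 (both (five 3 460 460) (mv 462 (both (five 3 461 497) (mv 557 (both (five 5 461 589) (mv 556 (both (five 6 460 588) (mv 558 (both (five 4 461 590) (mv 559 (both (five 1 524 527) (mv 592 (both (five 0 556 591) (mv 560 (both (five 7 463 463) (five 0 557 593))))))))))))))))) (mv 464 (both (five 1 461 465) (mv 560 (both (mv 591 (both (five 6 463 559) (mv 592 (both (five 6 495 623) (mv 593 (both (five 4 464 561) (five 4 496 625))))))) (both (mv 593 (both (five 4 464 561) (mv 592 (both (five 4 496 625)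 (mv 623 (both (five 6 495 591) (mv 624 (both (five 7 495 527) (five 6 527 655))))))))) (both (mv 593 (both (five 4 464 561) (mv 592 (both (five 4 496 625) (mv 527 (both (five 7 495 624) (mv 432 (both (five 6 399 400) (five 6 431 559))))))))) (mv 559 (both (five 6 463 591) (mv 432 (both (five 6 431 527) (mv 399 (both (five 7 399 431) (mv 400 (both (five 7 367 367) (mv 401 (both (five 5 368 369) (five 5 400 433)))))))))))))))))))) (both (mv 492 (both (mv 463 (both (five 1 460 464) (mv 491 (both (five 1 459 462) (mv 458 (both (five 3 458 459) (mv 490 (both (five 3 457 457) (mv 522 (both (five 2 489 521) (five 2 490 523))))))))))) (both (mv 460 (both (five 3 459 459) (mv 428 (both (five 4 396 396) (mv 461 (both (five 3 460 496) (five 7 428 557))))))) (mv 496 (both (mv 461 (both (five 3 460 460) (mv 465 (both (five 1 461 464) (mv 497 (both (five 3 461 462) (five 1 462 466))))))) (both (mv 461 (both (five 3 460 460) (mv 462 (both (five 3 461 497) (mv 491 (both (five 1 459 463) (five 1 458 490))))))) (mv 464 (both (five 1 461 465) (mv 432 (both (mv 399 (both (five 7 399 431) (mv 400 (both (five 7 367 367) (mv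 401 (both (five 5 368 369) (five 5 400 433))))))) (both (mv 401 (both (five 5 400 433) (mv 400 (both (five 5 368 369) (mv 367 (both (five 7 367 399) (mv 368 (both (five 7 335 335) (five 6 367 463))))))))) (both (mv 401 (both (five 5 400 433) (mv 400 (both (five 5 368 369) (mv 463 (both (five 6 367 368) (mv 560 (both (five 7 431 431) (five 7 463 592))))))))) (mv 431 (both (five 7 399 399) (mv 560 (both (five 7 431 463) (mv 591 (both (five 6 463 559) (mv 592 (both (five 6 495 623) (mv 593 (both (five 4 464 561) (five 4 496 625))))))))))))))))))))))) (both (mv 492 (both (five 0 492 527) (mv 463 (both (five 1 460 464) (mv 491 (both (five 1 459 462) (mv 458 (both (five 3 458 459) (mv 490 (both (five 3 457 457) (mv 522 (both (five 2 489 521) (five 2 490 523))))))))))))) (mv 492 (both (five 0 492 527) (mv 460 (both (five 3 459 459) (mv 428 (both (five 4 396 396) (mv 461 (both (five 3 460 496) (five 7 428 557))))))))))))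

theorem L37 : W (S 988530863186674619578336756865110845819126775104098558876359956461909287475517697927706188055377193898211299979079754656078381545756745792834308240066213838848) (S 149502054401904709468934566687824770919926173703311910456539196875061653840731529083628609336102045979040207481139689834510163298856712476919965653332096816410043465572569172364500912092705493876736) :=
  check_sound Env.nil (x := 494) (t := tL37) (by decide +kernel)

def tL38 : T :=
  (both (ref 0) (both (ref 1) (both (ref 2) (both (mv 464 (both (mv 432 (both (mv 400 (both (mv 368 (both (five 6 367 463) (mv 335 (both (five 7 335 367) (mv 336 (both (five 7 303 303) (mv 337 (both (five 5 304 305) (five 5 336 369))))))))) (both (mv 399 (both (mv 398 (both (mv 401 (both (mv 365 (both (five 3 365 366) (mv 430 (both (five 2 397 429) (mv 402 (both (five 2 398 431) (mv 434 (both (five 0 398 433) (five 0 399 435))))))))) (mv 369 (both (five 1 366 370) (mv 337 (both (five 6 304 305) (five 5 336 368))))))) (both (mv 397 (both (mv 364 (both (five 3 364 365) (mv 396 (both (five 3 363 363) (five 0 396 431))))) (mv 369 (both (five 1 365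 368) (mv 401 (both (five 1 366 370) (mv 429 (both (five 2 396 428) (five 2 397 430))))))))) (both (mv 397 (both (five 0 397 433) (mv 364 (both (five 3 364 365) (mv 396 (both (five 3 363 363) (five 0 396 431))))))) (mv 397 (both (five 0 397 433) (mv 369 (both (five 1 365 368) (mv 401 (both (five 1 366 370) (mv 429 (both (five 2 396 428) (five 2 397 430))))))))))))) (both (mv 368 (both (mv 337 (both (five 5 336 369) (mv 336 (both (five 5 304 305) (mv 303 (both (five 7 303 335) (mv 304 (both (five 7 271 271) (five 6 303 431))))))))) (both (mv 337 (both (five 5 336 369) (mv 336 (both (five 5 304 305) (mv 304 (both (five 6 303 431) (mv 271 (both (five 7 271 303) (mv 272 (both (five 7 239 239) (five 6 271 367))))))))))) (both (mv 335 (both (five 7 335 367) (mv 336 (both (five 7 303 303) (mv 304 (both (five 6 303 431) (mv 305 (both (five 5 272 273) (five 5 304 337))))))))) (both (mv 335 (both (five 7 335 367) (mv 336 (both (five 7 303 303) (mv 304 (both (five 6 303 431) (mv 273 (both (five 5 272 305) (mv 272 (both (five 5 240 241) (mv 401 (both (five 4 272 369) (five 4 304 433))))))))))))) (mv 367 (both (five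 7 335 335) (mv 369 (both (five 5 336 337) (mv 370 (both (five 2 367 371) (mv 338 (both (five 1 335 339) (mv 402 (both (five 0 367 403) (mv 366 (both (five 0 366 401) (mv 333 (both (five 3 333 334) (mv 365 (both (five 3 332 332) (five 0 364 364)))))))))))))))))))))) (both (mv 368 (both (mv 337 (both (five 5 336 369) (mv 336 (both (five 5 304 305) (mv 303 (both (five 7 303 335) (mv 304 (both (five 7 271 271) (five 6 303 431))))))))) (both (mv 337 (both (five 5 336 369) (mv 336 (both (five 5 304 305) (mv 304 (both (five 6 303 431) (mv 271 (both (five 7 271 303) (mv 272 (both (five 7 239 239) (five 6 271 367))))))))))) (both (mv 336 (both (mv 303 (both (five 7 303 335) (mv 304 (both (five 7 271 271) (five 6 303 431))))) (both (mv 304 (both (five 6 303 431) (mv 271 (both (five 7 271 303) (mv 272 (both (five 7 239 239) (five 6 271 367))))))) (both (mv 335 (both (five 7 303 303) (five 7 335 367))) (mv 304 (both (five 6 303 431) (mv 367 (both (five 6 271 272) (five 7 335 335))))))))) (mv 367 (both (five 7 335 335) (mv 369 (both (five 5 336 337) (mv 370 (both (five 2 367 371) (five 2 366 398))))))))))) (both (mv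 398 (both (mv 397 (both (five 0 397 433) (mv 369 (both (five 1 365 368) (mv 401 (both (five 1 366 370) (mv 429 (both (five 2 396 428) (five 2 397 430))))))))) (both (mv 401 (both (mv 369 (both (five 1 366 370) (mv 337 (both (five 6 304 305) (five 5 336 368))))) (mv 366 (both (five 3 365 365) (mv 367 (both (five 3 366 402) (mv 430 (both (five 2 397 429) (mv 335 (both (five 6 302 303) (five 5 334 462))))))))))) (both (mv 397 (both (five 0 397 433) (mv 364 (both (five 3 364 365) (mv 396 (both (five 3 363 363) (mv 428 (both (five 2 395 427) (five 2 396 429))))))))) (mv 397 (both (five 0 397 433) (mv 364 (both (five 3 364 365) (mv 368 (both (five 1 365 369) (mv 367 (both (five 7 335 335) (five 1 364 396))))))))))))) (both (mv 398 (both (mv 397 (both (five 0 397 433) (mv 364 (both (five 3 364 365) (mv 396 (both (five 3 363 363) (five 0 396 431))))))) (both (mv 401 (both (mv 434 (both (five 0 398 433) (mv 402 (both (five 0 399 435) (mv 371 (both (five 1 367 370) (mv 403 (both (five 1 368 372) (five 2 399 431))))))))) (both (mv 366 (both (five 3 365 365) (mv 367 (both (five 3 366 402) (mv 430 (both (five 2 397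 429) (mv 335 (both (five 6 302 303) (five 5 334 462))))))))) (mv 366 (both (five 3 365 365) (mv 430 (both (five 2 397 429) (mv 433 (both (five 0 398 434) (mv 462 (both (five 6 397 494) (mv 335 (both (five 5 334 367) (mv 334 (both (five 5 302 303) (mv 301 (both (five 7 301 333) (mv 302 (both (five 7 269 269) (five 4 302 431)))))))))))))))))))) (both (mv 430 (both (mv 494 (both (five 6 397 462) (mv 492 (both (five 0 492 527) (mv 460 (both (five 3 459 459) (mv 396 (both (five 4 396 428) (mv 397 (both (five 0 396 431) (mv 364 (both (five 3 363 363) (five 3 364 365))))))))))))) (both (mv 401 (both (five 2 397 429) (mv 366 (both (five 3 365 365) (mv 367 (both (five 3 366 402) (mv 335 (both (five 6 302 303) (five 5 334 462))))))))) (mv 401 (both (five 2 397 429) (mv 402 (both (five 2 398 431) (mv 371 (both (five 1 367 370) (mv 403 (both (five 1 368 372) (mv 435 (both (five 0 399 434) (five 0 400 436)))))))))))))) (both (mv 397 (both (five 0 397 433) (mv 364 (both (five 3 364 365) (mv 396 (both (five 3 363 363) (mv 428 (both (five 2 395 427) (five 2 396 429))))))))) (mv 397 (both (five 0 397 433) (mv 396 (both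 (five 0 396 431) (mv 428 (both (five 2 395 427) (five 2 396 429)))))))))))) (mv 398 (both (mv 401 (both (mv 430 (both (five 2 397 429) (mv 402 (both (five 2 398 431) (mv 434 (both (five 0 398 433) (five 0 399 435))))))) (both (mv 365 (both (five 3 365 366) (mv 434 (both (five 0 398 433) (mv 402 (both (five 0 399 435) (mv 403 (both (five 2 399 431) (mv 368 (both (five 3 367 367) (mv 369 (both (five 5 336 337) (five 3 368 404))))))))))))) (both (mv 366 (both (five 3 365 365) (mv 367 (both (five 3 366 402) (mv 430 (both (five 2 397 429) (mv 335 (both (five 6 302 303) (five 5 334 462))))))))) (mv 366 (both (five 3 365 365) (mv 430 (both (five 2 397 429) (mv 433 (both (five 0 398 434) (mv 462 (both (five 6 397 494) (mv 335 (both (five 5 334 367) (mv 334 (both (five 5 302 303) (mv 301 (both (five 7 301 333) (mv 302 (both (five 7 269 269) (five 4 302 431))))))))))))))))))))) (both (mv 397 (both (mv 364 (both (five 3 364 365) (mv 396 (both (five 3 363 363) (five 0 396 431))))) (both (mv 364 (both (five 3 364 365) (mv 368 (both (five 1 365 369) (mv 335 (both (five 7 335 367) (mv 336 (both (five 7 303 303) (mv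 304 (both (five 6 303 431) (mv 305 (both (five 5 272 273) (five 5 304 337))))))))))))) (mv 368 (both (five 1 365 369) (mv 367 (both (five 7 335 335) (five 1 364 396)))))))) (both (mv 397 (both (five 0 397 433) (mv 364 (both (five 3 364 365) (mv 396 (both (five 3 363 363) (mv 428 (both (five 2 395 427) (five 2 396 429))))))))) (mv 397 (both (five 0 397 433) (mv 396 (both (five 0 396 431) (mv 428 (both (five 2 395 427) (five 2 396 429))))))))))))))))) (both (mv 398 (both (mv 399 (both (mv 397 (both (five 0 397 433) (mv 364 (both (five 3 364 365) (mv 396 (both (five 3 363 363) (five 0 396 431))))))) (both (mv 401 (both (mv 430 (both (five 2 397 429) (mv 402 (both (five 2 398 431) (mv 434 (both (five 0 398 433) (five 0 399 435))))))) (both (mv 366 (both (five 3 365 365) (mv 367 (both (five 3 366 402) (mv 430 (both (five 2 397 429) (mv 335 (both (five 6 302 303) (five 5 334 462))))))))) (mv 365 (both (five 3 365 366) (mv 369 (both (five 1 366 370) (mv 337 (both (five 6 304 305) (five 6 336 433)))))))))) (both (mv 401 (both (mv 366 (both (five 3 365 365) (mv 367 (both (five 3 366 402) (mv 430 (both (five 2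 397 429) (mv 335 (both (five 6 302 303) (five 5 334 462))))))))) (both (mv 370 (both (five 1 366 369) (mv 402 (both (five 1 367 371) (mv 403 (both (five 2 399 431) (mv 435 (both (five 0 399 434) (five 0 400 436))))))))) (mv 365 (both (five 3 365 366) (mv 369 (both (five 1 366 370) (mv 305 (both (five 6 304 337) (mv 397 (both (five 3 364 364) (mv 429 (both (five 2 396 428) (five 2 397 430)))))))))))))) (both (mv 397 (both (five 0 397 433) (mv 364 (both (five 3 364 365) (mv 396 (both (five 3 363 363) (mv 428 (both (five 2 395 427) (five 2 396 429))))))))) (mv 397 (both (five 0 397 433) (mv 396 (both (five 0 396 431) (mv 428 (both (five 2 395 427) (five 2 396 429)))))))))))) (both (mv 494 (both (mv 492 (both (five 1 460 463) (five 0 492 527))) (both (mv 430 (both (five 6 397 462) (mv 431 (both (mv 397 (both (five 3 397 433) (mv 396 (both (five 0 395 395) (five 3 396 429))))) (both (mv 433 (both (five 3 397 397) (mv 402 (both (five 1 398 401) (mv 434 (both (five 1 399 403) (mv 463 (both (five 2 431 435) (five 7 398 527))))))))) (both (mv 401 (both (five 1 397 429) (mv 402 (both (five 2 399 403) (five 1 398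 433))))) (mv 429 (both (five 1 397 401) (mv 396 (both (five 3 396 397) (mv 428 (both (five 3 395 395) (five 0 428 463))))))))))))) (both (mv 430 (both (five 6 397 462) (mv 431 (both (mv 397 (both (five 3 397 433) (mv 395 (both (five 0 395 396) (mv 492 (both (five 1 460 463) (mv 459 (both (five 3 459 460) (mv 491 (both (five 3 458 458) (mv 522 (both (five 2 490 523) (mv 490 (both (five 6 394 427) (five 2 489 521))))))))))))))) (both (mv 401 (both (five 1 397 429) (mv 402 (both (five 2 399 403) (five 1 398 433))))) (mv 429 (both (five 1 397 401) (mv 396 (both (five 3 396 397) (mv 428 (both (five 3 395 395) (five 0 428 463)))))))))))) (mv 430 (both (five 6 397 462) (mv 431 (both (mv 401 (both (five 1 397 429) (mv 402 (both (five 2 399 403) (five 1 398 433))))) (both (mv 429 (both (five 1 397 401) (mv 396 (both (five 3 396 397) (mv 395 (both (five 3 395 428) (mv 492 (both (five 0 492 527) (mv 459 (both (five 3 459 460) (mv 491 (both (five 3 458 458) (mv 522 (both (five 2 490 523) (mv 490 (both (five 6 394 427) (five 2 489 521))))))))))))))))) (mv 397 (both (five 3 397 433) (mv 395 (both (five 0 395 396) (mv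 492 (both (five 0 492 527) (mv 459 (both (five 3 459 460) (mv 491 (both (five 3 458 458) (mv 522 (both (five 2 490 523) (mv 490 (both (five 6 394 427) (five 2 489 521)))))))))))))))))))))))) (both (mv 494 (both (mv 492 (both (five 1 460 463) (five 0 492 527))) (mv 399 (both (mv 397 (both (five 0 397 433) (mv 364 (both (five 3 364 365) (mv 396 (both (five 3 363 363) (mv 428 (both (five 2 395 427) (five 2 396 429))))))))) (both (mv 430 (both (five 6 397 462) (mv 401 (both (five 2 397 429) (mv 366 (both (five 3 365 365) (mv 370 (both (five 1 366 369) (mv 402 (both (five 3 366 367) (five 1 367 371))))))))))) (mv 430 (both (five 6 397 462) (mv 433 (both (five 0 397 397) (mv 434 (both (five 0 398 401) (five 3 399 435)))))))))))) (both (mv 399 (both (mv 433 (both (five 0 397 397) (mv 434 (both (five 0 398 401) (five 3 399 435))))) (both (mv 431 (both (mv 463 (both (five 7 366 366) (five 5 399 527))) (both (mv 335 (both (five 4 335 367) (mv 397 (both (five 0 396 396) (mv 365 (both (five 3 364 364) (mv 401 (both (five 3 365 366) (mv 370 (both (five 1 366 369) (mv 402 (both (five 1 367 371) (five 2 399 403)))))))))))))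 (mv 367 (both (five 4 335 335) (mv 396 (both (five 0 396 397) (mv 463 (both (five 5 399 527) (mv 494 (both (five 6 366 462) (five 1 460 492)))))))))))) (both (mv 401 (both (mv 369 (both (five 1 366 370) (mv 337 (both (five 6 304 305) (five 6 336 433))))) (both (mv 366 (both (five 3 365 365) (mv 370 (both (five 1 366 369) (mv 402 (both (five 3 366 367) (five 1 367 371))))))) (mv 365 (both (five 3 365 366) (mv 434 (both (five 0 398 433) (mv 402 (both (five 0 399 435) (mv 431 (both (five 2 399 403) (mv 367 (both (five 4 335 335) (mv 463 (both (five 5 399 527) (mv 494 (both (five 6 366 462) (five 1 460 492)))))))))))))))))) (mv 397 (both (five 0 397 433) (mv 364 (both (five 3 364 365) (mv 396 (both (five 3 363 363) (five 0 396 431))))))))))) (both (mv 494 (both (mv 492 (both (five 1 460 463) (five 0 492 527))) (both (mv 431 (both (mv 430 (both (five 6 397 462) (mv 429 (both (five 1 397 401) (mv 396 (both (five 3 396 397) (mv 428 (both (five 3 395 395) (five 0 428 463))))))))) (both (mv 463 (both (five 5 399 527) (mv 399 (both (five 7 366 366) (mv 367 (both (five 4 335 335) (five 6 366 462))))))) (both (mv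 430 (both (five 6 397 462) (mv 401 (both (five 1 397 429) (mv 402 (both (five 2 398 399) (five 2 399 403))))))) (mv 463 (both (five 5 399 527) (mv 366 (both (five 7 366 399) (mv 430 (both (five 4 334 334) (mv 429 (both (five 1 397 401) (five 0 428 428))))))))))))) (both (mv 399 (both (mv 430 (both (five 6 397 462) (mv 401 (both (five 2 397 429) (mv 366 (both (five 3 365 365) (mv 370 (both (five 1 366 369) (mv 402 (both (five 3 366 367) (five 1 367 371))))))))))) (both (mv 463 (both (five 1 460 492) (mv 366 (both (five 7 366 431) (mv 365 (both (five 3 365 401) (mv 364 (both (five 0 363 363) (five 0 364 367))))))))) (both (mv 430 (both (five 6 397 462) (mv 492 (both (five 1 460 463) (mv 460 (both (five 3 459 459) (mv 396 (both (five 4 396 428) (mv 397 (both (five 0 396 431) (mv 364 (both (five 3 363 363) (five 3 364 365))))))))))))) (mv 430 (both (five 6 397 462) (mv 401 (both (five 2 397 429) (mv 402 (both (five 2 398 431) (mv 371 (both (five 1 367 370) (mv 403 (both (five 1 368 372) (mv 435 (both (five 0 399 434) (five 0 400 436))))))))))))))))) (mv 399 (both (mv 492 (both (five 0 492 527) (mv 460 (both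 (five 3 459 459) (mv 396 (both (five 4 396 428) (mv 397 (both (five 0 396 431) (mv 364 (both (five 3 363 363) (five 3 364 365))))))))))) (both (mv 430 (both (five 6 397 462) (mv 401 (both (five 2 397 429) (mv 366 (both (five 3 365 365) (mv 370 (both (five 1 366 369) (mv 402 (both (five 3 366 367) (five 1 367 371))))))))))) (mv 430 (both (five 6 397 462) (mv 401 (both (five 2 397 429) (mv 402 (both (five 2 398 431) (mv 371 (both (five 1 367 370) (mv 403 (both (five 1 368 372) (mv 435 (both (five 0 399 434) (five 0 400 436)))))))))))))))))))) (both (mv 401 (both (mv 399 (both (mv 369 (both (five 1 366 370) (mv 337 (both (five 6 304 305) (five 6 336 433))))) (both (mv 366 (both (five 3 365 365) (mv 370 (both (five 1 366 369) (mv 402 (both (five 3 366 367) (five 1 367 371))))))) (mv 430 (both (five 2 397 429) (mv 402 (both (five 2 398 431) (mv 434 (both (five 0 398 433) (five 0 399 435)))))))))) (both (mv 494 (both (mv 492 (both (five 1 460 463) (five 0 492 527))) (mv 430 (both (five 6 397 462) (mv 431 (both (five 1 397 429) (mv 402 (both (five 2 399 403) (five 1 398 433))))))))) (both (mv 399 (both (mv 369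 (both (five 1 366 370) (mv 337 (both (five 6 304 305) (five 6 336 433))))) (both (mv 366 (both (five 3 365 365) (mv 370 (both (five 1 366 369) (mv 402 (both (five 3 366 367) (five 1 367 371))))))) (mv 434 (both (five 0 398 433) (mv 402 (both (five 0 399 435) (mv 431 (both (five 2 399 403) (mv 367 (both (five 4 335 335) (mv 463 (both (five 5 399 527) (mv 494 (both (five 6 366 462) (five 1 460 492)))))))))))))))) (both (mv 399 (both (mv 366 (both (five 3 365 365) (mv 370 (both (five 1 366 369) (mv 402 (both (five 3 366 367) (five 1 367 371))))))) (mv 430 (both (five 2 397 429) (mv 494 (both (five 6 397 462) (mv 492 (both (five 1 460 463) (five 0 492 527))))))))) (mv 399 (both (mv 369 (both (five 1 366 370) (mv 337 (both (five 6 304 305) (five 6 336 433))))) (mv 430 (both (five 2 397 429) (mv 494 (both (five 6 397 462) (mv 492 (both (five 1 460 463) (five 0 492 527)))))))))))))) (both (mv 494 (both (mv 492 (both (five 1 460 463) (five 0 492 527))) (both (mv 431 (both (mv 463 (both (five 5 399 527) (mv 399 (both (five 7 366 366) (mv 367 (both (five 4 335 335) (five 6 366 462))))))) (both (mv 430 (both (five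 6 397 462) (mv 397 (both (five 3 397 433) (mv 396 (both (five 0 395 395) (five 3 396 429))))))) (mv 463 (both (five 5 399 527) (mv 366 (both (five 7 366 399) (mv 430 (both (five 4 334 334) (mv 397 (both (five 3 397 433) (mv 396 (both (five 0 395 395) (five 3 396 429)))))))))))))) (both (mv 399 (both (mv 430 (both (five 6 397 462) (mv 492 (both (five 0 492 527) (mv 460 (both (five 3 459 459) (mv 428 (both (five 4 396 396) (mv 429 (both (five 1 395 427) (five 1 396 431))))))))))) (both (mv 397 (both (five 0 397 433) (mv 364 (both (five 3 364 365) (mv 396 (both (five 3 363 363) (mv 428 (both (five 2 395 427) (five 2 396 429))))))))) (mv 430 (both (five 6 397 462) (mv 433 (both (five 0 397 397) (mv 434 (both (five 3 398 431) (five 3 399 435)))))))))) (mv 399 (both (mv 433 (both (five 0 397 397) (mv 434 (both (five 3 398 431) (five 3 399 435))))) (both (mv 430 (both (five 6 397 462) (mv 492 (both (five 1 460 463) (mv 460 (both (five 3 459 459) (mv 428 (both (five 4 396 396) (mv 429 (both (five 1 395 427) (five 1 396 431))))))))))) (mv 397 (both (five 0 397 433) (mv 364 (both (five 3 364 365) (mv 396 (both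 (five 3 363 363) (mv 428 (both (five 2 395 427) (five 2 396 429)))))))))))))))) (both (mv 399 (both (mv 433 (both (five 0 397 397) (mv 434 (both (five 0 398 401) (five 3 399 435))))) (both (mv 401 (both (mv 369 (both (five 1 366 370) (mv 337 (both (five 6 304 305) (five 6 336 433))))) (both (mv 366 (both (five 3 365 365) (mv 370 (both (five 1 366 369) (mv 402 (both (five 3 366 367) (five 1 367 371))))))) (mv 430 (both (five 2 397 429) (mv 402 (both (five 2 398 431) (mv 434 (both (five 0 398 433) (five 0 399 435)))))))))) (both (mv 431 (both (mv 463 (both (five 7 366 366) (five 5 399 527))) (mv 335 (both (five 4 335 367) (mv 397 (both (five 0 396 396) (mv 364 (both (five 3 364 365) (mv 429 (both (five 2 396 428) (mv 401 (both (five 2 397 430) (mv 370 (both (five 1 366 369) (mv 402 (both (five 1 367 371) (five 2 399 403))))))))))))))))) (mv 433 (both (five 0 397 397) (mv 434 (both (five 3 398 431) (five 3 399 435))))))))) (mv 399 (both (mv 397 (both (five 0 397 433) (mv 364 (both (five 3 364 365) (mv 396 (both (five 3 363 363) (five 0 396 431))))))) (both (mv 401 (both (mv 369 (both (five 1 366 370) (mv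 337 (both (five 6 304 305) (five 6 336 433))))) (mv 430 (both (five 2 397 429) (mv 494 (both (five 6 397 462) (mv 492 (both (five 1 460 463) (five 0 492 527))))))))) (mv 431 (both (mv 463 (both (five 7 366 366) (five 5 399 527))) (both (mv 335 (both (five 4 335 367) (mv 397 (both (five 0 396 396) (mv 365 (both (five 3 364 364) (mv 401 (both (five 3 365 366) (mv 370 (both (five 1 366 369) (mv 402 (both (five 1 367 371) (five 2 399 403))))))))))))) (mv 367 (both (five 4 335 335) (mv 396 (both (five 0 396 397) (mv 463 (both (five 5 399 527) (mv 494 (both (five 6 366 462) (five 1 460 492)))))))))))))))))))))))) (mv 463 (both (five 6 367 368) (mv 527 (both (five 5 399 431) (five 5 431 559))))))))) (both (mv 496 (both (mv 399 (both (five 7 399 431) (mv 400 (both (five 7 367 367) (mv 401 (both (five 5 368 369) (five 5 400 433))))))) (both (mv 401 (both (five 5 400 433) (mv 400 (both (five 5 368 369) (mv 367 (both (five 7 367 399) (mv 368 (both (five 7 335 335) (five 6 367 463))))))))) (both (mv 401 (both (five 5 400 433) (mv 400 (both (five 5 368 369) (mv 463 (both (five 6 367 368) (mv 560 (both (five 7 431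 431) (five 7 463 592))))))))) (mv 431 (both (five 7 399 399) (mv 560 (both (five 7 431 463) (mv 591 (both (five 6 463 559) (mv 592 (both (five 6 495 623) (mv 593 (both (five 4 464 561) (five 4 496 625))))))))))))))) (both (mv 496 (both (mv 527 (both (five 6 399 400) (five 6 431 559))) (both (mv 399 (both (five 7 399 431) (mv 400 (both (five 7 367 367) (mv 401 (both (five 5 368 369) (five 5 400 433))))))) (mv 560 (both (mv 559 (both (five 6 431 527) (five 6 463 591))) (both (mv 593 (both (five 4 464 561) (mv 592 (both (five 4 496 625) (mv 623 (both (five 6 495 591) (mv 624 (both (five 7 495 527) (five 6 527 655))))))))) (both (mv 591 (both (five 6 463 559) (mv 592 (both (five 6 495 623) (mv 593 (both (five 4 464 561) (five 4 496 625))))))) (mv 399 (both (five 7 399 431) (mv 401 (both (five 5 400 433) (mv 527 (both (five 6 431 559) (mv 592 (both (five 7 495 624) (mv 593 (both (five 4 464 561) (five 4 496 625)))))))))))))))))) (both (mv 431 (both (mv 496 (both (five 7 399 399) (mv 560 (both (five 7 431 463) (mv 591 (both (five 6 463 559) (mv 592 (both (five 6 495 623) (mv 593 (both (five 4 464 561) (five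 4 496 625))))))))))) (both (mv 463 (both (mv 527 (both (five 5 431 559) (five 4 431 560))) (mv 399 (both (mv 398 (both (five 7 366 366) (mv 397 (both (five 0 396 396) (mv 433 (both (five 3 397 430) (five 3 398 434))))))) (mv 367 (both (five 4 335 335) (mv 494 (both (five 6 366 462) (five 1 460 492))))))))) (both (mv 463 (both (mv 527 (both (five 5 431 559) (five 4 431 560))) (both (mv 496 (both (five 7 431 560) (mv 433 (both (five 5 400 401) (mv 434 (both (five 2 431 435) (five 2 430 462))))))) (mv 433 (both (mv 434 (both (five 2 431 435) (five 2 430 462))) (mv 401 (both (five 5 400 496) (mv 337 (both (five 6 336 369) (mv 430 (both (five 1 398 402) (mv 398 (both (five 3 397 397) (five 7 398 527)))))))))))))) (both (mv 496 (both (five 7 399 399) (mv 560 (both (mv 559 (both (five 6 431 527) (five 6 463 591))) (both (mv 593 (both (five 4 464 561) (mv 592 (both (five 4 496 625) (mv 623 (both (five 6 495 591) (mv 624 (both (five 7 495 527) (five 6 527 655))))))))) (both (mv 591 (both (five 6 463 559) (mv 592 (both (five 6 495 623) (mv 593 (both (five 4 464 561) (five 4 496 625))))))) (mv 527 (both (five 6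 431 559) (mv 592 (both (five 7 495 624) (mv 593 (both (five 4 464 561) (five 4 496 625))))))))))))) (both (mv 527 (both (mv 496 (both (five 7 399 399) (five 6 431 559))) (both (mv 463 (both (five 5 431 559) (mv 399 (both (mv 398 (both (five 7 366 366) (mv 397 (both (five 0 396 396) (mv 433 (both (five 3 397 430) (five 3 398 434))))))) (mv 367 (both (five 4 335 335) (mv 494 (both (five 6 366 462) (five 1 460 492))))))))) (both (mv 399 (both (five 7 399 496) (mv 367 (both (five 4 335 335) (mv 494 (both (five 0 492 492) (mv 463 (both (five 6 366 462) (mv 366 (both (five 7 334 334) (five 7 366 398))))))))))) (mv 559 (both (five 5 431 463) (five 6 431 496))))))) (mv 496 (both (five 7 399 399) (mv 401 (both (five 5 400 433) (mv 560 (both (five 7 431 463) (mv 593 (both (five 4 464 561) (mv 592 (both (five 4 496 625) (mv 623 (both (five 6 495 591) (mv 624 (both (five 7 495 527) (five 6 527 655))))))))))))))))))))) (both (mv 527 (both (mv 494 (both (five 0 492 492) (mv 559 (both (five 5 431 463) (mv 591 (both (five 7 462 462) (mv 590 (both (five 6 494 622) (mv 624 (both (five 4 495 592) (mv 623 (both (five 4 527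 656) (mv 560 (both (five 5 527 655) (mv 561 (both (five 2 558 562) (mv 589 (both (five 2 557 558) (five 1 556 588))))))))))))))))))) (both (mv 400 (both (five 6 399 496) (mv 368 (both (five 6 367 463) (mv 335 (both (five 7 335 367) (mv 336 (both (five 7 303 303) (mv 337 (both (five 5 304 305) (five 5 336 369))))))))))) (mv 496 (both (five 6 399 400) (five 6 431 559)))))) (both (mv 496 (both (mv 399 (both (five 7 399 431) (mv 400 (both (five 7 367 367) (five 6 399 527))))) (both (mv 401 (both (five 5 400 433) (mv 431 (both (five 7 399 399) (mv 560 (both (five 7 431 463) (mv 593 (both (five 4 464 561) (mv 592 (both (five 4 496 625) (mv 623 (both (five 6 495 591) (mv 624 (both (five 7 495 527) (five 6 527 655))))))))))))))) (both (mv 400 (both (five 6 399 527) (mv 401 (both (five 5 368 369) (five 5 400 433))))) (mv 399 (both (five 7 399 431) (mv 400 (both (five 7 367 367) (mv 401 (both (five 5 368 369) (five 5 400 433))))))))))) (both (mv 496 (both (mv 527 (both (five 6 399 400) (five 6 431 559))) (both (mv 401 (both (five 5 400 433) (mv 400 (both (five 5 368 369) (mv 463 (both (five 6 367 368) (mv 560 (both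 (five 7 431 431) (five 7 463 592))))))))) (mv 431 (both (five 7 399 399) (mv 560 (both (five 7 431 463) (mv 591 (both (five 6 463 559) (mv 592 (both (five 6 495 623) (mv 593 (both (five 4 464 561) (five 4 496 625)))))))))))))) (mv 496 (both (mv 527 (both (five 6 399 400) (five 6 431 559))) (both (mv 431 (both (five 7 399 399) (mv 560 (both (five 7 431 463) (mv 591 (both (five 6 463 559) (mv 592 (both (five 6 495 623) (mv 593 (both (five 4 464 561) (five 4 496 625))))))))))) (mv 399 (both (five 7 399 431) (mv 400 (both (five 7 367 367) (five 6 399 527)))))))))))))))) (both (mv 463 (both (mv 494 (both (five 1 460 492) (mv 465 (both (five 2 461 462) (five 2 462 466))))) (mv 527 (both (mv 560 (both (five 4 431 431) (mv 592 (both (five 4 463 559) (five 7 495 624))))) (both (mv 431 (both (five 4 431 560) (mv 398 (both (five 7 398 430) (mv 399 (both (five 7 366 366) (mv 400 (both (five 5 367 368) (five 5 399 432))))))))) (both (mv 559 (both (five 5 431 432) (mv 590 (both (five 6 462 558) (mv 591 (both (five 6 494 622) (mv 592 (both (five 4 463 560) (five 4 495 624))))))))) (mv 432 (both (five 5 431 559) (mv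 400 (both (five 6 367 368) (five 5 399 431))))))))))) (both (mv 496 (both (mv 560 (both (mv 465 (both (five 5 432 433) (mv 592 (both (five 5 464 497) (mv 593 (both (five 4 464 561) (five 4 496 625))))))) (both (mv 433 (both (five 5 432 465) (mv 432 (both (five 5 400 401) (mv 559 (both (five 6 431 527) (five 6 463 591))))))) (mv 591 (both (five 6 463 559) (mv 592 (both (five 6 495 623) (mv 593 (both (five 4 464 561) (five 4 496 625)))))))))) (both (mv 432 (both (mv 527 (both (five 6 399 400) (five 6 431 559))) (both (mv 399 (both (five 7 399 431) (mv 400 (both (five 7 367 367) (mv 401 (both (five 5 368 369) (five 5 400 433))))))) (mv 463 (both (mv 431 (both (five 7 399 399) (mv 527 (both (five 5 431 559) (mv 430 (both (five 7 398 398) (mv 429 (both (five 0 428 428) (five 0 429 465))))))))) (both (mv 433 (both (five 5 400 401) (mv 434 (both (five 2 431 435) (mv 465 (both (five 1 430 462) (mv 466 (both (five 2 463 467) (mv 498 (both (five 0 463 499) (mv 527 (both (five 5 431 559) (mv 530 (both (five 7 433 562) (mv 531 (both (five 0 495 497) (five 4 434 563))))))))))))))))) (mv 431 (both (five 7 399 399)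 (mv 433 (both (five 5 400 401) (mv 434 (both (five 2 431 435) (five 2 430 462))))))))))))) (both (mv 560 (both (mv 463 (both (five 7 463 592) (mv 431 (both (five 4 399 399) (five 4 431 527))))) (both (mv 465 (both (five 5 432 433) (mv 592 (both (five 5 464 497) (mv 593 (both (five 4 464 561) (five 4 496 625))))))) (mv 463 (both (five 7 431 431) (mv 465 (both (five 5 432 433) (mv 466 (both (five 2 463 467) (mv 434 (both (five 1 431 435) (mv 498 (both (five 0 463 499) (mv 462 (both (five 0 462 497) (mv 430 (both (five 3 429 429) (mv 559 (both (five 7 430 527) (five 6 463 591)))))))))))))))))))) (both (mv 560 (both (mv 591 (both (five 6 463 559) (mv 592 (both (five 6 495 623) (mv 593 (both (five 4 464 561) (five 4 496 625))))))) (mv 431 (both (five 7 431 463) (mv 432 (both (five 7 399 399) (mv 433 (both (five 5 400 401) (five 5 432 465))))))))) (both (mv 560 (both (mv 463 (both (five 7 463 592) (mv 431 (both (five 4 399 399) (five 4 431 527))))) (both (mv 465 (both (five 5 432 433) (mv 592 (both (five 5 464 497) (mv 593 (both (five 4 464 561) (five 4 496 625))))))) (mv 431 (both (five 7 431 463) (mv 432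 (both (five 7 399 399) (mv 433 (both (five 5 400 401) (five 5 432 465)))))))))) (mv 560 (both (mv 431 (both (five 7 431 463) (mv 432 (both (five 7 399 399) (mv 559 (both (five 6 431 527) (five 6 463 591))))))) (both (mv 592 (both (five 7 463 463) (mv 623 (both (five 6 495 591) (mv 624 (both (five 6 527 655) (mv 625 (both (five 4 496 593) (five 4 528 657))))))))) (mv 593 (both (five 4 464 561) (mv 592 (both (five 4 496 625) (mv 527 (both (five 7 495 624) (mv 432 (both (five 6 399 400) (five 6 431 559)))))))))))))))))) (both (mv 496 (both (mv 560 (both (mv 591 (both (five 6 463 559) (mv 592 (both (five 6 495 623) (mv 593 (both (five 4 464 561) (five 4 496 625))))))) (both (mv 593 (both (five 4 464 561) (mv 592 (both (five 4 496 625) (mv 623 (both (five 6 495 591) (mv 624 (both (five 7 495 527) (five 6 527 655))))))))) (both (mv 593 (both (five 4 464 561) (mv 592 (both (five 4 496 625) (mv 527 (both (five 7 495 624) (mv 432 (both (five 6 399 400) (five 6 431 559))))))))) (mv 559 (both (five 6 463 591) (mv 432 (both (five 6 431 527) (mv 399 (both (five 7 399 431) (mv 400 (both (five 7 367 367) (mv 401 (both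 (five 5 368 369) (five 5 400 433))))))))))))))) (both (mv 465 (both (five 1 461 494) (mv 433 (both (five 5 432 560) (mv 401 (both (five 6 368 369) (five 6 400 497))))))) (mv 494 (both (five 1 461 465) (mv 527 (both (five 0 492 492) (mv 432 (both (five 6 399 400) (five 6 431 559)))))))))) (both (mv 496 (both (mv 432 (both (mv 399 (both (five 7 399 431) (mv 400 (both (five 7 367 367) (mv 401 (both (five 5 368 369) (five 5 400 433))))))) (both (mv 401 (both (five 5 400 433) (mv 400 (both (five 5 368 369) (mv 367 (both (five 7 367 399) (mv 368 (both (five 7 335 335) (five 6 367 463))))))))) (both (mv 401 (both (five 5 400 433) (mv 400 (both (five 5 368 369) (mv 463 (both (five 6 367 368) (mv 560 (both (five 7 431 431) (five 7 463 592))))))))) (mv 431 (both (five 7 399 399) (mv 560 (both (five 7 431 463) (mv 591 (both (five 6 463 559) (mv 592 (both (five 6 495 623) (mv 593 (both (five 4 464 561) (five 4 496 625))))))))))))))) (both (mv 432 (both (mv 399 (both (five 7 399 431) (mv 400 (both (five 7 367 367) (mv 401 (both (five 5 368 369) (five 5 400 433))))))) (both (mv 401 (both (five 5 400 433) (mv 400 (both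 (five 5 368 369) (mv 368 (both (five 6 367 463) (mv 465 (both (five 1 461 494) (five 4 368 497))))))))) (mv 431 (both (five 7 399 399) (mv 465 (both (five 1 461 494) (mv 430 (both (five 0 429 429) (mv 466 (both (five 3 430 463) (five 3 431 467)))))))))))) (both (mv 465 (both (five 1 461 494) (mv 433 (both (five 5 432 560) (mv 401 (both (five 6 368 369) (five 6 400 497))))))) (mv 494 (both (five 1 461 465) (mv 463 (both (five 1 460 492) (mv 431 (both (five 4 399 399) (five 7 431 560))))))))))) (both (mv 494 (both (mv 492 (both (five 1 460 463) (five 0 492 527))) (both (mv 465 (both (five 1 461 496) (mv 463 (both (five 2 461 462) (five 2 462 466))))) (mv 496 (both (five 1 461 465) (mv 527 (both (five 0 492 492) (mv 432 (both (five 6 399 400) (five 6 431 559)))))))))) (both (mv 463 (both (mv 494 (both (five 1 460 492) (mv 465 (both (five 2 461 462) (five 2 462 466))))) (mv 560 (both (mv 527 (both (five 4 431 431) (mv 592 (both (five 4 463 559) (five 7 495 624))))) (both (mv 592 (both (five 7 463 496) (mv 527 (both (five 4 463 559) (five 7 495 624))))) (both (mv 431 (both (five 7 431 496) (five 4 431 527)))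 (mv 496 (both (five 7 431 431) (five 7 463 592))))))))) (mv 496 (both (mv 560 (both (mv 593 (both (five 4 464 561) (mv 592 (both (five 4 496 625) (mv 623 (both (five 6 495 591) (mv 624 (both (five 7 495 527) (five 6 527 655))))))))) (both (mv 431 (both (five 7 431 463) (mv 432 (both (five 7 399 399) (mv 400 (both (five 6 399 527) (mv 401 (both (five 5 368 369) (five 5 400 433))))))))) (mv 592 (both (five 7 463 463) (mv 623 (both (five 6 495 591) (mv 624 (both (five 6 527 655) (mv 625 (both (five 4 496 593) (five 4 528 657)))))))))))) (both (mv 432 (both (mv 399 (both (five 7 399 431) (mv 400 (both (five 7 367 367) (mv 401 (both (five 5 368 369) (five 5 400 433))))))) (both (mv 401 (both (five 5 400 433) (mv 400 (both (five 5 368 369) (mv 368 (both (five 6 367 463) (mv 465 (both (five 1 461 494) (five 4 368 497))))))))) (mv 431 (both (five 7 399 399) (mv 465 (both (five 1 461 494) (mv 430 (both (five 0 429 429) (mv 466 (both (five 3 430 463) (five 3 431 467)))))))))))) (both (mv 465 (both (five 1 461 494) (mv 433 (both (five 5 432 560) (mv 401 (both (five 6 368 369) (five 6 400 497))))))) (mv 494 (both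 (five 1 461 465) (mv 463 (both (five 1 460 492) (mv 431 (both (five 4 399 399) (five 7 431 560))))))))))))))))))) (both (mv 461 (both (mv 557 (both (mv 588 (both (five 6 460 556) (mv 589 (both (five 6 492 620) (mv 590 (both (five 4 461 558) (five 4 493 622))))))) (mv 428 (both (five 7 428 460) (mv 429 (both (five 7 396 396) (mv 430 (both (five 5 397 398) (five 5 429 462))))))))) (both (mv 463 (both (mv 560 (both (mv 431 (both (five 4 431 527) (mv 496 (both (five 4 399 399) (five 7 431 464))))) (both (mv 527 (both (five 4 431 431) (mv 592 (both (five 4 463 559) (five 7 495 624))))) (both (mv 496 (both (five 7 463 592) (mv 431 (both (five 4 399 399) (five 7 431 464))))) (mv 592 (both (five 7 463 496) (mv 527 (both (five 4 463 559) (five 7 495 624))))))))) (both (mv 429 (both (mv 396 (both (five 7 396 428) (mv 397 (both (five 7 364 364) (mv 398 (both (five 5 365 366) (five 5 397 430))))))) (both (mv 398 (both (five 5 397 430) (mv 366 (both (five 5 365 397) (mv 431 (both (five 7 366 399) (mv 527 (both (five 4 431 560) (mv 432 (both (five 5 399 400) (mv 462 (both (five 1 428 460) (mv 433 (both (five 2 430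 434) (five 1 429 464))))))))))))))) (mv 428 (both (five 7 396 396) (mv 462 (both (five 3 428 464) (mv 427 (both (five 0 426 426) (five 3 427 460)))))))))) (both (mv 462 (both (mv 464 (both (five 2 460 492) (mv 429 (both (five 3 428 428) (mv 430 (both (five 5 397 398) (five 3 429 465))))))) (both (mv 460 (both (five 0 460 496) (mv 428 (both (five 3 427 427) (mv 396 (both (five 4 364 364) (five 7 396 429))))))) (mv 460 (both (five 0 460 496) (mv 492 (both (five 2 460 464) (five 2 459 491)))))))) (mv 431 (both (mv 399 (both (five 4 399 496) (mv 366 (both (five 7 366 398) (mv 367 (both (five 7 334 334) (mv 368 (both (five 5 335 336) (five 5 367 400))))))))) (both (mv 527 (both (five 4 431 560) (mv 430 (both (five 7 398 398) (mv 559 (both (five 7 430 462) (mv 590 (both (five 6 462 558) (mv 591 (both (five 6 494 622) (mv 623 (both (five 5 495 496) (mv 624 (both (five 4 527 656) (five 4 495 592))))))))))))))) (both (mv 527 (both (five 4 431 560) (mv 398 (both (five 7 398 430) (mv 399 (both (five 7 366 366) (mv 400 (both (five 5 367 368) (five 5 399 432))))))))) (mv 399 (both (five 4 399 496) (mv 400 (both (five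 5 367 368) (mv 527 (both (five 5 399 432) (five 4 431 560))))))))))))))) (both (mv 557 (both (mv 588 (both (five 6 460 556) (mv 589 (both (five 6 492 620) (mv 590 (both (five 4 461 558) (five 4 493 622))))))) (mv 460 (both (five 7 428 428) (mv 462 (both (five 5 429 430) (mv 463 (both (five 0 460 496) (mv 492 (both (five 2 460 464) (five 2 459 491))))))))))) (both (mv 557 (both (mv 588 (both (five 6 460 556) (mv 589 (both (five 6 492 620) (mv 590 (both (five 4 461 558) (five 4 493 622))))))) (both (mv 460 (both (five 7 428 428) (mv 588 (both (five 6 460 556) (mv 589 (both (five 7 460 492) (five 6 492 620))))))) (both (mv 460 (both (five 7 428 428) (mv 589 (both (five 7 460 492) (mv 590 (both (five 4 461 558) (five 4 493 622))))))) (mv 463 (both (mv 560 (both (mv 431 (both (five 4 431 527) (mv 496 (both (five 4 399 399) (five 7 431 464))))) (both (mv 527 (both (five 4 431 431) (mv 592 (both (five 4 463 559) (five 7 495 624))))) (both (mv 496 (both (five 7 463 592) (mv 431 (both (five 4 399 399) (five 7 431 464))))) (mv 592 (both (five 7 463 496) (mv 527 (both (five 4 463 559) (five 7 495 624))))))))) (both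 (mv 428 (both (five 7 428 460) (mv 396 (both (five 7 396 429) (mv 556 (both (five 6 460 588) (mv 558 (both (five 4 461 590) (mv 559 (both (five 1 524 527) (mv 592 (both (five 0 556 591) (mv 560 (both (five 7 463 496) (five 0 557 593))))))))))))))) (both (mv 428 (both (five 7 428 460) (mv 429 (both (five 7 396 396) (mv 430 (both (five 5 397 398) (mv 431 (both (five 0 428 464) (mv 399 (both (five 1 396 400) (five 4 399 496))))))))))) (mv 428 (both (five 7 428 460) (mv 396 (both (five 7 396 429) (mv 556 (both (five 6 460 588) (mv 558 (both (five 4 461 590) (mv 527 (both (five 1 524 559) (mv 431 (both (five 4 431 560) (mv 398 (both (five 7 398 430) (mv 399 (both (five 7 366 366) (mv 400 (both (five 5 367 368) (five 5 399 432))))))))))))))))))))))))))) (both (mv 557 (both (mv 588 (both (five 6 460 556) (mv 589 (both (five 6 492 620) (mv 590 (both (five 4 461 558) (five 4 493 622))))))) (both (mv 460 (both (five 7 428 428) (mv 588 (both (five 6 460 556) (mv 589 (both (five 7 460 492) (five 6 492 620))))))) (both (mv 460 (both (five 7 428 428) (mv 589 (both (five 7 460 492) (mv 590 (both (five 4 461 558) (five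 4 493 622))))))) (mv 463 (both (mv 460 (both (five 7 428 428) (mv 462 (both (five 0 460 496) (mv 492 (both (five 2 460 464) (five 2 459 491))))))) (both (mv 560 (both (mv 431 (both (five 4 431 527) (mv 496 (both (five 4 399 399) (five 7 431 464))))) (both (mv 527 (both (five 4 431 431) (mv 592 (both (five 4 463 559) (five 7 495 624))))) (both (mv 496 (both (five 7 463 592) (mv 431 (both (five 4 399 399) (five 7 431 464))))) (mv 592 (both (five 7 463 496) (mv 527 (both (five 4 463 559) (five 7 495 624))))))))) (mv 428 (both (five 7 428 460) (mv 396 (both (five 7 396 429) (mv 556 (both (five 6 460 588) (mv 558 (both (five 4 461 590) (mv 527 (both (five 1 524 559) (mv 431 (both (five 4 431 560) (mv 400 (both (five 5 399 432) (mv 399 (both (five 5 367 368) (mv 398 (both (five 7 366 366) (mv 397 (both (five 2 395 427) (mv 364 (both (five 3 363 363) (five 3 364 365)))))))))))))))))))))))))))))) (both (mv 463 (both (mv 560 (both (mv 431 (both (five 4 431 527) (mv 496 (both (five 4 399 399) (five 7 431 464))))) (both (mv 527 (both (five 4 431 431) (mv 592 (both (five 4 463 559) (five 7 495 624))))) (both (mv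 496 (both (five 7 463 592) (mv 431 (both (five 4 399 399) (five 7 431 464))))) (mv 592 (both (five 7 463 496) (mv 527 (both (five 4 463 559) (five 7 495 624))))))))) (both (mv 462 (both (mv 430 (both (five 5 429 557) (mv 398 (both (five 4 366 366) (five 5 397 429))))) (mv 464 (both (five 2 460 492) (mv 432 (both (five 1 429 433) (mv 400 (both (five 6 367 368) (mv 527 (both (five 5 399 431) (five 5 431 559))))))))))) (both (mv 462 (both (mv 430 (both (five 5 429 557) (mv 398 (both (five 4 366 366) (five 5 397 429))))) (mv 464 (both (five 2 460 492) (mv 433 (both (five 1 429 432) (mv 465 (both (five 1 430 434) (mv 496 (both (five 0 461 497) (five 5 432 560))))))))))) (mv 431 (both (mv 399 (both (five 4 399 496) (mv 366 (both (five 7 366 398) (mv 367 (both (five 7 334 334) (mv 368 (both (five 5 335 336) (five 5 367 400))))))))) (both (mv 527 (both (five 4 431 560) (mv 430 (both (five 7 398 398) (mv 559 (both (five 7 430 462) (mv 590 (both (five 6 462 558) (mv 591 (both (five 6 494 622) (mv 623 (both (five 5 495 496) (mv 624 (both (five 4 527 656) (five 4 495 592))))))))))))))) (both (mv 527 (both (five 4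 431 560) (mv 398 (both (five 7 398 430) (mv 399 (both (five 7 366 366) (mv 400 (both (five 5 367 368) (five 5 399 432))))))))) (mv 399 (both (five 4 399 496) (mv 400 (both (five 5 367 368) (mv 527 (both (five 5 399 432) (five 4 431 560))))))))))))))) (mv 429 (both (mv 396 (both (five 7 396 428) (mv 397 (both (five 7 364 364) (mv 398 (both (five 5 365 366) (five 5 397 430))))))) (both (mv 397 (both (mv 396 (both (five 7 364 364) (five 7 396 428))) (both (mv 364 (both (five 7 364 396) (mv 365 (both (five 7 332 332) (mv 366 (both (five 5 333 334) (five 5 365 398))))))) (mv 366 (both (five 5 365 398) (mv 365 (both (five 5 333 334) (mv 460 (both (five 6 364 492) (mv 428 (both (five 6 332 333) (five 7 428 557)))))))))))) (both (mv 430 (both (five 5 397 398) (mv 431 (both (mv 432 (both (five 2 428 460) (mv 400 (both (five 1 397 401) (mv 463 (both (five 5 399 527) (mv 368 (both (five 6 335 336) (five 6 367 464))))))))) (both (mv 462 (both (five 5 429 557) (mv 460 (both (five 1 427 459) (mv 463 (both (five 0 460 496) (mv 492 (both (five 2 460 464) (five 2 459 491))))))))) (both (mv 462 (both (five 5 429 557) (mv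 432 (both (five 2 429 433) (mv 400 (both (five 1 397 401) (mv 463 (both (five 5 399 527) (mv 368 (both (five 6 335 336) (five 6 367 464))))))))))) (mv 432 (both (five 2 428 460) (mv 462 (both (five 2 429 433) (five 5 429 557))))))))))) (mv 428 (both (five 7 396 396) (mv 462 (both (mv 463 (both (five 3 428 464) (mv 496 (both (five 0 460 460) (mv 431 (both (five 4 399 399) (mv 560 (both (five 4 431 527) (five 7 463 592))))))))) (both (mv 557 (both (five 5 429 430) (five 7 428 460))) (mv 426 (both (five 0 426 427) (mv 430 (both (five 5 429 557) (mv 463 (both (five 3 428 464) (mv 527 (both (five 7 430 559) (mv 431 (both (five 4 431 560) (mv 399 (both (five 1 396 400) (five 4 399 496))))))))))))))))))))))))))))) (both (mv 496 (both (mv 464 (both (mv 432 (both (mv 527 (both (five 6 399 400) (five 6 431 559))) (mv 401 (both (five 5 400 433) (mv 431 (both (five 7 399 399) (mv 465 (both (five 1 461 494) (mv 430 (both (five 0 429 429) (mv 466 (both (five 3 430 463) (five 3 431 467))))))))))))) (both (mv 465 (both (five 1 461 494) (mv 433 (both (five 5 432 560) (mv 401 (both (five 6 368 369) (five 6 400 497)))))))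 (mv 560 (both (mv 431 (both (five 7 431 463) (mv 432 (both (five 7 399 399) (mv 559 (both (five 6 431 527) (five 6 463 591))))))) (both (mv 592 (both (five 7 463 463) (mv 623 (both (five 6 495 591) (mv 624 (both (five 6 527 655) (mv 625 (both (five 4 496 593) (five 4 528 657))))))))) (mv 593 (both (five 4 464 561) (mv 592 (both (five 4 496 625) (mv 527 (both (five 7 495 624) (mv 432 (both (five 6 399 400) (five 6 431 559))))))))))))))) (both (mv 461 (both (mv 460 (both (five 3 460 494) (mv 428 (both (five 7 428 557) (mv 396 (both (five 4 364 364) (five 7 396 429))))))) (both (mv 557 (both (mv 588 (both (five 6 460 556) (mv 589 (both (five 6 492 620) (mv 590 (both (five 4 461 558) (five 4 493 622))))))) (mv 430 (both (five 5 429 462) (mv 429 (both (five 5 397 398) (mv 396 (both (five 7 396 428) (mv 397 (both (five 7 364 364) (mv 394 (both (five 0 394 395) (mv 431 (both (five 3 396 432) (mv 463 (both (five 4 399 399) (mv 560 (both (five 4 431 527) (five 7 463 592))))))))))))))))))) (mv 460 (both (five 3 460 494) (mv 463 (both (five 0 460 462) (mv 431 (both (five 4 399 399) (mv 560 (both (five 4 431 527)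 (five 7 463 592)))))))))))) (both (mv 464 (both (mv 560 (both (mv 591 (both (five 6 463 559) (mv 592 (both (five 6 495 623) (mv 593 (both (five 4 464 561) (five 4 496 625))))))) (both (mv 593 (both (five 4 464 561) (mv 592 (both (five 4 496 625) (mv 623 (both (five 6 495 591) (mv 624 (both (five 7 495 527) (five 6 527 655))))))))) (both (mv 593 (both (five 4 464 561) (mv 592 (both (five 4 496 625) (mv 527 (both (five 7 495 624) (mv 432 (both (five 6 399 400) (five 6 431 559))))))))) (mv 559 (both (five 6 463 591) (mv 432 (both (five 6 431 527) (mv 399 (both (five 7 399 431) (mv 400 (both (five 7 367 367) (mv 401 (both (five 5 368 369) (five 5 400 433))))))))))))))) (mv 494 (both (five 1 461 465) (mv 461 (both (five 3 460 460) (mv 462 (both (five 3 461 497) (mv 430 (both (five 6 397 398) (five 5 429 557))))))))))) (both (mv 461 (both (mv 460 (both (five 3 460 494) (mv 428 (both (five 7 428 557) (mv 396 (both (five 4 364 364) (five 7 396 429))))))) (both (mv 557 (both (mv 588 (both (five 6 460 556) (mv 589 (both (five 6 492 620) (mv 590 (both (five 4 461 558) (five 4 493 622))))))) (mv 428 (both (five 7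 428 460) (mv 429 (both (five 7 396 396) (mv 430 (both (five 5 397 398) (five 5 429 462))))))))) (both (mv 557 (both (mv 588 (both (five 6 460 556) (mv 589 (both (five 6 492 620) (mv 590 (both (five 4 461 558) (five 4 493 622))))))) (both (mv 462 (both (five 5 429 430) (mv 494 (both (five 3 461 497) (five 5 461 589))))) (mv 462 (both (five 5 429 430) (mv 494 (both (five 3 461 497) (mv 464 (both (five 1 461 465) (mv 556 (both (five 6 460 588) (mv 558 (both (five 4 461 590) (mv 527 (both (five 1 524 559) (mv 432 (both (five 6 399 400) (mv 433 (both (five 5 400 401) (five 1 429 463)))))))))))))))))))) (mv 494 (both (five 3 460 460) (mv 465 (both (five 1 461 464) (mv 497 (both (five 3 461 462) (five 1 462 466))))))))))) (both (mv 560 (both (mv 464 (both (mv 433 (both (five 5 432 465) (mv 432 (both (five 5 400 401) (mv 559 (both (five 6 431 527) (five 6 463 591))))))) (both (mv 431 (both (five 7 431 463) (mv 432 (both (five 7 399 399) (mv 559 (both (five 6 431 527) (five 6 463 591))))))) (mv 463 (both (five 7 431 431) (mv 465 (both (five 5 432 433) (mv 466 (both (five 2 463 467) (mv 434 (both (five 1 431 435)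 (mv 498 (both (five 0 463 499) (mv 462 (both (five 0 462 497) (mv 429 (both (five 3 429 430) (mv 461 (both (five 3 428 428) (five 0 460 460)))))))))))))))))))) (both (mv 592 (both (mv 623 (both (five 6 495 591) (mv 624 (both (five 6 527 655) (mv 625 (both (five 4 496 593) (five 4 528 657))))))) (both (mv 465 (both (five 5 464 497) (mv 464 (both (five 5 432 433) (mv 593 (both (five 4 464 561) (five 4 496 625))))))) (mv 465 (both (five 5 464 497) (mv 464 (both (five 5 432 433) (mv 591 (both (five 6 463 559) (five 6 495 623)))))))))) (mv 463 (both (five 7 463 592) (mv 431 (both (five 4 399 399) (five 4 431 527)))))))) (both (mv 461 (both (mv 460 (both (five 3 460 494) (mv 428 (both (five 7 428 557) (mv 396 (both (five 4 364 364) (five 7 396 429))))))) (both (mv 557 (both (mv 588 (both (five 6 460 556) (mv 589 (both (five 6 492 620) (mv 590 (both (five 4 461 558) (five 4 493 622))))))) (mv 430 (both (five 5 429 462) (mv 429 (both (five 5 397 398) (mv 396 (both (five 7 396 428) (mv 397 (both (five 7 364 364) (mv 394 (both (five 0 394 395) (mv 431 (both (five 3 396 432) (mv 463 (both (five 4 399 399) (mv 560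 (both (five 7 431 464) (five 7 463 592))))))))))))))))))) (mv 494 (both (five 3 460 460) (mv 465 (both (five 1 461 464) (mv 497 (both (five 3 461 462) (five 1 462 466)))))))))) (both (mv 461 (both (mv 460 (both (five 3 460 494) (mv 428 (both (five 7 428 557) (mv 396 (both (five 4 364 364) (five 7 396 429))))))) (both (mv 557 (both (mv 588 (both (five 6 460 556) (mv 589 (both (five 6 492 620) (mv 590 (both (five 4 461 558) (five 4 493 622))))))) (mv 428 (both (five 7 428 460) (mv 429 (both (five 7 396 396) (mv 430 (both (five 5 397 398) (five 5 429 462))))))))) (both (mv 557 (both (mv 462 (both (five 5 429 430) (mv 494 (both (five 3 461 497) (five 5 461 589))))) (mv 556 (both (five 6 460 588) (mv 558 (both (five 4 461 590) (mv 559 (both (five 1 524 527) (mv 592 (both (five 0 556 591) (mv 560 (both (five 7 463 463) (five 0 557 593))))))))))))) (mv 494 (both (five 3 460 460) (mv 465 (both (five 1 461 464) (mv 497 (both (five 3 461 462) (five 1 462 466))))))))))) (mv 464 (both (mv 560 (both (mv 431 (both (five 7 431 463) (mv 432 (both (five 7 399 399) (mv 559 (both (five 6 431 527) (five 6 463 591)))))))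 (both (mv 592 (both (five 7 463 463) (mv 623 (both (five 6 495 591) (mv 624 (both (five 6 527 655) (mv 625 (both (five 4 496 593) (five 4 528 657))))))))) (mv 593 (both (five 4 464 561) (mv 592 (both (five 4 496 625) (mv 527 (both (five 7 495 624) (mv 432 (both (five 6 399 400) (five 6 431 559)))))))))))) (both (mv 494 (both (five 1 461 465) (mv 461 (both (five 3 460 460) (mv 462 (both (five 3 461 497) (mv 557 (both (five 5 461 589) (mv 556 (both (five 6 460 588) (mv 558 (both (five 4 461 590) (mv 527 (both (five 1 524 559) (mv 432 (both (five 6 399 400) (mv 433 (both (five 5 400 401) (five 1 429 463))))))))))))))))))) (mv 465 (both (five 1 461 494) (mv 433 (both (five 5 432 560) (mv 401 (both (five 6 368 369) (five 6 400 497)))))))))))))))))) (both (ref 3) (both (ref 4) (both (mv 557 (both (mv 589 (both (mv 620 (both (five 6 492 588) (mv 621 (both (five 6 524 652) (mv 622 (both (five 4 493 590) (five 4 525 654))))))) (mv 492 (both (five 7 460 460) (mv 494 (both (five 5 461 462) (five 0 492 527))))))) (both (mv 461 (both (mv 428 (both (five 7 428 460) (mv 429 (both (five 7 396 396) (mv 430 (both (five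 5 397 398) (five 5 429 462))))))) (both (mv 429 (both (mv 430 (both (five 5 397 398) (five 5 429 462))) (both (mv 396 (both (five 7 396 428) (mv 397 (both (five 7 364 364) (mv 366 (both (five 5 365 398) (mv 365 (both (five 5 333 334) (mv 367 (both (five 2 364 368) (mv 394 (both (five 1 362 395) (mv 494 (both (five 4 365 462) (mv 527 (both (five 0 492 492) (mv 556 (both (five 6 460 588) (mv 558 (both (five 1 524 559) (five 4 461 590))))))))))))))))))))) (both (mv 396 (both (five 7 396 428) (mv 397 (both (five 7 364 364) (mv 462 (both (five 5 429 430) (mv 494 (both (five 4 365 365) (mv 527 (both (five 0 492 492) (mv 556 (both (five 6 460 588) (mv 558 (both (five 1 524 559) (five 4 461 590))))))))))))))) (mv 396 (both (five 7 396 428) (mv 397 (both (five 7 364 364) (mv 398 (both (five 5 365 366) (five 5 397 430))))))))))) (both (mv 460 (both (five 7 428 428) (mv 494 (both (five 3 460 496) (mv 492 (both (five 3 459 459) (five 0 492 527))))))) (mv 462 (both (five 5 429 430) (mv 556 (both (five 6 460 588) (mv 558 (both (five 4 461 590) (mv 527 (both (five 1 524 559) (mv 492 (both (five 0 492 494) (mv 491 (both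 (five 1 458 490) (mv 463 (both (five 2 459 460) (mv 431 (both (five 4 431 560) (mv 399 (both (five 4 399 496) (mv 400 (both (five 5 367 368) (five 5 399 432))))))))))))))))))))))))) (both (mv 589 (both (mv 620 (both (five 6 492 588) (mv 621 (both (five 6 524 652) (mv 622 (both (five 4 493 590) (five 4 525 654))))))) (both (mv 460 (both (five 7 460 492) (mv 461 (both (five 7 428 428) (mv 588 (both (five 6 460 556) (five 6 492 620))))))) (mv 460 (both (five 7 460 492) (mv 461 (both (five 7 428 428) (mv 590 (both (five 4 461 558) (five 4 493 622)))))))))) (both (mv 589 (both (mv 620 (both (five 6 492 588) (mv 621 (both (five 6 524 652) (mv 622 (both (five 4 493 590) (five 4 525 654))))))) (both (mv 462 (both (five 5 461 494) (mv 461 (both (five 5 429 430) (mv 588 (both (five 6 460 556) (five 6 492 620))))))) (mv 462 (both (five 5 461 494) (mv 461 (both (five 5 429 430) (mv 590 (both (five 4 461 558) (five 4 493 622)))))))))) (both (mv 461 (both (mv 428 (both (five 7 428 460) (mv 429 (both (five 7 396 396) (mv 430 (both (five 5 397 398) (five 5 429 462))))))) (both (mv 462 (both (five 5 429 430) (mv 494 (both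 (five 5 461 589) (mv 492 (both (five 0 492 527) (mv 491 (both (five 1 459 463) (mv 458 (both (five 3 458 459) (mv 490 (both (five 3 457 457) (mv 522 (both (five 2 489 521) (five 2 490 523))))))))))))))) (mv 460 (both (five 7 428 428) (mv 588 (both (five 6 460 556) (mv 589 (both (five 7 460 492) (five 6 492 620)))))))))) (mv 461 (both (mv 462 (both (five 5 429 430) (mv 589 (both (five 5 461 494) (mv 590 (both (five 4 461 558) (five 4 493 622))))))) (both (mv 460 (both (five 7 428 428) (mv 589 (both (five 7 460 492) (mv 590 (both (five 4 461 558) (five 4 493 622))))))) (mv 428 (both (five 7 428 460) (mv 429 (both (five 7 396 396) (mv 430 (both (five 5 397 398) (five 5 429 462)))))))))))))))) (both (mv 494 (both (mv 496 (both (mv 464 (both (five 1 461 465) (mv 560 (both (mv 591 (both (five 6 463 559) (mv 592 (both (five 6 495 623) (mv 593 (both (five 4 464 561) (five 4 496 625))))))) (both (mv 593 (both (five 4 464 561) (mv 592 (both (five 4 496 625) (mv 623 (both (five 6 495 591) (mv 624 (both (five 7 495 527) (five 6 527 655))))))))) (both (mv 593 (both (five 4 464 561) (mv 592 (both (five 4 496 625) (mv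 527 (both (five 7 495 624) (mv 432 (both (five 6 399 400) (five 6 431 559))))))))) (mv 559 (both (five 6 463 591) (mv 432 (both (five 6 431 527) (mv 399 (both (five 7 399 431) (mv 400 (both (five 7 367 367) (mv 401 (both (five 5 368 369) (five 5 400 433))))))))))))))))) (mv 461 (both (five 3 460 460) (mv 462 (both (five 3 461 497) (mv 430 (both (five 6 397 398) (five 5 429 557))))))))) (both (mv 496 (both (mv 464 (both (five 1 461 465) (mv 463 (both (five 1 460 492) (mv 431 (both (five 4 399 399) (five 7 431 560))))))) (mv 461 (both (five 3 460 460) (mv 462 (both (five 3 461 497) (mv 430 (both (five 6 397 398) (five 5 429 557))))))))) (both (mv 492 (both (five 0 492 527) (mv 460 (both (five 3 459 459) (mv 428 (both (five 4 396 396) (mv 461 (both (five 3 460 496) (five 7 428 557))))))))) (mv 492 (both (five 0 492 527) (mv 463 (both (five 1 460 464) (mv 491 (both (five 1 459 462) (mv 458 (both (five 3 458 459) (mv 490 (both (five 3 457 457) (mv 522 (both (five 2 489 521) (five 2 490 523))))))))))))))))) (both (ref 5) (both (mv 494 (both (mv 496 (both (mv 464 (both (five 1 461 465) (mv 560 (both (mv 591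 (both (five 6 463 559) (mv 592 (both (five 6 495 623) (mv 593 (both (five 4 464 561) (five 4 496 625))))))) (both (mv 593 (both (five 4 464 561) (mv 592 (both (five 4 496 625) (mv 623 (both (five 6 495 591) (mv 624 (both (five 7 495 527) (five 6 527 655))))))))) (both (mv 593 (both (five 4 464 561) (mv 592 (both (five 4 496 625) (mv 527 (both (five 7 495 624) (mv 432 (both (five 6 399 400) (five 6 431 559))))))))) (mv 559 (both (five 6 463 591) (mv 432 (both (five 6 431 527) (mv 399 (both (five 7 399 431) (mv 400 (both (five 7 367 367) (mv 401 (both (five 5 368 369) (five 5 400 433))))))))))))))))) (mv 461 (both (five 3 460 460) (mv 462 (both (five 3 461 497) (mv 430 (both (five 6 397 398) (five 5 429 557))))))))) (both (mv 496 (both (mv 464 (both (five 1 461 465) (mv 463 (both (five 1 460 492) (mv 431 (both (five 4 399 399) (five 7 431 560))))))) (mv 461 (both (five 3 460 460) (mv 462 (both (five 3 461 497) (mv 430 (both (five 6 397 398) (five 5 429 557))))))))) (both (mv 464 (both (mv 492 (both (five 1 460 463) (five 0 492 527))) (both (mv 496 (both (five 1 461 465) (mv 560 (both (mv 431 (both (five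 7 431 463) (mv 432 (both (five 7 399 399) (mv 559 (both (five 6 431 527) (five 6 463 591))))))) (both (mv 592 (both (five 7 463 463) (mv 623 (both (five 6 495 591) (mv 624 (both (five 6 527 655) (mv 625 (both (five 4 496 593) (five 4 528 657))))))))) (mv 593 (both (five 4 464 561) (mv 592 (both (five 4 496 625) (mv 527 (both (five 7 495 624) (mv 432 (both (five 6 399 400) (five 6 431 559)))))))))))))) (both (mv 496 (both (five 1 461 465) (mv 527 (both (five 0 492 492) (mv 432 (both (five 6 399 400) (five 6 431 559))))))) (mv 463 (both (five 1 460 492) (mv 465 (both (five 2 462 466) (five 1 461 496))))))))) (mv 462 (both (mv 430 (both (five 6 397 398) (mv 557 (both (five 5 429 461) (five 5 461 589))))) (mv 492 (both (five 0 492 527) (mv 491 (both (five 1 459 463) (mv 458 (both (five 3 458 459) (mv 490 (both (five 3 457 457) (mv 522 (both (five 2 489 521) (five 2 490 523))))))))))))))))) (both (mv 494 (both (mv 492 (both (five 0 492 527) (mv 459 (both (five 3 459 460) (mv 463 (both (five 1 460 464) (mv 491 (both (five 3 458 458) (five 1 459 462))))))))) (both (mv 496 (both (mv 461 (both (five 3 460 460)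 (mv 462 (both (five 3 461 497) (mv 430 (both (five 6 397 398) (five 5 429 557))))))) (mv 560 (both (mv 464 (both (five 1 461 465) (mv 431 (both (five 7 431 463) (mv 432 (both (five 7 399 399) (mv 400 (both (five 6 399 527) (mv 401 (both (five 5 368 369) (five 5 400 433))))))))))) (both (mv 592 (both (mv 624 (both (five 7 495 527) (mv 625 (both (five 4 496 593) (five 4 528 657))))) (both (mv 623 (both (five 6 495 591) (mv 624 (both (five 6 527 655) (mv 625 (both (five 4 496 593) (five 4 528 657))))))) (both (mv 591 (both (five 6 495 623) (mv 593 (both (five 4 496 625) (mv 464 (both (five 4 464 561) (mv 433 (both (five 5 432 465) (mv 432 (both (five 5 400 401) (mv 399 (both (five 7 399 431) (mv 400 (both (five 7 367 367) (five 6 399 527))))))))))))))) (mv 623 (both (five 6 495 591) (mv 624 (both (five 7 495 527) (five 6 527 655))))))))) (mv 592 (both (five 7 463 463) (mv 623 (both (five 6 495 591) (mv 624 (both (five 6 527 655) (mv 625 (both (five 4 496 593) (five 4 528 657)))))))))))))) (both (mv 496 (both (mv 464 (both (five 1 461 465) (mv 463 (both (five 1 460 492) (mv 431 (both (five 4 399 399) (five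 7 431 560))))))) (mv 461 (both (five 3 460 460) (mv 462 (both (five 3 461 497) (mv 430 (both (five 6 397 398) (five 5 429 557))))))))) (both (mv 492 (both (five 0 492 527) (mv 460 (both (five 3 459 459) (mv 428 (both (five 4 396 396) (mv 461 (both (five 3 460 496) (five 7 428 557))))))))) (mv 492 (both (five 0 492 527) (mv 463 (both (five 1 460 464) (mv 462 (both (five 1 459 491) (mv 430 (both (five 6 397 398) (mv 557 (both (five 5 429 461) (five 5 461 589)))))))))))))))) (mv 461 (both (mv 460 (both (mv 428 (both (five 7 428 557) (mv 396 (both (five 4 364 364) (five 7 396 429))))) (mv 494 (both (five 3 460 496) (mv 459 (both (five 0 458 458) (five 3 459 492))))))) (both (mv 494 (both (mv 460 (both (five 3 460 496) (mv 459 (both (five 0 458 458) (five 0 459 462))))) (both (mv 492 (both (five 0 492 527) (mv 463 (both (five 1 460 464) (mv 491 (both (five 1 459 462) (mv 458 (both (five 3 458 459) (mv 490 (both (five 3 457 457) (mv 522 (both (five 2 489 521) (five 2 490 523))))))))))))) (both (mv 460 (both (five 3 460 496) (mv 492 (both (five 3 459 459) (five 0 492 527))))) (mv 460 (both (five 3 460 496) (mv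 492 (both (five 0 492 527) (mv 428 (both (five 4 396 396) (mv 463 (both (five 1 460 464) (mv 462 (both (five 3 427 427) (five 2 459 491))))))))))))))) (both (mv 557 (both (mv 588 (both (five 6 460 556) (mv 589 (both (five 6 492 620) (mv 590 (both (five 4 461 558) (five 4 493 622))))))) (mv 428 (both (five 7 428 460) (mv 429 (both (five 7 396 396) (mv 430 (both (five 5 397 398) (five 5 429 462))))))))) (mv 557 (both (mv 588 (both (five 6 460 556) (mv 589 (both (five 6 492 620) (mv 590 (both (five 4 461 558) (five 4 493 622))))))) (both (mv 462 (both (five 5 429 430) (mv 494 (both (five 5 461 589) (mv 492 (both (five 0 492 527) (mv 463 (both (five 1 460 464) (five 1 459 491))))))))) (mv 556 (both (five 6 460 588) (mv 558 (both (five 4 461 590) (mv 559 (both (five 1 524 527) (mv 592 (both (five 0 556 591) (mv 560 (both (five 0 557 593) (mv 496 (both (five 7 463 463) (mv 465 (both (five 5 464 497) (mv 464 (both (five 5 432 433) (five 1 461 494)))))))))))))))))))))))))))))))))))))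

theorem L38 : W (S 988530863161101255454148148505632801312661156727406042891648512794071073662266652643294668095351646301915173751338452436331818490997235976069578606837084717056) (S 1139953163509198678326706083866752787003340196975886085116503761168291693532009894641547167830813329314556099871746811720674330612822550097884505409072191683014800588878085361098724437879933708009472) :=
  check_sound (Env.cons L20 (Env.cons L35 (Env.cons L28 (Env.cons L36 (Env.cons L16 (Env.cons L37 Env.nil)))))) (x := 493) (t := tL38) (by decide +kernel)

def tL39 : T :=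
  (both (mv 559 (both (mv 527 (both (mv 461 (both (mv 493 (both (mv 556 (both (five 6 460 588) (mv 429 (both (five 6 428 524) (mv 430 (both (five 5 429 462) (five 5 397 398))))))) (both (mv 556 (both (five 6 460 588) (mv 428 (both (five 7 428 460) (mv 429 (both (five 6 428 524) (five 7 396 396))))))) (mv 460 (both (five 7 428 428) (mv 462 (both (five 5 429 430) (mv 459 (both (five 0 459 494) (mv 490 (both (five 2 458 491) (mv 458 (both (five 2 457 489) (mv 426 (both (five 3 425 425) (five 3 426 427)))))))))))))))) (both (mv 463 (both (mv 560 (both (five 4 463 592) (five 4 431 431))) (both (mv 430 (both (five 7 430 462) (mv 431 (both (five 7 398 398) (mv 399 (both (five 4 399 496) (mv 400 (both (five 5 399 432) (five 5 367 368))))))))) (mv 592 (both (five 4 463 560) (mv 462 (both (five 7 430 430) (mv 496 (both (five 0 460 460) (mv 497 (both (five 3 461 494) (five 3 462 498)))))))))))) (both (mv 493 (both (mv 556 (both (five 6 460 588) (mv 429 (both (five 6 428 524) (mv 396 (both (five 7 396 428) (mv 397 (both (five 7 364 364) (mv 398 (both (five 5 397 430) (five 5 365 366))))))))))) (both (mv 494 (both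 (five 0 492 492) (mv 496 (both (five 2 492 524) (five 3 460 460))))) (mv 588 (both (five 6 460 556) (mv 494 (both (five 0 492 492) (mv 460 (both (five 3 460 496) (five 7 428 428)))))))))) (both (mv 493 (both (mv 556 (both (five 6 460 588) (mv 428 (both (five 7 428 460) (mv 429 (both (five 6 428 524) (five 7 396 396))))))) (both (mv 588 (both (five 6 460 556) (mv 494 (both (five 0 492 492) (mv 496 (both (five 2 492 524) (mv 497 (both (five 3 461 462) (mv 498 (both (five 2 495 499) (mv 466 (both (five 1 462 465) (five 1 463 467))))))))))))) (mv 494 (both (five 0 492 492) (mv 460 (both (five 3 460 496) (five 7 428 428)))))))) (both (mv 493 (both (mv 494 (both (five 0 492 492) (mv 496 (both (five 2 492 524) (mv 497 (both (five 3 461 462) (mv 498 (both (five 2 495 499) (mv 466 (both (five 1 462 465) (five 1 463 467))))))))))) (both (mv 556 (both (five 6 460 588) (mv 429 (both (five 6 428 524) (mv 396 (both (five 7 396 428) (mv 397 (both (five 7 364 364) (mv 398 (both (five 5 397 430) (five 5 365 366))))))))))) (mv 588 (both (five 6 460 556) (mv 430 (both (five 5 429 462) (mv 429 (both (five 5 397 398) (mv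 396 (both (five 7 396 428) (mv 397 (both (five 7 364 364) (mv 431 (both (five 3 396 432) (mv 463 (both (five 4 431 560) (mv 399 (both (five 4 399 496) (mv 368 (both (five 5 367 400) (mv 367 (both (five 5 335 336) (mv 366 (both (five 2 364 365) (five 7 334 334)))))))))))))))))))))))))) (mv 463 (both (mv 560 (both (five 4 463 592) (five 4 431 431))) (both (mv 430 (both (five 7 430 462) (mv 431 (both (five 7 398 398) (mv 399 (both (five 4 399 496) (mv 400 (both (five 5 399 432) (five 5 367 368))))))))) (mv 592 (both (five 4 463 560) (mv 462 (both (five 7 430 430) (mv 460 (both (five 0 460 496) (mv 427 (both (five 3 427 428) (mv 459 (both (five 3 426 426) (mv 491 (both (five 2 458 490) (five 2 459 492)))))))))))))))))))))) (both (mv 494 (both (mv 493 (both (five 0 492 492) (mv 461 (both (mv 496 (both (five 2 492 524) (five 3 460 460))) (both (mv 556 (both (five 6 460 588) (mv 429 (both (five 6 428 524) (mv 396 (both (five 7 396 428) (mv 397 (both (five 7 364 364) (mv 398 (both (five 5 397 430) (five 5 365 366))))))))))) (mv 460 (both (five 3 460 496) (five 7 428 428)))))))) (mv 591 (both (five 7 462 462)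 (mv 622 (both (five 6 494 590) (mv 623 (both (five 6 526 654) (mv 624 (both (five 4 527 656) (five 4 495 592))))))))))) (both (mv 591 (both (mv 462 (both (five 7 462 494) (mv 463 (both (five 7 430 430) (mv 431 (both (five 4 431 560) (mv 399 (both (five 4 399 496) (mv 400 (both (five 5 399 432) (five 5 367 368))))))))))) (both (mv 622 (both (five 6 494 590) (mv 623 (both (five 6 526 654) (mv 655 (both (five 5 527 560) (mv 656 (both (five 4 559 688) (five 4 527 624))))))))) (mv 623 (both (five 5 495 496) (mv 654 (both (five 6 526 622) (mv 655 (both (five 6 558 686) (mv 656 (both (five 4 559 688) (five 4 527 624)))))))))))) (both (mv 591 (both (mv 622 (both (five 6 494 590) (mv 623 (both (five 6 526 654) (five 5 495 496))))) (both (mv 592 (both (five 4 495 624) (mv 593 (both (mv 590 (both (five 6 494 622) (mv 626 (both (five 0 590 625) (mv 594 (both (five 0 591 627) (mv 562 (both (five 1 558 561) (five 1 559 563))))))))) (both (mv 560 (both (five 4 463 463) (mv 625 (both (five 4 496 496) (mv 657 (both (five 7 560 689) (five 7 528 561))))))) (both (mv 590 (both (five 6 494 622) (mv 560 (both (five 4 463 463)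 (mv 594 (both (five 3 559 595) (mv 562 (both (five 1 558 561) (five 1 559 563))))))))) (mv 622 (both (five 6 494 590) (mv 560 (both (five 4 463 463) (mv 625 (both (five 4 496 496) (mv 657 (both (five 7 560 689) (mv 594 (both (five 3 559 595) (mv 626 (both (five 0 591 627) (mv 562 (both (five 1 559 563) (five 6 529 530))))))))))))))))))))) (both (mv 622 (both (five 6 494 590) (mv 623 (both (five 6 526 654) (mv 624 (both (five 4 527 656) (five 4 495 592))))))) (mv 623 (both (five 5 495 496) (mv 655 (both (five 5 527 560) (mv 656 (both (five 4 559 688) (five 4 527 624))))))))))) (mv 591 (both (mv 462 (both (five 7 462 494) (mv 463 (both (five 7 430 430) (mv 560 (both (five 4 463 592) (five 4 431 431))))))) (both (mv 622 (both (five 6 494 590) (mv 623 (both (five 6 526 654) (mv 655 (both (five 5 527 560) (mv 656 (both (five 4 559 688) (five 4 527 624))))))))) (mv 622 (both (five 6 494 590) (mv 623 (both (five 6 526 654) (mv 624 (both (five 4 527 656) (five 4 495 592))))))))))))))) (both (mv 493 (both (mv 461 (both (mv 428 (both (five 7 428 460) (mv 429 (both (five 7 396 396) (mv 430 (both (five 5 429 462)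 (five 5 397 398))))))) (mv 558 (both (five 4 461 590) (mv 524 (both (five 3 524 560) (mv 523 (both (five 3 523 556) (five 0 522 522))))))))) (both (mv 524 (both (mv 558 (both (five 3 524 560) (mv 523 (both (five 3 523 556) (five 0 522 522))))) (both (mv 494 (both (five 2 492 496) (mv 523 (both (five 1 490 522) (five 2 491 492))))) (mv 560 (both (five 3 524 558) (mv 496 (both (five 2 492 494) (mv 592 (both (five 7 463 463) (mv 623 (both (five 6 495 591) (mv 624 (both (five 6 527 655) (mv 625 (both (five 4 496 593) (five 4 528 657)))))))))))))))) (both (mv 461 (both (mv 428 (both (five 7 428 460) (mv 429 (both (five 7 396 396) (mv 430 (both (five 5 429 462) (five 5 397 398))))))) (both (mv 556 (both (five 6 460 588) (mv 429 (both (five 6 428 524) (mv 430 (both (five 5 429 462) (five 5 397 398))))))) (both (mv 556 (both (five 6 460 588) (mv 428 (both (five 7 428 460) (mv 429 (both (five 6 428 524) (five 7 396 396))))))) (mv 588 (both (five 6 460 556) (mv 460 (both (five 7 428 428) (mv 462 (both (five 5 429 430) (mv 459 (both (five 0 459 494) (mv 490 (both (five 2 458 491) (mv 458 (both (five 2 457 489) (mv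 426 (both (five 3 425 425) (five 3 426 427))))))))))))))))))) (both (mv 461 (both (mv 428 (both (five 7 428 460) (mv 429 (both (five 7 396 396) (mv 430 (both (five 5 429 462) (five 5 397 398))))))) (both (mv 556 (both (five 6 460 588) (mv 558 (both (five 4 461 590) (mv 592 (both (five 0 556 591) (mv 560 (both (five 0 557 593) (mv 496 (both (five 7 463 463) (mv 497 (both (five 5 464 465) (mv 462 (both (five 3 461 494) (five 5 429 430))))))))))))))) (mv 588 (both (five 6 460 556) (mv 590 (both (five 4 461 558) (mv 460 (both (five 7 428 428) (mv 494 (both (five 3 460 496) (mv 459 (both (five 3 459 492) (five 0 458 458)))))))))))))) (mv 461 (both (mv 428 (both (five 7 428 460) (mv 429 (both (five 7 396 396) (mv 430 (both (five 5 429 462) (five 5 397 398))))))) (mv 558 (both (five 4 461 590) (mv 524 (both (five 3 524 560) (mv 523 (both (five 0 522 522) (mv 494 (both (five 2 491 492) (five 2 492 496)))))))))))))))) (both (mv 493 (both (mv 461 (both (mv 428 (both (five 7 428 460) (mv 429 (both (five 7 396 396) (mv 430 (both (five 5 429 462) (five 5 397 398))))))) (mv 556 (both (five 6 460 588) (mv 558 (both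 (five 4 461 590) (five 1 524 527))))))) (both (mv 527 (both (mv 558 (both (five 1 524 556) (mv 590 (both (five 6 462 463) (mv 622 (both (five 5 526 654) (five 6 494 591))))))) (both (mv 494 (both (five 0 492 492) (mv 591 (both (five 7 462 462) (mv 622 (both (five 6 494 590) (mv 623 (both (five 6 526 654) (mv 624 (both (five 4 527 656) (five 4 495 592))))))))))) (both (mv 558 (both (five 1 524 556) (mv 492 (both (five 0 492 494) (mv 463 (both (five 6 462 590) (mv 430 (both (five 7 430 462) (mv 431 (both (five 7 398 398) (mv 399 (both (five 4 399 496) (mv 400 (both (five 5 399 432) (five 5 367 368))))))))))))))) (mv 556 (both (five 1 524 558) (mv 494 (both (five 0 492 492) (mv 591 (both (five 7 462 462) (mv 623 (both (five 5 495 496) (mv 654 (both (five 6 526 622) (mv 655 (both (five 6 558 686) (mv 656 (both (five 4 559 688) (five 4 527 624))))))))))))))))))) (both (mv 461 (both (mv 428 (both (five 7 428 460) (mv 429 (both (five 7 396 396) (mv 430 (both (five 5 429 462) (five 5 397 398))))))) (both (mv 556 (both (five 6 460 588) (mv 429 (both (five 6 428 524) (mv 430 (both (five 5 429 462) (five 5 397 398)))))))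 (both (mv 556 (both (five 6 460 588) (mv 428 (both (five 7 428 460) (mv 429 (both (five 6 428 524) (five 7 396 396))))))) (mv 588 (both (five 6 460 556) (mv 460 (both (five 7 428 428) (mv 462 (both (five 5 429 430) (mv 459 (both (five 0 459 494) (mv 490 (both (five 2 458 491) (mv 458 (both (five 2 457 489) (mv 426 (both (five 3 425 425) (five 3 426 427))))))))))))))))))) (both (mv 494 (both (mv 524 (both (five 2 492 496) (mv 523 (both (five 1 490 522) (five 2 491 492))))) (both (mv 496 (both (five 2 492 524) (mv 461 (both (five 3 460 460) (mv 429 (both (mv 396 (both (five 7 396 428) (mv 397 (both (five 7 364 364) (mv 398 (both (five 5 365 366) (five 5 397 430))))))) (both (mv 396 (both (five 7 396 428) (mv 397 (both (five 7 364 364) (mv 462 (both (five 4 365 365) (five 3 461 497))))))) (both (mv 398 (both (five 5 397 430) (mv 397 (both (five 5 365 366) (mv 462 (both (five 4 365 365) (five 3 461 497))))))) (mv 428 (both (five 7 396 396) (mv 430 (both (five 5 397 398) (mv 462 (both (five 3 461 497) (mv 427 (both (five 0 426 426) (five 0 427 463))))))))))))))))) (mv 527 (both (five 0 492 492) (mv 462 (both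 (five 7 462 591) (mv 430 (both (five 5 429 461) (five 6 397 398)))))))))) (mv 461 (both (mv 556 (both (five 6 460 588) (mv 558 (both (five 4 461 590) (five 1 524 527))))) (mv 460 (both (five 7 428 428) (mv 494 (both (five 3 460 496) (mv 459 (both (five 3 459 492) (five 0 458 458)))))))))))))) (both (mv 527 (both (mv 591 (both (mv 590 (both (five 6 494 622) (mv 462 (both (five 7 462 494) (mv 463 (both (five 6 462 558) (five 7 430 430))))))) (mv 623 (both (five 5 495 496) (mv 624 (both (five 4 527 656) (five 4 495 592))))))) (both (mv 591 (both (mv 622 (both (five 6 494 590) (mv 623 (both (five 6 526 654) (five 5 495 496))))) (both (mv 624 (both (five 4 495 592) (mv 590 (both (five 6 494 622) (mv 494 (both (five 7 462 462) (mv 493 (both (five 0 492 492) (mv 558 (both (five 4 461 461) (mv 524 (both (five 3 524 560) (five 2 492 496))))))))))))) (both (mv 623 (both (five 5 495 496) (mv 624 (both (five 4 527 656) (five 4 495 592))))) (mv 622 (both (five 6 494 590) (mv 623 (both (five 6 526 654) (mv 624 (both (five 4 527 656) (five 4 495 592))))))))))) (both (mv 560 (both (mv 592 (both (five 7 495 624) (five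 4 463 463))) (both (mv 558 (both (five 3 524 524) (mv 463 (both (five 6 462 590) (five 4 431 431))))) (mv 592 (both (five 7 495 624) (mv 558 (both (five 0 557 593) (five 3 524 524)))))))) (both (mv 591 (both (mv 462 (both (five 7 462 494) (mv 463 (both (five 7 430 430) (mv 431 (both (five 4 431 560) (mv 399 (both (five 4 399 496) (mv 400 (both (five 5 399 432) (five 5 367 368))))))))))) (both (mv 622 (both (five 6 494 590) (mv 623 (both (five 6 526 654) (mv 655 (both (five 5 527 560) (mv 656 (both (five 4 559 688) (five 4 527 624))))))))) (mv 623 (both (five 5 495 496) (mv 654 (both (five 6 526 622) (mv 655 (both (five 6 558 686) (mv 656 (both (five 4 559 688) (five 4 527 624)))))))))))) (both (mv 591 (both (mv 462 (both (five 7 462 494) (mv 463 (both (five 7 430 430) (mv 560 (both (five 4 463 592) (five 4 431 431))))))) (mv 623 (both (five 5 495 496) (mv 654 (both (five 6 526 622) (mv 655 (both (five 6 558 686) (mv 656 (both (five 4 559 688) (five 4 527 624))))))))))) (mv 463 (both (mv 560 (both (five 4 463 592) (five 4 431 431))) (mv 590 (both (five 6 462 558) (mv 591 (both (five 6 494 622) (mv 462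 (both (five 7 462 494) (five 7 430 430))))))))))))))) (both (mv 527 (both (mv 558 (both (five 1 524 556) (mv 590 (both (five 6 462 463) (mv 622 (both (five 5 526 654) (five 6 494 591))))))) (both (mv 558 (both (five 1 524 556) (mv 463 (both (five 6 462 590) (mv 560 (both (five 4 463 592) (five 4 431 431))))))) (both (mv 591 (both (mv 622 (both (five 6 494 590) (mv 623 (both (five 6 526 654) (five 5 495 496))))) (both (mv 622 (both (five 6 494 590) (mv 624 (both (five 4 495 592) (mv 556 (both (five 1 524 558) (mv 494 (both (five 7 462 462) (mv 493 (both (five 0 492 492) (mv 461 (both (five 6 460 588) (mv 460 (both (five 3 460 496) (five 7 428 428))))))))))))))) (both (mv 623 (both (five 5 495 496) (mv 624 (both (five 4 527 656) (five 4 495 592))))) (mv 622 (both (five 6 494 590) (mv 623 (both (five 6 526 654) (mv 624 (both (five 4 527 656) (five 4 495 592))))))))))) (mv 591 (both (mv 462 (both (five 7 462 494) (mv 463 (both (five 7 430 430) (mv 560 (both (five 4 463 592) (five 4 431 431))))))) (mv 623 (both (five 5 495 496) (mv 654 (both (five 6 526 622) (mv 655 (both (five 6 558 686) (mv 656 (both (five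 4 559 688) (five 4 527 624))))))))))))))) (both (mv 558 (both (mv 556 (both (five 1 524 527) (mv 587 (both (five 2 555 588) (mv 555 (both (five 2 554 586) (mv 523 (both (five 3 522 522) (five 3 523 524))))))))) (both (mv 524 (both (five 3 524 560) (mv 523 (both (five 3 523 556) (five 0 522 522))))) (both (mv 560 (both (five 3 524 524) (mv 592 (both (five 0 557 593) (mv 624 (both (five 7 495 527) (mv 655 (both (five 6 527 623) (mv 656 (both (five 6 559 687) (mv 657 (both (five 4 560 689) (five 4 528 625))))))))))))) (mv 527 (both (five 1 524 556) (mv 463 (both (five 6 462 590) (mv 560 (both (five 4 463 592) (five 4 431 431))))))))))) (both (mv 558 (both (mv 524 (both (five 3 524 560) (mv 523 (both (five 3 523 556) (five 0 522 522))))) (both (mv 590 (both (mv 524 (both (five 3 524 560) (mv 523 (both (five 0 522 522) (mv 493 (both (five 4 461 461) (mv 494 (both (five 2 491 492) (five 2 492 496))))))))) (mv 622 (both (five 7 525 654) (mv 527 (both (five 6 494 591) (five 6 462 463))))))) (mv 527 (both (five 1 524 556) (mv 590 (both (five 6 462 463) (mv 622 (both (five 5 526 654) (five 6 494 591)))))))))) (mv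 558 (both (mv 560 (both (five 3 524 524) (mv 592 (both (five 0 557 593) (mv 624 (both (five 7 495 527) (mv 655 (both (five 6 527 623) (mv 656 (both (five 6 559 687) (mv 657 (both (five 4 560 689) (five 4 528 625))))))))))))) (both (mv 556 (both (five 1 524 527) (mv 587 (both (five 2 555 588) (mv 555 (both (five 2 554 586) (mv 523 (both (five 3 522 522) (five 3 523 524))))))))) (both (mv 592 (both (mv 556 (both (five 0 556 591) (five 1 524 527))) (both (mv 560 (both (five 0 557 593) (mv 624 (both (five 7 495 527) (mv 655 (both (five 6 527 623) (mv 656 (both (five 6 559 687) (mv 657 (both (five 4 560 689) (five 4 528 625))))))))))) (mv 591 (both (five 0 556 556) (mv 593 (both (five 3 558 594) (five 0 557 560)))))))) (mv 524 (both (five 3 524 560) (mv 523 (both (five 3 523 556) (five 0 522 522))))))))))))))))) (both (mv 559 (both (mv 591 (both (mv 527 (both (mv 622 (both (five 6 494 590) (mv 623 (both (five 6 526 654) (five 5 495 496))))) (mv 462 (both (five 7 462 494) (mv 463 (both (five 7 430 430) (mv 560 (both (five 4 463 592) (five 4 431 431))))))))) (both (mv 623 (both (mv 655 (both (five 5 527 560)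 (mv 686 (both (five 6 558 654) (mv 687 (both (five 6 590 718) (mv 688 (both (five 4 591 720) (five 4 559 656))))))))) (both (mv 589 (both (mv 621 (both (mv 620 (both (five 6 524 652) (mv 622 (both (five 4 525 654) (five 1 588 592))))) (both (mv 652 (both (five 6 524 620) (mv 653 (both (five 6 556 684) (mv 524 (both (five 7 524 556) (five 7 492 492))))))) (mv 654 (both (five 4 525 622) (mv 653 (both (five 4 557 686) (mv 524 (both (five 7 524 556) (five 7 492 492)))))))))) (both (mv 590 (both (mv 588 (both (five 0 588 624) (five 1 556 560))) (both (mv 592 (both (five 3 556 556) (mv 560 (both (five 1 557 561) (five 6 495 496))))) (mv 556 (both (five 3 556 592) (mv 555 (both (five 3 555 588) (five 0 554 554)))))))) (both (mv 621 (both (mv 652 (both (five 6 524 620) (mv 653 (both (five 6 556 684) (mv 524 (both (five 7 524 556) (five 7 492 492))))))) (both (mv 654 (both (five 4 525 622) (mv 653 (both (five 4 557 686) (mv 524 (both (five 7 524 556) (five 7 492 492))))))) (mv 652 (both (five 6 524 620) (mv 622 (both (five 4 525 654) (mv 624 (both (five 3 588 588) (mv 657 (both (five 0 621 656) (mv 625 (both (five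 0 622 658) (five 3 589 590)))))))))))))) (mv 621 (both (mv 620 (both (five 6 524 652) (mv 622 (both (five 4 525 654) (five 1 588 592))))) (both (mv 620 (both (five 6 524 652) (mv 590 (both (five 2 588 592) (mv 619 (both (five 1 586 618) (five 2 587 588))))))) (mv 622 (both (five 4 525 654) (mv 624 (both (five 3 588 588) (mv 657 (both (five 0 621 656) (mv 625 (both (five 0 622 658) (five 3 589 590)))))))))))))))) (both (mv 589 (both (mv 621 (both (mv 620 (both (five 6 524 652) (mv 622 (both (five 4 525 654) (five 1 588 592))))) (both (mv 652 (both (five 6 524 620) (mv 653 (both (five 6 556 684) (mv 524 (both (five 7 524 556) (five 7 492 492))))))) (mv 654 (both (five 4 525 622) (mv 653 (both (five 4 557 686) (mv 524 (both (five 7 524 556) (five 7 492 492)))))))))) (both (mv 590 (both (mv 556 (both (five 3 556 592) (mv 555 (both (five 3 555 588) (five 0 554 554))))) (both (mv 592 (both (five 3 556 556) (mv 625 (both (five 0 589 624) (mv 593 (both (five 0 590 626) (mv 594 (both (five 2 590 622) (mv 562 (both (five 1 558 561) (five 1 559 563))))))))))) (mv 624 (both (five 0 588 588) (mv 625 (both (five 3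 589 622) (five 3 590 626)))))))) (both (mv 621 (both (mv 652 (both (five 6 524 620) (mv 653 (both (five 6 556 684) (mv 524 (both (five 7 524 556) (five 7 492 492))))))) (both (mv 524 (both (five 7 492 492) (mv 653 (both (five 7 524 556) (mv 686 (both (five 4 557 654) (mv 685 (both (five 4 589 718) (mv 716 (both (five 6 588 684) (mv 717 (both (five 6 620 748) (mv 714 (both (five 1 682 715) (mv 688 (both (five 2 684 687) (mv 656 (both (five 4 559 655) (mv 624 (both (five 7 591 720) (five 7 559 592))))))))))))))))))))) (mv 620 (both (five 6 524 652) (mv 590 (both (five 2 588 592) (mv 619 (both (five 1 586 618) (five 2 587 588)))))))))) (both (mv 621 (both (mv 652 (both (five 6 524 620) (mv 653 (both (five 6 556 684) (mv 524 (both (five 7 524 556) (five 7 492 492))))))) (both (mv 654 (both (five 4 525 622) (mv 653 (both (five 4 557 686) (mv 524 (both (five 7 524 556) (five 7 492 492))))))) (mv 652 (both (five 6 524 620) (mv 622 (both (five 4 525 654) (mv 624 (both (five 3 588 588) (mv 657 (both (five 0 621 656) (mv 625 (both (five 0 622 658) (five 3 589 590)))))))))))))) (mv 621 (both (mv 620 (both (five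 6 524 652) (mv 622 (both (five 4 525 654) (five 1 588 592))))) (both (mv 620 (both (five 6 524 652) (mv 590 (both (five 2 588 592) (mv 619 (both (five 1 586 618) (five 2 587 588))))))) (mv 622 (both (five 4 525 654) (mv 624 (both (five 3 588 588) (mv 657 (both (five 0 621 656) (mv 625 (both (five 0 622 658) (five 3 589 590))))))))))))))))) (both (mv 655 (both (five 5 527 560) (mv 687 (both (mv 688 (both (five 4 591 720) (five 4 559 656))) (both (mv 718 (both (five 6 590 686) (mv 719 (both (five 6 622 750) (mv 752 (both (five 4 623 720) (mv 751 (both (five 4 655 784) (mv 624 (both (five 5 623 656) (five 5 591 592))))))))))) (both (mv 718 (both (five 6 590 686) (mv 719 (both (five 6 622 750) (mv 720 (both (five 4 623 752) (five 4 591 688))))))) (mv 718 (both (five 6 590 686) (mv 719 (both (five 6 622 750) (mv 656 (both (five 4 559 688) (mv 624 (both (five 5 623 751) (five 5 591 592))))))))))))))) (both (mv 589 (both (mv 590 (both (mv 588 (both (five 0 588 624) (five 1 556 560))) (both (mv 592 (both (five 3 556 556) (mv 560 (both (five 1 557 561) (five 6 495 496))))) (mv 556 (both (five 3 556 592) (mv 555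 (both (five 3 555 588) (five 0 554 554)))))))) (both (mv 621 (both (mv 620 (both (five 6 524 652) (mv 622 (both (five 4 525 654) (five 1 588 592))))) (both (mv 620 (both (five 6 524 652) (mv 590 (both (five 2 588 592) (mv 619 (both (five 1 586 618) (five 2 587 588))))))) (mv 622 (both (five 4 525 654) (mv 624 (both (five 3 588 588) (mv 657 (both (five 0 621 656) (mv 625 (both (five 0 622 658) (five 3 589 590)))))))))))) (both (mv 621 (both (mv 620 (both (five 6 524 652) (mv 622 (both (five 4 525 654) (five 1 588 592))))) (both (mv 652 (both (five 6 524 620) (mv 653 (both (five 6 556 684) (mv 524 (both (five 7 524 556) (five 7 492 492))))))) (both (mv 654 (both (five 4 525 622) (mv 655 (both (five 5 527 560) (mv 688 (both (five 4 559 656) (mv 720 (both (five 4 591 687) (mv 524 (both (five 7 492 492) (mv 653 (both (five 7 524 556) (mv 652 (both (five 6 556 684) (five 1 620 624))))))))))))))) (mv 654 (both (five 4 525 622) (mv 655 (both (five 5 527 560) (mv 656 (both (five 4 559 688) (mv 653 (both (five 3 620 620) (mv 524 (both (five 7 524 556) (five 7 492 492))))))))))))))) (both (mv 621 (both (mv 652 (both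 (five 6 524 620) (mv 653 (both (five 6 556 684) (mv 524 (both (five 7 524 556) (five 7 492 492))))))) (mv 622 (both (five 4 525 654) (mv 624 (both (five 3 588 588) (mv 657 (both (five 0 621 656) (mv 625 (both (five 0 622 658) (five 3 589 590))))))))))) (mv 590 (both (mv 592 (both (five 3 556 556) (mv 621 (both (five 2 588 620) (mv 622 (both (five 4 525 654) (five 2 589 593))))))) (both (mv 588 (both (five 1 556 560) (mv 620 (both (five 2 587 619) (mv 652 (both (five 5 556 684) (five 6 524 621))))))) (mv 588 (both (five 1 556 560) (mv 556 (both (five 3 556 592) (five 3 555 555))))))))))))) (mv 655 (both (five 5 527 560) (mv 686 (both (five 6 558 654) (mv 687 (both (five 6 590 718) (mv 720 (both (five 4 591 688) (mv 719 (both (five 4 623 752) (mv 684 (both (five 0 684 685) (mv 590 (both (five 7 590 622) (mv 592 (both (five 5 591 624) (mv 589 (both (five 3 556 556) (mv 620 (both (five 2 588 621) (mv 588 (both (five 5 556 652) (five 2 587 619))))))))))))))))))))))))))))) (both (mv 590 (both (mv 589 (both (mv 588 (both (five 1 556 560) (mv 556 (both (five 3 556 592) (five 3 555 555))))) (both (mv 588 (both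 (five 1 556 560) (mv 620 (both (five 2 587 619) (mv 652 (both (five 5 556 684) (five 6 524 621))))))) (mv 592 (both (five 3 556 556) (mv 621 (both (five 2 588 620) (mv 622 (both (five 4 525 654) (five 2 589 593)))))))))) (both (mv 592 (both (mv 624 (both (five 4 495 527) (mv 589 (both (five 0 589 625) (five 3 556 556))))) (both (mv 527 (both (five 4 495 624) (mv 462 (both (five 7 462 494) (mv 463 (both (five 7 430 430) (mv 431 (both (five 4 431 560) (mv 399 (both (five 4 399 496) (mv 400 (both (five 5 399 432) (five 5 367 368))))))))))))) (mv 589 (both (five 3 556 556) (mv 560 (both (five 1 556 588) (five 1 557 561)))))))) (both (mv 527 (both (five 6 494 622) (mv 462 (both (five 7 462 494) (mv 463 (both (five 7 430 430) (mv 560 (both (five 4 463 592) (five 4 431 431))))))))) (both (mv 622 (both (five 6 494 527) (mv 654 (both (five 5 558 686) (mv 589 (both (five 4 525 621) (mv 588 (both (five 1 556 560) (mv 619 (both (five 2 587 620) (mv 587 (both (five 2 586 618) (mv 555 (both (five 3 554 554) (five 3 555 556))))))))))))))) (mv 622 (both (five 6 494 527) (mv 654 (both (five 5 558 686) (mv 589 (both (five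 4 525 621) (mv 556 (both (five 3 556 592) (mv 555 (both (five 3 555 588) (five 0 554 554)))))))))))))))) (both (mv 527 (both (mv 622 (both (five 6 494 590) (mv 623 (both (five 6 526 654) (five 5 495 496))))) (both (mv 462 (both (five 7 462 494) (mv 463 (both (five 7 430 430) (mv 431 (both (five 4 431 560) (mv 399 (both (five 4 399 496) (mv 400 (both (five 5 399 432) (five 5 367 368))))))))))) (mv 622 (both (five 6 494 590) (mv 623 (both (five 6 526 654) (mv 655 (both (five 5 527 560) (mv 656 (both (five 4 559 688) (five 4 527 624)))))))))))) (both (mv 589 (both (mv 527 (both (mv 622 (both (five 6 494 590) (mv 623 (both (five 6 526 654) (five 5 495 496))))) (both (mv 590 (both (five 6 494 622) (mv 556 (both (five 3 556 592) (mv 555 (both (five 3 555 588) (five 0 554 554))))))) (mv 623 (both (five 5 495 496) (mv 624 (both (five 4 527 656) (five 4 495 592)))))))) (both (mv 621 (both (mv 652 (both (five 6 524 620) (mv 653 (both (five 6 556 684) (mv 524 (both (five 7 524 556) (five 7 492 492))))))) (both (mv 654 (both (five 4 525 622) (mv 653 (both (five 4 557 686) (mv 524 (both (five 7 524 556) (five 7 492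 492))))))) (mv 620 (both (five 6 524 652) (mv 622 (both (five 4 525 654) (mv 623 (both (five 1 588 592) (mv 588 (both (five 3 588 624) (five 3 587 587)))))))))))) (both (mv 621 (both (mv 524 (both (five 7 492 492) (mv 653 (both (five 7 524 556) (mv 684 (both (five 6 556 652) (mv 685 (both (five 6 588 716) (mv 686 (both (five 4 589 718) (five 4 557 654))))))))))) (both (mv 524 (both (five 7 492 492) (mv 653 (both (five 7 524 556) (mv 686 (both (five 4 557 654) (mv 685 (both (five 4 589 718) (mv 716 (both (five 6 588 684) (mv 717 (both (five 6 620 748) (mv 714 (both (five 1 682 715) (mv 688 (both (five 2 684 687) (mv 620 (both (five 7 588 588) (mv 592 (both (five 2 588 590) (mv 624 (both (five 7 559 656) (five 4 495 527))))))))))))))))))))))) (mv 620 (both (five 6 524 652) (mv 590 (both (five 2 588 592) (mv 619 (both (five 1 586 618) (five 2 587 588)))))))))) (both (mv 621 (both (mv 652 (both (five 6 524 620) (mv 653 (both (five 6 556 684) (mv 654 (both (five 4 557 686) (five 4 525 622))))))) (both (mv 652 (both (five 6 524 620) (mv 653 (both (five 6 556 684) (mv 524 (both (five 7 524 556) (five 7 492 492)))))))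 (both (mv 654 (both (five 4 525 622) (mv 653 (both (five 4 557 686) (mv 524 (both (five 7 524 556) (five 7 492 492))))))) (mv 620 (both (five 6 524 652) (mv 622 (both (five 4 525 654) (mv 619 (both (five 1 587 590) (mv 651 (both (five 2 618 650) (mv 587 (both (five 3 586 586) (mv 524 (both (five 7 492 492) (mv 556 (both (five 6 523 588) (five 5 523 555))))))))))))))))))) (both (mv 527 (both (mv 623 (both (five 5 495 496) (mv 624 (both (five 4 527 656) (five 4 495 592))))) (both (mv 622 (both (five 6 494 590) (mv 623 (both (five 5 495 496) (mv 656 (both (five 4 527 624) (mv 655 (both (five 4 559 688) (mv 657 (both (five 3 622 658) (mv 621 (both (five 0 620 620) (mv 524 (both (five 7 492 492) (mv 653 (both (five 7 524 556) (mv 684 (both (five 6 556 652) (mv 685 (both (five 6 588 716) (mv 686 (both (five 4 589 718) (five 1 652 687))))))))))))))))))))))) (mv 590 (both (five 6 494 622) (mv 556 (both (five 3 556 592) (mv 555 (both (five 3 555 588) (five 0 554 554)))))))))) (both (mv 621 (both (mv 652 (both (five 6 524 620) (mv 653 (both (five 6 556 684) (mv 654 (both (five 4 557 686) (five 4 525 622)))))))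 (both (mv 654 (both (five 4 525 622) (mv 686 (both (five 4 557 653) (mv 623 (both (five 6 558 655) (mv 527 (both (five 5 495 496) (mv 624 (both (five 4 527 656) (mv 590 (both (five 0 588 588) (mv 625 (both (five 3 590 626) (five 0 589 592))))))))))))))) (mv 620 (both (five 6 524 652) (mv 590 (both (five 2 588 592) (mv 619 (both (five 1 586 618) (five 2 587 588)))))))))) (mv 527 (both (mv 622 (both (five 6 494 590) (mv 621 (both (five 4 525 654) (mv 652 (both (five 6 524 620) (mv 653 (both (five 6 556 684) (mv 524 (both (five 7 524 556) (five 7 492 492))))))))))) (mv 623 (both (five 5 495 496) (mv 624 (both (five 4 527 656) (five 4 495 592)))))))))))))) (both (mv 527 (both (mv 623 (both (five 5 495 496) (mv 624 (both (five 4 527 656) (five 4 495 592))))) (both (mv 462 (both (five 7 462 494) (mv 463 (both (five 7 430 430) (mv 560 (both (five 4 463 592) (five 4 431 431))))))) (mv 623 (both (five 5 495 496) (mv 655 (both (five 5 527 560) (mv 656 (both (five 4 559 688) (five 4 527 624)))))))))) (mv 527 (both (mv 462 (both (five 7 462 494) (mv 463 (both (five 7 430 430) (mv 560 (both (five 4 463 592) (five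 4 431 431))))))) (both (mv 622 (both (five 6 494 590) (mv 623 (both (five 6 526 654) (mv 655 (both (five 5 527 560) (mv 656 (both (five 4 559 688) (five 4 527 624))))))))) (mv 622 (both (five 6 494 590) (mv 623 (both (five 6 526 654) (mv 624 (both (five 4 527 656) (five 4 495 592))))))))))))))))) (both (mv 622 (both (mv 527 (both (mv 590 (both (five 6 494 591) (mv 558 (both (five 1 524 556) (five 6 462 463))))) (both (mv 558 (both (five 1 524 556) (mv 463 (both (five 6 462 590) (mv 430 (both (five 7 430 462) (mv 431 (both (five 7 398 398) (mv 399 (both (five 4 399 496) (mv 400 (both (five 5 399 432) (five 5 367 368))))))))))))) (both (mv 591 (both (five 6 494 590) (mv 623 (both (five 5 495 496) (mv 624 (both (five 4 527 656) (five 4 495 592))))))) (mv 623 (both (mv 591 (both (five 5 495 496) (mv 624 (both (five 4 527 656) (five 4 495 592))))) (both (mv 621 (both (mv 620 (both (mv 651 (both (five 2 619 652) (mv 619 (both (five 2 618 650) (mv 587 (both (five 3 586 586) (five 3 587 588))))))) (both (mv 656 (both (five 0 620 655) (mv 624 (both (five 0 621 657) (mv 588 (both (five 3 587 587) (five 3 588 589)))))))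 (mv 652 (both (five 2 619 651) (five 6 524 589)))))) (both (mv 624 (both (mv 653 (both (five 2 620 652) (mv 589 (both (five 3 588 588) (mv 524 (both (five 7 524 556) (five 7 492 492))))))) (mv 657 (both (five 0 621 656) (mv 625 (both (five 0 622 658) (mv 593 (both (five 1 589 592) (five 1 590 594))))))))) (both (mv 624 (both (mv 657 (both (five 0 621 656) (mv 625 (both (five 0 622 658) (mv 593 (both (five 1 589 592) (five 1 590 594))))))) (mv 652 (both (five 2 620 653) (mv 620 (both (five 2 619 651) (mv 588 (both (five 3 587 587) (five 5 524 556))))))))) (both (mv 624 (both (mv 657 (both (five 0 621 656) (mv 625 (both (five 0 622 658) (mv 593 (both (five 1 589 592) (five 1 590 594))))))) (both (mv 589 (both (five 3 588 588) (mv 592 (both (five 1 589 593) (mv 556 (both (five 1 524 558) (mv 524 (both (five 7 524 653) (five 7 492 492))))))))) (mv 656 (both (five 0 621 657) (mv 655 (both (five 0 620 620) (mv 589 (both (five 3 588 588) (mv 556 (both (five 1 524 558) (mv 524 (both (five 7 524 653) (five 7 492 492)))))))))))))) (both (mv 624 (both (mv 657 (both (five 0 621 656) (mv 625 (both (five 0 622 658)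 (mv 593 (both (five 1 589 592) (five 1 590 594))))))) (mv 652 (both (five 2 620 653) (mv 620 (both (five 2 619 651) (five 6 524 589))))))) (mv 620 (both (mv 652 (both (five 2 619 651) (five 6 524 589))) (both (mv 587 (both (five 3 587 588) (mv 619 (both (five 3 586 586) (mv 651 (both (five 2 618 650) (mv 556 (both (five 1 524 558) (mv 524 (both (five 5 523 555) (mv 589 (both (five 7 524 653) (five 7 492 492))))))))))))) (both (mv 651 (both (five 2 619 652) (mv 619 (both (five 2 618 650) (mv 587 (both (five 3 586 586) (five 3 587 588))))))) (mv 652 (both (five 6 524 589) (mv 588 (both (five 3 587 587) (five 5 524 556))))))))))))))) (both (mv 556 (both (five 1 524 558) (mv 620 (both (mv 652 (both (five 5 524 588) (mv 621 (both (five 2 619 651) (five 6 524 589))))) (both (mv 588 (both (five 5 524 652) (mv 524 (both (mv 619 (both (five 6 523 651) (mv 491 (both (five 7 491 523) (mv 492 (both (five 6 491 587) (five 7 459 459))))))) (both (mv 619 (both (five 6 523 651) (mv 591 (both (five 5 495 496) (mv 492 (both (five 6 491 587) (mv 460 (both (five 4 460 589) (five 4 428 428))))))))) (both (mv 591 (both (five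 5 495 496) (mv 491 (both (five 7 491 523) (mv 492 (both (five 7 459 459) (mv 460 (both (five 4 460 589) (five 4 428 428))))))))) (mv 619 (both (five 6 523 651) (mv 591 (both (five 5 495 496) (mv 523 (both (five 7 491 491) (mv 522 (both (five 0 521 521) (mv 554 (both (five 2 521 553) (mv 490 (both (five 3 489 489) (mv 587 (both (five 4 490 586) (five 7 490 555))))))))))))))))))))) (both (mv 591 (both (five 5 495 496) (mv 621 (both (five 1 588 592) (mv 652 (both (five 2 619 651) (five 6 524 589))))))) (both (mv 591 (both (five 5 495 496) (mv 621 (both (five 1 588 592) (mv 655 (both (five 0 620 656) (mv 587 (both (five 3 587 588) (mv 619 (both (five 3 586 586) (mv 651 (both (five 2 618 650) (mv 524 (both (five 5 523 555) (mv 589 (both (five 7 524 653) (five 7 492 492))))))))))))))))) (both (mv 652 (both (five 5 524 588) (mv 621 (both (five 2 619 651) (mv 591 (both (five 1 588 592) (five 5 495 496))))))) (mv 652 (both (five 5 524 588) (mv 621 (both (five 6 524 589) (mv 591 (both (five 1 588 592) (five 5 495 496))))))))))))))) (both (mv 591 (both (five 5 495 496) (mv 624 (both (five 4 527 656) (mv 621 (both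 (mv 652 (both (five 2 620 653) (mv 620 (both (five 2 619 651) (five 6 524 589))))) (both (mv 652 (both (five 2 620 653) (mv 620 (both (five 2 619 651) (mv 588 (both (five 3 587 587) (five 5 524 556))))))) (both (mv 589 (both (five 3 588 588) (mv 556 (both (five 1 524 558) (mv 524 (both (five 7 524 653) (five 7 492 492))))))) (mv 588 (both (five 3 588 589) (mv 620 (both (five 3 587 587) (mv 652 (both (five 2 619 651) (five 5 524 556))))))))))))))) (mv 591 (both (five 5 495 496) (mv 624 (both (five 4 495 592) (mv 621 (both (mv 652 (both (five 2 620 653) (mv 620 (both (five 2 619 651) (five 6 524 589))))) (both (mv 652 (both (five 2 620 653) (mv 620 (both (five 2 619 651) (mv 588 (both (five 3 587 587) (five 5 524 556))))))) (both (mv 589 (both (five 3 588 588) (mv 556 (both (five 1 524 558) (mv 524 (both (five 7 524 653) (five 7 492 492))))))) (mv 588 (both (five 3 588 589) (mv 620 (both (five 3 587 587) (mv 652 (both (five 2 619 651) (five 5 524 556)))))))))))))))))))))))) (both (mv 591 (both (mv 590 (both (five 6 494 527) (mv 654 (both (five 5 558 686) (mv 589 (both (five 4 525 621) (mv 556 (both (five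 3 556 592) (mv 555 (both (five 3 555 588) (five 0 554 554))))))))))) (both (mv 654 (both (mv 686 (both (five 5 558 590) (mv 623 (both (five 5 590 718) (five 6 558 655))))) (both (mv 621 (both (five 4 525 589) (mv 620 (both (mv 619 (both (five 0 619 655) (five 1 587 590))) (both (mv 623 (both (five 1 588 592) (mv 651 (both (five 2 619 652) (mv 656 (both (five 0 620 655) (mv 624 (both (five 0 621 657) (mv 720 (both (five 7 591 688) (mv 625 (both (five 2 621 653) (mv 626 (both (five 3 590 590) (mv 594 (both (five 1 590 593) (five 1 591 595))))))))))))))))) (both (mv 619 (both (five 1 587 590) (mv 618 (both (five 0 618 653) (mv 586 (both (five 3 585 585) (five 3 586 587))))))) (mv 655 (both (five 0 619 619) (mv 656 (both (five 3 620 653) (five 3 621 657))))))))))) (both (mv 623 (both (mv 686 (both (five 5 590 718) (five 6 558 655))) (mv 621 (both (five 4 525 589) (mv 592 (both (five 1 588 620) (mv 593 (both (five 1 589 624) (five 2 590 594))))))))) (mv 589 (both (five 4 525 621) (mv 590 (both (five 7 557 686) (mv 556 (both (five 3 556 592) (mv 555 (both (five 3 555 588) (five 0 554 554))))))))))))) (both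 (mv 623 (both (mv 527 (both (five 6 526 654) (five 5 495 496))) (mv 621 (both (mv 592 (both (five 1 588 620) (mv 593 (both (five 1 589 624) (five 2 590 594))))) (both (mv 624 (both (mv 653 (both (five 2 620 652) (mv 589 (both (five 3 588 588) (mv 524 (both (five 7 524 556) (five 7 492 492))))))) (mv 657 (both (five 0 621 656) (mv 625 (both (five 0 622 658) (mv 593 (both (five 1 589 592) (five 1 590 594))))))))) (both (mv 620 (both (mv 651 (both (five 2 619 652) (mv 619 (both (five 2 618 650) (mv 587 (both (five 3 586 586) (five 3 587 588))))))) (both (mv 656 (both (five 0 620 655) (mv 624 (both (five 0 621 657) (mv 588 (both (five 3 587 587) (five 3 588 589))))))) (mv 652 (both (five 2 619 651) (five 6 524 589)))))) (mv 620 (both (five 1 588 592) (mv 651 (both (five 2 619 652) (mv 619 (both (five 2 618 650) (mv 587 (both (five 3 586 586) (five 3 587 588))))))))))))))) (both (mv 527 (both (five 6 494 590) (mv 623 (both (five 5 495 496) (mv 624 (both (five 4 527 656) (five 4 495 592))))))) (mv 527 (both (five 6 494 590) (mv 623 (both (five 6 526 654) (five 5 495 496)))))))))) (both (mv 654 (both (mv 621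 (both (five 4 525 589) (mv 620 (both (mv 623 (both (mv 592 (both (five 1 588 591) (mv 624 (both (five 1 589 593) (mv 657 (both (five 0 621 656) (mv 625 (both (five 2 621 653) (five 0 622 658))))))))) (mv 652 (both (five 2 619 651) (mv 588 (both (five 3 587 587) (five 5 524 556))))))) (both (mv 655 (both (five 0 619 619) (mv 656 (both (five 3 621 657) (five 0 620 623))))) (mv 619 (both (five 0 619 655) (mv 618 (both (five 0 618 653) (mv 586 (both (five 3 585 585) (five 3 586 587)))))))))))) (both (mv 590 (both (five 7 525 558) (mv 686 (both (five 5 558 591) (mv 717 (both (five 6 589 685) (mv 718 (both (five 6 621 749) (mv 719 (both (five 4 622 751) (five 4 590 687))))))))))) (mv 589 (both (five 4 525 621) (mv 590 (both (five 7 557 686) (five 7 525 558)))))))) (both (mv 621 (both (mv 589 (both (five 4 525 654) (mv 652 (both (five 6 524 620) (mv 653 (both (five 6 556 684) (mv 524 (both (five 7 524 556) (five 7 492 492))))))))) (both (mv 623 (both (mv 624 (both (mv 657 (both (five 0 621 656) (mv 625 (both (five 0 622 658) (mv 593 (both (five 1 589 592) (five 1 590 594))))))) (mv 652 (both (five 2 620 653)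 (mv 620 (both (five 2 619 651) (mv 588 (both (five 3 587 587) (five 5 524 556))))))))) (both (mv 624 (both (mv 653 (both (five 2 620 652) (mv 657 (both (five 0 621 656) (mv 625 (both (five 2 621 654) (five 0 622 658))))))) (both (mv 653 (both (five 2 620 652) (mv 654 (both (five 2 621 625) (mv 591 (both (five 6 526 527) (mv 686 (both (five 5 590 718) (five 6 558 655))))))))) (mv 656 (both (five 0 621 657) (mv 591 (both (five 4 527 527) (mv 688 (both (five 7 591 720) (five 7 559 592)))))))))) (both (mv 620 (both (mv 652 (both (five 2 619 651) (mv 588 (both (five 3 587 587) (five 5 524 556))))) (mv 655 (both (five 0 620 656) (mv 654 (both (five 0 619 619) (mv 591 (both (five 6 558 686) (five 6 526 527))))))))) (mv 591 (both (mv 527 (both (five 6 526 654) (five 5 495 496))) (mv 592 (both (five 1 588 620) (mv 593 (both (five 1 589 624) (five 2 590 594))))))))))) (both (mv 589 (both (mv 652 (both (five 6 524 620) (mv 653 (both (five 6 556 684) (mv 524 (both (five 7 524 556) (five 7 492 492))))))) (both (mv 524 (both (five 7 492 492) (mv 556 (both (five 7 524 653) (mv 558 (both (five 3 523 523) (five 1 524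 527))))))) (mv 620 (both (five 6 524 652) (mv 619 (both (mv 650 (both (five 2 618 651) (mv 618 (both (five 2 617 649) (mv 617 (both (five 1 585 588) (mv 585 (both (five 3 584 584) (five 3 585 586))))))))) (both (mv 650 (both (five 2 618 651) (mv 618 (both (five 2 617 649) (mv 588 (both (five 1 585 617) (mv 623 (both (five 3 588 624) (five 3 587 587))))))))) (both (mv 650 (both (five 2 618 651) (mv 618 (both (five 2 617 649) (mv 586 (both (five 3 585 585) (five 3 586 587))))))) (mv 587 (both (five 3 586 586) (mv 623 (both (five 3 587 588) (mv 656 (both (five 0 620 655) (mv 624 (both (five 0 621 657) (mv 591 (both (five 4 527 527) (mv 688 (both (five 7 591 720) (five 7 559 592)))))))))))))))))))))) (both (mv 589 (both (five 4 525 654) (mv 524 (both (five 7 492 492) (mv 556 (both (five 7 524 653) (mv 558 (both (five 3 523 523) (five 1 524 527))))))))) (mv 589 (both (five 4 525 654) (mv 620 (both (five 6 524 652) (mv 619 (both (mv 650 (both (five 2 618 651) (mv 618 (both (five 2 617 649) (mv 617 (both (five 1 585 588) (mv 585 (both (five 3 584 584) (five 3 585 586))))))))) (both (mv 650 (both (five 2 618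 651) (mv 618 (both (five 2 617 649) (mv 588 (both (five 1 585 617) (mv 623 (both (five 3 588 624) (five 3 587 587))))))))) (both (mv 650 (both (five 2 618 651) (mv 618 (both (five 2 617 649) (mv 586 (both (five 3 585 585) (five 3 586 587))))))) (mv 587 (both (five 3 586 586) (mv 623 (both (five 3 587 588) (mv 656 (both (five 0 620 655) (mv 624 (both (five 0 621 657) (mv 591 (both (five 4 527 527) (mv 688 (both (five 7 591 720) (five 7 559 592)))))))))))))))))))))))))) (both (mv 654 (both (mv 589 (both (five 4 525 621) (mv 590 (both (five 7 557 686) (five 7 525 558))))) (both (mv 621 (both (five 4 525 589) (mv 620 (both (mv 655 (both (five 0 619 619) (mv 656 (both (five 3 620 653) (five 3 621 657))))) (both (mv 623 (both (mv 652 (both (five 2 619 651) (mv 588 (both (five 3 587 587) (five 5 524 556))))) (mv 656 (both (five 0 620 655) (mv 624 (both (five 0 621 657) (mv 625 (both (five 2 621 653) (mv 593 (both (five 1 589 592) (five 1 590 594))))))))))) (both (mv 619 (both (mv 618 (both (five 0 618 653) (mv 586 (both (five 3 585 585) (five 3 586 587))))) (both (mv 650 (both (five 2 618 651) (mv 587 (both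 (five 3 586 586) (mv 588 (both (five 3 587 623) (mv 652 (both (five 5 524 556) (mv 684 (both (five 7 587 716) (five 7 555 555))))))))))) (mv 650 (both (five 2 618 651) (mv 618 (both (five 2 617 649) (five 0 618 653)))))))) (mv 655 (both (five 0 619 619) (mv 656 (both (five 3 621 657) (five 0 620 623))))))))))) (mv 558 (both (five 7 525 590) (mv 556 (both (five 1 524 527) (mv 587 (both (five 2 555 588) (mv 555 (both (five 2 554 586) (mv 523 (both (five 3 522 522) (five 3 523 524)))))))))))))) (both (mv 558 (both (mv 556 (both (five 1 524 527) (mv 587 (both (five 2 555 588) (mv 555 (both (five 2 554 586) (mv 523 (both (five 3 522 522) (five 3 523 524))))))))) (both (mv 590 (both (five 7 525 654) (mv 527 (both (five 6 494 591) (five 6 462 463))))) (mv 556 (both (mv 587 (both (five 2 555 588) (mv 555 (both (five 2 554 586) (mv 523 (both (five 3 522 522) (five 3 523 524))))))) (both (mv 590 (both (five 7 525 654) (mv 591 (both (five 0 556 592) (five 0 555 555))))) (mv 588 (both (five 2 555 587) (mv 620 (both (five 5 524 652) (mv 590 (both (five 7 525 654) (mv 591 (both (five 0 556 592) (mv 619 (both (five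 2 587 589) (mv 524 (both (five 6 523 651) (five 3 523 523))))))))))))))))))) (both (mv 590 (both (mv 527 (both (five 6 494 591) (mv 463 (both (five 6 462 558) (mv 430 (both (five 7 430 462) (mv 431 (both (five 7 398 398) (mv 399 (both (five 4 399 496) (mv 400 (both (five 5 399 432) (five 5 367 368))))))))))))) (both (mv 654 (both (five 7 525 558) (mv 589 (both (five 7 557 686) (five 4 525 621))))) (mv 591 (both (five 6 494 527) (mv 654 (both (five 5 558 686) (mv 621 (both (five 4 525 589) (mv 620 (both (five 1 587 619) (mv 592 (both (five 1 588 623) (five 2 589 593)))))))))))))) (both (mv 558 (both (mv 590 (both (five 7 525 654) (mv 527 (both (five 6 494 591) (five 6 462 463))))) (both (mv 556 (both (five 1 524 527) (mv 587 (both (five 2 555 588) (mv 555 (both (five 2 554 586) (mv 523 (both (five 3 522 522) (five 3 523 524))))))))) (mv 556 (both (mv 590 (both (five 7 525 654) (mv 591 (both (five 0 556 592) (five 0 555 555))))) (both (mv 587 (both (five 2 555 588) (mv 555 (both (five 2 554 586) (mv 523 (both (five 3 522 522) (five 3 523 524))))))) (mv 654 (both (five 7 525 590) (mv 588 (both (five 2 555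 587) (mv 620 (both (five 5 524 652) (mv 591 (both (five 0 556 592) (mv 524 (both (five 3 523 523) (mv 619 (both (five 6 523 651) (mv 621 (both (five 4 524 653) (five 0 619 655))))))))))))))))))))) (both (mv 590 (both (mv 654 (both (five 7 525 558) (mv 589 (both (five 7 557 686) (five 4 525 621))))) (both (mv 527 (both (five 6 494 591) (mv 463 (both (five 6 462 558) (mv 430 (both (five 7 430 462) (mv 431 (both (five 7 398 398) (mv 399 (both (five 4 399 496) (mv 400 (both (five 5 399 432) (five 5 367 368))))))))))))) (mv 591 (both (five 6 494 527) (mv 654 (both (five 5 558 686) (mv 589 (both (five 4 525 621) (mv 556 (both (five 3 556 592) (mv 555 (both (five 3 555 588) (five 0 554 554)))))))))))))) (mv 558 (both (mv 590 (both (five 7 525 654) (mv 527 (both (five 6 494 591) (five 6 462 463))))) (both (mv 556 (both (five 1 524 527) (mv 587 (both (five 2 555 588) (mv 555 (both (five 2 554 586) (mv 523 (both (five 3 522 522) (five 3 523 524))))))))) (mv 556 (both (mv 587 (both (five 2 555 588) (mv 555 (both (five 2 554 586) (mv 523 (both (five 3 522 522) (five 3 523 524))))))) (both (mv 654 (both (five 7 525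 590) (mv 621 (both (five 4 525 589) (mv 588 (both (five 2 555 587) (mv 620 (both (five 5 524 652) (mv 655 (both (five 0 619 619) (mv 656 (both (five 3 620 653) (five 3 621 657))))))))))))) (mv 590 (both (five 7 525 654) (mv 555 (both (five 0 555 591) (mv 523 (both (five 3 522 522) (five 3 523 524))))))))))))))))))))))) (both (mv 558 (both (mv 524 (both (five 3 524 560) (mv 523 (both (five 3 523 556) (five 0 522 522))))) (both (mv 556 (both (mv 587 (both (five 2 555 588) (mv 591 (both (five 0 556 592) (mv 555 (both (five 2 554 586) (five 0 555 590))))))) (both (mv 591 (both (five 0 556 592) (mv 555 (both (five 0 555 590) (mv 523 (both (five 3 522 522) (five 3 523 524))))))) (both (mv 587 (both (five 2 555 588) (mv 555 (both (five 2 554 586) (mv 523 (both (five 3 522 522) (five 3 523 524))))))) (mv 588 (both (five 2 555 587) (mv 620 (both (five 5 524 652) (mv 591 (both (five 0 556 592) (mv 524 (both (five 3 523 523) (mv 651 (both (five 6 523 619) (mv 621 (both (five 4 524 653) (mv 492 (both (five 4 492 589) (mv 459 (both (five 7 459 491) (mv 460 (both (five 7 427 427) (five 4 428 428)))))))))))))))))))))))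 (both (mv 560 (both (mv 589 (both (five 2 556 588) (mv 593 (both (five 0 557 592) (mv 561 (both (five 2 557 590) (five 0 558 594))))))) (both (mv 589 (both (five 2 556 588) (mv 621 (both (mv 652 (both (five 6 524 620) (mv 653 (both (five 6 556 684) (mv 654 (both (five 4 557 686) (five 4 525 622))))))) (both (mv 652 (both (five 6 524 620) (mv 653 (both (five 6 556 684) (mv 590 (both (five 5 557 685) (five 2 557 561))))))) (both (mv 654 (both (five 4 525 622) (mv 653 (both (five 4 557 686) (mv 590 (both (five 5 557 685) (five 2 557 561))))))) (mv 620 (both (five 6 524 652) (mv 622 (both (five 4 525 654) (mv 590 (both (five 2 557 561) (mv 619 (both (five 1 586 618) (five 1 587 591))))))))))))))) (mv 592 (both (five 0 557 593) (mv 591 (both (five 0 556 556) (mv 623 (both (five 5 527 655) (five 6 495 496)))))))))) (mv 560 (both (five 3 524 524) (mv 589 (both (five 2 556 588) (mv 593 (both (five 0 557 592) (mv 561 (both (five 2 557 590) (five 0 558 594))))))))))))) (both (mv 560 (both (mv 558 (both (five 3 524 524) (mv 589 (both (five 2 556 588) (mv 593 (both (five 0 557 592) (mv 561 (both (five 2 557 590)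 (five 0 558 594))))))))) (both (mv 592 (both (mv 624 (both (five 7 495 527) (mv 655 (both (five 6 527 623) (mv 656 (both (five 6 559 687) (mv 657 (both (five 4 560 689) (five 4 528 625))))))))) (both (mv 496 (both (five 7 463 463) (mv 623 (both (five 6 495 591) (mv 624 (both (five 6 527 655) (mv 625 (both (five 4 528 657) (five 4 496 593))))))))) (mv 463 (both (five 4 463 527) (five 7 463 496)))))) (mv 558 (both (five 3 524 524) (mv 589 (both (five 2 556 588) (mv 621 (both (mv 652 (both (five 6 524 620) (mv 653 (both (five 6 556 684) (mv 654 (both (five 4 557 686) (five 4 525 622))))))) (both (mv 652 (both (five 6 524 620) (mv 653 (both (five 6 556 684) (mv 590 (both (five 5 557 685) (five 2 557 561))))))) (both (mv 654 (both (five 4 525 622) (mv 653 (both (five 4 557 686) (mv 590 (both (five 5 557 685) (five 2 557 561))))))) (mv 620 (both (five 6 524 652) (mv 622 (both (five 4 525 654) (mv 590 (both (five 2 557 561) (mv 619 (both (five 1 586 618) (five 1 587 591)))))))))))))))))))) (both (mv 527 (both (mv 558 (both (five 1 524 556) (mv 590 (both (five 6 462 463) (mv 622 (both (five 5 526 654) (five 6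 494 591))))))) (both (mv 591 (both (mv 622 (both (five 6 494 590) (mv 623 (both (five 6 526 654) (five 5 495 496))))) (mv 462 (both (five 7 462 494) (mv 463 (both (five 7 430 430) (mv 560 (both (five 4 463 592) (five 4 431 431))))))))) (both (mv 558 (both (five 1 524 556) (mv 463 (both (five 6 462 590) (mv 560 (both (five 4 463 592) (five 4 431 431))))))) (both (mv 591 (both (mv 622 (both (five 6 494 590) (mv 623 (both (five 6 526 654) (five 5 495 496))))) (both (mv 622 (both (five 6 494 590) (mv 592 (both (five 4 495 624) (mv 558 (both (five 0 556 556) (mv 593 (both (five 3 558 594) (five 0 557 560))))))))) (mv 623 (both (five 5 495 496) (mv 624 (both (five 4 527 656) (five 4 495 592)))))))) (mv 560 (both (mv 592 (both (five 7 495 624) (five 4 463 463))) (both (mv 556 (both (five 1 524 558) (mv 463 (both (five 4 431 431) (mv 462 (both (five 7 430 430) (mv 591 (both (five 7 462 494) (mv 623 (both (five 5 527 655) (five 5 495 496))))))))))) (mv 592 (both (five 7 495 624) (mv 558 (both (five 0 557 593) (mv 588 (both (five 2 556 589) (mv 556 (both (five 2 555 587) (five 0 556 591))))))))))))))))) (both (mv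 558 (both (mv 556 (both (five 1 524 527) (mv 587 (both (five 2 555 588) (mv 555 (both (five 2 554 586) (mv 523 (both (five 3 522 522) (five 3 523 524))))))))) (both (mv 524 (both (five 3 524 560) (mv 523 (both (five 3 523 556) (five 0 522 522))))) (both (mv 560 (both (five 3 524 524) (mv 592 (both (five 0 557 593) (mv 624 (both (five 7 495 527) (mv 655 (both (five 6 527 623) (mv 656 (both (five 6 559 687) (mv 657 (both (five 4 560 689) (five 4 528 625))))))))))))) (mv 527 (both (five 1 524 556) (mv 463 (both (five 6 462 590) (mv 560 (both (five 4 463 592) (five 4 431 431))))))))))) (both (mv 558 (both (mv 556 (both (five 1 524 527) (mv 524 (both (five 3 524 560) (five 3 523 523))))) (both (mv 560 (both (five 3 524 524) (mv 589 (both (five 2 556 588) (mv 621 (both (mv 652 (both (five 6 524 620) (mv 653 (both (five 6 556 684) (mv 654 (both (five 4 557 686) (five 4 525 622))))))) (both (mv 652 (both (five 6 524 620) (mv 653 (both (five 6 556 684) (mv 590 (both (five 5 557 685) (five 2 557 561))))))) (both (mv 654 (both (five 4 525 622) (mv 653 (both (five 4 557 686) (mv 590 (both (five 5 557 685) (five 2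 557 561))))))) (mv 620 (both (five 6 524 652) (mv 622 (both (five 4 525 654) (mv 590 (both (five 2 557 561) (mv 619 (both (five 1 586 618) (five 1 587 591))))))))))))))))) (mv 527 (both (five 1 524 556) (mv 590 (both (five 6 462 463) (mv 622 (both (five 5 526 654) (five 6 494 591)))))))))) (both (mv 558 (both (mv 560 (both (five 3 524 524) (mv 592 (both (five 0 557 593) (mv 624 (both (five 7 495 527) (mv 655 (both (five 6 527 623) (mv 656 (both (five 6 559 687) (mv 657 (both (five 4 560 689) (five 4 528 625))))))))))))) (both (mv 556 (both (five 1 524 527) (mv 587 (both (five 2 555 588) (mv 555 (both (five 2 554 586) (mv 523 (both (five 3 522 522) (five 3 523 524))))))))) (both (mv 592 (both (mv 556 (both (five 0 556 591) (five 1 524 527))) (both (mv 560 (both (five 0 557 593) (mv 624 (both (five 7 495 527) (mv 655 (both (five 6 527 623) (mv 656 (both (five 6 559 687) (mv 657 (both (five 4 560 689) (five 4 528 625))))))))))) (mv 591 (both (five 0 556 556) (mv 593 (both (five 3 558 594) (five 0 557 560)))))))) (mv 524 (both (five 3 524 560) (mv 523 (both (five 3 523 556) (five 0 522 522))))))))) (mv 558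 (both (mv 524 (both (five 3 524 560) (mv 523 (both (five 3 523 556) (five 0 522 522))))) (both (mv 560 (both (five 3 524 524) (mv 592 (both (five 0 557 593) (mv 624 (both (five 7 495 527) (mv 655 (both (five 6 527 623) (mv 656 (both (five 6 559 687) (mv 657 (both (five 4 560 689) (five 4 528 625))))))))))))) (mv 527 (both (five 1 524 556) (mv 590 (both (five 6 462 463) (mv 622 (both (five 5 526 654) (five 6 494 591))))))))))))))))))) (both (mv 493 (both (mv 589 (both (mv 590 (both (five 4 493 622) (mv 461 (both (five 4 461 558) (mv 462 (both (five 5 461 494) (five 5 429 430))))))) (both (mv 588 (both (five 6 492 620) (mv 461 (both (five 6 460 556) (mv 462 (both (five 5 461 494) (five 5 429 430))))))) (mv 620 (both (five 6 492 588) (mv 621 (both (five 6 524 652) (mv 622 (both (five 4 525 654) (five 4 493 590)))))))))) (both (mv 589 (both (mv 492 (both (five 7 460 460) (mv 494 (both (five 0 492 527) (five 5 461 462))))) (mv 620 (both (five 6 492 588) (mv 621 (both (five 6 524 652) (mv 622 (both (five 4 525 654) (five 4 493 590))))))))) (both (mv 461 (both (mv 428 (both (five 7 428 460) (mv 429 (both (five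 7 396 396) (mv 430 (both (five 5 429 462) (five 5 397 398))))))) (both (mv 556 (both (five 6 460 588) (mv 558 (both (five 4 461 590) (mv 559 (both (five 1 524 527) (mv 592 (both (five 0 556 591) (mv 560 (both (five 0 557 593) (mv 496 (both (five 7 463 463) (mv 497 (both (five 5 464 465) (mv 462 (both (five 3 461 494) (five 5 429 430))))))))))))))))) (mv 460 (both (five 7 428 428) (mv 494 (both (five 3 460 496) (mv 459 (both (five 3 459 492) (five 0 458 458)))))))))) (both (mv 461 (both (mv 428 (both (five 7 428 460) (mv 429 (both (five 7 396 396) (mv 430 (both (five 5 429 462) (five 5 397 398))))))) (mv 588 (both (five 6 460 556) (mv 589 (both (five 6 492 620) (mv 590 (both (five 4 493 622) (five 4 461 558))))))))) (both (mv 589 (both (mv 620 (both (five 6 492 588) (mv 621 (both (five 6 524 652) (mv 622 (both (five 4 525 654) (five 4 493 590))))))) (both (mv 588 (both (five 6 492 620) (mv 460 (both (five 7 460 492) (mv 461 (both (five 6 460 556) (five 7 428 428))))))) (mv 590 (both (five 4 493 622) (mv 558 (both (five 4 461 461) (mv 492 (both (five 7 460 460) (mv 527 (both (five 0 492 494) (mv 559 (both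 (five 1 524 556) (five 6 462 463)))))))))))))) (both (mv 461 (both (mv 428 (both (five 7 428 460) (mv 429 (both (five 7 396 396) (mv 430 (both (five 5 429 462) (five 5 397 398))))))) (both (mv 588 (both (five 6 460 556) (mv 589 (both (five 6 492 620) (mv 460 (both (five 7 460 492) (five 7 428 428))))))) (mv 588 (both (five 6 460 556) (mv 589 (both (five 6 492 620) (mv 462 (both (five 5 461 494) (five 5 429 430)))))))))) (mv 461 (both (mv 428 (both (five 7 428 460) (mv 429 (both (five 7 396 396) (mv 430 (both (five 5 429 462) (five 5 397 398))))))) (both (mv 590 (both (five 4 461 558) (mv 589 (both (five 4 493 622) (mv 460 (both (five 7 460 492) (five 7 428 428))))))) (mv 590 (both (five 4 461 558) (mv 589 (both (five 4 493 622) (mv 462 (both (five 5 461 494) (five 5 429 430))))))))))))))))) (both (mv 493 (both (mv 494 (both (mv 524 (both (five 2 492 496) (mv 523 (both (five 1 490 522) (five 2 491 492))))) (mv 462 (both (five 5 461 589) (mv 430 (both (five 5 429 461) (five 6 397 398))))))) (both (mv 494 (both (mv 524 (both (five 2 492 496) (mv 523 (both (five 1 490 522) (five 2 491 492))))) (both (mv 496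 (both (five 2 492 524) (mv 461 (both (five 3 460 460) (mv 429 (both (mv 396 (both (five 7 396 428) (mv 397 (both (five 7 364 364) (mv 398 (both (five 5 365 366) (five 5 397 430))))))) (both (mv 396 (both (five 7 396 428) (mv 397 (both (five 7 364 364) (mv 462 (both (five 4 365 365) (five 3 461 497))))))) (both (mv 398 (both (five 5 397 430) (mv 397 (both (five 5 365 366) (mv 462 (both (five 4 365 365) (five 3 461 497))))))) (mv 428 (both (five 7 396 396) (mv 430 (both (five 5 397 398) (mv 462 (both (five 3 461 497) (mv 427 (both (five 0 426 426) (five 0 427 463))))))))))))))))) (mv 492 (both (five 0 492 527) (mv 459 (both (five 3 459 460) (mv 491 (both (five 3 458 458) (mv 522 (both (five 2 490 523) (mv 521 (both (five 2 489 490) (mv 462 (both (five 1 459 463) (mv 430 (both (five 5 429 461) (five 6 397 398)))))))))))))))))) (both (mv 589 (both (mv 620 (both (five 6 492 588) (mv 621 (both (five 6 524 652) (mv 622 (both (five 4 525 654) (five 4 493 590))))))) (both (mv 620 (both (five 6 492 588) (mv 621 (both (five 6 524 652) (mv 492 (both (five 7 492 524) (five 7 460 460))))))) (both (mv 622 (both (five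 4 493 590) (mv 621 (both (five 4 525 654) (mv 492 (both (five 7 492 524) (five 7 460 460))))))) (mv 620 (both (five 6 492 588) (mv 590 (both (five 4 493 622) (mv 492 (both (five 7 460 460) (mv 461 (both (five 4 461 558) (mv 430 (both (five 5 429 462) (mv 429 (both (five 5 397 398) (mv 396 (both (five 7 396 428) (mv 397 (both (five 6 396 524) (five 7 364 364))))))))))))))))))))) (both (mv 461 (both (mv 428 (both (five 7 428 460) (mv 429 (both (five 7 396 396) (mv 430 (both (five 5 429 462) (five 5 397 398))))))) (both (mv 590 (both (five 4 461 558) (mv 589 (both (five 4 493 622) (mv 620 (both (five 6 492 588) (mv 621 (both (five 6 524 652) (mv 618 (both (five 1 586 619) (mv 592 (both (five 2 588 591) (mv 460 (both (five 7 428 428) (mv 496 (both (five 3 460 494) (mv 560 (both (five 7 463 463) (mv 624 (both (five 7 495 527) (mv 625 (both (five 4 496 593) (five 4 528 657))))))))))))))))))))))) (mv 590 (both (five 4 461 558) (mv 589 (both (five 4 493 622) (mv 462 (both (five 5 461 494) (five 5 429 430)))))))))) (mv 589 (both (mv 620 (both (five 6 492 588) (mv 621 (both (five 6 524 652) (mv 622 (both (five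 4 525 654) (five 4 493 590))))))) (both (mv 620 (both (five 6 492 588) (mv 621 (both (five 6 524 652) (mv 492 (both (five 7 492 524) (five 7 460 460))))))) (both (mv 622 (both (five 4 493 590) (mv 621 (both (five 4 525 654) (mv 492 (both (five 7 492 524) (five 7 460 460))))))) (mv 620 (both (five 6 492 588) (mv 622 (both (five 4 493 590) (mv 492 (both (five 7 460 460) (mv 494 (both (five 0 492 527) (mv 524 (both (five 2 491 523) (five 2 492 496)))))))))))))))))))) (both (mv 493 (both (mv 494 (both (mv 524 (both (five 2 492 496) (mv 523 (both (five 1 490 522) (five 2 491 492))))) (mv 462 (both (five 5 461 589) (mv 430 (both (five 5 429 461) (five 6 397 398))))))) (both (mv 589 (both (mv 620 (both (five 6 492 588) (mv 621 (both (five 6 524 652) (mv 622 (both (five 4 525 654) (five 4 493 590))))))) (mv 494 (both (five 5 461 462) (mv 524 (both (five 2 492 496) (mv 523 (both (five 1 490 522) (five 2 491 492))))))))) (both (mv 461 (both (mv 428 (both (five 7 428 460) (mv 429 (both (five 7 396 396) (mv 430 (both (five 5 429 462) (five 5 397 398))))))) (both (mv 556 (both (five 6 460 588) (mv 429 (both (five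 6 428 524) (mv 430 (both (five 5 429 462) (five 5 397 398))))))) (both (mv 556 (both (five 6 460 588) (mv 428 (both (five 7 428 460) (mv 429 (both (five 6 428 524) (five 7 396 396))))))) (mv 588 (both (five 6 460 556) (mv 460 (both (five 7 428 428) (mv 462 (both (five 5 429 430) (mv 459 (both (five 0 459 494) (mv 490 (both (five 2 458 491) (mv 458 (both (five 2 457 489) (mv 426 (both (five 3 425 425) (five 3 426 427))))))))))))))))))) (both (mv 589 (both (mv 590 (both (five 4 493 622) (mv 461 (both (five 4 461 558) (mv 462 (both (five 5 461 494) (five 5 429 430))))))) (both (mv 588 (both (five 6 492 620) (mv 461 (both (five 6 460 556) (mv 462 (both (five 5 461 494) (five 5 429 430))))))) (mv 620 (both (five 6 492 588) (mv 621 (both (five 6 524 652) (mv 622 (both (five 4 525 654) (five 4 493 590)))))))))) (mv 589 (both (mv 620 (both (five 6 492 588) (mv 621 (both (five 6 524 652) (mv 622 (both (five 4 525 654) (five 4 493 590))))))) (both (mv 622 (both (five 4 493 590) (mv 621 (both (five 4 525 654) (mv 492 (both (five 7 492 524) (five 7 460 460))))))) (mv 588 (both (five 6 492 620) (mv 460 (both (five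 7 460 492) (mv 461 (both (five 6 460 556) (five 7 428 428))))))))))))))) (both (mv 493 (both (mv 589 (both (mv 492 (both (five 7 460 460) (mv 494 (both (five 0 492 527) (five 5 461 462))))) (mv 620 (both (five 6 492 588) (mv 621 (both (five 6 524 652) (mv 622 (both (five 4 525 654) (five 4 493 590))))))))) (both (mv 461 (both (mv 428 (both (five 7 428 460) (mv 429 (both (five 7 396 396) (mv 430 (both (five 5 429 462) (five 5 397 398))))))) (both (mv 556 (both (five 6 460 588) (mv 429 (both (five 6 428 524) (mv 430 (both (five 5 429 462) (five 5 397 398))))))) (both (mv 556 (both (five 6 460 588) (mv 428 (both (five 7 428 460) (mv 429 (both (five 6 428 524) (five 7 396 396))))))) (mv 588 (both (five 6 460 556) (mv 460 (both (five 7 428 428) (mv 462 (both (five 5 429 430) (mv 459 (both (five 0 459 494) (mv 490 (both (five 2 458 491) (mv 458 (both (five 2 457 489) (mv 426 (both (five 3 425 425) (five 3 426 427))))))))))))))))))) (both (mv 589 (both (mv 620 (both (five 6 492 588) (mv 621 (both (five 6 524 652) (mv 622 (both (five 4 525 654) (five 4 493 590))))))) (both (mv 622 (both (five 4 493 590) (mv 621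 (both (five 4 525 654) (mv 492 (both (five 7 492 524) (five 7 460 460))))))) (mv 588 (both (five 6 492 620) (mv 460 (both (five 7 460 492) (mv 461 (both (five 6 460 556) (five 7 428 428)))))))))) (both (mv 589 (both (mv 590 (both (five 4 493 622) (mv 461 (both (five 4 461 558) (mv 462 (both (five 5 461 494) (five 5 429 430))))))) (both (mv 588 (both (five 6 492 620) (mv 461 (both (five 6 460 556) (mv 462 (both (five 5 461 494) (five 5 429 430))))))) (mv 620 (both (five 6 492 588) (mv 621 (both (five 6 524 652) (mv 622 (both (five 4 525 654) (five 4 493 590)))))))))) (mv 461 (both (mv 428 (both (five 7 428 460) (mv 429 (both (five 7 396 396) (mv 430 (both (five 5 429 462) (five 5 397 398))))))) (both (mv 590 (both (five 4 461 558) (mv 589 (both (five 4 493 622) (mv 460 (both (five 7 460 492) (five 7 428 428))))))) (mv 590 (both (five 4 461 558) (mv 589 (both (five 4 493 622) (mv 462 (both (five 5 461 494) (five 5 429 430))))))))))))))) (both (mv 589 (both (mv 621 (both (mv 652 (both (five 6 524 620) (mv 653 (both (five 6 556 684) (mv 654 (both (five 4 557 686) (five 4 525 622))))))) (both (mv 654 (both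 (five 4 525 622) (mv 653 (both (five 4 557 686) (mv 524 (both (five 7 524 556) (five 7 492 492))))))) (mv 620 (both (five 6 524 652) (mv 492 (both (five 7 492 524) (mv 493 (both (five 6 492 588) (five 7 460 460)))))))))) (both (mv 493 (both (mv 588 (both (five 6 492 620) (mv 460 (both (five 7 460 492) (mv 461 (both (five 6 460 556) (five 7 428 428))))))) (both (mv 590 (both (five 4 493 622) (mv 492 (both (five 7 460 460) (mv 461 (both (five 4 461 558) (mv 430 (both (five 5 429 462) (mv 429 (both (five 5 397 398) (mv 396 (both (five 7 396 428) (mv 397 (both (five 6 396 524) (five 7 364 364))))))))))))))) (both (mv 620 (both (five 6 492 588) (mv 590 (both (five 4 493 622) (mv 461 (both (five 4 461 558) (mv 430 (both (five 5 429 462) (mv 429 (both (five 5 397 398) (mv 396 (both (five 7 396 428) (mv 397 (both (five 7 364 364) (mv 524 (both (five 6 396 492) (five 6 428 556))))))))))))))))) (both (mv 620 (both (five 6 492 588) (mv 590 (both (five 4 493 622) (mv 461 (both (five 4 461 558) (mv 428 (both (five 7 428 460) (mv 429 (both (five 7 396 396) (mv 430 (both (five 5 429 462) (five 5 397 398)))))))))))))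 (mv 588 (both (five 6 492 620) (mv 558 (both (mv 587 (both (five 1 554 586) (mv 559 (both (five 1 555 590) (five 2 556 560))))) (both (mv 587 (both (five 1 554 586) (mv 590 (both (five 4 493 622) (mv 618 (both (five 2 586 619) (mv 555 (both (five 3 554 554) (mv 591 (both (five 3 555 556) (mv 623 (both (five 0 588 624) (mv 687 (both (five 7 558 655) (mv 592 (both (five 3 557 593) (mv 560 (both (five 1 557 561) (five 6 495 496))))))))))))))))))) (both (mv 587 (both (five 1 554 586) (mv 559 (both (five 2 555 556) (five 2 556 560))))) (both (mv 590 (both (five 4 493 622) (mv 559 (both (five 2 556 560) (mv 556 (both (five 1 524 527) (mv 591 (both (five 0 556 592) (five 0 555 555))))))))) (mv 622 (both (five 4 493 590) (mv 587 (both (five 1 554 586) (mv 556 (both (five 2 555 559) (mv 492 (both (five 7 460 460) (mv 524 (both (five 6 491 619) (mv 522 (both (five 0 522 523) (mv 491 (both (five 7 459 459) (mv 490 (both (five 2 489 521) (five 0 489 489))))))))))))))))))))))))))))) (both (mv 621 (both (mv 652 (both (five 6 524 620) (mv 653 (both (five 6 556 684) (mv 654 (both (five 4 557 686) (five 4 525 622)))))))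 (both (mv 654 (both (five 4 525 622) (mv 653 (both (five 4 557 686) (mv 524 (both (five 7 524 556) (five 7 492 492))))))) (both (mv 652 (both (five 6 524 620) (mv 653 (both (five 6 556 684) (mv 524 (both (five 7 524 556) (five 7 492 492))))))) (mv 620 (both (five 6 524 652) (mv 619 (both (mv 618 (both (five 1 586 590) (mv 649 (both (five 2 617 650) (mv 617 (both (five 2 616 648) (five 1 585 588))))))) (both (mv 622 (both (five 4 525 654) (mv 651 (both (five 2 618 650) (mv 587 (both (five 3 586 586) (mv 524 (both (five 7 492 492) (mv 556 (both (five 6 523 588) (five 5 523 555))))))))))) (both (mv 618 (both (five 1 586 590) (mv 649 (both (five 2 617 650) (mv 617 (both (five 2 616 648) (mv 585 (both (five 3 584 584) (five 3 585 586))))))))) (mv 618 (both (five 1 586 590) (mv 617 (both (five 1 585 588) (mv 585 (both (five 3 584 584) (five 3 585 586))))))))))))))))) (both (mv 621 (both (mv 652 (both (five 6 524 620) (mv 653 (both (five 6 556 684) (mv 654 (both (five 4 557 686) (five 4 525 622))))))) (both (mv 652 (both (five 6 524 620) (mv 653 (both (five 6 556 684) (mv 524 (both (five 7 524 556) (five 7 492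 492))))))) (both (mv 654 (both (five 4 525 622) (mv 653 (both (five 4 557 686) (mv 524 (both (five 7 524 556) (five 7 492 492))))))) (mv 652 (both (five 6 524 620) (mv 622 (both (five 4 525 654) (mv 492 (both (five 7 492 524) (mv 493 (both (five 4 493 590) (five 7 460 460))))))))))))) (both (mv 493 (both (mv 622 (both (five 4 493 590) (mv 621 (both (five 4 525 654) (mv 492 (both (five 7 492 524) (five 7 460 460))))))) (both (mv 460 (both (five 7 460 492) (mv 461 (both (five 7 428 428) (mv 556 (both (five 6 460 588) (mv 429 (both (five 6 428 524) (mv 430 (both (five 5 429 462) (five 5 397 398))))))))))) (both (mv 590 (both (five 4 493 622) (mv 461 (both (five 4 461 558) (mv 428 (both (five 7 428 460) (mv 429 (both (five 7 396 396) (mv 430 (both (five 5 429 462) (five 5 397 398))))))))))) (mv 622 (both (five 4 493 590) (mv 621 (both (five 4 525 654) (mv 524 (both (five 7 492 492) (mv 556 (both (five 7 524 653) (mv 461 (both (five 6 460 588) (five 6 428 429))))))))))))))) (both (mv 493 (both (mv 460 (both (five 7 460 492) (mv 461 (both (five 7 428 428) (mv 558 (both (five 4 461 590) (mv 430 (both (five 5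 429 462) (mv 429 (both (five 5 397 398) (mv 524 (both (five 6 428 556) (mv 560 (both (five 3 524 559) (mv 522 (both (five 0 522 523) (mv 431 (both (five 2 428 432) (mv 463 (both (five 4 431 527) (mv 496 (both (five 7 463 592) (five 4 399 399))))))))))))))))))))))) (both (mv 588 (both (five 6 492 620) (mv 461 (both (five 6 460 556) (mv 428 (both (five 7 428 460) (mv 429 (both (five 7 396 396) (mv 430 (both (five 5 429 462) (five 5 397 398))))))))))) (both (mv 620 (both (five 6 492 588) (mv 621 (both (five 6 524 652) (mv 524 (both (five 7 492 492) (mv 556 (both (five 7 524 653) (mv 461 (both (five 6 428 429) (mv 558 (both (five 4 461 590) (mv 559 (both (five 3 524 560) (five 3 523 523))))))))))))))) (mv 620 (both (five 6 492 588) (mv 621 (both (five 6 524 652) (mv 492 (both (five 7 492 524) (five 7 460 460))))))))))) (both (mv 621 (both (mv 652 (both (five 6 524 620) (mv 653 (both (five 6 556 684) (mv 654 (both (five 4 557 686) (five 4 525 622))))))) (both (mv 620 (both (five 6 524 652) (mv 492 (both (five 7 492 524) (mv 493 (both (five 6 492 588) (five 7 460 460))))))) (mv 622 (both (five 4 525 654) (mv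 492 (both (five 7 492 524) (mv 493 (both (five 4 493 590) (five 7 460 460)))))))))) (both (mv 493 (both (mv 620 (both (five 6 492 588) (mv 621 (both (five 6 524 652) (mv 622 (both (five 4 525 654) (five 4 493 590))))))) (both (mv 588 (both (five 6 492 620) (mv 460 (both (five 7 460 492) (mv 461 (both (five 6 460 556) (five 7 428 428))))))) (mv 590 (both (five 4 493 622) (mv 461 (both (five 4 461 558) (mv 428 (both (five 7 428 460) (mv 429 (both (five 7 396 396) (mv 430 (both (five 5 429 462) (five 5 397 398)))))))))))))) (mv 621 (both (mv 652 (both (five 6 524 620) (mv 653 (both (five 6 556 684) (mv 654 (both (five 4 557 686) (five 4 525 622))))))) (both (mv 654 (both (five 4 525 622) (mv 653 (both (five 4 557 686) (mv 684 (both (five 6 556 652) (mv 685 (both (five 6 588 716) (mv 556 (both (five 7 556 588) (five 7 524 524))))))))))) (both (mv 652 (both (five 6 524 620) (mv 653 (both (five 6 556 684) (mv 686 (both (five 4 557 654) (mv 685 (both (five 4 589 718) (mv 556 (both (five 7 556 588) (five 7 524 524))))))))))) (both (mv 652 (both (five 6 524 620) (mv 653 (both (five 6 556 684) (mv 556 (both (five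 7 524 524) (mv 588 (both (five 7 556 685) (mv 493 (both (five 6 460 461) (mv 590 (both (five 4 493 622) (mv 591 (both (five 3 556 592) (five 3 555 555))))))))))))))) (both (mv 654 (both (five 4 525 622) (mv 653 (both (five 4 557 686) (mv 556 (both (five 7 524 524) (mv 588 (both (five 7 556 685) (mv 493 (both (five 6 492 620) (five 6 460 461))))))))))) (mv 620 (both (five 6 524 652) (mv 622 (both (five 4 525 654) (mv 493 (both (five 6 492 588) (five 4 493 590)))))))))))))))))))))) (both (mv 493 (both (mv 589 (both (mv 620 (both (five 6 492 588) (mv 621 (both (five 6 524 652) (mv 622 (both (five 4 525 654) (five 4 493 590))))))) (both (mv 620 (both (five 6 492 588) (mv 621 (both (five 6 524 652) (mv 654 (both (five 4 525 622) (mv 653 (both (five 4 557 686) (mv 524 (both (five 7 524 556) (mv 494 (both (five 2 492 496) (five 5 461 462))))))))))))) (both (mv 621 (both (mv 622 (both (five 4 525 654) (five 4 493 590))) (both (mv 494 (both (five 5 461 462) (mv 524 (both (five 2 492 496) (mv 653 (both (five 7 524 556) (mv 684 (both (five 6 556 652) (mv 685 (both (five 6 588 716) (mv 686 (both (five 4 589 718)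 (five 4 557 654))))))))))))) (mv 590 (both (five 4 493 622) (mv 494 (both (five 5 461 462) (mv 524 (both (five 2 492 496) (mv 653 (both (five 7 524 556) (mv 684 (both (five 6 556 652) (mv 685 (both (five 6 588 716) (five 5 557 558)))))))))))))))) (both (mv 558 (both (mv 494 (both (five 5 461 462) (mv 524 (both (five 2 492 496) (mv 559 (both (five 3 524 560) (mv 523 (both (five 3 523 556) (five 0 522 522))))))))) (both (mv 588 (both (five 6 492 620) (mv 587 (both (five 1 554 586) (mv 559 (both (five 1 555 590) (five 2 556 560))))))) (mv 620 (both (five 6 492 588) (mv 621 (both (five 6 524 652) (mv 494 (both (five 5 461 462) (mv 524 (both (five 2 492 496) (mv 653 (both (five 7 524 556) (mv 685 (both (five 5 557 590) (mv 686 (both (five 4 589 718) (five 4 557 654)))))))))))))))))) (mv 558 (both (mv 588 (both (five 6 492 620) (mv 587 (both (five 1 554 586) (mv 559 (both (five 1 555 590) (five 2 556 560))))))) (both (mv 494 (both (five 5 461 462) (mv 524 (both (five 2 492 496) (mv 559 (both (five 3 524 560) (mv 523 (both (five 3 523 556) (five 0 522 522))))))))) (both (mv 588 (both (five 6 492 620) (mv 587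 (both (five 1 554 586) (mv 590 (both (five 4 493 622) (mv 618 (both (five 2 586 619) (mv 555 (both (five 3 554 554) (mv 591 (both (five 3 555 556) (mv 623 (both (five 0 588 624) (mv 687 (both (five 7 558 655) (mv 592 (both (five 3 557 593) (mv 560 (both (five 1 557 561) (five 6 495 496))))))))))))))))))))) (mv 620 (both (five 6 492 588) (mv 590 (both (five 4 493 622) (mv 494 (both (five 5 461 462) (mv 524 (both (five 2 492 496) (mv 523 (both (five 0 522 522) (mv 556 (both (five 3 523 559) (mv 555 (both (five 0 555 591) (five 0 554 554)))))))))))))))))))))))) (both (mv 461 (both (mv 428 (both (five 7 428 460) (mv 429 (both (five 7 396 396) (mv 430 (both (five 5 429 462) (five 5 397 398))))))) (both (mv 556 (both (five 6 460 588) (mv 429 (both (five 6 428 524) (mv 430 (both (five 5 429 462) (five 5 397 398))))))) (both (mv 556 (both (five 6 460 588) (mv 428 (both (five 7 428 460) (mv 429 (both (five 6 428 524) (five 7 396 396))))))) (mv 588 (both (five 6 460 556) (mv 460 (both (five 7 428 428) (mv 462 (both (five 5 429 430) (mv 459 (both (five 0 459 494) (mv 490 (both (five 2 458 491) (mv 458 (both (five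 2 457 489) (mv 426 (both (five 3 425 425) (five 3 426 427))))))))))))))))))) (both (mv 461 (both (mv 428 (both (five 7 428 460) (mv 429 (both (five 7 396 396) (mv 430 (both (five 5 429 462) (five 5 397 398))))))) (mv 588 (both (five 6 460 556) (mv 589 (both (five 6 492 620) (mv 590 (both (five 4 493 622) (five 4 461 558))))))))) (both (mv 461 (both (mv 428 (both (five 7 428 460) (mv 429 (both (five 7 396 396) (mv 430 (both (five 5 429 462) (five 5 397 398))))))) (both (mv 590 (both (five 4 461 558) (mv 589 (both (five 4 493 622) (mv 620 (both (five 6 492 588) (mv 621 (both (five 6 524 652) (mv 618 (both (five 1 586 619) (mv 592 (both (five 2 588 591) (mv 460 (both (five 7 428 428) (mv 496 (both (five 3 460 494) (mv 560 (both (five 7 463 463) (mv 624 (both (five 7 495 527) (mv 625 (both (five 4 496 593) (five 4 528 657))))))))))))))))))))))) (mv 590 (both (five 4 461 558) (mv 589 (both (five 4 493 622) (mv 462 (both (five 5 461 494) (five 5 429 430)))))))))) (both (mv 461 (both (mv 428 (both (five 7 428 460) (mv 429 (both (five 7 396 396) (mv 430 (both (five 5 429 462) (five 5 397 398))))))) (both (mv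 558 (both (five 4 461 590) (mv 428 (both (five 7 428 460) (mv 429 (both (five 7 396 396) (mv 524 (both (five 6 428 556) (mv 560 (both (five 3 524 559) (mv 496 (both (five 2 492 494) (mv 592 (both (five 7 463 463) (mv 623 (both (five 6 495 591) (mv 624 (both (five 6 527 655) (mv 625 (both (five 4 496 593) (five 4 528 657))))))))))))))))))))) (mv 590 (both (five 4 461 558) (mv 589 (both (five 4 493 622) (mv 462 (both (five 5 461 494) (five 5 429 430)))))))))) (mv 461 (both (mv 556 (both (five 6 460 588) (mv 428 (both (five 7 428 460) (mv 429 (both (five 6 428 524) (five 7 396 396))))))) (both (mv 590 (both (five 4 461 558) (mv 589 (both (five 4 493 622) (mv 620 (both (five 6 492 588) (mv 621 (both (five 6 524 652) (mv 618 (both (five 1 586 619) (mv 592 (both (five 2 588 591) (mv 460 (both (five 7 428 428) (mv 496 (both (five 3 460 494) (mv 560 (both (five 7 463 463) (mv 624 (both (five 7 495 527) (mv 625 (both (five 4 496 593) (five 4 528 657))))))))))))))))))))))) (both (mv 558 (both (five 4 461 590) (mv 428 (both (five 7 428 460) (mv 429 (both (five 7 396 396) (mv 524 (both (five 6 428 556) (mv 560 (both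 (five 3 524 559) (mv 496 (both (five 2 492 494) (mv 592 (both (five 7 463 463) (mv 623 (both (five 6 495 591) (mv 624 (both (five 6 527 655) (mv 625 (both (five 4 496 593) (five 4 528 657))))))))))))))))))))) (mv 588 (both (five 6 460 556) (mv 589 (both (five 6 492 620) (mv 590 (both (five 4 493 622) (five 4 461 558))))))))))))))))) (both (mv 493 (both (mv 494 (both (mv 524 (both (five 2 492 496) (mv 523 (both (five 1 490 522) (five 2 491 492))))) (mv 462 (both (five 5 461 589) (mv 430 (both (five 5 429 461) (five 6 397 398))))))) (both (mv 461 (both (mv 428 (both (five 7 428 460) (mv 429 (both (five 7 396 396) (mv 430 (both (five 5 429 462) (five 5 397 398))))))) (both (mv 430 (both (five 5 429 462) (mv 429 (both (five 5 397 398) (mv 396 (both (five 7 396 428) (mv 397 (both (five 7 364 364) (mv 524 (both (five 6 396 492) (five 6 428 556))))))))))) (both (mv 430 (both (five 5 429 462) (mv 429 (both (five 5 397 398) (mv 524 (both (five 6 428 556) (mv 492 (both (five 6 396 397) (mv 589 (both (five 7 492 621) (five 7 460 460))))))))))) (mv 590 (both (five 4 461 558) (mv 589 (both (five 4 493 622) (mv 460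 (both (five 7 460 492) (five 7 428 428))))))))))) (both (mv 494 (both (mv 524 (both (five 2 492 496) (mv 523 (both (five 1 490 522) (five 2 491 492))))) (both (mv 589 (both (five 5 461 462) (mv 622 (both (five 4 493 590) (mv 621 (both (five 4 525 654) (mv 652 (both (five 6 524 620) (mv 653 (both (five 6 556 684) (mv 524 (both (five 7 524 556) (five 2 492 496))))))))))))) (mv 589 (both (five 5 461 462) (mv 492 (both (five 0 492 527) (five 7 460 460)))))))) (both (mv 494 (both (mv 524 (both (five 2 492 496) (mv 523 (both (five 1 490 522) (five 2 491 492))))) (both (mv 496 (both (five 2 492 524) (mv 461 (both (five 3 460 460) (mv 429 (both (mv 396 (both (five 7 396 428) (mv 397 (both (five 7 364 364) (mv 398 (both (five 5 365 366) (five 5 397 430))))))) (both (mv 396 (both (five 7 396 428) (mv 397 (both (five 7 364 364) (mv 462 (both (five 4 365 365) (five 3 461 497))))))) (both (mv 398 (both (five 5 397 430) (mv 397 (both (five 5 365 366) (mv 462 (both (five 4 365 365) (five 3 461 497))))))) (mv 428 (both (five 7 396 396) (mv 430 (both (five 5 397 398) (mv 462 (both (five 3 461 497) (mv 427 (both (five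 0 426 426) (five 0 427 463))))))))))))))))) (mv 492 (both (five 0 492 527) (mv 459 (both (five 3 459 460) (mv 491 (both (five 3 458 458) (mv 522 (both (five 2 490 523) (mv 521 (both (five 2 489 490) (mv 462 (both (five 1 459 463) (mv 430 (both (five 5 429 461) (five 6 397 398)))))))))))))))))) (both (mv 461 (both (mv 428 (both (five 7 428 460) (mv 429 (both (five 7 396 396) (mv 430 (both (five 5 429 462) (five 5 397 398))))))) (both (mv 558 (both (five 4 461 590) (mv 428 (both (five 7 428 460) (mv 429 (both (five 7 396 396) (mv 524 (both (five 6 428 556) (mv 560 (both (five 3 524 559) (mv 496 (both (five 2 492 494) (mv 592 (both (five 7 463 463) (mv 623 (both (five 6 495 591) (mv 624 (both (five 6 527 655) (mv 625 (both (five 4 496 593) (five 4 528 657))))))))))))))))))))) (mv 590 (both (five 4 461 558) (mv 589 (both (five 4 493 622) (mv 462 (both (five 5 461 494) (five 5 429 430)))))))))) (both (mv 461 (both (mv 428 (both (five 7 428 460) (mv 429 (both (five 7 396 396) (mv 430 (both (five 5 429 462) (five 5 397 398))))))) (both (mv 590 (both (five 4 461 558) (mv 589 (both (five 4 493 622) (mv 460 (both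 (five 7 460 492) (five 7 428 428))))))) (mv 590 (both (five 4 461 558) (mv 589 (both (five 4 493 622) (mv 462 (both (five 5 461 494) (five 5 429 430)))))))))) (mv 492 (both (mv 460 (both (five 7 460 589) (mv 428 (both (five 7 428 461) (five 4 396 396))))) (mv 494 (both (five 0 492 527) (mv 524 (both (five 2 491 523) (five 2 492 496)))))))))))))) (both (mv 493 (both (mv 494 (both (mv 524 (both (five 2 492 496) (mv 523 (both (five 1 490 522) (five 2 491 492))))) (mv 462 (both (five 5 461 589) (mv 430 (both (five 5 429 461) (five 6 397 398))))))) (both (mv 461 (both (mv 556 (both (five 6 460 588) (mv 429 (both (five 6 428 524) (mv 430 (both (five 5 429 462) (five 5 397 398))))))) (both (mv 590 (both (five 4 461 558) (mv 430 (both (five 5 429 462) (mv 429 (both (five 5 397 398) (mv 396 (both (five 7 396 428) (mv 397 (both (five 7 364 364) (mv 524 (both (five 6 396 492) (mv 496 (both (five 2 492 494) (mv 431 (both (five 3 396 432) (mv 463 (both (five 4 399 399) (mv 560 (both (five 7 463 592) (five 4 431 527))))))))))))))))))))) (both (mv 590 (both (five 4 461 558) (mv 556 (both (five 6 460 588) (mv 524 (both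 (five 6 428 429) (mv 494 (both (five 2 492 496) (mv 523 (both (five 1 490 522) (five 2 491 492))))))))))) (mv 556 (both (five 6 460 588) (mv 558 (both (five 4 461 590) (mv 559 (both (five 1 524 527) (mv 592 (both (five 0 556 591) (mv 560 (both (five 0 557 593) (mv 496 (both (five 7 463 463) (mv 497 (both (five 5 464 465) (mv 462 (both (five 3 461 494) (five 5 429 430))))))))))))))))))))) (both (mv 589 (both (mv 620 (both (five 6 492 588) (mv 621 (both (five 6 524 652) (mv 622 (both (five 4 525 654) (five 4 493 590))))))) (mv 494 (both (five 5 461 462) (mv 524 (both (five 2 492 496) (mv 523 (both (five 1 490 522) (five 2 491 492))))))))) (both (mv 589 (both (mv 590 (both (five 4 493 622) (mv 461 (both (five 4 461 558) (mv 462 (both (five 5 461 494) (five 5 429 430))))))) (both (mv 588 (both (five 6 492 620) (mv 461 (both (five 6 460 556) (mv 462 (both (five 5 461 494) (five 5 429 430))))))) (mv 620 (both (five 6 492 588) (mv 621 (both (five 6 524 652) (mv 622 (both (five 4 525 654) (five 4 493 590)))))))))) (mv 589 (both (mv 622 (both (five 4 493 590) (mv 621 (both (five 4 525 654) (mv 652 (both (five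 6 524 620) (mv 653 (both (five 6 556 684) (mv 524 (both (five 7 524 556) (five 7 492 492))))))))))) (both (mv 620 (both (five 6 492 588) (mv 621 (both (five 6 524 652) (mv 654 (both (five 4 525 622) (mv 653 (both (five 4 557 686) (mv 524 (both (five 7 524 556) (five 7 492 492))))))))))) (both (mv 622 (both (five 4 493 590) (mv 621 (both (five 4 525 654) (mv 524 (both (five 7 492 492) (mv 556 (both (five 7 524 653) (mv 461 (both (five 6 460 588) (five 6 428 429))))))))))) (both (mv 620 (both (five 6 492 588) (mv 621 (both (five 6 524 652) (mv 524 (both (five 7 492 492) (mv 556 (both (five 7 524 653) (mv 461 (both (five 6 428 429) (mv 558 (both (five 4 461 590) (mv 559 (both (five 3 524 560) (five 3 523 523))))))))))))))) (mv 588 (both (five 6 492 620) (mv 590 (both (five 4 493 622) (mv 558 (both (five 4 461 461) (mv 587 (both (five 1 554 586) (five 1 555 559))))))))))))))))))) (both (mv 493 (both (mv 492 (both (mv 460 (both (five 7 460 589) (mv 428 (both (five 7 428 461) (five 4 396 396))))) (mv 494 (both (five 0 492 527) (mv 524 (both (five 2 491 523) (five 2 492 496))))))) (both (mv 461 (both (mv 556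 (both (five 6 460 588) (mv 428 (both (five 7 428 460) (mv 429 (both (five 6 428 524) (five 7 396 396))))))) (both (mv 556 (both (five 6 460 588) (mv 524 (both (five 6 428 429) (mv 494 (both (five 2 492 496) (mv 523 (both (five 1 490 522) (five 2 491 492))))))))) (mv 460 (both (five 7 428 428) (mv 494 (both (five 3 460 496) (mv 459 (both (five 3 459 492) (five 0 458 458)))))))))) (both (mv 589 (both (mv 620 (both (five 6 492 588) (mv 621 (both (five 6 524 652) (mv 622 (both (five 4 525 654) (five 4 493 590))))))) (both (mv 620 (both (five 6 492 588) (mv 621 (both (five 6 524 652) (mv 492 (both (five 7 492 524) (five 7 460 460))))))) (both (mv 622 (both (five 4 493 590) (mv 621 (both (five 4 525 654) (mv 492 (both (five 7 492 524) (five 7 460 460))))))) (mv 620 (both (five 6 492 588) (mv 622 (both (five 4 493 590) (mv 492 (both (five 7 460 460) (mv 494 (both (five 0 492 527) (mv 524 (both (five 2 491 523) (five 2 492 496))))))))))))))) (both (mv 461 (both (mv 556 (both (five 6 460 588) (mv 428 (both (five 7 428 460) (mv 429 (both (five 6 428 524) (five 7 396 396))))))) (both (mv 590 (both (five 4 461 558)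 (mv 589 (both (five 4 493 622) (mv 620 (both (five 6 492 588) (mv 621 (both (five 6 524 652) (mv 618 (both (five 1 586 619) (mv 592 (both (five 2 588 591) (mv 460 (both (five 7 428 428) (mv 496 (both (five 3 460 494) (mv 560 (both (five 7 463 463) (mv 624 (both (five 7 495 527) (mv 625 (both (five 4 496 593) (five 4 528 657))))))))))))))))))))))) (both (mv 558 (both (five 4 461 590) (mv 428 (both (five 7 428 460) (mv 429 (both (five 7 396 396) (mv 524 (both (five 6 428 556) (mv 560 (both (five 3 524 559) (mv 496 (both (five 2 492 494) (mv 592 (both (five 7 463 463) (mv 623 (both (five 6 495 591) (mv 624 (both (five 6 527 655) (mv 625 (both (five 4 496 593) (five 4 528 657))))))))))))))))))))) (mv 588 (both (five 6 460 556) (mv 589 (both (five 6 492 620) (mv 590 (both (five 4 493 622) (five 4 461 558))))))))))) (both (mv 589 (both (mv 620 (both (five 6 492 588) (mv 621 (both (five 6 524 652) (mv 622 (both (five 4 525 654) (five 4 493 590))))))) (both (mv 588 (both (five 6 492 620) (mv 460 (both (five 7 460 492) (mv 461 (both (five 6 460 556) (five 7 428 428))))))) (mv 590 (both (five 4 493 622) (mv 558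 (both (five 4 461 461) (mv 492 (both (five 7 460 460) (mv 527 (both (five 0 492 494) (mv 559 (both (five 1 524 556) (five 6 462 463)))))))))))))) (mv 589 (both (mv 622 (both (five 4 493 590) (mv 621 (both (five 4 525 654) (mv 652 (both (five 6 524 620) (mv 653 (both (five 6 556 684) (mv 524 (both (five 7 524 556) (five 7 492 492))))))))))) (both (mv 620 (both (five 6 492 588) (mv 621 (both (five 6 524 652) (mv 654 (both (five 4 525 622) (mv 653 (both (five 4 557 686) (mv 524 (both (five 7 524 556) (five 7 492 492))))))))))) (both (mv 622 (both (five 4 493 590) (mv 621 (both (five 4 525 654) (mv 524 (both (five 7 492 492) (mv 556 (both (five 7 524 653) (mv 461 (both (five 6 460 588) (five 6 428 429))))))))))) (both (mv 620 (both (five 6 492 588) (mv 621 (both (five 6 524 652) (mv 524 (both (five 7 492 492) (mv 556 (both (five 7 524 653) (mv 461 (both (five 6 428 429) (mv 558 (both (five 4 461 590) (mv 559 (both (five 3 524 560) (five 3 523 523))))))))))))))) (mv 588 (both (five 6 492 620) (mv 590 (both (five 4 493 622) (mv 558 (both (five 4 461 461) (mv 587 (both (five 1 554 586) (five 1 555 559))))))))))))))))))))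 (both (mv 493 (both (mv 494 (both (mv 524 (both (five 2 492 496) (mv 523 (both (five 1 490 522) (five 2 491 492))))) (mv 462 (both (five 5 461 589) (mv 430 (both (five 5 429 461) (five 6 397 398))))))) (both (mv 492 (both (mv 494 (both (five 0 492 527) (mv 524 (both (five 2 491 523) (five 2 492 496))))) (both (mv 589 (both (five 7 460 460) (mv 620 (both (five 6 492 588) (mv 621 (both (five 6 524 652) (five 7 492 524))))))) (mv 589 (both (five 7 460 460) (mv 494 (both (five 0 492 527) (five 5 461 462)))))))) (both (mv 461 (both (mv 428 (both (five 7 428 460) (mv 429 (both (five 7 396 396) (mv 430 (both (five 5 429 462) (five 5 397 398))))))) (both (mv 556 (both (five 6 460 588) (mv 429 (both (five 6 428 524) (mv 430 (both (five 5 429 462) (five 5 397 398))))))) (mv 588 (both (five 6 460 556) (mv 589 (both (five 6 492 620) (mv 460 (both (five 7 460 492) (five 7 428 428)))))))))) (both (mv 461 (both (mv 556 (both (five 6 460 588) (mv 428 (both (five 7 428 460) (mv 429 (both (five 6 428 524) (five 7 396 396))))))) (both (mv 556 (both (five 6 460 588) (mv 524 (both (five 6 428 429) (mv 494 (both (five 2 492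 496) (mv 523 (both (five 1 490 522) (five 2 491 492))))))))) (mv 460 (both (five 7 428 428) (mv 494 (both (five 3 460 496) (mv 459 (both (five 3 459 492) (five 0 458 458)))))))))) (both (mv 461 (both (mv 428 (both (five 7 428 460) (mv 429 (both (five 7 396 396) (mv 430 (both (five 5 429 462) (five 5 397 398))))))) (both (mv 556 (both (five 6 460 588) (mv 428 (both (five 7 428 460) (mv 429 (both (five 6 428 524) (five 7 396 396))))))) (mv 588 (both (five 6 460 556) (mv 589 (both (five 6 492 620) (mv 462 (both (five 5 461 494) (five 5 429 430)))))))))) (mv 461 (both (mv 428 (both (five 7 428 460) (mv 429 (both (five 7 396 396) (mv 430 (both (five 5 429 462) (five 5 397 398))))))) (both (mv 588 (both (five 6 460 556) (mv 589 (both (five 6 492 620) (mv 460 (both (five 7 460 492) (five 7 428 428))))))) (mv 588 (both (five 6 460 556) (mv 589 (both (five 6 492 620) (mv 462 (both (five 5 461 494) (five 5 429 430)))))))))))))))) (mv 493 (both (mv 494 (both (mv 524 (both (five 2 492 496) (mv 523 (both (five 1 490 522) (five 2 491 492))))) (both (mv 492 (both (five 0 492 527) (mv 459 (both (five 3 459 460) (mv 491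 (both (five 3 458 458) (mv 522 (both (five 2 490 523) (mv 521 (both (five 2 489 490) (mv 462 (both (five 1 459 463) (mv 430 (both (five 5 429 461) (five 6 397 398))))))))))))))) (mv 496 (both (five 2 492 524) (mv 461 (both (five 3 460 460) (mv 462 (both (five 3 461 497) (five 5 429 430)))))))))) (both (mv 589 (both (mv 622 (both (five 4 493 590) (mv 621 (both (five 4 525 654) (mv 652 (both (five 6 524 620) (mv 653 (both (five 6 556 684) (mv 524 (both (five 7 524 556) (five 7 492 492))))))))))) (both (mv 620 (both (five 6 492 588) (mv 621 (both (five 6 524 652) (mv 654 (both (five 4 525 622) (mv 653 (both (five 4 557 686) (mv 524 (both (five 7 524 556) (five 7 492 492))))))))))) (both (mv 622 (both (five 4 493 590) (mv 621 (both (five 4 525 654) (mv 524 (both (five 7 492 492) (mv 556 (both (five 7 524 653) (mv 461 (both (five 6 460 588) (five 6 428 429))))))))))) (both (mv 620 (both (five 6 492 588) (mv 621 (both (five 6 524 652) (mv 524 (both (five 7 492 492) (mv 556 (both (five 7 524 653) (mv 461 (both (five 6 428 429) (mv 558 (both (five 4 461 590) (mv 559 (both (five 3 524 560) (five 3 523 523)))))))))))))))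 (mv 588 (both (five 6 492 620) (mv 590 (both (five 4 493 622) (mv 558 (both (five 4 461 461) (mv 587 (both (five 1 554 586) (five 1 555 559)))))))))))))) (both (mv 589 (both (mv 492 (both (five 7 460 460) (mv 494 (both (five 0 492 527) (five 5 461 462))))) (mv 620 (both (five 6 492 588) (mv 621 (both (five 6 524 652) (mv 622 (both (five 4 525 654) (five 4 493 590))))))))) (mv 589 (both (mv 590 (both (five 4 493 622) (mv 461 (both (five 4 461 558) (mv 462 (both (five 5 461 494) (five 5 429 430))))))) (both (mv 588 (both (five 6 492 620) (mv 461 (both (five 6 460 556) (mv 462 (both (five 5 461 494) (five 5 429 430))))))) (mv 620 (both (five 6 492 588) (mv 621 (both (five 6 524 652) (mv 622 (both (five 4 525 654) (five 4 493 590))))))))))))))))))))))))))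

theorem L39 : W (S 988530863161101255454148148505632801312661156727406042891648512794071073662266652643294668095351646301915173751338452436331818490997235976069578606837084717056) (S 101745825742917756326748274206782247348330168471749145527815637427137593977732209483436458382709430721816397862632937536844658049159084484689197488257410779937392272796498369863552184644168387580357189891351365026680260220858547467976704) :=
  check_sound Env.nil (x := 557) (t := tL39) (by decide +kernel)

def tL40 : T :=
  (both (mv 557 (both (mv 588 (both (five 6 460 556) (mv 589 (both (five 6 492 620) (mv 590 (both (five 4 461 558) (five 4 493 622))))))) (both (mv 462 (both (five 5 429 430) (mv 589 (both (five 5 461 494) (mv 590 (both (five 4 461 558) (five 4 493 622))))))) (mv 430 (both (five 5 429 462) (mv 429 (both (five 5 397 398) (mv 556 (both (five 6 428 524) (five 6 460 588)))))))))) (both (mv 557 (both (mv 588 (both (five 6 460 556) (mv 589 (both (five 6 492 620) (mv 590 (both (five 4 461 558) (five 4 493 622))))))) (both (mv 590 (both (five 4 461 558) (mv 589 (both (five 4 493 622) (mv 492 (both (five 7 460 460)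 (mv 620 (both (five 6 492 588) (mv 621 (both (five 7 492 524) (five 6 524 652))))))))))) (both (mv 430 (both (five 5 429 462) (mv 429 (both (five 5 397 398) (mv 524 (both (five 6 428 556) (mv 492 (both (five 6 396 397) (mv 589 (both (five 7 492 621) (mv 590 (both (five 4 461 558) (five 4 493 622))))))))))))) (mv 430 (both (five 5 429 462) (mv 429 (both (five 5 397 398) (mv 556 (both (five 6 428 524) (five 6 460 588))))))))))) (both (mv 524 (both (mv 494 (both (five 2 492 496) (mv 523 (both (five 2 491 492) (five 1 490 522))))) (both (mv 429 (both (five 6 428 556) (mv 397 (both (five 6 396 492) (mv 398 (both (five 5 365 366) (five 5 397 430))))))) (mv 429 (both (five 6 428 556) (mv 398 (both (five 5 397 430) (mv 397 (both (five 5 365 366) (mv 364 (both (five 7 364 396) (mv 365 (both (five 7 332 332) (mv 494 (both (five 4 365 462) (five 2 492 496)))))))))))))))) (both (mv 557 (both (mv 588 (both (five 6 460 556) (mv 589 (both (five 6 492 620) (mv 590 (both (five 4 461 558) (five 4 493 622))))))) (mv 496 (both (mv 494 (both (five 3 460 460) (mv 464 (both (five 1 461 465) (mv 463 (both (five 1 460 492) (mv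 431 (both (five 4 399 399) (five 7 431 560))))))))) (both (mv 462 (both (five 5 429 430) (mv 463 (both (five 0 460 460) (mv 497 (both (five 0 461 464) (five 3 462 498))))))) (both (mv 462 (both (five 5 429 430) (mv 494 (both (five 3 461 497) (mv 464 (both (five 1 461 465) (mv 463 (both (five 1 460 492) (mv 431 (both (five 4 399 399) (five 7 431 560))))))))))) (mv 462 (both (five 5 429 430) (mv 494 (both (five 3 460 460) (five 3 461 497))))))))))) (both (mv 524 (both (mv 494 (both (five 2 492 496) (mv 523 (both (five 2 491 492) (five 1 490 522))))) (mv 556 (both (five 6 428 429) (mv 588 (both (five 6 460 557) (five 5 492 620))))))) (mv 494 (both (mv 492 (both (mv 459 (both (five 3 459 460) (mv 463 (both (five 1 460 464) (mv 491 (both (five 3 458 458) (five 1 459 462))))))) (both (mv 463 (both (five 1 460 464) (mv 491 (both (five 1 459 462) (mv 523 (both (five 2 490 522) (five 2 491 524))))))) (both (mv 459 (both (five 3 459 460) (mv 491 (both (five 3 458 458) (mv 523 (both (five 2 490 522) (five 2 491 524))))))) (mv 459 (both (five 3 459 460) (mv 463 (both (five 1 460 464) (mv 524 (both (five 2 491 523)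 (mv 429 (both (five 6 396 397) (mv 430 (both (five 5 397 398) (mv 557 (both (five 5 429 462) (mv 589 (both (five 7 492 621) (mv 590 (both (five 4 461 558) (five 4 493 622))))))))))))))))))))) (both (mv 524 (both (five 2 492 496) (mv 523 (both (five 2 491 492) (five 1 490 522))))) (mv 460 (both (five 3 460 496) (mv 459 (both (five 0 458 458) (five 0 459 462)))))))))))))

theorem L40 : W (S 988530863186674619578336756865110845819126775104098558876359956461909287475517697927706188055377193898211299979079754656078381545756745792834308240066213838848) (S 18687756800238088682730388680666063569667226076545111839944833209391623709204043689693176974708379483863621148779306324737318988269684388842139017675843278271602582005086437654420208775515349188608) :=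
  check_sound Env.nil (x := 461) (t := tL40) (by decide +kernel)

end P062.Cert
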