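import Vale.Agent.P062.Check
import Vale.Agent.P062.Cert.C2
import Vale.Agent.P062.Cert.C3
import Vale.Agent.P062.Cert.C4

/-! Snaky certificate, part 5 (machine generated, checked by the kernel) -/

set_option maxRecDepth 100000

namespace P062.Cert

open T

def tL41 : T :=
  (both (ref 0) (both (mv 524 (both (mv 522 (both (mv 556 (both (mv 588 (both (five 5 492 620) (mv 492 (both (mv 491 (both (five 7 459 459) (mv 490 (both (five 2 489 521) (five 0 489 489))))) (mv 589 (both (five 4 492 621) (mv 557 (both (five 4 460 460) (mv 590 (both (five 4 493 622) (mv 591 (both (five 3 556 592) (five 3 555 555))))))))))))) (both (mv 554 (both (mv 490 (both (mv 586 (both (mv 489 (both (five 7 457 457) (mv 491 (both (five 0 489 492) (five 5 458 459))))) (mv 617 (both (five 6 489 585) (mv 618 (both (five 6 521 649) (mv 619 (both (five 4 522 651) (five 4 490 587))))))))) (both (mv 458 (both (mv 425 (both (five 7 425 457) (mv 426 (both (five 7 393 393) (mv 427 (both (five 5 426 459) (five 5 394 395))))))) (both (mv 585 (both (five 6 457 553) (mv 427 (both (five 5 426 459) (mv 426 (both (five 5 394 395) (mv 393 (both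 (five 7 393 425) (mv 394 (both (five 7 361 361) (mv 521 (both (five 6 393 489) (mv 492 (both (five 2 489 491) (mv 428 (both (five 3 393 429) (mv 460 (both (five 4 428 557) (five 4 396 396))))))))))))))))))) (both (mv 553 (both (five 6 457 585) (mv 521 (both (five 6 425 426) (mv 492 (both (five 2 489 491) (mv 459 (both (five 5 426 427) (mv 460 (both (five 0 457 457) (mv 428 (both (five 4 428 557) (five 4 396 396))))))))))))) (both (mv 585 (both (five 6 457 553) (mv 457 (both (five 7 425 425) (mv 492 (both (five 3 457 491) (mv 460 (both (five 0 457 459) (mv 428 (both (five 4 428 557) (five 4 396 396))))))))))) (mv 553 (both (five 6 457 585) (mv 521 (both (five 6 425 426) (mv 491 (both (five 2 489 492) (mv 520 (both (five 1 487 519) (mv 457 (both (five 7 425 425) (mv 456 (both (five 0 455 455) (mv 424 (both (five 4 424 488) (five 7 424 489)))))))))))))))))))) (both (mv 458 (both (mv 425 (both (five 7 425 457) (mv 426 (both (five 7 393 393) (mv 427 (both (five 5 426 459) (five 5 394 395))))))) (both (mv 585 (both (five 6 457 553) (mv 586 (both (five 6 489 617) (mv 459 (both (five 5 458 491) (five 5 426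 427))))))) (both (mv 553 (both (five 6 457 585) (mv 457 (both (five 7 425 425) (mv 492 (both (five 3 457 491) (mv 426 (both (five 6 425 521) (mv 427 (both (five 5 394 395) (mv 455 (both (five 1 423 456) (mv 428 (both (five 2 425 429) (mv 460 (both (five 4 428 557) (five 4 396 396))))))))))))))))) (mv 457 (both (five 7 425 425) (mv 492 (both (five 3 457 491) (mv 460 (both (five 0 457 459) (mv 428 (both (five 4 428 557) (five 4 396 396))))))))))))) (both (mv 586 (both (mv 617 (both (five 6 489 585) (mv 618 (both (five 6 521 649) (mv 619 (both (five 4 522 651) (five 4 490 587))))))) (mv 491 (both (five 5 458 459) (mv 492 (both (five 2 489 521) (five 0 489 489))))))) (both (mv 586 (both (mv 617 (both (five 6 489 585) (mv 618 (both (five 6 521 649) (mv 619 (both (five 4 522 651) (five 4 490 587))))))) (both (mv 619 (both (five 4 490 587) (mv 618 (both (five 4 522 651) (mv 489 (both (five 7 489 521) (five 7 457 457))))))) (both (mv 617 (both (five 6 489 585) (mv 618 (both (five 6 521 649) (mv 489 (both (five 7 489 521) (five 7 457 457))))))) (mv 619 (both (five 4 490 587) (mv 585 (both (five 6 489 617) (mv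 457 (both (five 7 457 489) (mv 458 (both (five 6 457 553) (five 7 425 425))))))))))))) (mv 491 (both (mv 492 (both (five 2 489 521) (five 0 489 489))) (both (mv 586 (both (five 5 458 459) (mv 619 (both (five 4 490 587) (mv 618 (both (five 4 522 651) (mv 489 (both (five 7 489 521) (five 7 457 457))))))))) (both (mv 586 (both (five 5 458 459) (mv 619 (both (five 4 490 587) (mv 618 (both (five 4 522 651) (mv 649 (both (five 6 521 617) (mv 650 (both (five 6 553 681) (mv 521 (both (five 7 521 553) (five 2 489 492))))))))))))) (mv 586 (both (five 5 458 459) (mv 489 (both (five 0 489 492) (five 7 457 457))))))))))))))) (both (mv 490 (both (mv 586 (both (mv 489 (both (five 7 457 457) (mv 491 (both (five 0 489 492) (five 5 458 459))))) (mv 617 (both (five 6 489 585) (mv 618 (both (five 6 521 649) (mv 619 (both (five 4 522 651) (five 4 490 587))))))))) (both (mv 458 (both (mv 425 (both (five 7 425 457) (mv 426 (both (five 7 393 393) (mv 427 (both (five 5 426 459) (five 5 394 395))))))) (mv 555 (both (five 4 458 587) (mv 557 (both (five 3 521 521) (mv 589 (both (five 0 554 590) (mv 621 (both (five 7 524 653) (five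 7 492 492))))))))))) (both (mv 586 (both (mv 617 (both (five 6 489 585) (mv 618 (both (five 6 521 649) (mv 619 (both (five 4 522 651) (five 4 490 587))))))) (both (mv 617 (both (five 6 489 585) (mv 618 (both (five 6 521 649) (mv 489 (both (five 7 489 521) (five 7 457 457))))))) (mv 587 (both (five 4 490 619) (mv 458 (both (five 4 458 555) (mv 425 (both (five 7 425 457) (mv 426 (both (five 7 393 393) (mv 427 (both (five 5 426 459) (five 5 394 395)))))))))))))) (both (mv 586 (both (mv 617 (both (five 6 489 585) (mv 618 (both (five 6 521 649) (mv 619 (both (five 4 522 651) (five 4 490 587))))))) (mv 491 (both (five 5 458 459) (mv 492 (both (five 2 489 521) (five 0 489 489))))))) (both (mv 586 (both (mv 489 (both (five 7 457 457) (mv 491 (both (five 0 489 492) (five 5 458 459))))) (both (mv 617 (both (five 6 489 585) (mv 618 (both (five 6 521 649) (mv 489 (both (five 7 489 521) (five 7 457 457))))))) (mv 585 (both (five 6 489 617) (mv 557 (both (five 2 553 555) (mv 491 (both (five 5 458 459) (mv 492 (both (five 2 489 521) (mv 589 (both (five 7 492 621) (five 7 460 460)))))))))))))) (mv 586 (both (mv 617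 (both (five 6 489 585) (mv 618 (both (five 6 521 649) (mv 619 (both (five 4 522 651) (five 4 490 587))))))) (both (mv 617 (both (five 6 489 585) (mv 618 (both (five 6 521 649) (mv 489 (both (five 7 489 521) (five 7 457 457))))))) (both (mv 619 (both (five 4 490 587) (mv 618 (both (five 4 522 651) (mv 489 (both (five 7 489 521) (five 7 457 457))))))) (mv 617 (both (five 6 489 585) (mv 587 (both (five 4 490 619) (mv 555 (both (five 4 458 458) (mv 557 (both (five 3 521 521) (mv 589 (both (five 0 554 590) (mv 621 (both (five 7 524 653) (five 7 492 492))))))))))))))))))))))) (both (mv 490 (both (mv 586 (both (mv 489 (both (five 7 457 457) (mv 491 (both (five 0 489 492) (five 5 458 459))))) (mv 617 (both (five 6 489 585) (mv 618 (both (five 6 521 649) (mv 619 (both (five 4 522 651) (five 4 490 587))))))))) (both (mv 553 (both (five 1 521 555) (mv 585 (both (five 6 457 458) (mv 617 (both (five 5 521 649) (five 5 489 521))))))) (both (mv 491 (both (mv 492 (both (five 2 489 521) (five 0 489 489))) (both (mv 586 (both (five 5 458 459) (mv 619 (both (five 4 490 587) (mv 618 (both (five 4 522 651) (mv 489 (both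 (five 7 489 521) (five 7 457 457))))))))) (both (mv 586 (both (five 5 458 459) (mv 619 (both (five 4 490 587) (mv 618 (both (five 4 522 651) (mv 649 (both (five 6 521 617) (mv 650 (both (five 6 553 681) (mv 521 (both (five 7 521 553) (five 2 489 492))))))))))))) (mv 586 (both (five 5 458 459) (mv 489 (both (five 0 489 492) (five 7 457 457))))))))) (mv 553 (both (five 1 521 555) (mv 458 (both (five 6 457 585) (mv 425 (both (five 7 425 457) (mv 426 (both (five 7 393 393) (mv 427 (both (five 5 426 459) (five 5 394 395))))))))))))))) (both (mv 555 (both (five 1 521 553) (mv 557 (both (five 3 521 521) (mv 589 (both (five 0 554 590) (mv 621 (both (five 7 524 653) (five 7 492 492))))))))) (both (mv 555 (both (five 1 521 553) (mv 557 (both (mv 589 (both (five 0 554 590) (mv 621 (both (five 7 524 653) (five 7 492 492))))) (mv 586 (both (five 2 553 585) (mv 587 (both (five 2 554 558) (mv 619 (both (five 5 523 651) (five 4 490 490))))))))))) (mv 555 (both (five 1 521 553) (mv 557 (both (five 3 521 521) (mv 586 (both (five 2 553 585) (mv 587 (both (five 2 554 558) (mv 619 (both (five 5 523 651) (five 4 490 490)))))))))))))))))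 (both (mv 554 (both (mv 555 (both (five 1 521 553) (mv 557 (both (five 3 521 521) (mv 586 (both (five 2 553 585) (mv 587 (both (five 2 554 558) (mv 619 (both (five 5 523 651) (five 4 490 490))))))))))) (both (mv 586 (both (mv 618 (both (mv 649 (both (five 6 521 617) (mv 650 (both (five 6 553 681) (mv 521 (both (five 7 521 553) (five 7 489 489))))))) (mv 619 (both (five 4 522 651) (mv 620 (both (five 5 492 588) (mv 621 (both (five 3 585 585) (mv 653 (both (five 0 618 654) (mv 589 (both (five 1 586 590) (five 7 524 557))))))))))))) (both (mv 490 (both (mv 617 (both (five 6 489 585) (mv 618 (both (five 6 521 649) (mv 489 (both (five 7 489 521) (five 7 457 457))))))) (both (mv 457 (both (five 7 457 489) (mv 458 (both (five 7 425 425) (mv 459 (both (five 5 458 491) (five 5 426 427))))))) (mv 620 (both (five 5 492 588) (mv 585 (both (five 6 489 617) (mv 458 (both (five 6 457 553) (mv 459 (both (five 5 458 491) (five 5 426 427)))))))))))) (both (mv 490 (both (mv 587 (both (five 4 490 619) (mv 588 (both (five 5 492 620) (mv 589 (both (five 3 553 553) (mv 621 (both (five 0 586 622) (mv 653 (both (five 7 556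 685) (five 7 524 557))))))))))) (mv 457 (both (five 7 457 489) (mv 458 (both (five 7 425 425) (mv 459 (both (five 5 458 491) (five 5 426 427))))))))) (both (mv 490 (both (mv 617 (both (five 6 489 585) (mv 618 (both (five 6 521 649) (mv 619 (both (five 4 522 651) (five 4 490 587))))))) (both (mv 587 (both (five 4 490 619) (mv 588 (both (five 5 492 620) (mv 589 (both (five 3 553 553) (mv 621 (both (five 0 586 622) (mv 653 (both (five 7 556 685) (five 7 524 557))))))))))) (mv 585 (both (five 6 489 617) (mv 458 (both (five 6 457 553) (mv 459 (both (five 5 458 491) (five 5 426 427)))))))))) (mv 490 (both (mv 617 (both (five 6 489 585) (mv 618 (both (five 6 521 649) (mv 619 (both (five 4 522 651) (five 4 490 587))))))) (mv 457 (both (five 7 457 489) (mv 458 (both (five 7 425 425) (mv 459 (both (five 5 458 491) (five 5 426 427)))))))))))))) (both (mv 557 (both (mv 589 (both (mv 621 (both (five 7 524 653) (mv 622 (both (five 4 525 654) (five 4 493 590))))) (both (mv 588 (both (five 6 492 620) (mv 590 (both (five 4 493 622) (mv 591 (both (five 3 556 592) (five 3 555 555))))))) (mv 620 (both (five 6 492 588)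 (mv 621 (both (five 6 524 652) (five 7 524 653)))))))) (both (mv 589 (both (mv 621 (both (five 7 524 653) (mv 622 (both (five 4 525 654) (five 4 493 590))))) (both (mv 588 (both (five 6 492 620) (mv 590 (both (five 4 493 622) (mv 591 (both (five 3 556 592) (mv 623 (both (five 0 588 624) (mv 559 (both (five 1 556 560) (mv 587 (both (five 1 555 558) (mv 618 (both (five 2 586 619) (mv 586 (both (five 2 585 617) (five 1 553 585))))))))))))))))) (mv 620 (both (five 6 492 588) (mv 621 (both (five 6 524 652) (five 7 524 653)))))))) (mv 555 (both (five 3 521 521) (mv 586 (both (five 2 553 585) (mv 587 (both (five 2 554 558) (mv 619 (both (five 5 523 651) (five 4 490 490)))))))))))) (both (mv 490 (both (mv 553 (both (five 1 521 555) (mv 585 (both (five 6 457 458) (mv 617 (both (five 5 521 649) (five 5 489 521))))))) (both (mv 586 (both (mv 617 (both (five 6 489 585) (mv 618 (both (five 6 521 649) (mv 619 (both (five 4 522 651) (five 4 490 587))))))) (both (mv 617 (both (five 6 489 585) (mv 618 (both (five 6 521 649) (mv 489 (both (five 7 489 521) (five 7 457 457))))))) (mv 587 (both (five 4 490 619) (mv 458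 (both (five 4 458 555) (mv 425 (both (five 7 425 457) (mv 426 (both (five 7 393 393) (mv 427 (both (five 5 426 459) (five 5 394 395)))))))))))))) (both (mv 586 (both (mv 617 (both (five 6 489 585) (mv 618 (both (five 6 521 649) (mv 619 (both (five 4 522 651) (five 4 490 587))))))) (both (mv 619 (both (five 4 490 587) (mv 618 (both (five 4 522 651) (mv 489 (both (five 7 489 521) (five 7 457 457))))))) (both (mv 617 (both (five 6 489 585) (mv 618 (both (five 6 521 649) (mv 489 (both (five 7 489 521) (five 7 457 457))))))) (mv 619 (both (five 4 490 587) (mv 585 (both (five 6 489 617) (mv 457 (both (five 7 457 489) (mv 458 (both (five 6 457 553) (five 7 425 425))))))))))))) (both (mv 586 (both (mv 617 (both (five 6 489 585) (mv 618 (both (five 6 521 649) (mv 489 (both (five 7 489 521) (five 7 457 457))))))) (both (mv 619 (both (five 4 490 587) (mv 618 (both (five 4 522 651) (mv 489 (both (five 7 489 521) (five 7 457 457))))))) (mv 617 (both (five 6 489 585) (mv 587 (both (five 4 490 619) (mv 588 (both (five 5 492 620) (mv 553 (both (five 3 553 589) (five 1 521 555)))))))))))) (mv 620 (both (five 5 492 588)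 (mv 555 (both (five 1 521 553) (mv 587 (both (five 4 458 458) (mv 619 (both (five 5 523 651) (five 4 490 586)))))))))))))) (both (mv 620 (both (five 5 492 588) (mv 555 (both (five 1 521 553) (mv 557 (both (five 3 521 521) (mv 589 (both (five 0 554 590) (mv 621 (both (five 6 524 652) (five 7 524 653))))))))))) (mv 555 (both (five 1 521 553) (mv 557 (both (mv 586 (both (five 2 553 585) (mv 587 (both (five 2 554 558) (mv 619 (both (five 5 523 651) (five 4 490 490))))))) (mv 620 (both (five 5 492 588) (mv 589 (both (five 0 554 590) (mv 621 (both (five 6 524 652) (five 7 524 653))))))))))))))))) (both (mv 588 (both (five 5 492 620) (mv 492 (both (mv 491 (both (five 7 459 459) (mv 490 (both (five 2 489 521) (five 0 489 489))))) (mv 587 (both (five 6 491 619) (mv 589 (both (five 4 492 621) (mv 557 (both (five 4 460 460) (mv 586 (both (five 1 553 585) (five 1 554 558))))))))))))) (both (mv 588 (both (five 5 492 620) (mv 492 (both (mv 491 (both (five 7 459 459) (mv 490 (both (five 2 489 521) (five 0 489 489))))) (both (mv 587 (both (five 6 491 619) (mv 460 (both (five 6 459 555) (mv 427 (both (five 7 427 459)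 (mv 428 (both (five 7 395 395) (five 4 396 396))))))))) (mv 587 (both (five 6 491 619) (mv 555 (both (five 6 459 460) (mv 554 (both (five 1 521 553) (mv 490 (both (five 4 458 458) (mv 491 (both (five 2 489 521) (five 0 489 489)))))))))))))))) (both (mv 557 (both (mv 589 (both (mv 621 (both (five 7 524 653) (mv 622 (both (five 4 525 654) (five 4 493 590))))) (both (mv 588 (both (five 6 492 620) (mv 590 (both (five 4 493 622) (mv 591 (both (five 3 556 592) (five 3 555 555))))))) (mv 620 (both (five 6 492 588) (mv 621 (both (five 6 524 652) (five 7 524 653)))))))) (both (mv 589 (both (mv 621 (both (five 7 524 653) (five 7 492 492))) (mv 590 (both (five 4 493 622) (mv 591 (both (five 3 556 592) (mv 555 (both (five 0 554 554) (five 0 555 558))))))))) (both (mv 492 (both (mv 460 (both (five 4 428 428) (mv 555 (both (five 6 459 587) (mv 554 (both (five 3 521 521) (five 1 521 553))))))) (both (mv 588 (both (five 5 492 620) (mv 587 (both (five 6 491 619) (mv 586 (both (five 1 553 585) (mv 558 (both (five 2 554 555) (five 2 555 559))))))))) (mv 588 (both (five 5 492 620) (mv 459 (both (five 7 459 491) (mv 460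 (both (five 7 427 427) (five 4 428 428)))))))))) (mv 589 (both (mv 621 (both (five 7 524 653) (mv 622 (both (five 4 525 654) (five 4 493 590))))) (both (mv 588 (both (five 6 492 620) (mv 590 (both (five 4 493 622) (mv 591 (both (five 3 556 592) (mv 623 (both (five 0 588 624) (mv 559 (both (five 1 556 560) (mv 587 (both (five 1 555 558) (mv 618 (both (five 2 586 619) (mv 586 (both (five 2 585 617) (five 1 553 585))))))))))))))))) (mv 620 (both (five 6 492 588) (mv 621 (both (five 6 524 652) (five 7 524 653)))))))))))) (mv 557 (both (mv 589 (both (mv 621 (both (five 7 524 653) (five 7 492 492))) (mv 590 (both (five 4 493 622) (mv 591 (both (five 3 556 592) (mv 555 (both (five 0 554 554) (five 0 555 558))))))))) (both (mv 588 (both (five 5 492 620) (mv 587 (both (mv 619 (both (five 6 491 492) (mv 651 (both (five 5 555 683) (five 5 523 555))))) (both (mv 619 (both (five 6 491 492) (mv 651 (both (five 5 555 683) (mv 586 (both (five 1 553 585) (mv 554 (both (five 4 522 618) (five 4 490 490))))))))) (mv 586 (both (five 1 553 585) (mv 558 (both (five 2 554 555) (five 2 555 559)))))))))) (both (mv 589 (both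 (mv 621 (both (five 7 524 653) (mv 622 (both (five 4 525 654) (five 4 493 590))))) (both (mv 588 (both (five 6 492 620) (mv 590 (both (five 4 493 622) (mv 591 (both (five 3 556 592) (five 3 555 555))))))) (mv 620 (both (five 6 492 588) (mv 621 (both (five 6 524 652) (five 7 524 653)))))))) (mv 589 (both (mv 621 (both (five 7 524 653) (mv 622 (both (five 4 525 654) (five 4 493 590))))) (both (mv 588 (both (five 6 492 620) (mv 590 (both (five 4 493 622) (mv 591 (both (five 3 556 592) (mv 623 (both (five 0 588 624) (mv 559 (both (five 1 556 560) (mv 587 (both (five 1 555 558) (mv 618 (both (five 2 586 619) (mv 586 (both (five 2 585 617) (five 1 553 585))))))))))))))))) (mv 620 (both (five 6 492 588) (mv 621 (both (five 6 524 652) (five 7 524 653))))))))))))))))))) (both (mv 523 (both (mv 489 (both (five 3 489 490) (mv 521 (both (five 3 488 488) (mv 557 (both (five 0 521 556) (five 0 522 558))))))) (both (mv 553 (both (five 2 521 554) (mv 521 (both (five 2 520 552) (mv 557 (both (five 0 521 556) (five 0 522 558))))))) (mv 490 (both (five 3 489 489) (mv 458 (both (mv 426 (both (five 4 426 555) (mv 393 (both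 (five 7 393 425) (mv 394 (both (five 7 361 361) (five 4 394 491))))))) (both (mv 554 (both (five 2 521 553) (mv 459 (both (five 5 426 427) (mv 586 (both (five 5 458 491) (mv 617 (both (five 6 489 585) (mv 618 (both (five 6 521 649) (mv 619 (both (five 4 490 587) (five 4 522 651))))))))))))) (mv 426 (both (five 4 426 555) (mv 393 (both (five 7 393 425) (mv 361 (both (five 7 361 394) (mv 427 (both (five 5 394 395) (mv 554 (both (five 5 426 459) (five 2 521 553))))))))))))))))))) (both (mv 523 (both (mv 521 (both (five 1 489 492) (mv 553 (both (five 2 520 552) (five 2 521 554))))) (both (mv 490 (both (five 3 489 489) (mv 458 (both (mv 426 (both (five 4 426 555) (mv 393 (both (five 7 393 425) (mv 394 (both (five 7 361 361) (five 4 394 491))))))) (both (mv 554 (both (five 2 521 553) (mv 459 (both (five 5 426 427) (mv 586 (both (five 5 458 491) (mv 617 (both (five 6 489 585) (mv 618 (both (five 6 521 649) (mv 619 (both (five 4 490 587) (five 4 522 651))))))))))))) (mv 426 (both (five 4 426 555) (mv 393 (both (five 7 393 425) (mv 361 (both (five 7 361 394) (mv 427 (both (five 5 394 395) (mv 554 (both (five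 5 426 459) (five 2 521 553)))))))))))))))) (mv 489 (both (five 3 489 490) (mv 521 (both (five 3 488 488) (five 1 489 492)))))))) (both (mv 523 (both (mv 521 (both (five 1 489 492) (mv 553 (both (five 2 520 552) (five 2 521 554))))) (both (mv 557 (both (five 0 522 558) (mv 589 (both (mv 492 (both (five 7 460 460) (five 7 492 621))) (both (mv 620 (both (five 6 492 588) (mv 621 (both (five 6 524 652) (mv 622 (both (five 4 493 590) (five 4 525 654))))))) (mv 460 (both (five 7 460 492) (mv 554 (both (five 2 521 553) (mv 588 (both (five 6 492 620) (mv 590 (both (five 4 493 622) (mv 555 (both (five 0 554 556) (five 3 554 587)))))))))))))))) (both (mv 553 (both (five 2 521 554) (mv 521 (both (five 2 520 552) (mv 557 (both (five 0 521 556) (five 0 522 558))))))) (mv 492 (both (five 1 489 521) (mv 557 (both (five 0 522 558) (mv 460 (both (five 4 428 428) (five 7 460 589))))))))))) (both (mv 523 (both (mv 557 (both (five 0 522 558) (mv 589 (both (mv 492 (both (five 7 460 460) (five 7 492 621))) (both (mv 620 (both (five 6 492 588) (mv 621 (both (five 6 524 652) (mv 622 (both (five 4 493 590) (five 4 525 654)))))))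 (mv 460 (both (five 7 460 492) (mv 554 (both (five 2 521 553) (mv 588 (both (five 6 492 620) (mv 590 (both (five 4 493 622) (mv 555 (both (five 0 554 556) (five 3 554 587)))))))))))))))) (both (mv 490 (both (five 3 489 489) (mv 458 (both (mv 426 (both (five 4 426 555) (mv 393 (both (five 7 393 425) (mv 394 (both (five 7 361 361) (five 4 394 491))))))) (both (mv 554 (both (five 2 521 553) (mv 459 (both (five 5 426 427) (mv 586 (both (five 5 458 491) (mv 617 (both (five 6 489 585) (mv 618 (both (five 6 521 649) (mv 619 (both (five 4 490 587) (five 4 522 651))))))))))))) (mv 426 (both (five 4 426 555) (mv 393 (both (five 7 393 425) (mv 361 (both (five 7 361 394) (mv 427 (both (five 5 394 395) (mv 554 (both (five 5 426 459) (five 2 521 553)))))))))))))))) (both (mv 492 (both (mv 557 (both (five 0 522 558) (mv 460 (both (five 4 428 428) (five 7 460 589))))) (both (mv 555 (both (mv 460 (both (five 6 427 428) (mv 490 (both (five 3 489 489) (mv 458 (both (five 4 426 426) (mv 457 (both (five 0 457 459) (five 3 457 491))))))))) (both (mv 490 (both (five 3 489 489) (mv 458 (both (five 4 426 426) (mv 491 (both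 (five 3 457 457) (five 7 458 587))))))) (mv 460 (both (five 6 427 428) (mv 587 (both (five 6 459 556) (five 5 491 619)))))))) (mv 555 (both (mv 490 (both (five 3 489 489) (mv 458 (both (five 4 426 426) (mv 491 (both (five 3 457 457) (five 7 458 587))))))) (both (mv 557 (both (five 0 522 558) (mv 587 (both (five 5 491 619) (mv 589 (both (five 7 492 621) (mv 588 (both (five 6 492 620) (mv 590 (both (five 4 493 622) (mv 556 (both (five 3 555 591) (mv 491 (both (five 7 459 459) (mv 586 (both (five 1 553 585) (five 6 490 618))))))))))))))))) (mv 489 (both (five 3 489 490) (mv 557 (both (five 0 522 558) (mv 589 (both (five 7 492 621) (mv 588 (both (five 6 492 620) (mv 590 (both (five 4 493 622) (mv 591 (both (five 3 555 556) (mv 560 (both (five 1 556 559) (mv 592 (both (five 1 557 561) (mv 496 (both (five 7 463 463) (five 6 495 623))))))))))))))))))))))))) (both (mv 554 (both (five 2 521 553) (mv 586 (both (mv 557 (both (five 0 522 558) (mv 618 (both (five 5 490 491) (mv 619 (both (five 4 522 651) (mv 649 (both (five 6 521 617) (mv 650 (both (five 6 553 681) (mv 620 (both (five 2 617 621) (mv 588 (both (five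 5 492 556) (five 6 492 589))))))))))))))) (both (mv 490 (both (five 3 489 489) (mv 617 (both (five 6 489 585) (mv 618 (both (five 6 521 649) (mv 619 (both (five 4 490 587) (five 4 522 651))))))))) (both (mv 490 (both (five 3 489 489) (mv 459 (both (five 5 458 491) (mv 427 (both (five 5 426 458) (mv 557 (both (five 0 522 558) (mv 585 (both (five 6 489 617) (mv 587 (both (five 4 490 619) (mv 588 (both (five 1 553 556) (mv 621 (both (five 0 585 620) (mv 589 (both (five 7 492 492) (five 0 586 622))))))))))))))))))) (mv 490 (both (five 3 489 489) (mv 491 (both (five 5 458 459) (five 5 490 618))))))))))) (mv 490 (both (five 3 489 489) (mv 458 (both (mv 426 (both (five 4 426 555) (mv 393 (both (five 7 393 425) (mv 394 (both (five 7 361 361) (five 4 394 491))))))) (both (mv 554 (both (five 2 521 553) (mv 425 (both (five 7 425 457) (mv 459 (both (five 5 426 427) (mv 557 (both (five 0 522 558) (mv 586 (both (five 5 458 491) (mv 617 (both (five 6 489 585) (mv 618 (both (five 6 521 649) (mv 650 (both (five 5 522 555) (mv 651 (both (five 4 522 619) (five 4 554 683))))))))))))))))))) (both (mv 554 (both (five 2 521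 553) (mv 425 (both (five 7 425 457) (mv 426 (both (five 7 393 393) (mv 427 (both (five 5 394 395) (five 5 426 459))))))))) (mv 426 (both (five 4 426 555) (mv 427 (both (five 5 394 395) (mv 554 (both (five 5 426 459) (five 2 521 553)))))))))))))))))) (both (mv 523 (both (mv 489 (both (five 3 489 490) (mv 521 (both (five 3 488 488) (five 1 489 492))))) (both (mv 492 (both (mv 557 (both (five 0 522 558) (mv 460 (both (five 4 428 428) (five 7 460 589))))) (both (mv 555 (both (mv 460 (both (five 6 427 428) (mv 490 (both (five 3 489 489) (mv 458 (both (five 4 426 426) (mv 457 (both (five 0 457 459) (five 3 457 491))))))))) (both (mv 490 (both (five 3 489 489) (mv 458 (both (five 4 426 426) (mv 491 (both (five 3 457 457) (five 7 458 587))))))) (mv 460 (both (five 6 427 428) (mv 587 (both (five 6 459 556) (five 5 491 619)))))))) (mv 555 (both (mv 490 (both (five 3 489 489) (mv 458 (both (five 4 426 426) (mv 491 (both (five 3 457 457) (five 7 458 587))))))) (both (mv 557 (both (five 0 522 558) (mv 587 (both (five 5 491 619) (mv 589 (both (five 7 492 621) (mv 588 (both (five 6 492 620) (mv 590 (both (five 4 493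 622) (mv 556 (both (five 3 555 591) (mv 491 (both (five 7 459 459) (mv 586 (both (five 1 553 585) (five 6 490 618))))))))))))))))) (mv 489 (both (five 3 489 490) (mv 557 (both (five 0 522 558) (mv 589 (both (five 7 492 621) (mv 588 (both (five 6 492 620) (mv 590 (both (five 4 493 622) (mv 591 (both (five 3 555 556) (mv 560 (both (five 1 556 559) (mv 592 (both (five 1 557 561) (mv 496 (both (five 7 463 463) (five 6 495 623))))))))))))))))))))))))) (both (mv 489 (both (five 3 489 490) (mv 521 (both (five 3 488 488) (mv 557 (both (five 0 521 556) (five 0 522 558))))))) (mv 492 (both (five 1 489 521) (mv 557 (both (five 0 522 558) (mv 460 (both (five 4 428 428) (five 7 460 589))))))))))) (both (mv 523 (both (mv 521 (both (five 1 489 492) (mv 553 (both (five 2 520 552) (five 2 521 554))))) (both (mv 554 (both (five 2 521 553) (mv 586 (both (mv 557 (both (five 0 522 558) (mv 618 (both (five 5 490 491) (mv 619 (both (five 4 522 651) (mv 649 (both (five 6 521 617) (mv 650 (both (five 6 553 681) (mv 620 (both (five 2 617 621) (mv 588 (both (five 5 492 556) (five 6 492 589))))))))))))))) (both (mv 490 (both (five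 3 489 489) (mv 617 (both (five 6 489 585) (mv 618 (both (five 6 521 649) (mv 619 (both (five 4 490 587) (five 4 522 651))))))))) (both (mv 490 (both (five 3 489 489) (mv 459 (both (five 5 458 491) (mv 427 (both (five 5 426 458) (mv 557 (both (five 0 522 558) (mv 585 (both (five 6 489 617) (mv 587 (both (five 4 490 619) (mv 588 (both (five 1 553 556) (mv 621 (both (five 0 585 620) (mv 589 (both (five 7 492 492) (five 0 586 622))))))))))))))))))) (mv 490 (both (five 3 489 489) (mv 491 (both (five 5 458 459) (five 5 490 618))))))))))) (mv 489 (both (five 3 489 490) (mv 521 (both (five 3 488 488) (mv 557 (both (five 0 521 556) (five 0 522 558)))))))))) (mv 523 (both (mv 521 (both (five 1 489 492) (mv 553 (both (five 2 520 552) (five 2 521 554))))) (both (mv 490 (both (five 3 489 489) (mv 458 (both (mv 426 (both (five 4 426 555) (mv 393 (both (five 7 393 425) (mv 394 (both (five 7 361 361) (five 4 394 491))))))) (both (mv 554 (both (five 2 521 553) (mv 425 (both (five 7 425 457) (mv 459 (both (five 5 426 427) (mv 557 (both (five 0 522 558) (mv 586 (both (five 5 458 491) (mv 617 (both (five 6 489 585) (mv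 618 (both (five 6 521 649) (mv 650 (both (five 5 522 555) (mv 651 (both (five 4 522 619) (five 4 554 683))))))))))))))))))) (both (mv 554 (both (five 2 521 553) (mv 425 (both (five 7 425 457) (mv 426 (both (five 7 393 393) (mv 427 (both (five 5 394 395) (five 5 426 459))))))))) (mv 426 (both (five 4 426 555) (mv 427 (both (five 5 394 395) (mv 554 (both (five 5 426 459) (five 2 521 553))))))))))))) (mv 489 (both (five 3 489 490) (mv 521 (both (five 3 488 488) (five 1 489 492)))))))))))))))) (both (mv 492 (both (mv 460 (both (mv 428 (both (five 4 396 396) (five 4 428 557))) (both (mv 556 (both (mv 459 (both (five 7 427 427) (mv 588 (both (five 7 459 491) (mv 589 (both (five 4 460 557) (five 4 492 621))))))) (both (mv 459 (both (five 7 427 427) (mv 587 (both (five 6 459 555) (mv 588 (both (five 7 459 491) (five 6 491 619))))))) (mv 555 (both (five 6 459 587) (mv 554 (both (five 1 521 553) (mv 557 (both (five 4 460 589) (mv 522 (both (five 3 521 521) (mv 558 (both (five 0 522 523) (mv 559 (both (five 3 524 560) (mv 591 (both (five 0 555 590) (five 0 556 592)))))))))))))))))) (mv 428 (both (five 4 396 396)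 (mv 427 (both (five 7 395 395) (mv 555 (both (five 6 427 523) (mv 556 (both (five 7 427 459) (five 6 459 587)))))))))))) (both (mv 460 (both (mv 428 (both (five 4 396 396) (five 4 428 557))) (mv 459 (both (five 3 459 494) (mv 427 (both (five 7 427 556) (mv 395 (both (five 4 363 363) (five 4 395 491))))))))) (both (mv 494 (both (five 2 491 523) (mv 463 (both (five 1 460 464) (mv 491 (both (five 1 459 462) (mv 458 (both (five 3 458 459) (mv 490 (both (five 3 457 457) (five 0 489 489))))))))))) (mv 523 (both (five 2 491 494) (mv 522 (both (five 1 489 521) (mv 557 (both (five 0 522 558) (mv 460 (both (five 4 428 428) (five 7 460 589))))))))))))) (both (mv 557 (both (mv 589 (both (mv 620 (both (five 6 492 588) (mv 621 (both (five 6 524 652) (mv 622 (both (five 4 493 590) (five 4 525 654))))))) (both (mv 622 (both (five 4 493 590) (mv 621 (both (five 4 525 654) (mv 652 (both (five 6 524 620) (mv 653 (both (five 7 524 556) (five 6 556 684))))))))) (both (mv 621 (both (mv 622 (both (five 4 493 590) (five 4 525 654))) (both (mv 653 (both (five 7 524 556) (mv 684 (both (five 6 556 652) (mv 685 (both (five 6 588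 716) (mv 686 (both (five 4 557 654) (five 4 589 718))))))))) (mv 556 (both (five 7 524 653) (mv 590 (both (five 4 493 622) (mv 555 (both (five 0 554 554) (mv 591 (both (five 0 555 558) (five 3 555 588)))))))))))) (both (mv 620 (both (five 6 492 588) (mv 621 (both (five 6 524 652) (mv 653 (both (five 7 524 556) (mv 654 (both (five 4 525 622) (five 4 557 686))))))))) (both (mv 558 (both (mv 523 (both (five 0 522 522) (mv 559 (both (five 3 523 556) (five 3 524 560))))) (both (mv 620 (both (five 6 492 588) (mv 621 (both (five 6 524 652) (mv 653 (both (five 7 524 556) (mv 685 (both (five 5 557 590) (mv 686 (both (five 4 557 654) (five 4 589 718))))))))))) (mv 588 (both (five 6 492 620) (mv 559 (both (five 2 556 560) (mv 587 (both (five 1 554 586) (five 1 555 590)))))))))) (mv 558 (both (mv 523 (both (five 0 522 522) (mv 559 (both (five 3 523 556) (five 3 524 560))))) (both (mv 588 (both (five 6 492 620) (mv 587 (both (five 1 554 586) (mv 590 (both (five 4 493 622) (mv 555 (both (five 3 554 554) (mv 556 (both (five 0 555 591) (mv 619 (both (five 2 586 618) (five 5 523 651))))))))))))) (mv 588 (both (five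 6 492 620) (mv 559 (both (five 2 556 560) (mv 587 (both (five 1 554 586) (five 1 555 590)))))))))))))))) (both (mv 496 (both (five 2 492 494) (mv 560 (both (mv 463 (both (five 7 463 592) (mv 431 (both (five 4 399 399) (five 7 431 464))))) (both (mv 559 (both (five 3 524 558) (mv 464 (both (five 6 463 591) (mv 431 (both (five 7 431 463) (mv 432 (both (five 7 399 399) (mv 433 (both (five 5 432 465) (five 5 400 401))))))))))) (both (mv 559 (both (five 3 524 558) (mv 464 (both (five 6 463 591) (mv 465 (both (five 5 432 433) (mv 592 (both (five 5 464 497) (mv 593 (both (five 4 464 561) (five 4 496 625))))))))))) (mv 558 (both (five 3 524 559) (mv 522 (both (five 0 522 523) (mv 592 (both (five 7 463 463) (mv 465 (both (five 5 464 497) (mv 591 (both (five 6 495 623) (mv 593 (both (five 3 557 590) (five 4 496 625))))))))))))))))))) (mv 494 (both (five 2 492 496) (mv 589 (both (five 5 461 462) (mv 620 (both (five 6 492 588) (mv 621 (both (five 6 524 652) (mv 653 (both (five 7 524 556) (mv 654 (both (five 4 525 622) (five 4 557 686)))))))))))))))) (both (mv 492 (both (mv 460 (both (mv 428 (both (five 4 396 396)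 (five 4 428 557))) (both (mv 428 (both (five 4 396 396) (mv 397 (both (five 5 396 429) (mv 427 (both (five 7 395 395) (mv 556 (both (five 7 427 459) (mv 587 (both (five 6 459 555) (mv 588 (both (five 6 491 619) (five 5 492 620))))))))))))) (mv 556 (both (mv 588 (both (five 5 492 620) (mv 589 (both (five 4 460 557) (five 4 492 621))))) (both (mv 587 (both (five 6 459 555) (mv 588 (both (five 6 491 619) (five 5 492 620))))) (mv 459 (both (five 7 427 427) (mv 457 (both (five 0 457 458) (mv 555 (both (five 6 459 587) (mv 554 (both (five 1 521 553) (mv 557 (both (five 7 460 589) (mv 522 (both (five 3 521 521) (mv 586 (both (five 2 553 585) (mv 490 (both (five 7 457 489) (five 5 458 491))))))))))))))))))))))) (both (mv 494 (both (five 2 492 496) (mv 463 (both (five 1 460 464) (mv 491 (both (five 1 459 462) (mv 458 (both (five 3 458 459) (mv 490 (both (five 3 457 457) (five 0 489 489))))))))))) (mv 557 (both (mv 460 (both (five 4 428 428) (five 7 460 589))) (both (mv 496 (both (five 2 492 494) (mv 560 (both (mv 463 (both (five 7 463 592) (mv 431 (both (five 4 399 399) (five 7 431 464))))) (both (mv 559 (both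 (five 3 524 558) (mv 464 (both (five 6 463 591) (mv 431 (both (five 7 431 463) (mv 432 (both (five 7 399 399) (mv 433 (both (five 5 432 465) (five 5 400 401))))))))))) (both (mv 559 (both (five 3 524 558) (mv 464 (both (five 6 463 591) (mv 465 (both (five 5 432 433) (mv 592 (both (five 5 464 497) (mv 593 (both (five 4 464 561) (five 4 496 625))))))))))) (mv 428 (both (five 4 428 460) (mv 558 (both (five 3 524 559) (mv 592 (both (five 7 463 463) (mv 465 (both (five 5 464 497) (mv 591 (both (five 6 495 623) (mv 593 (both (five 3 557 590) (five 4 496 625))))))))))))))))))) (mv 494 (both (five 2 492 496) (mv 589 (both (five 5 461 462) (mv 622 (both (five 4 493 590) (mv 621 (both (five 4 525 654) (mv 652 (both (five 6 524 620) (mv 653 (both (five 7 524 556) (five 6 556 684))))))))))))))))))) (both (mv 494 (both (five 2 492 496) (mv 523 (both (five 2 491 492) (five 1 490 522))))) (mv 494 (both (five 2 492 496) (mv 492 (both (five 2 491 523) (mv 460 (both (five 3 459 459) (mv 428 (both (five 4 396 396) (five 4 428 557))))))))))))))) (both (ref 1) (both (mv 557 (both (mv 589 (both (mv 620 (both (five 6 492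 588) (mv 621 (both (five 6 524 652) (mv 622 (both (five 4 493 590) (five 4 525 654))))))) (both (mv 492 (both (five 7 460 460) (mv 620 (both (five 6 492 588) (mv 621 (both (five 7 492 524) (five 6 524 652))))))) (mv 460 (both (five 7 460 492) (mv 461 (both (five 7 428 428) (mv 590 (both (five 4 461 558) (five 4 493 622)))))))))) (both (mv 589 (both (mv 620 (both (five 6 492 588) (mv 621 (both (five 6 524 652) (mv 622 (both (five 4 493 590) (five 4 525 654))))))) (both (mv 492 (both (five 7 460 460) (mv 621 (both (five 7 492 524) (mv 622 (both (five 4 493 590) (five 4 525 654))))))) (both (mv 492 (both (five 7 460 460) (mv 620 (both (five 6 492 588) (mv 621 (both (five 7 492 524) (five 6 524 652))))))) (mv 492 (both (five 7 460 460) (mv 494 (both (five 5 461 462) (mv 463 (both (five 1 460 464) (mv 523 (both (five 2 491 524) (mv 491 (both (five 2 490 522) (mv 458 (both (five 3 458 459) (mv 490 (both (five 3 457 457) (mv 555 (both (five 7 458 587) (mv 588 (both (five 6 492 620) (mv 590 (both (five 4 493 622) (mv 556 (both (five 0 554 554) (five 3 555 591))))))))))))))))))))))))))) (both (mv 461 (both (mv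 428 (both (five 7 428 460) (mv 429 (both (five 7 396 396) (mv 430 (both (five 5 429 462) (five 5 397 398))))))) (both (mv 556 (both (five 6 460 588) (mv 429 (both (five 6 428 524) (mv 430 (both (five 5 429 462) (five 5 397 398))))))) (both (mv 556 (both (five 6 460 588) (mv 428 (both (five 7 428 460) (mv 429 (both (five 6 428 524) (five 7 396 396))))))) (mv 588 (both (five 6 460 556) (mv 460 (both (five 7 428 428) (mv 462 (both (five 5 429 430) (mv 459 (both (five 0 459 494) (mv 490 (both (five 2 458 491) (mv 458 (both (five 2 457 489) (mv 426 (both (five 3 425 425) (five 3 426 427))))))))))))))))))) (both (mv 589 (both (mv 620 (both (five 6 492 588) (mv 621 (both (five 6 524 652) (mv 622 (both (five 4 493 590) (five 4 525 654))))))) (both (mv 462 (both (five 5 461 494) (mv 461 (both (five 5 429 430) (mv 588 (both (five 6 460 556) (five 6 492 620))))))) (mv 462 (both (five 5 461 494) (mv 461 (both (five 5 429 430) (mv 590 (both (five 4 461 558) (five 4 493 622)))))))))) (mv 461 (both (mv 462 (both (five 5 429 430) (mv 589 (both (five 5 461 494) (mv 590 (both (five 4 461 558) (five 4 493 622))))))) (both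 (mv 460 (both (five 7 428 428) (mv 589 (both (five 7 460 492) (mv 590 (both (five 4 461 558) (five 4 493 622))))))) (mv 428 (both (five 7 428 460) (mv 429 (both (five 7 396 396) (mv 430 (both (five 5 397 398) (five 5 429 462))))))))))))))) (both (mv 494 (both (mv 524 (both (five 2 492 496) (mv 523 (both (five 2 491 492) (five 1 490 522))))) (both (mv 492 (both (mv 459 (both (five 3 459 460) (mv 463 (both (five 1 460 464) (mv 491 (both (five 3 458 458) (five 1 459 462))))))) (both (mv 463 (both (five 1 460 464) (mv 491 (both (five 1 459 462) (mv 523 (both (five 2 490 522) (five 2 491 524))))))) (both (mv 459 (both (five 3 459 460) (mv 491 (both (five 3 458 458) (mv 523 (both (five 2 490 522) (five 2 491 524))))))) (mv 460 (both (five 3 459 459) (mv 428 (both (five 4 396 396) (mv 463 (both (five 1 460 464) (mv 524 (both (five 2 491 523) (mv 395 (both (five 7 395 427) (mv 429 (both (five 5 396 397) (mv 556 (both (five 5 428 461) (mv 587 (both (five 6 459 555) (mv 588 (both (five 6 491 619) (five 5 492 620))))))))))))))))))))))) (both (mv 496 (both (mv 461 (both (five 3 460 460) (mv 465 (both (five 1 461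 464) (mv 497 (both (five 3 461 462) (five 1 462 466))))))) (both (mv 461 (both (five 3 460 460) (mv 429 (both (mv 396 (both (five 7 396 428) (mv 397 (both (five 7 364 364) (mv 398 (both (five 5 365 366) (five 5 397 430))))))) (both (mv 396 (both (five 7 396 428) (mv 397 (both (five 7 364 364) (mv 462 (both (five 4 365 365) (five 3 461 497))))))) (both (mv 398 (both (five 5 397 430) (mv 397 (both (five 5 365 366) (mv 462 (both (five 4 365 365) (five 3 461 497))))))) (mv 428 (both (five 7 396 396) (mv 430 (both (five 5 397 398) (mv 462 (both (five 3 461 497) (mv 427 (both (five 0 426 426) (five 0 427 463))))))))))))))) (mv 464 (both (five 1 461 465) (mv 463 (both (five 1 460 492) (mv 431 (both (five 4 399 399) (five 7 431 560)))))))))) (mv 496 (both (five 2 492 524) (mv 461 (both (five 3 460 460) (mv 465 (both (five 1 461 464) (mv 497 (both (five 3 461 462) (five 1 462 466))))))))))))) (both (mv 461 (both (mv 460 (both (mv 428 (both (five 7 428 557) (mv 396 (both (five 4 364 364) (five 7 396 429))))) (mv 494 (both (five 3 460 496) (mv 459 (both (five 0 458 458) (five 0 459 462))))))) (both (mv 429 (both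 (mv 396 (both (five 7 396 428) (mv 397 (both (five 7 364 364) (mv 398 (both (five 5 365 366) (five 5 397 430))))))) (both (mv 396 (both (five 7 396 428) (mv 397 (both (five 7 364 364) (mv 366 (both (five 5 365 398) (mv 365 (both (five 5 333 334) (mv 367 (both (five 2 364 368) (mv 394 (both (five 1 362 395) (mv 494 (both (five 4 365 462) (mv 496 (both (five 3 460 460) (five 2 492 524))))))))))))))))) (both (mv 462 (both (mv 396 (both (five 7 396 428) (mv 397 (both (five 7 364 364) (mv 365 (both (five 4 365 494) (mv 333 (both (five 4 333 430) (mv 334 (both (five 5 301 302) (five 5 333 366))))))))))) (both (mv 524 (both (five 6 428 556) (mv 496 (both (five 2 492 494) (mv 463 (both (five 0 460 460) (mv 497 (both (five 0 461 464) (five 3 462 498))))))))) (mv 428 (both (five 7 396 396) (mv 426 (both (five 0 426 427) (mv 463 (both (five 3 428 464) (mv 460 (both (five 0 460 496) (mv 431 (both (five 1 428 432) (mv 459 (both (five 2 427 430) (mv 458 (both (five 3 425 425) (five 1 425 457)))))))))))))))))) (both (mv 398 (both (five 5 397 430) (mv 397 (both (five 5 365 366) (mv 364 (both (five 7 364 396) (mv 365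 (both (five 7 332 332) (mv 494 (both (five 4 365 462) (mv 496 (both (five 3 460 460) (five 2 492 524))))))))))))) (both (mv 460 (both (mv 494 (both (five 3 460 496) (mv 459 (both (five 0 458 458) (five 0 459 462))))) (both (mv 430 (both (five 5 397 398) (mv 431 (both (five 2 428 432) (mv 459 (both (five 2 427 428) (five 1 426 458))))))) (mv 398 (both (five 5 397 430) (mv 366 (both (five 5 365 397) (mv 496 (both (five 3 460 494) (mv 463 (both (five 0 460 462) (mv 431 (both (five 4 399 399) (mv 560 (both (five 7 431 464) (five 7 463 592)))))))))))))))) (mv 460 (both (mv 494 (both (five 3 460 496) (mv 459 (both (five 0 458 458) (five 0 459 462))))) (both (mv 428 (both (five 7 396 396) (mv 430 (both (five 5 397 398) (mv 431 (both (five 2 428 432) (five 2 427 459))))))) (mv 396 (both (five 7 396 428) (mv 430 (both (five 5 397 398) (mv 431 (both (five 2 428 432) (mv 496 (both (five 3 460 494) (mv 463 (both (five 4 399 399) (five 0 460 462)))))))))))))))))))) (both (mv 557 (both (mv 588 (both (five 6 460 556) (mv 589 (both (five 6 492 620) (mv 590 (both (five 4 461 558) (five 4 493 622))))))) (mv 460 (both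 (five 7 428 428) (mv 494 (both (five 3 460 496) (mv 459 (both (five 0 458 458) (five 0 459 462))))))))) (both (mv 429 (both (mv 396 (both (five 7 396 428) (mv 397 (both (five 7 364 364) (mv 398 (both (five 5 365 366) (five 5 397 430))))))) (both (mv 428 (both (five 7 396 396) (mv 556 (both (five 6 428 524) (mv 557 (both (five 7 428 460) (five 6 460 588))))))) (mv 430 (both (five 5 397 398) (mv 556 (both (five 6 428 524) (mv 557 (both (five 5 429 462) (five 6 460 588)))))))))) (both (mv 557 (both (mv 588 (both (five 6 460 556) (mv 589 (both (five 6 492 620) (mv 590 (both (five 4 461 558) (five 4 493 622))))))) (both (mv 462 (both (five 5 429 430) (mv 589 (both (five 5 461 494) (mv 590 (both (five 4 461 558) (five 4 493 622))))))) (mv 430 (both (five 5 429 462) (mv 429 (both (five 5 397 398) (mv 556 (both (five 6 428 524) (five 6 460 588)))))))))) (mv 557 (both (mv 588 (both (five 6 460 556) (mv 589 (both (five 6 492 620) (mv 590 (both (five 4 461 558) (five 4 493 622))))))) (both (mv 460 (both (five 7 428 428) (mv 496 (both (five 3 460 494) (mv 590 (both (five 4 461 558) (mv 589 (both (five 4 493 622)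 (mv 620 (both (five 6 492 588) (mv 621 (both (five 6 524 652) (mv 592 (both (five 2 588 591) (mv 560 (both (five 7 463 463) (mv 465 (both (five 5 464 497) (mv 464 (both (five 5 432 433) (mv 593 (both (five 4 464 561) (five 4 496 625))))))))))))))))))))))) (both (mv 428 (both (five 7 428 460) (mv 429 (both (five 7 396 396) (mv 524 (both (five 6 428 556) (mv 496 (both (five 2 492 494) (mv 558 (both (five 4 461 590) (mv 522 (both (five 0 522 523) (mv 560 (both (five 3 524 559) (mv 463 (both (five 7 463 592) (mv 431 (both (five 4 399 399) (five 7 431 464))))))))))))))))))) (mv 428 (both (five 7 428 460) (mv 429 (both (five 7 396 396) (mv 556 (both (five 6 428 524) (five 6 460 588))))))))))))))))) (both (ref 2) (both (mv 461 (both (mv 557 (both (mv 588 (both (five 6 460 556) (mv 589 (both (five 6 492 620) (mv 590 (both (five 4 461 558) (five 4 493 622))))))) (both (mv 462 (both (five 5 429 430) (mv 589 (both (five 5 461 494) (mv 590 (both (five 4 461 558) (five 4 493 622))))))) (mv 430 (both (five 5 429 462) (mv 429 (both (five 5 397 398) (mv 556 (both (five 6 428 524) (five 6 460 588)))))))))) (both (mv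 429 (both (mv 396 (both (five 7 396 428) (mv 397 (both (five 7 364 364) (mv 398 (both (five 5 365 366) (five 5 397 430))))))) (both (mv 396 (both (five 7 396 428) (mv 397 (both (five 7 364 364) (mv 524 (both (five 6 396 492) (five 6 428 556))))))) (both (mv 398 (both (five 5 397 430) (mv 397 (both (five 5 365 366) (mv 524 (both (five 6 396 492) (five 6 428 556))))))) (mv 396 (both (five 7 396 428) (mv 398 (both (five 5 397 430) (mv 524 (both (five 6 428 556) (mv 494 (both (five 2 492 496) (mv 523 (both (five 2 491 492) (five 1 490 522))))))))))))))) (both (mv 557 (both (mv 462 (both (five 5 429 430) (mv 589 (both (five 5 461 494) (mv 590 (both (five 4 461 558) (five 4 493 622))))))) (both (mv 460 (both (five 7 428 428) (mv 588 (both (five 6 460 556) (mv 589 (both (five 7 460 492) (five 6 492 620))))))) (mv 430 (both (five 5 429 462) (mv 460 (both (five 7 428 428) (mv 494 (both (five 3 460 496) (mv 459 (both (five 0 458 458) (five 3 459 492)))))))))))) (both (mv 557 (both (mv 588 (both (five 6 460 556) (mv 589 (both (five 6 492 620) (mv 590 (both (five 4 461 558) (five 4 493 622))))))) (both (mv 460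 (both (five 7 428 428) (mv 589 (both (five 7 460 492) (mv 590 (both (five 4 461 558) (five 4 493 622))))))) (mv 428 (both (five 7 428 460) (mv 429 (both (five 7 396 396) (mv 556 (both (five 6 428 524) (five 6 460 588)))))))))) (mv 557 (both (mv 462 (both (five 5 429 430) (mv 589 (both (five 5 461 494) (mv 590 (both (five 4 461 558) (five 4 493 622))))))) (both (mv 460 (both (five 7 428 428) (mv 589 (both (five 7 460 492) (mv 590 (both (five 4 461 558) (five 4 493 622))))))) (mv 428 (both (five 7 428 460) (mv 429 (both (five 7 396 396) (mv 430 (both (five 5 397 398) (five 5 429 462))))))))))))))) (both (ref 3) (both (mv 494 (both (mv 524 (both (five 2 492 496) (mv 523 (both (five 2 491 492) (five 1 490 522))))) (both (mv 492 (both (mv 463 (both (five 1 460 464) (mv 462 (both (five 1 459 491) (mv 430 (both (five 6 397 398) (mv 557 (both (five 5 429 461) (five 5 461 589))))))))) (both (mv 459 (both (five 3 459 460) (mv 491 (both (five 3 458 458) (mv 523 (both (five 2 490 522) (five 2 491 524))))))) (mv 460 (both (five 3 459 459) (mv 428 (both (five 4 396 396) (mv 524 (both (five 2 491 523) (five 4 428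 557)))))))))) (both (mv 496 (both (mv 464 (both (five 1 461 465) (mv 463 (both (five 1 460 492) (mv 431 (both (five 4 399 399) (five 7 431 560))))))) (mv 461 (both (five 3 460 460) (mv 462 (both (five 3 461 497) (mv 430 (both (five 6 397 398) (five 5 429 557))))))))) (mv 496 (both (five 2 492 524) (mv 461 (both (five 3 460 460) (mv 465 (both (five 1 461 464) (mv 497 (both (five 3 461 462) (five 1 462 466))))))))))))) (both (ref 4) (mv 494 (both (mv 524 (both (five 2 492 496) (mv 523 (both (five 2 491 492) (five 1 490 522))))) (both (mv 492 (both (mv 459 (both (five 3 459 460) (mv 463 (both (five 1 460 464) (mv 491 (both (five 3 458 458) (five 1 459 462))))))) (both (mv 463 (both (five 1 460 464) (mv 491 (both (five 1 459 462) (mv 523 (both (five 2 490 522) (five 2 491 524))))))) (both (mv 459 (both (five 3 459 460) (mv 491 (both (five 3 458 458) (mv 523 (both (five 2 490 522) (five 2 491 524))))))) (mv 460 (both (five 3 459 459) (mv 463 (both (five 1 460 464) (mv 524 (both (five 2 491 523) (mv 557 (both (five 4 428 428) (mv 589 (both (five 4 460 556) (five 7 492 621))))))))))))))) (both (mv 496 (both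 (mv 464 (both (five 1 461 465) (mv 463 (both (five 1 460 492) (mv 431 (both (five 4 399 399) (five 7 431 560))))))) (mv 461 (both (five 3 460 460) (mv 462 (both (five 3 461 497) (mv 430 (both (five 6 397 398) (five 5 429 557))))))))) (mv 496 (both (five 2 492 524) (mv 461 (both (five 3 460 460) (mv 465 (both (five 1 461 464) (mv 497 (both (five 3 461 462) (five 1 462 466))))))))))))))))))))))))

theorem L41 : W (S 988530863161101255454148148505632801312661156727406042891648512794071073662266652643294668095351646301915173751338452436331818490997235976069578606837084717056) (S 1723641332831378725233694125625128535784311377158320655822997802070484070660400136229068079399463181210243995037078188579687831694804533469521889746746936074068301851315551312303152117416031270997530159885730445262848) :=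
  check_sound (Env.cons L35 (Env.cons L27 (Env.cons L29 (Env.cons L22 (Env.cons L40 Env.nil))))) (x := 493) (t := tL41) (by decide +kernel)

def tL42 : T :=
  (both (mv 428 (both (mv 427 (both (mv 460 (both (five 4 396 396) (mv 395 (both (five 7 395 524) (mv 363 (both (five 4 331 331) (five 4 363 459))))))) (both (mv 426 (both (mv 429 (both (mv 393 (both (five 3 393 394) (mv 425 (both (five 3 392 392) (mv 457 (both (five 2 424 456) (five 2 425 458))))))) (mv 398 (both (five 1 394 397) (mv 430 (both (five 1 395 399) (mv 463 (both (five 0 427 462) (mv 431 (both (five 0 428 464) (five 7 398 527))))))))))) (both (mv 425 (both (mv 392 (both (five 3 392 393) (mv 424 (both (five 3 391 391) (mv 456 (both (five 2 423 455) (five 2 424 457))))))) (both (mv 392 (both (five 3 392 393) (mv 396 (both (five 1 393 397) (mv 424 (both (five 3 391 391) (five 1 392 395))))))) (both (mv 396 (both (five 1 393 397) (mv 424 (both (five 1 392 395) (mv 456 (both (five 2 423 455) (five 2 424 457))))))) (mv 458 (both (mv 393 (both (five 3 392 392) (mv 361 (both (five 4 329 329) (mv 490 (both (five 7 361 394) (five 7 393 522)))))))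 (both (mv 457 (both (five 2 424 456) (mv 490 (both (five 3 457 491) (mv 522 (both (five 5 394 395) (five 7 425 554))))))) (mv 393 (both (five 3 392 392) (mv 361 (both (five 4 329 329) (mv 396 (both (five 1 393 397) (mv 457 (both (five 2 424 456) (mv 328 (both (five 7 328 360) (mv 362 (both (five 5 329 330) (mv 394 (both (five 5 361 489) (mv 363 (both (five 5 330 331) (mv 364 (both (five 2 361 365) (mv 332 (both (five 1 329 333) (five 6 331 459)))))))))))))))))))))))))))) (both (mv 429 (both (mv 398 (both (five 1 394 397) (mv 430 (both (five 1 395 399) (mv 463 (both (five 0 427 462) (mv 431 (both (five 0 428 464) (five 7 398 527))))))))) (both (mv 393 (both (five 3 393 394) (mv 458 (both (five 2 425 457) (mv 430 (both (five 2 426 459) (mv 463 (both (five 0 427 462) (mv 431 (both (five 0 428 464) (mv 395 (both (five 3 395 396) (mv 331 (both (five 6 330 363) (mv 400 (both (five 1 396 399) (mv 527 (both (five 5 399 432) (five 4 431 560))))))))))))))))))) (mv 394 (both (five 3 393 393) (mv 459 (both (mv 362 (both (five 4 330 330) (mv 491 (both (five 7 362 395) (five 7 394 523))))) (both (mv 362 (both (five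 4 330 330) (mv 397 (both (five 1 394 398) (mv 458 (both (five 2 425 457) (mv 329 (both (five 7 329 361) (mv 363 (both (five 5 330 331) (mv 490 (both (five 5 362 395) (mv 489 (both (five 6 393 521) (mv 487 (both (five 1 455 488) (mv 522 (both (five 5 426 554) (mv 523 (both (five 3 489 524) (five 4 426 555))))))))))))))))))))) (both (mv 397 (both (five 1 394 398) (mv 458 (both (five 2 425 457) (mv 491 (both (five 7 394 523) (mv 395 (both (five 4 395 524) (mv 363 (both (five 6 330 331) (five 5 362 490))))))))))) (mv 362 (both (five 4 330 330) (mv 458 (both (five 2 425 457) (five 4 362 491)))))))))))))) (both (mv 425 (both (mv 392 (both (five 3 392 393) (mv 424 (both (five 3 391 391) (mv 456 (both (five 2 423 455) (five 2 424 457))))))) (both (mv 396 (both (five 1 393 397) (mv 424 (both (five 1 392 395) (mv 456 (both (five 2 423 455) (five 2 424 457))))))) (both (mv 392 (both (five 3 392 393) (mv 396 (both (five 1 393 397) (mv 424 (both (five 3 391 391) (five 1 392 395))))))) (mv 393 (both (five 3 392 392) (mv 394 (both (five 3 393 429) (mv 396 (both (five 1 393 397) (mv 457 (both (five 2 424 456) (mv 362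 (both (five 6 329 330) (five 5 361 489))))))))))))))) (both (mv 429 (both (mv 398 (both (five 1 394 397) (mv 430 (both (five 1 395 399) (mv 463 (both (five 0 427 462) (mv 431 (both (five 0 428 464) (five 7 398 527))))))))) (both (mv 394 (both (five 3 393 393) (mv 430 (both (five 3 394 395) (mv 399 (both (five 1 395 398) (mv 431 (both (five 1 396 400) (mv 463 (both (five 0 427 462) (five 0 428 464))))))))))) (both (mv 393 (both (five 3 393 394) (mv 425 (both (five 3 392 392) (mv 396 (both (five 1 393 397) (mv 395 (both (five 1 392 424) (mv 430 (both (five 3 395 431) (mv 459 (both (five 2 426 458) (mv 364 (both (five 6 331 332) (five 5 363 491))))))))))))))) (mv 393 (both (five 3 393 394) (mv 397 (both (five 1 394 398) (mv 425 (both (five 3 392 392) (five 1 393 396))))))))))) (both (mv 429 (both (mv 398 (both (five 1 394 397) (mv 430 (both (five 1 395 399) (mv 463 (both (five 0 427 462) (mv 431 (both (five 0 428 464) (five 7 398 527))))))))) (both (mv 458 (both (five 2 425 457) (mv 430 (both (five 2 426 459) (mv 463 (both (five 0 427 462) (mv 431 (both (five 0 428 464) (mv 395 (both (five 3 395 396) (mv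 331 (both (five 6 330 363) (mv 400 (both (five 1 396 399) (mv 527 (both (five 5 399 432) (five 4 431 560))))))))))))))))) (mv 397 (both (five 1 394 398) (mv 425 (both (five 1 393 396) (mv 457 (both (five 2 424 456) (five 2 425 458)))))))))) (mv 429 (both (mv 393 (both (five 3 393 394) (mv 425 (both (five 3 392 392) (mv 457 (both (five 2 424 456) (five 2 425 458))))))) (both (mv 394 (both (five 3 393 393) (mv 430 (both (five 3 394 395) (mv 399 (both (five 1 395 398) (mv 431 (both (five 1 396 400) (mv 463 (both (five 0 427 462) (five 0 428 464))))))))))) (mv 458 (both (five 2 425 457) (mv 430 (both (five 2 426 459) (mv 399 (both (five 1 395 398) (mv 431 (both (five 1 396 400) (mv 463 (both (five 0 427 462) (five 0 428 464))))))))))))))))))))) (both (mv 524 (both (mv 491 (both (mv 395 (both (five 4 395 459) (mv 490 (both (five 0 489 489) (mv 458 (both (five 3 457 457) (mv 522 (both (five 5 394 426) (five 2 489 521))))))))) (both (mv 490 (both (five 0 489 489) (mv 458 (both (five 3 457 457) (mv 522 (both (five 2 489 521) (mv 426 (both (five 5 394 395) (mv 523 (both (five 4 394 394) (five 4 426 555)))))))))))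 (both (mv 459 (both (five 4 395 395) (mv 556 (both (five 4 427 523) (five 7 459 588))))) (mv 490 (both (five 0 489 489) (mv 458 (both (five 3 457 457) (mv 522 (both (five 2 489 521) (mv 459 (both (five 5 426 554) (mv 556 (both (five 4 427 523) (five 7 459 588))))))))))))))) (both (mv 556 (both (mv 459 (both (five 7 427 460) (mv 491 (both (five 4 427 523) (five 7 459 588))))) (both (mv 588 (both (five 5 492 620) (mv 491 (both (five 7 459 459) (mv 490 (both (five 0 489 489) (mv 458 (both (five 3 457 457) (mv 521 (both (five 2 489 522) (mv 587 (both (five 6 491 619) (mv 555 (both (five 7 458 523) (mv 554 (both (five 1 521 553) (mv 589 (both (five 3 554 590) (five 4 492 621))))))))))))))))))) (both (mv 588 (both (five 5 492 620) (mv 587 (both (five 6 491 619) (mv 555 (both (five 6 459 460) (mv 554 (both (five 1 521 553) (mv 589 (both (five 3 554 590) (five 4 492 621))))))))))) (mv 459 (both (five 7 427 460) (mv 491 (both (five 4 427 523) (mv 490 (both (five 0 489 489) (mv 458 (both (five 3 457 457) (mv 522 (both (five 2 489 521) (five 5 426 554))))))))))))))) (both (mv 429 (both (mv 460 (both (five 7 395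 395) (five 5 396 397))) (both (mv 426 (both (mv 393 (both (five 3 393 394) (mv 425 (both (five 3 392 392) (mv 457 (both (five 2 424 456) (five 2 425 458))))))) (mv 398 (both (five 1 394 397) (mv 430 (both (five 1 395 399) (mv 463 (both (five 0 427 462) (mv 431 (both (five 0 428 464) (five 7 398 527))))))))))) (mv 395 (both (five 7 395 460) (mv 394 (both (five 3 394 430) (mv 393 (both (five 0 392 392) (five 3 393 426)))))))))) (mv 460 (both (five 7 395 395) (mv 555 (both (five 6 427 523) (mv 556 (both (five 7 427 459) (five 6 459 587))))))))))) (both (mv 429 (both (mv 426 (both (mv 393 (both (five 3 393 394) (mv 425 (both (five 3 392 392) (mv 457 (both (five 2 424 456) (five 2 425 458))))))) (mv 398 (both (five 1 394 397) (mv 430 (both (five 1 395 399) (mv 463 (both (five 0 427 462) (mv 431 (both (five 0 428 464) (five 7 398 527))))))))))) (both (mv 460 (both (five 4 396 396) (mv 524 (both (five 5 396 397) (mv 555 (both (five 6 427 523) (mv 556 (both (five 7 427 459) (five 6 459 587))))))))) (mv 430 (both (mv 399 (both (five 1 395 398) (mv 431 (both (five 1 396 400) (mv 463 (both (five 0 427 462) (five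 0 428 464))))))) (both (mv 459 (both (five 2 426 458) (mv 460 (both (five 4 396 396) (five 2 427 431))))) (mv 398 (both (five 1 395 399) (mv 459 (both (five 2 426 458) (mv 460 (both (five 4 396 396) (mv 462 (both (five 0 427 463) (mv 524 (both (five 7 427 556) (mv 523 (both (five 6 427 555) (mv 522 (both (five 1 489 521) (mv 554 (both (five 6 426 491) (five 2 521 553))))))))))))))))))))))) (both (mv 459 (both (mv 396 (both (five 4 396 460) (mv 364 (both (five 6 331 332) (mv 491 (both (five 5 363 395) (five 5 395 523))))))) (both (mv 458 (both (mv 429 (both (five 2 426 430) (mv 457 (both (five 2 425 426) (five 1 424 456))))) (both (mv 429 (both (five 2 426 430) (mv 426 (both (mv 393 (both (five 3 393 394) (mv 397 (both (five 1 394 398) (mv 425 (both (five 3 392 392) (five 1 393 396))))))) (both (mv 397 (both (five 1 394 398) (mv 396 (both (five 1 393 425) (mv 364 (both (five 6 331 332) (mv 491 (both (five 5 363 395) (five 5 395 523))))))))) (mv 394 (both (five 3 393 393) (mv 362 (both (five 4 330 330) (mv 491 (both (five 7 362 395) (five 7 394 523)))))))))))) (both (mv 457 (both (five 1 424 456) (mv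 490 (both (five 3 457 491) (mv 395 (both (five 6 362 363) (mv 522 (both (five 5 394 426) (five 5 426 554))))))))) (mv 429 (both (five 2 426 430) (mv 457 (both (five 1 424 456) (mv 491 (both (five 3 457 490) (mv 396 (both (five 5 395 523) (mv 364 (both (five 6 331 332) (five 5 363 395))))))))))))))) (both (mv 395 (both (mv 394 (both (mv 362 (both (five 7 362 491) (mv 330 (both (five 4 298 298) (five 4 330 426))))) (both (mv 393 (both (five 0 392 392) (mv 429 (both (five 3 393 426) (five 3 394 430))))) (mv 392 (both (five 0 392 393) (mv 429 (both (five 3 394 430) (mv 491 (both (five 7 362 362) (mv 490 (both (five 6 394 522) (mv 457 (both (five 3 457 458) (mv 489 (both (five 3 456 456) (mv 488 (both (five 1 456 460) (mv 520 (both (five 2 487 519) (five 2 488 521)))))))))))))))))))) (both (mv 458 (both (mv 429 (both (five 2 426 430) (mv 457 (both (five 2 425 426) (five 1 424 456))))) (mv 363 (both (five 6 362 490) (mv 330 (both (five 7 330 362) (mv 331 (both (five 7 298 298) (mv 332 (both (five 5 299 300) (five 5 331 364))))))))))) (both (mv 363 (both (five 4 363 460) (mv 330 (both (five 7 330 362) (mv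 331 (both (five 7 298 298) (mv 332 (both (five 5 299 300) (five 5 331 364))))))))) (mv 363 (both (five 4 363 460) (mv 458 (both (five 6 362 490) (mv 429 (both (five 2 426 430) (mv 457 (both (five 2 425 426) (five 1 424 456))))))))))))) (both (mv 460 (both (five 4 396 396) (mv 426 (both (mv 429 (both (mv 393 (both (five 3 393 394) (mv 425 (both (five 3 392 392) (mv 457 (both (five 2 424 456) (five 2 425 458))))))) (mv 398 (both (five 1 394 397) (mv 430 (both (five 1 395 399) (mv 463 (both (five 0 427 462) (mv 431 (both (five 0 428 464) (five 7 398 527))))))))))) (both (mv 363 (both (five 4 363 395) (mv 425 (both (five 0 424 424) (mv 393 (both (five 3 392 392) (mv 394 (both (five 3 393 429) (mv 457 (both (five 2 424 456) (mv 362 (both (five 6 329 330) (five 5 361 489))))))))))))) (both (mv 363 (both (five 4 363 395) (mv 425 (both (five 0 424 424) (mv 393 (both (five 3 392 392) (mv 394 (both (five 3 393 429) (mv 362 (both (five 4 330 330) (mv 364 (both (five 2 361 365) (mv 458 (both (five 5 330 331) (mv 361 (both (five 4 329 329) (five 7 361 490))))))))))))))))) (both (mv 363 (both (five 4 363 395) (mv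 458 (both (five 0 457 457) (mv 429 (both (five 2 426 430) (mv 394 (both (five 3 393 393) (mv 362 (both (five 4 330 330) (five 5 330 331))))))))))) (mv 363 (both (five 4 363 395) (mv 425 (both (five 0 424 424) (mv 457 (both (five 2 424 456) (five 0 457 458)))))))))))))) (mv 460 (both (five 4 396 396) (mv 426 (both (mv 425 (both (five 0 424 424) (mv 457 (both (five 2 424 456) (five 0 457 458))))) (both (mv 425 (both (five 0 424 424) (mv 393 (both (five 3 392 392) (mv 394 (both (five 3 393 429) (mv 457 (both (five 2 424 456) (mv 362 (both (five 6 329 330) (five 5 361 489))))))))))) (both (mv 425 (both (five 0 424 424) (mv 393 (both (five 3 392 392) (mv 394 (both (five 3 393 429) (mv 362 (both (five 4 330 330) (mv 491 (both (five 4 362 458) (five 7 394 523))))))))))) (mv 458 (both (five 0 457 457) (mv 429 (both (five 2 426 430) (mv 394 (both (five 3 393 393) (mv 362 (both (five 4 330 330) (five 4 362 491)))))))))))))))))))) (mv 429 (both (mv 426 (both (mv 393 (both (five 3 393 394) (mv 425 (both (five 3 392 392) (mv 457 (both (five 2 424 456) (five 2 425 458))))))) (mv 398 (both (five 1 394 397) (mv 430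 (both (five 1 395 399) (mv 463 (both (five 0 427 462) (mv 431 (both (five 0 428 464) (five 7 398 527))))))))))) (both (mv 460 (both (five 4 396 396) (mv 524 (both (five 7 395 395) (five 5 396 397))))) (mv 460 (both (five 4 396 396) (mv 395 (both (five 7 395 524) (mv 394 (both (five 3 394 430) (mv 393 (both (five 0 392 392) (five 3 393 426)))))))))))))))))) (both (mv 429 (both (mv 461 (both (five 7 396 396) (mv 524 (both (five 6 396 397) (five 6 428 556))))) (both (mv 430 (both (mv 431 (both (mv 463 (both (five 0 428 464) (mv 527 (both (five 7 398 398) (five 4 431 560))))) (mv 396 (both (five 3 395 395) (mv 400 (both (five 1 396 399) (mv 432 (both (five 3 396 397) (five 1 397 401))))))))) (both (mv 427 (both (mv 394 (both (five 3 394 395) (mv 426 (both (five 3 393 393) (mv 458 (both (five 2 425 457) (five 2 426 459))))))) (both (mv 398 (both (five 1 395 399) (mv 426 (both (five 1 394 397) (mv 458 (both (five 2 425 457) (five 2 426 459))))))) (both (mv 394 (both (five 3 394 395) (mv 398 (both (five 1 395 399) (mv 426 (both (five 3 393 393) (five 1 394 397))))))) (mv 395 (both (five 3 394 394) (mv 398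 (both (five 1 395 399) (mv 459 (both (five 2 426 458) (mv 462 (both (five 0 427 463) (mv 491 (both (five 4 395 524) (mv 396 (both (five 5 363 364) (five 5 395 523))))))))))))))))) (both (mv 427 (both (mv 398 (both (five 1 395 399) (mv 426 (both (five 1 394 397) (mv 458 (both (five 2 425 457) (five 2 426 459))))))) (both (mv 394 (both (five 3 394 395) (mv 398 (both (five 1 395 399) (mv 426 (both (five 3 393 393) (five 1 394 397))))))) (mv 395 (both (five 3 394 394) (mv 396 (both (five 3 395 431) (mv 459 (both (five 2 426 458) (mv 364 (both (five 6 331 332) (five 5 363 491)))))))))))) (both (mv 431 (both (mv 396 (both (five 3 395 395) (mv 400 (both (five 1 396 399) (mv 432 (both (five 3 396 397) (five 1 397 401))))))) (mv 463 (both (five 0 428 464) (mv 462 (both (five 0 427 427) (mv 527 (both (five 7 430 559) (five 4 431 560))))))))) (both (mv 427 (both (mv 394 (both (five 3 394 395) (mv 426 (both (five 3 393 393) (mv 458 (both (five 2 425 457) (five 2 426 459))))))) (mv 463 (both (five 0 427 462) (mv 431 (both (five 0 428 464) (mv 527 (both (five 7 398 398) (five 4 431 560))))))))) (mv 427 (both (mv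 458 (both (five 2 426 459) (mv 426 (both (five 2 425 457) (mv 393 (both (five 3 393 394) (mv 392 (both (five 3 392 425) (mv 463 (both (five 0 427 462) (mv 431 (both (five 0 428 464) (mv 400 (both (five 1 396 399) (mv 527 (both (five 5 399 432) (five 4 431 560))))))))))))))))) (both (mv 398 (both (five 1 395 399) (mv 426 (both (five 1 394 397) (mv 458 (both (five 2 425 457) (five 2 426 459))))))) (mv 463 (both (five 0 427 462) (mv 431 (both (five 0 428 464) (mv 527 (both (five 7 398 398) (five 4 431 560)))))))))))))))) (both (mv 461 (both (mv 524 (both (five 6 396 397) (five 6 428 556))) (mv 427 (both (mv 426 (both (five 0 426 462) (mv 393 (both (five 3 393 394) (mv 425 (both (five 3 392 392) (mv 457 (both (five 2 424 456) (five 2 425 458))))))))) (both (mv 430 (both (five 5 397 398) (mv 394 (both (five 3 394 395) (mv 426 (both (five 3 393 393) (mv 458 (both (five 2 425 457) (five 2 426 459))))))))) (mv 430 (both (five 5 397 398) (mv 463 (both (five 0 427 462) (mv 431 (both (five 0 428 464) (mv 400 (both (five 1 396 399) (mv 527 (both (five 5 399 432) (five 4 431 560)))))))))))))))) (mv 461 (both (five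 7 396 396) (mv 427 (both (mv 426 (both (five 0 426 462) (mv 393 (both (five 3 393 394) (mv 425 (both (five 3 392 392) (mv 457 (both (five 2 424 456) (five 2 425 458))))))))) (both (mv 430 (both (five 5 397 398) (mv 394 (both (five 3 394 395) (mv 426 (both (five 3 393 393) (mv 458 (both (five 2 425 457) (five 2 426 459))))))))) (mv 430 (both (five 5 397 398) (mv 463 (both (five 0 427 462) (mv 431 (both (five 0 428 464) (mv 400 (both (five 1 396 399) (mv 527 (both (five 5 399 432) (five 4 431 560)))))))))))))))))))) (both (mv 429 (both (mv 461 (both (mv 524 (both (five 6 396 397) (five 6 428 556))) (mv 427 (both (mv 426 (both (five 0 426 462) (mv 393 (both (five 3 393 394) (mv 425 (both (five 3 392 392) (mv 457 (both (five 2 424 456) (five 2 425 458))))))))) (both (mv 430 (both (five 5 397 398) (mv 394 (both (five 3 394 395) (mv 426 (both (five 3 393 393) (mv 458 (both (five 2 425 457) (five 2 426 459))))))))) (mv 430 (both (five 5 397 398) (mv 463 (both (five 0 427 462) (mv 431 (both (five 0 428 464) (mv 400 (both (five 1 396 399) (mv 527 (both (five 5 399 432) (five 4 431 560)))))))))))))))) (both (mv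 430 (both (mv 431 (both (mv 463 (both (five 0 428 464) (mv 527 (both (five 7 398 398) (five 4 431 560))))) (both (mv 400 (both (five 1 396 399) (mv 432 (both (five 1 397 401) (mv 460 (both (five 2 427 459) (mv 397 (both (five 5 396 524) (mv 333 (both (five 6 332 365) (mv 433 (both (five 3 397 398) (mv 465 (both (five 0 429 464) (five 0 430 466))))))))))))))) (both (mv 400 (both (five 1 396 399) (mv 432 (both (five 1 397 401) (mv 460 (both (five 2 427 459) (mv 397 (both (five 5 396 524) (mv 333 (both (five 6 332 365) (mv 398 (both (five 3 397 433) (mv 463 (both (five 7 398 527) (mv 366 (both (five 4 334 334) (five 4 366 462))))))))))))))))) (mv 399 (both (five 1 396 400) (mv 460 (both (five 2 427 459) (mv 463 (both (five 0 428 464) (mv 524 (both (five 5 396 397) (mv 527 (both (five 4 431 560) (mv 555 (both (five 6 427 523) (mv 556 (both (five 6 459 587) (mv 559 (both (five 7 430 462) (mv 588 (both (five 5 492 620) (mv 589 (both (five 4 492 621) (mv 590 (both (five 6 462 558) (five 3 555 591))))))))))))))))))))))))))) (both (mv 427 (both (mv 394 (both (five 3 394 395) (mv 426 (both (five 3 393 393) (mv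 458 (both (five 2 425 457) (five 2 426 459))))))) (both (mv 398 (both (five 1 395 399) (mv 426 (both (five 1 394 397) (mv 458 (both (five 2 425 457) (five 2 426 459))))))) (both (mv 394 (both (five 3 394 395) (mv 398 (both (five 1 395 399) (mv 426 (both (five 3 393 393) (five 1 394 397))))))) (mv 395 (both (five 3 394 394) (mv 398 (both (five 1 395 399) (mv 459 (both (five 2 426 458) (mv 460 (both (five 4 363 363) (five 7 395 524))))))))))))) (both (mv 427 (both (mv 463 (both (five 0 427 462) (mv 431 (both (five 0 428 464) (mv 400 (both (five 1 396 399) (mv 527 (both (five 5 399 432) (five 4 431 560))))))))) (both (mv 394 (both (five 3 394 395) (mv 398 (both (five 1 395 399) (mv 426 (both (five 3 393 393) (five 1 394 397))))))) (mv 463 (both (five 0 427 462) (mv 431 (both (five 0 428 464) (mv 527 (both (five 7 398 398) (five 4 431 560)))))))))) (both (mv 427 (both (mv 394 (both (five 3 394 395) (mv 426 (both (five 3 393 393) (mv 458 (both (five 2 425 457) (five 2 426 459))))))) (mv 463 (both (five 0 427 462) (mv 431 (both (five 0 428 464) (mv 400 (both (five 1 396 399) (mv 527 (both (five 5 399 432)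 (five 4 431 560))))))))))) (mv 427 (both (mv 394 (both (five 3 394 395) (mv 426 (both (five 3 393 393) (mv 458 (both (five 2 425 457) (five 2 426 459))))))) (mv 463 (both (five 0 427 462) (mv 431 (both (five 0 428 464) (mv 527 (both (five 7 398 398) (five 4 431 560)))))))))))))) (both (mv 430 (both (mv 427 (both (mv 394 (both (five 3 394 395) (mv 426 (both (five 3 393 393) (mv 458 (both (five 2 425 457) (five 2 426 459))))))) (mv 463 (both (five 0 427 462) (mv 431 (both (five 0 428 464) (mv 400 (both (five 1 396 399) (mv 527 (both (five 5 399 432) (five 4 431 560))))))))))) (both (mv 431 (both (mv 463 (both (five 0 428 464) (mv 527 (both (five 7 398 398) (five 4 431 560))))) (mv 400 (both (five 1 396 399) (mv 432 (both (five 1 397 401) (mv 460 (both (five 2 427 459) (five 2 428 461))))))))) (both (mv 398 (both (five 5 397 461) (mv 399 (both (five 1 395 427) (mv 400 (both (five 2 396 397) (five 2 397 401))))))) (mv 427 (both (mv 394 (both (five 3 394 395) (mv 426 (both (five 3 393 393) (mv 458 (both (five 2 425 457) (five 2 426 459))))))) (mv 463 (both (five 0 427 462) (mv 431 (both (five 0 428 464)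 (mv 527 (both (five 7 398 398) (five 4 431 560))))))))))))) (both (mv 461 (both (mv 427 (both (mv 426 (both (five 0 426 462) (mv 393 (both (five 3 393 394) (mv 425 (both (five 3 392 392) (mv 457 (both (five 2 424 456) (five 2 425 458))))))))) (both (mv 430 (both (five 5 397 398) (mv 394 (both (five 3 394 395) (mv 426 (both (five 3 393 393) (mv 458 (both (five 2 425 457) (five 2 426 459))))))))) (mv 430 (both (five 5 397 398) (mv 463 (both (five 0 427 462) (mv 431 (both (five 0 428 464) (mv 400 (both (five 1 396 399) (mv 527 (both (five 5 399 432) (five 4 431 560)))))))))))))) (both (mv 427 (both (mv 524 (both (five 6 428 556) (mv 395 (both (five 7 395 460) (mv 491 (both (five 4 395 459) (mv 490 (both (five 0 489 489) (mv 458 (both (five 3 457 457) (mv 522 (both (five 5 394 426) (five 2 489 521))))))))))))) (both (mv 524 (both (five 6 428 556) (mv 395 (both (five 7 395 460) (mv 491 (both (five 4 395 459) (mv 490 (both (five 1 458 462) (five 0 489 489))))))))) (mv 426 (both (five 0 426 462) (mv 393 (both (five 3 393 394) (mv 425 (both (five 3 392 392) (mv 457 (both (five 2 424 456) (five 2 425 458))))))))))))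 (both (mv 460 (both (mv 430 (both (five 5 397 398) (mv 431 (both (five 2 428 432) (five 2 427 459))))) (both (mv 524 (both (five 5 428 556) (mv 427 (both (five 7 395 395) (mv 523 (both (five 6 427 555) (mv 522 (both (five 1 489 521) (mv 490 (both (five 3 489 489) (mv 554 (both (five 2 521 553) (mv 459 (both (five 5 426 458) (five 6 426 491))))))))))))))) (mv 398 (both (five 5 397 430) (mv 524 (both (five 5 428 556) (mv 427 (both (five 7 395 395) (mv 426 (both (five 0 425 425) (mv 394 (both (five 3 393 393) (mv 458 (both (five 2 425 457) (mv 523 (both (five 6 427 555) (mv 490 (both (five 4 394 491) (mv 489 (both (five 6 393 521) (five 3 489 522)))))))))))))))))))))) (both (mv 460 (both (mv 430 (both (five 5 397 398) (mv 431 (both (five 2 428 432) (five 2 427 459))))) (both (mv 524 (both (five 5 428 556) (mv 523 (both (five 6 427 555) (mv 522 (both (five 1 489 521) (mv 490 (both (five 3 489 489) (mv 491 (both (five 1 458 462) (mv 457 (both (five 3 457 458) (mv 554 (both (five 2 521 553) (mv 586 (both (five 5 458 459) (five 5 490 618))))))))))))))))) (mv 430 (both (five 5 397 398) (mv 431 (both (five 2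 428 432) (mv 399 (both (five 1 396 400) (mv 463 (both (five 0 428 464) (mv 462 (both (five 2 459 491) (mv 527 (both (five 7 430 559) (five 4 431 560)))))))))))))))) (mv 462 (both (mv 427 (both (five 0 426 426) (mv 430 (both (five 5 397 398) (five 0 427 463))))) (both (mv 398 (both (five 5 397 430) (mv 427 (both (five 0 426 426) (mv 490 (both (five 1 458 491) (mv 524 (both (five 6 428 556) (mv 460 (both (five 7 395 395) (mv 523 (both (five 6 427 555) (mv 522 (both (five 3 489 489) (five 1 489 521))))))))))))))) (mv 463 (both (five 2 460 464) (mv 491 (both (five 2 459 460) (five 1 458 490))))))))))))) (both (mv 524 (both (mv 461 (both (five 6 396 397) (five 6 428 556))) (both (mv 460 (both (five 5 396 397) (mv 427 (both (five 7 395 395) (mv 555 (both (five 6 427 523) (mv 556 (both (five 7 427 459) (five 6 459 587))))))))) (both (mv 556 (both (five 6 428 461) (mv 588 (both (five 5 492 620) (mv 459 (both (five 7 459 491) (mv 460 (both (five 7 427 427) (mv 555 (both (five 6 427 523) (five 6 459 587))))))))))) (mv 397 (both (five 5 396 460) (five 6 396 461))))))) (both (mv 461 (both (mv 524 (both (five 6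 396 397) (five 6 428 556))) (both (mv 397 (both (mv 398 (both (five 5 365 366) (five 5 397 430))) (both (mv 365 (both (five 6 364 460) (mv 332 (both (five 7 332 364) (mv 333 (both (five 7 300 300) (mv 334 (both (five 5 301 302) (five 5 333 366))))))))) (mv 365 (both (five 6 364 460) (mv 332 (both (five 7 332 364) (mv 333 (both (five 7 300 300) (mv 430 (both (five 5 397 398) (five 4 333 462)))))))))))) (mv 460 (both (mv 430 (both (five 5 397 398) (mv 431 (both (five 2 428 432) (five 2 427 459))))) (both (mv 524 (both (five 5 428 556) (mv 523 (both (five 6 427 555) (mv 522 (both (five 1 489 521) (mv 490 (both (five 3 489 489) (mv 491 (both (five 1 458 462) (mv 457 (both (five 3 457 458) (mv 554 (both (five 2 521 553) (mv 586 (both (five 5 458 459) (five 5 490 618))))))))))))))))) (mv 430 (both (five 5 397 398) (mv 431 (both (five 2 428 432) (mv 399 (both (five 1 396 400) (mv 463 (both (five 0 428 464) (mv 462 (both (five 2 459 491) (mv 527 (both (five 7 430 559) (five 4 431 560))))))))))))))))))) (mv 461 (both (mv 524 (both (five 6 396 397) (five 6 428 556))) (both (mv 397 (both (mv 398 (both (five 5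 365 366) (five 5 397 430))) (both (mv 365 (both (five 6 364 460) (mv 332 (both (five 7 332 364) (mv 333 (both (five 7 300 300) (mv 334 (both (five 5 301 302) (five 5 333 366))))))))) (mv 365 (both (five 6 364 460) (mv 332 (both (five 7 332 364) (mv 333 (both (five 7 300 300) (mv 430 (both (five 5 397 398) (five 4 333 462)))))))))))) (mv 462 (both (mv 427 (both (five 0 426 426) (mv 430 (both (five 5 397 398) (five 0 427 463))))) (both (mv 398 (both (five 5 397 430) (mv 427 (both (five 0 426 426) (mv 490 (both (five 1 458 491) (mv 524 (both (five 6 428 556) (mv 460 (both (five 7 395 395) (mv 523 (both (five 6 427 555) (mv 522 (both (five 3 489 489) (five 1 489 521))))))))))))))) (mv 463 (both (five 2 460 464) (mv 491 (both (five 2 459 460) (five 1 458 490)))))))))))))))))) (both (mv 460 (both (five 4 396 396) (mv 524 (both (mv 555 (both (five 6 427 523) (mv 556 (both (five 6 459 587) (mv 588 (both (five 5 460 461) (five 5 492 620))))))) (both (mv 427 (both (five 7 395 395) (mv 556 (both (five 7 427 459) (mv 588 (both (five 5 460 461) (five 5 492 620))))))) (mv 427 (both (five 7 395 395) (mv 523 (both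 (five 6 427 555) (mv 522 (both (five 1 489 521) (mv 490 (both (five 3 489 489) (mv 554 (both (five 2 521 553) (mv 459 (both (five 5 426 458) (five 6 426 491)))))))))))))))))) (both (mv 396 (both (five 4 396 460) (mv 429 (both (five 7 396 461) (mv 395 (both (mv 394 (both (five 0 393 393) (mv 430 (both (five 0 394 397) (five 3 394 427))))) (both (mv 394 (both (five 0 393 393) (mv 397 (both (mv 362 (both (five 3 361 361) (mv 365 (both (five 1 362 366) (mv 333 (both (five 6 300 301) (mv 300 (both (five 7 300 332) (mv 334 (both (five 5 301 302) (mv 363 (both (five 1 330 364) (mv 299 (both (five 4 299 331) (mv 426 (both (five 2 393 425) (mv 458 (both (five 5 362 490) (mv 457 (both (five 2 425 427) (five 6 361 489))))))))))))))))))))) (both (mv 361 (both (five 3 361 362) (mv 366 (both (five 1 362 365) (mv 398 (both (five 1 363 367) (mv 302 (both (five 6 301 334) (mv 399 (both (five 2 396 400) (mv 431 (both (five 0 396 432) (five 7 366 463))))))))))))) (mv 426 (both (five 2 393 425) (mv 427 (both (five 2 394 398) (mv 458 (both (five 2 425 457) (mv 363 (both (five 6 330 331) (five 5 362 490)))))))))))))) (both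 (mv 430 (both (five 3 395 431) (mv 427 (both (mv 459 (both (five 2 426 458) (mv 364 (both (five 6 331 332) (five 5 363 491))))) (mv 398 (both (five 1 395 399) (mv 397 (both (five 2 394 426) (mv 362 (both (five 3 362 363) (mv 366 (both (five 1 363 367) (mv 334 (both (five 6 301 302) (mv 303 (both (five 5 302 335) (mv 333 (both (five 7 301 301) (mv 462 (both (five 4 333 365) (five 4 366 463))))))))))))))))))))) (both (mv 394 (both (five 0 393 393) (mv 430 (both (five 0 394 397) (five 3 395 431))))) (mv 394 (both (five 0 393 393) (mv 430 (both (five 3 394 427) (five 3 395 431)))))))))))))) (both (mv 460 (both (five 4 396 396) (mv 524 (both (mv 429 (both (five 5 396 397) (mv 555 (both (five 6 427 523) (mv 556 (both (five 5 428 461) (five 6 459 587))))))) (both (mv 427 (both (five 7 395 395) (mv 555 (both (five 6 427 523) (mv 556 (both (five 7 427 459) (five 6 459 587))))))) (both (mv 397 (both (five 5 396 429) (mv 427 (both (five 7 395 395) (mv 523 (both (five 6 427 555) (mv 522 (both (five 1 489 521) (mv 490 (both (five 3 489 489) (mv 554 (both (five 2 521 553) (mv 458 (both (five 5 426 459) (mv 425 (both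 (five 7 425 457) (mv 426 (both (five 7 393 393) (five 0 425 461))))))))))))))))))) (mv 427 (both (five 7 395 395) (mv 556 (both (five 7 427 459) (mv 588 (both (five 5 460 461) (five 5 492 620))))))))))))) (both (mv 491 (both (mv 490 (both (mv 489 (both (five 0 489 524) (mv 521 (both (five 2 488 520) (five 2 489 522))))) (both (mv 457 (both (five 3 457 458) (mv 461 (both (five 1 458 462) (mv 429 (both (five 7 396 396) (mv 524 (both (five 6 396 397) (five 6 428 556))))))))) (mv 457 (both (five 3 457 458) (mv 461 (both (five 1 458 462) (mv 396 (both (five 7 396 429) (mv 489 (both (five 3 456 456) (mv 521 (both (five 2 488 520) (five 2 489 522)))))))))))))) (both (mv 490 (both (mv 489 (both (five 0 489 524) (mv 521 (both (five 2 488 520) (five 2 489 522))))) (both (mv 458 (both (five 3 457 457) (mv 523 (both (mv 426 (both (five 4 394 394) (mv 555 (both (five 7 426 459) (five 7 458 587))))) (both (mv 426 (both (five 4 394 394) (mv 461 (both (five 1 458 462) (mv 522 (both (five 2 489 521) (mv 425 (both (five 7 393 393) (mv 459 (both (five 3 425 460) (mv 423 (both (five 0 423 424) (mv 554 (both (five 5 458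 586) (mv 553 (both (five 2 521 524) (five 6 457 585))))))))))))))))) (both (mv 461 (both (five 1 458 462) (mv 521 (both (five 2 489 522) (mv 555 (both (five 7 458 587) (mv 460 (both (five 5 427 459) (five 6 427 524))))))))) (mv 394 (both (five 4 394 426) (mv 461 (both (five 1 458 462) (mv 521 (both (five 2 489 522) (mv 555 (both (five 7 458 587) (mv 524 (both (five 6 427 460) (mv 429 (both (five 6 396 397) (five 6 428 556))))))))))))))))))) (both (mv 457 (both (five 3 457 458) (mv 489 (both (five 3 456 456) (mv 521 (both (five 2 488 520) (five 2 489 522))))))) (mv 457 (both (five 3 457 458) (mv 489 (both (five 3 456 456) (five 0 489 524))))))))) (both (mv 429 (both (mv 461 (both (five 7 396 396) (mv 524 (both (five 6 396 397) (five 6 428 556))))) (both (mv 524 (both (mv 460 (both (five 5 396 397) (mv 555 (both (five 6 427 523) (mv 556 (both (five 6 459 587) (mv 588 (both (five 7 459 459) (five 5 492 620))))))))) (both (mv 556 (both (five 6 428 461) (mv 588 (both (five 7 459 459) (five 5 492 620))))) (mv 397 (both (five 5 396 460) (five 6 396 461)))))) (both (mv 460 (both (five 4 396 396) (mv 524 (both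 (five 5 396 397) (mv 555 (both (five 6 427 523) (mv 556 (both (five 6 459 587) (mv 588 (both (five 7 459 459) (five 5 492 620))))))))))) (mv 396 (both (five 4 396 460) (five 7 396 461))))))) (both (mv 490 (both (mv 489 (both (five 0 489 524) (mv 521 (both (five 2 488 520) (five 2 489 522))))) (both (mv 555 (both (mv 458 (both (five 3 457 457) (mv 521 (both (five 2 489 522) (mv 523 (both (five 7 458 587) (mv 426 (both (five 4 394 394) (five 7 426 459))))))))) (both (mv 396 (both (five 4 396 460) (mv 458 (both (five 3 457 457) (mv 522 (both (five 2 489 521) (mv 554 (both (five 4 458 587) (mv 585 (both (five 6 457 553) (mv 586 (both (five 5 458 459) (five 6 489 617))))))))))))) (both (mv 460 (both (five 4 396 396) (mv 523 (both (five 5 427 459) (five 6 427 524))))) (mv 396 (both (five 4 396 460) (mv 458 (both (five 3 457 457) (mv 522 (both (five 2 489 521) (mv 523 (both (five 4 426 426) (five 7 458 587))))))))))))) (both (mv 457 (both (five 3 457 458) (mv 489 (both (five 3 456 456) (mv 521 (both (five 2 488 520) (five 2 489 522))))))) (mv 457 (both (five 3 457 458) (mv 489 (both (five 3 456 456) (five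 0 489 524))))))))) (mv 396 (both (five 4 396 460) (mv 461 (both (five 7 396 429) (mv 490 (both (five 1 458 462) (mv 457 (both (five 3 457 458) (mv 489 (both (five 3 456 456) (mv 521 (both (five 2 488 520) (five 2 489 522)))))))))))))))))) (both (mv 429 (both (mv 396 (both (five 4 396 460) (five 7 396 461))) (both (mv 461 (both (mv 524 (both (five 6 396 397) (five 6 428 556))) (both (mv 397 (both (mv 398 (both (five 5 365 366) (five 5 397 430))) (both (mv 365 (both (five 6 364 460) (mv 332 (both (five 7 332 364) (mv 333 (both (five 7 300 300) (mv 334 (both (five 5 301 302) (five 5 333 366))))))))) (mv 365 (both (five 6 364 460) (mv 332 (both (five 7 332 364) (mv 333 (both (five 7 300 300) (mv 430 (both (five 5 397 398) (five 4 333 462)))))))))))) (mv 462 (both (mv 427 (both (five 0 426 426) (mv 430 (both (five 5 397 398) (five 0 427 463))))) (both (mv 398 (both (five 5 397 430) (mv 427 (both (five 0 426 426) (mv 490 (both (five 1 458 491) (mv 524 (both (five 6 428 556) (mv 460 (both (five 7 395 395) (mv 523 (both (five 6 427 555) (mv 522 (both (five 3 489 489) (five 1 489 521))))))))))))))) (mv 463 (both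 (five 2 460 464) (mv 491 (both (five 2 459 460) (five 1 458 490))))))))))) (both (mv 427 (both (mv 460 (both (five 4 396 396) (mv 524 (both (five 7 395 395) (five 5 396 397))))) (both (mv 426 (both (mv 393 (both (five 3 393 394) (mv 425 (both (five 3 392 392) (mv 457 (both (five 2 424 456) (five 2 425 458))))))) (mv 398 (both (five 1 394 397) (mv 430 (both (five 1 395 399) (mv 463 (both (five 0 427 462) (mv 431 (both (five 0 428 464) (five 7 398 527))))))))))) (mv 460 (both (five 4 396 396) (mv 395 (both (five 7 395 524) (mv 394 (both (five 3 394 430) (mv 393 (both (five 0 392 392) (five 3 393 426)))))))))))) (mv 461 (both (five 7 396 396) (mv 524 (both (five 6 396 397) (five 6 428 556))))))))) (mv 460 (both (five 4 396 396) (mv 524 (both (mv 429 (both (five 5 396 397) (mv 555 (both (five 6 427 523) (mv 556 (both (five 5 428 461) (five 6 459 587))))))) (both (mv 427 (both (five 7 395 395) (mv 555 (both (five 6 427 523) (mv 556 (both (five 7 427 459) (five 6 459 587))))))) (both (mv 427 (both (five 7 395 395) (mv 429 (both (five 5 396 397) (mv 523 (both (five 6 427 555) (mv 522 (both (five 1 489 521)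 (mv 489 (both (five 3 489 490) (mv 554 (both (five 2 521 553) (mv 459 (both (five 6 426 491) (mv 430 (both (five 2 427 431) (mv 398 (both (five 1 395 399) (five 5 397 461))))))))))))))))))) (mv 427 (both (five 7 395 395) (mv 556 (both (five 7 427 459) (mv 588 (both (five 5 460 461) (five 5 492 620)))))))))))))))))))))) (both (mv 494 (both (mv 459 (both (five 3 459 460) (mv 463 (both (five 1 460 464) (mv 491 (both (five 3 458 458) (five 1 459 462))))))) (both (mv 463 (both (five 1 460 464) (mv 491 (both (five 1 459 462) (mv 523 (both (five 2 490 522) (five 2 491 524))))))) (both (mv 459 (both (five 3 459 460) (mv 491 (both (five 3 458 458) (mv 523 (both (five 2 490 522) (five 2 491 524))))))) (mv 460 (both (five 3 459 459) (mv 428 (both (five 4 396 396) (mv 463 (both (five 1 460 464) (mv 524 (both (five 2 491 523) (mv 395 (both (five 7 395 427) (mv 429 (both (five 5 396 397) (mv 556 (both (five 5 428 461) (mv 587 (both (five 6 459 555) (mv 588 (both (five 6 491 619) (five 5 492 620))))))))))))))))))))))) (both (mv 494 (both (five 0 492 527) (mv 459 (both (five 3 459 460) (mv 463 (both (five 1 460 464)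 (mv 491 (both (five 3 458 458) (five 1 459 462))))))))) (both (mv 494 (both (five 0 492 527) (mv 463 (both (five 1 460 464) (mv 491 (both (five 1 459 462) (mv 523 (both (five 2 490 522) (five 2 491 524))))))))) (both (mv 494 (both (five 0 492 527) (mv 459 (both (five 3 459 460) (mv 491 (both (five 3 458 458) (mv 523 (both (five 2 490 522) (five 2 491 524))))))))) (mv 494 (both (five 0 492 527) (mv 460 (both (five 3 459 459) (mv 428 (both (five 4 396 396) (mv 463 (both (five 1 460 464) (mv 524 (both (five 2 491 523) (mv 395 (both (five 7 395 427) (mv 429 (both (five 5 396 397) (mv 556 (both (five 5 428 461) (mv 587 (both (five 6 459 555) (mv 588 (both (five 6 491 619) (five 5 492 620))))))))))))))))))))))))))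

theorem L42 : W (S 988530863186674619578336756865110845819126775104098558876359956461909287475517697927706188055377193898211299979079754656078381545756745792834308240066213838848) (S 16860444460057866813236132717195619389842407141869227286329977002387795163081404795406372290782076857371186199227873999360106503321792986605784037643119123732730913035709961946978716745728) :=
  check_sound Env.nil (x := 492) (t := tL42) (by decide +kernel)

def tL43 : T :=
  (both (mv 461 (both (mv 429 (both (mv 463 (both (mv 560 (both (mv 431 (both (five 4 431 527) (mv 496 (both (five 4 399 399) (five 7 431 464))))) (both (mv 527 (both (five 4 431 431) (mv 592 (both (five 4 463 559) (five 7 495 624))))) (both (mv 496 (both (five 7 463 592) (mv 431 (both (five 4 399 399) (five 7 431 464))))) (mv 592 (both (five 7 463 496) (mv 527 (both (five 4 463 559) (five 7 495 624))))))))) (both (mv 524 (both (five 6 428 556) (mv 492 (both (five 6 396 397) (mv 462 (both (five 2 460 464) (mv 491 (both (five 2 459 460) (five 1 458 490))))))))) (mv 524 (both (five 6 428 556) (mv 397 (both (five 6 396 492) (mv 366 (both (five 5 365 398)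 (mv 365 (both (five 5 333 334) (mv 332 (both (five 7 332 364) (mv 333 (both (five 7 300 300) (mv 330 (both (five 0 330 331) (mv 460 (both (five 6 332 428) (mv 496 (both (five 0 460 462) (mv 431 (both (five 4 399 399) (mv 560 (both (five 4 431 527) (five 7 463 592)))))))))))))))))))))))))) (both (mv 524 (both (five 6 428 556) (mv 397 (both (five 6 396 492) (mv 364 (both (five 7 364 396) (mv 365 (both (five 7 332 332) (mv 366 (both (five 5 333 334) (five 5 365 398))))))))))) (both (mv 428 (both (five 7 396 396) (mv 427 (both (mv 426 (both (five 0 426 462) (mv 393 (both (five 3 393 394) (mv 425 (both (five 3 392 392) (five 0 425 460))))))) (both (mv 463 (both (mv 560 (both (mv 431 (both (five 4 431 527) (mv 496 (both (five 4 399 399) (five 7 431 464))))) (both (mv 527 (both (five 4 431 431) (mv 592 (both (five 4 463 559) (five 7 495 624))))) (both (mv 496 (both (five 7 463 592) (mv 431 (both (five 4 399 399) (five 7 431 464))))) (mv 592 (both (five 7 463 496) (mv 527 (both (five 4 463 559) (five 7 495 624))))))))) (mv 460 (both (five 3 427 462) (mv 524 (both (five 6 428 556) (mv 492 (both (five 7 395 395)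 (mv 523 (both (five 6 427 555) (mv 522 (both (five 1 489 521) (mv 490 (both (five 3 489 489) (mv 554 (both (five 2 521 553) (mv 459 (both (five 5 426 458) (five 6 426 491))))))))))))))))))) (both (mv 426 (both (mv 393 (both (five 3 393 394) (mv 425 (both (five 3 392 392) (five 0 425 460))))) (both (mv 394 (both (five 3 393 393) (mv 459 (both (mv 362 (both (five 4 330 330) (mv 491 (both (five 7 362 395) (five 7 394 523))))) (both (mv 362 (both (five 4 330 330) (mv 458 (both (five 2 425 457) (mv 329 (both (five 7 329 361) (mv 363 (both (five 5 330 331) (mv 490 (both (five 5 362 395) (mv 489 (both (five 2 457 460) (five 6 393 521))))))))))))) (both (mv 458 (both (five 2 425 457) (mv 491 (both (five 7 394 523) (mv 524 (both (five 6 428 556) (mv 395 (both (five 4 395 492) (mv 363 (both (five 6 330 331) (five 5 362 490))))))))))) (mv 362 (both (five 4 330 330) (mv 458 (both (five 2 425 457) (five 4 362 491))))))))))) (both (mv 393 (both (five 3 393 394) (mv 425 (both (five 3 392 392) (mv 457 (both (five 2 424 456) (five 2 425 458))))))) (mv 425 (both (five 0 425 460) (mv 457 (both (five 2 424 456) (five 2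 425 458))))))))) (mv 426 (both (five 0 426 462) (mv 393 (both (five 3 393 394) (mv 425 (both (five 3 392 392) (mv 457 (both (five 2 424 456) (five 2 425 458))))))))))))))) (mv 463 (both (mv 428 (both (five 7 396 396) (mv 462 (both (five 3 428 464) (mv 427 (both (five 0 426 426) (five 3 427 460))))))) (both (mv 560 (both (mv 431 (both (five 4 431 527) (mv 496 (both (five 4 399 399) (five 7 431 464))))) (both (mv 527 (both (five 4 431 431) (mv 592 (both (five 4 463 559) (five 7 495 624))))) (both (mv 496 (both (five 7 463 592) (mv 431 (both (five 4 399 399) (five 7 431 464))))) (mv 592 (both (five 7 463 496) (mv 527 (both (five 4 463 559) (five 7 495 624))))))))) (mv 397 (both (mv 396 (both (five 7 364 364) (five 7 396 428))) (both (mv 366 (both (five 5 365 398) (mv 365 (both (five 5 333 334) (mv 332 (both (five 7 332 364) (mv 333 (both (five 7 300 300) (mv 330 (both (five 0 330 331) (mv 460 (both (five 6 332 428) (mv 496 (both (five 0 460 462) (mv 431 (both (five 4 399 399) (mv 560 (both (five 4 431 527) (five 7 463 592))))))))))))))))))) (both (mv 364 (both (five 7 364 396) (mv 365 (both (five 7 332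 332) (mv 366 (both (five 5 333 334) (five 5 365 398))))))) (mv 366 (both (five 5 365 398) (mv 365 (both (five 5 333 334) (mv 428 (both (five 7 396 396) (mv 460 (both (five 6 332 333) (mv 496 (both (five 0 460 462) (mv 431 (both (five 4 399 399) (mv 560 (both (five 4 431 527) (five 7 463 592)))))))))))))))))))))))))) (both (mv 463 (both (mv 560 (both (mv 431 (both (five 4 431 527) (mv 496 (both (five 4 399 399) (five 7 431 464))))) (both (mv 527 (both (five 4 431 431) (mv 592 (both (five 4 463 559) (five 7 495 624))))) (both (mv 496 (both (five 7 463 592) (mv 431 (both (five 4 399 399) (five 7 431 464))))) (mv 592 (both (five 7 463 496) (mv 527 (both (five 4 463 559) (five 7 495 624))))))))) (both (mv 462 (both (mv 492 (both (five 2 460 464) (mv 491 (both (five 2 459 460) (five 1 458 490))))) (both (mv 431 (both (mv 527 (both (five 4 431 560) (mv 430 (both (five 7 398 398) (five 7 430 559))))) (mv 432 (both (five 1 428 460) (mv 433 (both (five 2 430 434) (five 1 429 464))))))) (both (mv 460 (both (mv 427 (both (five 3 427 428) (mv 459 (both (five 3 426 426) (mv 491 (both (five 2 458 490) (five 2 459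 492))))))) (mv 431 (both (five 1 428 432) (mv 527 (both (five 4 431 560) (mv 430 (both (five 7 398 398) (five 7 430 559))))))))) (mv 464 (both (five 2 460 492) (mv 432 (both (five 1 429 433) (mv 400 (both (five 6 367 368) (mv 527 (both (five 5 399 431) (five 5 431 559))))))))))))) (both (mv 462 (both (mv 492 (both (five 2 460 464) (mv 491 (both (five 2 459 460) (five 1 458 490))))) (both (mv 460 (both (five 0 460 496) (mv 427 (both (five 3 427 428) (mv 459 (both (five 3 426 426) (mv 491 (both (five 2 458 490) (five 2 459 492))))))))) (both (mv 464 (both (five 2 460 492) (mv 433 (both (five 1 429 432) (mv 465 (both (five 1 430 434) (mv 496 (both (five 0 461 497) (five 5 432 560))))))))) (mv 496 (both (five 0 460 460) (mv 464 (both (five 0 461 497) (mv 433 (both (five 1 429 432) (mv 465 (both (five 1 430 434) (five 5 432 560))))))))))))) (both (mv 462 (both (mv 464 (both (five 2 460 492) (mv 432 (both (five 1 429 433) (mv 400 (both (five 6 367 368) (mv 496 (both (five 0 461 497) (five 6 399 527))))))))) (both (mv 492 (both (five 2 460 464) (mv 491 (both (five 2 459 460) (five 1 458 490))))) (mv 460 (both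 (five 0 460 496) (mv 427 (both (five 3 427 428) (mv 431 (both (five 1 428 432) (mv 459 (both (five 3 426 426) (five 1 427 430)))))))))))) (mv 431 (both (mv 399 (both (five 4 399 496) (mv 366 (both (five 7 366 398) (mv 367 (both (five 7 334 334) (mv 368 (both (five 5 335 336) (five 5 367 400))))))))) (both (mv 527 (both (five 4 431 560) (mv 430 (both (five 7 398 398) (mv 559 (both (five 7 430 462) (mv 590 (both (five 6 462 558) (mv 591 (both (five 6 494 622) (mv 623 (both (five 5 495 496) (mv 624 (both (five 4 527 656) (five 4 495 592))))))))))))))) (both (mv 527 (both (five 4 431 560) (mv 398 (both (five 7 398 430) (mv 399 (both (five 7 366 366) (mv 400 (both (five 5 367 368) (five 5 399 432))))))))) (mv 399 (both (five 4 399 496) (mv 400 (both (five 5 367 368) (mv 527 (both (five 5 399 432) (five 4 431 560)))))))))))))))) (both (mv 429 (both (mv 396 (both (five 7 396 428) (mv 397 (both (five 7 364 364) (mv 398 (both (five 5 365 366) (five 5 397 430))))))) (both (mv 398 (both (five 5 397 430) (mv 397 (both (five 5 365 366) (mv 524 (both (five 6 396 492) (five 6 428 556))))))) (both (mv 396 (both (five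 7 396 428) (mv 397 (both (five 7 364 364) (mv 524 (both (five 6 396 492) (five 6 428 556))))))) (mv 428 (both (five 7 396 396) (mv 427 (both (mv 426 (both (five 0 426 462) (mv 393 (both (five 3 393 394) (mv 425 (both (five 3 392 392) (five 0 425 460))))))) (both (mv 430 (both (five 5 397 398) (mv 395 (both (five 3 394 394) (mv 459 (both (five 2 426 458) (mv 524 (both (five 6 428 556) (mv 492 (both (five 7 395 460) (five 4 395 491))))))))))) (both (mv 426 (both (five 0 426 462) (mv 393 (both (five 3 393 394) (mv 425 (both (five 3 392 392) (mv 457 (both (five 2 424 456) (five 2 425 458))))))))) (mv 426 (both (five 0 426 462) (mv 425 (both (five 0 425 460) (mv 457 (both (five 2 424 456) (five 2 425 458))))))))))))))))) (both (mv 429 (both (mv 398 (both (five 5 397 430) (mv 397 (both (five 5 365 366) (mv 524 (both (five 6 396 492) (five 6 428 556))))))) (both (mv 396 (both (five 7 396 428) (mv 397 (both (five 7 364 364) (mv 524 (both (five 6 396 492) (five 6 428 556))))))) (mv 430 (both (five 5 397 398) (mv 428 (both (five 7 396 396) (mv 427 (both (mv 394 (both (five 3 394 395) (mv 426 (both (five 3 393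 393) (mv 425 (both (five 0 425 460) (mv 457 (both (five 2 424 456) (five 2 425 458))))))))) (both (mv 394 (both (five 3 394 395) (mv 426 (both (five 3 393 393) (mv 460 (both (five 0 425 425) (mv 431 (both (five 2 428 432) (five 2 427 459))))))))) (both (mv 394 (both (five 3 394 395) (mv 426 (both (five 3 393 393) (mv 458 (both (five 2 425 457) (five 2 426 459))))))) (mv 459 (both (five 2 426 458) (mv 431 (both (five 2 427 460) (mv 400 (both (five 1 396 399) (mv 432 (both (five 1 397 401) (mv 463 (both (five 5 399 527) (mv 368 (both (five 6 335 336) (five 6 367 464)))))))))))))))))))))))) (both (mv 431 (both (mv 429 (both (mv 524 (both (five 6 428 556) (mv 397 (both (five 6 396 492) (mv 364 (both (five 7 364 396) (mv 365 (both (five 7 332 332) (mv 366 (both (five 5 333 334) (five 5 365 398))))))))))) (both (mv 524 (both (five 6 428 556) (mv 397 (both (five 6 396 492) (mv 364 (both (five 7 364 396) (mv 365 (both (five 7 332 332) (mv 334 (both (five 5 333 366) (mv 333 (both (five 5 301 302) (mv 335 (both (five 2 332 336) (mv 430 (both (five 4 333 462) (mv 432 (both (five 2 428 460) (mv 401 (both (five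 1 397 400) (mv 433 (both (five 1 398 402) (mv 465 (both (five 0 429 464) (five 0 430 466))))))))))))))))))))))))) (mv 430 (both (five 5 397 398) (mv 432 (both (five 2 428 460) (mv 401 (both (five 1 397 400) (mv 433 (both (five 1 398 402) (five 2 429 462)))))))))))) (both (mv 463 (both (mv 496 (both (five 4 399 399) (mv 560 (both (five 7 431 464) (five 7 463 592))))) (both (mv 527 (both (five 4 431 560) (mv 432 (both (five 5 399 400) (mv 559 (both (five 5 431 464) (mv 590 (both (five 6 462 558) (mv 591 (both (five 6 494 622) (mv 623 (both (five 5 495 496) (mv 624 (both (five 4 527 656) (five 4 495 592))))))))))))))) (both (mv 527 (both (five 4 431 560) (mv 398 (both (five 7 398 430) (mv 399 (both (five 7 366 366) (mv 400 (both (five 5 367 368) (five 5 399 432))))))))) (mv 399 (both (five 4 399 496) (mv 366 (both (five 7 366 398) (mv 367 (both (five 7 334 334) (mv 368 (both (five 5 335 336) (five 5 367 400))))))))))))) (both (mv 463 (both (mv 496 (both (five 4 399 399) (mv 560 (both (five 7 431 464) (five 7 463 592))))) (both (mv 527 (both (five 4 431 560) (mv 430 (both (five 7 398 398) (mv 462 (both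 (five 7 430 559) (mv 492 (both (five 2 460 464) (mv 491 (both (five 2 459 460) (five 1 458 490))))))))))) (mv 399 (both (five 4 399 496) (mv 366 (both (five 7 366 398) (mv 367 (both (five 7 334 334) (mv 368 (both (five 5 335 336) (five 5 367 400)))))))))))) (both (mv 463 (both (mv 399 (both (five 4 399 496) (mv 366 (both (five 7 366 398) (mv 367 (both (five 7 334 334) (mv 368 (both (five 5 335 336) (five 5 367 400))))))))) (both (mv 527 (both (five 4 431 560) (mv 430 (both (five 7 398 398) (mv 559 (both (five 7 430 462) (mv 590 (both (five 6 462 558) (mv 591 (both (five 6 494 622) (mv 623 (both (five 5 495 496) (mv 624 (both (five 4 527 656) (five 4 495 592))))))))))))))) (both (mv 527 (both (five 4 431 560) (mv 398 (both (five 7 398 430) (mv 399 (both (five 7 366 366) (mv 400 (both (five 5 367 368) (five 5 399 432))))))))) (mv 399 (both (five 4 399 496) (mv 400 (both (five 5 367 368) (mv 527 (both (five 5 399 432) (five 4 431 560))))))))))) (both (mv 463 (both (mv 496 (both (five 4 399 399) (mv 560 (both (five 7 431 464) (five 7 463 592))))) (both (mv 527 (both (five 4 431 560) (mv 432 (both (five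 5 399 400) (mv 462 (both (five 1 428 460) (mv 433 (both (five 2 430 434) (five 1 429 464))))))))) (both (mv 399 (both (five 4 399 496) (mv 400 (both (five 5 367 368) (mv 432 (both (five 5 399 527) (mv 462 (both (five 1 428 460) (mv 433 (both (five 2 430 434) (five 1 429 464))))))))))) (mv 399 (both (five 4 399 496) (mv 400 (both (five 5 367 368) (mv 527 (both (five 5 399 432) (five 4 431 560))))))))))) (mv 463 (both (mv 496 (both (five 4 399 399) (mv 560 (both (five 7 431 464) (five 7 463 592))))) (both (mv 527 (both (five 4 431 560) (mv 430 (both (five 7 398 398) (mv 462 (both (five 7 430 559) (mv 492 (both (five 2 460 464) (mv 491 (both (five 2 459 460) (five 1 458 490))))))))))) (both (mv 399 (both (five 4 399 496) (mv 366 (both (five 7 366 398) (mv 367 (both (five 7 334 334) (mv 336 (both (five 5 335 368) (mv 335 (both (five 5 303 304) (mv 432 (both (five 4 335 464) (mv 462 (both (five 6 334 430) (five 1 428 460))))))))))))))) (mv 399 (both (five 4 399 496) (mv 398 (both (five 7 366 366) (mv 527 (both (five 7 398 430) (five 4 431 560))))))))))))))))) (both (mv 429 (both (mv 396 (both (five 7 396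 428) (mv 397 (both (five 7 364 364) (mv 398 (both (five 5 365 366) (five 5 397 430))))))) (both (mv 463 (both (mv 428 (both (five 7 396 396) (mv 462 (both (five 3 428 464) (mv 427 (both (five 0 426 426) (five 3 427 460))))))) (both (mv 560 (both (mv 431 (both (five 4 431 527) (mv 496 (both (five 4 399 399) (five 7 431 464))))) (both (mv 527 (both (five 4 431 431) (mv 592 (both (five 4 463 559) (five 7 495 624))))) (both (mv 496 (both (five 7 463 592) (mv 431 (both (five 4 399 399) (five 7 431 464))))) (mv 592 (both (five 7 463 496) (mv 527 (both (five 4 463 559) (five 7 495 624))))))))) (mv 397 (both (mv 396 (both (five 7 364 364) (five 7 396 428))) (both (mv 366 (both (five 5 365 398) (mv 365 (both (five 5 333 334) (mv 332 (both (five 7 332 364) (mv 333 (both (five 7 300 300) (mv 330 (both (five 0 330 331) (mv 460 (both (five 6 332 428) (mv 496 (both (five 0 460 462) (mv 431 (both (five 4 399 399) (mv 560 (both (five 4 431 527) (five 7 463 592))))))))))))))))))) (both (mv 364 (both (five 7 364 396) (mv 365 (both (five 7 332 332) (mv 366 (both (five 5 333 334) (five 5 365 398))))))) (mv 366 (both (five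 5 365 398) (mv 365 (both (five 5 333 334) (mv 428 (both (five 7 396 396) (mv 460 (both (five 6 332 333) (mv 496 (both (five 0 460 462) (mv 431 (both (five 4 399 399) (mv 560 (both (five 4 431 527) (five 7 463 592)))))))))))))))))))))) (both (mv 463 (both (mv 560 (both (mv 431 (both (five 4 431 527) (mv 496 (both (five 4 399 399) (five 7 431 464))))) (both (mv 527 (both (five 4 431 431) (mv 592 (both (five 4 463 559) (five 7 495 624))))) (both (mv 496 (both (five 7 463 592) (mv 431 (both (five 4 399 399) (five 7 431 464))))) (mv 592 (both (five 7 463 496) (mv 527 (both (five 4 463 559) (five 7 495 624))))))))) (both (mv 398 (both (five 5 397 430) (mv 366 (both (five 5 365 397) (mv 431 (both (five 7 366 399) (mv 527 (both (five 4 431 560) (mv 432 (both (five 5 399 400) (mv 462 (both (five 1 428 460) (mv 433 (both (five 2 430 434) (five 1 429 464))))))))))))))) (both (mv 397 (both (mv 398 (both (five 5 365 366) (five 5 397 430))) (both (mv 364 (both (five 7 364 396) (mv 365 (both (five 7 332 332) (mv 334 (both (five 5 333 366) (mv 333 (both (five 5 301 302) (mv 335 (both (five 2 332 336) (mv 362 (both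 (five 1 330 363) (mv 462 (both (five 4 333 430) (mv 496 (both (five 0 460 460) (mv 464 (both (five 0 461 497) (mv 433 (both (five 1 429 432) (mv 465 (both (five 1 430 434) (five 5 432 560))))))))))))))))))))))) (both (mv 364 (both (five 7 364 396) (mv 365 (both (five 7 332 332) (mv 430 (both (five 5 397 398) (mv 462 (both (five 4 333 333) (mv 496 (both (five 0 460 460) (mv 464 (both (five 0 461 497) (mv 433 (both (five 1 429 432) (mv 465 (both (five 1 430 434) (five 5 432 560))))))))))))))))) (mv 364 (both (five 7 364 396) (mv 365 (both (five 7 332 332) (mv 366 (both (five 5 333 334) (five 5 365 398))))))))))) (both (mv 398 (both (five 5 397 430) (mv 397 (both (five 5 365 366) (mv 364 (both (five 7 364 396) (mv 365 (both (five 7 332 332) (mv 362 (both (five 0 362 363) (mv 399 (both (five 3 364 400) (mv 496 (both (five 4 399 431) (mv 462 (both (five 0 460 460) (mv 497 (both (five 0 461 464) (five 3 462 498))))))))))))))))))) (mv 431 (both (mv 399 (both (five 4 399 496) (mv 366 (both (five 7 366 398) (mv 367 (both (five 7 334 334) (mv 368 (both (five 5 335 336) (five 5 367 400))))))))) (both (mv 527 (both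 (five 4 431 560) (mv 430 (both (five 7 398 398) (mv 559 (both (five 7 430 462) (mv 590 (both (five 6 462 558) (mv 591 (both (five 6 494 622) (mv 623 (both (five 5 495 496) (mv 624 (both (five 4 527 656) (five 4 495 592))))))))))))))) (both (mv 527 (both (five 4 431 560) (mv 398 (both (five 7 398 430) (mv 399 (both (five 7 366 366) (mv 400 (both (five 5 367 368) (five 5 399 432))))))))) (mv 399 (both (five 4 399 496) (mv 400 (both (five 5 367 368) (mv 527 (both (five 5 399 432) (five 4 431 560)))))))))))))))) (both (mv 463 (both (mv 428 (both (five 7 396 396) (mv 462 (both (five 3 428 464) (mv 427 (both (five 0 426 426) (five 3 427 460))))))) (both (mv 560 (both (mv 431 (both (five 4 431 527) (mv 496 (both (five 4 399 399) (five 7 431 464))))) (both (mv 527 (both (five 4 431 431) (mv 592 (both (five 4 463 559) (five 7 495 624))))) (both (mv 496 (both (five 7 463 592) (mv 431 (both (five 4 399 399) (five 7 431 464))))) (mv 592 (both (five 7 463 496) (mv 527 (both (five 4 463 559) (five 7 495 624))))))))) (mv 431 (both (mv 399 (both (five 4 399 496) (mv 400 (both (five 5 367 368) (mv 527 (both (five 5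 399 432) (five 4 431 560))))))) (both (mv 396 (both (five 7 396 428) (mv 364 (both (five 7 364 397) (mv 524 (both (five 6 428 556) (mv 527 (both (five 4 431 560) (mv 432 (both (five 5 399 400) (mv 460 (both (five 2 428 430) (five 1 428 462))))))))))))) (both (mv 396 (both (five 7 396 428) (mv 364 (both (five 7 364 397) (mv 399 (both (five 4 399 496) (mv 368 (both (five 5 367 400) (mv 367 (both (five 5 335 336) (mv 366 (both (five 7 334 334) (mv 365 (both (five 2 363 395) (mv 332 (both (five 3 331 331) (five 3 332 333))))))))))))))))) (mv 396 (both (five 7 396 428) (mv 364 (both (five 7 364 397) (mv 496 (both (five 4 399 399) (mv 560 (both (five 4 431 527) (five 7 463 592)))))))))))))))) (both (mv 463 (both (mv 560 (both (mv 431 (both (five 4 431 527) (mv 496 (both (five 4 399 399) (five 7 431 464))))) (both (mv 527 (both (five 4 431 431) (mv 592 (both (five 4 463 559) (five 7 495 624))))) (both (mv 496 (both (five 7 463 592) (mv 431 (both (five 4 399 399) (five 7 431 464))))) (mv 592 (both (five 7 463 496) (mv 527 (both (five 4 463 559) (five 7 495 624))))))))) (both (mv 462 (both (mv 496 (both (five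 0 460 460) (mv 464 (both (five 0 461 497) (mv 433 (both (five 1 429 432) (mv 465 (both (five 1 430 434) (five 5 432 560))))))))) (both (mv 430 (both (five 5 397 398) (mv 427 (both (five 0 427 428) (mv 460 (both (five 0 460 496) (mv 459 (both (five 3 426 426) (five 1 426 458))))))))) (both (mv 398 (both (five 5 397 430) (mv 366 (both (five 5 365 397) (mv 428 (both (five 3 428 464) (mv 427 (both (five 0 426 426) (five 3 427 460))))))))) (mv 398 (both (five 5 397 430) (mv 366 (both (five 5 365 397) (mv 464 (both (five 3 428 428) (mv 433 (both (five 1 429 432) (mv 465 (both (five 1 430 434) (mv 496 (both (five 0 461 497) (five 5 432 560))))))))))))))))) (both (mv 398 (both (five 5 397 430) (mv 366 (both (five 5 365 397) (mv 431 (both (five 7 366 399) (mv 527 (both (five 4 431 560) (mv 432 (both (five 5 399 400) (mv 462 (both (five 1 428 460) (mv 433 (both (five 2 430 434) (five 1 429 464))))))))))))))) (both (mv 431 (both (mv 399 (both (five 4 399 496) (mv 366 (both (five 7 366 398) (mv 367 (both (five 7 334 334) (mv 368 (both (five 5 335 336) (five 5 367 400))))))))) (both (mv 527 (both (five 4 431 560)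 (mv 430 (both (five 7 398 398) (mv 559 (both (five 7 430 462) (mv 590 (both (five 6 462 558) (mv 591 (both (five 6 494 622) (mv 623 (both (five 5 495 496) (mv 624 (both (five 4 527 656) (five 4 495 592))))))))))))))) (both (mv 527 (both (five 4 431 560) (mv 398 (both (five 7 398 430) (mv 399 (both (five 7 366 366) (mv 400 (both (five 5 367 368) (five 5 399 432))))))))) (mv 399 (both (five 4 399 496) (mv 400 (both (five 5 367 368) (mv 527 (both (five 5 399 432) (five 4 431 560))))))))))) (mv 462 (both (mv 428 (both (five 3 428 464) (mv 427 (both (five 0 426 426) (five 3 427 460))))) (both (mv 460 (both (five 0 460 496) (mv 427 (both (five 3 427 428) (mv 431 (both (five 1 428 432) (mv 459 (both (five 3 426 426) (five 1 427 430))))))))) (both (mv 398 (both (five 5 397 430) (mv 366 (both (five 5 365 397) (mv 399 (both (five 7 366 431) (mv 496 (both (five 0 460 460) (mv 497 (both (five 0 461 464) (five 3 462 498))))))))))) (mv 398 (both (five 5 397 430) (mv 366 (both (five 5 365 397) (mv 399 (both (five 7 366 431) (mv 464 (both (five 3 428 428) (mv 432 (both (five 1 429 433) (mv 400 (both (five 6 367 368)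 (mv 496 (both (five 0 461 497) (five 6 399 527)))))))))))))))))))))))) (mv 430 (both (five 5 397 398) (mv 428 (both (five 7 396 396) (mv 427 (both (mv 394 (both (five 3 394 395) (mv 426 (both (five 3 393 393) (mv 425 (both (five 0 425 460) (mv 457 (both (five 2 424 456) (five 2 425 458))))))))) (both (mv 394 (both (five 3 394 395) (mv 426 (both (five 3 393 393) (mv 460 (both (five 0 425 425) (mv 431 (both (five 2 428 432) (five 2 427 459))))))))) (both (mv 394 (both (five 3 394 395) (mv 426 (both (five 3 393 393) (mv 458 (both (five 2 425 457) (five 2 426 459))))))) (mv 459 (both (five 2 426 458) (mv 431 (both (five 2 427 460) (mv 400 (both (five 1 396 399) (mv 432 (both (five 1 397 401) (mv 463 (both (five 5 399 527) (mv 368 (both (five 6 335 336) (five 6 367 464))))))))))))))))))))))))))) (both (mv 463 (both (mv 560 (both (mv 431 (both (five 4 431 527) (mv 496 (both (five 4 399 399) (five 7 431 464))))) (both (mv 527 (both (five 4 431 431) (mv 592 (both (five 4 463 559) (five 7 495 624))))) (both (mv 496 (both (five 7 463 592) (mv 431 (both (five 4 399 399) (five 7 431 464))))) (mv 592 (both (five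 7 463 496) (mv 527 (both (five 4 463 559) (five 7 495 624))))))))) (both (mv 429 (both (mv 396 (both (five 7 396 428) (mv 397 (both (five 7 364 364) (mv 524 (both (five 6 396 492) (five 6 428 556))))))) (both (mv 524 (both (five 6 428 556) (mv 492 (both (five 6 396 397) (mv 462 (both (five 2 460 464) (mv 491 (both (five 2 459 460) (five 1 458 490))))))))) (mv 428 (both (five 7 396 396) (mv 462 (both (five 3 428 464) (mv 427 (both (five 0 426 426) (five 3 427 460)))))))))) (mv 431 (both (mv 496 (both (five 4 399 399) (mv 560 (both (five 4 431 527) (five 7 463 592))))) (both (mv 527 (both (five 4 431 560) (mv 432 (both (five 5 399 400) (mv 460 (both (five 1 428 462) (mv 429 (both (five 2 428 430) (mv 396 (both (five 7 396 428) (mv 397 (both (five 7 364 364) (mv 524 (both (five 6 396 492) (five 6 428 556))))))))))))))) (mv 399 (both (five 4 399 496) (mv 368 (both (five 5 367 400) (mv 367 (both (five 5 335 336) (mv 334 (both (five 7 334 366) (mv 335 (both (five 7 302 302) (mv 332 (both (five 0 332 333) (mv 369 (both (five 3 334 370) (mv 462 (both (five 6 334 430) (mv 460 (both (five 1 428 432) (mv 428 (both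 (five 3 427 427) (mv 396 (both (five 4 364 364) (five 7 396 429))))))))))))))))))))))))))))) (both (mv 429 (both (mv 396 (both (five 7 396 428) (mv 397 (both (five 7 364 364) (mv 524 (both (five 6 396 492) (five 6 428 556))))))) (both (mv 398 (both (five 5 397 430) (mv 397 (both (five 5 365 366) (mv 524 (both (five 6 396 492) (five 6 428 556))))))) (mv 428 (both (five 7 396 396) (mv 427 (both (mv 426 (both (five 0 426 462) (mv 393 (both (five 3 393 394) (mv 425 (both (five 3 392 392) (mv 457 (both (five 2 424 456) (five 2 425 458))))))))) (both (mv 430 (both (five 5 397 398) (mv 394 (both (five 3 394 395) (mv 426 (both (five 3 393 393) (mv 458 (both (five 2 425 457) (five 2 426 459))))))))) (both (mv 430 (both (five 5 397 398) (mv 394 (both (five 3 394 395) (mv 458 (both (five 2 426 459) (mv 463 (both (five 0 427 462) (mv 431 (both (five 0 428 464) (mv 399 (both (five 1 396 400) (five 4 399 496))))))))))))) (both (mv 426 (both (five 0 426 462) (mv 394 (both (five 3 393 393) (mv 430 (both (five 3 394 395) (five 5 397 398))))))) (mv 426 (both (five 0 426 462) (mv 430 (both (five 5 397 398) (mv 458 (both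 (five 2 425 457) (five 2 426 459))))))))))))))))) (mv 429 (both (mv 396 (both (five 7 396 428) (mv 397 (both (five 7 364 364) (mv 524 (both (five 6 396 492) (five 6 428 556))))))) (both (mv 463 (both (mv 560 (both (mv 431 (both (five 4 431 527) (mv 496 (both (five 4 399 399) (five 7 431 464))))) (both (mv 527 (both (five 4 431 431) (mv 592 (both (five 4 463 559) (five 7 495 624))))) (both (mv 496 (both (five 7 463 592) (mv 431 (both (five 4 399 399) (five 7 431 464))))) (mv 592 (both (five 7 463 496) (mv 527 (both (five 4 463 559) (five 7 495 624))))))))) (both (mv 524 (both (five 6 428 556) (mv 492 (both (five 6 396 397) (mv 462 (both (five 2 460 464) (mv 491 (both (five 2 459 460) (five 1 458 490))))))))) (mv 431 (both (mv 496 (both (five 4 399 399) (mv 560 (both (five 4 431 527) (five 7 463 592))))) (mv 430 (both (five 5 397 398) (mv 432 (both (five 2 428 460) (mv 401 (both (five 1 397 400) (mv 433 (both (five 1 398 402) (five 2 429 462)))))))))))))) (mv 428 (both (five 7 396 396) (mv 427 (both (mv 426 (both (five 0 426 462) (mv 393 (both (five 3 393 394) (mv 425 (both (five 3 392 392) (mv 457 (both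 (five 2 424 456) (five 2 425 458))))))))) (both (mv 430 (both (five 5 397 398) (mv 394 (both (five 3 394 395) (mv 426 (both (five 3 393 393) (mv 458 (both (five 2 425 457) (five 2 426 459))))))))) (both (mv 430 (both (five 5 397 398) (mv 394 (both (five 3 394 395) (mv 458 (both (five 2 426 459) (mv 463 (both (five 0 427 462) (mv 431 (both (five 0 428 464) (mv 399 (both (five 1 396 400) (five 4 399 496))))))))))))) (both (mv 426 (both (five 0 426 462) (mv 394 (both (five 3 393 393) (mv 430 (both (five 3 394 395) (five 5 397 398))))))) (mv 426 (both (five 0 426 462) (mv 430 (both (five 5 397 398) (mv 458 (both (five 2 425 457) (five 2 426 459)))))))))))))))))))))))))) (both (ref 0) (both (mv 496 (both (mv 560 (both (mv 464 (both (mv 433 (both (five 5 432 465) (mv 432 (both (five 5 400 401) (mv 559 (both (five 6 431 527) (five 6 463 591))))))) (both (mv 431 (both (five 7 431 463) (mv 432 (both (five 7 399 399) (mv 559 (both (five 6 431 527) (five 6 463 591))))))) (mv 463 (both (five 7 431 431) (mv 465 (both (five 5 432 433) (mv 466 (both (five 2 463 467) (mv 434 (both (five 1 431 435) (mv 498 (both (five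 0 463 499) (mv 462 (both (five 0 462 497) (mv 429 (both (five 3 429 430) (mv 461 (both (five 3 428 428) (five 0 460 460)))))))))))))))))))) (both (mv 592 (both (mv 623 (both (five 6 495 591) (mv 624 (both (five 6 527 655) (mv 625 (both (five 4 496 593) (five 4 528 657))))))) (both (mv 465 (both (five 5 464 497) (mv 464 (both (five 5 432 433) (mv 593 (both (five 4 464 561) (five 4 496 625))))))) (mv 465 (both (five 5 464 497) (mv 464 (both (five 5 432 433) (mv 591 (both (five 6 463 559) (five 6 495 623)))))))))) (mv 463 (both (five 7 463 592) (mv 431 (both (five 4 399 399) (five 4 431 527)))))))) (both (mv 494 (both (five 2 492 524) (mv 461 (both (five 3 460 460) (mv 429 (both (mv 396 (both (five 7 396 428) (mv 397 (both (five 7 364 364) (mv 398 (both (five 5 365 366) (five 5 397 430))))))) (both (mv 396 (both (five 7 396 428) (mv 397 (both (five 7 364 364) (mv 462 (both (five 4 365 365) (five 3 461 497))))))) (both (mv 398 (both (five 5 397 430) (mv 397 (both (five 5 365 366) (mv 462 (both (five 4 365 365) (five 3 461 497))))))) (mv 428 (both (five 7 396 396) (mv 430 (both (five 5 397 398) (mv 462 (both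 (five 3 461 497) (mv 427 (both (five 0 426 426) (five 0 427 463))))))))))))))))) (mv 494 (both (five 2 492 524) (mv 464 (both (five 1 461 465) (mv 560 (both (mv 591 (both (five 6 463 559) (mv 592 (both (five 6 495 623) (mv 593 (both (five 4 464 561) (five 4 496 625))))))) (both (mv 593 (both (five 4 464 561) (mv 592 (both (five 4 496 625) (mv 623 (both (five 6 495 591) (mv 624 (both (five 7 495 527) (five 6 527 655))))))))) (both (mv 593 (both (five 4 464 561) (mv 592 (both (five 4 496 625) (mv 527 (both (five 7 495 624) (mv 432 (both (five 6 399 400) (five 6 431 559))))))))) (mv 559 (both (five 6 463 591) (mv 432 (both (five 6 431 527) (mv 399 (both (five 7 399 431) (mv 400 (both (five 7 367 367) (mv 401 (both (five 5 368 369) (five 5 400 433)))))))))))))))))))))) (both (mv 494 (both (mv 524 (both (five 2 492 496) (mv 523 (both (five 2 491 492) (five 1 490 522))))) (both (mv 492 (both (mv 459 (both (five 3 459 460) (mv 463 (both (five 1 460 464) (mv 491 (both (five 3 458 458) (five 1 459 462))))))) (both (mv 463 (both (five 1 460 464) (mv 491 (both (five 1 459 462) (mv 523 (both (five 2 490 522) (five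 2 491 524))))))) (both (mv 459 (both (five 3 459 460) (mv 491 (both (five 3 458 458) (mv 523 (both (five 2 490 522) (five 2 491 524))))))) (mv 460 (both (five 3 459 459) (mv 428 (both (five 4 396 396) (mv 463 (both (five 1 460 464) (mv 524 (both (five 2 491 523) (mv 395 (both (five 7 395 427) (mv 429 (both (five 5 396 397) (mv 556 (both (five 5 428 461) (mv 587 (both (five 6 459 555) (mv 588 (both (five 6 491 619) (five 5 492 620))))))))))))))))))))))) (both (mv 496 (both (mv 461 (both (five 3 460 460) (mv 465 (both (five 1 461 464) (mv 497 (both (five 3 461 462) (five 1 462 466))))))) (both (mv 461 (both (five 3 460 460) (mv 429 (both (mv 396 (both (five 7 396 428) (mv 397 (both (five 7 364 364) (mv 398 (both (five 5 365 366) (five 5 397 430))))))) (both (mv 396 (both (five 7 396 428) (mv 397 (both (five 7 364 364) (mv 462 (both (five 4 365 365) (five 3 461 497))))))) (both (mv 398 (both (five 5 397 430) (mv 397 (both (five 5 365 366) (mv 462 (both (five 4 365 365) (five 3 461 497))))))) (mv 428 (both (five 7 396 396) (mv 430 (both (five 5 397 398) (mv 462 (both (five 3 461 497) (mv 427 (both (five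 0 426 426) (five 0 427 463))))))))))))))) (mv 464 (both (five 1 461 465) (mv 463 (both (five 1 460 492) (mv 431 (both (five 4 399 399) (five 7 431 560)))))))))) (mv 496 (both (five 2 492 524) (mv 461 (both (five 3 460 460) (mv 465 (both (five 1 461 464) (mv 497 (both (five 3 461 462) (five 1 462 466))))))))))))) (both (mv 494 (both (mv 496 (both (mv 461 (both (five 3 460 460) (mv 465 (both (five 1 461 464) (mv 497 (both (five 3 461 462) (five 1 462 466))))))) (both (mv 461 (both (five 3 460 460) (mv 429 (both (mv 396 (both (five 7 396 428) (mv 397 (both (five 7 364 364) (mv 398 (both (five 5 365 366) (five 5 397 430))))))) (both (mv 396 (both (five 7 396 428) (mv 397 (both (five 7 364 364) (mv 462 (both (five 4 365 365) (five 3 461 497))))))) (both (mv 398 (both (five 5 397 430) (mv 397 (both (five 5 365 366) (mv 462 (both (five 4 365 365) (five 3 461 497))))))) (mv 428 (both (five 7 396 396) (mv 430 (both (five 5 397 398) (mv 462 (both (five 3 461 497) (mv 427 (both (five 0 426 426) (five 0 427 463))))))))))))))) (both (mv 463 (both (mv 431 (both (five 4 399 399) (mv 560 (both (five 7 431 464) (five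 7 463 592))))) (both (mv 431 (both (five 4 399 399) (mv 560 (both (five 4 431 527) (five 7 463 592))))) (mv 465 (both (five 1 461 464) (mv 497 (both (five 1 462 466) (mv 401 (both (five 6 400 433) (mv 498 (both (five 3 462 462) (mv 499 (both (five 2 495 527) (mv 531 (both (five 0 495 530) (five 0 496 532)))))))))))))))) (mv 464 (both (five 1 461 465) (mv 432 (both (mv 527 (both (five 6 399 400) (five 6 431 559))) (both (mv 399 (both (five 7 399 431) (mv 400 (both (five 7 367 367) (mv 401 (both (five 5 368 369) (five 5 400 433))))))) (mv 401 (both (five 5 400 433) (mv 431 (both (five 7 399 399) (mv 460 (both (five 3 460 461) (mv 559 (both (five 6 431 527) (mv 560 (both (five 7 431 463) (five 6 463 591)))))))))))))))))))) (both (mv 496 (both (mv 461 (both (five 3 460 460) (mv 465 (both (five 1 461 464) (mv 497 (both (five 3 461 462) (five 1 462 466))))))) (both (mv 461 (both (five 3 460 460) (mv 429 (both (mv 396 (both (five 7 396 428) (mv 397 (both (five 7 364 364) (mv 398 (both (five 5 365 366) (five 5 397 430))))))) (both (mv 396 (both (five 7 396 428) (mv 397 (both (five 7 364 364) (mv 462 (both (five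 4 365 365) (five 3 461 497))))))) (both (mv 398 (both (five 5 397 430) (mv 397 (both (five 5 365 366) (mv 462 (both (five 4 365 365) (five 3 461 497))))))) (mv 428 (both (five 7 396 396) (mv 430 (both (five 5 397 398) (mv 462 (both (five 3 461 497) (mv 427 (both (five 0 426 426) (five 0 427 463))))))))))))))) (mv 464 (both (five 1 461 465) (mv 463 (both (five 1 460 492) (mv 431 (both (five 4 399 399) (five 7 431 560)))))))))) (both (mv 496 (both (mv 460 (both (five 3 460 461) (mv 492 (both (five 3 459 459) (five 0 492 527))))) (both (mv 464 (both (five 1 461 465) (mv 527 (both (five 0 492 492) (mv 432 (both (five 6 399 400) (five 6 431 559))))))) (mv 461 (both (five 3 460 460) (mv 465 (both (five 1 461 464) (mv 497 (both (five 3 461 462) (five 1 462 466)))))))))) (both (mv 492 (both (five 0 492 527) (mv 459 (both (five 3 459 460) (mv 491 (both (five 3 458 458) (mv 462 (both (five 1 459 463) (mv 398 (both (five 6 397 430) (mv 490 (both (five 1 458 461) (mv 522 (both (five 2 489 521) (five 2 490 523))))))))))))))) (mv 464 (both (mv 492 (both (five 1 460 463) (five 0 492 527))) (both (mv 496 (both (five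 1 461 465) (mv 560 (both (mv 431 (both (five 7 431 463) (mv 432 (both (five 7 399 399) (mv 559 (both (five 6 431 527) (five 6 463 591))))))) (both (mv 592 (both (five 7 463 463) (mv 623 (both (five 6 495 591) (mv 624 (both (five 6 527 655) (mv 625 (both (five 4 496 593) (five 4 528 657))))))))) (mv 593 (both (five 4 464 561) (mv 592 (both (five 4 496 625) (mv 527 (both (five 7 495 624) (mv 432 (both (five 6 399 400) (five 6 431 559)))))))))))))) (both (mv 496 (both (five 1 461 465) (mv 527 (both (five 0 492 492) (mv 432 (both (five 6 399 400) (five 6 431 559))))))) (mv 463 (both (five 1 460 492) (mv 465 (both (five 2 462 466) (five 1 461 496)))))))))))))) (both (mv 494 (both (mv 492 (both (five 0 492 527) (mv 524 (both (five 2 492 496) (five 2 491 523))))) (both (mv 492 (both (five 0 492 527) (mv 459 (both (five 3 459 460) (mv 491 (both (five 3 458 458) (mv 523 (both (five 2 490 522) (five 2 491 524))))))))) (both (mv 496 (both (five 2 492 524) (mv 461 (both (five 3 460 460) (mv 465 (both (five 1 461 464) (mv 497 (both (five 3 461 462) (five 1 462 466))))))))) (mv 496 (both (mv 460 (both (five 3 460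 461) (mv 492 (both (five 3 459 459) (five 0 492 527))))) (both (mv 464 (both (five 1 461 465) (mv 527 (both (five 0 492 492) (mv 432 (both (five 6 399 400) (five 6 431 559))))))) (mv 461 (both (five 3 460 460) (mv 465 (both (five 1 461 464) (mv 497 (both (five 3 461 462) (five 1 462 466)))))))))))))) (both (mv 494 (both (mv 496 (both (five 2 492 524) (mv 464 (both (five 1 461 465) (mv 560 (both (mv 591 (both (five 6 463 559) (mv 592 (both (five 6 495 623) (mv 593 (both (five 4 464 561) (five 4 496 625))))))) (both (mv 593 (both (five 4 464 561) (mv 592 (both (five 4 496 625) (mv 623 (both (five 6 495 591) (mv 624 (both (five 7 495 527) (five 6 527 655))))))))) (both (mv 593 (both (five 4 464 561) (mv 592 (both (five 4 496 625) (mv 527 (both (five 7 495 624) (mv 432 (both (five 6 399 400) (five 6 431 559))))))))) (mv 559 (both (five 6 463 591) (mv 432 (both (five 6 431 527) (mv 399 (both (five 7 399 431) (mv 400 (both (five 7 367 367) (mv 401 (both (five 5 368 369) (five 5 400 433))))))))))))))))))) (both (mv 464 (both (mv 492 (both (five 1 460 463) (five 0 492 527))) (both (mv 496 (both (five 1 461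 465) (mv 560 (both (mv 431 (both (five 7 431 463) (mv 432 (both (five 7 399 399) (mv 559 (both (five 6 431 527) (five 6 463 591))))))) (both (mv 592 (both (five 7 463 463) (mv 623 (both (five 6 495 591) (mv 624 (both (five 6 527 655) (mv 625 (both (five 4 496 593) (five 4 528 657))))))))) (mv 593 (both (five 4 464 561) (mv 592 (both (five 4 496 625) (mv 527 (both (five 7 495 624) (mv 432 (both (five 6 399 400) (five 6 431 559)))))))))))))) (both (mv 496 (both (five 1 461 465) (mv 527 (both (five 0 492 492) (mv 432 (both (five 6 399 400) (five 6 431 559))))))) (mv 463 (both (five 1 460 492) (mv 465 (both (five 2 462 466) (five 1 461 496))))))))) (both (mv 492 (both (five 0 492 527) (mv 459 (both (five 3 459 460) (mv 491 (both (five 3 458 458) (mv 523 (both (five 2 490 522) (five 2 491 524))))))))) (mv 524 (both (five 2 492 496) (mv 523 (both (five 2 491 492) (five 1 490 522))))))))) (both (mv 494 (both (mv 492 (both (five 0 492 527) (mv 524 (both (five 2 492 496) (five 2 491 523))))) (both (mv 496 (both (five 2 492 524) (mv 461 (both (five 3 460 460) (mv 429 (both (mv 396 (both (five 7 396 428) (mv 397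 (both (five 7 364 364) (mv 398 (both (five 5 365 366) (five 5 397 430))))))) (both (mv 396 (both (five 7 396 428) (mv 397 (both (five 7 364 364) (mv 462 (both (five 4 365 365) (five 3 461 497))))))) (both (mv 398 (both (five 5 397 430) (mv 397 (both (five 5 365 366) (mv 462 (both (five 4 365 365) (five 3 461 497))))))) (mv 428 (both (five 7 396 396) (mv 430 (both (five 5 397 398) (mv 462 (both (five 3 461 497) (mv 427 (both (five 0 426 426) (five 0 427 463))))))))))))))))) (mv 492 (both (five 0 492 527) (mv 459 (both (five 3 459 460) (mv 491 (both (five 3 458 458) (mv 462 (both (five 1 459 463) (mv 398 (both (five 6 397 430) (mv 490 (both (five 1 458 461) (mv 522 (both (five 2 489 521) (five 2 490 523)))))))))))))))))) (mv 494 (both (mv 496 (both (five 2 492 524) (mv 465 (both (five 1 461 464) (mv 497 (both (five 1 462 466) (mv 462 (both (five 3 461 461) (mv 498 (both (five 3 462 463) (mv 499 (both (five 2 495 527) (mv 531 (both (five 0 495 530) (five 0 496 532))))))))))))))) (both (mv 492 (both (five 0 492 527) (mv 463 (both (five 1 460 464) (mv 491 (both (five 1 459 462) (mv 458 (both (five 3 458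 459) (mv 490 (both (five 3 457 457) (mv 522 (both (five 2 489 521) (five 2 490 523))))))))))))) (mv 524 (both (five 2 492 496) (mv 523 (both (five 2 491 492) (five 1 490 522))))))))))))))))

theorem L43 : W (S 988530863161101255454148148505632801312661156727406042891648512794071073662266652643294668095351646301915173751338452436331818490997235976069578606837084717056) (S 1046514379385634041209019744970624612047387978347646085181899490125530940393701175234792213635762179296104499367690609645695962669729594395863372340343061205598554039390030802293639004149008440492032) :=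
  check_sound (Env.cons L42 Env.nil) (x := 493) (t := tL43) (by decide +kernel)

def tL44 : T :=
  (both (mv 554 (both (mv 425 (both (five 7 425 457) (mv 426 (both (five 7 393 393) (mv 427 (both (five 5 394 395) (five 5 426 459))))))) (both (mv 427 (both (five 5 426 459) (mv 426 (both (five 5 394 395) (mv 553 (both (five 6 425 521) (five 6 457 585))))))) (mv 457 (both (five 7 425 425) (mv 585 (both (five 6 457 553) (mv 586 (both (five 7 457 489) (five 6 489 617)))))))))) (both (mv 524 (both (mv 523 (both (five 0 522 558) (five 1 489 521))) (both (mv 460 (both (five 4 428 428) (mv 459 (both (five 0 457 457) (mv 427 (both (five 7 427 556) (mv 426 (both (five 5 394 395) (mv 393 (both (five 7 393 425) (mv 394 (both (five 7 361 361) (mv 521 (both (five 6 393 489) (five 6 425 553))))))))))))))) (mv 558 (both (five 0 522 523) (mv 559 (both (five 3 524 560) (mv 527 (both (five 1 524 556) (mv 463 (both (five 6 462 590) (mv 430 (both (five 7 430 462) (mv 431 (both (five 7 398 398) (mv 432 (both (five 5 399 400) (five 5 431 464)))))))))))))))))) (both (mv 554 (both (mv 427 (both (five 5 426 459) (mv 426 (both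 (five 5 394 395) (mv 393 (both (five 7 393 425) (mv 394 (both (five 7 361 361) (mv 428 (both (five 3 393 429) (mv 460 (both (five 4 428 524) (five 4 396 396))))))))))))) (both (mv 457 (both (five 7 425 425) (mv 585 (both (five 6 457 553) (mv 586 (both (five 7 457 489) (five 6 489 617))))))) (mv 459 (both (five 5 426 427) (mv 460 (both (five 0 457 457) (mv 428 (both (five 4 428 524) (five 4 396 396)))))))))) (both (mv 426 (both (mv 393 (both (five 7 393 425) (mv 394 (both (five 7 361 361) (mv 395 (both (five 5 362 363) (five 5 394 427))))))) (both (mv 393 (both (five 7 393 425) (mv 394 (both (five 7 361 361) (mv 521 (both (five 6 393 489) (five 6 425 553))))))) (both (mv 395 (both (five 5 394 427) (mv 394 (both (five 5 362 363) (mv 521 (both (five 6 393 489) (five 6 425 553))))))) (mv 393 (both (five 7 393 425) (mv 427 (both (five 5 394 395) (mv 459 (both (five 5 426 554) (mv 521 (both (five 6 425 553) (mv 524 (both (five 1 489 523) (mv 460 (both (five 4 428 428) (five 7 427 556))))))))))))))))) (both (mv 426 (both (mv 395 (both (five 5 394 427) (mv 394 (both (five 5 362 363) (mv 521 (both (five 6 393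 489) (five 6 425 553))))))) (both (mv 393 (both (five 7 393 425) (mv 394 (both (five 7 361 361) (mv 521 (both (five 6 393 489) (five 6 425 553))))))) (mv 425 (both (five 7 393 393) (mv 427 (both (five 5 394 395) (mv 457 (both (five 7 425 554) (mv 428 (both (five 2 425 429) (five 2 424 456)))))))))))) (both (mv 524 (both (mv 523 (both (five 0 522 558) (five 1 489 521))) (mv 460 (both (five 4 428 428) (mv 457 (both (five 0 457 459) (mv 425 (both (five 7 425 554) (mv 393 (both (five 4 361 361) (five 7 393 426))))))))))) (mv 524 (both (mv 523 (both (five 0 522 558) (five 1 489 521))) (mv 460 (both (five 4 428 428) (mv 459 (both (five 0 457 457) (mv 427 (both (five 5 426 554) (five 7 427 556)))))))))))))))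

theorem L44 : W (S 471745304104953127553113514209452050052562562622261710736843779716296555971697863986360753981915853254399617134696452106672353338234826510051051997366499322872824070144) (S 543885309076530310384930713723321047270215394915680403469585888372208374499694610417291281039959752525500560983701326926099627228250574156748556990469684841843013370177300444404611284992) :=
  check_sound Env.nil (x := 458) (t := tL44) (by decide +kernel)

def tL45 : T :=
  (both (mv 557 (both (mv 522 (both (mv 490 (both (mv 586 (both (mv 554 (both (mv 619 (both (five 4 490 587) (mv 618 (both (five 4 522 651) (mv 489 (both (five 7 489 521) (five 7 457 457))))))) (both (mv 617 (both (five 6 489 585) (mv 618 (both (five 6 521 649) (mv 489 (both (five 7 489 521) (five 7 457 457))))))) (mv 585 (both (five 6 489 617) (mv 587 (both (five 4 490 619) (mv 556 (both (five 1 553 588) (five 2 553 555)))))))))) (both (mv 585 (both (mv 587 (both (mv 555 (both (mv 556 (both (five 1 552 584) (five 2 554 558))) (both (mv 619 (both (five 7 490 523) (mv 620 (both (five 0 584 584) (mv 621 (both (five 3 585 618) (five 3 586 622)))))))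 (mv 556 (both (five 2 554 558) (mv 523 (both (five 7 490 619) (mv 491 (both (five 6 490 618) (five 5 459 460)))))))))) (both (mv 620 (both (mv 619 (both (five 0 584 584) (mv 621 (both (five 3 585 618) (five 3 586 622))))) (both (mv 588 (both (five 0 585 621) (mv 616 (both (five 2 584 617) (mv 584 (both (five 2 583 615) (mv 552 (both (five 3 551 551) (five 3 552 553))))))))) (both (mv 621 (both (five 0 585 588) (mv 619 (both (five 3 585 618) (five 3 586 622))))) (mv 584 (both (five 0 584 619) (mv 616 (both (five 2 583 615) (mv 617 (both (five 2 584 588) (mv 552 (both (five 3 551 551) (mv 649 (both (five 7 552 681) (five 4 520 520))))))))))))))) (both (mv 556 (both (five 1 553 588) (mv 555 (both (five 2 554 558) (mv 523 (both (five 7 490 619) (mv 491 (both (five 6 490 618) (five 5 459 460))))))))) (mv 588 (both (five 1 553 556) (mv 616 (both (five 2 584 617) (mv 584 (both (five 2 583 615) (mv 552 (both (five 3 551 551) (five 3 552 553))))))))))))) (both (mv 587 (both (mv 588 (both (five 1 553 556) (mv 616 (both (five 2 584 617) (mv 620 (both (five 0 585 621) (mv 584 (both (five 2 583 615) (five 0 584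 619))))))))) (both (mv 555 (both (mv 556 (both (five 1 552 584) (five 2 554 558))) (both (mv 619 (both (five 7 490 523) (mv 620 (both (five 0 584 584) (mv 621 (both (five 3 585 618) (five 3 586 622))))))) (mv 556 (both (five 2 554 558) (mv 523 (both (five 7 490 619) (mv 521 (both (five 0 520 520) (mv 553 (both (five 5 489 617) (mv 489 (both (five 4 489 618) (mv 488 (both (five 0 487 487) (five 7 456 456)))))))))))))))) (both (mv 620 (both (mv 619 (both (five 0 584 584) (mv 621 (both (five 3 585 618) (five 3 586 622))))) (both (mv 588 (both (five 0 585 621) (mv 616 (both (five 2 584 617) (mv 584 (both (five 2 583 615) (mv 552 (both (five 3 551 551) (five 3 552 553))))))))) (both (mv 621 (both (five 0 585 588) (mv 619 (both (five 3 585 618) (five 3 586 622))))) (mv 584 (both (five 0 584 619) (mv 616 (both (five 2 583 615) (mv 617 (both (five 2 584 588) (mv 552 (both (five 3 551 551) (mv 649 (both (five 7 552 681) (five 4 520 520))))))))))))))) (both (mv 588 (both (five 1 553 556) (mv 617 (both (five 2 584 616) (mv 553 (both (five 3 552 552) (five 5 489 521))))))) (mv 588 (both (five 1 553 556) (mv 620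 (both (five 0 585 621) (mv 584 (both (five 0 584 619) (mv 552 (both (five 3 551 551) (five 3 552 553)))))))))))))) (both (mv 587 (both (mv 588 (both (five 1 553 556) (mv 616 (both (five 2 584 617) (mv 620 (both (five 0 585 621) (mv 584 (both (five 2 583 615) (five 0 584 619))))))))) (both (mv 620 (both (mv 619 (both (five 0 584 584) (mv 621 (both (five 3 585 618) (five 3 586 622))))) (both (mv 588 (both (five 0 585 621) (mv 616 (both (five 2 584 617) (mv 584 (both (five 2 583 615) (mv 552 (both (five 3 551 551) (mv 521 (both (five 2 489 491) (mv 520 (both (five 5 488 489) (mv 487 (both (five 7 487 519) (mv 488 (both (five 3 487 523) (five 7 455 455))))))))))))))))) (both (mv 621 (both (five 0 585 588) (mv 619 (both (five 3 585 618) (five 3 586 622))))) (mv 584 (both (five 0 584 619) (mv 616 (both (five 2 583 615) (mv 617 (both (five 2 584 588) (mv 552 (both (five 3 551 551) (mv 649 (both (five 7 552 681) (five 4 520 520))))))))))))))) (both (mv 555 (both (mv 556 (both (five 1 552 584) (five 2 554 558))) (both (mv 619 (both (five 7 490 523) (mv 620 (both (five 0 584 584) (mv 621 (both (five 3 585 618)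 (five 3 586 622))))))) (mv 556 (both (five 2 554 558) (mv 523 (both (five 7 490 619) (mv 491 (both (five 6 490 618) (five 5 459 460)))))))))) (both (mv 556 (both (five 1 553 588) (mv 555 (both (five 2 554 558) (mv 523 (both (five 7 490 619) (mv 491 (both (five 6 490 618) (five 5 459 460))))))))) (mv 588 (both (five 1 553 556) (mv 616 (both (five 2 584 617) (mv 584 (both (five 2 583 615) (mv 552 (both (five 3 551 551) (mv 521 (both (five 2 489 491) (mv 520 (both (five 5 488 489) (mv 487 (both (five 7 487 519) (mv 488 (both (five 3 487 523) (five 7 455 455)))))))))))))))))))))) (both (mv 587 (both (mv 556 (both (five 1 553 588) (mv 555 (both (five 2 554 558) (mv 523 (both (five 7 490 619) (mv 491 (both (five 6 490 618) (five 5 459 460))))))))) (both (mv 620 (both (mv 619 (both (five 0 584 584) (mv 621 (both (five 3 585 618) (five 3 586 622))))) (both (mv 588 (both (five 0 585 621) (mv 552 (both (five 3 552 553) (mv 584 (both (five 3 551 551) (mv 616 (both (five 2 583 615) (mv 521 (both (five 2 489 491) (mv 520 (both (five 5 488 489) (mv 487 (both (five 7 487 519) (mv 488 (both (five 3 487 523) (five 7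 455 455))))))))))))))))) (both (mv 621 (both (five 0 585 588) (mv 619 (both (five 3 585 618) (five 3 586 622))))) (mv 584 (both (five 0 584 619) (mv 615 (both (five 2 583 616) (mv 552 (both (five 3 551 551) (mv 553 (both (five 3 552 588) (mv 521 (both (five 2 489 491) (mv 489 (both (five 4 489 618) (five 6 456 457))))))))))))))))) (both (mv 555 (both (mv 556 (both (five 1 552 584) (five 2 554 558))) (both (mv 619 (both (five 7 490 523) (mv 620 (both (five 0 584 584) (mv 621 (both (five 3 585 618) (five 3 586 622))))))) (mv 556 (both (five 2 554 558) (mv 523 (both (five 7 490 619) (mv 491 (both (five 6 490 618) (five 5 459 460)))))))))) (both (mv 588 (both (five 1 553 556) (mv 620 (both (five 0 585 621) (mv 584 (both (five 0 584 619) (mv 552 (both (five 3 551 551) (five 3 552 553))))))))) (mv 588 (both (five 1 553 556) (mv 552 (both (five 3 552 553) (mv 584 (both (five 3 551 551) (mv 616 (both (five 2 583 615) (mv 521 (both (five 2 489 491) (mv 520 (both (five 5 488 489) (mv 487 (both (five 7 487 519) (mv 488 (both (five 3 487 523) (five 7 455 455)))))))))))))))))))))) (both (mv 587 (both (mv 588 (both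 (five 1 553 556) (mv 617 (both (five 2 584 616) (mv 553 (both (five 3 552 552) (five 5 489 521))))))) (both (mv 521 (both (five 2 489 491) (mv 553 (both (five 5 489 617) (mv 489 (both (five 4 489 618) (mv 488 (both (five 7 456 456) (mv 523 (both (five 0 487 487) (mv 555 (both (five 7 490 619) (mv 556 (both (five 3 522 558) (five 0 520 520))))))))))))))) (both (mv 556 (both (five 1 553 588) (mv 555 (both (five 2 554 558) (mv 523 (both (five 7 490 619) (mv 491 (both (five 6 490 618) (five 5 459 460))))))))) (mv 521 (both (five 2 489 491) (mv 553 (both (five 5 489 617) (mv 552 (both (five 3 552 588) (mv 489 (both (five 4 489 618) (mv 456 (both (five 7 456 488) (mv 457 (both (five 7 424 424) (mv 425 (both (five 6 424 520) (five 4 393 393))))))))))))))))))) (both (mv 587 (both (mv 588 (both (five 1 553 556) (mv 617 (both (five 2 584 616) (mv 553 (both (five 3 552 552) (five 5 489 521))))))) (both (mv 584 (both (mv 615 (both (five 2 583 616) (mv 552 (both (five 3 551 551) (mv 521 (both (five 2 489 491) (mv 553 (both (five 5 489 617) (mv 489 (both (five 6 456 457) (mv 488 (both (five 7 456 456) (mv 520 (both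 (five 6 487 583) (mv 487 (both (five 0 487 523) (five 7 455 455))))))))))))))))) (both (mv 619 (both (five 0 584 620) (mv 555 (both (five 1 552 556) (five 7 490 523))))) (mv 616 (both (five 2 583 615) (mv 619 (both (five 0 584 620) (mv 551 (both (five 3 551 552) (mv 555 (both (five 1 552 556) (mv 521 (both (five 2 489 491) (mv 553 (both (five 5 489 617) (five 6 488 489)))))))))))))))) (both (mv 521 (both (five 2 489 491) (mv 617 (both (five 5 489 553) (mv 616 (both (five 2 584 588) (mv 584 (both (five 2 583 615) (mv 552 (both (five 3 551 551) (mv 649 (both (five 7 552 681) (five 4 520 520))))))))))))) (both (mv 588 (both (five 1 553 556) (mv 616 (both (five 2 584 617) (mv 620 (both (five 0 585 621) (mv 584 (both (five 2 583 615) (five 0 584 619))))))))) (mv 588 (both (five 1 553 556) (mv 620 (both (five 0 585 621) (mv 584 (both (five 0 584 619) (mv 552 (both (five 3 551 551) (five 3 552 553)))))))))))))) (both (mv 587 (both (mv 588 (both (five 1 553 556) (mv 616 (both (five 2 584 617) (mv 620 (both (five 0 585 621) (mv 584 (both (five 2 583 615) (five 0 584 619))))))))) (both (mv 521 (both (five 2 489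 491) (mv 617 (both (five 5 489 553) (mv 616 (both (five 2 584 588) (mv 615 (both (five 1 583 618) (five 2 583 584))))))))) (both (mv 555 (both (mv 556 (both (five 1 552 584) (five 2 554 558))) (both (mv 619 (both (five 7 490 523) (mv 620 (both (five 0 584 584) (mv 621 (both (five 3 585 618) (five 3 586 622))))))) (mv 556 (both (five 2 554 558) (mv 523 (both (five 7 490 619) (mv 491 (both (five 6 490 618) (five 5 459 460)))))))))) (mv 556 (both (five 1 553 588) (mv 555 (both (five 2 554 558) (mv 523 (both (five 7 490 619) (mv 491 (both (five 6 490 618) (five 5 459 460))))))))))))) (mv 521 (both (five 2 489 491) (mv 553 (both (five 5 489 617) (mv 489 (both (five 4 489 618) (mv 456 (both (five 7 456 488) (mv 457 (both (five 7 424 424) (mv 552 (both (five 6 456 584) (mv 425 (both (five 6 424 520) (five 4 393 393))))))))))))))))))))))) (both (mv 554 (both (mv 619 (both (five 4 490 587) (mv 618 (both (five 4 522 651) (mv 491 (both (five 5 490 523) (five 5 458 459))))))) (both (mv 617 (both (five 6 489 585) (mv 618 (both (five 6 521 649) (mv 491 (both (five 5 490 523) (five 5 458 459))))))) (mv 585 (both (five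 6 489 617) (mv 587 (both (five 4 490 619) (mv 556 (both (five 1 553 588) (five 2 553 555)))))))))) (both (mv 491 (both (five 2 489 521) (mv 554 (both (five 5 458 459) (mv 617 (both (five 6 489 585) (mv 618 (both (five 6 521 649) (five 5 490 523))))))))) (both (mv 491 (both (five 2 489 521) (mv 554 (both (five 5 458 459) (mv 618 (both (five 5 490 523) (mv 619 (both (five 4 522 651) (five 4 490 587))))))))) (mv 491 (both (five 2 489 521) (mv 554 (both (five 5 458 459) (mv 585 (both (five 6 489 617) (mv 587 (both (five 4 490 619) (mv 556 (both (five 1 553 588) (five 2 553 555))))))))))))))))) (both (mv 554 (both (mv 586 (both (mv 619 (both (five 4 490 587) (mv 618 (both (five 4 522 651) (mv 489 (both (five 7 489 521) (five 7 457 457))))))) (both (mv 617 (both (five 6 489 585) (mv 618 (both (five 6 521 649) (mv 489 (both (five 7 489 521) (five 7 457 457))))))) (mv 585 (both (five 6 489 617) (mv 587 (both (five 4 490 619) (mv 556 (both (five 1 553 588) (five 2 553 555)))))))))) (both (mv 458 (both (mv 427 (both (five 5 426 459) (mv 426 (both (five 5 394 395) (mv 553 (both (five 6 425 521) (five 6 457 585)))))))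 (both (mv 425 (both (five 7 425 457) (mv 426 (both (five 7 393 393) (mv 553 (both (five 6 425 521) (five 6 457 585))))))) (mv 457 (both (five 7 425 425) (mv 459 (both (five 5 426 427) (five 0 457 460)))))))) (both (mv 458 (both (mv 457 (both (five 7 425 425) (mv 459 (both (five 5 426 427) (five 0 457 460))))) (both (mv 427 (both (five 5 426 459) (mv 426 (both (five 5 394 395) (mv 555 (both (five 4 426 523) (five 4 458 587))))))) (mv 457 (both (five 7 425 425) (mv 586 (both (five 7 457 489) (mv 587 (both (five 4 458 555) (five 4 490 619)))))))))) (mv 458 (both (mv 427 (both (five 5 426 459) (mv 426 (both (five 5 394 395) (mv 553 (both (five 6 425 521) (five 6 457 585))))))) (both (mv 427 (both (five 5 426 459) (mv 426 (both (five 5 394 395) (mv 555 (both (five 4 426 523) (five 4 458 587))))))) (mv 585 (both (five 6 457 553) (mv 586 (both (five 6 489 617) (mv 587 (both (five 4 458 555) (five 4 490 619)))))))))))))) (both (mv 458 (both (mv 554 (both (mv 425 (both (five 7 425 457) (mv 426 (both (five 7 393 393) (mv 427 (both (five 5 394 395) (five 5 426 459))))))) (mv 585 (both (five 6 457 553) (mv 586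 (both (five 6 489 617) (mv 587 (both (five 4 458 555) (five 4 490 619))))))))) (both (mv 554 (both (mv 585 (both (five 6 457 553) (mv 586 (both (five 6 489 617) (mv 587 (both (five 4 458 555) (five 4 490 619))))))) (both (mv 585 (both (five 6 457 553) (mv 586 (both (five 6 489 617) (mv 459 (both (five 5 458 491) (five 5 426 427))))))) (mv 427 (both (five 5 426 459) (mv 426 (both (five 5 394 395) (mv 555 (both (five 4 426 523) (five 4 458 587)))))))))) (both (mv 426 (both (mv 393 (both (five 7 393 425) (mv 394 (both (five 7 361 361) (mv 395 (both (five 5 362 363) (five 5 394 427))))))) (both (mv 393 (both (five 7 393 425) (mv 394 (both (five 7 361 361) (mv 491 (both (five 3 457 457) (five 4 394 523))))))) (both (mv 395 (both (five 5 394 427) (mv 394 (both (five 5 362 363) (mv 491 (both (five 3 457 457) (five 4 394 523))))))) (mv 393 (both (five 7 393 425) (mv 427 (both (five 5 394 395) (mv 457 (both (five 3 457 491) (mv 428 (both (five 2 425 429) (mv 456 (both (five 1 423 455) (five 1 424 459))))))))))))))) (mv 457 (both (five 3 457 491) (mv 425 (both (five 7 425 554) (mv 393 (both (five 4 361 361) (five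 4 393 489))))))))))) (both (mv 458 (both (mv 426 (both (mv 393 (both (five 7 393 425) (mv 394 (both (five 7 361 361) (mv 395 (both (five 5 362 363) (five 5 394 427))))))) (both (mv 393 (both (five 7 393 425) (mv 394 (both (five 7 361 361) (mv 491 (both (five 3 457 457) (five 4 394 523))))))) (both (mv 395 (both (five 5 394 427) (mv 394 (both (five 5 362 363) (mv 491 (both (five 3 457 457) (five 4 394 523))))))) (mv 393 (both (five 7 393 425) (mv 427 (both (five 5 394 395) (mv 457 (both (five 3 457 491) (mv 428 (both (five 2 425 429) (mv 456 (both (five 1 423 455) (five 1 424 459))))))))))))))) (both (mv 426 (both (mv 393 (both (five 7 393 425) (mv 394 (both (five 7 361 361) (mv 395 (both (five 5 362 363) (five 5 394 427))))))) (both (mv 393 (both (five 7 393 425) (mv 394 (both (five 7 361 361) (mv 521 (both (five 6 393 489) (five 6 425 553))))))) (both (mv 395 (both (five 5 394 427) (mv 394 (both (five 5 362 363) (mv 521 (both (five 6 393 489) (five 6 425 553))))))) (mv 427 (both (five 5 394 395) (mv 457 (both (mv 428 (both (five 2 425 429) (mv 456 (both (five 1 423 455) (five 1 424 459))))) (both (mv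 393 (both (five 7 393 425) (mv 456 (both (five 1 423 455) (mv 459 (both (five 0 457 460) (mv 424 (both (five 3 423 423) (mv 488 (both (five 2 455 487) (mv 392 (both (five 5 360 361) (mv 489 (both (five 4 360 360) (five 4 392 521))))))))))))))) (both (mv 393 (both (five 7 393 425) (mv 428 (both (five 2 425 429) (mv 460 (both (five 4 396 396) (five 0 457 459))))))) (mv 425 (both (five 7 393 393) (mv 428 (both (five 2 425 429) (five 2 424 456))))))))))))))) (both (mv 521 (both (five 2 489 491) (mv 426 (both (five 6 425 553) (mv 393 (both (five 7 393 425) (mv 394 (both (five 7 361 361) (mv 395 (both (five 5 362 363) (five 5 394 427))))))))))) (mv 491 (both (five 3 457 457) (five 2 489 521))))))) (both (mv 554 (both (mv 458 (both (mv 427 (both (five 5 426 459) (mv 426 (both (five 5 394 395) (mv 553 (both (five 6 425 521) (five 6 457 585))))))) (both (mv 427 (both (five 5 426 459) (mv 426 (both (five 5 394 395) (mv 555 (both (five 4 426 523) (five 4 458 587))))))) (mv 585 (both (five 6 457 553) (mv 586 (both (five 6 489 617) (mv 587 (both (five 4 458 555) (five 4 490 619)))))))))) (both (mv 586 (both (mv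 617 (both (five 6 489 585) (mv 618 (both (five 6 521 649) (mv 619 (both (five 4 490 587) (five 4 522 651))))))) (both (mv 619 (both (five 4 490 587) (mv 618 (both (five 4 522 651) (mv 491 (both (five 5 490 523) (five 5 458 459))))))) (mv 585 (both (five 6 489 617) (mv 458 (both (five 6 457 553) (mv 459 (both (five 5 458 491) (five 5 426 427)))))))))) (both (mv 521 (both (five 2 489 491) (mv 555 (both (five 3 521 556) (mv 458 (both (five 4 458 587) (mv 426 (both (five 6 425 553) (mv 393 (both (five 7 393 425) (mv 394 (both (five 7 361 361) (mv 395 (both (five 5 362 363) (five 5 394 427))))))))))))))) (mv 491 (both (five 2 489 521) (mv 586 (both (five 5 458 459) (mv 617 (both (five 6 489 585) (mv 618 (both (five 6 521 649) (five 5 490 523))))))))))))) (both (mv 491 (both (five 2 489 521) (mv 458 (both (five 3 457 457) (mv 426 (both (mv 393 (both (five 7 393 425) (mv 394 (both (five 7 361 361) (mv 395 (both (five 5 362 363) (five 5 394 427))))))) (both (mv 393 (both (five 7 393 425) (mv 394 (both (five 7 361 361) (mv 362 (both (five 4 362 459) (mv 363 (both (five 5 330 331) (five 5 362 395))))))))) (both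 (mv 393 (both (five 7 393 425) (mv 394 (both (five 7 361 361) (mv 459 (both (five 4 362 362) (mv 554 (both (five 5 426 427) (five 5 458 586))))))))) (mv 427 (both (five 5 394 395) (mv 554 (both (five 5 426 459) (mv 585 (both (five 6 457 553) (mv 586 (both (five 6 489 617) (mv 587 (both (five 4 458 555) (five 4 490 619))))))))))))))))))) (both (mv 491 (both (five 2 489 521) (mv 458 (both (five 3 457 457) (mv 426 (both (mv 523 (both (five 4 394 394) (five 4 426 555))) (both (mv 393 (both (five 7 393 425) (mv 394 (both (five 7 361 361) (mv 395 (both (five 5 362 363) (five 5 394 427))))))) (mv 393 (both (five 7 393 425) (mv 395 (both (five 5 394 427) (mv 555 (both (five 4 426 523) (mv 554 (both (five 4 458 587) (mv 585 (both (five 6 457 553) (mv 586 (both (five 2 553 556) (five 6 489 617)))))))))))))))))))) (mv 491 (both (five 2 489 521) (mv 554 (both (mv 459 (both (five 5 458 586) (mv 427 (both (five 6 394 395) (five 6 426 523))))) (both (mv 458 (both (five 3 457 457) (mv 427 (both (five 5 426 459) (mv 426 (both (five 5 394 395) (mv 555 (both (five 4 426 523) (five 4 458 587))))))))) (mv 457 (both (five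 3 457 458) (mv 489 (both (five 3 456 456) (five 7 457 586)))))))))))))))))) (both (mv 554 (both (mv 490 (both (mv 586 (both (mv 619 (both (five 4 490 587) (mv 618 (both (five 4 522 651) (mv 489 (both (five 7 489 521) (five 7 457 457))))))) (both (mv 617 (both (five 6 489 585) (mv 618 (both (five 6 521 649) (mv 489 (both (five 7 489 521) (five 7 457 457))))))) (mv 585 (both (five 6 489 617) (mv 587 (both (five 4 490 619) (mv 556 (both (five 1 553 588) (five 2 553 555)))))))))) (both (mv 458 (both (mv 425 (both (five 7 425 457) (mv 426 (both (five 7 393 393) (mv 427 (both (five 5 426 459) (five 5 394 395))))))) (both (mv 427 (both (five 5 426 459) (mv 426 (both (five 5 394 395) (mv 553 (both (five 6 425 521) (five 6 457 585))))))) (both (mv 425 (both (five 7 425 457) (mv 426 (both (five 7 393 393) (mv 553 (both (five 6 425 521) (five 6 457 585))))))) (mv 585 (both (five 6 457 553) (mv 587 (both (five 4 458 555) (mv 457 (both (five 7 425 425) (mv 459 (both (five 0 457 460) (five 5 426 427))))))))))))) (both (mv 458 (both (mv 457 (both (five 7 425 425) (mv 459 (both (five 0 457 460) (five 5 426 427)))))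 (both (mv 587 (both (five 4 458 555) (mv 619 (both (five 4 490 586) (mv 427 (both (five 5 426 459) (mv 426 (both (five 5 394 395) (mv 393 (both (five 7 393 425) (mv 394 (both (five 7 361 361) (mv 521 (both (five 6 393 489) (five 6 425 553))))))))))))))) (both (mv 457 (both (five 7 425 425) (mv 586 (both (five 7 457 489) (mv 587 (both (five 4 458 555) (five 4 490 619))))))) (mv 587 (both (five 4 458 555) (mv 619 (both (five 4 490 586) (mv 459 (both (five 5 426 427) (mv 460 (both (five 0 457 457) (mv 428 (both (five 4 428 524) (five 4 396 396))))))))))))))) (both (mv 458 (both (mv 427 (both (five 5 426 459) (mv 426 (both (five 5 394 395) (mv 553 (both (five 6 425 521) (five 6 457 585))))))) (both (mv 587 (both (five 4 458 555) (mv 619 (both (five 4 490 586) (mv 427 (both (five 5 426 459) (mv 426 (both (five 5 394 395) (mv 393 (both (five 7 393 425) (mv 394 (both (five 7 361 361) (mv 521 (both (five 6 393 489) (mv 428 (both (five 3 393 429) (mv 460 (both (five 4 428 524) (five 4 396 396))))))))))))))))))) (mv 585 (both (five 6 457 553) (mv 586 (both (five 6 489 617) (mv 587 (both (five 4 458 555) (five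 4 490 619)))))))))) (both (mv 458 (both (mv 425 (both (five 7 425 457) (mv 426 (both (five 7 393 393) (mv 427 (both (five 5 394 395) (five 5 426 459))))))) (both (mv 427 (both (five 5 426 459) (mv 426 (both (five 5 394 395) (mv 553 (both (five 6 425 521) (five 6 457 585))))))) (both (mv 425 (both (five 7 425 457) (mv 426 (both (five 7 393 393) (mv 553 (both (five 6 425 521) (five 6 457 585))))))) (mv 427 (both (five 5 426 459) (mv 457 (both (five 7 425 425) (mv 585 (both (five 6 457 553) (mv 586 (both (five 7 457 489) (five 6 489 617))))))))))))) (mv 458 (both (mv 457 (both (five 7 425 425) (mv 459 (both (five 0 457 460) (five 5 426 427))))) (mv 585 (both (five 6 457 553) (mv 586 (both (five 6 489 617) (mv 587 (both (five 4 458 555) (five 4 490 619))))))))))))))) (both (mv 490 (both (mv 586 (both (mv 617 (both (five 6 489 585) (mv 618 (both (five 6 521 649) (mv 619 (both (five 4 522 651) (five 4 490 587))))))) (both (mv 619 (both (five 4 490 587) (mv 618 (both (five 4 522 651) (mv 649 (both (five 6 521 617) (mv 650 (both (five 6 553 681) (mv 647 (both (five 1 615 648) (mv 620 (both (five 2 617 621)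 (mv 523 (both (five 5 522 555) (mv 489 (both (five 3 489 524) (five 7 457 457))))))))))))))))) (both (mv 617 (both (five 6 489 585) (mv 618 (both (five 6 521 649) (mv 651 (both (five 4 522 619) (mv 650 (both (five 4 554 683) (mv 523 (both (five 5 522 555) (mv 489 (both (five 3 489 524) (five 7 457 457))))))))))))) (both (mv 585 (both (five 6 489 617) (mv 556 (both (five 2 553 555) (mv 588 (both (five 1 553 587) (mv 620 (both (five 5 524 652) (five 5 492 524))))))))) (mv 619 (both (five 4 490 587) (mv 618 (both (five 4 522 651) (mv 489 (both (five 7 457 457) (mv 523 (both (five 3 489 524) (mv 555 (both (five 5 522 650) (mv 556 (both (five 2 553 585) (five 3 522 558)))))))))))))))))) (both (mv 458 (both (mv 457 (both (five 7 425 425) (mv 459 (both (five 0 457 460) (five 5 426 427))))) (both (mv 427 (both (five 5 426 459) (mv 426 (both (five 5 394 395) (mv 555 (both (five 4 426 523) (five 4 458 587))))))) (mv 425 (both (five 7 425 457) (mv 426 (both (five 7 393 393) (mv 555 (both (five 4 426 523) (five 4 458 587)))))))))) (both (mv 458 (both (mv 585 (both (five 6 457 553) (mv 617 (both (five 6 489 586)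 (mv 427 (both (five 5 426 459) (mv 426 (both (five 5 394 395) (mv 393 (both (five 7 393 425) (mv 394 (both (five 7 361 361) (mv 428 (both (five 3 393 429) (mv 460 (both (five 4 428 524) (five 4 396 396))))))))))))))))) (both (mv 457 (both (five 7 425 425) (mv 585 (both (five 6 457 553) (mv 586 (both (five 7 457 489) (five 6 489 617))))))) (mv 459 (both (five 5 426 427) (mv 460 (both (five 0 457 457) (mv 428 (both (five 4 428 524) (five 4 396 396)))))))))) (mv 458 (both (mv 585 (both (five 6 457 553) (mv 586 (both (five 6 489 617) (mv 587 (both (five 4 458 555) (five 4 490 619))))))) (mv 427 (both (five 5 426 459) (mv 426 (both (five 5 394 395) (mv 393 (both (five 7 393 425) (mv 394 (both (five 7 361 361) (mv 428 (both (five 3 393 429) (mv 460 (both (five 4 428 524) (five 4 396 396))))))))))))))))))) (both (mv 490 (both (mv 586 (both (mv 617 (both (five 6 489 585) (mv 618 (both (five 6 521 649) (mv 619 (both (five 4 522 651) (five 4 490 587))))))) (both (mv 619 (both (five 4 490 587) (mv 618 (both (five 4 522 651) (mv 489 (both (five 7 489 521) (five 7 457 457))))))) (both (mv 617 (both (five 6 489 585)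 (mv 618 (both (five 6 521 649) (mv 489 (both (five 7 489 521) (five 7 457 457))))))) (mv 585 (both (five 6 489 617) (mv 587 (both (five 4 490 619) (mv 588 (both (five 1 553 556) (mv 620 (both (five 0 585 621) (mv 552 (both (five 3 552 553) (mv 584 (both (five 3 551 551) (mv 616 (both (five 2 583 615) (mv 489 (both (five 7 457 457) (mv 520 (both (five 5 488 521) (mv 523 (both (five 3 489 524) (mv 487 (both (five 7 487 519) (five 0 487 488))))))))))))))))))))))))))) (both (mv 458 (both (mv 457 (both (five 7 425 425) (mv 459 (both (five 0 457 460) (five 5 426 427))))) (both (mv 427 (both (five 5 426 459) (mv 426 (both (five 5 394 395) (mv 553 (both (five 6 425 521) (five 6 457 585))))))) (mv 425 (both (five 7 425 457) (mv 426 (both (five 7 393 393) (mv 553 (both (five 6 425 521) (five 6 457 585)))))))))) (both (mv 586 (both (mv 617 (both (five 6 489 585) (mv 618 (both (five 6 521 649) (mv 619 (both (five 4 522 651) (five 4 490 587))))))) (both (mv 617 (both (five 6 489 585) (mv 618 (both (five 6 521 649) (mv 489 (both (five 7 489 521) (five 7 457 457))))))) (both (mv 619 (both (five 4 490 587) (mv 618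 (both (five 4 522 651) (mv 489 (both (five 7 489 521) (five 7 457 457))))))) (mv 617 (both (five 6 489 585) (mv 619 (both (five 4 490 587) (mv 457 (both (five 7 457 489) (mv 458 (both (five 7 425 425) (mv 459 (both (five 0 457 460) (five 5 426 427))))))))))))))) (both (mv 586 (both (mv 617 (both (five 6 489 585) (mv 618 (both (five 6 521 649) (mv 619 (both (five 4 522 651) (five 4 490 587))))))) (both (mv 619 (both (five 4 490 587) (mv 618 (both (five 4 522 651) (mv 649 (both (five 6 521 617) (mv 650 (both (five 6 553 681) (mv 521 (both (five 7 521 553) (five 7 489 489))))))))))) (both (mv 619 (both (five 4 490 587) (mv 618 (both (five 4 522 651) (mv 521 (both (five 7 489 489) (mv 553 (both (five 7 521 650) (mv 458 (both (five 6 457 585) (five 6 425 426))))))))))) (mv 585 (both (five 6 489 617) (mv 458 (both (five 6 457 553) (mv 427 (both (five 5 426 459) (mv 426 (both (five 5 394 395) (mv 393 (both (five 7 393 425) (mv 394 (both (five 7 361 361) (mv 428 (both (five 3 393 429) (mv 460 (both (five 4 428 524) (five 4 396 396))))))))))))))))))))) (both (mv 458 (both (mv 585 (both (five 6 457 553) (mv 617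 (both (five 6 489 586) (mv 427 (both (five 5 426 459) (mv 426 (both (five 5 394 395) (mv 393 (both (five 7 393 425) (mv 394 (both (five 7 361 361) (mv 428 (both (five 3 393 429) (mv 460 (both (five 4 428 524) (five 4 396 396))))))))))))))))) (both (mv 457 (both (five 7 425 425) (mv 585 (both (five 6 457 553) (mv 586 (both (five 7 457 489) (five 6 489 617))))))) (mv 459 (both (five 5 426 427) (mv 460 (both (five 0 457 457) (mv 428 (both (five 4 428 524) (five 4 396 396)))))))))) (mv 458 (both (mv 427 (both (five 5 426 459) (mv 426 (both (five 5 394 395) (mv 393 (both (five 7 393 425) (mv 394 (both (five 7 361 361) (mv 521 (both (five 6 393 489) (five 6 425 553))))))))))) (both (mv 425 (both (five 7 425 457) (mv 426 (both (five 7 393 393) (mv 521 (both (five 6 425 553) (mv 523 (both (five 1 489 524) (mv 394 (both (five 6 393 489) (mv 395 (both (five 5 394 427) (five 5 362 363))))))))))))) (both (mv 459 (both (five 5 426 427) (mv 460 (both (five 0 457 457) (mv 428 (both (five 4 428 524) (five 4 396 396))))))) (mv 457 (both (five 7 425 425) (mv 586 (both (five 7 457 489) (mv 619 (both (five 4 490 587) (mv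 651 (both (five 4 522 618) (mv 460 (both (five 0 457 459) (mv 428 (both (five 4 428 524) (five 4 396 396))))))))))))))))))))))) (both (mv 490 (both (mv 458 (both (mv 457 (both (five 7 425 425) (mv 459 (both (five 0 457 460) (five 5 426 427))))) (both (mv 427 (both (five 5 426 459) (mv 426 (both (five 5 394 395) (mv 555 (both (five 4 426 523) (five 4 458 587))))))) (mv 425 (both (five 7 425 457) (mv 426 (both (five 7 393 393) (mv 555 (both (five 4 426 523) (five 4 458 587)))))))))) (both (mv 586 (both (mv 617 (both (five 6 489 585) (mv 618 (both (five 6 521 649) (mv 619 (both (five 4 522 651) (five 4 490 587))))))) (both (mv 617 (both (five 6 489 585) (mv 618 (both (five 6 521 649) (mv 489 (both (five 7 489 521) (five 7 457 457))))))) (both (mv 619 (both (five 4 490 587) (mv 618 (both (five 4 522 651) (mv 489 (both (five 7 489 521) (five 7 457 457))))))) (mv 552 (both (mv 489 (both (five 7 457 457) (mv 523 (both (five 3 489 524) (mv 551 (both (five 1 519 553) (mv 520 (both (five 2 519 521) (mv 488 (both (five 0 487 487) (mv 583 (both (five 6 455 456) (mv 615 (both (five 5 519 647) (five 6 487 584)))))))))))))))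 (both (mv 585 (both (five 6 489 617) (mv 587 (both (five 4 490 619) (mv 584 (both (five 3 551 551) (mv 616 (both (five 2 583 615) (mv 489 (both (five 7 457 457) (mv 520 (both (five 5 488 521) (mv 523 (both (five 3 489 524) (mv 487 (both (five 7 487 519) (five 0 487 488))))))))))))))))) (both (mv 585 (both (five 6 489 617) (mv 587 (both (five 4 490 619) (mv 551 (both (five 3 551 584) (five 0 551 553))))))) (mv 585 (both (five 6 489 617) (mv 587 (both (five 4 490 619) (mv 553 (both (five 3 552 588) (mv 523 (both (five 2 521 524) (mv 489 (both (five 7 457 457) (mv 488 (both (five 0 487 487) (mv 456 (both (five 4 456 520) (five 7 456 521))))))))))))))))))))))) (both (mv 458 (both (mv 457 (both (five 7 425 425) (mv 459 (both (five 0 457 460) (five 5 426 427))))) (both (mv 427 (both (five 5 426 459) (mv 426 (both (five 5 394 395) (mv 553 (both (five 6 425 521) (five 6 457 585))))))) (mv 425 (both (five 7 425 457) (mv 426 (both (five 7 393 393) (mv 553 (both (five 6 425 521) (five 6 457 585)))))))))) (mv 458 (both (mv 427 (both (five 5 426 459) (mv 426 (both (five 5 394 395) (mv 553 (both (five 6 425 521)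 (five 6 457 585))))))) (both (mv 427 (both (five 5 426 459) (mv 426 (both (five 5 394 395) (mv 555 (both (five 4 426 523) (five 4 458 587))))))) (mv 585 (both (five 6 457 553) (mv 586 (both (five 6 489 617) (mv 587 (both (five 4 458 555) (five 4 490 619)))))))))))))) (both (mv 524 (both (mv 523 (both (five 0 522 558) (five 1 489 521))) (both (mv 556 (both (mv 460 (both (five 4 428 428) (mv 587 (both (five 6 459 555) (mv 588 (both (five 6 491 619) (five 5 492 620))))))) (both (mv 588 (both (five 5 492 620) (mv 587 (both (five 6 491 619) (mv 586 (both (five 1 553 585) (mv 558 (both (five 2 555 559) (mv 460 (both (five 4 428 428) (mv 459 (both (five 7 427 427) (mv 457 (both (five 0 457 458) (mv 489 (both (five 7 457 490) (mv 521 (both (five 7 489 618) (five 4 425 425))))))))))))))))))) (both (mv 555 (both (five 3 521 521) (mv 586 (both (five 2 553 585) (mv 587 (both (five 2 554 558) (mv 619 (both (five 5 523 651) (five 4 490 490))))))))) (mv 620 (both (five 5 492 588) (mv 521 (both (five 3 521 555) (mv 460 (both (five 4 428 428) (mv 459 (both (five 7 427 427) (mv 457 (both (five 0 457 458) (mv 489 (both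 (five 4 425 425) (mv 586 (both (five 7 489 618) (five 7 457 490))))))))))))))))))) (both (mv 558 (both (five 0 522 523) (mv 559 (both (five 3 524 560) (mv 556 (both (five 1 524 527) (mv 587 (both (five 2 555 588) (mv 591 (both (five 0 556 592) (mv 555 (both (five 2 554 586) (five 0 555 590))))))))))))) (mv 521 (both (five 1 489 523) (mv 556 (both (five 3 521 555) (mv 460 (both (five 4 428 428) (mv 459 (both (five 7 427 427) (mv 457 (both (five 0 457 458) (mv 489 (both (five 4 425 425) (mv 586 (both (five 7 489 618) (five 7 457 490))))))))))))))))))) (both (mv 490 (both (mv 586 (both (mv 619 (both (five 4 490 587) (mv 618 (both (five 4 522 651) (mv 489 (both (five 7 489 521) (five 7 457 457))))))) (both (mv 617 (both (five 6 489 585) (mv 618 (both (five 6 521 649) (mv 489 (both (five 7 489 521) (five 7 457 457))))))) (mv 585 (both (five 6 489 617) (mv 587 (both (five 4 490 619) (mv 556 (both (five 1 553 588) (five 2 553 555)))))))))) (both (mv 458 (both (mv 425 (both (five 7 425 457) (mv 426 (both (five 7 393 393) (mv 427 (both (five 5 426 459) (five 5 394 395))))))) (mv 585 (both (five 6 457 553) (mv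 555 (both (five 4 458 587) (mv 556 (both (five 3 521 521) (mv 558 (both (five 3 522 523) (mv 591 (both (five 0 555 590) (mv 559 (both (five 0 556 592) (five 1 524 527))))))))))))))) (both (mv 458 (both (mv 425 (both (five 7 425 457) (mv 426 (both (five 7 393 393) (mv 427 (both (five 5 426 459) (five 5 394 395))))))) (both (mv 427 (both (five 5 426 459) (mv 426 (both (five 5 394 395) (mv 555 (both (five 4 426 523) (five 4 458 587))))))) (mv 457 (both (five 7 425 425) (mv 586 (both (five 7 457 489) (mv 587 (both (five 4 458 555) (five 4 490 619)))))))))) (both (mv 458 (both (mv 425 (both (five 7 425 457) (mv 426 (both (five 7 393 393) (mv 427 (both (five 5 394 395) (five 5 426 459))))))) (both (mv 427 (both (five 5 426 459) (mv 426 (both (five 5 394 395) (mv 553 (both (five 6 425 521) (five 6 457 585))))))) (both (mv 425 (both (five 7 425 457) (mv 426 (both (five 7 393 393) (mv 553 (both (five 6 425 521) (five 6 457 585))))))) (mv 427 (both (five 5 426 459) (mv 457 (both (five 7 425 425) (mv 585 (both (five 6 457 553) (mv 586 (both (five 7 457 489) (five 6 489 617))))))))))))) (mv 458 (both (mv 427 (both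 (five 5 426 459) (mv 426 (both (five 5 394 395) (mv 553 (both (five 6 425 521) (five 6 457 585))))))) (both (mv 427 (both (five 5 426 459) (mv 426 (both (five 5 394 395) (mv 555 (both (five 4 426 523) (five 4 458 587))))))) (mv 585 (both (five 6 457 553) (mv 586 (both (five 6 489 617) (mv 587 (both (five 4 458 555) (five 4 490 619))))))))))))))) (both (mv 586 (both (mv 618 (both (mv 649 (both (five 6 521 617) (mv 650 (both (five 6 553 681) (mv 651 (both (five 4 554 683) (five 4 522 619))))))) (both (mv 649 (both (five 6 521 617) (mv 650 (both (five 6 553 681) (mv 521 (both (five 7 521 553) (five 7 489 489))))))) (both (mv 651 (both (five 4 522 619) (mv 650 (both (five 4 554 683) (mv 521 (both (five 7 521 553) (five 7 489 489))))))) (mv 585 (both (mv 617 (both (five 6 521 649) (mv 555 (both (five 2 553 556) (mv 583 (both (five 1 551 584) (mv 521 (both (five 7 489 489) (mv 520 (both (five 0 519 519) (mv 553 (both (five 7 488 488) (mv 616 (both (five 6 520 648) (mv 587 (both (five 1 583 615) (five 2 584 588))))))))))))))))) (both (mv 619 (both (five 4 522 651) (mv 620 (both (five 3 585 621) (mv 584 (both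 (five 0 583 583) (five 0 584 587))))))) (both (mv 651 (both (five 4 522 619) (mv 617 (both (five 6 521 649) (mv 555 (both (five 2 553 556) (mv 584 (both (five 1 551 583) (mv 521 (both (five 7 489 489) (mv 520 (both (five 0 519 519) (mv 488 (both (five 4 488 552) (five 7 488 553))))))))))))))) (mv 649 (both (five 6 521 617) (mv 619 (both (five 4 522 651) (mv 620 (both (five 3 585 621) (mv 556 (both (five 2 553 555) (mv 588 (both (five 5 524 652) (five 1 553 587))))))))))))))))))) (both (mv 618 (both (mv 649 (both (five 6 521 617) (mv 650 (both (five 6 553 681) (mv 651 (both (five 4 554 683) (five 4 522 619))))))) (both (mv 649 (both (five 6 521 617) (mv 650 (both (five 6 553 681) (mv 521 (both (five 7 521 553) (five 7 489 489))))))) (both (mv 651 (both (five 4 522 619) (mv 650 (both (five 4 554 683) (mv 521 (both (five 7 521 553) (five 7 489 489))))))) (mv 619 (both (five 4 522 651) (mv 620 (both (mv 621 (both (five 3 585 585) (mv 622 (both (five 3 586 587) (mv 655 (both (five 0 619 654) (mv 623 (both (five 0 620 656) (mv 591 (both (five 1 587 590) (five 1 588 592))))))))))) (both (mv 617 (both (five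 6 521 649) (mv 652 (both (five 0 617 653) (mv 521 (both (five 7 489 489) (mv 523 (both (five 1 489 524) (mv 587 (both (five 4 523 555) (mv 616 (both (five 1 583 615) (five 1 584 588))))))))))))) (mv 649 (both (five 6 521 617) (mv 621 (both (five 3 585 585) (mv 654 (both (five 0 618 653) (mv 622 (both (five 0 619 655) (mv 590 (both (five 1 587 591) (five 7 525 558)))))))))))))))))))) (both (mv 524 (both (mv 523 (both (five 2 521 553) (five 0 522 558))) (both (mv 556 (both (mv 460 (both (five 4 428 428) (mv 587 (both (five 6 459 555) (mv 588 (both (five 6 491 619) (five 5 492 620))))))) (both (mv 588 (both (five 5 492 620) (mv 587 (both (five 6 491 619) (five 1 553 585))))) (mv 555 (both (five 2 553 585) (five 1 521 553)))))) (mv 558 (both (five 0 522 523) (mv 559 (both (five 3 524 560) (mv 556 (both (five 1 524 527) (mv 588 (both (five 5 492 620) (mv 587 (both (five 6 491 619) (five 1 553 585)))))))))))))) (both (mv 618 (both (mv 649 (both (five 6 521 617) (mv 650 (both (five 6 553 681) (mv 651 (both (five 4 554 683) (five 4 522 619))))))) (both (mv 651 (both (five 4 522 619) (mv 650 (both (five 4 554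 683) (mv 521 (both (five 7 521 553) (five 7 489 489))))))) (both (mv 649 (both (five 6 521 617) (mv 650 (both (five 6 553 681) (mv 521 (both (five 7 521 553) (five 7 489 489))))))) (mv 619 (both (five 4 522 651) (mv 620 (both (mv 621 (both (five 3 585 585) (mv 654 (both (five 0 618 653) (mv 622 (both (five 0 619 655) (mv 590 (both (five 1 587 591) (five 7 525 558))))))))) (both (mv 617 (both (five 6 521 649) (mv 652 (both (five 0 617 653) (mv 588 (both (five 5 524 556) (mv 616 (both (five 1 584 587) (mv 648 (both (five 2 615 647) (mv 584 (both (five 3 583 583) (mv 521 (both (five 7 489 489) (mv 552 (both (five 5 520 553) (mv 551 (both (five 7 519 519) (mv 523 (both (five 2 519 520) (five 1 489 524))))))))))))))))))))) (mv 621 (both (five 3 585 585) (mv 622 (both (five 3 586 587) (mv 655 (both (five 0 619 654) (mv 623 (both (five 0 620 656) (mv 591 (both (five 1 587 590) (five 1 588 592)))))))))))))))))))) (both (mv 618 (both (mv 649 (both (five 6 521 617) (mv 650 (both (five 6 553 681) (mv 651 (both (five 4 554 683) (five 4 522 619))))))) (both (mv 649 (both (five 6 521 617) (mv 650 (both (five 6 553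 681) (mv 683 (both (five 4 554 651) (mv 715 (both (five 4 586 682) (mv 555 (both (five 5 522 523) (mv 556 (both (five 2 553 585) (five 3 521 521))))))))))))) (mv 521 (both (five 7 489 489) (mv 556 (both (five 3 521 555) (mv 524 (both (five 0 521 523) (mv 588 (both (five 5 492 620) (mv 587 (both (five 6 491 619) (five 1 553 585)))))))))))))) (both (mv 521 (both (mv 618 (both (five 7 489 489) (mv 649 (both (five 6 521 617) (mv 650 (both (five 6 553 681) (mv 651 (both (five 4 554 683) (five 4 522 619))))))))) (both (mv 556 (both (five 3 521 555) (mv 524 (both (five 0 521 523) (mv 620 (both (five 5 492 588) (mv 460 (both (five 4 428 428) (mv 459 (both (five 7 427 427) (mv 457 (both (five 0 457 458) (mv 489 (both (five 4 457 553) (five 4 425 425))))))))))))))) (mv 556 (both (five 3 521 555) (mv 524 (both (five 0 521 523) (mv 588 (both (five 5 492 620) (mv 619 (both (five 6 491 587) (mv 618 (both (five 4 522 651) (mv 649 (both (five 6 521 617) (mv 650 (both (five 6 553 681) (five 7 521 553)))))))))))))))))) (both (mv 521 (both (mv 556 (both (five 3 521 555) (mv 524 (both (five 0 521 523) (mv 620 (both (five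 5 492 588) (mv 460 (both (five 4 428 428) (mv 459 (both (five 7 427 427) (mv 457 (both (five 0 457 458) (mv 489 (both (five 4 457 553) (five 4 425 425))))))))))))))) (both (mv 618 (both (five 7 489 489) (mv 649 (both (five 6 521 617) (mv 650 (both (five 6 553 681) (five 7 521 553))))))) (both (mv 555 (both (five 3 521 556) (mv 520 (both (five 0 519 519) (mv 523 (both (five 1 489 524) (mv 618 (both (five 5 522 650) (mv 617 (both (five 6 521 649) (mv 552 (both (five 2 519 551) (mv 488 (both (five 3 487 487) (mv 585 (both (five 4 488 584) (five 7 488 553))))))))))))))))) (mv 618 (both (five 7 489 489) (mv 649 (both (five 6 521 617) (mv 650 (both (five 6 553 681) (mv 555 (both (five 3 521 556) (five 5 522 523))))))))))))) (mv 521 (both (mv 556 (both (five 3 521 555) (mv 524 (both (five 0 521 523) (mv 460 (both (five 4 428 428) (mv 459 (both (five 7 427 427) (mv 457 (both (five 0 457 458) (mv 489 (both (five 4 457 553) (five 4 425 425))))))))))))) (both (mv 555 (both (five 3 521 556) (mv 520 (both (five 0 519 519) (mv 523 (both (five 1 489 524) (mv 618 (both (five 5 522 650) (mv 617 (both (five 6 521 649)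 (mv 552 (both (five 2 519 551) (mv 488 (both (five 3 487 487) (mv 585 (both (five 4 488 584) (five 7 488 553))))))))))))))))) (mv 618 (both (five 7 489 489) (mv 649 (both (five 6 521 617) (mv 650 (both (five 6 553 681) (mv 651 (both (five 4 554 683) (five 4 522 619)))))))))))))))))))) (both (mv 458 (both (mv 490 (both (mv 457 (both (five 7 425 425) (mv 459 (both (five 0 457 460) (five 5 426 427))))) (both (mv 427 (both (five 5 426 459) (mv 426 (both (five 5 394 395) (mv 553 (both (five 6 425 521) (five 6 457 585))))))) (mv 425 (both (five 7 425 457) (mv 426 (both (five 7 393 393) (mv 553 (both (five 6 425 521) (five 6 457 585)))))))))) (both (mv 524 (both (mv 523 (both (five 2 521 553) (five 0 522 558))) (both (mv 460 (both (five 4 428 428) (mv 459 (both (five 0 457 457) (mv 556 (both (five 7 427 427) (mv 555 (both (five 3 521 521) (five 1 521 553))))))))) (mv 523 (both (five 0 522 558) (five 1 489 521)))))) (both (mv 490 (both (mv 457 (both (five 7 425 425) (mv 459 (both (five 0 457 460) (five 5 426 427))))) (both (mv 427 (both (five 5 426 459) (mv 426 (both (five 5 394 395) (mv 555 (both (five 4 426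 523) (five 4 458 587))))))) (mv 425 (both (five 7 425 457) (mv 426 (both (five 7 393 393) (mv 555 (both (five 4 426 523) (five 4 458 587)))))))))) (both (mv 490 (both (mv 427 (both (five 5 426 459) (mv 426 (both (five 5 394 395) (mv 553 (both (five 6 425 521) (five 6 457 585))))))) (both (mv 427 (both (five 5 426 459) (mv 426 (both (five 5 394 395) (mv 555 (both (five 4 426 523) (five 4 458 587))))))) (mv 555 (both (five 4 458 587) (mv 556 (both (five 3 521 521) (mv 558 (both (five 3 522 523) (mv 591 (both (five 0 555 590) (mv 559 (both (five 0 556 592) (five 1 524 527)))))))))))))) (mv 490 (both (mv 425 (both (five 7 425 457) (mv 426 (both (five 7 393 393) (mv 553 (both (five 6 425 521) (five 6 457 585))))))) (both (mv 425 (both (five 7 425 457) (mv 426 (both (five 7 393 393) (mv 555 (both (five 4 426 523) (five 4 458 587))))))) (mv 555 (both (five 4 458 587) (mv 556 (both (five 3 521 521) (mv 558 (both (five 3 522 523) (mv 591 (both (five 0 555 590) (mv 559 (both (five 0 556 592) (five 1 524 527))))))))))))))))))) (both (mv 586 (both (mv 524 (both (mv 523 (both (five 2 521 553) (five 0 522 558)))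 (both (mv 556 (both (mv 460 (both (five 4 428 428) (mv 587 (both (five 6 459 555) (mv 588 (both (five 6 491 619) (five 5 492 620))))))) (both (mv 588 (both (five 5 492 620) (mv 587 (both (five 6 491 619) (five 1 553 585))))) (mv 555 (both (five 2 553 585) (five 1 521 553)))))) (mv 558 (both (five 0 522 523) (mv 559 (both (five 3 524 560) (mv 556 (both (five 1 524 527) (mv 588 (both (five 5 492 620) (mv 587 (both (five 6 491 619) (five 1 553 585)))))))))))))) (both (mv 618 (both (mv 649 (both (five 6 521 617) (mv 650 (both (five 6 553 681) (mv 651 (both (five 4 554 683) (five 4 522 619))))))) (both (mv 649 (both (five 6 521 617) (mv 650 (both (five 6 553 681) (mv 521 (both (five 7 521 553) (five 7 489 489))))))) (both (mv 651 (both (five 4 522 619) (mv 650 (both (five 4 554 683) (mv 521 (both (five 7 521 553) (five 7 489 489))))))) (mv 585 (both (mv 617 (both (five 6 521 649) (mv 555 (both (five 2 553 556) (mv 583 (both (five 1 551 584) (mv 521 (both (five 7 489 489) (mv 520 (both (five 0 519 519) (mv 553 (both (five 7 488 488) (mv 616 (both (five 6 520 648) (mv 587 (both (five 1 583 615) (five 2 584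 588))))))))))))))))) (both (mv 619 (both (five 4 522 651) (mv 620 (both (five 3 585 621) (mv 584 (both (five 0 583 583) (five 0 584 587))))))) (both (mv 651 (both (five 4 522 619) (mv 617 (both (five 6 521 649) (mv 555 (both (five 2 553 556) (mv 584 (both (five 1 551 583) (mv 521 (both (five 7 489 489) (mv 520 (both (five 0 519 519) (mv 488 (both (five 4 488 552) (five 7 488 553))))))))))))))) (mv 649 (both (five 6 521 617) (mv 619 (both (five 4 522 651) (mv 620 (both (five 3 585 621) (mv 556 (both (five 2 553 555) (mv 588 (both (five 5 524 652) (five 1 553 587))))))))))))))))))) (both (mv 618 (both (mv 649 (both (five 6 521 617) (mv 650 (both (five 6 553 681) (mv 651 (both (five 4 554 683) (five 4 522 619))))))) (both (mv 649 (both (five 6 521 617) (mv 650 (both (five 6 553 681) (mv 521 (both (five 7 521 553) (five 7 489 489))))))) (both (mv 651 (both (five 4 522 619) (mv 650 (both (five 4 554 683) (mv 521 (both (five 7 521 553) (five 7 489 489))))))) (mv 619 (both (five 4 522 651) (mv 620 (both (mv 621 (both (five 3 585 585) (mv 622 (both (five 3 586 587) (mv 655 (both (five 0 619 654) (mv 623 (both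 (five 0 620 656) (mv 591 (both (five 1 587 590) (five 1 588 592))))))))))) (both (mv 617 (both (five 6 521 649) (mv 652 (both (five 0 617 653) (mv 521 (both (five 7 489 489) (mv 523 (both (five 1 489 524) (mv 587 (both (five 4 523 555) (mv 616 (both (five 1 583 615) (five 1 584 588))))))))))))) (mv 649 (both (five 6 521 617) (mv 621 (both (five 3 585 585) (mv 654 (both (five 0 618 653) (mv 622 (both (five 0 619 655) (mv 590 (both (five 1 587 591) (five 7 525 558)))))))))))))))))))) (both (mv 618 (both (mv 649 (both (five 6 521 617) (mv 650 (both (five 6 553 681) (mv 651 (both (five 4 554 683) (five 4 522 619))))))) (both (mv 651 (both (five 4 522 619) (mv 650 (both (five 4 554 683) (mv 521 (both (five 7 521 553) (five 7 489 489))))))) (both (mv 649 (both (five 6 521 617) (mv 650 (both (five 6 553 681) (mv 521 (both (five 7 521 553) (five 7 489 489))))))) (mv 619 (both (five 4 522 651) (mv 620 (both (mv 621 (both (five 3 585 585) (mv 654 (both (five 0 618 653) (mv 622 (both (five 0 619 655) (mv 590 (both (five 1 587 591) (five 7 525 558))))))))) (both (mv 617 (both (five 6 521 649) (mv 652 (both (five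 0 617 653) (mv 588 (both (five 5 524 556) (mv 616 (both (five 1 584 587) (mv 648 (both (five 2 615 647) (mv 584 (both (five 3 583 583) (mv 521 (both (five 7 489 489) (mv 552 (both (five 5 520 553) (mv 551 (both (five 7 519 519) (mv 523 (both (five 2 519 520) (five 1 489 524))))))))))))))))))))) (mv 621 (both (five 3 585 585) (mv 622 (both (five 3 586 587) (mv 655 (both (five 0 619 654) (mv 623 (both (five 0 620 656) (mv 591 (both (five 1 587 590) (five 1 588 592)))))))))))))))))))) (both (mv 618 (both (mv 649 (both (five 6 521 617) (mv 650 (both (five 6 553 681) (mv 651 (both (five 4 554 683) (five 4 522 619))))))) (both (mv 649 (both (five 6 521 617) (mv 650 (both (five 6 553 681) (mv 521 (both (five 7 521 553) (five 7 489 489))))))) (both (mv 651 (both (five 4 522 619) (mv 650 (both (five 4 554 683) (mv 521 (both (five 7 521 553) (five 7 489 489))))))) (mv 649 (both (five 6 521 617) (mv 619 (both (five 4 522 651) (mv 587 (both (five 4 490 490) (mv 521 (both (five 7 489 489) (mv 556 (both (five 3 521 555) (mv 524 (both (five 6 491 588) (five 0 521 523))))))))))))))))) (both (mv 618 (both (mv 649 (both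 (five 6 521 617) (mv 650 (both (five 6 553 681) (mv 651 (both (five 4 554 683) (five 4 522 619))))))) (both (mv 651 (both (five 4 522 619) (mv 650 (both (five 4 554 683) (mv 521 (both (five 7 521 553) (five 7 489 489))))))) (both (mv 649 (both (five 6 521 617) (mv 650 (both (five 6 553 681) (mv 521 (both (five 7 521 553) (five 7 489 489))))))) (mv 649 (both (five 6 521 617) (mv 619 (both (five 4 522 651) (mv 521 (both (five 7 489 489) (mv 556 (both (five 3 521 555) (mv 524 (both (five 0 521 523) (mv 620 (both (five 5 492 588) (mv 621 (both (five 3 585 585) (mv 654 (both (five 0 618 653) (mv 622 (both (five 0 619 655) (mv 590 (both (five 1 587 591) (five 7 525 558))))))))))))))))))))))))) (both (mv 618 (both (mv 649 (both (five 6 521 617) (mv 650 (both (five 6 553 681) (mv 651 (both (five 4 554 683) (five 4 522 619))))))) (both (mv 649 (both (five 6 521 617) (mv 650 (both (five 6 553 681) (mv 683 (both (five 4 554 651) (mv 715 (both (five 4 586 682) (mv 555 (both (five 5 522 523) (mv 556 (both (five 2 553 585) (five 3 521 521))))))))))))) (mv 521 (both (five 7 489 489) (mv 556 (both (five 3 521 555)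 (mv 524 (both (five 0 521 523) (mv 588 (both (five 5 492 620) (mv 587 (both (five 6 491 619) (five 1 553 585)))))))))))))) (both (mv 521 (both (mv 618 (both (five 7 489 489) (mv 649 (both (five 6 521 617) (mv 650 (both (five 6 553 681) (five 7 521 553))))))) (both (mv 556 (both (five 3 521 555) (mv 524 (both (five 0 521 523) (mv 588 (both (five 5 492 620) (mv 585 (both (five 1 553 587) (mv 617 (both (five 6 489 490) (mv 649 (both (five 5 553 681) (five 5 521 553))))))))))))) (both (mv 618 (both (five 7 489 489) (mv 649 (both (five 6 521 617) (mv 650 (both (five 6 553 681) (mv 555 (both (five 3 521 556) (five 5 522 523))))))))) (mv 618 (both (five 7 489 489) (mv 650 (both (five 7 521 553) (mv 555 (both (five 3 521 556) (five 5 522 523))))))))))) (mv 618 (both (mv 649 (both (five 6 521 617) (mv 650 (both (five 6 553 681) (mv 651 (both (five 4 554 683) (five 4 522 619))))))) (both (mv 649 (both (five 6 521 617) (mv 650 (both (five 6 553 681) (mv 521 (both (five 7 521 553) (five 7 489 489))))))) (both (mv 651 (both (five 4 522 619) (mv 650 (both (five 4 554 683) (mv 521 (both (five 7 521 553) (five 7 489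 489))))))) (mv 649 (both (five 6 521 617) (mv 619 (both (five 4 522 651) (mv 587 (both (five 4 490 490) (mv 521 (both (five 7 489 489) (mv 555 (both (five 3 521 556) (mv 519 (both (five 0 519 520) (mv 523 (both (five 5 491 524) (mv 620 (both (five 4 523 652) (mv 621 (both (five 3 585 585) (mv 654 (both (five 0 618 653) (mv 622 (both (five 0 619 655) (mv 590 (both (five 1 587 591) (five 7 525 558)))))))))))))))))))))))))))))))))))))) (both (mv 521 (both (mv 556 (both (five 3 521 555) (mv 524 (both (five 0 521 523) (mv 460 (both (five 4 428 428) (mv 459 (both (five 7 427 427) (mv 457 (both (five 0 457 458) (mv 489 (both (five 4 425 425) (mv 586 (both (five 7 489 618) (five 7 457 490))))))))))))))) (both (mv 489 (both (mv 586 (both (five 7 489 618) (mv 585 (both (mv 617 (both (five 6 489 490) (mv 649 (both (five 5 553 681) (five 5 521 553))))) (both (mv 555 (both (five 2 553 556) (mv 584 (both (five 1 551 583) (mv 616 (both (five 6 488 553) (mv 520 (both (five 5 488 552) (five 0 519 519))))))))) (mv 617 (both (five 6 489 490) (mv 681 (both (five 5 553 649) (mv 555 (both (five 2 553 556) (mv 584 (both (five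 1 551 583) (mv 520 (both (five 0 519 519) (mv 552 (both (five 5 488 616) (five 4 488 488)))))))))))))))))) (both (mv 457 (both (five 4 425 425) (mv 553 (both (mv 584 (both (five 6 456 552) (mv 585 (both (five 6 488 616) (mv 488 (both (five 7 456 456) (mv 617 (both (five 7 488 520) (five 5 521 649))))))))) (both (mv 456 (both (five 7 424 424) (mv 458 (both (five 5 425 426) (mv 459 (both (five 0 457 460) (mv 427 (both (five 5 426 490) (five 1 424 428))))))))) (mv 584 (both (five 6 456 552) (mv 585 (both (five 6 488 616) (mv 617 (both (five 5 521 649) (five 5 489 490)))))))))))) (both (mv 586 (both (five 7 489 618) (mv 457 (both (five 7 457 490) (five 4 425 425))))) (mv 586 (both (five 7 489 618) (mv 457 (both (five 4 457 553) (five 4 425 425))))))))) (both (mv 586 (both (mv 457 (both (mv 489 (both (five 4 457 553) (five 4 425 425))) (both (mv 524 (both (five 1 489 523) (mv 460 (both (five 4 428 428) (mv 458 (both (five 0 457 459) (mv 490 (both (five 7 425 425) (mv 585 (both (five 6 489 617) (five 6 457 553))))))))))) (both (mv 489 (both (five 7 457 490) (five 4 425 425))) (mv 489 (both (five 4 457 553)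 (five 7 457 490))))))) (both (mv 618 (both (mv 649 (both (five 6 521 617) (mv 650 (both (five 6 553 681) (five 7 521 553))))) (both (mv 617 (both (five 6 521 649) (mv 619 (both (five 4 522 651) (mv 585 (both (five 6 489 490) (mv 620 (both (five 3 585 621) (five 3 584 584))))))))) (mv 650 (both (five 7 521 553) (mv 651 (both (five 4 554 683) (five 4 522 619)))))))) (both (mv 618 (both (five 7 489 489) (mv 649 (both (five 6 521 617) (mv 650 (both (five 6 553 681) (mv 651 (both (five 4 554 683) (five 4 522 619))))))))) (mv 618 (both (five 7 489 489) (mv 650 (both (five 7 521 553) (mv 651 (both (five 4 554 683) (five 4 522 619))))))))))) (both (mv 490 (both (mv 555 (both (five 3 521 556) (mv 519 (both (five 0 519 520) (mv 523 (both (five 1 489 524) (mv 458 (both (five 4 426 426) (mv 457 (both (five 7 425 425) (mv 459 (both (five 0 457 460) (five 5 426 427))))))))))))) (both (mv 458 (both (mv 457 (both (five 7 425 425) (mv 459 (both (five 0 457 460) (five 5 426 427))))) (mv 553 (both (five 6 457 585) (five 6 425 426))))) (both (mv 585 (both (mv 617 (both (five 6 489 586) (five 5 489 553))) (both (mv 555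 (both (five 3 521 556) (mv 520 (both (five 0 519 519) (mv 523 (both (five 1 489 524) (mv 552 (both (five 2 519 551) (mv 488 (both (five 3 487 487) (mv 456 (both (five 4 456 553) (mv 423 (both (five 7 423 455) (mv 424 (both (five 7 391 391) (mv 425 (both (five 5 424 457) (five 5 392 393))))))))))))))))))) (mv 617 (both (five 6 489 586) (mv 555 (both (five 3 521 556) (mv 520 (both (five 0 519 519) (mv 523 (both (five 1 489 524) (mv 552 (both (five 2 519 551) (mv 488 (both (five 4 488 584) (five 3 487 487)))))))))))))))) (mv 555 (both (five 3 521 556) (mv 520 (both (five 0 519 519) (mv 523 (both (five 1 489 524) (mv 552 (both (five 2 519 551) (mv 488 (both (five 3 487 487) (mv 458 (both (five 4 426 426) (mv 585 (both (five 6 457 553) (mv 617 (both (five 4 488 584) (five 6 489 586))))))))))))))))))))) (both (mv 523 (both (five 1 489 524) (mv 555 (both (five 3 521 556) (mv 553 (both (mv 520 (both (five 0 519 519) (mv 488 (both (five 3 487 487) (mv 585 (both (five 7 488 617) (mv 456 (both (five 7 456 489) (five 4 424 424))))))))) (both (mv 552 (both (five 1 519 551) (mv 584 (both (five 2 551 583) (mv 616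 (both (five 5 520 648) (mv 489 (both (five 6 488 585) (five 6 456 457))))))))) (both (mv 552 (both (five 1 519 551) (mv 584 (both (five 2 551 583) (mv 648 (both (five 5 520 616) (mv 520 (both (five 3 519 519) (mv 488 (both (five 3 487 487) (mv 456 (both (five 4 424 424) (mv 457 (both (five 5 456 489) (five 5 424 425))))))))))))))) (mv 552 (both (five 1 519 551) (mv 583 (both (five 2 551 584) (mv 520 (both (five 3 519 519) (mv 488 (both (five 3 487 487) (mv 585 (both (five 7 488 617) (five 4 456 456))))))))))))))))))) (mv 523 (both (five 1 489 524) (mv 555 (both (five 3 521 556) (mv 553 (both (mv 520 (both (five 0 519 519) (mv 488 (both (five 3 487 487) (mv 585 (both (five 7 488 617) (mv 456 (both (five 7 456 489) (five 4 424 424))))))))) (both (mv 552 (both (five 1 519 551) (mv 584 (both (five 2 551 583) (mv 616 (both (five 5 520 648) (mv 585 (both (five 6 488 489) (mv 617 (both (five 5 521 649) (five 5 489 490))))))))))) (both (mv 552 (both (five 1 519 551) (mv 584 (both (five 2 551 583) (mv 616 (both (five 5 520 648) (mv 520 (both (five 0 519 519) (five 5 488 489))))))))) (mv 552 (both (five 1 519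 551) (mv 583 (both (five 2 551 584) (mv 520 (both (five 3 519 519) (mv 488 (both (five 3 487 487) (mv 585 (both (five 7 488 617) (five 4 456 456))))))))))))))))))))))))) (mv 524 (both (mv 523 (both (five 2 521 553) (five 0 522 558))) (both (mv 460 (both (five 4 428 428) (mv 458 (both (mv 459 (both (five 0 457 457) (mv 556 (both (five 7 427 427) (mv 555 (both (five 3 521 521) (five 1 521 553))))))) (both (mv 555 (both (mv 556 (both (five 3 521 521) (five 1 521 553))) (both (mv 490 (both (five 4 458 587) (mv 425 (both (five 7 425 457) (mv 426 (both (five 7 393 393) (mv 521 (both (five 6 425 553) (mv 394 (both (five 6 393 489) (mv 395 (both (five 5 394 427) (five 5 362 363))))))))))))) (mv 587 (both (five 6 459 556) (five 4 458 490)))))) (both (mv 555 (both (mv 556 (both (five 3 521 521) (five 1 521 553))) (both (mv 490 (both (five 4 458 587) (mv 427 (both (five 5 426 459) (mv 426 (both (five 5 394 395) (mv 393 (both (five 7 393 425) (mv 394 (both (five 7 361 361) (mv 521 (both (five 6 393 489) (five 6 425 553))))))))))))) (mv 587 (both (five 6 459 556) (five 4 458 490)))))) (both (mv 457 (both (five 0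 457 459) (mv 490 (both (five 7 425 425) (mv 586 (both (five 7 457 489) (mv 587 (both (five 4 458 555) (five 4 490 619))))))))) (mv 459 (both (five 0 457 457) (mv 427 (both (five 7 427 556) (five 5 426 490)))))))))))) (mv 523 (both (five 0 522 558) (five 1 489 521))))))))))))))))) (both (mv 490 (both (mv 491 (both (five 2 489 521) (mv 458 (both (five 3 457 457) (mv 426 (both (mv 393 (both (five 7 393 425) (mv 394 (both (five 7 361 361) (mv 395 (both (five 5 362 363) (five 5 394 427))))))) (both (mv 393 (both (five 7 393 425) (mv 394 (both (five 7 361 361) (mv 362 (both (five 4 362 459) (mv 363 (both (five 5 330 331) (five 5 362 395))))))))) (both (mv 393 (both (five 7 393 425) (mv 394 (both (five 7 361 361) (mv 459 (both (five 4 362 362) (mv 554 (both (five 5 426 427) (five 5 458 586))))))))) (mv 427 (both (five 5 394 395) (mv 554 (both (five 5 426 459) (mv 585 (both (five 6 457 553) (mv 586 (both (five 6 489 617) (mv 587 (both (five 4 458 555) (five 4 490 619))))))))))))))))))) (both (mv 554 (both (mv 458 (both (mv 427 (both (five 5 426 459) (mv 426 (both (five 5 394 395) (mv 553 (both (five 6 425 521)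 (five 6 457 585))))))) (both (mv 425 (both (five 7 425 457) (mv 426 (both (five 7 393 393) (mv 553 (both (five 6 425 521) (five 6 457 585))))))) (mv 457 (both (five 7 425 425) (mv 459 (both (five 5 426 427) (five 0 457 460)))))))) (both (mv 586 (both (mv 619 (both (five 4 490 587) (mv 618 (both (five 4 522 651) (mv 489 (both (five 7 489 521) (five 7 457 457))))))) (both (mv 617 (both (five 6 489 585) (mv 618 (both (five 6 521 649) (mv 489 (both (five 7 489 521) (five 7 457 457))))))) (mv 585 (both (five 6 489 617) (mv 587 (both (five 4 490 619) (mv 556 (both (five 1 553 588) (five 2 553 555)))))))))) (both (mv 458 (both (mv 457 (both (five 7 425 425) (mv 459 (both (five 0 457 460) (five 5 426 427))))) (both (mv 587 (both (five 4 458 555) (mv 619 (both (five 4 490 586) (mv 427 (both (five 5 426 459) (mv 426 (both (five 5 394 395) (mv 393 (both (five 7 393 425) (mv 394 (both (five 7 361 361) (mv 521 (both (five 6 393 489) (five 6 425 553))))))))))))))) (both (mv 457 (both (five 7 425 425) (mv 586 (both (five 7 457 489) (mv 587 (both (five 4 458 555) (five 4 490 619))))))) (mv 587 (both (five 4 458 555)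 (mv 619 (both (five 4 490 586) (mv 459 (both (five 5 426 427) (mv 460 (both (five 0 457 457) (mv 428 (both (five 4 428 524) (five 4 396 396))))))))))))))) (mv 458 (both (mv 585 (both (five 6 457 553) (mv 586 (both (five 6 489 617) (mv 587 (both (five 4 458 555) (five 4 490 619))))))) (mv 427 (both (five 5 426 459) (mv 426 (both (five 5 394 395) (mv 393 (both (five 7 393 425) (mv 394 (both (five 7 361 361) (mv 428 (both (five 3 393 429) (mv 460 (both (five 4 428 524) (five 4 396 396))))))))))))))))))) (both (mv 458 (both (mv 457 (both (five 3 457 491) (mv 425 (both (five 7 425 554) (mv 393 (both (five 4 361 361) (five 4 393 489))))))) (both (mv 554 (both (mv 585 (both (five 6 457 553) (mv 586 (both (five 6 489 617) (mv 587 (both (five 4 458 555) (five 4 490 619))))))) (mv 427 (both (five 5 426 459) (mv 426 (both (five 5 394 395) (mv 393 (both (five 7 393 425) (mv 394 (both (five 7 361 361) (mv 428 (both (five 3 393 429) (mv 460 (both (five 4 428 524) (five 4 396 396))))))))))))))) (mv 457 (both (five 3 457 491) (mv 460 (both (five 0 457 459) (mv 428 (both (five 4 396 396) (five 4 428 524)))))))))) (both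 (mv 491 (both (five 2 489 521) (mv 524 (both (five 0 489 489) (mv 556 (both (mv 588 (both (five 7 459 459) (five 5 492 620))) (both (mv 460 (both (five 4 428 428) (mv 459 (both (five 7 427 427) (mv 554 (both (five 5 458 586) (mv 555 (both (five 1 521 553) (five 6 459 587))))))))) (mv 460 (both (five 4 428 428) (mv 587 (both (five 6 459 555) (mv 588 (both (five 6 491 619) (five 5 492 620)))))))))))))) (mv 491 (both (five 2 489 521) (mv 457 (both (five 3 457 458) (mv 489 (both (five 3 456 456) (five 0 489 524)))))))))))) (both (mv 524 (both (mv 558 (both (five 0 522 523) (mv 559 (both (five 3 524 560) (mv 556 (both (five 1 524 527) (mv 587 (both (five 2 555 588) (mv 591 (both (five 0 556 592) (mv 555 (both (five 2 554 586) (five 0 555 590))))))))))))) (both (mv 556 (both (mv 588 (both (five 5 492 620) (mv 587 (both (five 6 491 619) (mv 586 (both (five 1 553 585) (mv 558 (both (five 2 554 555) (five 2 555 559))))))))) (both (mv 460 (both (five 4 428 428) (mv 459 (both (five 7 427 427) (mv 457 (both (five 0 457 458) (mv 555 (both (five 6 459 587) (mv 554 (both (five 1 521 553) (mv 586 (both (five 2 553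 585) (mv 490 (both (five 7 457 489) (five 5 458 491))))))))))))))) (mv 588 (both (five 5 492 620) (mv 459 (both (five 7 459 491) (mv 460 (both (five 7 427 427) (five 4 428 428)))))))))) (both (mv 556 (both (mv 460 (both (five 4 428 428) (mv 587 (both (five 6 459 555) (mv 588 (both (five 6 491 619) (five 5 492 620))))))) (both (mv 588 (both (five 5 492 620) (mv 491 (both (five 7 459 459) (mv 490 (both (five 0 489 489) (mv 458 (both (five 3 457 457) (mv 587 (both (five 6 491 619) (mv 555 (both (five 7 458 523) (five 4 458 554))))))))))))) (both (mv 460 (both (five 4 428 428) (mv 459 (both (five 7 427 427) (mv 457 (both (five 0 457 458) (mv 555 (both (five 6 459 587) (mv 554 (both (five 1 521 553) (mv 586 (both (five 2 553 585) (mv 490 (both (five 7 457 489) (five 5 458 491))))))))))))))) (mv 588 (both (five 5 492 620) (mv 459 (both (five 7 459 491) (mv 460 (both (five 7 427 427) (five 4 428 428))))))))))) (both (mv 458 (both (mv 460 (both (five 4 428 428) (mv 457 (both (five 0 457 459) (mv 490 (both (five 3 457 491) (mv 425 (both (five 7 425 554) (mv 393 (both (five 4 361 361) (five 4 393 489)))))))))))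 (both (mv 523 (both (five 0 522 558) (mv 490 (both (five 3 489 489) (mv 426 (both (five 4 426 555) (mv 393 (both (five 7 393 425) (mv 394 (both (five 7 361 361) (five 4 394 491))))))))))) (both (mv 460 (both (five 4 428 428) (mv 459 (both (five 0 457 457) (mv 523 (both (five 0 522 558) (mv 554 (both (five 2 521 553) (mv 491 (both (five 6 426 427) (mv 555 (both (five 7 426 426) (five 6 458 586))))))))))))) (mv 428 (both (five 4 428 460) (mv 523 (both (five 0 522 558) (mv 490 (both (five 3 489 489) (mv 426 (both (five 4 426 555) (mv 427 (both (five 5 394 395) (mv 554 (both (five 5 426 459) (five 2 521 553))))))))))))))))) (mv 428 (both (five 4 428 460) (mv 558 (both (five 0 522 523) (mv 559 (both (five 3 524 560) (mv 527 (both (five 1 524 556) (mv 463 (both (five 6 462 590) (mv 430 (both (five 7 430 462) (mv 431 (both (five 7 398 398) (mv 432 (both (five 5 399 400) (five 5 431 464)))))))))))))))))))))) (both (mv 524 (both (mv 523 (both (five 0 522 558) (five 1 489 521))) (both (mv 556 (both (mv 588 (both (five 5 492 620) (mv 587 (both (five 6 491 619) (mv 586 (both (five 1 553 585) (mv 558 (both (five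 2 554 555) (five 2 555 559))))))))) (both (mv 460 (both (five 4 428 428) (mv 555 (both (five 6 459 587) (mv 554 (both (five 3 521 521) (five 1 521 553))))))) (mv 588 (both (five 5 492 620) (mv 459 (both (five 7 459 491) (mv 460 (both (five 7 427 427) (five 4 428 428)))))))))) (both (mv 558 (both (five 0 522 523) (mv 559 (both (five 3 524 560) (mv 556 (both (five 1 524 527) (mv 587 (both (five 2 555 588) (mv 591 (both (five 0 556 592) (mv 555 (both (five 2 554 586) (five 0 555 590))))))))))))) (mv 556 (both (mv 521 (both (five 1 489 523) (mv 554 (both (five 3 521 555) (mv 588 (both (five 5 492 620) (mv 459 (both (five 7 459 491) (mv 587 (both (five 6 491 619) (mv 586 (both (five 1 553 585) (mv 618 (both (five 7 489 489) (mv 649 (both (five 6 521 617) (mv 650 (both (five 6 553 681) (five 7 521 553))))))))))))))))))) (both (mv 460 (both (five 4 428 428) (mv 555 (both (five 6 459 587) (mv 554 (both (five 3 521 521) (five 1 521 553))))))) (mv 588 (both (five 5 492 620) (mv 459 (both (five 7 459 491) (mv 460 (both (five 7 427 427) (five 4 428 428)))))))))))))) (both (mv 490 (both (mv 491 (both (five 2 489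 521) (mv 457 (both (five 3 457 458) (mv 489 (both (five 3 456 456) (five 0 489 524))))))) (both (mv 554 (both (mv 458 (both (mv 425 (both (five 7 425 457) (mv 426 (both (five 7 393 393) (mv 427 (both (five 5 394 395) (five 5 426 459))))))) (both (mv 427 (both (five 5 426 459) (mv 426 (both (five 5 394 395) (mv 553 (both (five 6 425 521) (five 6 457 585))))))) (both (mv 425 (both (five 7 425 457) (mv 426 (both (five 7 393 393) (mv 553 (both (five 6 425 521) (five 6 457 585))))))) (mv 427 (both (five 5 426 459) (mv 457 (both (five 7 425 425) (mv 585 (both (five 6 457 553) (mv 586 (both (five 7 457 489) (five 6 489 617))))))))))))) (both (mv 586 (both (mv 619 (both (five 4 490 587) (mv 618 (both (five 4 522 651) (mv 489 (both (five 7 489 521) (five 7 457 457))))))) (both (mv 617 (both (five 6 489 585) (mv 618 (both (five 6 521 649) (mv 489 (both (five 7 489 521) (five 7 457 457))))))) (mv 585 (both (five 6 489 617) (mv 587 (both (five 4 490 619) (mv 556 (both (five 1 553 588) (five 2 553 555)))))))))) (both (mv 458 (both (mv 425 (both (five 7 425 457) (mv 426 (both (five 7 393 393) (mv 427 (both (five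 5 426 459) (five 5 394 395))))))) (mv 585 (both (five 6 457 553) (mv 555 (both (five 4 458 587) (mv 556 (both (five 3 521 521) (mv 558 (both (five 3 522 523) (mv 591 (both (five 0 555 590) (mv 559 (both (five 0 556 592) (five 1 524 527))))))))))))))) (both (mv 458 (both (mv 425 (both (five 7 425 457) (mv 426 (both (five 7 393 393) (mv 427 (both (five 5 426 459) (five 5 394 395))))))) (both (mv 427 (both (five 5 426 459) (mv 426 (both (five 5 394 395) (mv 555 (both (five 4 426 523) (five 4 458 587))))))) (mv 457 (both (five 7 425 425) (mv 586 (both (five 7 457 489) (mv 587 (both (five 4 458 555) (five 4 490 619)))))))))) (mv 458 (both (mv 427 (both (five 5 426 459) (mv 426 (both (five 5 394 395) (mv 553 (both (five 6 425 521) (five 6 457 585))))))) (both (mv 427 (both (five 5 426 459) (mv 426 (both (five 5 394 395) (mv 555 (both (five 4 426 523) (five 4 458 587))))))) (mv 585 (both (five 6 457 553) (mv 586 (both (five 6 489 617) (mv 587 (both (five 4 458 555) (five 4 490 619))))))))))))))) (both (mv 458 (both (mv 554 (both (mv 425 (both (five 7 425 457) (mv 426 (both (five 7 393 393) (mv 427 (both (five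 5 394 395) (five 5 426 459))))))) (mv 585 (both (five 6 457 553) (mv 586 (both (five 6 489 617) (mv 587 (both (five 4 458 555) (five 4 490 619))))))))) (both (mv 554 (both (mv 585 (both (five 6 457 553) (mv 586 (both (five 6 489 617) (mv 587 (both (five 4 458 555) (five 4 490 619))))))) (both (mv 585 (both (five 6 457 553) (mv 586 (both (five 6 489 617) (mv 459 (both (five 5 458 491) (five 5 426 427))))))) (mv 427 (both (five 5 426 459) (mv 426 (both (five 5 394 395) (mv 555 (both (five 4 426 523) (five 4 458 587)))))))))) (both (mv 426 (both (mv 393 (both (five 7 393 425) (mv 394 (both (five 7 361 361) (mv 395 (both (five 5 362 363) (five 5 394 427))))))) (both (mv 393 (both (five 7 393 425) (mv 394 (both (five 7 361 361) (mv 491 (both (five 3 457 457) (five 4 394 523))))))) (both (mv 395 (both (five 5 394 427) (mv 394 (both (five 5 362 363) (mv 491 (both (five 3 457 457) (five 4 394 523))))))) (mv 393 (both (five 7 393 425) (mv 427 (both (five 5 394 395) (mv 457 (both (five 3 457 491) (mv 428 (both (five 2 425 429) (mv 456 (both (five 1 423 455) (five 1 424 459))))))))))))))) (mv 457 (both (five 3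 457 491) (mv 425 (both (five 7 425 554) (mv 393 (both (five 4 361 361) (five 4 393 489))))))))))) (both (mv 491 (both (five 2 489 521) (mv 458 (both (five 3 457 457) (mv 426 (both (mv 523 (both (five 4 394 394) (five 4 426 555))) (both (mv 393 (both (five 7 393 425) (mv 394 (both (five 7 361 361) (mv 395 (both (five 5 362 363) (five 5 394 427))))))) (mv 393 (both (five 7 393 425) (mv 395 (both (five 5 394 427) (mv 555 (both (five 4 426 523) (mv 554 (both (five 4 458 587) (mv 585 (both (five 6 457 553) (mv 586 (both (five 2 553 556) (five 6 489 617)))))))))))))))))))) (mv 491 (both (five 2 489 521) (mv 524 (both (five 0 489 489) (mv 558 (both (five 0 522 523) (mv 559 (both (five 3 524 560) (mv 556 (both (five 1 524 527) (mv 587 (both (five 2 555 588) (mv 591 (both (five 0 556 592) (mv 555 (both (five 2 554 586) (five 0 555 590)))))))))))))))))))))) (both (mv 523 (both (mv 524 (both (five 1 489 521) (five 0 522 558))) (both (mv 491 (both (mv 521 (both (five 2 489 490) (five 1 488 520))) (both (mv 555 (both (mv 556 (both (five 3 522 558) (mv 459 (both (five 4 459 588) (mv 554 (both (five 6 426 427) (five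 6 458 586))))))) (both (mv 587 (both (five 5 459 460) (mv 618 (both (five 6 490 586) (mv 619 (both (five 6 522 650) (mv 620 (both (five 4 491 588) (five 4 523 652))))))))) (mv 556 (both (five 3 522 558) (mv 587 (both (five 5 459 460) (mv 490 (both (five 7 458 458) (five 7 490 619)))))))))) (mv 555 (both (mv 556 (both (five 3 522 558) (mv 459 (both (five 4 459 588) (mv 554 (both (five 6 426 427) (five 6 458 586))))))) (both (mv 587 (both (five 5 459 460) (mv 618 (both (five 6 490 586) (mv 619 (both (five 6 522 650) (mv 620 (both (five 4 491 588) (five 4 523 652))))))))) (mv 460 (both (five 5 459 587) (mv 521 (both (five 1 488 520) (mv 556 (both (five 3 521 554) (five 3 522 558))))))))))))) (both (mv 524 (both (five 0 522 558) (mv 490 (both (five 3 489 489) (mv 458 (both (mv 426 (both (five 4 426 555) (mv 393 (both (five 7 393 425) (mv 394 (both (five 7 361 361) (five 4 394 491))))))) (both (mv 554 (both (five 2 521 553) (mv 459 (both (five 5 426 427) (mv 586 (both (five 5 458 491) (mv 617 (both (five 6 489 585) (mv 618 (both (five 6 521 649) (mv 619 (both (five 4 490 587) (five 4 522 651)))))))))))))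 (mv 426 (both (five 4 426 555) (mv 393 (both (five 7 393 425) (mv 361 (both (five 7 361 394) (mv 427 (both (five 5 394 395) (mv 554 (both (five 5 426 459) (five 2 521 553)))))))))))))))))) (mv 521 (both (five 1 489 524) (mv 491 (both (five 2 489 490) (five 1 488 520))))))))) (both (mv 490 (both (mv 491 (both (five 2 489 521) (mv 457 (both (five 3 457 458) (mv 489 (both (five 3 456 456) (five 0 489 524))))))) (both (mv 458 (both (mv 554 (both (mv 425 (both (five 7 425 457) (mv 426 (both (five 7 393 393) (mv 427 (both (five 5 394 395) (five 5 426 459))))))) (both (mv 427 (both (five 5 426 459) (mv 426 (both (five 5 394 395) (mv 553 (both (five 6 425 521) (five 6 457 585))))))) (mv 457 (both (five 7 425 425) (mv 585 (both (five 6 457 553) (mv 586 (both (five 7 457 489) (five 6 489 617)))))))))) (both (mv 554 (both (mv 457 (both (five 7 425 425) (mv 459 (both (five 5 426 427) (five 0 457 460))))) (mv 585 (both (five 6 457 553) (mv 586 (both (five 6 489 617) (mv 587 (both (five 4 458 555) (five 4 490 619))))))))) (both (mv 523 (both (mv 524 (both (five 1 489 521) (five 0 522 558))) (mv 426 (both (five 4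 426 555) (mv 393 (both (five 7 393 425) (mv 394 (both (five 7 361 361) (mv 395 (both (five 5 362 363) (five 5 394 427))))))))))) (both (mv 523 (both (mv 524 (both (five 1 489 521) (five 0 522 558))) (both (mv 426 (both (five 4 426 555) (mv 393 (both (five 7 393 425) (mv 394 (both (five 7 361 361) (mv 521 (both (five 6 393 489) (five 6 425 553))))))))) (mv 524 (both (five 3 489 489) (five 0 522 558)))))) (mv 523 (both (mv 524 (both (five 1 489 521) (five 0 522 558))) (both (mv 426 (both (five 4 426 555) (mv 395 (both (five 5 394 427) (mv 394 (both (five 5 362 363) (mv 521 (both (five 6 393 489) (five 6 425 553))))))))) (mv 524 (both (five 3 489 489) (five 0 522 558))))))))))) (both (mv 458 (both (mv 457 (both (five 3 457 491) (mv 425 (both (five 7 425 554) (mv 393 (both (five 4 361 361) (five 4 393 489))))))) (both (mv 554 (both (mv 585 (both (five 6 457 553) (mv 586 (both (five 6 489 617) (mv 587 (both (five 4 458 555) (five 4 490 619))))))) (mv 427 (both (five 5 426 459) (mv 426 (both (five 5 394 395) (mv 393 (both (five 7 393 425) (mv 394 (both (five 7 361 361) (mv 428 (both (five 3 393 429) (mv 460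 (both (five 4 428 524) (five 4 396 396))))))))))))))) (mv 457 (both (five 3 457 491) (mv 460 (both (five 0 457 459) (mv 428 (both (five 4 396 396) (five 4 428 524)))))))))) (both (mv 491 (both (five 2 489 521) (mv 458 (both (five 3 457 457) (mv 426 (both (mv 393 (both (five 7 393 425) (mv 394 (both (five 7 361 361) (mv 395 (both (five 5 362 363) (five 5 394 427))))))) (both (mv 393 (both (five 7 393 425) (mv 394 (both (five 7 361 361) (mv 362 (both (five 4 362 459) (mv 363 (both (five 5 330 331) (five 5 362 395))))))))) (both (mv 393 (both (five 7 393 425) (mv 394 (both (five 7 361 361) (mv 459 (both (five 4 362 362) (mv 554 (both (five 5 426 427) (five 5 458 586))))))))) (mv 427 (both (five 5 394 395) (mv 554 (both (five 5 426 459) (mv 585 (both (five 6 457 553) (mv 586 (both (five 6 489 617) (mv 587 (both (five 4 458 555) (five 4 490 619))))))))))))))))))) (mv 491 (both (five 2 489 521) (mv 524 (both (five 0 489 489) (mv 428 (both (five 4 428 460) (mv 523 (both (five 0 522 558) (mv 554 (both (five 2 521 553) (mv 459 (both (five 6 426 427) (five 5 458 586)))))))))))))))))) (both (mv 523 (both (mv 524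 (both (five 1 489 521) (five 0 522 558))) (both (mv 491 (both (mv 521 (both (five 2 489 490) (five 1 488 520))) (both (mv 555 (both (mv 587 (both (five 5 459 460) (mv 490 (both (five 7 458 458) (five 7 490 619))))) (both (mv 556 (both (five 3 522 558) (mv 459 (both (five 4 459 588) (mv 426 (both (five 7 426 458) (mv 427 (both (five 7 394 394) (mv 395 (both (five 6 394 490) (mv 396 (both (five 5 363 364) (five 5 395 428))))))))))))) (mv 587 (both (five 5 459 460) (mv 618 (both (five 6 490 586) (mv 619 (both (five 6 522 650) (mv 620 (both (five 4 491 588) (five 4 523 652)))))))))))) (mv 555 (both (mv 587 (both (five 5 459 460) (mv 618 (both (five 6 490 586) (mv 619 (both (five 6 522 650) (mv 620 (both (five 4 491 588) (five 4 523 652))))))))) (both (mv 520 (both (five 1 488 521) (mv 556 (both (five 3 522 558) (mv 588 (both (five 4 459 459) (mv 620 (both (five 4 491 587) (five 7 523 652))))))))) (both (mv 556 (both (five 3 522 558) (mv 459 (both (five 4 459 588) (mv 426 (both (five 7 426 458) (mv 427 (both (five 7 394 394) (mv 428 (both (five 5 395 396) (five 5 427 460))))))))))) (mv 460 (both (five 5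 459 587) (mv 428 (both (five 4 396 396) (five 5 427 459)))))))))))) (both (mv 524 (both (five 0 522 558) (mv 555 (both (mv 460 (both (five 6 427 428) (mv 490 (both (five 3 489 489) (mv 458 (both (five 4 426 426) (mv 457 (both (five 0 457 459) (five 3 457 491))))))))) (both (mv 490 (both (five 3 489 489) (mv 458 (both (five 4 426 426) (mv 491 (both (five 3 457 457) (five 7 458 587))))))) (mv 460 (both (five 6 427 428) (mv 587 (both (five 6 459 556) (five 5 491 619)))))))))) (mv 521 (both (five 1 489 524) (mv 491 (both (five 2 489 490) (five 1 488 520))))))))) (both (mv 490 (both (mv 491 (both (five 2 489 521) (mv 457 (both (five 3 457 458) (mv 489 (both (five 3 456 456) (five 0 489 524))))))) (both (ref 0) (both (mv 524 (both (mv 558 (both (five 0 522 523) (mv 559 (both (five 3 524 560) (mv 527 (both (five 1 524 556) (mv 463 (both (five 6 462 590) (mv 430 (both (five 7 430 462) (mv 431 (both (five 7 398 398) (mv 432 (both (five 5 399 400) (five 5 431 464))))))))))))))) (both (mv 427 (both (mv 460 (both (five 4 428 428) (mv 459 (both (five 7 427 556) (mv 458 (both (five 0 457 457) (five 5 426 554)))))))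 (both (mv 491 (both (five 0 489 489) (mv 395 (both (five 6 394 459) (mv 458 (both (five 5 394 426) (five 3 457 457))))))) (both (mv 428 (both (five 4 428 460) (mv 491 (both (five 0 489 489) (mv 458 (both (five 3 457 457) (mv 426 (both (five 5 394 395) (mv 393 (both (five 7 393 425) (mv 394 (both (five 7 361 361) (five 3 393 429))))))))))))) (mv 460 (both (five 4 428 428) (mv 459 (both (five 7 427 556) (mv 395 (both (five 4 363 363) (five 4 395 491))))))))))) (mv 489 (both (five 0 489 491) (five 3 489 523)))))) (both (mv 491 (both (five 2 489 521) (mv 554 (both (mv 459 (both (five 5 458 586) (mv 427 (both (five 6 394 395) (five 6 426 523))))) (both (mv 458 (both (five 3 457 457) (mv 585 (both (five 6 457 553) (mv 586 (both (five 6 489 617) (mv 618 (both (five 5 490 523) (mv 619 (both (five 4 522 651) (five 4 490 587))))))))))) (both (mv 458 (both (five 3 457 457) (mv 427 (both (five 5 426 459) (mv 426 (both (five 5 394 395) (mv 393 (both (five 7 393 425) (mv 394 (both (five 7 361 361) (five 4 394 523))))))))))) (mv 457 (both (five 3 457 458) (mv 586 (both (five 5 458 459) (mv 617 (both (five 6 489 585)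 (mv 618 (both (five 6 521 649) (mv 619 (both (five 4 490 587) (five 4 522 651))))))))))))))))) (mv 491 (both (five 2 489 521) (mv 524 (both (five 0 489 489) (mv 428 (both (five 4 428 460) (mv 523 (both (five 0 522 558) (mv 554 (both (five 2 521 553) (mv 459 (both (five 6 426 427) (five 5 458 586)))))))))))))))))) (both (mv 524 (both (mv 523 (both (five 0 522 558) (five 1 489 521))) (both (mv 556 (both (mv 588 (both (five 5 492 620) (mv 587 (both (five 6 491 619) (mv 586 (both (five 1 553 585) (mv 558 (both (five 2 554 555) (five 2 555 559))))))))) (both (mv 460 (both (five 4 428 428) (mv 555 (both (five 6 459 587) (mv 554 (both (five 3 521 521) (five 1 521 553))))))) (mv 588 (both (five 5 492 620) (mv 459 (both (five 7 459 491) (mv 460 (both (five 7 427 427) (five 4 428 428)))))))))) (both (mv 558 (both (five 0 522 523) (mv 559 (both (five 3 524 560) (mv 556 (both (five 1 524 527) (mv 587 (both (five 2 555 588) (mv 591 (both (five 0 556 592) (mv 555 (both (five 2 554 586) (five 0 555 590))))))))))))) (mv 556 (both (mv 521 (both (five 1 489 523) (mv 490 (both (five 2 489 491) (mv 588 (both (five 5 492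 620) (mv 587 (both (five 6 491 619) (mv 585 (both (five 1 553 586) (mv 553 (both (five 5 489 617) (mv 458 (both (five 6 425 426) (five 6 457 554))))))))))))))) (both (mv 460 (both (five 4 428 428) (mv 555 (both (five 6 459 587) (mv 554 (both (five 3 521 521) (five 1 521 553))))))) (mv 588 (both (five 5 492 620) (mv 459 (both (five 7 459 491) (mv 460 (both (five 7 427 427) (five 4 428 428)))))))))))))) (both (mv 523 (both (mv 524 (both (five 1 489 521) (five 0 522 558))) (both (mv 555 (both (mv 556 (both (five 3 522 558) (mv 521 (both (five 0 520 520) (five 3 521 554))))) (both (mv 490 (both (mv 458 (both (five 4 426 426) (mv 587 (both (five 4 458 554) (five 7 490 619))))) (both (mv 491 (both (five 2 489 521) (mv 587 (both (five 5 459 460) (mv 618 (both (five 6 490 586) (mv 619 (both (five 6 522 650) (mv 620 (both (five 4 491 588) (five 4 523 652))))))))))) (mv 458 (both (five 4 426 426) (mv 491 (both (five 3 457 457) (five 2 489 521)))))))) (both (mv 587 (both (mv 491 (both (five 5 459 460) (mv 618 (both (five 6 490 586) (mv 619 (both (five 6 522 650) (mv 620 (both (five 4 491 588) (five 4 523 652)))))))))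 (both (mv 491 (both (five 5 459 460) (mv 458 (both (five 7 458 490) (mv 556 (both (five 3 522 558) (mv 586 (both (five 6 490 618) (mv 585 (both (five 2 553 554) (five 1 552 584))))))))))) (mv 490 (both (five 7 490 619) (mv 458 (both (five 4 426 426) (five 4 458 554)))))))) (mv 556 (both (five 3 522 558) (mv 521 (both (five 0 520 520) (mv 491 (both (five 2 489 490) (mv 587 (both (five 5 459 460) (mv 618 (both (five 6 490 586) (mv 619 (both (five 6 522 650) (mv 620 (both (five 4 491 588) (five 4 523 652))))))))))))))))))) (both (mv 524 (both (five 0 522 558) (mv 555 (both (mv 490 (both (five 3 489 489) (mv 458 (both (five 4 426 426) (mv 491 (both (five 3 457 457) (five 7 458 587))))))) (both (mv 428 (both (five 6 427 460) (mv 490 (both (five 3 489 489) (mv 458 (both (five 4 426 426) (mv 457 (both (five 3 457 491) (mv 554 (both (five 7 425 425) (five 2 521 553))))))))))) (mv 460 (both (five 6 427 428) (mv 587 (both (five 6 459 556) (five 5 491 619)))))))))) (mv 521 (both (five 1 489 524) (mv 491 (both (five 2 489 490) (five 1 488 520))))))))) (both (mv 524 (both (mv 523 (both (five 0 522 558) (five 1 489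 521))) (both (mv 556 (both (mv 588 (both (five 5 492 620) (mv 491 (both (five 7 459 459) (mv 490 (both (five 2 489 521) (five 0 489 489))))))) (both (mv 460 (both (five 4 428 428) (mv 555 (both (five 6 459 587) (mv 554 (both (five 3 521 521) (five 1 521 553))))))) (mv 460 (both (five 4 428 428) (mv 587 (both (five 6 459 555) (mv 588 (both (five 6 491 619) (five 5 492 620)))))))))) (mv 558 (both (five 0 522 523) (mv 559 (both (five 3 524 560) (mv 527 (both (five 1 524 556) (mv 463 (both (five 6 462 590) (mv 430 (both (five 7 430 462) (mv 431 (both (five 7 398 398) (mv 432 (both (five 5 399 400) (five 5 431 464)))))))))))))))))) (mv 490 (both (mv 491 (both (five 2 489 521) (mv 457 (both (five 3 457 458) (mv 489 (both (five 3 456 456) (five 0 489 524))))))) (both (ref 0) (both (mv 524 (both (mv 558 (both (five 0 522 523) (mv 559 (both (five 3 524 560) (mv 527 (both (five 1 524 556) (mv 463 (both (five 6 462 590) (mv 430 (both (five 7 430 462) (mv 431 (both (five 7 398 398) (mv 432 (both (five 5 399 400) (five 5 431 464))))))))))))))) (both (mv 427 (both (mv 460 (both (five 4 428 428) (mv 459 (both (five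 7 427 556) (mv 458 (both (five 0 457 457) (five 5 426 554))))))) (both (mv 491 (both (five 0 489 489) (mv 395 (both (five 6 394 459) (mv 458 (both (five 5 394 426) (five 3 457 457))))))) (both (mv 428 (both (five 4 428 460) (mv 491 (both (five 0 489 489) (mv 458 (both (five 3 457 457) (mv 426 (both (five 5 394 395) (mv 393 (both (five 7 393 425) (mv 394 (both (five 7 361 361) (five 3 393 429))))))))))))) (mv 460 (both (five 4 428 428) (mv 459 (both (five 7 427 556) (mv 395 (both (five 4 363 363) (five 4 395 491))))))))))) (mv 489 (both (five 0 489 491) (five 3 489 523)))))) (both (mv 491 (both (five 2 489 521) (mv 554 (both (mv 459 (both (five 5 458 586) (mv 427 (both (five 6 394 395) (five 6 426 523))))) (both (mv 458 (both (five 3 457 457) (mv 427 (both (five 5 426 459) (mv 426 (both (five 5 394 395) (mv 393 (both (five 7 393 425) (mv 394 (both (five 7 361 361) (five 4 394 523))))))))))) (mv 457 (both (five 3 457 458) (mv 489 (both (five 3 456 456) (five 7 457 586)))))))))) (both (mv 523 (both (mv 524 (both (five 1 489 521) (five 0 522 558))) (both (mv 491 (both (five 2 489 521) (mv 458 (both (five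 3 457 457) (mv 426 (both (five 4 426 555) (mv 393 (both (five 7 393 425) (mv 394 (both (five 7 361 361) (mv 395 (both (five 5 362 363) (five 5 394 427))))))))))))) (mv 558 (both (five 0 522 524) (mv 555 (both (five 3 522 556) (mv 458 (both (five 4 426 426) (mv 457 (both (five 3 457 491) (mv 459 (both (five 0 457 460) (mv 554 (both (five 7 425 425) (five 5 426 427)))))))))))))))) (mv 491 (both (five 2 489 521) (mv 524 (both (five 0 489 489) (mv 428 (both (five 4 428 460) (mv 523 (both (five 0 522 558) (mv 554 (both (five 2 521 553) (mv 459 (both (five 6 426 427) (five 5 458 586))))))))))))))))))))))))))))))))) (both (mv 589 (both (mv 620 (both (five 6 492 588) (mv 621 (both (five 7 492 524) (five 6 524 652))))) (both (mv 588 (both (five 6 492 620) (mv 558 (both (mv 559 (both (five 2 556 560) (mv 556 (both (five 2 555 587) (five 1 524 527))))) (both (mv 587 (both (five 1 554 586) (mv 590 (both (five 4 493 622) (mv 555 (both (five 3 554 554) (mv 556 (both (five 0 555 591) (mv 619 (both (five 6 491 524) (five 2 586 618))))))))))) (both (mv 559 (both (five 2 556 560) (mv 527 (both (five 1 524 556) (mv 590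 (both (five 6 462 463) (mv 622 (both (five 5 526 654) (five 6 494 591))))))))) (mv 559 (both (five 2 556 560) (mv 587 (both (five 1 554 586) (five 1 555 590))))))))))) (both (mv 621 (both (five 7 492 524) (mv 622 (both (five 4 493 590) (five 4 525 654))))) (mv 620 (both (five 6 492 588) (mv 621 (both (five 6 524 652) (mv 622 (both (five 4 493 590) (five 4 525 654))))))))))) (both (mv 589 (both (five 7 460 460) (mv 620 (both (five 6 492 588) (mv 621 (both (five 6 524 652) (mv 622 (both (five 4 493 590) (five 4 525 654))))))))) (mv 460 (both (five 7 460 589) (mv 428 (both (five 4 396 396) (five 4 428 524))))))))) (both (mv 494 (both (mv 459 (both (five 3 459 460) (mv 463 (both (five 1 460 464) (mv 491 (both (five 3 458 458) (five 1 459 462))))))) (both (mv 463 (both (five 1 460 464) (mv 491 (both (five 1 459 462) (mv 523 (both (five 2 490 522) (five 2 491 524))))))) (mv 460 (both (five 3 459 459) (mv 428 (both (five 4 396 396) (mv 524 (both (five 2 491 523) (five 4 428 557)))))))))) (both (mv 494 (both (five 0 492 527) (mv 463 (both (five 1 460 464) (mv 491 (both (five 1 459 462) (mv 523 (both (five 2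 490 522) (five 2 491 524))))))))) (both (mv 494 (both (five 0 492 527) (mv 459 (both (five 3 459 460) (mv 463 (both (five 1 460 464) (mv 491 (both (five 3 458 458) (five 1 459 462))))))))) (mv 494 (both (five 0 492 527) (mv 460 (both (five 3 459 459) (mv 428 (both (five 4 396 396) (mv 524 (both (five 2 491 523) (five 4 428 557)))))))))))))

theorem L45 : W (S 988530863186674619578336756865110845819126775104098558876359956461909287475517697927706188055377193898211299979079754656078381545756745792834308240066213838848) (S 172364133292167494824280641961702517877701651646371347876741401515299876065046443599367667185705055801077906688866376330239691734406419903351578367571953439014973302281497515233530129210414875144944786537509264818176) :=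
  check_sound (Env.cons L44 Env.nil) (x := 492) (t := tL45) (by decide +kernel)

end P062.Cert
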