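import Vale.Agent.P062.Check
import Vale.Agent.P062.Cert.C2
import Vale.Agent.P062.Cert.C4
import Vale.Agent.P062.Cert.C5

/-! Snaky certificate, part 6 (machine generated, checked by the kernel) -/

set_option maxRecDepth 100000

namespace P062.Cert

open T

def tL46 : T :=
  (both (mv 589 (both (mv 620 (both (five 6 492 588) (mv 621 (both (five 6 524 652) (mv 622 (both (five 4 493 590) (five 4 525 654))))))) (mv 492 (both (five 7 460 460) (mv 494 (both (five 5 461 462) (five 0 492 527))))))) (both (mv 461 (both (mv 428 (both (five 7 428 460) (mv 429 (both (five 7 396 396) (mv 556 (both (five 6 428 524) (five 6 460 588))))))) (both (mv 494 (both (mv 460 (both (five 7 428 428) (mv 459 (both (five 0 458 458) (five 0 459 462))))) (both (mv 492 (both (five 0 492 527) (mv 463 (both (five 1 460 464) (mv 491 (both (five 1 459 462) (mv 458 (both (five 3 458 459) (mv 490 (both (five 3 457 457) (mv 522 (both (five 2 489 521) (five 2 490 523))))))))))))) (both (mv 428 (both (five 7 428 460) (mv 396 (both (five 7 396 429) (mv 492 (both (five 0 492 527) (mv 463 (both (five 1 460 464) (mv 491 (both (five 1 459 462)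 (mv 523 (both (five 2 490 522) (five 2 491 524))))))))))))) (mv 492 (both (five 0 492 527) (mv 459 (both (five 3 459 460) (mv 491 (both (five 3 458 458) (mv 523 (both (five 2 490 522) (five 2 491 524))))))))))))) (both (mv 556 (both (five 6 460 588) (mv 558 (both (five 4 461 590) (mv 559 (both (five 1 524 527) (mv 524 (both (five 3 523 523) (five 3 524 560))))))))) (mv 460 (both (five 7 428 428) (mv 556 (both (five 6 460 588) (mv 558 (both (five 4 461 590) (mv 527 (both (five 1 524 559) (mv 494 (both (five 0 492 492) (mv 459 (both (five 0 458 458) (five 0 459 462))))))))))))))))) (both (mv 589 (both (mv 620 (both (five 6 492 588) (mv 621 (both (five 6 524 652) (mv 622 (both (five 4 493 590) (five 4 525 654))))))) (both (mv 621 (both (mv 620 (both (five 6 492 588) (five 6 524 652))) (both (mv 654 (both (five 4 525 622) (mv 653 (both (five 4 557 686) (mv 556 (both (five 7 524 524) (mv 588 (both (five 6 460 461) (five 7 556 685))))))))) (mv 652 (both (five 6 524 620) (mv 653 (both (five 6 556 684) (mv 654 (both (five 4 525 622) (five 4 557 686)))))))))) (both (mv 590 (both (five 4 493 622) (mv 591 (both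 (mv 556 (both (five 3 556 592) (mv 555 (both (five 0 554 554) (five 0 555 558))))) (both (mv 558 (both (five 4 461 461) (mv 556 (both (five 0 555 555) (mv 559 (both (five 1 524 527) (mv 524 (both (five 3 523 523) (five 3 524 560))))))))) (both (mv 592 (both (five 3 556 556) (mv 560 (both (five 1 557 561) (mv 624 (both (five 7 495 527) (five 0 589 625))))))) (mv 558 (both (five 4 461 461) (mv 592 (both (five 3 557 593) (mv 560 (both (five 1 557 561) (mv 624 (both (five 7 495 527) (five 0 589 625))))))))))))))) (mv 588 (both (five 6 492 620) (mv 558 (both (mv 559 (both (five 2 556 560) (mv 556 (both (five 2 555 587) (five 1 524 527))))) (both (mv 559 (both (five 2 556 560) (mv 587 (both (five 1 554 586) (five 1 555 590))))) (mv 461 (both (five 6 460 556) (five 4 461 590)))))))))))) (both (mv 492 (both (mv 460 (both (five 7 460 589) (mv 428 (both (five 4 396 396) (five 7 428 461))))) (mv 494 (both (five 0 492 527) (mv 463 (both (five 1 460 464) (mv 491 (both (five 1 459 462) (mv 523 (both (five 2 490 522) (five 2 491 524))))))))))) (mv 589 (both (mv 620 (both (five 6 492 588) (mv 621 (both (five 6 524 652)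 (mv 622 (both (five 4 493 590) (five 4 525 654))))))) (both (mv 492 (both (five 7 460 460) (mv 620 (both (five 6 492 588) (mv 621 (both (five 7 492 524) (five 6 524 652))))))) (mv 460 (both (five 7 460 492) (mv 461 (both (five 7 428 428) (mv 590 (both (five 4 461 558) (five 4 493 622))))))))))))))

theorem L46 : W (S 988530863186674619578336756865110845819126775104098558876359956461909287475517697927706188055377193898211299979079754656078381545756745792834308240066213838848) (S 561843129263483587036448182252936413675359271367774541980601708006776801577624670076784833283929206101446086970612044784843013367491038167048009809389637554766108976060067306706785976028768127725334144483328) :=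
  check_sound Env.nil (x := 557) (t := tL46) (by decide +kernel)

def tL47 : T :=
  (both (mv 494 (both (five 0 492 527) (mv 459 (both (five 3 459 460) (mv 491 (both (five 3 458 458) (mv 523 (both (five 2 490 522) (five 2 491 524))))))))) (both (mv 557 (both (mv 461 (both (mv 556 (both (five 6 460 588) (mv 558 (both (five 4 461 590) (mv 559 (both (five 1 524 527) (mv 524 (both (five 3 523 523) (five 3 524 560))))))))) (mv 462 (both (five 5 429 430) (mv 463 (both (five 2 460 464) (mv 491 (both (five 2 459 460) (five 1 458 490))))))))) (both (mv 589 (both (mv 620 (both (five 6 492 588) (mv 621 (both (five 7 492 524) (five 6 524 652))))) (both (mv 588 (both (five 6 492 620) (mv 558 (both (mv 559 (both (five 2 556 560) (mv 556 (both (five 2 555 587) (five 1 524 527))))) (both (mv 587 (both (five 1 554 586) (mv 590 (both (five 4 493 622) (mv 555 (both (five 3 554 554) (mv 556 (both (five 0 555 591) (mv 619 (both (five 6 491 524) (five 2 586 618))))))))))) (both (mv 559 (both (five 2 556 560) (mv 527 (both (five 1 524 556) (mv 590 (both (five 6 462 463) (mv 622 (both (five 5 526 654) (five 6 494 591)))))))))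 (mv 559 (both (five 2 556 560) (mv 587 (both (five 1 554 586) (five 1 555 590))))))))))) (both (mv 621 (both (five 7 492 524) (mv 622 (both (five 4 493 590) (five 4 525 654))))) (mv 620 (both (five 6 492 588) (mv 621 (both (five 6 524 652) (mv 622 (both (five 4 493 590) (five 4 525 654))))))))))) (both (mv 589 (both (five 7 460 460) (mv 620 (both (five 6 492 588) (mv 621 (both (five 6 524 652) (mv 622 (both (five 4 493 590) (five 4 525 654))))))))) (mv 589 (both (five 7 460 460) (mv 621 (both (five 7 492 524) (mv 652 (both (five 6 524 620) (mv 653 (both (five 6 556 684) (mv 654 (both (five 4 525 622) (five 4 557 686))))))))))))))) (both (mv 557 (both (mv 461 (both (mv 462 (both (five 5 429 430) (mv 463 (both (five 2 460 464) (mv 491 (both (five 1 458 490) (five 1 459 494))))))) (mv 556 (both (five 6 460 588) (mv 524 (both (five 6 428 429) (mv 558 (both (five 4 461 590) (mv 559 (both (five 3 523 523) (five 3 524 560))))))))))) (both (mv 589 (both (five 7 460 460) (mv 620 (both (five 6 492 588) (mv 621 (both (five 6 524 652) (mv 622 (both (five 4 493 590) (five 4 525 654))))))))) (mv 589 (both (five 7 460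 460) (mv 621 (both (five 7 492 524) (mv 652 (both (five 6 524 620) (mv 653 (both (five 6 556 684) (mv 654 (both (five 4 525 622) (five 4 557 686)))))))))))))) (both (mv 494 (both (five 0 492 527) (mv 459 (both (five 3 459 460) (mv 463 (both (five 1 460 464) (mv 491 (both (five 3 458 458) (five 1 459 462))))))))) (both (mv 494 (both (five 0 492 527) (mv 463 (both (five 1 460 464) (mv 491 (both (five 1 459 462) (mv 523 (both (five 2 490 522) (five 2 491 524))))))))) (mv 557 (both (mv 589 (both (five 7 460 460) (mv 494 (both (five 0 492 527) (five 5 461 462))))) (both (mv 461 (both (mv 430 (both (five 5 429 462) (mv 429 (both (five 5 397 398) (mv 397 (both (five 6 396 524) (mv 364 (both (five 7 364 396) (mv 365 (both (five 7 332 332) (five 6 364 460))))))))))) (mv 527 (both (five 0 492 494) (mv 556 (both (five 6 460 588) (mv 558 (both (five 1 524 559) (five 4 461 590))))))))) (both (mv 589 (both (five 7 460 460) (mv 620 (both (five 6 492 588) (mv 621 (both (five 6 524 652) (five 7 492 524))))))) (mv 589 (both (mv 620 (both (five 6 492 588) (mv 621 (both (five 6 524 652) (mv 622 (both (five 4 493 590) (five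 4 525 654))))))) (both (mv 462 (both (five 5 461 494) (mv 461 (both (five 5 429 430) (mv 588 (both (five 6 460 556) (five 6 492 620))))))) (mv 462 (both (five 5 461 494) (mv 461 (both (five 5 429 430) (mv 590 (both (five 4 461 558) (five 4 493 622)))))))))))))))))))

theorem L47 : W (S 988530863186674619578336756865110845819126775104098558876359956461909287475517697927706188055377193898211299979079754656078381545756745792834308240066213838848) (S 401316520939863789856952375095608677110026432945926874490410845469224519129359969062654518487114501486431735015915548224758714532838175502018386845568464439474723024118857422862013130672101619639826035769344) :=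
  check_sound Env.nil (x := 492) (t := tL47) (by decide +kernel)

def tL48 : T :=
  (both (ref 0) (both (ref 1) (both (mv 557 (both (mv 556 (both (mv 558 (both (mv 559 (both (five 1 524 527) (mv 524 (both (five 3 524 560) (five 3 523 523))))) (both (mv 555 (both (mv 586 (both (five 2 554 587) (mv 554 (both (five 2 553 585) (mv 522 (both (five 3 521 521) (five 3 522 523))))))) (both (mv 554 (both (mv 590 (both (five 0 555 591) (mv 654 (both (five 7 525 622) (mv 553 (both (five 1 521 524) (mv 584 (both (five 2 552 585) (mv 552 (both (five 2 551 583) (mv 520 (both (five 3 519 519) (five 3 520 521))))))))))))) (both (mv 586 (both (five 2 553 585) (five 2 554 587))) (mv 587 (both (five 2 554 586) (mv 590 (both (five 0 555 591) (mv 654 (both (five 7 525 622) (mv 553 (both (five 1 521 524) (mv 552 (both (five 0 552 588) (mv 520 (both (five 3 519 519) (five 3 520 521)))))))))))))))) (both (mv 588 (both (mv 620 (both (five 5 524 652) (five 5 492 524))) (both (mv 590 (both (five 0 555 591) (mv 654 (both (five 7 525 622) (mv 522 (both (five 3 522 523) (mv 554 (both (five 3 521 521) (mv 553 (both (five 1 521 524)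 (mv 584 (both (five 2 552 585) (mv 552 (both (five 2 551 583) (five 0 552 587))))))))))))))) (mv 620 (both (five 5 524 652) (mv 590 (both (five 0 555 591) (mv 654 (both (five 7 525 622) (mv 523 (both (five 3 522 522) (mv 491 (both (five 4 491 587) (five 4 459 459)))))))))))))) (both (mv 590 (both (five 0 555 591) (mv 654 (both (five 7 525 622) (mv 522 (both (five 3 522 523) (mv 554 (both (five 3 521 521) (mv 585 (both (five 2 553 586) (mv 553 (both (five 2 552 584) (five 1 521 524))))))))))))) (mv 620 (both (mv 588 (both (five 5 492 524) (five 5 524 652))) (both (mv 587 (both (five 2 554 586) (mv 590 (both (five 0 555 591) (mv 654 (both (five 7 525 622) (mv 523 (both (five 3 522 522) (mv 619 (both (five 4 523 652) (mv 650 (both (five 6 522 618) (mv 651 (both (five 6 554 682) (five 5 523 524))))))))))))))) (both (mv 652 (both (five 5 524 588) (mv 587 (both (five 2 554 586) (mv 523 (both (five 4 523 619) (five 3 522 522))))))) (mv 587 (both (five 2 554 586) (mv 588 (both (five 5 492 524) (mv 523 (both (five 3 522 522) (five 4 491 491)))))))))))))))) (mv 559 (both (five 1 524 527) (mv 587 (both (five 2 555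 588) (mv 591 (both (five 0 556 592) (mv 555 (both (five 2 554 586) (five 0 555 590)))))))))))) (both (mv 558 (both (mv 559 (both (five 1 524 527) (mv 524 (both (five 3 524 560) (five 3 523 523))))) (both (mv 555 (both (mv 590 (both (five 0 555 591) (mv 622 (both (five 4 493 589) (five 7 525 654))))) (mv 586 (both (five 2 554 587) (mv 554 (both (five 2 553 585) (mv 522 (both (five 3 521 521) (five 3 522 523))))))))) (mv 559 (both (five 1 524 527) (mv 591 (both (five 0 556 592) (mv 590 (both (five 0 555 555) (mv 622 (both (five 7 525 654) (five 4 493 589)))))))))))) (both (mv 589 (both (mv 588 (both (five 6 492 620) (mv 590 (both (five 4 493 622) (mv 591 (both (five 3 556 592) (five 3 555 555))))))) (both (mv 622 (both (five 4 493 590) (mv 621 (both (five 4 525 654) (mv 652 (both (five 6 524 620) (mv 653 (both (five 7 524 524) (five 6 556 684))))))))) (both (mv 622 (both (five 4 493 590) (mv 621 (both (five 4 525 654) (mv 653 (both (five 7 524 524) (mv 684 (both (five 6 556 652) (mv 685 (both (five 6 588 716) (five 7 556 588))))))))))) (mv 621 (both (mv 620 (both (five 6 524 652) (five 6 492 588))) (both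 (mv 653 (both (five 7 524 524) (mv 684 (both (five 6 556 652) (mv 685 (both (five 6 588 716) (five 7 556 588))))))) (both (mv 652 (both (five 6 524 620) (mv 653 (both (five 7 524 524) (five 6 556 684))))) (mv 653 (both (five 7 524 524) (mv 588 (both (five 7 556 685) (five 6 492 620))))))))))))) (both (mv 558 (both (mv 559 (both (five 1 524 527) (mv 587 (both (five 2 555 588) (mv 591 (both (five 0 556 592) (mv 555 (both (five 2 554 586) (five 0 555 590))))))))) (both (mv 555 (both (mv 590 (both (five 0 555 591) (mv 622 (both (five 4 493 589) (five 7 525 654))))) (mv 586 (both (five 2 554 587) (mv 554 (both (five 2 553 585) (mv 522 (both (five 3 521 521) (five 3 522 523))))))))) (both (mv 559 (both (five 1 524 527) (mv 588 (both (five 2 555 587) (mv 620 (both (five 5 524 652) (five 6 492 589))))))) (mv 559 (both (five 1 524 527) (mv 591 (both (five 0 556 592) (mv 590 (both (five 0 555 555) (mv 622 (both (five 7 525 654) (five 4 493 589))))))))))))) (both (mv 558 (both (mv 559 (both (five 1 524 527) (mv 524 (both (five 3 524 560) (five 3 523 523))))) (both (mv 555 (both (mv 586 (both (five 2 554 587) (mv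 554 (both (five 2 553 585) (mv 522 (both (five 3 521 521) (five 3 522 523))))))) (both (mv 588 (both (mv 620 (both (five 5 524 652) (five 6 492 589))) (both (mv 586 (both (five 2 554 587) (mv 554 (both (five 2 553 585) (mv 553 (both (five 0 553 589) (five 1 521 524))))))) (mv 620 (both (five 5 524 652) (five 5 492 524)))))) (both (mv 522 (both (five 3 522 523) (mv 554 (both (five 3 521 521) (mv 553 (both (five 1 521 524) (mv 584 (both (five 2 552 585) (mv 588 (both (five 0 553 589) (mv 552 (both (five 2 551 583) (five 0 552 587))))))))))))) (both (mv 522 (both (five 3 522 523) (mv 554 (both (five 3 521 521) (mv 585 (both (five 2 553 586) (mv 553 (both (five 2 552 584) (five 1 521 524))))))))) (mv 620 (both (mv 588 (both (five 5 492 524) (five 5 524 652))) (both (mv 587 (both (five 2 554 586) (mv 523 (both (five 3 522 522) (mv 619 (both (five 4 523 652) (mv 650 (both (five 6 522 618) (mv 651 (both (five 6 554 682) (five 5 523 524))))))))))) (both (mv 587 (both (five 2 554 586) (mv 588 (both (five 5 492 524) (mv 523 (both (five 3 522 522) (five 4 491 491))))))) (mv 652 (both (five 5 524 588) (mv 587 (both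 (five 2 554 586) (mv 523 (both (five 4 523 619) (five 3 522 522)))))))))))))))) (mv 559 (both (five 1 524 527) (mv 588 (both (five 2 555 587) (mv 620 (both (five 5 524 652) (five 6 492 589)))))))))) (mv 589 (both (mv 622 (both (five 4 493 590) (mv 621 (both (five 4 525 654) (mv 652 (both (five 6 524 620) (mv 653 (both (five 7 524 524) (five 6 556 684))))))))) (both (mv 622 (both (five 4 493 590) (mv 621 (both (five 4 525 654) (mv 653 (both (five 7 524 524) (mv 684 (both (five 6 556 652) (mv 685 (both (five 6 588 716) (five 7 556 588))))))))))) (both (mv 621 (both (mv 620 (both (five 6 524 652) (five 6 492 588))) (both (mv 653 (both (five 7 524 524) (mv 684 (both (five 6 556 652) (mv 685 (both (five 6 588 716) (five 7 556 588))))))) (both (mv 652 (both (five 6 524 620) (mv 653 (both (five 7 524 524) (five 6 556 684))))) (mv 653 (both (five 7 524 524) (mv 588 (both (five 7 556 685) (five 6 492 620))))))))) (mv 588 (both (five 6 492 620) (mv 590 (both (five 4 493 622) (mv 591 (both (five 3 556 592) (mv 623 (both (five 0 588 624) (mv 559 (both (five 1 556 560) (mv 558 (both (five 2 555 587) (five 1 524 527)))))))))))))))))))))))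 (both (mv 462 (both (mv 590 (both (mv 558 (both (five 4 461 461) (mv 622 (both (five 4 493 589) (five 7 525 654))))) (both (mv 622 (both (five 4 493 589) (mv 559 (both (mv 654 (both (five 7 525 558) (mv 686 (both (five 5 558 591) (mv 717 (both (five 6 589 685) (mv 718 (both (five 6 621 749) (mv 719 (both (five 4 590 687) (five 4 622 751))))))))))) (both (mv 527 (both (five 6 494 591) (mv 463 (both (five 7 430 430) (mv 560 (both (five 4 463 592) (five 4 431 431))))))) (mv 558 (both (five 7 525 654) (mv 560 (both (five 3 524 524) (mv 592 (both (five 0 557 593) (mv 624 (both (five 7 495 527) (mv 655 (both (five 6 527 623) (mv 656 (both (five 6 559 687) (mv 657 (both (five 4 560 689) (five 4 528 625)))))))))))))))))))) (both (mv 461 (both (five 5 429 430) (five 4 461 558))) (mv 622 (both (five 4 493 589) (mv 527 (both (mv 430 (both (five 5 429 461) (mv 559 (both (five 7 430 463) (five 6 494 591))))) (both (mv 461 (both (five 5 429 430) (mv 428 (both (five 7 428 460) (mv 429 (both (five 7 396 396) (mv 426 (both (five 0 426 427) (mv 463 (both (five 3 428 464) (mv 431 (both (five 4 431 560) (mv 400 (both (five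 5 399 432) (mv 399 (both (five 5 367 368) (mv 398 (both (five 7 366 366) (five 2 396 397))))))))))))))))))) (both (mv 591 (both (five 6 494 559) (mv 592 (both (mv 624 (both (five 7 495 560) (mv 623 (both (mv 621 (both (five 1 588 620) (mv 653 (both (five 2 620 652) (mv 656 (both (five 0 621 657) (mv 685 (both (five 5 589 717) (mv 688 (both (five 7 591 720) (mv 687 (both (five 6 591 719) (mv 689 (both (five 4 592 721) (mv 654 (both (five 0 653 655) (five 3 653 686))))))))))))))))) (both (mv 625 (both (five 3 590 626) (mv 654 (both (five 2 621 653) (mv 657 (both (five 0 622 658) (mv 686 (both (five 5 590 718) (mv 685 (both (five 6 589 717) (mv 655 (both (five 2 653 656) (mv 683 (both (five 1 651 684) (mv 687 (both (five 7 590 719) (mv 688 (both (five 4 591 720) (mv 689 (both (five 3 654 690) (five 7 592 721))))))))))))))))))))) (both (mv 621 (both (five 1 588 620) (mv 625 (both (five 3 590 626) (mv 657 (both (five 0 621 656) (five 0 622 658))))))) (mv 621 (both (five 1 588 620) (mv 625 (both (five 3 590 626) (mv 653 (both (five 2 620 652) (five 2 621 654))))))))))))) (both (mv 593 (both (five 2 589 621)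 (mv 594 (both (five 2 590 623) (mv 562 (both (five 1 558 561) (five 1 559 563))))))) (both (mv 593 (both (mv 594 (both (five 2 590 623) (mv 562 (both (five 1 558 561) (five 1 559 563))))) (both (mv 560 (both (five 7 495 624) (mv 431 (both (five 4 431 463) (mv 561 (both (five 1 558 562) (mv 625 (both (five 0 590 626) (five 7 528 657))))))))) (mv 560 (both (five 7 495 624) (mv 431 (both (five 4 431 463) (mv 594 (both (five 2 590 623) (mv 626 (both (five 0 590 625) (five 0 591 627)))))))))))) (mv 560 (both (five 7 495 624) (mv 431 (both (five 4 431 463) (mv 593 (both (five 2 589 621) (mv 561 (both (five 1 558 562) (mv 625 (both (five 0 590 626) (five 7 528 657))))))))))))))))) (mv 591 (both (five 6 494 559) (mv 592 (both (mv 593 (both (five 2 589 621) (mv 594 (both (five 2 590 623) (mv 562 (both (five 1 558 561) (five 1 559 563))))))) (both (mv 624 (both (five 7 495 560) (mv 623 (both (mv 621 (both (five 1 588 620) (mv 653 (both (five 2 620 652) (mv 656 (both (five 0 621 657) (mv 685 (both (five 5 589 717) (mv 688 (both (five 7 591 720) (mv 687 (both (five 6 591 719) (mv 689 (both (five 4 592 721) (mv 654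 (both (five 0 653 655) (five 3 653 686))))))))))))))))) (both (mv 625 (both (five 3 590 626) (mv 654 (both (five 2 621 653) (mv 657 (both (five 0 622 658) (mv 686 (both (five 5 590 718) (mv 685 (both (five 6 589 717) (mv 655 (both (five 2 653 656) (mv 683 (both (five 1 651 684) (mv 687 (both (five 7 590 719) (mv 688 (both (five 4 591 720) (mv 689 (both (five 3 654 690) (five 7 592 721))))))))))))))))))))) (both (mv 621 (both (five 1 588 620) (mv 625 (both (five 3 590 626) (mv 657 (both (five 0 621 656) (five 0 622 658))))))) (mv 621 (both (five 1 588 620) (mv 625 (both (five 3 590 626) (mv 653 (both (five 2 620 652) (five 2 621 654))))))))))))) (both (mv 593 (both (mv 594 (both (five 2 590 623) (mv 562 (both (five 1 558 561) (five 1 559 563))))) (both (mv 430 (both (five 5 429 461) (mv 560 (both (five 7 495 624) (mv 561 (both (five 1 558 562) (mv 625 (both (five 0 590 626) (five 7 528 657))))))))) (mv 594 (both (five 2 590 623) (mv 626 (both (five 0 590 625) (five 0 591 627)))))))) (mv 430 (both (five 5 429 461) (mv 560 (both (five 7 495 624) (mv 593 (both (five 2 589 621) (mv 561 (both (five 1 558 562)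 (mv 625 (both (five 0 590 626) (five 7 528 657))))))))))))))))))))))))))) (both (mv 589 (both (five 5 461 494) (mv 620 (both (five 6 492 588) (mv 621 (both (five 6 524 652) (mv 622 (both (five 4 493 590) (five 4 525 654))))))))) (mv 430 (both (five 5 429 461) (mv 398 (both (five 6 397 494) (mv 366 (both (five 4 366 463) (mv 333 (both (five 7 333 365) (mv 334 (both (five 7 301 301) (mv 335 (both (five 5 302 303) (five 5 334 367)))))))))))))))) (both (mv 461 (both (mv 428 (both (five 7 428 460) (mv 429 (both (five 7 396 396) (mv 430 (both (five 5 397 398) (five 5 429 462))))))) (mv 556 (both (five 6 460 588) (mv 558 (both (five 4 461 590) (mv 559 (both (five 1 524 527) (mv 524 (both (five 3 523 523) (five 3 524 560))))))))))) (both (mv 461 (both (mv 462 (both (five 5 429 430) (mv 589 (both (five 5 461 494) (mv 590 (both (five 4 461 558) (five 4 493 622))))))) (both (mv 428 (both (five 7 428 460) (mv 429 (both (five 7 396 396) (mv 430 (both (five 5 397 398) (five 5 429 462))))))) (mv 558 (both (five 4 461 590) (mv 559 (both (mv 524 (both (five 3 524 560) (mv 523 (both (five 0 522 522) (five 3 523 556)))))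 (both (mv 428 (both (five 7 428 460) (mv 396 (both (five 7 396 429) (mv 560 (both (five 3 524 524) (mv 592 (both (five 0 557 593) (mv 527 (both (five 4 463 463) (five 7 495 624))))))))))) (both (mv 592 (both (mv 556 (both (five 0 556 591) (five 1 524 527))) (both (mv 428 (both (five 7 428 460) (mv 396 (both (five 7 396 429) (mv 560 (both (five 0 557 593) (mv 527 (both (five 4 463 463) (five 7 495 624))))))))) (mv 591 (both (five 0 556 556) (mv 593 (both (five 3 558 594) (five 0 557 560)))))))) (mv 428 (both (five 7 428 460) (mv 429 (both (five 7 396 396) (mv 556 (both (five 6 428 524) (five 1 524 527)))))))))))))))) (both (mv 461 (both (mv 428 (both (five 7 428 460) (mv 429 (both (five 7 396 396) (mv 430 (both (five 5 429 462) (five 5 397 398))))))) (both (mv 556 (both (five 6 460 588) (mv 428 (both (five 7 428 460) (mv 429 (both (five 6 428 524) (five 7 396 396))))))) (mv 588 (both (five 6 460 556) (mv 589 (both (five 6 492 620) (mv 462 (both (five 5 461 494) (five 5 429 430)))))))))) (mv 589 (both (mv 620 (both (five 6 492 588) (mv 621 (both (five 6 524 652) (mv 622 (both (five 4 493 590) (five 4 525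 654))))))) (both (mv 462 (both (five 5 461 494) (mv 461 (both (five 5 429 430) (mv 588 (both (five 6 460 556) (five 6 492 620))))))) (mv 462 (both (five 5 461 494) (mv 461 (both (five 5 429 430) (mv 590 (both (five 4 461 558) (five 4 493 622)))))))))))))))) (both (ref 2) (both (mv 557 (both (mv 589 (both (mv 620 (both (five 6 492 588) (mv 621 (both (five 6 524 652) (mv 622 (both (five 4 493 590) (five 4 525 654))))))) (both (mv 492 (both (five 7 460 460) (mv 620 (both (five 6 492 588) (mv 621 (both (five 7 492 524) (five 6 524 652))))))) (mv 460 (both (five 7 460 492) (mv 461 (both (five 7 428 428) (mv 590 (both (five 4 461 558) (five 4 493 622)))))))))) (both (mv 589 (both (mv 620 (both (five 6 492 588) (mv 621 (both (five 6 524 652) (mv 622 (both (five 4 493 590) (five 4 525 654))))))) (both (mv 492 (both (five 7 460 460) (mv 621 (both (five 7 492 524) (mv 622 (both (five 4 493 590) (five 4 525 654))))))) (both (mv 492 (both (five 7 460 460) (mv 620 (both (five 6 492 588) (mv 621 (both (five 7 492 524) (five 6 524 652))))))) (mv 492 (both (five 7 460 460) (mv 494 (both (five 5 461 462) (mv 463 (both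 (five 1 460 464) (mv 523 (both (five 2 491 524) (mv 491 (both (five 2 490 522) (mv 458 (both (five 3 458 459) (mv 490 (both (five 3 457 457) (mv 555 (both (five 7 458 587) (mv 588 (both (five 6 492 620) (mv 590 (both (five 4 493 622) (mv 556 (both (five 0 554 554) (five 3 555 591))))))))))))))))))))))))))) (both (mv 461 (both (mv 428 (both (five 7 428 460) (mv 429 (both (five 7 396 396) (mv 430 (both (five 5 429 462) (five 5 397 398))))))) (both (mv 556 (both (five 6 460 588) (mv 429 (both (five 6 428 524) (mv 430 (both (five 5 429 462) (five 5 397 398))))))) (both (mv 556 (both (five 6 460 588) (mv 428 (both (five 7 428 460) (mv 429 (both (five 6 428 524) (five 7 396 396))))))) (mv 588 (both (five 6 460 556) (mv 460 (both (five 7 428 428) (mv 462 (both (five 5 429 430) (mv 459 (both (five 0 459 494) (mv 490 (both (five 2 458 491) (mv 458 (both (five 2 457 489) (mv 426 (both (five 3 425 425) (five 3 426 427))))))))))))))))))) (both (mv 589 (both (mv 620 (both (five 6 492 588) (mv 621 (both (five 6 524 652) (mv 622 (both (five 4 493 590) (five 4 525 654))))))) (both (mv 462 (both (five 5 461 494) (mv 461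 (both (five 5 429 430) (mv 588 (both (five 6 460 556) (five 6 492 620))))))) (mv 462 (both (five 5 461 494) (mv 461 (both (five 5 429 430) (mv 590 (both (five 4 461 558) (five 4 493 622)))))))))) (mv 461 (both (mv 462 (both (five 5 429 430) (mv 589 (both (five 5 461 494) (mv 590 (both (five 4 461 558) (five 4 493 622))))))) (both (mv 460 (both (five 7 428 428) (mv 589 (both (five 7 460 492) (mv 590 (both (five 4 461 558) (five 4 493 622))))))) (mv 428 (both (five 7 428 460) (mv 429 (both (five 7 396 396) (mv 430 (both (five 5 397 398) (five 5 429 462))))))))))))))) (both (ref 3) (both (ref 4) (both (mv 557 (both (mv 589 (both (mv 620 (both (five 6 492 588) (mv 621 (both (five 6 524 652) (mv 622 (both (five 4 493 590) (five 4 525 654))))))) (both (mv 462 (both (five 5 461 494) (mv 461 (both (five 5 429 430) (mv 588 (both (five 6 460 556) (five 6 492 620))))))) (mv 462 (both (five 5 461 494) (mv 461 (both (five 5 429 430) (mv 590 (both (five 4 461 558) (five 4 493 622)))))))))) (both (mv 461 (both (mv 430 (both (five 5 429 462) (mv 429 (both (five 5 397 398) (mv 556 (both (five 6 428 524) (five 6 460 588)))))))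 (both (mv 429 (both (mv 430 (both (five 5 397 398) (five 5 429 462))) (both (mv 396 (both (five 7 396 428) (mv 397 (both (five 7 364 364) (mv 492 (both (five 6 396 524) (mv 494 (both (five 0 492 527) (mv 463 (both (five 1 460 464) (mv 491 (both (five 1 459 462) (mv 458 (both (five 3 458 459) (mv 490 (both (five 3 457 457) (mv 522 (both (five 2 489 521) (five 2 490 523))))))))))))))))))) (mv 396 (both (five 7 396 428) (mv 397 (both (five 7 364 364) (mv 398 (both (five 5 365 366) (five 5 397 430)))))))))) (both (mv 556 (both (five 6 460 588) (mv 558 (both (five 4 461 590) (mv 559 (both (five 1 524 527) (mv 524 (both (five 3 523 523) (five 3 524 560))))))))) (mv 429 (both (mv 430 (both (five 5 397 398) (five 5 429 462))) (both (mv 396 (both (five 7 396 428) (mv 397 (both (five 7 364 364) (mv 366 (both (five 5 365 398) (mv 365 (both (five 5 333 334) (mv 367 (both (five 2 364 368) (mv 394 (both (five 1 362 395) (mv 494 (both (five 4 365 462) (mv 527 (both (five 0 492 492) (mv 556 (both (five 6 460 588) (mv 558 (both (five 1 524 559) (five 4 461 590))))))))))))))))))))) (both (mv 396 (both (five 7 396 428)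 (mv 397 (both (five 7 364 364) (mv 462 (both (five 5 429 430) (mv 494 (both (five 4 365 365) (mv 527 (both (five 0 492 492) (mv 556 (both (five 6 460 588) (mv 558 (both (five 1 524 559) (five 4 461 590))))))))))))))) (mv 396 (both (five 7 396 428) (mv 397 (both (five 7 364 364) (mv 398 (both (five 5 365 366) (five 5 397 430))))))))))))))) (both (mv 589 (both (mv 620 (both (five 6 492 588) (mv 621 (both (five 6 524 652) (mv 622 (both (five 4 493 590) (five 4 525 654))))))) (both (mv 622 (both (five 4 493 590) (mv 621 (both (five 4 525 654) (mv 652 (both (five 6 524 620) (mv 653 (both (five 6 556 684) (mv 524 (both (five 7 524 556) (five 7 492 492))))))))))) (both (mv 621 (both (mv 622 (both (five 4 493 590) (five 4 525 654))) (both (mv 524 (both (five 7 492 492) (mv 653 (both (five 7 524 556) (mv 684 (both (five 6 556 652) (mv 685 (both (five 6 588 716) (mv 686 (both (five 4 557 654) (five 4 589 718))))))))))) (mv 524 (both (five 7 492 492) (mv 556 (both (five 7 524 653) (mv 590 (both (five 4 493 622) (mv 555 (both (five 0 554 554) (mv 591 (both (five 0 555 558) (five 3 555 588)))))))))))))) (both (mv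 620 (both (five 6 492 588) (mv 621 (both (five 6 524 652) (mv 654 (both (five 4 525 622) (mv 653 (both (five 4 557 686) (mv 524 (both (five 7 524 556) (five 7 492 492))))))))))) (both (mv 621 (both (mv 620 (both (five 6 492 588) (five 6 524 652))) (both (mv 524 (both (five 7 492 492) (mv 653 (both (five 7 524 556) (mv 684 (both (five 6 556 652) (mv 685 (both (five 6 588 716) (mv 686 (both (five 4 557 654) (five 4 589 718))))))))))) (mv 558 (both (mv 524 (both (five 7 492 492) (mv 523 (both (five 0 522 522) (mv 559 (both (five 3 523 556) (five 3 524 560))))))) (both (mv 524 (both (five 7 492 492) (mv 653 (both (five 7 524 556) (mv 685 (both (five 5 557 590) (mv 686 (both (five 4 557 654) (five 4 589 718))))))))) (mv 588 (both (five 6 492 620) (mv 559 (both (five 2 556 560) (mv 587 (both (five 1 554 586) (five 1 555 590))))))))))))) (mv 494 (both (five 5 461 462) (mv 492 (both (five 0 492 527) (mv 523 (both (five 2 491 524) (mv 491 (both (five 2 490 522) (mv 458 (both (five 3 458 459) (mv 490 (both (five 3 457 457) (mv 555 (both (five 7 458 587) (mv 588 (both (five 6 492 620) (mv 590 (both (five 4 493 622)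 (mv 556 (both (five 0 554 554) (five 3 555 591))))))))))))))))))))))))))) (both (mv 589 (both (mv 620 (both (five 6 492 588) (mv 621 (both (five 6 524 652) (mv 622 (both (five 4 493 590) (five 4 525 654))))))) (both (mv 622 (both (five 4 493 590) (mv 621 (both (five 4 525 654) (mv 652 (both (five 6 524 620) (mv 653 (both (five 6 556 684) (mv 524 (both (five 7 524 556) (five 7 492 492))))))))))) (both (mv 622 (both (five 4 493 590) (mv 621 (both (five 4 525 654) (mv 524 (both (five 7 492 492) (mv 556 (both (five 7 524 653) (mv 461 (both (five 6 428 429) (five 6 460 588))))))))))) (both (mv 621 (both (mv 620 (both (five 6 492 588) (five 6 524 652))) (both (mv 524 (both (five 7 492 492) (mv 556 (both (five 7 524 653) (mv 461 (both (five 6 428 429) (five 6 460 588))))))) (mv 652 (both (five 6 524 620) (mv 653 (both (five 6 556 684) (mv 524 (both (five 7 524 556) (five 7 492 492)))))))))) (mv 588 (both (five 6 492 620) (mv 556 (both (five 6 460 461) (mv 590 (both (five 4 493 622) (mv 591 (both (five 3 555 555) (five 3 556 592)))))))))))))) (both (mv 589 (both (mv 620 (both (five 6 492 588) (mv 621 (both (five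 6 524 652) (mv 622 (both (five 4 493 590) (five 4 525 654))))))) (both (mv 494 (both (five 5 461 462) (mv 492 (both (five 0 492 527) (mv 620 (both (five 6 492 588) (mv 621 (both (five 7 492 524) (five 6 524 652))))))))) (mv 462 (both (five 5 461 494) (mv 461 (both (five 5 429 430) (mv 590 (both (five 4 461 558) (five 4 493 622)))))))))) (both (mv 494 (both (mv 462 (both (five 5 461 589) (mv 430 (both (five 6 397 398) (five 5 429 461))))) (both (mv 492 (both (five 0 492 527) (mv 524 (both (five 2 491 523) (mv 589 (both (five 7 492 621) (mv 590 (both (five 4 493 622) (mv 461 (both (five 4 461 558) (mv 429 (both (five 6 396 397) (five 6 428 556))))))))))))) (mv 492 (both (five 0 492 527) (mv 463 (both (five 1 460 464) (mv 491 (both (five 1 459 462) (mv 458 (both (five 3 458 459) (mv 490 (both (five 3 457 457) (mv 522 (both (five 2 489 521) (five 2 490 523)))))))))))))))) (mv 494 (both (mv 462 (both (five 5 461 589) (mv 430 (both (five 6 397 398) (five 5 429 461))))) (both (mv 492 (both (five 0 492 527) (mv 463 (both (five 1 460 464) (mv 524 (both (five 2 491 523) (mv 589 (both (five 7 492 621) (mv 588 (both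 (five 6 492 620) (mv 556 (both (five 5 460 461) (mv 587 (both (five 6 491 619) (mv 586 (both (five 1 553 585) (mv 558 (both (five 2 554 555) (five 2 555 559))))))))))))))))))) (mv 492 (both (five 0 492 527) (mv 463 (both (five 1 460 464) (mv 491 (both (five 1 459 462) (mv 458 (both (five 3 458 459) (mv 490 (both (five 3 457 457) (mv 522 (both (five 2 489 521) (five 2 490 523))))))))))))))))))))))) (both (mv 461 (both (mv 557 (both (mv 556 (both (five 6 460 588) (mv 558 (both (five 4 461 590) (mv 559 (both (five 1 524 527) (mv 524 (both (five 3 523 523) (five 3 524 560))))))))) (mv 460 (both (five 7 428 428) (mv 462 (both (five 5 429 430) (mv 459 (both (five 0 459 494) (mv 490 (both (five 2 458 491) (mv 458 (both (five 2 457 489) (mv 426 (both (five 3 425 425) (five 3 426 427))))))))))))))) (both (mv 429 (both (mv 396 (both (five 7 396 428) (mv 397 (both (five 7 364 364) (mv 398 (both (five 5 365 366) (five 5 397 430))))))) (both (mv 398 (both (five 5 397 430) (mv 397 (both (five 5 365 366) (mv 524 (both (five 6 396 492) (five 6 428 556))))))) (both (mv 396 (both (five 7 396 428) (mv 397 (both (five 7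 364 364) (mv 524 (both (five 6 396 492) (five 6 428 556))))))) (mv 428 (both (five 7 396 396) (mv 427 (both (mv 426 (both (five 0 426 462) (mv 393 (both (five 3 393 394) (mv 425 (both (five 3 392 392) (five 0 425 460))))))) (both (mv 430 (both (five 5 397 398) (mv 395 (both (five 3 394 394) (mv 459 (both (five 2 426 458) (mv 524 (both (five 6 428 556) (mv 492 (both (five 7 395 460) (five 4 395 491))))))))))) (both (mv 426 (both (five 0 426 462) (mv 393 (both (five 3 393 394) (mv 425 (both (five 3 392 392) (mv 457 (both (five 2 424 456) (five 2 425 458))))))))) (mv 426 (both (five 0 426 462) (mv 425 (both (five 0 425 460) (mv 457 (both (five 2 424 456) (five 2 425 458))))))))))))))))) (both (mv 429 (both (mv 396 (both (five 7 396 428) (mv 397 (both (five 7 364 364) (mv 398 (both (five 5 365 366) (five 5 397 430))))))) (both (mv 396 (both (five 7 396 428) (mv 397 (both (five 7 364 364) (mv 524 (both (five 6 396 492) (five 6 428 556))))))) (both (mv 398 (both (five 5 397 430) (mv 397 (both (five 5 365 366) (mv 524 (both (five 6 396 492) (five 6 428 556))))))) (mv 396 (both (five 7 396 428) (mv 430 (both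 (five 5 397 398) (mv 556 (both (five 6 428 524) (mv 557 (both (five 5 429 462) (five 6 460 588))))))))))))) (both (mv 429 (both (mv 524 (both (five 6 428 556) (mv 492 (both (five 6 396 397) (mv 494 (both (five 2 491 523) (five 0 492 527))))))) (both (mv 397 (both (mv 396 (both (five 7 364 364) (five 7 396 428))) (both (mv 364 (both (five 7 364 396) (mv 365 (both (five 7 332 332) (mv 366 (both (five 5 333 334) (five 5 365 398))))))) (mv 366 (both (five 5 365 398) (mv 365 (both (five 5 333 334) (mv 460 (both (five 6 364 492) (mv 428 (both (five 6 332 333) (five 7 428 557)))))))))))) (mv 428 (both (five 7 396 396) (mv 556 (both (five 6 428 524) (mv 557 (both (five 7 428 460) (five 6 460 588)))))))))) (both (mv 429 (both (mv 524 (both (five 6 428 556) (mv 492 (both (five 6 396 397) (mv 494 (both (five 2 491 523) (five 0 492 527))))))) (both (mv 398 (both (five 5 397 430) (mv 397 (both (five 5 365 366) (mv 364 (both (five 7 364 396) (mv 365 (both (five 7 332 332) (mv 362 (both (five 0 362 363) (mv 399 (both (five 3 364 400) (mv 492 (both (five 6 364 460) (mv 494 (both (five 0 492 527) (mv 463 (both (five 1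 460 464) (mv 491 (both (five 1 459 462) (mv 458 (both (five 3 458 459) (mv 490 (both (five 3 457 457) (mv 522 (both (five 2 489 521) (five 2 490 523))))))))))))))))))))))))))) (mv 430 (both (five 5 397 398) (mv 556 (both (five 6 428 524) (mv 557 (both (five 5 429 462) (five 6 460 588)))))))))) (both (mv 557 (both (mv 428 (both (five 7 428 460) (mv 429 (both (five 7 396 396) (mv 430 (both (five 5 397 398) (five 5 429 462))))))) (both (mv 429 (both (mv 396 (both (five 7 396 428) (mv 397 (both (five 7 364 364) (mv 398 (both (five 5 365 366) (five 5 397 430))))))) (both (mv 398 (both (five 5 397 430) (mv 397 (both (five 5 365 366) (mv 364 (both (five 7 364 396) (mv 365 (both (five 7 332 332) (mv 362 (both (five 0 362 363) (mv 399 (both (five 3 364 400) (mv 492 (both (five 6 364 460) (mv 527 (both (five 0 492 494) (mv 556 (both (five 6 460 588) (mv 558 (both (five 1 524 559) (five 4 461 590))))))))))))))))))))) (both (mv 398 (both (five 5 397 430) (mv 397 (both (five 5 365 366) (mv 460 (both (five 7 428 428) (mv 492 (both (five 6 364 365) (mv 527 (both (five 0 492 494) (mv 556 (both (five 6 460 588) (mv 558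 (both (five 1 524 559) (five 4 461 590))))))))))))))) (mv 428 (both (five 7 396 396) (five 7 428 460))))))) (both (mv 429 (both (mv 430 (both (five 5 397 398) (five 5 429 462))) (both (mv 396 (both (five 7 396 428) (mv 397 (both (five 7 364 364) (mv 366 (both (five 5 365 398) (mv 365 (both (five 5 333 334) (mv 367 (both (five 2 364 368) (mv 394 (both (five 1 362 395) (mv 494 (both (five 4 365 462) (mv 527 (both (five 0 492 492) (mv 556 (both (five 6 460 588) (mv 558 (both (five 1 524 559) (five 4 461 590))))))))))))))))))))) (both (mv 396 (both (five 7 396 428) (mv 397 (both (five 7 364 364) (mv 462 (both (five 5 429 430) (mv 494 (both (five 4 365 365) (mv 527 (both (five 0 492 492) (mv 556 (both (five 6 460 588) (mv 558 (both (five 1 524 559) (five 4 461 590))))))))))))))) (mv 396 (both (five 7 396 428) (mv 397 (both (five 7 364 364) (mv 398 (both (five 5 365 366) (five 5 397 430))))))))))) (both (mv 460 (both (five 7 428 428) (mv 556 (both (five 6 460 588) (mv 558 (both (five 4 461 590) (mv 527 (both (five 1 524 559) (mv 494 (both (five 0 492 492) (mv 459 (both (five 0 458 458) (five 0 459 462)))))))))))))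 (mv 462 (both (five 5 429 430) (mv 556 (both (five 6 460 588) (mv 558 (both (five 4 461 590) (mv 527 (both (five 1 524 559) (mv 492 (both (five 0 492 494) (mv 463 (both (five 2 460 464) (mv 491 (both (five 2 459 460) (five 1 458 490)))))))))))))))))))) (mv 429 (both (mv 396 (both (five 7 396 428) (mv 397 (both (five 7 364 364) (mv 398 (both (five 5 365 366) (five 5 397 430))))))) (both (mv 396 (both (five 7 396 428) (mv 397 (both (five 7 364 364) (mv 492 (both (five 6 396 524) (mv 494 (both (five 0 492 527) (mv 463 (both (five 1 460 464) (mv 491 (both (five 1 459 462) (mv 458 (both (five 3 458 459) (mv 490 (both (five 3 457 457) (mv 522 (both (five 2 489 521) (five 2 490 523))))))))))))))))))) (both (mv 398 (both (five 5 397 430) (mv 397 (both (five 5 365 366) (mv 492 (both (five 6 396 524) (mv 494 (both (five 0 492 527) (mv 463 (both (five 1 460 464) (mv 491 (both (five 1 459 462) (mv 458 (both (five 3 458 459) (mv 490 (both (five 3 457 457) (mv 522 (both (five 2 489 521) (five 2 490 523))))))))))))))))))) (mv 428 (both (five 7 396 396) (mv 430 (both (five 5 397 398) (mv 557 (both (five 7 428 460) (five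 5 429 462)))))))))))))))))) (both (ref 5) (both (mv 461 (both (mv 429 (both (mv 396 (both (five 7 396 428) (mv 397 (both (five 7 364 364) (mv 398 (both (five 5 365 366) (five 5 397 430))))))) (both (mv 396 (both (five 7 396 428) (mv 397 (both (five 7 364 364) (mv 492 (both (five 6 396 524) (mv 494 (both (five 0 492 527) (mv 463 (both (five 1 460 464) (mv 491 (both (five 1 459 462) (mv 458 (both (five 3 458 459) (mv 490 (both (five 3 457 457) (mv 522 (both (five 2 489 521) (five 2 490 523))))))))))))))))))) (both (mv 398 (both (five 5 397 430) (mv 397 (both (five 5 365 366) (mv 492 (both (five 6 396 524) (mv 494 (both (five 0 492 527) (mv 463 (both (five 1 460 464) (mv 491 (both (five 1 459 462) (mv 458 (both (five 3 458 459) (mv 490 (both (five 3 457 457) (mv 522 (both (five 2 489 521) (five 2 490 523))))))))))))))))))) (mv 428 (both (five 7 396 396) (mv 427 (both (mv 426 (both (five 0 426 462) (mv 393 (both (five 3 393 394) (mv 425 (both (five 3 392 392) (mv 457 (both (five 2 424 456) (five 2 425 458))))))))) (both (mv 430 (both (five 5 397 398) (mv 394 (both (five 3 394 395) (mv 426 (both (five 3 393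 393) (mv 458 (both (five 2 425 457) (five 2 426 459))))))))) (mv 430 (both (five 5 397 398) (mv 463 (both (five 0 427 462) (mv 431 (both (five 0 428 464) (mv 400 (both (five 1 396 399) (mv 527 (both (five 5 399 432) (five 4 431 560)))))))))))))))))))) (both (mv 429 (both (mv 396 (both (five 7 396 428) (mv 397 (both (five 7 364 364) (mv 398 (both (five 5 365 366) (five 5 397 430))))))) (both (mv 428 (both (five 7 396 396) (mv 427 (both (mv 426 (both (five 0 426 462) (mv 393 (both (five 3 393 394) (mv 425 (both (five 3 392 392) (five 0 425 460))))))) (both (mv 460 (both (five 7 428 557) (mv 462 (both (five 3 427 463) (mv 459 (both (five 0 459 494) (mv 458 (both (five 1 425 457) (mv 490 (both (five 2 457 489) (five 2 458 491))))))))))) (both (mv 426 (both (five 0 426 462) (mv 393 (both (five 3 393 394) (mv 425 (both (five 3 392 392) (mv 457 (both (five 2 424 456) (five 2 425 458))))))))) (mv 460 (both (five 7 428 557) (mv 426 (both (five 0 425 425) (mv 393 (both (five 3 393 394) (mv 397 (both (five 1 394 398) (mv 333 (both (five 6 332 365) (mv 458 (both (five 2 425 457) (mv 459 (both (five 0 458 494) (mv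 490 (both (five 2 457 489) (mv 395 (both (five 6 362 363) (five 5 394 522))))))))))))))))))))))))) (both (mv 397 (both (mv 398 (both (five 5 365 366) (five 5 397 430))) (both (mv 364 (both (five 7 364 396) (mv 365 (both (five 7 332 332) (mv 334 (both (five 5 333 366) (mv 333 (both (five 5 301 302) (mv 462 (both (five 4 333 430) (five 4 365 494))))))))))) (both (mv 364 (both (five 7 364 396) (mv 365 (both (five 7 332 332) (mv 366 (both (five 5 333 334) (five 5 365 398))))))) (mv 364 (both (five 7 364 396) (mv 365 (both (five 7 332 332) (mv 430 (both (five 5 397 398) (mv 462 (both (five 4 333 333) (five 4 365 494))))))))))))) (both (mv 428 (both (five 7 396 396) (mv 557 (both (five 7 428 460) (mv 462 (both (five 5 429 430) (mv 589 (both (five 5 461 494) (mv 590 (both (five 4 461 558) (five 4 493 622))))))))))) (mv 430 (both (five 5 397 398) (mv 460 (both (mv 431 (both (five 2 428 432) (mv 459 (both (five 1 426 458) (five 1 427 462))))) (both (mv 557 (both (five 7 428 428) (five 5 429 462))) (mv 431 (both (five 2 428 432) (mv 459 (both (five 2 427 428) (five 1 426 458))))))))))))))) (both (mv 429 (both (mv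 396 (both (five 7 396 428) (mv 397 (both (five 7 364 364) (mv 398 (both (five 5 365 366) (five 5 397 430))))))) (both (mv 398 (both (five 5 397 430) (mv 397 (both (five 5 365 366) (mv 364 (both (five 7 364 396) (mv 365 (both (five 7 332 332) (mv 492 (both (five 6 364 460) (five 6 396 524))))))))))) (both (mv 398 (both (five 5 397 430) (mv 397 (both (five 5 365 366) (mv 492 (both (five 6 396 524) (mv 460 (both (five 6 364 365) (mv 557 (both (five 7 428 428) (five 7 460 589))))))))))) (both (mv 396 (both (five 7 396 428) (mv 397 (both (five 7 364 364) (mv 492 (both (five 6 396 524) (mv 460 (both (five 6 364 365) (mv 494 (both (five 3 459 459) (five 0 492 527))))))))))) (mv 428 (both (five 7 396 396) (mv 430 (both (five 5 397 398) (mv 460 (both (five 7 428 557) (mv 431 (both (five 2 428 432) (five 2 427 459)))))))))))))) (both (mv 429 (both (mv 396 (both (five 7 396 428) (mv 397 (both (five 7 364 364) (mv 398 (both (five 5 365 366) (five 5 397 430))))))) (both (mv 398 (both (five 5 397 430) (mv 397 (both (five 5 365 366) (mv 364 (both (five 7 364 396) (mv 365 (both (five 7 332 332) (mv 492 (both (five 6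 364 460) (five 6 396 524))))))))))) (both (mv 396 (both (five 7 396 428) (mv 397 (both (five 7 364 364) (mv 366 (both (five 5 365 398) (mv 365 (both (five 5 333 334) (mv 492 (both (five 6 364 460) (five 6 396 524))))))))))) (both (mv 396 (both (five 7 396 428) (mv 397 (both (five 7 364 364) (mv 492 (both (five 6 396 524) (mv 460 (both (five 6 364 365) (mv 557 (both (five 7 460 589) (mv 462 (both (five 5 429 430) (mv 463 (both (five 2 460 464) (five 2 459 491))))))))))))))) (both (mv 398 (both (five 5 397 430) (mv 397 (both (five 5 365 366) (mv 492 (both (five 6 396 524) (mv 460 (both (five 6 364 365) (mv 557 (both (five 7 428 428) (five 7 460 589))))))))))) (mv 428 (both (five 7 396 396) (mv 430 (both (five 5 397 398) (mv 557 (both (five 7 428 460) (five 5 429 462))))))))))))) (both (mv 557 (both (mv 462 (both (five 5 429 430) (mv 589 (both (five 5 461 494) (mv 590 (both (five 4 461 558) (five 4 493 622))))))) (both (mv 460 (both (five 7 428 428) (mv 589 (both (five 7 460 492) (mv 590 (both (five 4 461 558) (five 4 493 622))))))) (mv 460 (both (five 7 428 428) (mv 462 (both (five 5 429 430) (mv 459 (both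 (five 0 459 494) (mv 490 (both (five 2 458 491) (mv 458 (both (five 2 457 489) (mv 426 (both (five 3 425 425) (five 3 426 427)))))))))))))))) (both (mv 492 (both (mv 429 (both (mv 396 (both (five 7 396 428) (mv 397 (both (five 6 396 524) (five 7 364 364))))) (both (mv 397 (both (five 6 396 524) (mv 364 (both (five 7 364 396) (mv 365 (both (five 7 332 332) (five 6 364 460))))))) (both (mv 428 (both (five 7 396 396) (mv 557 (both (five 7 428 460) (mv 590 (both (five 4 461 558) (mv 589 (both (five 4 493 622) (mv 620 (both (five 6 492 588) (mv 621 (both (five 7 492 524) (five 6 524 652))))))))))))) (both (mv 397 (both (five 6 396 524) (mv 460 (both (five 6 364 365) (mv 557 (both (five 7 428 428) (five 7 460 589))))))) (mv 396 (both (five 7 396 428) (mv 397 (both (five 7 364 364) (mv 365 (both (five 6 364 460) (mv 366 (both (five 5 333 334) (five 5 365 398)))))))))))))) (both (mv 494 (both (five 0 492 527) (mv 463 (both (five 1 460 464) (mv 491 (both (five 1 459 462) (mv 523 (both (five 2 490 522) (five 2 491 524))))))))) (mv 494 (both (five 0 492 527) (mv 459 (both (five 3 459 460) (mv 463 (both (five 1 460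 464) (mv 491 (both (five 3 458 458) (five 1 459 462)))))))))))) (mv 492 (both (mv 494 (both (five 0 492 527) (mv 459 (both (five 3 459 460) (mv 491 (both (five 3 458 458) (mv 523 (both (five 2 490 522) (five 2 491 524))))))))) (both (mv 557 (both (mv 430 (both (five 5 429 462) (mv 429 (both (five 5 397 398) (mv 397 (both (five 6 396 524) (mv 364 (both (five 7 364 396) (mv 365 (both (five 7 332 332) (five 6 364 460))))))))))) (both (mv 590 (both (five 4 461 558) (mv 589 (both (five 4 493 622) (mv 620 (both (five 6 492 588) (mv 621 (both (five 7 492 524) (five 6 524 652))))))))) (mv 589 (both (five 7 460 460) (mv 620 (both (five 6 492 588) (mv 621 (both (five 6 524 652) (mv 622 (both (five 4 493 590) (five 4 525 654)))))))))))) (both (mv 494 (both (five 0 492 527) (mv 463 (both (five 1 460 464) (mv 491 (both (five 1 459 462) (mv 523 (both (five 2 490 522) (five 2 491 524))))))))) (mv 494 (both (five 0 492 527) (mv 459 (both (five 3 459 460) (mv 463 (both (five 1 460 464) (mv 491 (both (five 3 458 458) (five 1 459 462)))))))))))))))))))) (both (mv 557 (both (mv 589 (both (mv 620 (both (five 6 492 588) (mv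 621 (both (five 6 524 652) (mv 622 (both (five 4 493 590) (five 4 525 654))))))) (mv 492 (both (five 7 460 460) (mv 494 (both (five 5 461 462) (five 0 492 527))))))) (both (mv 461 (both (mv 556 (both (five 6 460 588) (mv 558 (both (five 4 461 590) (mv 559 (both (five 1 524 527) (mv 524 (both (five 3 523 523) (five 3 524 560))))))))) (mv 460 (both (five 7 428 428) (mv 462 (both (five 5 429 430) (mv 459 (both (five 0 459 494) (mv 490 (both (five 2 458 491) (mv 458 (both (five 2 457 489) (mv 426 (both (five 3 425 425) (five 3 426 427))))))))))))))) (both (mv 589 (both (mv 620 (both (five 6 492 588) (mv 621 (both (five 6 524 652) (mv 622 (both (five 4 493 590) (five 4 525 654))))))) (both (mv 492 (both (five 7 460 460) (mv 620 (both (five 6 492 588) (mv 621 (both (five 7 492 524) (five 6 524 652))))))) (mv 460 (both (five 7 460 492) (mv 461 (both (five 7 428 428) (mv 590 (both (five 4 461 558) (five 4 493 622)))))))))) (both (mv 589 (both (mv 620 (both (five 6 492 588) (mv 621 (both (five 6 524 652) (mv 622 (both (five 4 493 590) (five 4 525 654))))))) (both (mv 462 (both (five 5 461 494) (mv 461 (both (five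 5 429 430) (mv 588 (both (five 6 460 556) (five 6 492 620))))))) (mv 462 (both (five 5 461 494) (mv 461 (both (five 5 429 430) (mv 590 (both (five 4 461 558) (five 4 493 622)))))))))) (mv 492 (both (mv 460 (both (five 7 460 589) (mv 428 (both (five 4 396 396) (five 7 428 461))))) (mv 494 (both (five 0 492 527) (mv 463 (both (five 1 460 464) (mv 491 (both (five 1 459 462) (mv 523 (both (five 2 490 522) (five 2 491 524)))))))))))))))) (both (ref 6) (both (mv 461 (both (mv 557 (both (mv 462 (both (five 5 429 430) (mv 589 (both (five 5 461 494) (mv 590 (both (five 4 461 558) (five 4 493 622))))))) (both (mv 460 (both (five 7 428 428) (mv 589 (both (five 7 460 492) (mv 590 (both (five 4 461 558) (five 4 493 622))))))) (mv 460 (both (five 7 428 428) (mv 462 (both (five 5 429 430) (mv 459 (both (five 0 459 494) (mv 490 (both (five 2 458 491) (mv 458 (both (five 2 457 489) (mv 426 (both (five 3 425 425) (five 3 426 427)))))))))))))))) (both (mv 429 (both (mv 396 (both (five 7 396 428) (mv 397 (both (five 7 364 364) (mv 398 (both (five 5 365 366) (five 5 397 430))))))) (both (mv 398 (both (five 5 397 430) (mv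 397 (both (five 5 365 366) (mv 524 (both (five 6 396 492) (five 6 428 556))))))) (both (mv 396 (both (five 7 396 428) (mv 397 (both (five 7 364 364) (mv 524 (both (five 6 396 492) (five 6 428 556))))))) (mv 428 (both (five 7 396 396) (mv 427 (both (mv 426 (both (five 0 426 462) (mv 393 (both (five 3 393 394) (mv 425 (both (five 3 392 392) (five 0 425 460))))))) (both (mv 430 (both (five 5 397 398) (mv 395 (both (five 3 394 394) (mv 459 (both (five 2 426 458) (mv 524 (both (five 6 428 556) (mv 492 (both (five 7 395 460) (five 4 395 491))))))))))) (both (mv 426 (both (five 0 426 462) (mv 393 (both (five 3 393 394) (mv 425 (both (five 3 392 392) (mv 457 (both (five 2 424 456) (five 2 425 458))))))))) (mv 426 (both (five 0 426 462) (mv 425 (both (five 0 425 460) (mv 457 (both (five 2 424 456) (five 2 425 458))))))))))))))))) (both (mv 429 (both (mv 396 (both (five 7 396 428) (mv 397 (both (five 7 364 364) (mv 398 (both (five 5 365 366) (five 5 397 430))))))) (both (mv 428 (both (five 7 396 396) (mv 427 (both (mv 426 (both (five 0 426 462) (mv 393 (both (five 3 393 394) (mv 425 (both (five 3 392 392) (five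 0 425 460))))))) (both (mv 460 (both (five 7 428 557) (mv 462 (both (five 3 427 463) (mv 459 (both (five 0 459 494) (mv 458 (both (five 1 425 457) (mv 490 (both (five 2 457 489) (five 2 458 491))))))))))) (both (mv 426 (both (five 0 426 462) (mv 393 (both (five 3 393 394) (mv 425 (both (five 3 392 392) (mv 457 (both (five 2 424 456) (five 2 425 458))))))))) (mv 460 (both (five 7 428 557) (mv 426 (both (five 0 425 425) (mv 393 (both (five 3 393 394) (mv 397 (both (five 1 394 398) (mv 333 (both (five 6 332 365) (mv 458 (both (five 2 425 457) (mv 459 (both (five 0 458 494) (mv 490 (both (five 2 457 489) (mv 395 (both (five 6 362 363) (five 5 394 522))))))))))))))))))))))))) (both (mv 397 (both (mv 398 (both (five 5 365 366) (five 5 397 430))) (both (mv 364 (both (five 7 364 396) (mv 365 (both (five 7 332 332) (mv 334 (both (five 5 333 366) (mv 333 (both (five 5 301 302) (mv 462 (both (five 4 333 430) (five 4 365 494))))))))))) (both (mv 364 (both (five 7 364 396) (mv 365 (both (five 7 332 332) (mv 366 (both (five 5 333 334) (five 5 365 398))))))) (mv 364 (both (five 7 364 396) (mv 365 (both (five 7 332 332)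 (mv 430 (both (five 5 397 398) (mv 462 (both (five 4 333 333) (five 4 365 494))))))))))))) (both (mv 428 (both (five 7 396 396) (mv 557 (both (five 7 428 460) (mv 462 (both (five 5 429 430) (mv 589 (both (five 5 461 494) (mv 590 (both (five 4 461 558) (five 4 493 622))))))))))) (mv 430 (both (five 5 397 398) (mv 460 (both (mv 431 (both (five 2 428 432) (mv 459 (both (five 1 426 458) (five 1 427 462))))) (both (mv 557 (both (five 7 428 428) (five 5 429 462))) (mv 431 (both (five 2 428 432) (mv 459 (both (five 2 427 428) (five 1 426 458))))))))))))))) (both (mv 429 (both (mv 396 (both (five 7 396 428) (mv 397 (both (five 7 364 364) (mv 398 (both (five 5 365 366) (five 5 397 430))))))) (both (mv 396 (both (five 7 396 428) (mv 397 (both (five 7 364 364) (mv 492 (both (five 6 396 524) (mv 494 (both (five 0 492 527) (mv 463 (both (five 1 460 464) (mv 491 (both (five 1 459 462) (mv 458 (both (five 3 458 459) (mv 490 (both (five 3 457 457) (mv 522 (both (five 2 489 521) (five 2 490 523))))))))))))))))))) (both (mv 398 (both (five 5 397 430) (mv 397 (both (five 5 365 366) (mv 492 (both (five 6 396 524) (mv 494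 (both (five 0 492 527) (mv 463 (both (five 1 460 464) (mv 491 (both (five 1 459 462) (mv 458 (both (five 3 458 459) (mv 490 (both (five 3 457 457) (mv 522 (both (five 2 489 521) (five 2 490 523))))))))))))))))))) (mv 428 (both (five 7 396 396) (mv 427 (both (mv 426 (both (five 0 426 462) (mv 393 (both (five 3 393 394) (mv 425 (both (five 3 392 392) (mv 457 (both (five 2 424 456) (five 2 425 458))))))))) (both (mv 430 (both (five 5 397 398) (mv 394 (both (five 3 394 395) (mv 426 (both (five 3 393 393) (mv 458 (both (five 2 425 457) (five 2 426 459))))))))) (mv 430 (both (five 5 397 398) (mv 463 (both (five 0 427 462) (mv 431 (both (five 0 428 464) (mv 400 (both (five 1 396 399) (mv 527 (both (five 5 399 432) (five 4 431 560)))))))))))))))))))) (both (mv 429 (both (mv 396 (both (five 7 396 428) (mv 397 (both (five 7 364 364) (mv 398 (both (five 5 365 366) (five 5 397 430))))))) (both (mv 398 (both (five 5 397 430) (mv 397 (both (five 5 365 366) (mv 364 (both (five 7 364 396) (mv 365 (both (five 7 332 332) (mv 492 (both (five 6 364 460) (five 6 396 524))))))))))) (both (mv 398 (both (five 5 397 430) (mv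 397 (both (five 5 365 366) (mv 492 (both (five 6 396 524) (mv 460 (both (five 6 364 365) (mv 557 (both (five 7 428 428) (five 7 460 589))))))))))) (both (mv 396 (both (five 7 396 428) (mv 397 (both (five 7 364 364) (mv 492 (both (five 6 396 524) (mv 460 (both (five 6 364 365) (mv 494 (both (five 3 459 459) (five 0 492 527))))))))))) (mv 428 (both (five 7 396 396) (mv 430 (both (five 5 397 398) (mv 460 (both (five 7 428 557) (mv 431 (both (five 2 428 432) (five 2 427 459)))))))))))))) (both (mv 428 (both (mv 396 (both (five 7 396 429) (mv 460 (both (five 4 364 364) (five 7 428 557))))) (both (mv 429 (both (five 7 396 396) (mv 524 (both (five 6 428 556) (mv 492 (both (five 6 396 397) (mv 494 (both (five 2 491 523) (five 0 492 527))))))))) (both (mv 460 (both (five 7 428 557) (mv 396 (both (five 4 364 364) (five 4 396 492))))) (mv 557 (both (five 7 428 460) (mv 590 (both (five 4 461 558) (mv 589 (both (five 4 493 622) (mv 494 (both (five 5 461 462) (mv 492 (both (five 0 492 527) (mv 524 (both (five 7 492 621) (mv 429 (both (five 6 396 397) (five 6 428 556))))))))))))))))))) (mv 557 (both (mv 462 (both (five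 5 429 430) (mv 589 (both (five 5 461 494) (mv 590 (both (five 4 461 558) (five 4 493 622))))))) (both (mv 590 (both (five 4 461 558) (mv 589 (both (five 4 493 622) (mv 492 (both (five 7 460 460) (mv 524 (both (five 7 492 621) (mv 429 (both (five 6 396 397) (five 6 428 556))))))))))) (mv 430 (both (five 5 429 462) (mv 429 (both (five 5 397 398) (mv 524 (both (five 6 428 556) (mv 492 (both (five 6 396 397) (mv 494 (both (five 2 491 523) (five 0 492 527))))))))))))))))))))) (both (mv 557 (both (mv 492 (both (mv 589 (both (five 7 460 460) (mv 494 (both (five 0 492 527) (five 5 461 462))))) (both (mv 460 (both (five 7 460 589) (mv 428 (both (five 4 396 396) (five 4 428 524))))) (mv 494 (both (five 0 492 527) (mv 463 (both (five 1 460 464) (mv 491 (both (five 1 459 462) (mv 523 (both (five 2 490 522) (five 2 491 524)))))))))))) (both (mv 461 (both (mv 428 (both (five 7 428 460) (mv 429 (both (five 7 396 396) (mv 430 (both (five 5 429 462) (five 5 397 398))))))) (both (mv 556 (both (five 6 460 588) (mv 429 (both (five 6 428 524) (mv 430 (both (five 5 429 462) (five 5 397 398))))))) (both (mv 556 (both (five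 6 460 588) (mv 428 (both (five 7 428 460) (mv 429 (both (five 6 428 524) (five 7 396 396))))))) (mv 588 (both (five 6 460 556) (mv 460 (both (five 7 428 428) (mv 462 (both (five 5 429 430) (mv 459 (both (five 0 459 494) (mv 490 (both (five 2 458 491) (mv 458 (both (five 2 457 489) (mv 426 (both (five 3 425 425) (five 3 426 427))))))))))))))))))) (both (mv 494 (both (mv 462 (both (five 5 461 589) (mv 430 (both (five 6 397 398) (five 5 429 461))))) (both (mv 492 (both (five 0 492 527) (mv 463 (both (five 1 460 464) (mv 524 (both (five 2 491 523) (mv 589 (both (five 7 492 621) (mv 588 (both (five 6 492 620) (mv 556 (both (five 5 460 461) (mv 587 (both (five 6 491 619) (mv 586 (both (five 1 553 585) (mv 558 (both (five 2 554 555) (five 2 555 559))))))))))))))))))) (mv 492 (both (five 0 492 527) (mv 463 (both (five 1 460 464) (mv 491 (both (five 1 459 462) (mv 458 (both (five 3 458 459) (mv 490 (both (five 3 457 457) (mv 522 (both (five 2 489 521) (five 2 490 523)))))))))))))))) (both (mv 589 (both (mv 492 (both (five 7 460 460) (mv 621 (both (five 7 492 524) (mv 652 (both (five 6 524 620) (mv 653 (both (five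 6 556 684) (mv 654 (both (five 4 525 622) (five 4 557 686))))))))))) (both (mv 621 (both (mv 620 (both (five 6 492 588) (five 6 524 652))) (both (mv 654 (both (five 4 525 622) (mv 653 (both (five 4 557 686) (mv 556 (both (five 7 524 524) (mv 588 (both (five 6 460 461) (five 7 556 685))))))))) (mv 652 (both (five 6 524 620) (mv 653 (both (five 6 556 684) (mv 654 (both (five 4 525 622) (five 4 557 686)))))))))) (both (mv 461 (both (mv 556 (both (five 6 460 588) (mv 429 (both (five 6 428 524) (mv 396 (both (five 7 396 428) (mv 397 (both (five 7 364 364) (mv 398 (both (five 5 365 366) (five 5 397 430))))))))))) (both (mv 492 (both (five 7 460 460) (mv 524 (both (five 7 492 621) (mv 429 (both (five 6 396 397) (five 6 428 556))))))) (mv 460 (both (five 7 428 428) (five 7 460 492)))))) (mv 460 (both (five 7 460 492) (mv 461 (both (five 7 428 428) (mv 588 (both (five 6 460 556) (five 6 492 620))))))))))) (mv 461 (both (mv 428 (both (five 7 428 460) (mv 429 (both (five 7 396 396) (mv 430 (both (five 5 429 462) (five 5 397 398))))))) (both (mv 588 (both (five 6 460 556) (mv 589 (both (five 6 492 620) (mv 460 (both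 (five 7 460 492) (five 7 428 428))))))) (mv 588 (both (five 6 460 556) (mv 589 (both (five 6 492 620) (mv 462 (both (five 5 461 494) (five 5 429 430))))))))))))))) (both (mv 557 (both (mv 589 (both (mv 620 (both (five 6 492 588) (mv 621 (both (five 6 524 652) (mv 622 (both (five 4 493 590) (five 4 525 654))))))) (mv 492 (both (five 7 460 460) (mv 494 (both (five 5 461 462) (five 0 492 527))))))) (both (mv 461 (both (mv 556 (both (five 6 460 588) (mv 558 (both (five 4 461 590) (mv 559 (both (five 1 524 527) (mv 524 (both (five 3 523 523) (five 3 524 560))))))))) (mv 460 (both (five 7 428 428) (mv 462 (both (five 5 429 430) (mv 459 (both (five 0 459 494) (mv 490 (both (five 2 458 491) (mv 458 (both (five 2 457 489) (mv 426 (both (five 3 425 425) (five 3 426 427))))))))))))))) (both (mv 589 (both (mv 620 (both (five 6 492 588) (mv 621 (both (five 6 524 652) (mv 622 (both (five 4 493 590) (five 4 525 654))))))) (both (mv 492 (both (five 7 460 460) (mv 620 (both (five 6 492 588) (mv 621 (both (five 7 492 524) (five 6 524 652))))))) (mv 460 (both (five 7 460 492) (mv 461 (both (five 7 428 428) (mv 590 (both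 (five 4 461 558) (five 4 493 622)))))))))) (both (mv 494 (both (mv 462 (both (five 5 461 589) (mv 430 (both (five 6 397 398) (five 5 429 461))))) (both (mv 492 (both (five 0 492 527) (mv 524 (both (five 2 491 523) (mv 589 (both (five 7 492 621) (mv 590 (both (five 4 493 622) (mv 461 (both (five 4 461 558) (mv 429 (both (five 6 396 397) (five 6 428 556))))))))))))) (mv 492 (both (five 0 492 527) (mv 463 (both (five 1 460 464) (mv 491 (both (five 1 459 462) (mv 458 (both (five 3 458 459) (mv 490 (both (five 3 457 457) (mv 522 (both (five 2 489 521) (five 2 490 523)))))))))))))))) (mv 494 (both (mv 462 (both (five 5 461 589) (mv 430 (both (five 6 397 398) (five 5 429 461))))) (both (mv 492 (both (five 0 492 527) (mv 463 (both (five 1 460 464) (mv 524 (both (five 2 491 523) (mv 589 (both (five 7 492 621) (mv 588 (both (five 6 492 620) (mv 556 (both (five 5 460 461) (mv 587 (both (five 6 491 619) (mv 586 (both (five 1 553 585) (mv 558 (both (five 2 554 555) (five 2 555 559))))))))))))))))))) (mv 492 (both (five 0 492 527) (mv 463 (both (five 1 460 464) (mv 491 (both (five 1 459 462) (mv 458 (both (five 3 458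 459) (mv 490 (both (five 3 457 457) (mv 522 (both (five 2 489 521) (five 2 490 523))))))))))))))))))))) (mv 557 (both (mv 589 (both (mv 620 (both (five 6 492 588) (mv 621 (both (five 6 524 652) (mv 622 (both (five 4 493 590) (five 4 525 654))))))) (mv 492 (both (five 7 460 460) (mv 494 (both (five 5 461 462) (five 0 492 527))))))) (both (mv 461 (both (mv 428 (both (five 7 428 460) (mv 429 (both (five 7 396 396) (mv 430 (both (five 5 429 462) (five 5 397 398))))))) (both (mv 556 (both (five 6 460 588) (mv 429 (both (five 6 428 524) (mv 430 (both (five 5 429 462) (five 5 397 398))))))) (both (mv 556 (both (five 6 460 588) (mv 428 (both (five 7 428 460) (mv 429 (both (five 6 428 524) (five 7 396 396))))))) (mv 588 (both (five 6 460 556) (mv 460 (both (five 7 428 428) (mv 462 (both (five 5 429 430) (mv 459 (both (five 0 459 494) (mv 490 (both (five 2 458 491) (mv 458 (both (five 2 457 489) (mv 426 (both (five 3 425 425) (five 3 426 427))))))))))))))))))) (both (mv 589 (both (mv 620 (both (five 6 492 588) (mv 621 (both (five 6 524 652) (mv 622 (both (five 4 493 590) (five 4 525 654))))))) (both (mv 622 (both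 (five 4 493 590) (mv 621 (both (five 4 525 654) (mv 652 (both (five 6 524 620) (mv 653 (both (five 6 556 684) (mv 524 (both (five 7 524 556) (five 7 492 492))))))))))) (both (mv 622 (both (five 4 493 590) (mv 621 (both (five 4 525 654) (mv 524 (both (five 7 492 492) (mv 556 (both (five 7 524 653) (mv 461 (both (five 6 428 429) (five 6 460 588))))))))))) (both (mv 621 (both (mv 620 (both (five 6 492 588) (five 6 524 652))) (both (mv 524 (both (five 7 492 492) (mv 556 (both (five 7 524 653) (mv 461 (both (five 6 428 429) (five 6 460 588))))))) (mv 652 (both (five 6 524 620) (mv 653 (both (five 6 556 684) (mv 524 (both (five 7 524 556) (five 7 492 492)))))))))) (mv 588 (both (five 6 492 620) (mv 556 (both (five 6 460 461) (mv 590 (both (five 4 493 622) (mv 591 (both (five 3 555 555) (five 3 556 592)))))))))))))) (mv 492 (both (mv 589 (both (five 7 460 460) (mv 494 (both (five 0 492 527) (five 5 461 462))))) (both (mv 460 (both (five 7 460 589) (mv 428 (both (five 4 396 396) (five 4 428 524))))) (mv 494 (both (five 0 492 527) (mv 463 (both (five 1 460 464) (mv 491 (both (five 1 459 462) (mv 523 (both (five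 2 490 522) (five 2 491 524))))))))))))))))))))))))))))))))

theorem L48 : W (S 988530863161101255454148148505632801312661156727406042891648512794071073662266652643294668095351646301915173751338452436331818490997235976069578606837084717056) (S 14805966325722384279854225880530329049714765669584383290600785815714204068627520100447720803453480730509283738411575428985589476828958769692977732343170026272678254982022057891614592548146361870761703702405700547490769493032960) :=
  check_sound (Env.cons L42 (Env.cons L45 (Env.cons L14 (Env.cons L36 (Env.cons L21 (Env.cons L46 (Env.cons L47 Env.nil))))))) (x := 493) (t := tL48) (by decide +kernel)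

def tL49 : T :=
  (both (mv 656 (both (mv 657 (both (five 4 560 689) (five 4 528 625))) (both (mv 687 (both (five 6 559 655) (mv 688 (both (five 6 591 719) (mv 721 (both (five 4 592 689) (mv 720 (both (five 4 624 753) (mv 593 (both (five 5 592 625) (five 5 560 561))))))))))) (both (mv 687 (both (five 6 559 655) (mv 688 (both (five 6 591 719) (mv 689 (both (five 4 592 721) (five 4 560 657))))))) (mv 687 (both (five 6 559 655) (mv 688 (both (five 6 591 719) (mv 625 (both (five 4 528 657) (mv 593 (both (five 5 592 720) (five 5 560 561))))))))))))) (both (mv 656 (both (mv 655 (both (five 6 559 687) (five 6 527 623))) (both (mv 689 (both (five 4 560 657) (mv 688 (both (five 4 592 721) (mv 719 (both (five 6 591 687) (mv 720 (both (five 6 623 751) (mv 591 (both (five 7 591 623) (five 7 559 559))))))))))) (both (mv 687 (both (five 6 559 655) (mv 688 (both (five 6 591 719) (mv 689 (both (five 4 592 721) (five 4 560 657))))))) (mv 689 (both (five 4 560 657) (mv 688 (both (five 4 592 721) (mv 623 (both (five 6 527 655) (mv 591 (both (five 7 591 720) (five 7 559 559))))))))))))) (both (mv 656 (both (mv 657 (both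 (five 4 560 689) (five 4 528 625))) (both (mv 688 (both (mv 721 (both (five 4 592 689) (mv 720 (both (five 4 624 753) (mv 593 (both (five 5 592 625) (five 5 560 561))))))) (both (mv 719 (both (five 6 591 687) (mv 720 (both (five 6 623 751) (mv 591 (both (five 7 591 623) (five 7 559 559))))))) (mv 591 (both (five 7 559 559) (mv 590 (both (mv 561 (both (five 1 557 589) (mv 562 (both (five 2 559 563) (five 1 558 593))))) (both (mv 719 (both (five 6 591 687) (mv 721 (both (five 4 592 689) (mv 593 (both (five 5 560 561) (mv 621 (both (five 2 589 622) (mv 626 (both (five 0 590 625) (mv 594 (both (five 0 591 627) (mv 595 (both (five 2 591 623) (mv 563 (both (five 1 559 562) (five 1 560 564))))))))))))))))) (both (mv 625 (both (five 0 589 589) (mv 626 (both (five 3 591 627) (five 0 590 593))))) (mv 589 (both (five 0 589 625) (five 1 557 561)))))))))))) (both (mv 689 (both (five 4 560 657) (mv 688 (both (five 4 592 721) (mv 719 (both (five 6 591 687) (mv 720 (both (five 6 623 751) (mv 591 (both (five 7 591 623) (five 7 559 559))))))))))) (mv 688 (both (mv 625 (both (five 4 528 657) (mv 593 (both (five 5 592 720)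 (five 5 560 561))))) (both (mv 719 (both (five 6 591 687) (mv 720 (both (five 6 623 751) (mv 591 (both (five 7 591 623) (five 7 559 559))))))) (mv 719 (both (five 6 591 687) (mv 625 (both (five 4 528 657) (mv 591 (both (five 7 559 559) (mv 626 (both (five 3 591 627) (mv 590 (both (five 0 589 589) (five 0 590 593)))))))))))))))))) (both (mv 656 (both (mv 655 (both (five 6 559 687) (five 6 527 623))) (both (mv 688 (both (mv 721 (both (five 4 592 689) (mv 720 (both (five 4 624 753) (mv 593 (both (five 5 592 625) (five 5 560 561))))))) (both (mv 719 (both (five 6 591 687) (mv 720 (both (five 6 623 751) (mv 591 (both (five 7 591 623) (five 7 559 559))))))) (mv 591 (both (five 7 559 559) (mv 590 (both (mv 561 (both (five 1 557 589) (mv 562 (both (five 2 559 563) (five 1 558 593))))) (both (mv 719 (both (five 6 591 687) (mv 721 (both (five 4 592 689) (mv 593 (both (five 5 560 561) (mv 621 (both (five 2 589 622) (mv 626 (both (five 0 590 625) (mv 594 (both (five 0 591 627) (mv 595 (both (five 2 591 623) (mv 563 (both (five 1 559 562) (five 1 560 564))))))))))))))))) (both (mv 625 (both (five 0 589 589) (mv 626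 (both (five 3 591 627) (five 0 590 593))))) (mv 589 (both (five 0 589 625) (five 1 557 561)))))))))))) (both (mv 687 (both (five 6 559 655) (mv 688 (both (five 6 591 719) (mv 721 (both (five 4 592 689) (mv 720 (both (five 4 624 753) (mv 593 (both (five 5 592 625) (five 5 560 561))))))))))) (mv 688 (both (mv 623 (both (five 6 527 655) (mv 591 (both (five 7 591 720) (five 7 559 559))))) (both (mv 721 (both (five 4 592 689) (mv 720 (both (five 4 624 753) (mv 593 (both (five 5 592 625) (five 5 560 561))))))) (mv 721 (both (five 4 592 689) (mv 623 (both (five 6 527 655) (mv 591 (both (five 7 559 559) (mv 593 (both (five 5 560 561) (mv 622 (both (five 1 589 621) (mv 594 (both (five 1 590 625) (five 2 591 595)))))))))))))))))))) (mv 623 (both (five 6 527 655) (mv 622 (both (mv 621 (both (five 1 589 593) (mv 620 (both (five 1 588 591) (mv 588 (both (five 3 587 587) (five 3 588 589))))))) (both (mv 625 (both (five 4 528 657) (mv 653 (both (five 2 621 654) (mv 621 (both (five 2 620 652) (mv 589 (both (five 3 588 588) (five 3 589 590))))))))) (both (mv 625 (both (five 4 528 657) (mv 653 (both (five 2 621 654) (mv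 589 (both (five 3 589 590) (mv 594 (both (five 1 590 593) (mv 626 (both (five 1 591 595) (mv 659 (both (five 0 623 658) (mv 627 (both (five 0 624 660) (five 3 591 591))))))))))))))) (mv 657 (both (five 4 528 625) (mv 621 (both (five 1 589 593) (mv 652 (both (five 2 620 653) (mv 620 (both (five 2 619 651) (five 1 588 591)))))))))))))))))))

theorem L49 : W (S 16209045194715341169889328670281870870648320287896358692834964590898661937229787932041754039510650896287619396121528265811588831646207381755109511917282835312024913084449269219328) (S 59223865234633340326969875654641887958960042121862737055538631198691821293489068267053799764355111838769021180075372172705271212916040368984765788804470886178495505059651432015608945046882430739992590206498014005911204413833216) :=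
  check_sound Env.nil (x := 624) (t := tL49) (by decide +kernel)

def tL50 : T :=
  (both (mv 464 (both (mv 368 (both (mv 399 (both (mv 465 (both (mv 466 (both (five 2 462 494) (mv 435 (both (five 1 431 434) (mv 467 (both (five 1 432 436) (mv 499 (both (five 0 463 498) (five 0 464 500))))))))) (both (mv 462 (both (mv 433 (both (five 1 430 434) (mv 493 (both (five 2 461 494) (mv 497 (both (five 0 462 498) (mv 401 (both (five 7 368 400) (mv 369 (both (five 7 336 336) (mv 370 (both (five 5 337 338) (mv 367 (both (five 2 366 398) (mv 402 (both (five 0 366 366) (five 0 367 403))))))))))))))))) (both (mv 429 (both (five 3 429 430) (mv 433 (both (five 1 430 434) (mv 497 (both (five 0 462 498) (mv 401 (both (five 7 368 400) (mv 369 (both (five 7 336 336) (mv 370 (both (five 5 337 338) (mv 367 (both (five 2 366 398) (mv 402 (both (five 0 366 366) (five 0 367 403))))))))))))))))) (both (mv 430 (both (five 3 429 429) (mv 398 (both (five 4 366 366) (mv 494 (both (five 5 366 367) (five 6 397 493))))))) (mv 429 (both (five 3 429 430) (mv 433 (both (five 1 430 434) (mv 493 (both (five 2 461 494) (mv 497 (both (five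 0 462 498) (mv 401 (both (five 7 368 400) (mv 369 (both (five 7 336 336) (mv 370 (both (five 5 337 338) (five 5 369 402))))))))))))))))))) (both (mv 434 (both (mv 433 (both (five 1 430 462) (mv 435 (both (five 2 432 436) (five 1 431 466))))) (both (mv 466 (both (five 1 431 435) (mv 370 (both (mv 402 (both (five 6 369 497) (mv 337 (both (five 7 337 369) (mv 338 (both (five 7 305 305) (mv 339 (both (five 5 306 307) (five 5 338 371))))))))) (both (mv 498 (both (five 0 463 499) (mv 462 (both (five 0 462 497) (mv 430 (both (five 3 429 429) (mv 398 (both (five 4 366 366) (mv 369 (both (five 2 366 367) (mv 400 (both (five 2 367 371) (five 1 365 397))))))))))))) (mv 499 (both (five 0 463 498) (mv 467 (both (five 4 370 402) (five 0 464 500)))))))))) (both (mv 433 (both (five 1 430 462) (mv 401 (both (mv 369 (both (five 7 336 336) (mv 370 (both (five 5 337 338) (mv 367 (both (five 2 366 398) (mv 402 (both (five 0 366 366) (five 0 367 403))))))))) (both (mv 400 (both (five 0 398 398) (five 7 368 497))) (mv 336 (both (five 7 336 369) (mv 400 (both (five 4 304 304) (five 7 368 497)))))))))) (mv 466 (both (five 1 431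 435) (mv 402 (both (mv 370 (both (five 6 369 497) (mv 499 (both (five 4 370 467) (five 0 463 498))))) (both (mv 498 (both (five 0 463 499) (mv 371 (both (five 5 370 403) (mv 401 (both (five 7 369 369) (mv 433 (both (five 7 401 530) (mv 400 (both (five 0 398 398) (five 7 368 497))))))))))) (both (mv 370 (both (five 6 369 497) (mv 337 (both (five 7 337 369) (mv 338 (both (five 7 305 305) (mv 339 (both (five 5 306 307) (five 5 338 371))))))))) (mv 498 (both (five 0 463 499) (mv 369 (both (five 7 369 401) (mv 370 (both (five 7 337 337) (mv 371 (both (five 5 338 339) (five 5 370 403))))))))))))))))))) (mv 494 (both (five 2 462 466) (mv 493 (both (five 2 461 462) (five 1 460 492))))))))) (both (mv 367 (both (mv 431 (both (five 5 335 336) (mv 366 (both (five 7 334 334) (five 7 366 398))))) (both (mv 369 (both (mv 366 (both (mv 333 (both (five 3 333 334) (mv 365 (both (five 3 332 332) (mv 397 (both (five 2 364 396) (five 2 365 398))))))) (both (mv 333 (both (five 3 333 334) (mv 337 (both (five 1 334 338) (mv 365 (both (five 3 332 332) (five 1 333 336))))))) (both (mv 337 (both (five 1 334 338) (mv 336 (both (five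 1 333 365) (mv 272 (both (five 6 271 304) (mv 397 (both (five 2 365 398) (mv 401 (both (five 0 366 402) (mv 465 (both (five 7 336 433) (mv 494 (both (five 2 462 466) (mv 493 (both (five 2 461 462) (five 1 460 492))))))))))))))))) (mv 334 (both (five 3 333 333) (mv 302 (both (five 4 270 270) (mv 337 (both (five 1 334 338) (mv 398 (both (five 2 365 397) (mv 269 (both (five 7 269 301) (mv 303 (both (five 5 270 271) (mv 430 (both (five 6 302 335) (five 4 366 462))))))))))))))))))) (both (mv 366 (both (mv 333 (both (five 3 333 334) (mv 337 (both (five 1 334 338) (mv 365 (both (five 3 332 332) (five 1 333 336))))))) (both (mv 333 (both (five 3 333 334) (mv 365 (both (five 3 332 332) (mv 396 (both (five 2 364 397) (mv 364 (both (five 2 363 395) (mv 269 (both (five 6 268 301) (mv 336 (both (five 1 332 335) (mv 401 (both (five 0 366 402) (mv 465 (both (five 7 336 433) (mv 494 (both (five 2 462 466) (mv 493 (both (five 2 461 462) (five 1 460 492))))))))))))))))))))) (mv 338 (both (five 1 334 337) (mv 370 (both (five 1 335 339) (mv 402 (both (five 0 366 401) (five 0 367 403)))))))))) (both (mv 370 (both (five 2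 366 398) (mv 339 (both (five 1 335 338) (mv 371 (both (five 1 336 340) (mv 403 (both (five 0 367 402) (five 0 368 404))))))))) (both (mv 370 (both (five 2 366 398) (mv 334 (both (five 3 334 335) (mv 366 (both (five 3 333 333) (mv 402 (both (five 0 366 401) (five 0 367 403))))))))) (mv 370 (both (five 2 366 398) (mv 334 (both (five 3 334 335) (mv 338 (both (five 1 335 339) (mv 366 (both (five 3 333 333) (five 1 334 337)))))))))))))) (both (mv 431 (both (mv 366 (both (five 7 334 334) (five 7 366 398))) (mv 462 (both (five 6 366 494) (mv 430 (both (five 6 334 335) (mv 465 (both (five 3 429 429) (five 3 430 466))))))))) (mv 431 (both (five 5 335 336) (mv 462 (both (five 6 366 494) (mv 430 (both (five 6 334 335) (mv 465 (both (five 3 429 429) (five 3 430 466))))))))))))) (both (mv 465 (both (mv 400 (both (five 5 367 431) (mv 462 (both (mv 433 (both (five 1 430 434) (mv 497 (both (five 7 368 401) (five 0 462 498))))) (mv 430 (both (five 3 429 429) (mv 398 (both (five 4 366 366) (mv 397 (both (five 1 365 369) (mv 365 (both (five 3 364 364) (five 7 365 494))))))))))))) (both (mv 431 (both (five 5 367 400) (mv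 366 (both (five 7 366 398) (mv 430 (both (five 3 430 466) (mv 429 (both (five 0 428 428) (five 3 429 462))))))))) (mv 466 (both (five 2 462 494) (mv 435 (both (five 1 431 434) (mv 467 (both (five 1 432 436) (mv 499 (both (five 0 463 498) (five 0 464 500)))))))))))) (both (mv 431 (both (five 5 367 400) (mv 366 (both (five 7 366 398) (mv 367 (both (five 7 334 334) (five 5 335 336))))))) (mv 431 (both (five 5 367 400) (mv 367 (both (five 5 335 336) (mv 462 (both (five 6 366 494) (mv 430 (both (five 6 334 335) (mv 465 (both (five 3 429 429) (five 3 430 466)))))))))))))))) (both (mv 366 (both (mv 430 (both (mv 398 (both (five 4 366 462) (mv 431 (both (five 4 334 334) (five 7 366 399))))) (both (mv 465 (both (mv 429 (both (five 3 429 462) (mv 431 (both (five 0 428 428) (five 0 429 432))))) (mv 466 (both (five 2 462 494) (mv 435 (both (five 1 431 434) (mv 467 (both (five 1 432 436) (mv 499 (both (five 0 463 498) (five 0 464 500))))))))))) (both (mv 431 (both (mv 429 (both (five 0 428 428) (mv 465 (both (five 0 429 432) (five 3 430 466))))) (mv 398 (both (five 4 334 334) (five 7 366 399))))) (mv 462 (both (five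 4 366 398) (mv 465 (both (five 3 429 429) (mv 494 (both (five 2 462 466) (five 2 461 493))))))))))) (both (mv 367 (both (mv 365 (both (mv 332 (both (five 3 332 333) (mv 336 (both (five 1 333 337) (mv 364 (both (five 3 331 331) (five 1 332 335))))))) (both (mv 332 (both (five 3 332 333) (mv 364 (both (five 3 331 331) (mv 396 (both (five 2 363 395) (five 2 364 397))))))) (both (mv 336 (both (five 1 333 337) (mv 364 (both (five 1 332 335) (mv 396 (both (five 2 363 395) (five 2 364 397))))))) (mv 302 (both (mv 333 (both (five 3 332 332) (mv 397 (both (five 2 364 396) (mv 270 (both (five 5 269 301) (five 6 269 334))))))) (both (mv 336 (both (five 1 333 337) (mv 396 (both (five 2 364 397) (mv 399 (both (five 5 335 431) (mv 270 (both (five 4 270 334) (mv 303 (both (five 7 270 335) (mv 304 (both (five 6 271 272) (mv 269 (both (five 3 269 305) (mv 268 (both (five 0 267 267) (five 0 268 271))))))))))))))))) (both (mv 332 (both (five 3 332 333) (mv 336 (both (five 1 333 337) (mv 399 (both (five 5 335 431) (mv 270 (both (five 4 270 334) (mv 303 (both (five 7 270 335) (mv 304 (both (five 6 271 272) (mv 269 (both (five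 3 269 305) (mv 268 (both (five 0 267 267) (five 0 268 271))))))))))))))))) (both (mv 333 (both (five 3 332 332) (mv 336 (both (five 1 333 337) (mv 397 (both (five 2 364 396) (mv 270 (both (five 5 269 301) (mv 399 (both (five 5 335 431) (mv 303 (both (five 7 270 335) (mv 304 (both (five 6 271 272) (mv 269 (both (five 3 269 305) (mv 268 (both (five 0 267 267) (five 0 268 271))))))))))))))))))) (mv 333 (both (five 3 332 332) (mv 336 (both (five 1 333 337) (mv 397 (both (five 2 364 396) (mv 334 (both (five 5 301 429) (mv 399 (both (five 7 334 431) (mv 304 (both (five 6 271 272) (mv 305 (both (five 2 301 303) (five 1 301 335)))))))))))))))))))))))) (both (mv 369 (both (mv 338 (both (five 1 334 337) (mv 370 (both (five 1 335 339) (mv 402 (both (five 0 366 401) (five 0 367 403))))))) (both (mv 334 (both (five 3 333 333) (mv 370 (both (five 3 334 335) (mv 402 (both (five 0 366 401) (five 0 367 403))))))) (both (mv 334 (both (five 3 333 333) (mv 335 (both (five 3 334 370) (mv 337 (both (five 1 334 338) (mv 399 (both (five 7 334 431) (mv 302 (both (five 4 270 270) (mv 336 (both (five 3 301 301) (mv 272 (both (five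 6 271 304) (mv 305 (both (five 1 302 306) (mv 273 (both (five 7 240 240) (five 6 240 241))))))))))))))))))) (mv 333 (both (five 3 333 334) (mv 337 (both (five 1 334 338) (mv 401 (both (five 0 366 402) (mv 433 (both (five 6 336 432) (mv 336 (both (five 7 304 304) (five 7 336 465))))))))))))))) (both (mv 369 (both (mv 338 (both (five 1 334 337) (mv 370 (both (five 1 335 339) (mv 402 (both (five 0 366 401) (five 0 367 403))))))) (both (mv 334 (both (five 3 333 333) (mv 370 (both (five 3 334 335) (mv 402 (both (five 0 366 401) (five 0 367 403))))))) (both (mv 334 (both (five 3 333 333) (mv 338 (both (five 1 334 337) (mv 370 (both (five 3 334 335) (five 1 335 339))))))) (mv 333 (both (five 3 333 334) (mv 332 (both (five 3 332 365) (mv 337 (both (five 1 334 338) (mv 401 (both (five 0 366 402) (mv 433 (both (five 6 336 432) (mv 466 (both (five 4 337 434) (mv 465 (both (five 2 462 494) (five 4 369 498))))))))))))))))))) (both (mv 365 (both (mv 332 (both (five 3 332 333) (mv 364 (both (five 3 331 331) (mv 396 (both (five 2 363 395) (five 2 364 397))))))) (both (mv 336 (both (five 1 333 337) (mv 364 (both (five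 1 332 335) (mv 396 (both (five 2 363 395) (five 2 364 397))))))) (mv 332 (both (five 3 332 333) (mv 337 (both (five 1 333 336) (mv 369 (both (five 1 334 338) (mv 401 (both (five 0 366 402) (mv 433 (both (five 6 336 432) (mv 466 (both (five 4 337 434) (mv 465 (both (five 2 462 494) (five 4 369 498)))))))))))))))))) (both (mv 365 (both (mv 332 (both (five 3 332 333) (mv 364 (both (five 3 331 331) (mv 396 (both (five 2 363 395) (five 2 364 397))))))) (both (mv 396 (both (five 2 364 397) (mv 364 (both (five 2 363 395) (mv 331 (both (five 3 331 332) (mv 335 (both (five 1 332 336) (mv 363 (both (five 3 330 330) (five 1 331 334))))))))))) (both (mv 396 (both (five 2 364 397) (mv 364 (both (five 2 363 395) (mv 335 (both (five 1 332 336) (mv 334 (both (five 1 331 363) (mv 369 (both (five 3 333 333) (five 3 334 370))))))))))) (mv 333 (both (five 3 332 332) (mv 369 (both (five 3 333 334) (mv 402 (both (five 0 366 401) (mv 370 (both (five 0 367 403) (mv 339 (both (five 1 335 338) (mv 371 (both (five 1 336 340) (mv 275 (both (five 6 274 307) (mv 336 (both (five 3 335 335) (mv 431 (both (five 5 335 399) (mv 466 (both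 (five 5 338 434) (mv 465 (both (five 3 430 430) (five 2 462 494))))))))))))))))))))))))))) (both (mv 369 (both (mv 338 (both (five 1 334 337) (mv 370 (both (five 1 335 339) (mv 402 (both (five 0 366 401) (five 0 367 403))))))) (both (mv 402 (both (five 0 366 401) (mv 370 (both (five 0 367 403) (mv 339 (both (five 1 335 338) (mv 371 (both (five 1 336 340) (mv 275 (both (five 6 274 307) (mv 336 (both (five 3 335 335) (mv 431 (both (five 5 335 399) (mv 466 (both (five 5 338 434) (mv 465 (both (five 3 430 430) (five 2 462 494))))))))))))))))))) (both (mv 402 (both (five 0 366 401) (mv 370 (both (five 0 367 403) (mv 335 (both (five 3 334 334) (mv 336 (both (five 3 335 371) (mv 365 (both (five 1 333 337) (five 1 332 364))))))))))) (both (mv 338 (both (five 1 334 337) (mv 370 (both (five 1 335 339) (mv 335 (both (five 3 334 334) (mv 371 (both (five 3 335 336) (mv 403 (both (five 0 367 402) (five 0 368 404))))))))))) (mv 465 (both (mv 494 (both (five 2 462 466) (mv 493 (both (five 2 461 462) (five 1 460 492))))) (both (mv 337 (both (five 1 334 338) (mv 336 (both (five 1 333 365) (mv 399 (both (five 5 335 431)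 (mv 272 (both (five 6 271 304) (mv 433 (both (five 7 336 401) (mv 434 (both (five 1 430 462) (mv 435 (both (five 2 431 432) (five 2 432 436))))))))))))))) (mv 466 (both (five 2 462 494) (mv 435 (both (five 1 431 434) (mv 467 (both (five 1 432 436) (mv 499 (both (five 0 463 498) (five 0 464 500))))))))))))))))) (mv 369 (both (mv 333 (both (five 3 333 334) (mv 337 (both (five 1 334 338) (mv 365 (both (five 3 332 332) (five 1 333 336))))))) (both (mv 333 (both (five 3 333 334) (mv 332 (both (five 3 332 365) (mv 402 (both (five 0 366 401) (mv 370 (both (five 0 367 403) (mv 339 (both (five 1 335 338) (mv 371 (both (five 1 336 340) (mv 466 (both (five 5 338 434) (mv 465 (both (five 2 462 494) (mv 430 (both (five 3 430 431) (mv 462 (both (five 3 429 429) (mv 498 (both (five 0 462 497) (five 0 463 499))))))))))))))))))))))) (both (mv 338 (both (five 1 334 337) (mv 370 (both (five 1 335 339) (mv 402 (both (five 0 366 401) (five 0 367 403))))))) (mv 333 (both (five 3 333 334) (mv 365 (both (five 3 332 332) (mv 336 (both (five 1 333 337) (mv 401 (both (five 0 366 402) (mv 465 (both (five 7 336 433) (mv 494 (both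 (five 2 462 466) (mv 493 (both (five 2 461 462) (five 1 460 492)))))))))))))))))))))))))) (both (mv 367 (both (mv 365 (both (mv 332 (both (five 3 332 333) (mv 336 (both (five 1 333 337) (mv 364 (both (five 3 331 331) (five 1 332 335))))))) (both (mv 332 (both (five 3 332 333) (mv 364 (both (five 3 331 331) (mv 396 (both (five 2 363 395) (five 2 364 397))))))) (both (mv 336 (both (five 1 333 337) (mv 364 (both (five 1 332 335) (mv 396 (both (five 2 363 395) (five 2 364 397))))))) (mv 302 (both (mv 333 (both (five 3 332 332) (mv 397 (both (five 2 364 396) (mv 270 (both (five 5 269 301) (five 6 269 334))))))) (both (mv 336 (both (five 1 333 337) (mv 396 (both (five 2 364 397) (mv 399 (both (five 5 335 431) (mv 270 (both (five 4 270 334) (mv 303 (both (five 7 270 335) (mv 304 (both (five 6 271 272) (mv 269 (both (five 3 269 305) (mv 268 (both (five 0 267 267) (five 0 268 271))))))))))))))))) (both (mv 332 (both (five 3 332 333) (mv 336 (both (five 1 333 337) (mv 399 (both (five 5 335 431) (mv 270 (both (five 4 270 334) (mv 303 (both (five 7 270 335) (mv 304 (both (five 6 271 272) (mv 269 (both (five 3 269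 305) (mv 268 (both (five 0 267 267) (five 0 268 271))))))))))))))))) (both (mv 333 (both (five 3 332 332) (mv 336 (both (five 1 333 337) (mv 397 (both (five 2 364 396) (mv 270 (both (five 5 269 301) (mv 399 (both (five 5 335 431) (mv 303 (both (five 7 270 335) (mv 304 (both (five 6 271 272) (mv 269 (both (five 3 269 305) (mv 268 (both (five 0 267 267) (five 0 268 271))))))))))))))))))) (mv 333 (both (five 3 332 332) (mv 336 (both (five 1 333 337) (mv 397 (both (five 2 364 396) (mv 334 (both (five 5 301 429) (mv 399 (both (five 7 334 431) (mv 304 (both (five 6 271 272) (mv 305 (both (five 2 301 303) (five 1 301 335)))))))))))))))))))))))) (both (mv 369 (both (mv 338 (both (five 1 334 337) (mv 370 (both (five 1 335 339) (mv 402 (both (five 0 366 401) (five 0 367 403))))))) (both (mv 398 (both (five 2 365 397) (mv 399 (both (five 2 366 370) (five 7 366 431))))) (mv 337 (both (five 1 334 338) (mv 336 (both (five 1 333 365) (mv 397 (both (five 2 365 398) (mv 399 (both (five 5 335 431) (mv 304 (both (five 6 271 272) (mv 401 (both (five 0 366 402) (five 7 304 433)))))))))))))))) (both (mv 369 (both (mv 334 (both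 (five 3 333 333) (mv 370 (both (five 3 334 335) (mv 402 (both (five 0 366 401) (five 0 367 403))))))) (both (mv 334 (both (five 3 333 333) (mv 338 (both (five 1 334 337) (mv 370 (both (five 3 334 335) (five 1 335 339))))))) (mv 337 (both (five 1 334 338) (mv 401 (both (five 0 366 402) (mv 433 (both (five 6 336 432) (mv 336 (both (five 7 304 304) (five 7 336 465)))))))))))) (both (mv 369 (both (mv 333 (both (five 3 333 334) (mv 365 (both (five 3 332 332) (mv 397 (both (five 2 364 396) (five 2 365 398))))))) (mv 338 (both (five 1 334 337) (mv 370 (both (five 1 335 339) (mv 402 (both (five 0 366 401) (five 0 367 403))))))))) (mv 365 (both (mv 332 (both (five 3 332 333) (mv 364 (both (five 3 331 331) (mv 396 (both (five 2 363 395) (five 2 364 397))))))) (both (mv 396 (both (five 2 364 397) (mv 364 (both (five 2 363 395) (mv 331 (both (five 3 331 332) (mv 335 (both (five 1 332 336) (mv 363 (both (five 3 330 330) (five 1 331 334))))))))))) (both (mv 396 (both (five 2 364 397) (mv 364 (both (five 2 363 395) (mv 335 (both (five 1 332 336) (mv 334 (both (five 1 331 363) (mv 369 (both (five 3 333 333) (five 3 334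 370))))))))))) (mv 333 (both (five 3 332 332) (mv 369 (both (five 3 333 334) (mv 402 (both (five 0 366 401) (mv 370 (both (five 0 367 403) (mv 339 (both (five 1 335 338) (mv 371 (both (five 1 336 340) (mv 275 (both (five 6 274 307) (mv 336 (both (five 3 335 335) (mv 431 (both (five 5 335 399) (mv 466 (both (five 5 338 434) (mv 465 (both (five 3 430 430) (five 2 462 494)))))))))))))))))))))))))))))))) (both (mv 367 (both (mv 365 (both (mv 332 (both (five 3 332 333) (mv 336 (both (five 1 333 337) (mv 364 (both (five 3 331 331) (five 1 332 335))))))) (both (mv 332 (both (five 3 332 333) (mv 364 (both (five 3 331 331) (mv 396 (both (five 2 363 395) (five 2 364 397))))))) (both (mv 336 (both (five 1 333 337) (mv 364 (both (five 1 332 335) (mv 396 (both (five 2 363 395) (five 2 364 397))))))) (mv 302 (both (mv 333 (both (five 3 332 332) (mv 397 (both (five 2 364 396) (mv 270 (both (five 5 269 301) (five 6 269 334))))))) (both (mv 336 (both (five 1 333 337) (mv 396 (both (five 2 364 397) (mv 399 (both (five 5 335 431) (mv 270 (both (five 4 270 334) (mv 303 (both (five 7 270 335) (mv 304 (both (five 6 271 272)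 (mv 269 (both (five 3 269 305) (mv 268 (both (five 0 267 267) (five 0 268 271))))))))))))))))) (both (mv 332 (both (five 3 332 333) (mv 336 (both (five 1 333 337) (mv 399 (both (five 5 335 431) (mv 270 (both (five 4 270 334) (mv 303 (both (five 7 270 335) (mv 304 (both (five 6 271 272) (mv 269 (both (five 3 269 305) (mv 268 (both (five 0 267 267) (five 0 268 271))))))))))))))))) (both (mv 333 (both (five 3 332 332) (mv 336 (both (five 1 333 337) (mv 397 (both (five 2 364 396) (mv 270 (both (five 5 269 301) (mv 399 (both (five 5 335 431) (mv 303 (both (five 7 270 335) (mv 304 (both (five 6 271 272) (mv 269 (both (five 3 269 305) (mv 268 (both (five 0 267 267) (five 0 268 271))))))))))))))))))) (mv 333 (both (five 3 332 332) (mv 336 (both (five 1 333 337) (mv 397 (both (five 2 364 396) (mv 334 (both (five 5 301 429) (mv 399 (both (five 7 334 431) (mv 304 (both (five 6 271 272) (mv 305 (both (five 2 301 303) (five 1 301 335)))))))))))))))))))))))) (both (mv 369 (both (mv 334 (both (five 3 333 333) (mv 370 (both (five 3 334 335) (mv 402 (both (five 0 366 401) (five 0 367 403))))))) (both (mv 334 (both (five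 3 333 333) (mv 338 (both (five 1 334 337) (mv 370 (both (five 3 334 335) (five 1 335 339))))))) (mv 337 (both (five 1 334 338) (mv 401 (both (five 0 366 402) (mv 433 (both (five 6 336 432) (mv 336 (both (five 7 304 304) (five 7 336 465)))))))))))) (both (mv 369 (both (mv 338 (both (five 1 334 337) (mv 370 (both (five 1 335 339) (mv 402 (both (five 0 366 401) (five 0 367 403))))))) (both (mv 398 (both (five 2 365 397) (mv 399 (both (five 2 366 370) (five 7 366 431))))) (mv 337 (both (five 1 334 338) (mv 336 (both (five 1 333 365) (mv 397 (both (five 2 365 398) (mv 399 (both (five 5 335 431) (mv 304 (both (five 6 271 272) (mv 401 (both (five 0 366 402) (five 7 304 433)))))))))))))))) (both (mv 369 (both (mv 333 (both (five 3 333 334) (mv 365 (both (five 3 332 332) (mv 397 (both (five 2 364 396) (five 2 365 398))))))) (mv 338 (both (five 1 334 337) (mv 370 (both (five 1 335 339) (mv 402 (both (five 0 366 401) (five 0 367 403))))))))) (mv 369 (both (mv 333 (both (five 3 333 334) (mv 365 (both (five 3 332 332) (mv 397 (both (five 2 364 396) (five 2 365 398))))))) (both (mv 334 (both (five 3 333 333) (mv 370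 (both (five 3 334 335) (mv 402 (both (five 0 366 401) (five 0 367 403))))))) (both (mv 397 (both (five 2 365 398) (mv 365 (both (five 2 364 396) (mv 332 (both (five 3 332 333) (mv 364 (both (five 3 331 331) (mv 336 (both (five 1 332 335) (mv 401 (both (five 0 366 402) (mv 465 (both (five 7 336 433) (mv 494 (both (five 2 462 466) (mv 493 (both (five 2 461 462) (five 1 460 492))))))))))))))))))) (mv 397 (both (five 2 365 398) (mv 365 (both (five 2 364 396) (mv 402 (both (five 0 366 401) (mv 370 (both (five 0 367 403) (mv 335 (both (five 3 334 334) (mv 336 (both (five 1 332 364) (five 3 335 371)))))))))))))))))))))) (both (mv 465 (both (mv 494 (both (five 2 462 466) (mv 493 (both (five 2 461 462) (five 1 460 492))))) (both (mv 369 (both (mv 367 (both (mv 333 (both (five 3 333 334) (mv 365 (both (five 3 332 332) (mv 397 (both (five 2 364 396) (five 2 365 398))))))) (mv 338 (both (five 1 334 337) (mv 370 (both (five 1 335 339) (mv 402 (both (five 0 366 401) (five 0 367 403))))))))) (both (mv 462 (both (mv 430 (both (five 4 366 398) (five 3 429 429))) (mv 433 (both (five 1 430 434) (mv 401 (both (five 7 336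 336) (mv 337 (both (five 6 336 432) (mv 338 (both (five 5 305 306) (five 5 337 370))))))))))) (both (mv 367 (both (mv 333 (both (five 3 333 334) (mv 365 (both (five 3 332 332) (mv 397 (both (five 2 364 396) (five 2 365 398))))))) (both (mv 337 (both (five 1 334 338) (mv 365 (both (five 1 333 336) (mv 397 (both (five 2 364 396) (five 2 365 398))))))) (mv 334 (both (five 3 333 333) (mv 338 (both (five 1 334 337) (mv 370 (both (five 3 334 335) (five 1 335 339)))))))))) (both (mv 367 (both (mv 333 (both (five 3 333 334) (mv 337 (both (five 1 334 338) (mv 365 (both (five 3 332 332) (five 1 333 336))))))) (both (mv 334 (both (five 3 333 333) (mv 370 (both (five 3 334 335) (mv 402 (both (five 0 366 401) (five 0 367 403))))))) (mv 338 (both (five 1 334 337) (mv 370 (both (five 1 335 339) (mv 402 (both (five 0 366 401) (five 0 367 403)))))))))) (both (mv 462 (both (mv 430 (both (five 4 366 398) (five 3 429 429))) (both (mv 433 (both (five 1 430 434) (mv 401 (both (five 7 336 336) (mv 338 (both (five 5 337 370) (mv 367 (both (five 0 366 402) (mv 333 (both (five 3 333 334) (mv 365 (both (five 3 332 332) (mv 397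 (both (five 2 364 396) (five 2 365 398))))))))))))))) (mv 429 (both (five 3 429 430) (mv 433 (both (five 1 430 434) (mv 401 (both (five 7 336 336) (mv 367 (both (five 0 366 402) (mv 334 (both (five 3 333 333) (mv 370 (both (five 3 334 335) (five 5 337 338)))))))))))))))) (both (mv 367 (both (mv 333 (both (five 3 333 334) (mv 365 (both (five 3 332 332) (mv 397 (both (five 2 364 396) (five 2 365 398))))))) (both (mv 333 (both (five 3 333 334) (mv 337 (both (five 1 334 338) (mv 365 (both (five 3 332 332) (five 1 333 336))))))) (both (mv 337 (both (five 1 334 338) (mv 365 (both (five 1 333 336) (mv 397 (both (five 2 364 396) (five 2 365 398))))))) (mv 333 (both (five 3 333 334) (mv 337 (both (five 1 334 338) (mv 397 (both (five 2 365 398) (mv 401 (both (five 0 366 402) (mv 433 (both (five 7 336 336) (five 6 336 432))))))))))))))) (mv 462 (both (mv 430 (both (five 4 366 398) (five 3 429 429))) (both (mv 433 (both (five 1 430 434) (mv 401 (both (five 7 336 336) (mv 367 (both (five 0 366 402) (mv 333 (both (five 3 333 334) (mv 365 (both (five 3 332 332) (mv 397 (both (five 2 364 396) (five 2 365 398)))))))))))))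 (mv 429 (both (five 3 429 430) (mv 433 (both (five 1 430 434) (mv 401 (both (five 7 336 336) (mv 337 (both (five 6 336 432) (mv 402 (both (five 0 366 367) (mv 497 (both (five 5 369 370) (five 0 462 498))))))))))))))))))))))) (mv 466 (both (five 2 462 494) (mv 435 (both (five 1 431 434) (mv 467 (both (five 1 432 436) (mv 499 (both (five 0 463 498) (five 0 464 500)))))))))))) (both (mv 465 (both (mv 494 (both (five 2 462 466) (mv 493 (both (five 2 461 462) (five 1 460 492))))) (both (mv 369 (both (mv 462 (both (mv 430 (both (five 4 366 398) (five 3 429 429))) (mv 433 (both (five 1 430 434) (mv 401 (both (five 7 336 336) (mv 337 (both (five 6 336 432) (mv 338 (both (five 5 305 306) (five 5 337 370))))))))))) (both (mv 367 (both (mv 338 (both (five 1 334 337) (mv 370 (both (five 1 335 339) (mv 402 (both (five 0 366 401) (five 0 367 403))))))) (both (mv 401 (both (five 0 366 402) (mv 433 (both (five 7 336 336) (mv 434 (both (five 1 430 462) (mv 435 (both (five 2 431 432) (five 2 432 436))))))))) (mv 337 (both (five 1 334 338) (mv 365 (both (five 1 333 336) (mv 332 (both (five 3 332 333) (mv 364 (both (five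 3 331 331) (mv 396 (both (five 2 363 395) (five 2 364 397)))))))))))))) (both (mv 367 (both (mv 398 (both (five 2 365 397) (mv 399 (both (five 2 366 370) (five 7 366 431))))) (both (mv 337 (both (five 1 334 338) (mv 365 (both (five 1 333 336) (mv 332 (both (five 3 332 333) (mv 364 (both (five 3 331 331) (mv 396 (both (five 2 363 395) (five 2 364 397))))))))))) (mv 337 (both (five 1 334 338) (mv 336 (both (five 1 333 365) (mv 399 (both (five 5 335 431) (mv 272 (both (five 6 271 304) (mv 370 (both (five 2 366 398) (mv 371 (both (five 3 335 335) (five 3 336 372)))))))))))))))) (both (mv 367 (both (mv 398 (both (five 2 365 397) (mv 399 (both (five 2 366 370) (five 7 366 431))))) (both (mv 338 (both (five 1 334 337) (mv 370 (both (five 1 335 339) (mv 402 (both (five 0 366 401) (five 0 367 403))))))) (mv 337 (both (five 1 334 338) (mv 398 (both (five 2 365 397) (mv 399 (both (five 7 366 431) (mv 401 (both (five 0 366 402) (mv 433 (both (five 6 336 432) (mv 462 (both (five 4 366 430) (five 1 430 434)))))))))))))))) (both (mv 462 (both (mv 430 (both (five 4 366 398) (five 3 429 429))) (mv 433 (both (five 1 430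 434) (mv 401 (both (five 7 336 336) (mv 402 (both (five 0 366 367) (mv 497 (both (five 5 369 370) (five 0 462 498))))))))))) (mv 462 (both (mv 430 (both (five 4 366 398) (five 3 429 429))) (mv 433 (both (five 1 430 434) (mv 401 (both (five 7 336 336) (mv 337 (both (five 6 336 432) (mv 338 (both (five 5 305 306) (five 1 334 367))))))))))))))))) (mv 466 (both (five 2 462 494) (mv 435 (both (five 1 431 434) (mv 467 (both (five 1 432 436) (mv 499 (both (five 0 463 498) (five 0 464 500)))))))))))) (mv 367 (both (mv 398 (both (mv 369 (both (five 2 365 397) (mv 399 (both (five 2 366 370) (five 7 366 431))))) (both (mv 369 (both (five 2 365 397) (mv 334 (both (five 3 333 333) (mv 370 (both (five 3 334 335) (mv 402 (both (five 0 366 401) (five 0 367 403))))))))) (mv 430 (both (five 4 366 462) (mv 431 (both (five 4 334 334) (five 7 366 399)))))))) (both (mv 365 (both (mv 332 (both (five 3 332 333) (mv 336 (both (five 1 333 337) (mv 364 (both (five 3 331 331) (five 1 332 335))))))) (both (mv 332 (both (five 3 332 333) (mv 364 (both (five 3 331 331) (mv 396 (both (five 2 363 395) (five 2 364 397))))))) (both (mv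 336 (both (five 1 333 337) (mv 364 (both (five 1 332 335) (mv 396 (both (five 2 363 395) (five 2 364 397))))))) (mv 398 (both (mv 430 (both (five 4 366 462) (mv 431 (both (five 4 334 334) (five 7 366 399))))) (both (mv 332 (both (five 3 332 333) (mv 336 (both (five 1 333 337) (mv 397 (both (five 2 364 396) (mv 430 (both (five 4 366 462) (mv 334 (both (five 4 334 431) (mv 302 (both (five 6 269 270) (mv 303 (both (five 5 270 271) (five 5 302 335))))))))))))))) (mv 333 (both (five 3 332 332) (mv 301 (both (five 4 269 269) (mv 336 (both (five 1 333 337) (mv 397 (both (five 2 364 396) (mv 300 (both (five 7 268 268) (mv 302 (both (five 5 269 270) (mv 303 (both (five 0 300 335) (mv 272 (both (five 1 268 271) (mv 304 (both (five 1 269 273) (five 6 271 399)))))))))))))))))))))))))) (both (mv 369 (both (mv 333 (both (five 3 333 334) (mv 337 (both (five 1 334 338) (mv 365 (both (five 3 332 332) (five 1 333 336))))))) (both (mv 338 (both (five 1 334 337) (mv 370 (both (five 1 335 339) (mv 402 (both (five 0 366 401) (five 0 367 403))))))) (mv 334 (both (five 3 333 333) (mv 370 (both (five 3 334 335) (mv 402 (both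 (five 0 366 401) (five 0 367 403)))))))))) (mv 369 (both (mv 338 (both (five 1 334 337) (mv 370 (both (five 1 335 339) (mv 402 (both (five 0 366 401) (five 0 367 403))))))) (both (mv 398 (both (five 2 365 397) (mv 399 (both (five 2 366 370) (five 7 366 431))))) (mv 337 (both (five 1 334 338) (mv 336 (both (five 1 333 365) (mv 397 (both (five 2 365 398) (mv 399 (both (five 5 335 431) (mv 304 (both (five 6 271 272) (mv 401 (both (five 0 366 402) (five 7 304 433))))))))))))))))))))))))))) (both (mv 465 (both (mv 494 (both (five 2 462 466) (mv 493 (both (five 2 461 462) (five 1 460 492))))) (both (mv 433 (both (mv 434 (both (five 1 430 462) (mv 435 (both (five 2 431 432) (five 2 432 436))))) (both (mv 462 (both (five 1 430 434) (mv 497 (both (five 0 462 498) (mv 401 (both (five 7 368 400) (mv 369 (both (five 7 336 336) (mv 370 (both (five 5 337 338) (five 5 369 402))))))))))) (mv 400 (both (five 6 367 432) (mv 401 (both (five 7 368 497) (mv 336 (both (five 4 304 304) (five 7 336 369)))))))))) (mv 466 (both (five 2 462 494) (mv 435 (both (five 1 431 434) (mv 467 (both (five 1 432 436) (mv 499 (both (five 0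 463 498) (five 0 464 500)))))))))))) (both (mv 400 (both (five 6 367 432) (mv 399 (both (five 5 367 431) (mv 369 (both (mv 370 (both (five 2 367 371) (mv 398 (both (five 1 365 397) (five 1 366 401))))) (both (mv 370 (both (five 2 367 371) (mv 367 (both (mv 334 (both (five 3 334 335) (mv 366 (both (five 3 333 333) (mv 402 (both (five 0 366 401) (five 0 367 403))))))) (both (mv 334 (both (five 3 334 335) (mv 338 (both (five 1 335 339) (mv 366 (both (five 3 333 333) (five 1 334 337))))))) (both (mv 335 (both (five 3 334 334) (mv 303 (both (five 4 271 271) (mv 272 (both (five 5 271 304) (mv 302 (both (five 7 270 270) (mv 338 (both (five 1 335 339) (mv 337 (both (five 3 302 336) (mv 305 (both (five 6 272 273) (mv 402 (both (five 0 367 403) (five 7 305 434))))))))))))))))) (mv 338 (both (five 1 335 339) (mv 337 (both (five 1 334 366) (mv 305 (both (five 6 272 273) (mv 402 (both (five 0 367 403) (five 7 305 434))))))))))))))) (both (mv 398 (both (five 1 365 397) (mv 401 (both (mv 434 (both (five 0 398 433) (mv 402 (both (five 0 399 435) (mv 403 (both (five 3 367 367) (five 3 368 404))))))) (mv 366 (both (five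 3 365 365) (mv 430 (both (five 2 397 429) (five 4 366 462))))))))) (mv 370 (both (five 2 367 371) (mv 398 (both (five 2 366 367) (five 1 365 397))))))))))))) (both (mv 400 (both (five 6 367 432) (mv 401 (both (mv 465 (both (mv 433 (both (five 7 368 497) (mv 336 (both (five 4 304 304) (five 7 336 369))))) (mv 466 (both (five 2 462 494) (mv 435 (both (five 1 431 434) (mv 467 (both (five 1 432 436) (mv 499 (both (five 0 463 498) (five 0 464 500))))))))))) (both (mv 402 (both (mv 367 (both (five 3 367 403) (mv 366 (both (five 0 365 365) (five 0 366 369))))) (both (mv 399 (both (five 5 367 431) (mv 370 (both (five 1 367 371) (mv 369 (both (five 1 366 398) (mv 403 (both (five 3 368 404) (mv 435 (both (five 0 399 434) (five 0 400 436))))))))))) (both (mv 399 (both (five 5 367 431) (mv 366 (both (five 3 366 367) (mv 370 (both (five 1 367 371) (mv 398 (both (five 3 365 365) (five 1 366 369))))))))) (mv 367 (both (five 3 367 403) (mv 366 (both (five 0 365 365) (five 3 366 399))))))))) (both (mv 465 (both (mv 466 (both (five 2 462 494) (mv 435 (both (five 1 431 434) (mv 467 (both (five 1 432 436) (mv 499 (both (five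 0 463 498) (five 0 464 500))))))))) (both (mv 399 (both (five 5 367 431) (mv 433 (both (five 7 368 497) (mv 304 (both (five 4 304 336) (mv 398 (both (five 0 398 434) (mv 365 (both (five 3 365 366) (mv 397 (both (five 3 364 364) (mv 429 (both (five 2 396 428) (five 2 397 430))))))))))))))) (mv 431 (both (five 5 367 399) (mv 466 (both (five 3 430 430) (five 2 462 494)))))))) (mv 465 (both (mv 433 (both (five 7 368 497) (mv 336 (both (five 4 304 304) (five 7 336 369))))) (mv 431 (both (five 5 367 399) (mv 466 (both (five 3 430 430) (five 2 462 494))))))))))))) (both (mv 465 (both (mv 433 (both (mv 434 (both (five 1 430 462) (mv 435 (both (five 2 431 432) (five 2 432 436))))) (both (mv 462 (both (five 1 430 434) (mv 430 (both (five 3 429 429) (mv 398 (both (five 4 366 366) (mv 494 (both (five 6 397 493) (mv 365 (both (five 7 365 397) (mv 399 (both (five 5 366 367) (mv 400 (both (five 5 367 431) (mv 497 (both (five 7 368 401) (five 0 462 498))))))))))))))))) (both (mv 400 (both (five 6 367 432) (mv 399 (both (five 5 367 431) (mv 401 (both (five 7 368 497) (mv 398 (both (five 0 398 434) (mv 365 (both (five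 3 365 366) (mv 397 (both (five 3 364 364) (mv 429 (both (five 2 396 428) (five 2 397 430))))))))))))))) (mv 400 (both (five 6 367 432) (mv 399 (both (five 5 367 431) (mv 497 (both (five 7 368 401) (mv 462 (both (five 0 462 498) (mv 430 (both (five 3 429 429) (mv 398 (both (five 4 366 366) (mv 494 (both (five 5 366 367) (five 6 397 493))))))))))))))))))) (both (mv 400 (both (five 6 367 432) (mv 431 (both (five 5 367 399) (mv 430 (both (five 3 430 466) (mv 429 (both (five 0 428 428) (five 3 429 462))))))))) (mv 466 (both (five 2 462 494) (mv 435 (both (five 1 431 434) (mv 467 (both (five 1 432 436) (mv 499 (both (five 0 463 498) (five 0 464 500)))))))))))) (both (mv 430 (both (mv 431 (both (mv 429 (both (five 0 428 428) (mv 465 (both (five 0 429 432) (five 3 430 466))))) (mv 399 (both (five 5 367 400) (mv 366 (both (five 7 366 398) (mv 367 (both (five 7 334 334) (five 5 335 336))))))))) (both (mv 465 (both (mv 494 (both (five 2 462 466) (mv 493 (both (five 2 461 462) (five 1 460 492))))) (both (mv 429 (both (five 3 429 462) (mv 431 (both (five 0 428 428) (five 0 429 432))))) (mv 466 (both (five 3 430 431)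 (five 2 462 494)))))) (both (mv 431 (both (mv 429 (both (five 0 428 428) (mv 465 (both (five 3 429 462) (five 3 430 466))))) (mv 399 (both (five 5 367 400) (mv 366 (both (five 7 366 398) (mv 367 (both (five 7 334 334) (five 5 335 336))))))))) (both (mv 462 (both (mv 465 (both (five 3 429 429) (mv 494 (both (five 2 462 466) (five 2 461 493))))) (both (mv 398 (both (five 4 366 366) (mv 400 (both (five 6 367 432) (mv 494 (both (five 6 397 493) (mv 397 (both (five 7 365 365) (mv 399 (both (five 5 366 367) (five 1 365 369))))))))))) (mv 398 (both (five 4 366 366) (mv 400 (both (five 6 367 432) (mv 429 (both (five 3 429 465) (mv 399 (both (five 2 397 401) (mv 369 (both (five 1 365 397) (mv 370 (both (five 2 366 367) (five 2 367 371)))))))))))))))) (mv 398 (both (mv 400 (both (five 6 367 432) (mv 399 (both (five 5 367 431) (mv 369 (both (five 1 365 397) (mv 370 (both (five 2 366 367) (five 2 367 371))))))))) (both (mv 400 (both (five 6 367 432) (mv 462 (both (five 4 366 366) (mv 494 (both (five 6 397 493) (mv 397 (both (five 7 365 365) (mv 399 (both (five 5 366 367) (five 1 365 369))))))))))) (mv 366 (both (five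 4 366 462) (mv 334 (both (five 4 334 431) (mv 301 (both (five 7 301 333) (mv 302 (both (five 7 269 269) (mv 303 (both (five 5 270 271) (five 5 302 335))))))))))))))))))) (mv 430 (both (mv 465 (both (mv 494 (both (five 2 462 466) (mv 493 (both (five 2 461 462) (five 1 460 492))))) (both (mv 429 (both (five 3 429 462) (mv 431 (both (five 0 428 428) (five 0 429 432))))) (mv 466 (both (five 3 430 431) (five 2 462 494)))))) (both (mv 431 (both (mv 429 (both (five 0 428 428) (mv 465 (both (five 3 429 462) (five 3 430 466))))) (mv 399 (both (five 5 367 400) (mv 366 (both (five 7 366 398) (mv 367 (both (five 7 334 334) (five 5 335 336))))))))) (both (mv 398 (both (mv 400 (both (five 6 367 432) (mv 399 (both (five 5 367 431) (mv 369 (both (five 1 365 397) (mv 370 (both (five 2 366 367) (five 2 367 371))))))))) (both (mv 400 (both (five 6 367 432) (mv 462 (both (five 4 366 366) (mv 494 (both (five 6 397 493) (mv 397 (both (five 7 365 365) (mv 399 (both (five 5 366 367) (five 1 365 369))))))))))) (mv 366 (both (five 4 366 462) (mv 334 (both (five 4 334 431) (mv 301 (both (five 7 301 333) (mv 302 (both (five 7 269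 269) (mv 303 (both (five 5 270 271) (five 5 302 335)))))))))))))) (both (mv 465 (both (mv 466 (both (five 2 462 494) (mv 435 (both (five 1 431 434) (mv 467 (both (five 1 432 436) (mv 499 (both (five 0 463 498) (five 0 464 500))))))))) (both (mv 400 (both (five 6 367 432) (mv 462 (both (five 3 429 429) (mv 398 (both (five 4 366 366) (mv 494 (both (five 6 397 493) (mv 397 (both (five 7 365 365) (mv 399 (both (five 5 366 367) (five 1 365 369))))))))))))) (mv 400 (both (five 6 367 432) (mv 462 (both (five 3 429 429) (mv 434 (both (five 1 430 433) (mv 466 (both (five 1 431 435) (mv 498 (both (five 0 462 497) (five 0 463 499)))))))))))))) (mv 431 (both (mv 429 (both (five 0 428 428) (mv 465 (both (five 0 429 432) (five 3 430 466))))) (mv 399 (both (five 5 367 400) (mv 366 (both (five 7 366 398) (mv 367 (both (five 7 334 334) (five 5 335 336)))))))))))))))))))))) (both (mv 465 (both (mv 466 (both (five 2 462 494) (mv 435 (both (five 1 431 434) (mv 467 (both (five 1 432 436) (mv 499 (both (five 0 463 498) (five 0 464 500))))))))) (both (mv 433 (both (five 5 432 496) (mv 434 (both (five 1 430 462) (mv 435 (both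 (five 2 431 432) (five 2 432 436))))))) (mv 433 (both (five 5 432 496) (mv 466 (both (five 2 462 494) (mv 498 (both (five 0 463 499) (mv 401 (both (five 4 369 369) (mv 497 (both (five 0 462 462) (five 4 401 530)))))))))))))) (both (mv 431 (both (five 7 431 496) (mv 399 (both (mv 366 (both (five 7 366 398) (mv 367 (both (five 7 334 334) (mv 368 (both (five 5 335 336) (five 5 367 400))))))) (both (mv 366 (both (five 7 366 398) (mv 367 (both (five 7 334 334) (mv 335 (both (five 4 335 432) (mv 462 (both (five 6 334 430) (five 6 366 494))))))))) (both (mv 368 (both (five 5 367 400) (mv 367 (both (five 5 335 336) (mv 335 (both (five 4 335 432) (mv 462 (both (five 6 334 430) (five 6 366 494))))))))) (mv 398 (both (five 7 366 366) (mv 397 (both (mv 396 (both (five 0 396 432) (mv 363 (both (five 3 363 364) (mv 395 (both (five 3 362 362) (five 0 395 430))))))) (both (mv 400 (both (five 5 367 368) (mv 364 (both (five 3 364 365) (mv 396 (both (five 3 363 363) (mv 428 (both (five 2 395 427) (five 2 396 429))))))))) (both (mv 400 (both (five 5 367 368) (mv 364 (both (five 3 364 365) (mv 428 (both (five 2 396 429) (mv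 433 (both (five 0 397 432) (mv 401 (both (five 0 398 434) (mv 370 (both (five 1 366 369) (mv 402 (both (five 1 367 371) (five 2 398 430))))))))))))))) (mv 368 (both (five 5 367 400) (mv 396 (both (five 0 396 432) (mv 395 (both (five 0 395 430) (mv 427 (both (five 2 394 426) (five 2 395 428))))))))))))))))))))) (both (mv 496 (both (five 7 431 431) (mv 498 (both (mv 497 (both (five 3 462 462) (five 3 463 499))) (both (mv 465 (both (five 5 432 433) (mv 466 (both (five 2 463 467) (five 0 463 499))))) (mv 433 (both (five 5 432 465) (mv 401 (both (five 5 400 432) (mv 497 (both (five 3 462 462) (mv 466 (both (five 1 463 467) (mv 530 (both (five 7 401 434) (five 0 495 531)))))))))))))))) (both (mv 496 (both (five 7 431 431) (mv 465 (both (five 5 432 433) (mv 466 (both (five 2 462 494) (five 2 463 467))))))) (mv 431 (both (five 7 431 496) (mv 399 (both (mv 366 (both (five 7 366 398) (mv 367 (both (five 7 334 334) (mv 368 (both (five 5 335 336) (five 5 367 400))))))) (both (mv 366 (both (five 7 366 398) (mv 367 (both (five 7 334 334) (mv 335 (both (five 4 335 432) (mv 462 (both (five 6 334 430) (five 6 366 494)))))))))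 (both (mv 368 (both (five 5 367 400) (mv 367 (both (five 5 335 336) (mv 335 (both (five 4 335 432) (mv 462 (both (five 6 334 430) (five 6 366 494))))))))) (mv 429 (both (mv 398 (both (five 7 366 366) (mv 400 (both (five 5 367 368) (mv 397 (both (five 2 396 428) (mv 364 (both (five 3 364 365) (mv 396 (both (five 3 363 363) (five 0 396 432))))))))))) (both (mv 430 (both (five 0 428 428) (mv 465 (both (five 0 429 432) (five 3 429 462))))) (both (mv 398 (both (five 7 366 366) (mv 400 (both (five 5 367 368) (mv 401 (both (five 2 397 430) (mv 370 (both (five 1 366 369) (mv 402 (both (five 1 367 371) (mv 403 (both (five 2 399 432) (mv 435 (both (five 0 399 434) (five 0 400 436))))))))))))))) (mv 366 (both (five 7 366 398) (mv 368 (both (five 5 367 400) (mv 430 (both (five 0 428 428) (mv 465 (both (five 3 429 462) (five 3 430 466))))))))))))))))))))))))) (both (mv 559 (both (mv 561 (both (mv 562 (both (mv 595 (both (five 0 559 594) (mv 563 (both (five 0 560 596) (mv 531 (both (five 1 527 530) (five 1 528 532))))))) (both (mv 589 (both (mv 590 (both (five 2 557 558) (five 2 558 591))) (both (mv 557 (both (mv 558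 (both (five 3 524 524) (five 2 556 588))) (both (mv 621 (both (mv 652 (both (five 6 524 620) (mv 653 (both (five 6 556 684) (mv 654 (both (five 4 525 622) (five 4 557 686))))))) (both (mv 654 (both (five 4 525 622) (mv 653 (both (five 4 557 686) (mv 524 (both (five 7 524 556) (five 7 492 492))))))) (mv 492 (both (five 7 492 524) (mv 493 (both (five 7 460 460) (mv 620 (both (five 6 492 588) (five 6 524 652)))))))))) (both (mv 530 (both (five 1 527 531) (mv 588 (both (five 2 556 558) (mv 620 (both (five 6 492 493) (mv 652 (both (five 5 556 684) (five 5 524 556))))))))) (mv 524 (both (five 3 524 558) (mv 492 (both (five 7 492 621) (mv 460 (both (five 4 428 428) (five 4 460 556))))))))))) (mv 557 (both (mv 621 (both (mv 652 (both (five 6 524 620) (mv 653 (both (five 6 556 684) (mv 654 (both (five 4 525 622) (five 4 557 686))))))) (both (mv 654 (both (five 4 525 622) (mv 653 (both (five 4 557 686) (mv 524 (both (five 7 524 556) (five 7 492 492))))))) (mv 492 (both (five 7 492 524) (mv 493 (both (five 7 460 460) (mv 620 (both (five 6 492 588) (five 6 524 652)))))))))) (both (mv 621 (both (mv 652 (both (five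 6 524 620) (mv 653 (both (five 6 556 684) (mv 654 (both (five 4 525 622) (five 4 557 686))))))) (both (mv 654 (both (five 4 525 622) (mv 653 (both (five 4 557 686) (mv 524 (both (five 7 524 556) (five 7 492 492))))))) (both (mv 652 (both (five 6 524 620) (mv 653 (both (five 6 556 684) (mv 524 (both (five 7 524 556) (five 7 492 492))))))) (mv 492 (both (five 7 492 524) (mv 530 (both (five 1 527 531) (mv 590 (both (five 2 558 591) (mv 620 (both (five 6 524 652) (mv 619 (both (five 1 586 618) (mv 622 (both (five 4 525 654) (mv 587 (both (five 3 586 586) (mv 588 (both (five 0 587 623) (mv 554 (both (five 3 554 555) (mv 651 (both (five 2 618 650) (mv 683 (both (five 5 555 556) (five 5 587 715))))))))))))))))))))))))))) (both (mv 530 (both (five 1 527 531) (mv 590 (both (five 2 558 591) (mv 493 (both (five 4 493 622) (mv 494 (both (five 5 461 462) (mv 524 (both (five 2 492 496) (mv 523 (both (five 2 491 492) (five 1 490 522))))))))))))) (both (mv 530 (both (five 1 527 531) (mv 590 (both (five 2 558 591) (mv 622 (both (five 4 493 493) (mv 654 (both (five 7 557 686) (five 4 525 621))))))))) (mv 621 (both (mv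 530 (both (five 1 527 531) (mv 591 (both (five 2 558 590) (mv 652 (both (five 6 524 620) (mv 653 (both (five 6 556 684) (mv 654 (both (five 4 557 686) (mv 655 (both (five 5 527 623) (mv 688 (both (five 0 652 687) (mv 656 (both (five 0 653 689) (mv 625 (both (five 1 621 624) (mv 657 (both (five 6 560 593) (five 1 622 626))))))))))))))))))))) (both (mv 524 (both (five 7 492 492) (mv 653 (both (five 7 524 556) (mv 684 (both (five 6 556 652) (mv 685 (both (five 6 588 716) (mv 686 (both (five 4 557 654) (five 4 589 718))))))))))) (both (mv 524 (both (five 7 492 492) (mv 530 (both (five 1 527 531) (mv 591 (both (five 2 558 590) (mv 653 (both (five 7 524 556) (mv 654 (both (five 4 557 686) (mv 655 (both (five 5 527 623) (mv 620 (both (five 3 620 656) (mv 493 (both (five 6 492 588) (mv 494 (both (five 2 492 496) (five 5 461 462))))))))))))))))))) (mv 492 (both (five 7 492 524) (mv 493 (both (five 7 460 460) (mv 620 (both (five 6 492 588) (five 6 524 652))))))))))))))))))) (mv 590 (both (five 2 558 591) (mv 594 (both (five 0 559 595) (mv 558 (both (five 2 557 589) (five 0 558 593)))))))))) (both (mv 589 (both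 (mv 558 (both (five 2 557 590) (mv 557 (both (five 2 556 588) (five 3 524 524))))) (both (mv 493 (both (mv 557 (both (mv 620 (both (five 6 492 588) (mv 621 (both (five 6 524 652) (mv 622 (both (five 4 525 654) (five 4 493 590))))))) (mv 494 (both (five 5 461 462) (mv 524 (both (five 2 492 496) (mv 523 (both (five 1 490 522) (five 2 491 492))))))))) (both (mv 494 (both (mv 524 (both (five 2 492 496) (mv 523 (both (five 1 490 522) (five 2 491 492))))) (both (mv 496 (both (five 2 492 524) (mv 464 (both (five 6 463 591) (five 4 464 593))))) (mv 492 (both (five 1 460 464) (mv 491 (both (five 1 459 462) (mv 459 (both (five 3 458 458) (five 3 459 460)))))))))) (both (mv 557 (both (mv 622 (both (five 4 493 590) (mv 621 (both (five 4 525 654) (mv 492 (both (five 7 492 524) (five 7 460 460))))))) (both (mv 620 (both (five 6 492 588) (mv 621 (both (five 6 524 652) (mv 492 (both (five 7 492 524) (five 7 460 460))))))) (mv 588 (both (five 6 492 620) (mv 590 (both (five 4 493 622) (five 1 556 591)))))))) (both (mv 557 (both (mv 588 (both (five 6 492 620) (mv 590 (both (five 4 493 622) (five 1 556 591))))) (both (mv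 620 (both (five 6 492 588) (mv 621 (both (five 6 524 652) (mv 654 (both (five 4 525 622) (mv 653 (both (five 4 557 686) (mv 524 (both (five 7 524 556) (mv 494 (both (five 2 492 496) (five 5 461 462))))))))))))) (mv 494 (both (five 5 461 462) (mv 496 (both (five 2 492 524) (mv 464 (both (five 6 463 591) (five 4 464 593)))))))))) (mv 557 (both (mv 588 (both (five 6 492 620) (mv 590 (both (five 4 493 622) (five 1 556 591))))) (mv 492 (both (five 7 460 460) (mv 494 (both (five 5 461 462) (five 1 460 464)))))))))))) (both (mv 557 (both (mv 558 (both (five 2 556 588) (five 3 524 524))) (both (mv 621 (both (mv 652 (both (five 6 524 620) (mv 653 (both (five 6 556 684) (mv 654 (both (five 4 557 686) (five 4 525 622))))))) (both (mv 654 (both (five 4 525 622) (mv 653 (both (five 4 557 686) (mv 524 (both (five 7 524 556) (five 7 492 492))))))) (mv 620 (both (five 6 524 652) (mv 492 (both (five 7 492 524) (mv 493 (both (five 6 492 588) (five 7 460 460)))))))))) (both (mv 588 (both (five 2 556 558) (mv 620 (both (five 6 492 493) (mv 652 (both (five 5 556 684) (five 6 524 621))))))) (mv 524 (both (five 3 524 558) (mv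 621 (both (five 7 492 492) (mv 652 (both (five 6 524 620) (mv 653 (both (five 6 556 684) (mv 654 (both (five 4 557 686) (five 4 525 622))))))))))))))) (both (mv 590 (both (five 2 557 558) (mv 588 (both (five 1 556 591) (mv 587 (both (mv 618 (both (five 2 586 619) (mv 586 (both (five 2 585 617) (mv 554 (both (five 3 553 553) (five 3 554 555))))))) (both (mv 622 (both (five 0 587 623) (mv 586 (both (five 0 586 621) (mv 554 (both (five 3 553 553) (five 3 554 555))))))) (both (mv 618 (both (five 2 586 619) (mv 622 (both (five 0 587 623) (mv 586 (both (five 2 585 617) (five 0 586 621))))))) (mv 619 (both (five 2 586 618) (mv 556 (both (mv 651 (both (five 5 555 683) (mv 622 (both (five 0 587 623) (mv 555 (both (five 3 554 554) (mv 682 (both (five 6 554 650) (mv 652 (both (five 4 555 684) (mv 523 (both (five 4 523 620) (mv 490 (both (five 7 490 522) (mv 491 (both (five 7 458 458) (five 4 459 459))))))))))))))))) (both (mv 683 (both (five 5 555 651) (mv 524 (both (five 6 491 492) (mv 620 (both (five 5 492 493) (mv 653 (both (five 4 524 621) (mv 652 (both (five 4 556 685) (mv 684 (both (five 6 587 715) (five 7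 587 716))))))))))))) (both (mv 622 (both (five 0 587 623) (mv 555 (both (five 3 554 554) (mv 524 (both (five 6 491 492) (mv 620 (both (five 5 492 493) (mv 652 (both (five 7 555 684) (five 4 523 523))))))))))) (mv 651 (both (five 5 555 683) (mv 555 (both (five 3 554 554) (five 5 523 524))))))))))))))))))) (both (mv 557 (both (mv 524 (both (five 3 524 558) (mv 621 (both (five 7 492 492) (mv 652 (both (five 6 524 620) (mv 653 (both (five 6 556 684) (mv 654 (both (five 4 557 686) (five 4 525 622))))))))))) (both (mv 621 (both (mv 652 (both (five 6 524 620) (mv 653 (both (five 6 556 684) (mv 654 (both (five 4 557 686) (five 4 525 622))))))) (both (mv 652 (both (five 6 524 620) (mv 653 (both (five 6 556 684) (mv 524 (both (five 7 524 556) (five 7 492 492))))))) (both (mv 654 (both (five 4 525 622) (mv 653 (both (five 4 557 686) (mv 524 (both (five 7 524 556) (five 7 492 492))))))) (mv 652 (both (five 6 524 620) (mv 622 (both (five 4 525 654) (mv 492 (both (five 7 492 524) (mv 493 (both (five 4 493 590) (five 7 460 460))))))))))))) (both (mv 590 (both (five 2 557 558) (mv 622 (both (five 4 493 493) (mv 654 (both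 (five 7 557 686) (five 4 525 621))))))) (mv 558 (both (five 2 557 590) (five 3 524 524))))))) (mv 590 (both (five 2 557 558) (mv 622 (both (mv 588 (both (five 1 556 591) (mv 623 (both (five 0 587 587) (mv 624 (both (five 3 588 621) (five 3 589 625))))))) (both (mv 557 (both (five 4 493 493) (mv 654 (both (five 7 557 686) (five 4 525 621))))) (mv 588 (both (five 1 556 591) (mv 623 (both (five 0 587 587) (mv 625 (both (five 3 589 624) (mv 593 (both (five 7 528 657) (mv 493 (both (five 4 493 557) (mv 464 (both (five 4 464 496) (mv 494 (both (five 1 460 492) (mv 465 (both (five 2 461 462) (five 2 462 466)))))))))))))))))))))))))))) (both (mv 562 (both (mv 657 (both (mv 591 (both (five 2 558 590) (mv 655 (both (five 5 527 623) (mv 656 (both (mv 654 (both (mv 685 (both (five 2 653 686) (mv 653 (both (five 2 652 684) (mv 621 (both (five 3 620 620) (five 3 621 622))))))) (both (mv 689 (both (five 0 654 690) (mv 653 (both (five 0 653 688) (mv 621 (both (five 3 620 620) (five 3 621 622))))))) (mv 686 (both (five 2 653 685) (mv 690 (both (five 0 654 689) (mv 658 (both (five 2 654 687) (five 0 655 691)))))))))) (both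 (mv 625 (both (five 7 528 593) (mv 659 (both (mv 595 (both (five 0 559 594) (mv 563 (both (five 0 560 596) (mv 627 (both (five 7 530 530) (mv 658 (both (five 6 562 690) (five 1 624 628))))))))) (both (mv 595 (both (five 0 559 594) (mv 563 (both (five 0 560 596) (mv 627 (both (five 7 530 530) (mv 692 (both (five 4 563 660) (mv 691 (both (five 4 595 724) (mv 690 (both (five 6 594 722) (five 3 656 689))))))))))))) (mv 658 (both (mv 687 (both (five 2 654 686) (five 2 655 688))) (mv 692 (both (five 0 656 691) (mv 660 (both (five 0 657 693) (five 3 624 624)))))))))))) (both (mv 625 (both (five 7 528 593) (mv 654 (both (mv 685 (both (five 2 653 686) (mv 653 (both (five 2 652 684) (five 1 621 624))))) (both (mv 689 (both (five 0 654 690) (mv 721 (both (mv 752 (both (five 6 624 720) (mv 753 (both (five 6 656 784) (five 7 624 624))))) (both (mv 753 (both (five 7 624 624) (mv 754 (both (five 4 657 786) (five 4 625 722))))) (mv 720 (both (five 6 624 752) (mv 722 (both (five 4 625 754) (mv 686 (both (five 2 653 685) (mv 687 (both (five 3 686 719) (five 0 686 688)))))))))))))) (both (mv 689 (both (five 0 654 690) (mv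 653 (both (five 0 653 688) (five 1 621 624))))) (mv 685 (both (five 2 653 686) (mv 689 (both (five 0 654 690) (mv 653 (both (five 2 652 684) (five 0 653 688))))))))))))) (both (mv 686 (both (mv 685 (both (five 2 653 654) (mv 687 (both (five 1 652 684) (five 1 653 688))))) (both (mv 654 (both (five 2 653 685) (mv 621 (both (five 3 621 622) (mv 653 (both (five 3 620 620) (mv 625 (both (five 1 621 624) (five 7 528 593))))))))) (mv 658 (both (five 2 654 687) (mv 659 (both (mv 692 (both (five 0 656 691) (mv 660 (both (five 0 657 693) (mv 628 (both (five 1 624 627) (five 1 625 629))))))) (both (mv 625 (both (five 7 528 593) (mv 660 (both (five 3 624 624) (mv 628 (both (five 1 624 627) (five 1 625 629))))))) (both (mv 692 (both (five 0 656 691) (mv 660 (both (five 0 657 693) (mv 625 (both (five 3 624 624) (five 7 528 593))))))) (mv 691 (both (five 0 656 692) (mv 625 (both (five 7 528 593) (mv 627 (both (five 1 624 628) (mv 595 (both (five 7 562 594) (mv 596 (both (five 0 560 563) (five 5 563 564)))))))))))))))))))) (both (mv 654 (both (mv 686 (both (five 2 653 685) (mv 690 (both (five 0 654 689) (mv 658 (both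 (five 2 654 687) (five 0 655 691))))))) (mv 621 (both (five 3 621 622) (mv 653 (both (five 3 620 620) (mv 625 (both (five 1 621 624) (five 7 528 593))))))))) (mv 654 (both (mv 689 (both (five 0 654 690) (mv 653 (both (five 0 653 688) (mv 621 (both (five 3 620 620) (five 3 621 622))))))) (both (mv 621 (both (five 3 621 622) (mv 653 (both (five 3 620 620) (mv 625 (both (five 1 621 624) (five 7 528 593))))))) (both (mv 689 (both (five 0 654 690) (mv 653 (both (five 0 653 688) (mv 625 (both (five 1 621 624) (five 7 528 593))))))) (mv 690 (both (five 0 654 689) (mv 658 (both (five 0 655 691) (mv 621 (both (five 3 621 622) (mv 625 (both (five 4 561 593) (mv 595 (both (five 0 559 594) (mv 563 (both (five 0 560 596) (mv 659 (both (five 6 562 627) (mv 660 (both (five 3 624 624) (mv 693 (both (five 0 657 692) (mv 661 (both (five 0 658 694) (mv 629 (both (five 1 625 628) (five 1 626 630))))))))))))))))))))))))))))))))))))) (both (mv 594 (both (five 0 559 595) (mv 626 (both (mv 689 (both (five 6 561 658) (mv 625 (both (five 5 593 721) (five 6 529 530))))) (both (mv 658 (both (five 6 561 689) (mv 691 (both (five 4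 562 659) (mv 690 (both (five 4 594 723) (mv 692 (both (five 3 657 693) (mv 655 (both (five 0 655 656) (mv 591 (both (five 5 527 623) (five 2 558 590))))))))))))) (mv 625 (both (five 6 529 530) (mv 591 (both (five 2 558 590) (mv 655 (both (five 5 527 623) (mv 656 (both (five 1 622 654) (mv 627 (both (five 2 623 624) (five 2 624 628)))))))))))))))) (both (mv 591 (both (five 2 558 590) (mv 658 (both (mv 655 (both (five 5 527 623) (mv 656 (both (mv 686 (both (five 2 654 687) (mv 690 (both (five 0 655 691) (mv 654 (both (five 2 653 685) (five 0 654 689))))))) (both (mv 687 (both (five 2 654 686) (mv 659 (both (five 2 655 688) (mv 627 (both (five 1 623 626) (five 1 624 628))))))) (mv 691 (both (five 0 655 690) (mv 659 (both (five 0 656 692) (mv 627 (both (five 1 623 626) (five 1 624 628)))))))))))) (both (mv 594 (both (five 0 559 595) (mv 626 (both (five 6 561 689) (mv 690 (both (five 7 561 593) (mv 691 (both (five 4 594 723) (five 4 562 659))))))))) (both (mv 655 (both (five 5 527 623) (mv 594 (both (five 0 559 595) (mv 626 (both (five 6 561 689) (mv 690 (both (five 7 561 593) (mv 691 (both (five 4 594 723)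 (five 0 655 656))))))))))) (both (mv 659 (both (mv 623 (both (five 5 527 655) (mv 656 (both (five 3 623 624) (mv 692 (both (five 0 656 691) (mv 660 (both (five 0 657 693) (mv 628 (both (five 1 624 627) (five 1 625 629))))))))))) (both (mv 595 (both (five 0 559 594) (mv 563 (both (five 0 560 596) (mv 627 (both (five 6 562 690) (five 7 530 530))))))) (mv 623 (both (five 5 527 655) (mv 656 (both (five 3 623 624) (mv 688 (both (five 2 655 687) (mv 691 (both (five 0 656 692) (mv 660 (both (five 2 656 689) (mv 628 (both (five 1 625 629) (mv 755 (both (five 5 627 723) (mv 595 (both (five 0 559 594) (mv 596 (both (five 0 560 563) (five 6 563 564)))))))))))))))))))))) (both (mv 659 (both (mv 595 (both (five 0 559 594) (mv 563 (both (five 0 560 596) (mv 627 (both (five 6 562 690) (five 7 530 530))))))) (both (mv 623 (both (five 5 527 655) (mv 656 (both (five 3 623 624) (mv 692 (both (five 0 656 691) (mv 660 (both (five 0 657 693) (mv 628 (both (five 1 624 627) (five 1 625 629))))))))))) (mv 655 (both (five 5 527 623) (mv 594 (both (five 0 559 595) (mv 691 (both (five 4 562 626) (mv 656 (both (five 0 655 690) (five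 0 656 692)))))))))))) (both (mv 655 (both (five 5 527 623) (mv 594 (both (five 0 559 595) (mv 626 (both (five 6 561 689) (mv 656 (both (five 1 623 627) (mv 687 (both (five 2 654 686) (mv 659 (both (five 2 655 688) (five 4 562 691))))))))))))) (mv 655 (both (five 5 527 623) (mv 594 (both (five 0 559 595) (mv 626 (both (five 6 561 689) (mv 627 (both (five 1 623 656) (mv 628 (both (five 2 625 629) (mv 593 (both (five 7 561 690) (mv 530 (both (five 4 530 659) (mv 496 (both (five 6 463 464) (mv 498 (both (five 6 465 466) (mv 497 (both (five 3 462 462) (five 7 465 465)))))))))))))))))))))))))))))) (both (mv 625 (both (five 7 528 593) (mv 594 (both (five 0 559 595) (mv 626 (both (five 6 529 530) (mv 689 (both (five 5 593 721) (five 6 561 658))))))))) (both (mv 591 (both (five 2 558 590) (mv 655 (both (five 5 527 623) (mv 656 (both (mv 654 (both (mv 685 (both (five 2 653 686) (mv 653 (both (five 2 652 684) (mv 621 (both (five 3 620 620) (five 3 621 622))))))) (both (mv 689 (both (five 0 654 690) (mv 653 (both (five 0 653 688) (mv 621 (both (five 3 620 620) (five 3 621 622))))))) (mv 686 (both (five 2 653 685)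 (mv 690 (both (five 0 654 689) (mv 658 (both (five 2 654 687) (five 0 655 691)))))))))) (both (mv 658 (both (mv 691 (both (five 0 655 690) (mv 659 (both (five 0 656 692) (mv 627 (both (five 1 623 626) (five 1 624 628))))))) (both (mv 687 (both (five 2 654 686) (mv 659 (both (five 2 655 688) (mv 627 (both (five 1 623 626) (five 1 624 628))))))) (both (mv 686 (both (five 2 654 687) (mv 691 (both (five 0 655 690) (mv 659 (both (five 0 656 692) (mv 625 (both (five 7 528 593) (mv 660 (both (five 3 624 624) (mv 688 (both (five 2 656 689) (mv 752 (both (five 5 624 720) (mv 661 (both (five 3 625 626) (mv 629 (both (five 1 625 628) (five 1 626 630))))))))))))))))))) (both (mv 686 (both (five 2 654 687) (mv 691 (both (five 0 655 690) (mv 659 (both (five 0 656 692) (mv 625 (both (five 7 528 593) (mv 660 (both (five 3 624 624) (mv 628 (both (five 1 624 627) (five 1 625 629))))))))))))) (mv 687 (both (five 2 654 686) (mv 690 (both (five 0 655 691) (mv 625 (both (five 4 561 593) (mv 722 (both (five 7 625 754) (mv 626 (both (five 1 623 627) (mv 721 (both (five 6 625 753) (mv 723 (both (five 4 626 755) (mv 688 (both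 (five 3 687 720) (five 0 687 689)))))))))))))))))))))) (both (mv 625 (both (five 7 528 593) (mv 654 (both (five 1 622 626) (mv 685 (both (five 2 653 686) (mv 653 (both (five 2 652 684) (five 1 621 624))))))))) (mv 625 (both (five 7 528 593) (mv 654 (both (five 1 622 626) (mv 689 (both (five 0 654 690) (mv 653 (both (five 0 653 688) (five 1 621 624))))))))))))))))) (mv 625 (both (five 7 528 593) (mv 591 (both (five 2 558 590) (mv 655 (both (five 5 527 623) (mv 594 (both (five 0 559 595) (mv 626 (both (five 6 529 530) (mv 656 (both (five 1 622 654) (mv 627 (both (five 2 623 624) (five 2 624 628))))))))))))))))))))) (both (mv 595 (both (five 0 559 594) (mv 563 (both (five 0 560 596) (mv 531 (both (five 1 527 530) (five 1 528 532))))))) (both (mv 466 (both (mv 591 (both (five 2 558 590) (mv 464 (both (five 6 463 496) (mv 465 (both (five 2 462 494) (mv 435 (both (five 1 431 434) (mv 467 (both (five 1 432 436) (mv 499 (both (five 0 463 498) (five 0 464 500))))))))))))) (both (mv 530 (both (five 1 527 531) (mv 498 (both (five 6 465 593) (mv 433 (both (five 7 433 465) (mv 434 (both (five 7 401 401) (mv 435 (both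 (five 5 434 467) (five 5 402 403))))))))))) (both (mv 530 (both (five 1 527 531) (mv 498 (both (five 6 465 593) (mv 467 (both (five 5 434 435) (mv 496 (both (five 1 463 497) (mv 591 (both (five 6 463 464) (five 2 558 590))))))))))) (both (mv 531 (both (five 1 527 530) (mv 532 (both (five 1 528 563) (mv 591 (both (five 2 558 590) (mv 464 (both (five 6 463 496) (mv 465 (both (five 2 462 494) (mv 435 (both (five 1 431 434) (mv 467 (both (five 1 432 436) (mv 499 (both (five 0 464 500) (five 4 435 564))))))))))))))))) (both (mv 530 (both (five 1 527 531) (mv 498 (both (five 6 465 593) (mv 433 (both (five 7 433 465) (mv 434 (both (five 7 401 401) (mv 435 (both (five 5 402 403) (mv 464 (both (five 2 431 432) (mv 591 (both (five 6 463 496) (five 2 558 590))))))))))))))) (mv 530 (both (five 1 527 531) (mv 498 (both (five 6 465 593) (mv 433 (both (five 7 433 465) (mv 401 (both (five 7 401 434) (mv 591 (both (five 2 558 590) (mv 496 (both (five 6 463 464) (mv 497 (both (five 3 462 462) (five 1 463 467))))))))))))))))))))) (both (mv 466 (both (mv 595 (both (five 0 559 594) (mv 563 (both (five 0 560 596) (mv 531 (both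 (five 1 528 532) (mv 499 (both (five 7 466 498) (mv 467 (both (five 7 434 434) (mv 468 (both (five 5 435 436) (five 5 467 500))))))))))))) (both (mv 591 (both (five 2 558 590) (mv 464 (both (five 6 463 496) (mv 465 (both (five 2 462 494) (mv 434 (both (five 1 431 435) (mv 462 (both (five 1 430 433) (mv 498 (both (five 0 462 497) (five 0 463 499))))))))))))) (both (mv 591 (both (five 2 558 590) (mv 464 (both (five 6 463 496) (mv 465 (both (five 2 462 494) (mv 499 (both (five 0 463 498) (mv 467 (both (five 0 464 500) (mv 436 (both (five 1 432 435) (mv 468 (both (five 1 433 437) (mv 432 (both (five 3 432 433) (mv 563 (both (five 5 435 531) (mv 595 (both (five 0 559 594) (five 0 560 596))))))))))))))))))))) (mv 591 (both (five 2 558 590) (mv 464 (both (five 6 463 496) (mv 465 (both (five 2 462 494) (mv 434 (both (five 1 431 435) (mv 433 (both (five 1 430 462) (mv 595 (both (five 0 559 594) (mv 563 (both (five 0 560 596) (mv 532 (both (five 1 528 531) (mv 564 (both (five 1 529 533) (mv 468 (both (five 6 467 500) (mv 467 (both (five 3 432 432) (five 3 433 469))))))))))))))))))))))))))) (mv 465 (both (mv 530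 (both (five 1 527 531) (mv 594 (both (five 0 559 595) (mv 498 (both (five 7 465 497) (mv 466 (both (five 7 433 433) (mv 467 (both (five 5 466 499) (five 5 434 435))))))))))) (both (mv 591 (both (five 2 558 590) (mv 464 (both (five 6 463 496) (mv 494 (both (five 2 462 466) (mv 493 (both (five 2 461 462) (five 1 460 492))))))))) (mv 530 (both (five 1 527 531) (mv 591 (both (five 2 558 590) (mv 464 (both (five 6 463 496) (mv 594 (both (five 0 559 595) (mv 498 (both (five 7 465 497) (mv 467 (both (five 5 466 499) (mv 623 (both (five 5 527 655) (mv 625 (both (five 6 497 593) (mv 626 (both (five 6 529 657) (mv 659 (both (five 4 530 627) (mv 658 (both (five 0 623 624) (five 4 562 691))))))))))))))))))))))))))))))) (both (mv 464 (both (mv 465 (both (mv 466 (both (five 2 462 494) (mv 435 (both (five 1 431 434) (mv 467 (both (five 1 432 436) (mv 499 (both (five 0 463 498) (five 0 464 500))))))))) (both (mv 433 (both (five 5 432 496) (mv 434 (both (five 1 430 462) (mv 435 (both (five 2 431 432) (five 2 432 436))))))) (mv 433 (both (five 5 432 496) (mv 466 (both (five 2 462 494) (mv 498 (both (five 0 463 499) (mv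 401 (both (five 4 369 369) (mv 497 (both (five 0 462 462) (five 4 401 530)))))))))))))) (both (mv 562 (both (mv 595 (both (five 0 559 594) (mv 563 (both (five 0 560 596) (mv 531 (both (five 1 527 530) (five 1 528 532))))))) (both (mv 594 (both (five 0 559 595) (mv 558 (both (five 0 558 593) (mv 589 (both (five 2 557 590) (mv 557 (both (five 2 556 588) (five 3 524 524))))))))) (mv 466 (both (mv 465 (both (five 2 462 494) (mv 498 (both (five 0 463 499) (mv 530 (both (five 7 433 433) (five 1 527 531))))))) (both (mv 530 (both (five 1 527 531) (mv 498 (both (five 6 465 593) (mv 435 (both (five 5 434 467) (mv 434 (both (five 5 402 403) (mv 433 (both (five 7 401 401) (five 2 431 432))))))))))) (both (mv 465 (both (five 2 462 494) (mv 435 (both (five 1 431 434) (mv 467 (both (five 1 432 436) (mv 499 (both (five 0 463 498) (five 0 464 500))))))))) (mv 465 (both (five 2 462 494) (mv 434 (both (five 1 431 435) (mv 433 (both (five 1 430 462) (mv 531 (both (five 1 527 530) (mv 563 (both (five 1 528 532) (mv 467 (both (five 7 434 499) (mv 468 (both (five 3 432 432) (five 3 433 469)))))))))))))))))))))) (mv 593 (both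 (five 4 464 496) (mv 558 (both (five 0 558 594) (mv 589 (both (five 2 557 590) (mv 557 (both (five 2 556 588) (five 3 524 524)))))))))))) (both (mv 590 (both (mv 562 (both (five 2 558 591) (mv 595 (both (five 0 559 594) (mv 563 (both (five 0 560 596) (mv 531 (both (five 1 527 530) (five 1 528 532))))))))) (mv 589 (both (five 2 557 558) (mv 557 (both (mv 622 (both (five 4 493 493) (mv 654 (both (five 7 557 686) (five 4 525 621))))) (both (mv 621 (both (mv 652 (both (five 6 524 620) (mv 653 (both (five 6 556 684) (mv 654 (both (five 4 525 622) (five 4 557 686))))))) (both (mv 652 (both (five 6 524 620) (mv 653 (both (five 6 556 684) (mv 524 (both (five 7 524 556) (five 7 492 492))))))) (both (mv 654 (both (five 4 525 622) (mv 653 (both (five 4 557 686) (mv 524 (both (five 7 524 556) (five 7 492 492))))))) (mv 620 (both (five 6 524 652) (mv 619 (both (five 1 586 618) (mv 622 (both (five 4 525 654) (mv 587 (both (five 3 586 586) (mv 588 (both (five 0 587 623) (mv 554 (both (five 3 554 555) (mv 651 (both (five 2 618 650) (mv 683 (both (five 5 555 556) (five 5 587 715))))))))))))))))))))) (both (mv 621 (both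 (mv 652 (both (five 6 524 620) (mv 653 (both (five 6 556 684) (mv 524 (both (five 7 524 556) (five 7 492 492))))))) (both (mv 653 (both (mv 652 (both (five 6 556 684) (five 6 524 620))) (both (mv 684 (both (five 6 556 652) (mv 685 (both (five 6 588 716) (mv 686 (both (five 4 589 718) (five 4 557 654))))))) (mv 686 (both (five 4 557 654) (mv 685 (both (five 4 589 718) (mv 588 (both (five 7 556 556) (mv 620 (both (five 7 588 717) (five 6 492 493)))))))))))) (mv 492 (both (five 7 492 524) (mv 493 (both (five 7 460 460) (mv 494 (both (five 5 461 462) (five 1 460 464)))))))))) (mv 493 (both (five 4 493 622) (mv 492 (both (five 7 460 460) (mv 494 (both (five 5 461 462) (five 1 460 464))))))))))))))) (both (mv 562 (both (mv 595 (both (five 0 559 594) (mv 563 (both (five 0 560 596) (mv 531 (both (five 1 527 530) (five 1 528 532))))))) (both (mv 496 (both (mv 464 (both (five 6 463 591) (five 4 464 593))) (both (mv 498 (both (mv 594 (both (five 0 559 595) (mv 593 (both (five 0 558 558) (mv 530 (both (five 6 465 466) (five 6 497 625))))))) (both (mv 497 (both (five 3 462 462) (mv 466 (both (five 1 463 467) (mv 465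 (both (five 1 462 494) (mv 433 (both (five 6 400 401) (five 7 433 530))))))))) (both (mv 462 (both (five 3 462 497) (mv 594 (both (five 0 559 595) (mv 593 (both (five 0 558 558) (mv 625 (both (five 6 497 530) (five 7 528 657))))))))) (mv 497 (both (five 3 462 462) (mv 466 (both (five 1 463 467) (mv 494 (both (five 1 462 465) (mv 524 (both (five 2 492 493) (mv 558 (both (five 3 524 557) (mv 594 (both (five 0 558 593) (five 0 559 595))))))))))))))))) (mv 464 (both (five 6 463 591) (mv 465 (both (five 5 432 433) (mv 466 (both (five 2 462 494) (five 2 463 467)))))))))) (both (mv 464 (both (mv 496 (both (five 6 463 591) (five 4 464 593))) (both (mv 494 (both (mv 465 (both (five 2 462 466) (mv 493 (both (five 2 461 462) (five 1 460 492))))) (both (mv 493 (both (five 1 460 492) (mv 594 (both (five 0 559 595) (mv 558 (both (five 0 558 593) (mv 557 (both (five 3 524 524) (mv 589 (both (five 5 461 462) (five 2 556 588))))))))))) (mv 466 (both (five 2 462 465) (mv 595 (both (five 0 559 594) (mv 563 (both (five 0 560 596) (mv 531 (both (five 1 528 532) (mv 499 (both (five 7 466 498) (mv 467 (both (five 7 434 434)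 (mv 468 (both (five 5 435 436) (five 5 467 500)))))))))))))))))) (mv 496 (both (five 6 463 591) (mv 465 (both (five 5 432 433) (mv 466 (both (five 2 462 494) (five 2 463 467)))))))))) (mv 464 (both (mv 496 (both (five 6 463 591) (five 4 464 593))) (both (mv 466 (both (mv 465 (both (five 2 462 494) (mv 498 (both (five 0 463 499) (mv 530 (both (five 7 433 433) (five 1 527 531))))))) (both (mv 530 (both (five 1 527 531) (mv 498 (both (five 6 465 593) (mv 435 (both (five 5 434 467) (mv 434 (both (five 5 402 403) (mv 433 (both (five 7 401 401) (five 2 431 432))))))))))) (both (mv 465 (both (five 2 462 494) (mv 435 (both (five 1 431 434) (mv 467 (both (five 1 432 436) (mv 499 (both (five 0 463 498) (five 0 464 500))))))))) (mv 465 (both (five 2 462 494) (mv 434 (both (five 1 431 435) (mv 433 (both (five 1 430 462) (mv 531 (both (five 1 527 530) (mv 563 (both (five 1 528 532) (mv 467 (both (five 7 434 499) (mv 468 (both (five 3 432 432) (five 3 433 469))))))))))))))))))) (mv 496 (both (five 6 463 591) (mv 465 (both (five 5 432 433) (mv 466 (both (five 2 462 494) (five 2 463 467)))))))))))))) (both (mv 496 (both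 (mv 464 (both (five 6 463 591) (five 4 464 593))) (both (mv 498 (both (mv 497 (both (five 3 462 462) (mv 467 (both (five 1 463 466) (mv 499 (both (five 1 464 468) (mv 531 (both (five 0 495 530) (five 0 496 532))))))))) (both (mv 562 (both (mv 595 (both (five 0 559 594) (mv 563 (both (five 0 560 596) (mv 531 (both (five 1 527 530) (five 1 528 532))))))) (both (mv 590 (both (five 2 558 591) (mv 594 (both (five 0 559 595) (mv 558 (both (five 2 557 589) (five 0 558 593))))))) (mv 530 (both (five 1 527 531) (mv 466 (both (five 6 465 593) (mv 433 (both (five 7 433 465) (mv 434 (both (five 7 401 401) (mv 435 (both (five 5 434 467) (five 5 402 403)))))))))))))) (both (mv 558 (both (mv 589 (both (five 2 557 590) (mv 557 (both (five 2 556 588) (five 3 524 524))))) (both (mv 590 (both (five 2 557 589) (mv 594 (both (five 0 558 593) (mv 562 (both (five 2 558 591) (five 0 559 595))))))) (mv 497 (both (five 3 462 462) (mv 467 (both (five 1 463 466) (mv 499 (both (five 1 464 468) (mv 524 (both (five 3 524 557) (mv 531 (both (five 0 496 532) (mv 594 (both (five 0 558 593) (mv 562 (both (five 6 466 563) (five 0 559 595))))))))))))))))))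 (both (mv 558 (both (mv 589 (both (five 2 557 590) (mv 557 (both (five 2 556 588) (five 3 524 524))))) (both (mv 590 (both (five 2 557 589) (mv 594 (both (five 0 558 593) (mv 562 (both (five 2 558 591) (five 0 559 595))))))) (mv 497 (both (five 3 462 462) (mv 467 (both (five 1 463 466) (mv 499 (both (five 1 464 468) (mv 524 (both (five 3 524 557) (mv 594 (both (five 0 558 593) (mv 562 (both (five 5 466 530) (five 0 559 595)))))))))))))))) (mv 497 (both (five 3 462 462) (mv 531 (both (five 0 495 530) (mv 532 (both (five 0 496 499) (mv 562 (both (five 1 528 563) (mv 590 (both (five 2 558 591) (mv 594 (both (five 0 559 595) (mv 558 (both (five 2 557 589) (five 0 558 593)))))))))))))))))))) (both (mv 464 (both (five 4 464 593) (mv 498 (both (mv 497 (both (five 3 462 462) (five 3 463 499))) (both (mv 465 (both (five 5 432 433) (mv 466 (both (five 2 463 467) (five 0 463 499))))) (mv 433 (both (five 5 432 465) (mv 401 (both (five 5 400 432) (mv 497 (both (five 3 462 462) (mv 466 (both (five 1 463 467) (mv 530 (both (five 7 401 434) (five 0 495 531)))))))))))))))) (mv 464 (both (five 6 463 591) (mv 498 (both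 (mv 497 (both (five 3 462 462) (five 3 463 499))) (both (mv 465 (both (five 5 432 433) (mv 466 (both (five 2 463 467) (five 0 463 499))))) (mv 433 (both (five 5 432 465) (mv 401 (both (five 5 400 432) (mv 497 (both (five 3 462 462) (mv 466 (both (five 1 463 467) (mv 530 (both (five 7 401 434) (five 0 495 531)))))))))))))))))))) (mv 562 (both (mv 595 (both (five 0 559 594) (mv 563 (both (five 0 560 596) (mv 531 (both (five 1 527 530) (five 1 528 532))))))) (both (mv 590 (both (five 2 558 591) (mv 594 (both (five 0 559 595) (mv 558 (both (five 2 557 589) (five 0 558 593))))))) (mv 591 (both (five 2 558 590) (mv 466 (both (mv 464 (both (five 6 463 496) (mv 465 (both (five 2 462 494) (mv 498 (both (five 0 463 499) (mv 530 (both (five 7 433 433) (five 1 527 531))))))))) (both (mv 530 (both (five 1 527 531) (mv 498 (both (five 6 465 593) (mv 433 (both (five 7 433 465) (mv 434 (both (five 7 401 401) (mv 435 (both (five 5 434 467) (five 5 402 403))))))))))) (both (mv 464 (both (five 6 463 496) (mv 465 (both (five 2 462 494) (mv 435 (both (five 1 431 434) (mv 467 (both (five 1 432 436) (mv 499 (both (five 0 463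 498) (five 0 464 500))))))))))) (both (mv 464 (both (five 6 463 496) (mv 530 (both (five 1 527 531) (mv 498 (both (five 6 465 593) (mv 435 (both (five 5 434 467) (mv 434 (both (five 5 402 403) (mv 433 (both (five 7 401 401) (five 2 431 432))))))))))))) (mv 464 (both (five 6 463 496) (mv 465 (both (five 2 462 494) (mv 435 (both (five 1 431 434) (mv 467 (both (five 1 432 436) (mv 499 (both (five 0 464 500) (mv 531 (both (five 6 434 530) (mv 532 (both (five 1 528 563) (five 4 435 564))))))))))))))))))))))))))))))))) (both (mv 527 (both (mv 558 (both (five 6 462 590) (mv 557 (both (five 1 524 556) (five 3 524 524))))) (mv 462 (both (five 7 430 430) (mv 591 (both (five 7 462 494) (mv 623 (both (five 5 527 655) (five 5 495 496))))))))) (both (mv 527 (both (mv 558 (both (five 6 462 590) (mv 557 (both (five 1 524 556) (five 3 524 524))))) (mv 464 (both (five 5 431 432) (mv 465 (both (mv 494 (both (five 2 462 466) (mv 493 (both (five 2 461 462) (five 1 460 492))))) (both (mv 433 (both (five 5 432 496) (mv 462 (both (five 7 430 430) (five 1 430 434))))) (mv 466 (both (five 2 462 494) (mv 435 (both (five 1 431 434)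 (mv 467 (both (five 1 432 436) (mv 499 (both (five 0 463 498) (five 0 464 500)))))))))))))))) (both (mv 527 (both (mv 558 (both (five 6 462 590) (mv 557 (both (five 1 524 556) (five 3 524 524))))) (both (mv 462 (both (five 7 430 430) (mv 591 (both (five 7 462 494) (mv 622 (both (five 6 494 590) (mv 623 (both (five 6 526 654) (five 5 527 655))))))))) (mv 432 (both (five 5 431 464) (mv 462 (both (five 7 430 430) (mv 494 (both (five 7 462 591) (mv 493 (both (five 0 492 492) (mv 557 (both (five 5 461 589) (mv 558 (both (five 1 524 556) (five 3 524 524)))))))))))))))) (both (mv 464 (both (mv 496 (both (five 6 463 591) (mv 432 (both (five 6 431 527) (mv 433 (both (five 5 432 465) (five 5 400 401))))))) (both (mv 527 (both (five 5 431 432) (mv 462 (both (five 7 430 430) (mv 591 (both (five 7 462 494) (mv 622 (both (five 6 494 590) (mv 623 (both (five 6 526 654) (five 5 527 655))))))))))) (both (mv 496 (both (five 6 463 591) (mv 465 (both (five 5 432 433) (mv 466 (both (five 2 462 494) (five 2 463 467))))))) (mv 465 (both (mv 466 (both (five 2 462 494) (mv 435 (both (five 1 431 434) (mv 467 (both (five 1 432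 436) (mv 499 (both (five 0 463 498) (five 0 464 500))))))))) (both (mv 433 (both (five 5 432 496) (mv 434 (both (five 1 430 462) (mv 435 (both (five 2 431 432) (five 2 432 436))))))) (mv 433 (both (five 5 432 496) (mv 466 (both (five 2 462 494) (mv 498 (both (five 0 463 499) (mv 401 (both (five 4 369 369) (mv 497 (both (five 0 462 462) (five 4 401 530)))))))))))))))))) (both (mv 464 (both (mv 527 (both (five 5 431 432) (mv 558 (both (five 6 462 590) (mv 557 (both (five 1 524 556) (five 3 524 524))))))) (mv 496 (both (five 6 463 591) (mv 465 (both (five 5 432 433) (mv 466 (both (five 2 462 494) (five 2 463 467))))))))) (both (mv 464 (both (mv 496 (both (five 6 463 591) (mv 432 (both (five 6 431 527) (mv 433 (both (five 5 432 465) (five 5 400 401))))))) (both (mv 527 (both (five 5 431 432) (mv 462 (both (five 7 430 430) (mv 494 (both (five 7 462 591) (mv 493 (both (five 0 492 492) (mv 557 (both (five 5 461 589) (mv 558 (both (five 1 524 556) (five 3 524 524))))))))))))) (both (mv 496 (both (five 6 463 591) (mv 465 (both (five 5 432 433) (mv 466 (both (five 2 462 494) (five 2 463 467))))))) (mv 465 (both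 (mv 466 (both (five 2 462 494) (mv 435 (both (five 1 431 434) (mv 467 (both (five 1 432 436) (mv 499 (both (five 0 463 498) (five 0 464 500))))))))) (both (mv 433 (both (five 5 432 496) (mv 434 (both (five 1 430 462) (mv 435 (both (five 2 431 432) (five 2 432 436))))))) (mv 433 (both (five 5 432 496) (mv 466 (both (five 2 462 494) (mv 498 (both (five 0 463 499) (mv 401 (both (five 4 369 369) (mv 497 (both (five 0 462 462) (five 4 401 530)))))))))))))))))) (mv 527 (both (mv 558 (both (five 6 462 590) (mv 557 (both (five 1 524 556) (five 3 524 524))))) (mv 430 (both (five 7 430 462) (mv 464 (both (five 5 431 432) (mv 496 (both (five 5 463 591) (mv 465 (both (five 5 432 433) (mv 466 (both (five 2 463 467) (mv 434 (both (five 1 431 435) (mv 498 (both (five 0 463 499) (mv 561 (both (five 4 464 593) (mv 562 (both (five 3 527 563) (mv 530 (both (five 1 527 531) (mv 594 (both (five 7 465 497) (five 0 559 595))))))))))))))))))))))))))))))))) (both (mv 527 (both (five 4 431 431) (mv 559 (both (mv 558 (both (five 6 462 590) (mv 557 (both (five 1 524 556) (five 3 524 524))))) (both (mv 462 (both (five 7 430 430)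 (mv 591 (both (five 7 462 494) (mv 622 (both (five 6 494 590) (mv 623 (both (five 6 526 654) (five 5 527 655))))))))) (mv 462 (both (five 7 430 430) (mv 494 (both (five 7 462 591) (mv 493 (both (five 0 492 492) (mv 557 (both (five 5 461 589) (mv 558 (both (five 1 524 556) (five 3 524 524)))))))))))))))) (mv 431 (both (five 4 431 527) (mv 496 (both (five 4 399 399) (five 7 431 464))))))))

theorem L50 : W (S 3773962425810072215402655836442417039422554021729101585103612343137272675186219925748393377820953435636820021332679018651109037066256611123558670227502274650486480044032) (S 508729128840439495337917451639502725278115434571719751635907472874115236445629142473288479330192879890431732264411706294493657788034853745350839439485832242268052911662956214454966466353675930950487753730300912400663711713625624465637376) :=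
  check_sound Env.nil (x := 463) (t := tL50) (by decide +kernel)

end P062.Cert
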