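import Vale.Agent.P062.Check
import Vale.Agent.P062.Cert.C6

/-! Snaky certificate, part 7 (machine generated, checked by the kernel) -/

set_option maxRecDepth 100000

namespace P062.Cert

open T

def tL51 : T :=
  (both (mv 592 (both (ref 0) (both (mv 496 (both (five 7 463 463) (mv 593 (both (five 4 496 625) (mv 464 (both (five 4 464 561) (mv 465 (both (five 5 464 497) (five 5 432 433))))))))) (mv 496 (both (five 7 463 463) (mv 591 (both (five 6 495 623) (mv 464 (both (five 6 463 559) (mv 465 (both (five 5 464 497) (five 5 432 433)))))))))))) (both (mv 557 (both (mv 559 (both (mv 527 (both (mv 592 (both (five 7 495 624) (five 4 463 463))) (both (mv 463 (both (five 4 431 431) (mv 462 (both (five 7 430 430) (mv 591 (both (five 7 462 494) (mv 622 (both (five 6 494 590) (mv 623 (both (five 6 526 654) (five 5 527 655))))))))))) (mv 591 (both (mv 622 (both (five 6 494 590) (mv 623 (both (five 6 526 654) (five 5 527 655))))) (both (mv 592 (both (five 4 495 624) (mv 590 (both (five 6 494 622) (mv 593 (both (mv 626 (both (five 0 590 625) (mv 594 (both (five 0 591 627) (five 3 559 595))))) (both (mv 625 (both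 (five 0 590 626) (mv 657 (both (five 7 560 689) (five 7 528 561))))) (mv 594 (both (five 3 559 595) (mv 562 (both (five 1 558 561) (five 1 559 563)))))))))))) (mv 623 (both (five 5 527 655) (mv 624 (both (five 4 527 656) (five 4 495 592))))))))))) (both (mv 558 (both (five 3 524 524) (mv 592 (both (five 0 557 593) (mv 624 (both (mv 655 (both (five 6 527 623) (mv 656 (both (five 6 559 687) (mv 657 (both (five 4 560 689) (five 4 528 625))))))) (both (mv 657 (both (five 4 528 625) (mv 656 (both (five 4 560 689) (mv 591 (both (five 7 559 688) (five 0 556 556))))))) (both (mv 655 (both (five 6 527 623) (mv 656 (both (five 6 559 687) (mv 591 (both (five 7 559 688) (five 0 556 556))))))) (mv 623 (both (five 6 527 655) (mv 625 (both (five 4 528 657) (mv 591 (both (five 0 556 556) (mv 626 (both (five 3 591 627) (five 3 590 590))))))))))))))))) (both (mv 558 (both (five 3 524 524) (mv 527 (both (five 1 524 556) (mv 590 (both (five 6 462 463) (mv 622 (both (five 5 526 654) (five 6 494 591))))))))) (mv 558 (both (five 3 524 524) (mv 592 (both (five 0 557 593) (mv 624 (both (five 7 495 527) (mv 655 (both (five 6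 527 623) (mv 656 (both (five 6 559 687) (mv 657 (both (five 4 560 689) (five 4 528 625))))))))))))))))) (both (mv 589 (both (mv 621 (both (mv 652 (both (five 6 524 620) (mv 653 (both (five 6 556 684) (mv 654 (both (five 4 557 686) (five 4 525 622))))))) (both (mv 654 (both (five 4 525 622) (mv 653 (both (five 4 557 686) (mv 524 (both (five 7 524 556) (five 7 492 492))))))) (mv 620 (both (five 6 524 652) (mv 492 (both (five 7 492 524) (mv 493 (both (five 6 492 588) (five 7 460 460)))))))))) (both (mv 621 (both (mv 652 (both (five 6 524 620) (mv 653 (both (five 6 556 684) (mv 654 (both (five 4 557 686) (five 4 525 622))))))) (both (mv 652 (both (five 6 524 620) (mv 653 (both (five 6 556 684) (mv 524 (both (five 7 524 556) (five 7 492 492))))))) (both (mv 654 (both (five 4 525 622) (mv 653 (both (five 4 557 686) (mv 524 (both (five 7 524 556) (five 7 492 492))))))) (mv 588 (both (mv 622 (both (five 4 525 654) (mv 623 (both (five 3 588 624) (mv 587 (both (five 0 586 586) (five 0 587 590))))))) (both (mv 620 (both (five 6 524 652) (mv 558 (both (five 2 556 559) (mv 586 (both (five 1 554 587) (mv 524 (both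 (five 7 492 492) (mv 523 (both (five 0 522 522) (mv 556 (both (five 7 491 491) (mv 619 (both (five 6 523 651) (mv 618 (both (five 1 585 617) (five 3 585 585))))))))))))))))) (mv 654 (both (five 4 525 622) (mv 620 (both (five 6 524 652) (mv 558 (both (five 2 556 559) (mv 524 (both (five 7 492 492) (mv 523 (both (five 0 522 522) (mv 556 (both (five 7 491 491) (mv 619 (both (five 6 523 651) (mv 618 (both (five 1 585 617) (five 1 586 590)))))))))))))))))))))))) (both (mv 588 (both (mv 620 (both (five 6 492 493) (mv 652 (both (five 5 556 684) (five 5 524 556))))) (both (mv 558 (both (five 2 556 559) (mv 556 (both (mv 555 (both (mv 554 (both (five 0 554 590) (five 0 553 553))) (mv 620 (both (five 5 524 652) (mv 523 (both (five 3 522 522) (mv 491 (both (five 7 491 524) (five 4 459 459))))))))) (both (mv 555 (both (mv 554 (both (five 0 554 590) (five 0 553 553))) (mv 587 (both (five 1 554 586) (mv 523 (both (five 3 522 522) (mv 491 (both (five 4 459 459) (mv 490 (both (five 7 458 458) (mv 492 (both (five 5 459 460) (mv 524 (both (five 5 491 619) (five 0 489 489))))))))))))))) (both (mv 524 (both (mv 587 (both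 (five 1 554 586) (mv 492 (both (five 6 491 619) (five 4 460 460))))) (mv 620 (both (five 5 524 652) (mv 523 (both (five 0 522 522) (five 7 491 491))))))) (mv 587 (both (five 1 554 586) (mv 590 (both (mv 622 (both (five 7 525 654) (five 0 587 623))) (mv 652 (both (five 5 524 620) (mv 619 (both (five 2 586 618) (mv 651 (both (five 5 555 683) (mv 555 (both (five 4 555 684) (five 3 554 554))))))))))))))))))) (both (mv 590 (both (mv 622 (both (five 4 493 493) (mv 654 (both (five 7 557 686) (five 7 525 558))))) (both (mv 622 (both (five 4 493 493) (mv 686 (both (five 7 557 654) (mv 623 (both (five 0 587 587) (mv 624 (both (five 3 589 625) (mv 592 (both (five 6 527 655) (five 7 495 527))))))))))) (both (mv 492 (both (mv 493 (both (five 7 460 460) (mv 494 (both (five 0 492 527) (five 5 461 462))))) (mv 558 (both (five 2 556 559) (mv 587 (both (five 1 554 586) (mv 619 (both (five 2 586 618) (mv 555 (both (five 3 554 554) (mv 524 (both (five 6 491 556) (five 5 491 523))))))))))))) (mv 558 (both (five 2 556 559) (mv 622 (both (five 7 525 654) (mv 623 (both (five 0 587 587) (mv 624 (both (five 3 589 625) (mv 592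 (both (five 6 527 655) (five 7 495 527))))))))))))))) (mv 558 (both (five 2 556 559) (mv 586 (both (five 1 554 587) (mv 493 (both (five 6 492 620) (mv 492 (both (five 7 460 460) (mv 494 (both (five 0 492 527) (five 5 461 462))))))))))))))) (both (mv 493 (both (mv 492 (both (five 7 460 460) (mv 494 (both (five 0 492 527) (five 5 461 462))))) (mv 620 (both (five 6 492 588) (mv 621 (both (five 6 524 652) (mv 622 (both (five 4 525 654) (five 4 493 590))))))))) (both (mv 621 (both (mv 652 (both (five 6 524 620) (mv 653 (both (five 6 556 684) (mv 654 (both (five 4 557 686) (five 4 525 622))))))) (both (mv 654 (both (five 4 525 622) (mv 653 (both (five 4 557 686) (mv 684 (both (five 6 556 652) (mv 685 (both (five 6 588 716) (mv 556 (both (five 7 556 588) (five 7 524 524))))))))))) (both (mv 652 (both (five 6 524 620) (mv 653 (both (five 6 556 684) (mv 686 (both (five 4 557 654) (mv 685 (both (five 4 589 718) (mv 556 (both (five 7 556 588) (five 7 524 524))))))))))) (both (mv 652 (both (five 6 524 620) (mv 653 (both (five 6 556 684) (mv 556 (both (five 7 524 524) (mv 685 (both (five 7 556 588) (mv 718 (both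 (five 4 589 686) (mv 717 (both (five 4 621 750) (mv 590 (both (five 5 589 622) (five 5 557 558))))))))))))))) (mv 622 (both (five 4 525 654) (mv 588 (both (mv 623 (both (five 3 588 624) (mv 587 (both (five 0 586 586) (five 0 587 590))))) (both (mv 493 (both (five 6 492 620) (five 4 493 590))) (mv 623 (both (five 3 588 624) (mv 587 (both (five 3 587 620) (five 0 586 586))))))))))))))) (both (mv 621 (both (mv 653 (both (mv 652 (both (five 6 556 684) (five 6 524 620))) (both (mv 684 (both (five 6 556 652) (mv 685 (both (five 6 588 716) (mv 686 (both (five 4 589 718) (five 4 557 654))))))) (mv 686 (both (five 4 557 654) (mv 685 (both (five 4 589 718) (mv 588 (both (five 7 556 556) (mv 620 (both (five 7 588 717) (five 6 492 493)))))))))))) (both (mv 524 (both (five 7 492 492) (mv 653 (both (five 7 524 556) (mv 686 (both (five 4 557 654) (mv 685 (both (five 4 589 718) (mv 558 (both (five 5 557 590) (five 3 524 559))))))))))) (mv 620 (both (five 6 524 652) (mv 492 (both (five 7 492 524) (mv 493 (both (five 6 492 588) (five 7 460 460)))))))))) (both (mv 621 (both (mv 653 (both (mv 654 (both (five 4 557 686)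 (five 4 525 622))) (both (mv 684 (both (five 6 556 652) (mv 685 (both (five 6 588 716) (mv 718 (both (five 4 589 686) (mv 717 (both (five 4 621 750) (mv 590 (both (five 5 589 622) (five 5 557 558))))))))))) (both (mv 684 (both (five 6 556 652) (mv 685 (both (five 6 588 716) (mv 686 (both (five 4 589 718) (five 4 557 654))))))) (mv 684 (both (five 6 556 652) (mv 685 (both (five 6 588 716) (mv 622 (both (five 4 525 654) (mv 590 (both (five 5 589 717) (five 5 557 558))))))))))))) (both (mv 524 (both (five 7 492 492) (mv 653 (both (five 7 524 556) (mv 684 (both (five 6 556 652) (mv 685 (both (five 6 588 716) (mv 686 (both (five 4 589 718) (five 4 557 654))))))))))) (both (mv 524 (both (five 7 492 492) (mv 653 (both (five 7 524 556) (mv 684 (both (five 6 556 652) (mv 685 (both (five 6 588 716) (mv 718 (both (five 4 589 686) (mv 717 (both (five 4 621 750) (mv 590 (both (five 5 589 622) (five 5 557 558))))))))))))))) (mv 622 (both (five 4 525 654) (mv 492 (both (five 7 492 524) (mv 493 (both (five 4 493 590) (five 7 460 460))))))))))) (both (mv 493 (both (mv 492 (both (five 7 460 460) (mv 494 (both (five 0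 492 527) (five 5 461 462))))) (both (mv 622 (both (five 4 493 590) (mv 621 (both (five 4 525 654) (mv 588 (both (five 6 492 620) (mv 624 (both (five 3 588 623) (mv 586 (both (five 0 586 587) (mv 559 (both (five 2 556 558) (mv 527 (both (five 7 495 592) (mv 462 (both (five 5 461 494) (mv 463 (both (five 7 430 430) (five 4 431 431))))))))))))))))))) (mv 622 (both (five 4 493 590) (mv 621 (both (five 4 525 654) (mv 492 (both (five 7 492 524) (five 7 460 460)))))))))) (mv 621 (both (mv 620 (both (five 6 524 652) (mv 493 (both (five 6 492 588) (mv 492 (both (five 7 460 460) (mv 494 (both (five 0 492 527) (five 5 461 462))))))))) (both (mv 652 (both (five 6 524 620) (mv 653 (both (five 6 556 684) (mv 556 (both (five 7 524 524) (mv 685 (both (five 7 556 588) (mv 718 (both (five 4 589 686) (mv 717 (both (five 4 621 750) (mv 590 (both (five 5 589 622) (five 5 557 558))))))))))))))) (mv 492 (both (five 7 492 524) (mv 493 (both (five 7 460 460) (mv 494 (both (five 0 492 527) (five 5 461 462))))))))))))))))))) (both (mv 559 (both (mv 527 (both (mv 592 (both (five 7 495 624) (five 4 463 463))) (both (mv 463 (both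 (five 4 431 431) (mv 462 (both (five 7 430 430) (mv 494 (both (five 7 462 591) (mv 493 (both (five 5 461 589) (five 0 492 492))))))))) (mv 623 (both (mv 624 (both (five 7 495 592) (mv 591 (both (five 5 527 655) (five 4 527 656))))) (both (mv 591 (both (five 5 527 655) (mv 620 (both (mv 494 (both (five 7 462 462) (mv 493 (both (five 0 492 492) (mv 588 (both (five 6 492 589) (mv 556 (both (five 5 524 652) (five 5 492 524))))))))) (both (mv 622 (both (five 6 526 654) (mv 621 (both (five 1 588 592) (mv 652 (both (five 2 619 651) (five 6 524 589))))))) (both (mv 622 (both (five 6 526 654) (mv 621 (both (five 1 588 592) (mv 652 (both (five 2 619 651) (mv 588 (both (five 3 587 587) (five 5 524 556))))))))) (mv 622 (both (five 6 526 654) (mv 621 (both (five 1 588 592) (mv 587 (both (five 3 587 588) (mv 619 (both (five 3 586 586) (mv 650 (both (five 2 618 651) (mv 649 (both (five 2 617 618) (mv 494 (both (five 7 462 462) (mv 492 (both (five 0 492 493) (mv 524 (both (five 7 492 589) (mv 555 (both (five 5 491 523) (mv 460 (both (five 6 459 556) (five 4 428 428))))))))))))))))))))))))))))) (both (mv 621 (both (mv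 589 (both (mv 492 (both (five 7 492 524) (mv 493 (both (five 0 492 494) (five 7 460 460))))) (mv 652 (both (five 6 524 620) (mv 653 (both (five 6 556 684) (mv 654 (both (five 4 557 686) (five 4 525 622))))))))) (both (mv 624 (both (five 7 495 592) (mv 622 (both (mv 657 (both (five 0 621 656) (mv 625 (both (five 0 622 658) (mv 593 (both (five 1 590 594) (five 7 528 561))))))) (mv 652 (both (five 2 620 653) (mv 620 (both (five 2 619 651) (mv 588 (both (five 3 587 587) (five 5 524 556))))))))))) (both (mv 589 (both (mv 492 (both (five 7 492 524) (mv 493 (both (five 0 492 494) (five 7 460 460))))) (mv 652 (both (five 6 524 620) (mv 653 (both (five 6 556 684) (mv 654 (both (five 4 557 686) (mv 624 (both (five 1 620 655) (five 7 495 592))))))))))) (both (mv 589 (both (mv 492 (both (five 7 492 524) (mv 493 (both (five 0 492 494) (five 7 460 460))))) (mv 654 (both (five 4 525 622) (mv 653 (both (five 4 557 686) (mv 652 (both (five 6 556 684) (mv 624 (both (five 1 620 655) (five 7 495 592))))))))))) (mv 589 (both (mv 492 (both (five 7 492 524) (mv 493 (both (five 0 492 494) (five 7 460 460))))) (mv 622 (both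 (five 4 525 654) (mv 588 (both (five 3 588 624) (mv 587 (both (five 3 587 620) (five 0 586 586)))))))))))))) (both (mv 492 (both (mv 493 (both (five 0 492 494) (mv 589 (both (five 7 460 460) (mv 620 (both (five 6 492 588) (mv 621 (both (five 6 524 652) (five 7 492 524))))))))) (both (mv 621 (both (mv 591 (both (five 5 527 655) (mv 622 (both (five 6 526 654) (mv 624 (both (five 4 527 656) (mv 652 (both (five 2 620 653) (mv 620 (both (five 2 619 651) (mv 588 (both (five 3 587 587) (five 5 524 556))))))))))))) (both (mv 589 (both (five 7 492 524) (mv 652 (both (five 6 524 620) (mv 653 (both (five 6 556 684) (mv 654 (both (five 4 557 686) (five 4 525 622))))))))) (both (mv 655 (both (five 5 527 591) (mv 589 (both (five 7 492 524) (mv 652 (both (five 6 524 620) (mv 653 (both (five 6 556 684) (mv 654 (both (five 4 557 686) (five 1 620 624))))))))))) (both (mv 655 (both (five 5 527 591) (mv 589 (both (five 7 492 524) (mv 620 (both (five 6 524 652) (mv 622 (both (five 0 620 656) (mv 588 (both (five 3 588 624) (five 3 587 587))))))))))) (both (mv 655 (both (five 5 527 591) (mv 589 (both (five 7 492 524) (mv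 654 (both (five 4 525 622) (mv 653 (both (five 4 557 686) (mv 652 (both (five 6 556 684) (five 1 620 624))))))))))) (mv 655 (both (five 5 527 591) (mv 589 (both (five 7 492 524) (mv 622 (both (five 4 525 654) (mv 588 (both (five 3 588 624) (mv 587 (both (five 3 587 620) (five 0 586 586))))))))))))))))) (mv 591 (both (five 5 527 655) (mv 494 (both (five 0 492 493) (five 7 462 462)))))))) (mv 622 (both (mv 591 (both (five 6 526 654) (mv 620 (both (mv 621 (both (five 1 588 592) (mv 652 (both (five 2 619 651) (five 6 524 589))))) (both (mv 494 (both (five 7 462 462) (mv 493 (both (five 0 492 492) (mv 588 (both (five 6 492 589) (mv 556 (both (five 5 524 652) (five 5 492 524))))))))) (both (mv 621 (both (five 1 588 592) (mv 587 (both (five 3 587 588) (mv 619 (both (five 3 586 586) (mv 650 (both (five 2 618 651) (mv 649 (both (five 2 617 618) (mv 494 (both (five 7 462 462) (mv 492 (both (five 0 492 493) (mv 524 (both (five 7 492 589) (mv 555 (both (five 5 491 523) (mv 460 (both (five 6 459 556) (five 4 428 428))))))))))))))))))))) (mv 621 (both (five 1 588 592) (mv 652 (both (five 2 619 651) (mv 588 (both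 (five 3 587 587) (five 5 524 556))))))))))))) (both (mv 621 (both (mv 589 (both (five 4 525 654) (mv 652 (both (five 6 524 620) (mv 653 (both (five 6 556 684) (mv 524 (both (five 7 524 556) (five 7 492 492))))))))) (both (mv 624 (both (mv 657 (both (five 0 621 656) (mv 625 (both (five 0 622 658) (mv 593 (both (five 1 589 592) (five 1 590 594))))))) (mv 652 (both (five 2 620 653) (mv 620 (both (five 2 619 651) (mv 588 (both (five 3 587 587) (five 5 524 556))))))))) (mv 654 (both (five 4 525 589) (mv 624 (both (five 7 495 592) (mv 657 (both (five 0 621 656) (mv 625 (both (five 0 622 658) (mv 593 (both (five 1 590 594) (five 7 528 561)))))))))))))) (both (mv 654 (both (five 6 526 591) (mv 624 (both (mv 625 (both (five 2 621 653) (mv 657 (both (five 0 622 658) (mv 593 (both (five 1 590 594) (five 7 528 561))))))) (both (mv 621 (both (five 4 525 589) (mv 657 (both (five 0 621 656) (mv 625 (both (five 0 622 658) (mv 593 (both (five 1 590 594) (five 7 528 561))))))))) (mv 621 (both (five 4 525 589) (mv 652 (both (five 2 620 653) (mv 620 (both (five 2 619 651) (mv 588 (both (five 3 587 587) (five 5 524 556))))))))))))))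 (both (mv 624 (both (five 7 495 592) (mv 656 (both (five 4 527 591) (mv 657 (both (five 0 621 621) (mv 658 (both (five 3 623 659) (five 0 622 625))))))))) (mv 654 (both (five 6 526 591) (mv 624 (both (five 7 495 592) (mv 625 (both (five 2 621 653) (mv 657 (both (five 0 622 658) (mv 593 (both (five 1 590 594) (five 7 528 561)))))))))))))))))))))))) (both (mv 558 (both (five 3 524 524) (mv 588 (both (five 2 556 589) (mv 592 (both (five 0 557 593) (mv 556 (both (five 2 555 587) (five 0 556 591))))))))) (both (mv 527 (both (mv 592 (both (five 7 495 624) (five 4 463 463))) (both (mv 463 (both (five 4 431 431) (mv 462 (both (five 7 430 430) (mv 494 (both (five 7 462 591) (mv 493 (both (five 5 461 589) (five 0 492 492))))))))) (mv 592 (both (five 7 495 624) (mv 558 (both (five 0 557 593) (mv 588 (both (five 2 556 589) (mv 556 (both (five 2 555 587) (five 0 556 591)))))))))))) (both (mv 558 (both (five 3 524 524) (mv 588 (both (five 2 556 589) (mv 556 (both (five 2 555 587) (five 1 524 527))))))) (both (mv 558 (both (five 3 524 524) (mv 592 (both (five 0 557 593) (mv 556 (both (five 0 556 591) (five 1 524 527)))))))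 (mv 558 (both (five 3 524 524) (mv 588 (both (five 2 556 589) (mv 592 (both (five 0 557 593) (mv 527 (both (five 7 495 624) (five 4 463 463))))))))))))))) (both (mv 589 (both (mv 621 (both (mv 620 (both (five 6 524 652) (mv 493 (both (five 6 492 588) (mv 492 (both (five 7 460 460) (mv 494 (both (five 0 492 527) (five 5 461 462))))))))) (both (mv 492 (both (five 7 492 524) (mv 493 (both (five 7 460 460) (mv 494 (both (five 0 492 527) (five 5 461 462))))))) (mv 652 (both (five 6 524 620) (mv 653 (both (five 6 556 684) (mv 686 (both (five 4 557 654) (mv 685 (both (five 4 589 718) (mv 556 (both (five 7 556 588) (five 7 524 524)))))))))))))) (both (mv 621 (both (mv 652 (both (five 6 524 620) (mv 653 (both (five 6 556 684) (mv 524 (both (five 7 524 556) (five 7 492 492))))))) (both (mv 592 (both (mv 624 (both (five 7 495 527) (mv 655 (both (five 6 527 623) (mv 656 (both (five 6 559 687) (mv 657 (both (five 4 560 689) (five 4 528 625))))))))) (both (mv 652 (both (five 6 524 620) (mv 653 (both (five 6 556 684) (mv 686 (both (five 4 557 654) (mv 685 (both (five 4 589 718) (mv 687 (both (five 3 652 688) (mv 650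 (both (five 0 650 651) (mv 590 (both (five 5 557 558) (mv 591 (both (five 3 556 556) (five 1 557 561))))))))))))))))) (mv 652 (both (five 6 524 620) (mv 684 (both (five 6 556 653) (mv 527 (both (five 7 495 624) (mv 463 (both (five 4 463 559) (five 4 431 431)))))))))))) (mv 492 (both (five 7 492 524) (mv 493 (both (five 7 460 460) (mv 494 (both (five 0 492 527) (five 5 461 462)))))))))) (both (mv 524 (both (mv 621 (both (five 7 492 492) (mv 652 (both (five 6 524 620) (mv 653 (both (five 6 556 684) (five 7 524 556))))))) (both (mv 588 (both (mv 556 (both (mv 620 (both (five 5 524 652) (mv 619 (both (five 6 523 651) (mv 491 (both (five 7 491 523) (mv 492 (both (five 6 491 587) (five 7 459 459))))))))) (both (mv 492 (both (five 4 460 460) (mv 587 (both (five 6 491 619) (mv 586 (both (five 1 553 585) (mv 617 (both (five 2 585 618) (mv 554 (both (five 3 553 553) (mv 590 (both (five 3 554 555) (mv 591 (both (five 3 556 592) (five 1 556 559))))))))))))))) (mv 620 (both (five 5 524 652) (mv 523 (both (five 7 491 491) (mv 522 (both (five 0 521 521) (mv 554 (both (five 2 521 553) (mv 590 (both (five 0 554 555)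 (mv 591 (both (five 3 556 592) (five 1 556 559)))))))))))))))) (both (mv 559 (both (five 2 556 558) (mv 527 (both (mv 592 (both (five 7 495 624) (five 4 463 463))) (both (mv 591 (both (five 1 556 590) (mv 462 (both (five 7 462 494) (mv 463 (both (five 7 430 430) (five 4 431 431))))))) (mv 624 (both (five 7 495 592) (mv 591 (both (five 1 556 590) (mv 623 (both (five 5 527 655) (five 4 527 656)))))))))))) (mv 556 (both (mv 492 (both (five 4 460 460) (mv 587 (both (five 6 491 619) (mv 586 (both (five 1 553 585) (five 1 554 558))))))) (both (mv 620 (both (five 5 524 652) (mv 619 (both (five 6 523 651) (mv 491 (both (five 7 491 523) (mv 492 (both (five 6 491 587) (five 7 459 459))))))))) (mv 620 (both (five 5 524 652) (mv 523 (both (five 7 491 491) (mv 522 (both (five 0 522 558) (five 0 521 521))))))))))))) (both (mv 556 (both (mv 592 (both (mv 527 (both (five 7 495 624) (mv 463 (both (five 4 463 559) (five 4 431 431))))) (mv 621 (both (five 7 524 653) (mv 620 (both (five 6 524 652) (mv 590 (both (five 2 588 591) (mv 619 (both (five 1 586 618) (mv 651 (both (five 6 523 588) (mv 555 (both (five 5 523 587)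 (five 0 554 554))))))))))))))) (both (mv 523 (both (mv 522 (both (five 0 522 558) (five 0 521 521))) (mv 621 (both (five 7 524 653) (mv 620 (both (five 6 524 652) (mv 588 (both (five 7 491 491) (mv 619 (both (five 6 523 651) (mv 618 (both (five 1 585 617) (five 1 586 590))))))))))))) (both (mv 555 (both (mv 554 (both (five 0 554 590) (five 1 521 553))) (mv 558 (both (five 3 524 559) (mv 587 (both (five 2 554 586) (mv 619 (both (five 5 523 651) (mv 523 (both (five 3 522 522) (mv 650 (both (five 6 522 618) (mv 620 (both (five 4 523 652) (mv 491 (both (five 4 491 588) (mv 458 (both (five 7 458 490) (mv 459 (both (five 7 426 426) (five 4 427 427))))))))))))))))))))) (both (mv 592 (both (mv 624 (both (five 7 495 527) (mv 655 (both (five 6 527 623) (mv 656 (both (five 6 559 687) (mv 657 (both (five 4 560 689) (five 4 528 625))))))))) (mv 621 (both (five 7 524 653) (mv 620 (both (five 6 524 652) (mv 590 (both (five 2 588 591) (mv 619 (both (five 1 586 618) (mv 555 (both (five 0 554 554) (mv 587 (both (five 5 523 651) (mv 558 (both (five 2 554 586) (five 3 524 559))))))))))))))))) (both (mv 621 (both (five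 7 524 653) (mv 620 (both (five 6 524 652) (mv 558 (both (five 3 524 559) (mv 523 (both (five 0 522 522) (mv 588 (both (five 7 491 491) (mv 619 (both (five 6 523 651) (mv 618 (both (five 1 585 617) (mv 586 (both (five 3 585 585) (five 1 554 587))))))))))))))))) (both (mv 555 (both (mv 554 (both (five 0 554 590) (five 1 521 553))) (both (mv 653 (both (five 7 524 621) (mv 558 (both (five 3 524 559) (mv 587 (both (five 2 554 586) (mv 619 (both (five 5 523 651) (mv 590 (both (five 0 555 591) (mv 618 (both (five 2 586 588) (mv 523 (both (five 6 522 650) (five 3 522 522))))))))))))))) (mv 554 (both (five 1 521 553) (mv 522 (both (five 3 521 521) (mv 523 (both (five 3 522 558) (mv 490 (both (five 3 489 489) (mv 587 (both (five 7 490 619) (five 4 458 458)))))))))))))) (mv 592 (both (mv 624 (both (five 7 495 527) (mv 655 (both (five 6 527 623) (mv 656 (both (five 6 559 687) (mv 657 (both (five 4 560 689) (five 4 528 625))))))))) (mv 621 (both (five 7 524 653) (mv 620 (both (five 6 524 652) (mv 590 (both (five 2 588 591) (mv 555 (both (five 0 554 554) (mv 558 (both (five 3 524 559) (mv 587 (both (five 2 554 586)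 (mv 523 (both (five 3 522 522) (mv 491 (both (five 4 491 588) (mv 458 (both (five 7 458 490) (mv 459 (both (five 7 426 426) (five 4 427 427)))))))))))))))))))))))))))))) (both (mv 621 (both (five 7 492 492) (mv 652 (both (five 6 524 620) (mv 653 (both (five 6 556 684) (mv 686 (both (five 4 557 654) (mv 685 (both (five 4 589 718) (mv 558 (both (five 5 557 590) (five 3 524 559))))))))))))) (mv 621 (both (five 7 492 492) (mv 653 (both (five 7 524 556) (mv 686 (both (five 4 557 654) (mv 685 (both (five 4 589 718) (mv 558 (both (five 5 557 590) (five 3 524 559)))))))))))))))) (both (mv 588 (both (mv 620 (both (five 6 492 493) (mv 652 (both (five 5 556 684) (five 6 524 621))))) (mv 559 (both (five 2 556 558) (mv 527 (both (mv 592 (both (five 7 495 624) (five 4 463 463))) (both (mv 591 (both (five 1 556 590) (mv 462 (both (five 7 462 494) (mv 463 (both (five 7 430 430) (five 4 431 431))))))) (mv 624 (both (five 7 495 592) (mv 591 (both (five 1 556 590) (mv 623 (both (five 5 527 655) (five 4 527 656)))))))))))))) (both (mv 621 (both (mv 652 (both (five 6 524 620) (mv 653 (both (five 6 556 684) (mv 686 (both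 (five 4 557 654) (mv 685 (both (five 4 589 718) (mv 687 (both (five 3 652 688) (mv 650 (both (five 0 650 651) (mv 588 (both (five 7 556 556) (mv 558 (both (five 5 557 590) (five 2 556 559))))))))))))))))) (both (mv 524 (both (five 7 492 492) (mv 653 (both (five 7 524 556) (mv 686 (both (five 4 557 654) (mv 685 (both (five 4 589 718) (mv 558 (both (five 5 557 590) (five 3 524 559))))))))))) (mv 620 (both (five 6 524 652) (mv 492 (both (five 7 492 524) (mv 493 (both (five 6 492 588) (five 7 460 460)))))))))) (both (mv 588 (both (mv 620 (both (five 6 492 493) (mv 652 (both (five 5 556 684) (five 5 524 556))))) (mv 559 (both (five 2 556 558) (mv 527 (both (mv 592 (both (five 7 495 624) (five 4 463 463))) (both (mv 591 (both (five 1 556 590) (mv 462 (both (five 7 462 494) (mv 463 (both (five 7 430 430) (five 4 431 431))))))) (mv 624 (both (five 7 495 592) (mv 591 (both (five 1 556 590) (mv 623 (both (five 5 527 655) (five 4 527 656)))))))))))))) (mv 559 (both (mv 558 (both (five 2 556 588) (five 3 524 524))) (both (mv 527 (both (mv 592 (both (five 7 495 624) (five 4 463 463))) (both (mv 463 (both (five 4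 431 431) (mv 462 (both (five 7 430 430) (mv 494 (both (five 7 462 591) (five 5 461 493))))))) (mv 591 (both (mv 623 (both (five 5 527 655) (mv 624 (both (five 4 527 656) (five 4 495 592))))) (mv 494 (both (five 7 462 462) (mv 492 (both (five 0 492 493) (mv 524 (both (five 7 492 621) (mv 460 (both (five 4 460 556) (five 4 428 428)))))))))))))) (mv 588 (both (five 2 556 558) (mv 527 (both (mv 592 (both (five 7 495 624) (five 4 463 463))) (both (mv 591 (both (five 1 556 590) (mv 462 (both (five 7 462 494) (mv 463 (both (five 7 430 430) (five 4 431 431))))))) (mv 624 (both (five 7 495 592) (mv 591 (both (five 1 556 590) (mv 623 (both (five 5 527 655) (five 4 527 656)))))))))))))))))))))) (both (mv 589 (both (mv 621 (both (mv 652 (both (five 6 524 620) (mv 653 (both (five 6 556 684) (mv 654 (both (five 4 557 686) (five 4 525 622))))))) (both (mv 654 (both (five 4 525 622) (mv 653 (both (five 4 557 686) (mv 524 (both (five 7 524 556) (five 7 492 492))))))) (mv 620 (both (five 6 524 652) (mv 492 (both (five 7 492 524) (mv 493 (both (five 6 492 588) (five 7 460 460)))))))))) (both (mv 493 (both (mv 590 (both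 (five 4 493 622) (mv 492 (both (five 7 460 460) (mv 494 (both (five 5 461 462) (mv 523 (both (five 2 491 524) (mv 491 (both (five 2 490 522) (mv 458 (both (five 3 458 459) (mv 490 (both (five 3 457 457) (mv 555 (both (five 7 458 587) (mv 556 (both (five 0 554 554) (mv 591 (both (five 3 556 592) (five 0 555 558))))))))))))))))))))) (both (mv 588 (both (five 6 492 620) (mv 558 (both (five 2 556 559) (mv 586 (both (five 1 554 587) (mv 492 (both (five 7 460 460) (mv 494 (both (five 5 461 462) (mv 523 (both (five 2 491 524) (mv 491 (both (five 2 490 522) (mv 459 (both (five 3 458 458) (mv 555 (both (five 6 458 554) (five 4 459 556))))))))))))))))))) (both (mv 588 (both (five 6 492 620) (mv 590 (both (five 4 493 622) (mv 559 (both (five 1 556 591) (five 2 556 558))))))) (mv 588 (both (five 6 492 620) (mv 590 (both (five 4 493 622) (mv 591 (both (five 1 556 559) (mv 556 (both (five 3 556 592) (five 3 555 555))))))))))))) (both (mv 621 (both (mv 652 (both (five 6 524 620) (mv 653 (both (five 6 556 684) (mv 654 (both (five 4 557 686) (five 4 525 622))))))) (both (mv 652 (both (five 6 524 620) (mv 653 (both (five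 6 556 684) (mv 524 (both (five 7 524 556) (five 7 492 492))))))) (both (mv 654 (both (five 4 525 622) (mv 653 (both (five 4 557 686) (mv 524 (both (five 7 524 556) (five 7 492 492))))))) (mv 588 (both (mv 622 (both (five 4 525 654) (mv 623 (both (five 3 588 624) (mv 587 (both (five 0 586 586) (five 0 587 590))))))) (both (mv 620 (both (five 6 524 652) (mv 558 (both (five 2 556 559) (mv 586 (both (five 1 554 587) (mv 524 (both (five 7 492 492) (mv 523 (both (five 0 522 522) (mv 556 (both (five 7 491 491) (mv 619 (both (five 6 523 651) (mv 618 (both (five 1 585 617) (five 3 585 585))))))))))))))))) (mv 654 (both (five 4 525 622) (mv 620 (both (five 6 524 652) (mv 558 (both (five 2 556 559) (mv 524 (both (five 7 492 492) (mv 523 (both (five 0 522 522) (mv 556 (both (five 7 491 491) (mv 619 (both (five 6 523 651) (mv 618 (both (five 1 585 617) (five 1 586 590)))))))))))))))))))))))) (both (mv 588 (both (mv 559 (both (five 2 556 558) (mv 590 (both (five 1 556 591) (mv 622 (both (five 4 493 493) (mv 654 (both (five 7 557 686) (five 4 525 621))))))))) (both (mv 621 (both (mv 622 (both (five 4 525 654) (mv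 623 (both (five 3 588 624) (mv 587 (both (five 0 586 586) (five 0 587 590))))))) (both (mv 652 (both (five 6 524 620) (mv 653 (both (five 6 556 684) (mv 685 (both (five 7 556 556) (mv 686 (both (five 4 589 718) (five 4 557 654))))))))) (mv 652 (both (five 6 524 620) (mv 653 (both (five 6 556 684) (mv 685 (both (five 7 556 556) (mv 558 (both (five 5 557 590) (five 2 556 559)))))))))))) (mv 620 (both (five 6 492 493) (mv 652 (both (five 5 556 684) (five 5 524 556)))))))) (both (mv 621 (both (mv 653 (both (mv 654 (both (five 4 557 686) (five 4 525 622))) (both (mv 684 (both (five 6 556 652) (mv 685 (both (five 6 588 716) (mv 718 (both (five 4 589 686) (mv 717 (both (five 4 621 750) (mv 590 (both (five 5 589 622) (five 5 557 558))))))))))) (both (mv 684 (both (five 6 556 652) (mv 685 (both (five 6 588 716) (mv 686 (both (five 4 589 718) (five 4 557 654))))))) (mv 684 (both (five 6 556 652) (mv 685 (both (five 6 588 716) (mv 622 (both (five 4 525 654) (mv 590 (both (five 5 589 717) (five 5 557 558))))))))))))) (both (mv 524 (both (five 7 492 492) (mv 653 (both (five 7 524 556) (mv 684 (both (five 6 556 652)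 (mv 685 (both (five 6 588 716) (mv 686 (both (five 4 589 718) (five 4 557 654))))))))))) (both (mv 524 (both (five 7 492 492) (mv 653 (both (five 7 524 556) (mv 684 (both (five 6 556 652) (mv 685 (both (five 6 588 716) (mv 718 (both (five 4 589 686) (mv 717 (both (five 4 621 750) (mv 590 (both (five 5 589 622) (five 5 557 558))))))))))))))) (mv 622 (both (five 4 525 654) (mv 492 (both (five 7 492 524) (mv 493 (both (five 4 493 590) (five 7 460 460))))))))))) (both (mv 621 (both (mv 653 (both (mv 652 (both (five 6 556 684) (five 6 524 620))) (both (mv 684 (both (five 6 556 652) (mv 685 (both (five 6 588 716) (mv 686 (both (five 4 589 718) (five 4 557 654))))))) (mv 686 (both (five 4 557 654) (mv 685 (both (five 4 589 718) (mv 588 (both (five 7 556 556) (mv 620 (both (five 7 588 717) (five 6 492 493)))))))))))) (both (mv 524 (both (five 7 492 492) (mv 653 (both (five 7 524 556) (mv 686 (both (five 4 557 654) (mv 685 (both (five 4 589 718) (mv 558 (both (five 5 557 590) (five 3 524 559))))))))))) (mv 620 (both (five 6 524 652) (mv 492 (both (five 7 492 524) (mv 493 (both (five 6 492 588) (five 7 460 460))))))))))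 (mv 621 (both (mv 652 (both (five 6 524 620) (mv 653 (both (five 6 556 684) (mv 654 (both (five 4 557 686) (five 4 525 622))))))) (both (mv 620 (both (five 6 524 652) (mv 492 (both (five 7 492 524) (mv 493 (both (five 6 492 588) (five 7 460 460))))))) (mv 622 (both (five 4 525 654) (mv 492 (both (five 7 492 524) (mv 493 (both (five 4 493 590) (five 7 460 460))))))))))))))))) (both (mv 589 (both (mv 493 (both (mv 492 (both (five 7 460 460) (mv 494 (both (five 0 492 527) (five 5 461 462))))) (mv 620 (both (five 6 492 588) (mv 621 (both (five 6 524 652) (mv 622 (both (five 4 525 654) (five 4 493 590))))))))) (both (mv 621 (both (mv 652 (both (five 6 524 620) (mv 653 (both (five 6 556 684) (mv 654 (both (five 4 557 686) (five 4 525 622))))))) (both (mv 652 (both (five 6 524 620) (mv 653 (both (five 6 556 684) (mv 524 (both (five 7 524 556) (five 7 492 492))))))) (both (mv 654 (both (five 4 525 622) (mv 653 (both (five 4 557 686) (mv 524 (both (five 7 524 556) (five 7 492 492))))))) (mv 592 (both (mv 620 (both (five 6 524 652) (mv 622 (both (five 4 525 654) (mv 590 (both (five 2 588 591) (mv 619 (both (five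 1 586 618) (mv 651 (both (five 2 618 650) (mv 587 (both (five 3 586 586) (mv 524 (both (five 7 492 492) (mv 556 (both (five 6 523 588) (five 5 523 555))))))))))))))))) (mv 624 (both (five 7 495 527) (mv 655 (both (five 6 527 623) (mv 656 (both (five 6 559 687) (mv 657 (both (five 4 560 689) (five 4 528 625))))))))))))))) (both (mv 493 (both (mv 492 (both (five 7 460 460) (mv 494 (both (five 0 492 527) (five 5 461 462))))) (both (mv 592 (both (mv 624 (both (five 7 495 527) (mv 655 (both (five 6 527 623) (mv 656 (both (five 6 559 687) (mv 657 (both (five 4 560 689) (five 4 528 625))))))))) (mv 620 (both (five 6 492 588) (mv 590 (both (five 4 493 622) (mv 591 (both (five 3 556 556) (five 1 557 561))))))))) (mv 590 (both (five 4 493 622) (mv 492 (both (five 7 460 460) (mv 494 (both (five 5 461 462) (mv 523 (both (five 2 491 524) (mv 491 (both (five 2 490 522) (mv 458 (both (five 3 458 459) (mv 490 (both (five 3 457 457) (mv 555 (both (five 7 458 587) (mv 556 (both (five 0 554 554) (mv 591 (both (five 3 556 592) (five 0 555 558)))))))))))))))))))))))) (both (mv 621 (both (mv 652 (both (five 6 524 620) (mv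 653 (both (five 6 556 684) (mv 654 (both (five 4 557 686) (five 4 525 622))))))) (both (mv 654 (both (five 4 525 622) (mv 653 (both (five 4 557 686) (mv 684 (both (five 6 556 652) (mv 685 (both (five 6 588 716) (mv 556 (both (five 7 556 588) (five 7 524 524))))))))))) (both (mv 652 (both (five 6 524 620) (mv 653 (both (five 6 556 684) (mv 686 (both (five 4 557 654) (mv 685 (both (five 4 589 718) (mv 556 (both (five 7 556 588) (five 7 524 524))))))))))) (both (mv 652 (both (five 6 524 620) (mv 653 (both (five 6 556 684) (mv 556 (both (five 7 524 524) (mv 685 (both (five 7 556 588) (mv 718 (both (five 4 589 686) (mv 717 (both (five 4 621 750) (mv 590 (both (five 5 589 622) (five 5 557 558))))))))))))))) (mv 622 (both (five 4 525 654) (mv 588 (both (mv 623 (both (five 3 588 624) (mv 587 (both (five 0 586 586) (five 0 587 590))))) (both (mv 493 (both (five 6 492 620) (five 4 493 590))) (mv 623 (both (five 3 588 624) (mv 587 (both (five 3 587 620) (five 0 586 586))))))))))))))) (both (mv 621 (both (mv 653 (both (mv 654 (both (five 4 557 686) (five 4 525 622))) (both (mv 684 (both (five 6 556 652) (mv 685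 (both (five 6 588 716) (mv 718 (both (five 4 589 686) (mv 717 (both (five 4 621 750) (mv 590 (both (five 5 589 622) (five 5 557 558))))))))))) (both (mv 684 (both (five 6 556 652) (mv 685 (both (five 6 588 716) (mv 686 (both (five 4 589 718) (five 4 557 654))))))) (mv 684 (both (five 6 556 652) (mv 685 (both (five 6 588 716) (mv 622 (both (five 4 525 654) (mv 590 (both (five 5 589 717) (five 5 557 558))))))))))))) (both (mv 524 (both (five 7 492 492) (mv 653 (both (five 7 524 556) (mv 684 (both (five 6 556 652) (mv 685 (both (five 6 588 716) (mv 686 (both (five 4 589 718) (five 4 557 654))))))))))) (both (mv 524 (both (five 7 492 492) (mv 653 (both (five 7 524 556) (mv 684 (both (five 6 556 652) (mv 685 (both (five 6 588 716) (mv 718 (both (five 4 589 686) (mv 717 (both (five 4 621 750) (mv 590 (both (five 5 589 622) (five 5 557 558))))))))))))))) (mv 622 (both (five 4 525 654) (mv 492 (both (five 7 492 524) (mv 493 (both (five 4 493 590) (five 7 460 460))))))))))) (mv 621 (both (mv 620 (both (five 6 524 652) (mv 493 (both (five 6 492 588) (mv 492 (both (five 7 460 460) (mv 494 (both (five 0 492 527)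 (five 5 461 462))))))))) (both (mv 492 (both (five 7 492 524) (mv 493 (both (five 7 460 460) (mv 494 (both (five 0 492 527) (five 5 461 462))))))) (mv 652 (both (five 6 524 620) (mv 653 (both (five 6 556 684) (mv 686 (both (five 4 557 654) (mv 685 (both (five 4 589 718) (mv 556 (both (five 7 556 588) (five 7 524 524)))))))))))))))))))) (both (mv 589 (both (mv 493 (both (mv 492 (both (five 7 460 460) (mv 494 (both (five 0 492 527) (five 5 461 462))))) (mv 620 (both (five 6 492 588) (mv 621 (both (five 6 524 652) (mv 622 (both (five 4 525 654) (five 4 493 590))))))))) (both (mv 621 (both (mv 652 (both (five 6 524 620) (mv 653 (both (five 6 556 684) (mv 654 (both (five 4 557 686) (five 4 525 622))))))) (both (mv 652 (both (five 6 524 620) (mv 653 (both (five 6 556 684) (mv 524 (both (five 7 524 556) (five 7 492 492))))))) (both (mv 654 (both (five 4 525 622) (mv 653 (both (five 4 557 686) (mv 524 (both (five 7 524 556) (five 7 492 492))))))) (mv 592 (both (mv 620 (both (five 6 524 652) (mv 622 (both (five 4 525 654) (mv 590 (both (five 2 588 591) (mv 619 (both (five 1 586 618) (mv 651 (both (five 2 618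 650) (mv 587 (both (five 3 586 586) (mv 524 (both (five 7 492 492) (mv 556 (both (five 6 523 588) (five 5 523 555))))))))))))))))) (mv 624 (both (five 7 495 527) (mv 655 (both (five 6 527 623) (mv 656 (both (five 6 559 687) (mv 657 (both (five 4 560 689) (five 4 528 625))))))))))))))) (both (mv 493 (both (mv 492 (both (five 7 460 460) (mv 494 (both (five 0 492 527) (five 5 461 462))))) (mv 588 (both (five 6 492 620) (mv 590 (both (five 4 493 622) (mv 591 (both (five 1 556 559) (mv 556 (both (five 3 556 592) (five 3 555 555))))))))))) (both (mv 621 (both (mv 652 (both (five 6 524 620) (mv 653 (both (five 6 556 684) (mv 654 (both (five 4 557 686) (five 4 525 622))))))) (both (mv 654 (both (five 4 525 622) (mv 653 (both (five 4 557 686) (mv 684 (both (five 6 556 652) (mv 685 (both (five 6 588 716) (mv 556 (both (five 7 556 588) (five 7 524 524))))))))))) (both (mv 652 (both (five 6 524 620) (mv 653 (both (five 6 556 684) (mv 686 (both (five 4 557 654) (mv 685 (both (five 4 589 718) (mv 556 (both (five 7 556 588) (five 7 524 524))))))))))) (both (mv 622 (both (five 4 525 654) (mv 588 (both (mv 623 (both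 (five 3 588 624) (mv 587 (both (five 0 586 586) (five 0 587 590))))) (both (mv 493 (both (five 6 492 620) (five 4 493 590))) (mv 623 (both (five 3 588 624) (mv 587 (both (five 3 587 620) (five 0 586 586)))))))))) (mv 652 (both (five 6 524 620) (mv 653 (both (five 6 556 684) (mv 556 (both (five 7 524 524) (mv 685 (both (five 7 556 588) (mv 718 (both (five 4 589 686) (mv 717 (both (five 4 621 750) (mv 748 (both (five 6 620 716) (mv 590 (both (five 5 589 622) (mv 592 (both (five 3 556 591) (mv 527 (both (five 7 495 624) (mv 463 (both (five 4 463 559) (five 4 431 431)))))))))))))))))))))))))))) (both (mv 621 (both (mv 492 (both (five 7 492 524) (mv 493 (both (five 7 460 460) (mv 494 (both (five 0 492 527) (five 5 461 462))))))) (both (mv 654 (both (five 4 525 622) (mv 653 (both (five 4 557 686) (mv 684 (both (five 6 556 652) (mv 685 (both (five 6 588 716) (mv 556 (both (five 7 556 588) (five 7 524 524))))))))))) (mv 622 (both (five 4 525 654) (mv 493 (both (five 4 493 590) (mv 492 (both (five 7 460 460) (mv 494 (both (five 0 492 527) (five 5 461 462)))))))))))) (both (mv 621 (both (mv 620 (both (five 6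 524 652) (mv 493 (both (five 6 492 588) (mv 492 (both (five 7 460 460) (mv 494 (both (five 0 492 527) (five 5 461 462))))))))) (both (mv 492 (both (five 7 492 524) (mv 493 (both (five 7 460 460) (mv 494 (both (five 0 492 527) (five 5 461 462))))))) (mv 652 (both (five 6 524 620) (mv 653 (both (five 6 556 684) (mv 686 (both (five 4 557 654) (mv 685 (both (five 4 589 718) (mv 556 (both (five 7 556 588) (five 7 524 524)))))))))))))) (mv 621 (both (mv 652 (both (five 6 524 620) (mv 653 (both (five 6 556 684) (mv 654 (both (five 4 557 686) (five 4 525 622))))))) (both (mv 652 (both (five 6 524 620) (mv 653 (both (five 6 556 684) (mv 524 (both (five 7 524 556) (five 7 492 492))))))) (both (mv 654 (both (five 4 525 622) (mv 653 (both (five 4 557 686) (mv 524 (both (five 7 524 556) (five 7 492 492))))))) (mv 652 (both (five 6 524 620) (mv 622 (both (five 4 525 654) (mv 492 (both (five 7 492 524) (mv 493 (both (five 4 493 590) (five 7 460 460)))))))))))))))))))) (both (mv 589 (both (mv 621 (both (mv 652 (both (five 6 524 620) (mv 653 (both (five 6 556 684) (mv 654 (both (five 4 557 686) (five 4 525 622)))))))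 (both (mv 652 (both (five 6 524 620) (mv 653 (both (five 6 556 684) (mv 524 (both (five 7 524 556) (five 7 492 492))))))) (both (mv 654 (both (five 4 525 622) (mv 653 (both (five 4 557 686) (mv 524 (both (five 7 524 556) (five 7 492 492))))))) (mv 588 (both (mv 622 (both (five 4 525 654) (mv 623 (both (five 3 588 624) (mv 587 (both (five 0 586 586) (five 0 587 590))))))) (both (mv 620 (both (five 6 524 652) (mv 558 (both (five 2 556 559) (mv 586 (both (five 1 554 587) (mv 524 (both (five 7 492 492) (mv 523 (both (five 0 522 522) (mv 556 (both (five 7 491 491) (mv 619 (both (five 6 523 651) (mv 618 (both (five 1 585 617) (five 3 585 585))))))))))))))))) (mv 654 (both (five 4 525 622) (mv 620 (both (five 6 524 652) (mv 558 (both (five 2 556 559) (mv 524 (both (five 7 492 492) (mv 523 (both (five 0 522 522) (mv 556 (both (five 7 491 491) (mv 619 (both (five 6 523 651) (mv 618 (both (five 1 585 617) (five 1 586 590)))))))))))))))))))))))) (both (mv 493 (both (mv 492 (both (five 7 460 460) (mv 494 (both (five 0 492 527) (five 5 461 462))))) (mv 588 (both (five 6 492 620) (mv 590 (both (five 4 493 622) (mv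 559 (both (five 1 556 591) (five 2 556 558))))))))) (both (mv 588 (both (mv 559 (both (five 2 556 558) (mv 590 (both (five 1 556 591) (mv 622 (both (five 4 493 493) (mv 654 (both (five 7 557 686) (five 4 525 621))))))))) (both (mv 621 (both (mv 622 (both (five 4 525 654) (mv 623 (both (five 3 588 624) (mv 587 (both (five 0 586 586) (five 0 587 590))))))) (both (mv 652 (both (five 6 524 620) (mv 653 (both (five 6 556 684) (mv 685 (both (five 7 556 556) (mv 686 (both (five 4 589 718) (five 4 557 654))))))))) (mv 652 (both (five 6 524 620) (mv 653 (both (five 6 556 684) (mv 685 (both (five 7 556 556) (mv 558 (both (five 5 557 590) (five 2 556 559)))))))))))) (mv 620 (both (five 6 492 493) (mv 652 (both (five 5 556 684) (five 5 524 556)))))))) (both (mv 621 (both (mv 620 (both (five 6 524 652) (mv 493 (both (five 6 492 588) (mv 492 (both (five 7 460 460) (mv 494 (both (five 0 492 527) (five 5 461 462))))))))) (both (mv 492 (both (five 7 492 524) (mv 493 (both (five 7 460 460) (mv 494 (both (five 0 492 527) (five 5 461 462))))))) (mv 652 (both (five 6 524 620) (mv 653 (both (five 6 556 684) (mv 686 (both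 (five 4 557 654) (mv 685 (both (five 4 589 718) (mv 556 (both (five 7 556 588) (five 7 524 524)))))))))))))) (mv 621 (both (mv 653 (both (mv 654 (both (five 4 557 686) (five 4 525 622))) (both (mv 684 (both (five 6 556 652) (mv 685 (both (five 6 588 716) (mv 718 (both (five 4 589 686) (mv 717 (both (five 4 621 750) (mv 590 (both (five 5 589 622) (five 5 557 558))))))))))) (both (mv 684 (both (five 6 556 652) (mv 685 (both (five 6 588 716) (mv 686 (both (five 4 589 718) (five 4 557 654))))))) (mv 684 (both (five 6 556 652) (mv 685 (both (five 6 588 716) (mv 622 (both (five 4 525 654) (mv 590 (both (five 5 589 717) (five 5 557 558))))))))))))) (both (mv 524 (both (five 7 492 492) (mv 653 (both (five 7 524 556) (mv 684 (both (five 6 556 652) (mv 685 (both (five 6 588 716) (mv 686 (both (five 4 589 718) (five 4 557 654))))))))))) (both (mv 524 (both (five 7 492 492) (mv 653 (both (five 7 524 556) (mv 684 (both (five 6 556 652) (mv 685 (both (five 6 588 716) (mv 718 (both (five 4 589 686) (mv 717 (both (five 4 621 750) (mv 590 (both (five 5 589 622) (five 5 557 558))))))))))))))) (mv 622 (both (five 4 525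 654) (mv 492 (both (five 7 492 524) (mv 493 (both (five 4 493 590) (five 7 460 460)))))))))))))))) (both (mv 589 (both (mv 493 (both (mv 492 (both (five 7 460 460) (mv 494 (both (five 0 492 527) (five 5 461 462))))) (mv 620 (both (five 6 492 588) (mv 621 (both (five 6 524 652) (mv 622 (both (five 4 525 654) (five 4 493 590))))))))) (both (mv 621 (both (mv 653 (both (mv 652 (both (five 6 556 684) (five 6 524 620))) (both (mv 686 (both (five 4 557 654) (mv 685 (both (five 4 589 718) (mv 716 (both (five 6 588 684) (mv 717 (both (five 6 620 748) (mv 588 (both (five 7 588 620) (five 7 556 556))))))))))) (both (mv 684 (both (five 6 556 652) (mv 685 (both (five 6 588 716) (mv 686 (both (five 4 589 718) (five 4 557 654))))))) (mv 686 (both (five 4 557 654) (mv 685 (both (five 4 589 718) (mv 620 (both (five 6 524 652) (mv 588 (both (five 7 588 717) (five 7 556 556))))))))))))) (both (mv 653 (both (mv 654 (both (five 4 557 686) (five 4 525 622))) (both (mv 684 (both (five 6 556 652) (mv 685 (both (five 6 588 716) (mv 718 (both (five 4 589 686) (mv 717 (both (five 4 621 750) (mv 590 (both (five 5 589 622) (five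 5 557 558))))))))))) (both (mv 684 (both (five 6 556 652) (mv 685 (both (five 6 588 716) (mv 686 (both (five 4 589 718) (five 4 557 654))))))) (mv 684 (both (five 6 556 652) (mv 685 (both (five 6 588 716) (mv 622 (both (five 4 525 654) (mv 590 (both (five 5 589 717) (five 5 557 558))))))))))))) (both (mv 592 (both (mv 527 (both (five 7 495 624) (mv 463 (both (five 4 463 559) (five 4 431 431))))) (both (mv 620 (both (five 6 524 652) (mv 591 (both (five 2 588 590) (mv 623 (both (five 1 588 622) (mv 655 (both (five 5 559 687) (five 5 527 559))))))))) (mv 624 (both (five 7 495 527) (mv 655 (both (five 6 527 623) (mv 656 (both (five 6 559 687) (mv 657 (both (five 4 560 689) (five 4 528 625)))))))))))) (mv 558 (both (mv 654 (both (five 4 525 622) (mv 653 (both (five 4 557 686) (mv 685 (both (five 5 557 590) (mv 716 (both (five 6 588 684) (mv 717 (both (five 6 620 748) (mv 588 (both (five 7 588 620) (five 7 556 556))))))))))))) (both (mv 654 (both (five 4 525 622) (mv 653 (both (five 4 557 686) (mv 590 (both (five 5 557 685) (mv 559 (both (five 2 557 561) (mv 556 (both (five 1 524 527) (mv 591 (both (five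 0 556 592) (five 0 555 555))))))))))))) (both (mv 559 (both (five 2 556 588) (mv 593 (both (five 0 557 592) (mv 561 (both (five 2 557 590) (five 0 558 594))))))) (mv 654 (both (five 4 525 622) (mv 686 (both (five 4 557 653) (mv 559 (both (five 2 556 588) (mv 592 (both (five 0 557 593) (mv 556 (both (five 0 556 591) (five 1 524 527))))))))))))))))))) (both (mv 622 (both (mv 493 (both (five 4 493 590) (mv 492 (both (five 7 460 460) (mv 494 (both (five 0 492 527) (five 5 461 462))))))) (both (mv 621 (both (five 4 525 654) (mv 652 (both (five 6 524 620) (mv 653 (both (five 6 556 684) (mv 624 (both (five 2 620 623) (mv 592 (both (five 7 495 527) (mv 656 (both (mv 657 (both (five 4 560 689) (five 4 528 625))) (both (mv 687 (both (five 6 559 655) (mv 688 (both (five 6 591 719) (mv 721 (both (five 4 592 689) (mv 720 (both (five 4 624 753) (mv 593 (both (five 5 592 625) (five 5 560 561))))))))))) (both (mv 687 (both (five 6 559 655) (mv 688 (both (five 6 591 719) (mv 689 (both (five 4 592 721) (five 4 560 657))))))) (mv 687 (both (five 6 559 655) (mv 688 (both (five 6 591 719) (mv 625 (both (five 4 528 657)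 (mv 593 (both (five 5 592 720) (five 5 560 561))))))))))))))))))))))) (mv 654 (both (five 4 525 621) (mv 590 (both (five 7 557 686) (five 7 525 558)))))))) (both (mv 527 (both (mv 592 (both (five 7 495 624) (mv 463 (both (five 4 463 559) (five 4 431 431))))) (both (mv 559 (both (mv 463 (both (five 4 431 431) (mv 462 (both (five 7 430 430) (mv 494 (both (five 7 462 591) (five 5 461 493))))))) (mv 558 (both (five 2 556 588) (five 1 524 556))))) (mv 621 (both (mv 652 (both (five 6 524 620) (mv 653 (both (five 6 556 684) (mv 654 (both (five 4 557 686) (five 4 525 622))))))) (both (mv 622 (both (five 4 525 654) (mv 624 (both (five 7 495 592) (mv 623 (both (five 3 588 588) (mv 657 (both (five 0 621 656) (mv 625 (both (five 0 622 658) (mv 593 (both (five 1 590 594) (five 7 528 561))))))))))))) (mv 620 (both (five 6 524 652) (mv 624 (both (five 7 495 592) (mv 493 (both (five 6 492 588) (mv 492 (both (five 0 492 494) (five 7 460 460))))))))))))))) (both (mv 588 (both (mv 559 (both (five 2 556 558) (mv 590 (both (five 1 556 591) (mv 622 (both (five 4 493 493) (mv 654 (both (five 7 557 686) (five 4 525 621)))))))))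 (both (mv 621 (both (mv 622 (both (five 4 525 654) (mv 623 (both (five 3 588 624) (mv 587 (both (five 0 586 586) (five 0 587 590))))))) (both (mv 652 (both (five 6 524 620) (mv 653 (both (five 6 556 684) (mv 685 (both (five 7 556 556) (mv 686 (both (five 4 589 718) (five 4 557 654))))))))) (mv 652 (both (five 6 524 620) (mv 653 (both (five 6 556 684) (mv 685 (both (five 7 556 556) (mv 558 (both (five 5 557 590) (five 2 556 559)))))))))))) (mv 620 (both (five 6 492 493) (mv 652 (both (five 5 556 684) (five 5 524 556)))))))) (both (mv 493 (both (mv 492 (both (five 7 460 460) (mv 494 (both (five 0 492 527) (five 5 461 462))))) (mv 588 (both (five 6 492 620) (mv 590 (both (five 4 493 622) (mv 559 (both (five 1 556 591) (five 2 556 558))))))))) (both (mv 588 (both (mv 620 (both (five 6 492 493) (mv 652 (both (five 5 556 684) (five 6 524 621))))) (mv 559 (both (five 2 556 558) (mv 527 (both (mv 592 (both (five 7 495 624) (five 4 463 463))) (both (mv 591 (both (five 1 556 590) (mv 462 (both (five 7 462 494) (mv 463 (both (five 7 430 430) (five 4 431 431))))))) (mv 624 (both (five 7 495 592) (mv 591 (both (five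 1 556 590) (mv 623 (both (five 5 527 655) (five 4 527 656)))))))))))))) (mv 590 (both (mv 559 (both (mv 558 (both (five 2 556 588) (five 2 557 561))) (both (mv 591 (both (five 1 556 588) (mv 561 (both (five 1 557 592) (five 2 558 562))))) (both (mv 558 (both (five 2 557 561) (mv 556 (both (five 1 524 527) (mv 591 (both (five 0 556 592) (five 0 555 555))))))) (mv 588 (both (five 1 556 591) (five 2 556 558))))))) (mv 622 (both (five 4 493 493) (mv 654 (both (five 7 557 686) (five 4 525 621))))))))))))))) (both (mv 589 (both (mv 621 (both (mv 652 (both (five 6 524 620) (mv 653 (both (five 6 556 684) (mv 654 (both (five 4 557 686) (five 4 525 622))))))) (both (mv 654 (both (five 4 525 622) (mv 653 (both (five 4 557 686) (mv 524 (both (five 7 524 556) (five 7 492 492))))))) (both (mv 652 (both (five 6 524 620) (mv 653 (both (five 6 556 684) (mv 524 (both (five 7 524 556) (five 7 492 492))))))) (mv 588 (both (mv 620 (both (five 6 524 652) (mv 558 (both (five 2 556 559) (mv 524 (both (five 7 492 492) (mv 523 (both (five 0 522 522) (mv 556 (both (five 7 491 491) (mv 619 (both (five 6 523 651) (mv 618 (both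 (five 1 585 617) (five 1 586 590))))))))))))))) (both (mv 622 (both (five 4 525 654) (mv 587 (both (five 0 586 586) (mv 590 (both (five 0 587 623) (mv 559 (both (five 1 556 591) (five 2 556 558))))))))) (both (mv 652 (both (five 6 524 620) (mv 622 (both (five 4 525 654) (mv 587 (both (five 0 586 586) (mv 590 (both (five 0 587 623) (mv 618 (both (five 2 586 619) (mv 555 (both (five 3 554 554) (mv 591 (both (five 3 555 556) (mv 592 (both (five 2 589 593) (five 1 557 561))))))))))))))))) (mv 620 (both (five 6 524 652) (mv 558 (both (five 2 556 559) (mv 586 (both (five 1 554 587) (mv 524 (both (five 7 492 492) (mv 523 (both (five 0 522 522) (mv 556 (both (five 7 491 491) (mv 619 (both (five 6 523 651) (mv 618 (both (five 1 585 617) (five 3 585 585))))))))))))))))))))))))) (both (mv 493 (both (mv 492 (both (five 7 460 460) (mv 494 (both (five 0 492 527) (five 5 461 462))))) (mv 588 (both (five 6 492 620) (mv 590 (both (five 4 493 622) (mv 559 (both (five 1 556 591) (five 2 556 558))))))))) (both (mv 621 (both (mv 652 (both (five 6 524 620) (mv 653 (both (five 6 556 684) (mv 654 (both (five 4 557 686) (five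 4 525 622))))))) (both (mv 652 (both (five 6 524 620) (mv 653 (both (five 6 556 684) (mv 524 (both (five 7 524 556) (five 7 492 492))))))) (both (mv 654 (both (five 4 525 622) (mv 653 (both (five 4 557 686) (mv 524 (both (five 7 524 556) (five 7 492 492))))))) (mv 652 (both (five 6 524 620) (mv 622 (both (five 4 525 654) (mv 492 (both (five 7 492 524) (mv 493 (both (five 4 493 590) (five 7 460 460))))))))))))) (both (mv 590 (both (mv 559 (both (mv 558 (both (five 2 556 588) (five 2 557 561))) (both (mv 591 (both (five 1 556 588) (mv 561 (both (five 1 557 592) (five 2 558 562))))) (both (mv 558 (both (five 2 557 561) (mv 556 (both (five 1 524 527) (mv 591 (both (five 0 556 592) (five 0 555 555))))))) (mv 588 (both (five 1 556 591) (five 2 556 558))))))) (mv 622 (both (five 4 493 493) (mv 654 (both (five 7 557 686) (five 4 525 621))))))) (mv 621 (both (mv 620 (both (five 6 524 652) (mv 493 (both (five 6 492 588) (mv 492 (both (five 7 460 460) (mv 494 (both (five 0 492 527) (five 5 461 462))))))))) (both (mv 492 (both (five 7 492 524) (mv 493 (both (five 7 460 460) (mv 494 (both (five 0 492 527) (five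 5 461 462))))))) (mv 652 (both (five 6 524 620) (mv 653 (both (five 6 556 684) (mv 686 (both (five 4 557 654) (mv 685 (both (five 4 589 718) (mv 556 (both (five 7 556 588) (five 7 524 524))))))))))))))))))) (both (mv 559 (both (mv 527 (both (mv 592 (both (five 7 495 624) (five 4 463 463))) (both (mv 463 (both (five 4 431 431) (mv 462 (both (five 7 430 430) (mv 591 (both (five 7 462 494) (mv 622 (both (five 6 494 590) (mv 623 (both (five 6 526 654) (five 5 527 655))))))))))) (mv 591 (both (mv 622 (both (five 6 494 590) (mv 623 (both (five 6 526 654) (five 5 527 655))))) (both (mv 592 (both (five 4 495 624) (mv 590 (both (five 6 494 622) (mv 593 (both (mv 626 (both (five 0 590 625) (mv 594 (both (five 0 591 627) (five 3 559 595))))) (both (mv 625 (both (five 0 590 626) (mv 657 (both (five 7 560 689) (five 7 528 561))))) (mv 594 (both (five 3 559 595) (mv 562 (both (five 1 558 561) (five 1 559 563)))))))))))) (mv 623 (both (five 5 527 655) (mv 624 (both (five 4 527 656) (five 4 495 592))))))))))) (both (mv 558 (both (five 3 524 524) (mv 589 (both (five 2 556 588) (mv 621 (both (mv 652 (both (five 6 524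 620) (mv 653 (both (five 6 556 684) (mv 654 (both (five 4 557 686) (five 4 525 622))))))) (both (mv 652 (both (five 6 524 620) (mv 653 (both (five 6 556 684) (mv 590 (both (five 5 557 685) (five 2 557 561))))))) (both (mv 654 (both (five 4 525 622) (mv 653 (both (five 4 557 686) (mv 590 (both (five 5 557 685) (five 2 557 561))))))) (mv 620 (both (five 6 524 652) (mv 622 (both (five 4 525 654) (mv 590 (both (five 2 557 561) (mv 619 (both (five 1 586 618) (five 1 587 591))))))))))))))))) (mv 558 (both (five 3 524 524) (mv 588 (both (five 2 556 589) (mv 592 (both (five 0 557 593) (mv 527 (both (five 7 495 624) (five 4 463 463)))))))))))) (both (mv 592 (both (mv 589 (both (mv 621 (both (mv 652 (both (five 6 524 620) (mv 653 (both (five 6 556 684) (mv 654 (both (five 4 557 686) (five 4 525 622))))))) (both (mv 654 (both (five 4 525 622) (mv 653 (both (five 4 557 686) (mv 524 (both (five 7 524 556) (five 7 492 492))))))) (mv 620 (both (five 6 524 652) (mv 492 (both (five 7 492 524) (mv 493 (both (five 6 492 588) (five 7 460 460)))))))))) (both (mv 590 (both (mv 591 (both (five 3 556 556) (five 1 557 561)))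 (mv 622 (both (five 4 493 493) (mv 654 (both (five 7 557 686) (five 7 525 558))))))) (both (mv 621 (both (mv 652 (both (five 6 524 620) (mv 653 (both (five 6 556 684) (mv 654 (both (five 4 557 686) (five 4 525 622))))))) (both (mv 620 (both (five 6 524 652) (mv 492 (both (five 7 492 524) (mv 493 (both (five 6 492 588) (five 7 460 460))))))) (mv 622 (both (five 4 525 654) (mv 492 (both (five 7 492 524) (mv 493 (both (five 4 493 590) (five 7 460 460)))))))))) (both (mv 621 (both (mv 652 (both (five 6 524 620) (mv 653 (both (five 6 556 684) (mv 654 (both (five 4 557 686) (five 4 525 622))))))) (both (mv 654 (both (five 4 525 622) (mv 653 (both (five 4 557 686) (mv 524 (both (five 7 524 556) (five 7 492 492))))))) (both (mv 652 (both (five 6 524 620) (mv 653 (both (five 6 556 684) (mv 524 (both (five 7 524 556) (five 7 492 492))))))) (mv 620 (both (five 6 524 652) (mv 622 (both (five 4 525 654) (mv 590 (both (five 2 588 591) (mv 619 (both (five 1 586 618) (mv 651 (both (five 2 618 650) (mv 587 (both (five 3 586 586) (mv 524 (both (five 7 492 492) (mv 556 (both (five 6 523 588) (five 5 523 555)))))))))))))))))))))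 (both (mv 621 (both (mv 653 (both (mv 652 (both (five 6 556 684) (five 6 524 620))) (both (mv 684 (both (five 6 556 652) (mv 685 (both (five 6 588 716) (mv 686 (both (five 4 589 718) (five 4 557 654))))))) (mv 686 (both (five 4 557 654) (mv 685 (both (five 4 589 718) (mv 588 (both (five 7 556 556) (mv 620 (both (five 7 588 717) (five 6 492 493)))))))))))) (both (mv 524 (both (five 7 492 492) (mv 653 (both (five 7 524 556) (mv 686 (both (five 4 557 654) (mv 685 (both (five 4 589 718) (mv 558 (both (five 5 557 590) (five 3 524 559))))))))))) (mv 620 (both (five 6 524 652) (mv 492 (both (five 7 492 524) (mv 493 (both (five 6 492 588) (five 7 460 460)))))))))) (mv 590 (both (mv 591 (both (five 3 556 556) (five 1 557 561))) (mv 493 (both (five 4 493 622) (mv 620 (both (five 6 492 588) (mv 621 (both (five 6 524 652) (mv 492 (both (five 7 492 524) (five 7 460 460))))))))))))))))) (mv 624 (both (five 7 495 527) (mv 655 (both (five 6 527 623) (mv 656 (both (five 6 559 687) (mv 657 (both (five 4 560 689) (five 4 528 625))))))))))) (both (mv 559 (both (mv 558 (both (five 3 524 524) (mv 588 (both (five 2 556 589)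 (mv 556 (both (five 2 555 587) (five 1 524 527))))))) (both (mv 527 (both (mv 592 (both (five 7 495 624) (five 4 463 463))) (both (mv 463 (both (five 4 431 431) (mv 462 (both (five 7 430 430) (mv 494 (both (five 7 462 591) (mv 493 (both (five 5 461 589) (five 0 492 492))))))))) (mv 591 (both (mv 623 (both (five 5 527 655) (mv 624 (both (five 4 527 656) (five 4 495 592))))) (both (mv 655 (both (five 5 527 623) (mv 590 (both (five 6 494 622) (mv 589 (both (five 1 556 588) (mv 494 (both (five 7 462 462) (mv 492 (both (five 0 492 493) (mv 524 (both (five 7 492 621) (mv 460 (both (five 4 460 556) (five 4 428 428))))))))))))))) (mv 590 (both (five 6 494 622) (mv 589 (both (five 1 556 588) (mv 592 (both (five 7 495 624) (five 1 557 561))))))))))))) (both (mv 558 (both (five 3 524 524) (mv 589 (both (five 2 556 588) (mv 593 (both (five 0 557 592) (mv 561 (both (five 2 557 590) (five 0 558 594))))))))) (both (mv 527 (both (mv 592 (both (five 7 495 624) (five 4 463 463))) (both (mv 463 (both (five 4 431 431) (mv 462 (both (five 7 430 430) (mv 494 (both (five 7 462 591) (mv 493 (both (five 5 461 589) (five 0 492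 492))))))))) (mv 592 (both (five 7 495 624) (mv 558 (both (five 0 557 593) (mv 588 (both (five 2 556 589) (mv 556 (both (five 2 555 587) (five 0 556 591)))))))))))) (mv 558 (both (five 3 524 524) (mv 592 (both (five 0 557 593) (mv 556 (both (five 0 556 591) (five 1 524 527)))))))))))) (mv 527 (both (mv 592 (both (five 7 495 624) (mv 463 (both (five 4 463 559) (five 4 431 431))))) (both (mv 559 (both (mv 558 (both (five 1 524 556) (five 3 524 524))) (mv 463 (both (five 4 431 431) (mv 462 (both (five 7 430 430) (mv 494 (both (five 7 462 591) (mv 493 (both (five 5 461 589) (five 0 492 492))))))))))) (mv 589 (both (mv 621 (both (mv 652 (both (five 6 524 620) (mv 653 (both (five 6 556 684) (mv 654 (both (five 4 557 686) (five 4 525 622))))))) (both (mv 652 (both (five 6 524 620) (mv 653 (both (five 6 556 684) (mv 524 (both (five 7 524 556) (five 7 492 492))))))) (both (mv 654 (both (five 4 525 622) (mv 653 (both (five 4 557 686) (mv 524 (both (five 7 524 556) (five 7 492 492))))))) (mv 620 (both (five 6 524 652) (mv 622 (both (five 4 525 654) (mv 592 (both (five 7 495 624) (mv 590 (both (five 2 588 591)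 (mv 619 (both (five 1 586 618) (mv 651 (both (five 2 618 650) (mv 587 (both (five 3 586 586) (mv 524 (both (five 7 492 492) (mv 556 (both (five 6 523 588) (five 5 523 555))))))))))))))))))))))) (both (mv 493 (both (mv 492 (both (five 0 492 494) (five 7 460 460))) (mv 620 (both (five 6 492 588) (mv 590 (both (five 4 493 622) (mv 592 (both (five 7 495 624) (mv 591 (both (five 3 556 556) (five 1 557 561))))))))))) (both (mv 621 (both (mv 652 (both (five 6 524 620) (mv 653 (both (five 6 556 684) (mv 654 (both (five 4 557 686) (five 4 525 622))))))) (both (mv 652 (both (five 6 524 620) (mv 653 (both (five 6 556 684) (mv 686 (both (five 4 557 654) (mv 685 (both (five 4 589 718) (mv 556 (both (five 7 556 588) (five 7 524 524))))))))))) (both (mv 652 (both (five 6 524 620) (mv 653 (both (five 6 556 684) (mv 556 (both (five 7 524 524) (mv 685 (both (five 7 556 588) (mv 718 (both (five 4 589 686) (mv 717 (both (five 4 621 750) (mv 590 (both (five 5 589 622) (five 5 557 558))))))))))))))) (both (mv 654 (both (five 4 525 622) (mv 653 (both (five 4 557 686) (mv 592 (both (five 7 495 624) (mv 556 (both (five 7 524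 524) (mv 685 (both (five 7 556 588) (mv 590 (both (five 3 556 591) (five 5 557 558))))))))))))) (mv 620 (both (five 6 524 652) (mv 622 (both (five 4 525 654) (mv 493 (both (five 6 492 588) (five 4 493 590)))))))))))) (both (mv 621 (both (mv 653 (both (mv 654 (both (five 4 557 686) (five 4 525 622))) (both (mv 684 (both (five 6 556 652) (mv 685 (both (five 6 588 716) (mv 718 (both (five 4 589 686) (mv 717 (both (five 4 621 750) (mv 590 (both (five 5 589 622) (five 5 557 558))))))))))) (both (mv 684 (both (five 6 556 652) (mv 685 (both (five 6 588 716) (mv 686 (both (five 4 589 718) (five 4 557 654))))))) (mv 684 (both (five 6 556 652) (mv 685 (both (five 6 588 716) (mv 622 (both (five 4 525 654) (mv 590 (both (five 5 589 717) (five 5 557 558))))))))))))) (both (mv 524 (both (five 7 492 492) (mv 653 (both (five 7 524 556) (mv 684 (both (five 6 556 652) (mv 685 (both (five 6 588 716) (mv 686 (both (five 4 589 718) (five 4 557 654))))))))))) (both (mv 524 (both (five 7 492 492) (mv 653 (both (five 7 524 556) (mv 684 (both (five 6 556 652) (mv 685 (both (five 6 588 716) (mv 718 (both (five 4 589 686) (mv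 717 (both (five 4 621 750) (mv 590 (both (five 5 589 622) (five 5 557 558))))))))))))))) (mv 622 (both (five 4 525 654) (mv 492 (both (five 7 492 524) (mv 493 (both (five 4 493 590) (five 7 460 460))))))))))) (both (mv 492 (both (mv 493 (both (five 0 492 494) (five 7 460 460))) (both (mv 524 (both (five 7 492 621) (mv 460 (both (five 4 460 556) (five 4 428 428))))) (mv 621 (both (five 7 492 524) (mv 653 (both (mv 652 (both (five 6 556 684) (five 6 524 620))) (both (mv 684 (both (five 6 556 652) (mv 685 (both (five 6 588 716) (mv 686 (both (five 4 589 718) (five 4 557 654))))))) (mv 686 (both (five 4 557 654) (mv 685 (both (five 4 589 718) (mv 588 (both (five 7 556 556) (mv 620 (both (five 7 588 717) (five 6 492 493))))))))))))))))) (mv 621 (both (mv 652 (both (five 6 524 620) (mv 653 (both (five 6 556 684) (mv 654 (both (five 4 557 686) (five 4 525 622))))))) (both (mv 620 (both (five 6 524 652) (mv 492 (both (five 7 492 524) (mv 493 (both (five 6 492 588) (five 7 460 460))))))) (mv 622 (both (five 4 525 654) (mv 492 (both (five 7 492 524) (mv 493 (both (five 4 493 590) (five 7 460 460)))))))))))))))))))))))))))))))))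 (both (ref 1) (both (mv 592 (both (mv 624 (both (five 7 495 527) (mv 655 (both (five 6 527 623) (mv 656 (both (five 6 559 687) (mv 657 (both (five 4 560 689) (five 4 528 625))))))))) (both (mv 496 (both (mv 465 (both (five 5 464 497) (mv 464 (both (five 5 432 433) (mv 593 (both (five 4 464 561) (five 4 496 625))))))) (both (mv 465 (both (five 5 464 497) (mv 464 (both (five 5 432 433) (mv 591 (both (five 6 463 559) (five 6 495 623))))))) (both (mv 591 (both (five 6 495 623) (mv 464 (both (five 6 463 559) (mv 593 (both (five 4 464 561) (five 4 496 625))))))) (mv 497 (both (five 5 464 465) (mv 498 (both (mv 499 (both (five 2 495 527) (mv 531 (both (five 0 495 530) (five 0 496 532))))) (both (mv 466 (both (five 1 463 467) (mv 530 (both (five 0 495 531) (mv 591 (both (five 6 495 623) (mv 593 (both (five 4 496 625) (mv 561 (both (five 6 465 562) (mv 590 (both (five 1 557 589) (mv 558 (both (five 3 557 557) (mv 559 (both (five 0 558 594) (mv 622 (both (five 6 494 527) (five 2 589 621))))))))))))))))))) (both (mv 467 (both (five 1 463 466) (mv 499 (both (five 1 464 468) (five 2 495 527))))) (mv 467 (both (five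 1 463 466) (mv 499 (both (five 1 464 468) (mv 531 (both (five 0 495 530) (five 0 496 532))))))))))))))))) (both (mv 496 (both (mv 623 (both (five 6 495 591) (mv 624 (both (five 6 527 655) (mv 625 (both (five 4 496 593) (five 4 528 657))))))) (both (mv 465 (both (five 5 464 497) (mv 464 (both (five 5 432 433) (mv 591 (both (five 6 463 559) (five 6 495 623))))))) (mv 465 (both (five 5 464 497) (mv 464 (both (five 5 432 433) (mv 593 (both (five 4 464 561) (five 4 496 625)))))))))) (both (mv 496 (both (mv 624 (both (five 7 495 527) (mv 625 (both (five 4 496 593) (five 4 528 657))))) (both (mv 465 (both (five 5 464 497) (mv 464 (both (five 5 432 433) (mv 527 (both (five 7 495 624) (mv 432 (both (five 6 399 400) (five 6 431 559))))))))) (mv 465 (both (five 5 464 497) (mv 464 (both (five 5 432 433) (mv 593 (both (five 4 464 561) (five 4 496 625)))))))))) (mv 496 (both (mv 623 (both (five 6 495 591) (mv 624 (both (five 7 495 527) (five 6 527 655))))) (both (mv 465 (both (five 5 464 497) (mv 464 (both (five 5 432 433) (mv 527 (both (five 7 495 624) (mv 432 (both (five 6 399 400) (five 6 431 559))))))))) (mv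 465 (both (five 5 464 497) (mv 464 (both (five 5 432 433) (mv 591 (both (five 6 463 559) (five 6 495 623))))))))))))))) (both (mv 592 (both (mv 463 (both (five 7 463 496) (mv 527 (both (five 4 431 431) (five 7 495 624))))) (both (mv 624 (both (five 7 495 527) (mv 655 (both (five 6 527 623) (mv 656 (both (five 6 559 687) (mv 657 (both (five 4 560 689) (five 4 528 625))))))))) (mv 496 (both (five 7 463 463) (mv 465 (both (five 5 464 497) (mv 464 (both (five 5 432 433) (mv 593 (both (five 4 464 561) (five 4 496 625)))))))))))) (both (mv 496 (both (mv 463 (both (five 7 463 592) (mv 431 (both (five 4 399 399) (five 7 431 464))))) (both (mv 464 (both (mv 465 (both (five 5 432 433) (mv 592 (both (five 5 464 497) (mv 593 (both (five 4 464 561) (five 4 496 625))))))) (both (mv 591 (both (five 6 463 559) (mv 592 (both (five 6 495 623) (mv 593 (both (five 4 464 561) (five 4 496 625))))))) (mv 433 (both (five 5 432 465) (mv 432 (both (five 5 400 401) (mv 559 (both (five 6 431 527) (five 6 463 591)))))))))) (both (mv 464 (both (mv 465 (both (five 5 432 433) (mv 466 (both (five 2 463 467) (mv 494 (both (five 2 462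 463) (five 1 461 493))))))) (both (mv 433 (both (five 5 432 465) (mv 432 (both (five 5 400 401) (mv 559 (both (five 6 431 527) (five 6 463 591))))))) (mv 431 (both (five 7 431 463) (mv 432 (both (five 7 399 399) (mv 559 (both (five 6 431 527) (five 6 463 591)))))))))) (mv 463 (both (five 7 463 592) (mv 431 (both (five 4 399 399) (five 4 431 527))))))))) (mv 463 (both (mv 431 (both (five 4 431 527) (mv 496 (both (five 4 399 399) (five 7 431 464))))) (both (mv 527 (both (five 4 431 431) (mv 592 (both (five 4 463 559) (five 7 495 624))))) (both (mv 496 (both (five 7 463 592) (mv 431 (both (five 4 399 399) (five 7 431 464))))) (mv 592 (both (five 7 463 496) (mv 527 (both (five 4 463 559) (five 7 495 624)))))))))))))))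

theorem L51 : W (S 988530863161101255454148148505632801312661156727406042891648512794071073662266652643294668095351646301915173751338452436331818490997235976069578606837084717056) (S 508729128859687251532899232795028632174720909673185784516454671236733373175343764581063756042553198918847211722716519800645723182837674500299677856027046613388147340819843278012101076835472075984190047538110933605138314802022058721017856) :=
  check_sound (Env.cons L49 (Env.cons L50 Env.nil)) (x := 560) (t := tL51) (by decide +kernel)

def tL52 : T :=
  (both (mv 430 (both (mv 366 (both (five 4 366 462) (mv 365 (both (five 3 365 401) (mv 364 (both (five 0 363 363) (five 0 364 367))))))) (both (mv 429 (both (five 2 397 401) (mv 428 (both (five 2 396 397) (five 1 395 427))))) (mv 462 (both (five 4 366 366) (mv 494 (both (five 5 366 367) (mv 397 (both (five 7 365 365) (mv 428 (both (five 2 396 429) (mv 396 (both (five 2 395 427) (mv 363 (both (five 3 363 364) (mv 395 (both (five 3 362 362) (mv 460 (both (five 7 363 492) (mv 461 (both (five 0 459 459) (five 0 460 496)))))))))))))))))))))) (both (mv 397 (both (mv 364 (both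 (five 3 364 365) (mv 396 (both (five 3 363 363) (mv 428 (both (five 2 395 427) (five 2 396 429))))))) (both (mv 368 (both (five 6 367 432) (mv 396 (both (five 1 364 367) (mv 428 (both (five 2 395 427) (five 2 396 429))))))) (both (mv 364 (both (five 3 364 365) (mv 368 (both (five 6 367 432) (mv 396 (both (five 3 363 363) (five 1 364 367))))))) (mv 365 (both (five 3 364 364) (mv 366 (both (five 3 365 401) (mv 368 (both (five 6 367 432) (mv 429 (both (five 2 396 428) (mv 334 (both (five 6 301 302) (five 5 333 461))))))))))))))) (both (mv 397 (both (mv 364 (both (five 3 364 365) (mv 396 (both (five 3 363 363) (mv 428 (both (five 2 395 427) (five 2 396 429))))))) (both (mv 364 (both (five 3 364 365) (mv 368 (both (five 6 367 432) (mv 396 (both (five 3 363 363) (five 1 364 367))))))) (both (mv 368 (both (five 6 367 432) (mv 396 (both (five 1 364 367) (mv 428 (both (five 2 395 427) (five 2 396 429))))))) (mv 364 (both (five 3 364 365) (mv 368 (both (five 6 367 432) (mv 429 (both (five 2 396 428) (mv 430 (both (five 2 397 401) (mv 465 (both (five 3 429 462) (mv 466 (both (five 2 462 494) (mv 467 (both (five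 2 463 496) (mv 499 (both (five 0 463 498) (five 0 464 500))))))))))))))))))))) (both (mv 429 (both (mv 430 (both (five 2 397 401) (mv 465 (both (five 3 429 462) (mv 466 (both (five 2 462 494) (mv 467 (both (five 2 463 496) (mv 499 (both (five 0 463 498) (five 0 464 500))))))))))) (both (mv 368 (both (five 6 367 432) (mv 397 (both (five 2 396 428) (mv 365 (both (five 3 364 364) (mv 366 (both (five 3 365 401) (mv 334 (both (five 6 301 302) (five 5 333 461))))))))))) (mv 368 (both (five 6 367 432) (mv 428 (both (five 2 396 397) (mv 430 (both (five 1 395 427) (mv 465 (both (five 3 429 462) (mv 466 (both (five 2 462 494) (mv 467 (both (five 2 463 496) (mv 499 (both (five 0 463 498) (five 0 464 500)))))))))))))))))) (both (mv 462 (both (mv 432 (both (five 6 367 368) (mv 496 (both (five 7 367 367) (mv 497 (both (five 3 462 498) (five 0 461 461))))))) (both (mv 430 (both (five 4 366 366) (mv 429 (both (five 3 429 465) (mv 428 (both (five 0 427 427) (five 3 428 461))))))) (mv 368 (both (five 6 367 432) (mv 430 (both (five 4 366 366) (mv 465 (both (five 3 429 429) (mv 498 (both (five 0 462 497) (mv 466 (both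 (five 0 463 499) (mv 435 (both (five 1 431 434) (mv 467 (both (five 1 432 436) (five 2 463 496)))))))))))))))))) (mv 366 (both (mv 432 (both (five 6 367 368) (mv 462 (both (five 4 366 430) (mv 496 (both (five 7 367 367) (mv 497 (both (five 3 462 498) (five 0 461 461))))))))) (mv 365 (both (five 3 365 401) (mv 364 (both (five 0 363 363) (five 3 364 397))))))))))))

theorem L52 : W (S 102293456568205587391067517798296575934522824568430013750363487662410352367143479688047648874653361393356284219815919172940636369790958769374972870656) (S 6406127713798452316882556137254745402732796152921827009679669028914282727537101486890132196982139448139990847315033241138041845298995611262533723226112) :=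
  check_sound Env.nil (x := 398) (t := tL52) (by decide +kernel)

def tL53 : T :=
  (both (mv 400 (both (mv 464 (both (mv 432 (both (five 6 367 368) (mv 496 (both (five 7 367 367) (mv 401 (both (five 5 368 369) (five 5 400 433))))))) (both (mv 465 (both (mv 466 (both (five 2 462 494) (mv 435 (both (five 1 431 434) (mv 467 (both (five 1 432 436) (mv 499 (both (five 0 463 498) (five 0 464 500))))))))) (both (mv 433 (both (mv 434 (both (five 1 430 462) (mv 435 (both (five 2 432 436) (mv 401 (both (five 0 399 402) (mv 368 (both (five 7 368 497) (mv 336 (both (five 4 304 304) (five 7 336 369))))))))))) (both (mv 496 (both (five 5 432 560) (mv 401 (both (five 6 368 369) (five 6 400 497))))) (both (mv 462 (both (five 1 430 434) (mv 429 (both (five 3 429 430) (mv 461 (both (five 3 428 428) (mv 497 (both (five 0 461 496) (five 0 462 498))))))))) (mv 434 (both (five 1 430 462) (mv 435 (both (five 2 432 436) (mv 401 (both (five 0 399 402) (mv 496 (both (five 6 368 369) (five 5 432 560))))))))))))) (both (mv 466 (both (five 2 462 494) (mv 434 (both (five 1 431 435) (mv 433 (both (five 1 430 462) (mv 496 (both (five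 5 432 560) (mv 401 (both (five 6 368 369) (five 6 400 497))))))))))) (mv 466 (both (five 2 462 494) (mv 467 (both (five 2 463 496) (mv 499 (both (five 0 463 498) (five 0 464 500))))))))))) (both (mv 465 (both (mv 466 (both (five 2 462 494) (mv 467 (both (five 2 463 496) (mv 499 (both (five 0 463 498) (five 0 464 500))))))) (both (mv 462 (both (mv 429 (both (five 3 429 430) (mv 461 (both (five 3 428 428) (mv 497 (both (five 0 461 496) (five 0 462 498))))))) (both (mv 429 (both (five 3 429 430) (mv 433 (both (five 1 430 434) (mv 461 (both (five 3 428 428) (five 1 429 432))))))) (mv 433 (both (five 1 430 434) (mv 496 (both (five 5 432 560) (mv 401 (both (five 6 368 369) (five 6 400 497)))))))))) (both (mv 466 (both (five 2 462 494) (mv 435 (both (five 1 431 434) (mv 467 (both (five 1 432 436) (mv 499 (both (five 0 463 498) (five 0 464 500))))))))) (mv 466 (both (five 2 462 494) (mv 434 (both (five 1 431 435) (mv 433 (both (five 1 430 462) (mv 496 (both (five 5 432 560) (mv 401 (both (five 6 368 369) (five 6 400 497))))))))))))))) (both (mv 465 (both (mv 466 (both (five 2 462 494) (mv 435 (both (five 1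 431 434) (mv 467 (both (five 1 432 436) (mv 499 (both (five 0 463 498) (five 0 464 500))))))))) (both (mv 433 (both (mv 434 (both (five 1 430 462) (mv 435 (both (five 2 431 432) (five 2 432 436))))) (both (mv 434 (both (five 1 430 462) (mv 435 (both (five 2 432 436) (mv 401 (both (five 0 399 402) (mv 368 (both (five 7 368 497) (mv 336 (both (five 4 304 304) (five 7 336 369))))))))))) (mv 368 (both (five 6 367 432) (mv 401 (both (five 7 368 497) (mv 336 (both (five 4 304 304) (five 7 336 369)))))))))) (mv 432 (both (five 6 367 368) (mv 466 (both (five 2 462 494) (mv 498 (both (five 0 463 499) (mv 462 (both (five 0 462 497) (mv 429 (both (five 3 429 430) (mv 461 (both (five 3 428 428) (five 1 429 433)))))))))))))))) (both (mv 432 (both (five 6 367 368) (mv 496 (both (five 7 367 367) (mv 560 (both (five 7 463 592) (mv 465 (both (five 5 432 433) (mv 466 (both (five 2 462 494) (five 2 463 467))))))))))) (mv 466 (both (mv 465 (both (five 2 462 494) (mv 435 (both (five 1 431 434) (mv 467 (both (five 1 432 436) (mv 499 (both (five 0 463 498) (five 0 464 500))))))))) (both (mv 401 (both (mv 432 (both (five 6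 367 368) (mv 496 (both (five 7 367 367) (five 5 368 369))))) (both (mv 402 (both (mv 371 (both (five 1 367 370) (mv 403 (both (five 1 368 372) (mv 435 (both (five 0 399 434) (five 0 400 436))))))) (both (mv 367 (both (five 3 366 366) (mv 403 (both (five 3 367 368) (mv 435 (both (five 0 399 434) (five 0 400 436))))))) (both (mv 367 (both (five 3 366 366) (mv 371 (both (five 1 367 370) (mv 403 (both (five 3 367 368) (five 1 368 372))))))) (mv 366 (both (five 3 366 367) (mv 370 (both (five 1 367 371) (mv 434 (both (five 0 399 435) (mv 369 (both (five 7 337 337) (five 7 369 498))))))))))))) (both (mv 402 (both (mv 371 (both (five 1 367 370) (mv 403 (both (five 1 368 372) (mv 435 (both (five 0 399 434) (five 0 400 436))))))) (both (mv 367 (both (five 3 366 366) (mv 371 (both (five 1 367 370) (mv 403 (both (five 1 368 372) (mv 435 (both (five 0 400 436) (mv 496 (both (five 7 367 432) (mv 498 (both (five 6 370 467) (mv 497 (both (five 3 462 462) (five 3 463 499))))))))))))))) (both (mv 366 (both (five 3 366 367) (mv 434 (both (five 0 399 435) (mv 369 (both (five 7 369 498) (mv 337 (both (five 4 305 305) (five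 7 337 370))))))))) (both (mv 367 (both (five 3 366 366) (mv 371 (both (five 1 367 370) (mv 403 (both (five 1 368 372) (mv 496 (both (five 7 367 432) (mv 498 (both (five 5 370 434) (mv 497 (both (five 3 462 462) (five 3 463 499))))))))))))) (mv 366 (both (five 3 366 367) (mv 434 (both (five 0 399 435) (mv 498 (both (five 7 369 369) (mv 371 (both (five 5 370 403) (mv 531 (both (five 4 402 499) (mv 530 (both (five 4 434 563) (mv 496 (both (five 0 495 497) (mv 560 (both (five 7 463 592) (mv 559 (both (five 6 463 591) (mv 561 (both (five 1 527 562) (five 4 464 593)))))))))))))))))))))))))) (both (mv 402 (both (mv 371 (both (five 1 367 370) (mv 403 (both (five 1 368 372) (mv 435 (both (five 0 399 434) (five 0 400 436))))))) (both (mv 368 (both (five 6 367 432) (mv 371 (both (five 1 367 370) (mv 403 (both (five 1 368 372) (mv 404 (both (five 3 368 369) (mv 436 (both (five 0 400 435) (five 0 401 437))))))))))) (both (mv 434 (both (five 0 399 435) (mv 369 (both (five 7 369 498) (mv 337 (both (five 4 305 305) (five 7 337 370))))))) (both (mv 370 (both (five 1 367 371) (mv 432 (both (five 6 367 368) (mv 369 (both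 (five 5 368 496) (mv 337 (both (five 6 304 305) (five 7 337 434))))))))) (mv 434 (both (five 0 399 435) (mv 498 (both (five 7 369 369) (mv 371 (both (five 5 370 403) (mv 531 (both (five 4 402 499) (mv 530 (both (five 4 434 563) (mv 496 (both (five 0 495 497) (mv 560 (both (five 7 463 592) (mv 559 (both (five 6 463 591) (mv 561 (both (five 1 527 562) (five 4 464 593)))))))))))))))))))))))) (mv 432 (both (five 6 367 368) (mv 367 (both (five 7 367 496) (mv 303 (both (five 4 303 335) (mv 402 (both (five 3 366 366) (mv 371 (both (five 1 367 370) (mv 403 (both (five 1 368 372) (mv 435 (both (five 0 399 434) (five 0 400 436)))))))))))))))))))) (both (mv 368 (both (five 6 367 432) (mv 465 (both (five 2 462 494) (mv 435 (both (five 1 431 434) (mv 467 (both (five 1 432 436) (five 2 463 496))))))))) (both (mv 368 (both (five 6 367 432) (mv 465 (both (five 2 462 494) (mv 434 (both (five 1 431 435) (mv 498 (both (five 0 463 499) (mv 497 (both (five 0 462 462) (mv 402 (both (five 6 369 370) (mv 401 (both (five 7 369 369) (mv 367 (both (five 3 366 366) (five 3 367 403))))))))))))))))) (mv 368 (both (five 6 367 432)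 (mv 465 (both (five 2 462 494) (mv 467 (both (five 2 463 496) (mv 499 (both (five 0 463 498) (five 0 464 500)))))))))))))))))))) (both (mv 398 (both (mv 462 (both (mv 464 (both (mv 496 (both (mv 497 (both (five 3 462 498) (five 0 461 461))) (mv 560 (both (five 7 463 592) (mv 465 (both (five 5 432 433) (mv 466 (both (five 2 462 494) (five 2 463 467))))))))) (both (mv 397 (both (mv 364 (both (five 3 364 365) (mv 396 (both (five 3 363 363) (mv 428 (both (five 2 395 427) (five 2 396 429))))))) (mv 433 (both (five 0 397 432) (mv 465 (both (five 1 430 434) (mv 466 (both (five 2 462 494) (mv 498 (both (five 0 462 497) (five 0 463 499))))))))))) (both (mv 496 (both (mv 497 (both (five 3 462 498) (five 0 461 461))) (mv 432 (both (five 7 367 367) (mv 397 (both (five 0 397 433) (mv 364 (both (five 3 364 365) (mv 396 (both (five 3 363 363) (mv 428 (both (five 2 395 427) (five 2 396 429))))))))))))) (both (mv 465 (both (mv 466 (both (five 2 462 494) (mv 498 (both (five 0 462 497) (five 0 463 499))))) (both (mv 466 (both (five 2 462 494) (mv 467 (both (five 2 463 496) (mv 499 (both (five 0 463 498) (five 0 464 500)))))))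 (both (mv 466 (both (five 2 462 494) (mv 434 (both (five 1 431 435) (mv 496 (both (five 2 463 467) (mv 461 (both (five 0 460 460) (five 0 461 497))))))))) (mv 497 (both (five 0 462 498) (mv 461 (both (five 0 461 496) (mv 428 (both (five 3 428 429) (mv 460 (both (five 3 427 427) (mv 491 (both (five 2 459 492) (mv 459 (both (five 2 458 490) (mv 364 (both (five 6 363 396) (mv 365 (both (five 3 364 397) (mv 366 (both (five 0 363 363) (five 0 364 367))))))))))))))))))))))) (both (mv 461 (both (mv 428 (both (five 3 428 429) (mv 433 (both (five 1 429 432) (mv 465 (both (five 1 430 434) (mv 466 (both (five 2 462 494) (mv 467 (both (five 2 463 496) (mv 499 (both (five 0 463 498) (five 0 464 500))))))))))))) (both (mv 460 (both (five 0 460 496) (mv 459 (both (five 0 459 494) (mv 426 (both (five 3 426 427) (mv 458 (both (five 3 425 425) (mv 490 (both (five 2 457 489) (five 2 458 491))))))))))) (both (mv 428 (both (five 3 428 429) (mv 460 (both (five 3 427 427) (mv 459 (both (five 0 459 494) (mv 491 (both (five 2 458 490) (five 2 459 492))))))))) (mv 460 (both (five 0 460 496) (mv 427 (both (five 3 427 428) (mv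 459 (both (five 3 426 426) (mv 491 (both (five 2 458 490) (five 2 459 492))))))))))))) (mv 461 (both (mv 428 (both (five 3 428 429) (mv 460 (both (five 3 427 427) (mv 459 (both (five 0 459 494) (mv 491 (both (five 2 458 490) (five 2 459 492))))))))) (mv 433 (both (five 1 429 432) (mv 465 (both (five 1 430 434) (mv 496 (both (five 0 461 497) (five 5 432 560))))))))))))))) (both (mv 397 (both (mv 364 (both (five 3 364 365) (mv 396 (both (five 3 363 363) (mv 428 (both (five 2 395 427) (five 2 396 429))))))) (both (mv 365 (both (five 3 364 364) (mv 430 (both (five 7 365 494) (mv 333 (both (five 4 301 301) (five 4 333 429))))))) (both (mv 428 (both (five 2 396 429) (mv 396 (both (five 2 395 427) (mv 363 (both (five 3 363 364) (mv 395 (both (five 3 362 362) (mv 299 (both (five 4 299 331) (mv 460 (both (five 7 363 492) (mv 461 (both (five 0 460 496) (mv 459 (both (five 0 459 494) (mv 490 (both (five 2 458 491) (mv 458 (both (five 2 457 489) (mv 426 (both (five 5 362 394) (five 3 425 425))))))))))))))))))))))) (both (mv 464 (both (mv 433 (both (five 0 397 432) (mv 465 (both (five 1 430 434) (mv 466 (both (five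 2 462 494) (mv 498 (both (five 0 462 497) (five 0 463 499))))))))) (both (mv 365 (both (five 3 364 364) (mv 494 (both (five 7 365 430) (mv 465 (both (five 2 462 466) (mv 497 (both (five 0 462 498) (mv 461 (both (five 0 461 496) (mv 460 (both (five 0 459 459) (mv 428 (both (five 3 427 427) (mv 492 (both (five 5 364 396) (five 2 459 491))))))))))))))))) (both (mv 364 (both (five 3 364 365) (mv 363 (both (five 3 363 396) (mv 433 (both (five 0 397 432) (mv 465 (both (five 1 430 434) (mv 466 (both (five 2 462 494) (mv 467 (both (five 2 463 496) (mv 499 (both (five 0 463 498) (five 0 464 500))))))))))))))) (mv 364 (both (five 3 364 365) (mv 363 (both (five 3 363 396) (mv 432 (both (five 0 397 433) (mv 496 (both (five 7 367 367) (mv 461 (both (five 0 460 460) (five 0 461 497))))))))))))))) (mv 496 (both (mv 428 (both (five 2 396 429) (mv 396 (both (five 2 395 427) (mv 433 (both (five 0 397 432) (mv 497 (both (five 3 462 498) (mv 560 (both (five 7 463 592) (mv 465 (both (five 5 432 464) (mv 494 (both (five 1 462 466) (mv 430 (both (five 7 365 365) (five 5 366 367))))))))))))))))) (both (mv 461 (both (five 0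 460 460) (mv 497 (both (five 3 461 494) (five 3 462 498))))) (mv 428 (both (five 2 396 429) (mv 396 (both (five 2 395 427) (mv 460 (both (five 0 460 461) (mv 492 (both (five 5 364 365) (mv 523 (both (five 6 395 491) (mv 524 (both (five 6 427 555) (five 4 428 557))))))))))))))))))))) (both (mv 496 (both (mv 430 (both (five 4 366 366) (mv 367 (both (five 5 366 494) (mv 303 (both (five 6 302 335) (mv 464 (both (five 7 367 432) (mv 465 (both (five 3 429 429) (mv 434 (both (five 1 430 433) (mv 466 (both (five 1 431 435) (five 2 463 467))))))))))))))) (both (mv 461 (both (five 0 460 460) (mv 497 (both (five 3 461 494) (five 3 462 498))))) (mv 366 (both (five 4 366 430) (mv 461 (both (five 0 460 460) (mv 497 (both (five 0 461 464) (five 3 462 498)))))))))) (both (mv 397 (both (mv 364 (both (five 3 364 365) (mv 396 (both (five 3 363 363) (mv 428 (both (five 2 395 427) (five 2 396 429))))))) (both (mv 428 (both (five 2 396 429) (mv 396 (both (five 2 395 427) (mv 363 (both (five 3 363 364) (mv 395 (both (five 3 362 362) (mv 299 (both (five 4 299 331) (mv 460 (both (five 7 363 492) (mv 461 (both (five 0 460 496)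 (mv 459 (both (five 0 459 494) (mv 490 (both (five 2 458 491) (mv 458 (both (five 2 457 489) (mv 426 (both (five 5 362 394) (five 3 425 425))))))))))))))))))))))) (both (mv 365 (both (five 3 364 364) (mv 430 (both (five 4 366 366) (five 7 365 494))))) (mv 366 (both (five 4 366 430) (mv 429 (both (five 2 396 428) (mv 334 (both (five 6 301 302) (mv 432 (both (five 0 397 433) (mv 461 (both (five 5 333 365) (mv 496 (both (five 0 460 460) (mv 497 (both (five 3 461 494) (five 3 462 498))))))))))))))))))) (both (mv 496 (both (mv 367 (both (mv 430 (both (five 4 366 366) (five 5 366 494))) (both (mv 432 (both (five 7 367 464) (mv 303 (both (five 4 303 335) (mv 397 (both (five 0 397 433) (mv 364 (both (five 3 364 365) (mv 396 (both (five 3 363 363) (mv 395 (both (five 1 363 366) (mv 427 (both (five 2 394 426) (five 2 395 428))))))))))))))) (mv 460 (both (five 0 460 461) (mv 464 (both (five 7 367 432) (mv 560 (both (five 7 463 592) (mv 465 (both (five 5 432 433) (mv 466 (both (five 2 462 494) (five 2 463 467)))))))))))))) (both (mv 430 (both (five 4 366 366) (mv 367 (both (five 5 366 494) (mv 303 (both (five 6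 302 335) (mv 464 (both (five 7 367 432) (mv 498 (both (five 3 462 497) (mv 560 (both (five 7 463 592) (mv 465 (both (five 5 432 433) (mv 466 (both (five 2 463 467) (five 0 463 499))))))))))))))))) (both (mv 461 (both (five 0 460 460) (mv 497 (both (five 3 461 494) (five 3 462 498))))) (mv 461 (both (five 0 460 460) (mv 497 (both (five 0 461 464) (five 3 462 498))))))))) (mv 397 (both (mv 364 (both (five 3 364 365) (mv 396 (both (five 3 363 363) (mv 428 (both (five 2 395 427) (five 2 396 429))))))) (both (mv 365 (both (five 3 364 364) (mv 430 (both (five 4 366 366) (mv 333 (both (five 4 301 301) (five 4 333 429))))))) (both (mv 364 (both (five 3 364 365) (mv 366 (both (five 4 366 430) (mv 396 (both (five 3 363 363) (mv 395 (both (five 1 363 367) (mv 427 (both (five 2 394 426) (five 2 395 428))))))))))) (both (mv 366 (both (five 4 366 430) (mv 428 (both (five 2 396 429) (mv 396 (both (five 2 395 427) (mv 363 (both (five 3 363 364) (mv 395 (both (five 3 362 362) (five 1 363 367))))))))))) (mv 366 (both (five 4 366 430) (mv 428 (both (five 2 396 429) (mv 396 (both (five 2 395 427) (mv 395 (both (five 1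 363 367) (mv 362 (both (five 3 362 363) (mv 394 (both (five 3 361 361) (five 1 362 365)))))))))))))))))))))))) (both (mv 401 (both (mv 366 (both (five 3 365 365) (mv 430 (both (five 2 397 429) (five 4 366 462))))) (mv 370 (both (five 1 366 369) (mv 402 (both (five 1 367 371) (mv 434 (both (five 0 398 433) (five 0 399 435))))))))) (both (mv 433 (both (mv 397 (both (five 0 397 432) (mv 364 (both (five 3 364 365) (mv 396 (both (five 3 363 363) (mv 428 (both (five 2 395 427) (five 2 396 429))))))))) (both (mv 401 (both (five 0 398 434) (mv 464 (both (mv 369 (both (five 1 366 370) (mv 337 (both (five 6 336 432) (mv 304 (both (five 7 304 336) (mv 305 (both (five 7 272 272) (mv 306 (both (five 5 273 274) (five 5 305 338))))))))))) (both (mv 369 (both (five 1 366 370) (mv 429 (both (five 2 397 430) (mv 465 (both (five 6 368 496) (mv 466 (both (five 2 462 494) (five 4 369 498))))))))) (mv 429 (both (five 2 397 430) (mv 496 (both (five 5 400 432) (mv 465 (both (five 6 400 497) (five 5 432 560)))))))))))) (both (mv 401 (both (five 0 398 434) (mv 465 (both (mv 370 (both (five 1 366 369) (mv 402 (both (five 1 367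 371) (five 5 369 497))))) (both (mv 429 (both (five 2 397 430) (mv 397 (both (five 2 396 428) (mv 364 (both (five 3 364 365) (mv 363 (both (five 3 363 396) (mv 496 (both (five 6 400 497) (mv 560 (both (five 5 432 464) (five 7 463 592))))))))))))) (mv 369 (both (five 1 366 370) (mv 429 (both (five 2 397 430) (mv 397 (both (five 2 396 428) (mv 364 (both (five 3 364 365) (mv 363 (both (five 3 363 396) (mv 464 (both (five 6 368 496) (mv 466 (both (five 2 462 494) (five 4 369 498)))))))))))))))))))) (mv 401 (both (five 0 398 434) (mv 369 (both (five 1 366 370) (mv 432 (both (five 0 397 397) (mv 337 (both (five 6 304 305) (five 6 336 464))))))))))))) (both (mv 401 (both (mv 366 (both (five 3 365 365) (mv 370 (both (five 1 366 369) (mv 402 (both (five 3 366 367) (five 1 367 371))))))) (both (mv 370 (both (five 1 366 369) (mv 402 (both (five 1 367 371) (mv 434 (both (five 0 398 433) (five 0 399 435))))))) (mv 365 (both (five 3 365 366) (mv 397 (both (five 3 364 364) (mv 433 (both (five 0 397 432) (five 0 398 434)))))))))) (both (mv 401 (both (mv 429 (both (five 2 397 430) (mv 397 (both (five 2 396 428) (mv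 433 (both (five 0 397 432) (five 0 398 434))))))) (both (mv 370 (both (five 1 366 369) (mv 402 (both (five 1 367 371) (mv 366 (both (five 3 366 367) (mv 430 (both (five 2 397 429) (five 4 366 462))))))))) (mv 370 (both (five 1 366 369) (mv 402 (both (five 1 367 371) (mv 434 (both (five 0 398 433) (five 0 399 435)))))))))) (mv 430 (both (mv 366 (both (five 4 366 462) (mv 365 (both (five 3 365 401) (mv 364 (both (five 0 363 363) (five 0 364 367))))))) (both (mv 429 (both (five 2 397 401) (mv 428 (both (five 2 396 397) (five 1 395 427))))) (mv 462 (both (five 4 366 366) (mv 494 (both (five 5 366 367) (mv 397 (both (five 7 365 365) (mv 428 (both (five 2 396 429) (mv 396 (both (five 2 395 427) (mv 363 (both (five 3 363 364) (mv 395 (both (five 3 362 362) (mv 460 (both (five 7 363 492) (mv 461 (both (five 0 459 459) (five 0 460 496)))))))))))))))))))))))))))) (both (mv 398 (both (mv 397 (both (mv 364 (both (five 3 364 365) (mv 396 (both (five 3 363 363) (mv 428 (both (five 2 395 427) (five 2 396 429))))))) (mv 368 (both (five 1 365 369) (mv 432 (both (five 0 397 433) (five 6 367 464))))))) (both (mv 464 (both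 (mv 432 (both (five 6 367 368) (mv 496 (both (five 7 367 367) (mv 560 (both (five 7 463 592) (mv 465 (both (five 5 432 433) (mv 466 (both (five 2 462 494) (five 2 463 467))))))))))) (both (mv 465 (both (mv 466 (both (five 2 462 494) (mv 467 (both (five 2 463 496) (mv 499 (both (five 0 463 498) (five 0 464 500))))))) (both (mv 462 (both (mv 497 (both (five 0 462 498) (mv 461 (both (five 0 461 496) (mv 428 (both (five 3 428 429) (mv 460 (both (five 3 427 427) (mv 459 (both (five 0 459 494) (mv 491 (both (five 2 458 490) (five 2 459 492))))))))))))) (both (mv 430 (both (five 4 366 366) (five 3 429 429))) (mv 366 (both (five 4 366 430) (mv 433 (both (five 1 430 434) (mv 496 (both (five 5 432 560) (mv 497 (both (five 3 462 498) (five 0 461 461)))))))))))) (both (mv 462 (both (mv 430 (both (five 4 366 366) (five 3 429 429))) (mv 434 (both (five 1 430 433) (mv 466 (both (five 1 431 435) (mv 498 (both (five 0 462 497) (five 0 463 499))))))))) (mv 466 (both (five 2 462 494) (mv 435 (both (five 1 431 434) (mv 467 (both (five 1 432 436) (five 2 463 496))))))))))) (both (mv 462 (both (mv 432 (both (five 6 367 368)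 (mv 433 (both (five 1 429 461) (mv 434 (both (five 2 431 435) (five 1 430 465))))))) (both (mv 430 (both (five 4 366 366) (mv 367 (both (five 5 366 494) (mv 303 (both (five 6 302 335) (mv 429 (both (five 3 429 465) (mv 428 (both (five 0 427 427) (five 3 428 461))))))))))) (both (mv 366 (both (five 4 366 430) (mv 432 (both (five 6 367 368) (mv 461 (both (five 1 429 433) (mv 428 (both (five 3 428 429) (mv 460 (both (five 3 427 427) (mv 459 (both (five 0 459 494) (mv 491 (both (five 2 458 490) (five 2 459 492))))))))))))))) (mv 368 (both (five 6 367 432) (mv 430 (both (five 4 366 366) (mv 367 (both (five 5 366 494) (mv 303 (both (five 6 302 335) (mv 369 (both (five 2 366 370) (mv 465 (both (five 3 429 429) (mv 434 (both (five 1 430 433) (mv 466 (both (five 1 431 435) (mv 498 (both (five 0 462 497) (five 0 463 499))))))))))))))))))))))) (both (mv 432 (both (five 6 367 368) (mv 462 (both (mv 496 (both (five 7 367 367) (mv 497 (both (five 3 462 498) (five 0 461 461))))) (both (mv 461 (both (five 1 429 433) (mv 428 (both (five 3 428 429) (mv 460 (both (five 3 427 427) (mv 459 (both (five 0 459 494) (mv 491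 (both (five 2 458 490) (five 2 459 492))))))))))) (mv 367 (both (five 7 367 496) (mv 430 (both (five 4 366 366) (five 5 366 494)))))))))) (both (mv 432 (both (five 6 367 368) (mv 496 (both (five 7 367 367) (mv 560 (both (five 7 463 592) (mv 465 (both (five 5 432 433) (mv 466 (both (five 2 463 467) (mv 434 (both (five 1 431 435) (mv 498 (both (five 0 463 499) (mv 462 (both (five 0 462 497) (mv 429 (both (five 3 429 430) (mv 461 (both (five 3 428 428) (five 0 460 460))))))))))))))))))))) (mv 462 (both (mv 430 (both (five 4 366 366) (mv 367 (both (five 5 366 494) (mv 303 (both (five 6 302 335) (mv 429 (both (five 3 429 465) (mv 428 (both (five 0 427 427) (five 3 428 461))))))))))) (both (mv 432 (both (five 6 367 368) (mv 496 (both (five 7 367 367) (mv 497 (both (five 3 462 498) (five 0 461 461))))))) (both (mv 368 (both (five 6 367 432) (mv 430 (both (five 4 366 366) (mv 367 (both (five 5 366 494) (mv 303 (both (five 6 302 335) (mv 369 (both (five 2 366 370) (mv 465 (both (five 3 429 429) (mv 498 (both (five 0 462 497) (mv 466 (both (five 0 463 499) (mv 435 (both (five 1 431 434) (mv 467 (both (five 1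 432 436) (five 2 463 496))))))))))))))))))))) (mv 368 (both (five 6 367 432) (mv 430 (both (five 4 366 366) (mv 429 (both (five 3 429 465) (mv 428 (both (five 0 427 427) (five 3 428 461))))))))))))))))))) (both (mv 462 (both (mv 397 (both (mv 364 (both (five 3 364 365) (mv 396 (both (five 3 363 363) (mv 428 (both (five 2 395 427) (five 2 396 429))))))) (both (mv 365 (both (five 3 364 364) (mv 430 (both (five 4 366 366) (mv 333 (both (five 4 301 301) (five 4 333 429))))))) (both (mv 364 (both (five 3 364 365) (mv 366 (both (five 4 366 430) (mv 396 (both (five 3 363 363) (mv 395 (both (five 1 363 367) (mv 427 (both (five 2 394 426) (five 2 395 428))))))))))) (both (mv 366 (both (five 4 366 430) (mv 428 (both (five 2 396 429) (mv 396 (both (five 2 395 427) (mv 363 (both (five 3 363 364) (mv 395 (both (five 3 362 362) (five 1 363 367))))))))))) (mv 366 (both (five 4 366 430) (mv 428 (both (five 2 396 429) (mv 396 (both (five 2 395 427) (mv 395 (both (five 1 363 367) (mv 362 (both (five 3 362 363) (mv 394 (both (five 3 361 361) (five 1 362 365)))))))))))))))))) (both (mv 464 (both (mv 496 (both (mv 497 (both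 (five 3 462 498) (five 0 461 461))) (mv 560 (both (five 7 463 592) (mv 465 (both (five 5 432 433) (mv 466 (both (five 2 462 494) (five 2 463 467))))))))) (both (mv 397 (both (mv 364 (both (five 3 364 365) (mv 396 (both (five 3 363 363) (mv 428 (both (five 2 395 427) (five 2 396 429))))))) (mv 433 (both (five 0 397 432) (mv 465 (both (five 1 430 434) (mv 466 (both (five 2 462 494) (mv 498 (both (five 0 462 497) (five 0 463 499))))))))))) (both (mv 496 (both (mv 497 (both (five 3 462 498) (five 0 461 461))) (mv 432 (both (five 7 367 367) (mv 397 (both (five 0 397 433) (mv 364 (both (five 3 364 365) (mv 396 (both (five 3 363 363) (mv 428 (both (five 2 395 427) (five 2 396 429))))))))))))) (both (mv 465 (both (mv 466 (both (five 2 462 494) (mv 498 (both (five 0 462 497) (five 0 463 499))))) (both (mv 466 (both (five 2 462 494) (mv 467 (both (five 2 463 496) (mv 499 (both (five 0 463 498) (five 0 464 500))))))) (both (mv 466 (both (five 2 462 494) (mv 434 (both (five 1 431 435) (mv 496 (both (five 2 463 467) (mv 461 (both (five 0 460 460) (five 0 461 497))))))))) (mv 497 (both (five 0 462 498) (mv 461 (both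 (five 0 461 496) (mv 428 (both (five 3 428 429) (mv 460 (both (five 3 427 427) (mv 491 (both (five 2 459 492) (mv 459 (both (five 2 458 490) (mv 364 (both (five 6 363 396) (mv 365 (both (five 3 364 397) (mv 366 (both (five 0 363 363) (five 0 364 367))))))))))))))))))))))) (both (mv 461 (both (mv 428 (both (five 3 428 429) (mv 433 (both (five 1 429 432) (mv 465 (both (five 1 430 434) (mv 466 (both (five 2 462 494) (mv 467 (both (five 2 463 496) (mv 499 (both (five 0 463 498) (five 0 464 500))))))))))))) (both (mv 460 (both (five 0 460 496) (mv 459 (both (five 0 459 494) (mv 426 (both (five 3 426 427) (mv 458 (both (five 3 425 425) (mv 490 (both (five 2 457 489) (five 2 458 491))))))))))) (both (mv 428 (both (five 3 428 429) (mv 460 (both (five 3 427 427) (mv 459 (both (five 0 459 494) (mv 491 (both (five 2 458 490) (five 2 459 492))))))))) (mv 460 (both (five 0 460 496) (mv 427 (both (five 3 427 428) (mv 459 (both (five 3 426 426) (mv 491 (both (five 2 458 490) (five 2 459 492))))))))))))) (mv 461 (both (mv 428 (both (five 3 428 429) (mv 460 (both (five 3 427 427) (mv 459 (both (five 0 459 494) (mv 491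 (both (five 2 458 490) (five 2 459 492))))))))) (mv 433 (both (five 1 429 432) (mv 465 (both (five 1 430 434) (mv 496 (both (five 0 461 497) (five 5 432 560))))))))))))))) (both (mv 397 (both (mv 364 (both (five 3 364 365) (mv 396 (both (five 3 363 363) (mv 428 (both (five 2 395 427) (five 2 396 429))))))) (both (mv 365 (both (five 3 364 364) (mv 430 (both (five 7 365 494) (mv 333 (both (five 4 301 301) (five 4 333 429))))))) (both (mv 428 (both (five 2 396 429) (mv 396 (both (five 2 395 427) (mv 363 (both (five 3 363 364) (mv 395 (both (five 3 362 362) (mv 460 (both (five 7 363 492) (mv 461 (both (five 0 460 496) (mv 459 (both (five 0 459 494) (mv 490 (both (five 2 458 491) (mv 458 (both (five 2 457 489) (mv 426 (both (five 5 362 394) (five 3 425 425))))))))))))))))))))) (both (mv 464 (both (mv 433 (both (five 0 397 432) (mv 465 (both (five 1 430 434) (mv 466 (both (five 2 462 494) (mv 498 (both (five 0 462 497) (five 0 463 499))))))))) (both (mv 365 (both (five 3 364 364) (mv 494 (both (five 7 365 430) (mv 465 (both (five 2 462 466) (mv 497 (both (five 0 462 498) (mv 461 (both (five 0 461 496) (mv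 460 (both (five 0 459 459) (mv 428 (both (five 3 427 427) (mv 492 (both (five 5 364 396) (five 2 459 491))))))))))))))))) (both (mv 364 (both (five 3 364 365) (mv 363 (both (five 3 363 396) (mv 433 (both (five 0 397 432) (mv 465 (both (five 1 430 434) (mv 466 (both (five 2 462 494) (mv 467 (both (five 2 463 496) (mv 499 (both (five 0 463 498) (five 0 464 500))))))))))))))) (mv 364 (both (five 3 364 365) (mv 363 (both (five 3 363 396) (mv 432 (both (five 0 397 433) (mv 496 (both (five 7 367 367) (mv 461 (both (five 0 460 460) (five 0 461 497))))))))))))))) (mv 496 (both (mv 428 (both (five 2 396 429) (mv 396 (both (five 2 395 427) (mv 433 (both (five 0 397 432) (mv 497 (both (five 3 462 498) (mv 560 (both (five 7 463 592) (mv 465 (both (five 5 432 464) (mv 494 (both (five 1 462 466) (mv 430 (both (five 7 365 365) (five 5 366 367))))))))))))))))) (both (mv 461 (both (five 0 460 460) (mv 497 (both (five 3 461 494) (five 3 462 498))))) (mv 428 (both (five 2 396 429) (mv 396 (both (five 2 395 427) (mv 460 (both (five 0 460 461) (mv 492 (both (five 5 364 365) (mv 523 (both (five 6 395 491) (mv 524 (both (five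 6 427 555) (five 4 428 557))))))))))))))))))))) (both (mv 496 (both (mv 430 (both (five 4 366 366) (mv 367 (both (five 5 366 494) (mv 303 (both (five 6 302 335) (mv 464 (both (five 7 367 432) (mv 465 (both (five 3 429 429) (mv 434 (both (five 1 430 433) (mv 466 (both (five 1 431 435) (five 2 463 467))))))))))))))) (both (mv 461 (both (five 0 460 460) (mv 497 (both (five 3 461 494) (five 3 462 498))))) (mv 366 (both (five 4 366 430) (mv 461 (both (five 0 460 460) (mv 497 (both (five 0 461 464) (five 3 462 498)))))))))) (both (mv 397 (both (mv 365 (both (five 3 364 364) (mv 430 (both (five 4 366 366) (five 7 365 494))))) (both (mv 428 (both (five 2 396 429) (mv 396 (both (five 2 395 427) (mv 363 (both (five 3 363 364) (mv 395 (both (five 3 362 362) (mv 460 (both (five 7 363 492) (mv 461 (both (five 0 460 496) (mv 459 (both (five 0 459 494) (mv 490 (both (five 2 458 491) (mv 458 (both (five 2 457 489) (mv 426 (both (five 5 362 394) (five 3 425 425))))))))))))))))))))) (both (mv 366 (both (five 4 366 430) (mv 429 (both (five 2 396 428) (mv 334 (both (five 6 301 302) (mv 432 (both (five 0 397 433) (mv 461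 (both (five 5 333 365) (mv 496 (both (five 0 460 460) (mv 497 (both (five 3 461 494) (five 3 462 498))))))))))))))) (mv 364 (both (five 3 364 365) (mv 396 (both (five 3 363 363) (mv 428 (both (five 2 395 427) (five 2 396 429))))))))))) (mv 496 (both (mv 367 (both (mv 430 (both (five 4 366 366) (five 5 366 494))) (both (mv 432 (both (five 7 367 464) (mv 303 (both (five 4 303 335) (mv 397 (both (five 0 397 433) (mv 364 (both (five 3 364 365) (mv 396 (both (five 3 363 363) (mv 395 (both (five 1 363 366) (mv 427 (both (five 2 394 426) (five 2 395 428))))))))))))))) (mv 460 (both (five 0 460 461) (mv 464 (both (five 7 367 432) (mv 560 (both (five 7 463 592) (mv 465 (both (five 5 432 433) (mv 466 (both (five 2 462 494) (five 2 463 467)))))))))))))) (both (mv 430 (both (five 4 366 366) (mv 367 (both (five 5 366 494) (mv 303 (both (five 6 302 335) (mv 464 (both (five 7 367 432) (mv 498 (both (five 3 462 497) (mv 560 (both (five 7 463 592) (mv 465 (both (five 5 432 433) (mv 466 (both (five 2 463 467) (five 0 463 499))))))))))))))))) (both (mv 461 (both (five 0 460 460) (mv 497 (both (five 3 461 494) (five 3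 462 498))))) (mv 461 (both (five 0 460 460) (mv 497 (both (five 0 461 464) (five 3 462 498))))))))))))))) (both (mv 397 (both (mv 364 (both (five 3 364 365) (mv 396 (both (five 3 363 363) (mv 428 (both (five 2 395 427) (five 2 396 429))))))) (both (mv 364 (both (five 3 364 365) (mv 368 (both (five 1 365 369) (mv 396 (both (five 3 363 363) (five 1 364 367))))))) (both (mv 368 (both (five 1 365 369) (mv 396 (both (five 1 364 367) (mv 428 (both (five 2 395 427) (five 2 396 429))))))) (mv 430 (both (mv 365 (both (five 3 364 364) (mv 333 (both (five 4 301 301) (mv 368 (both (five 1 365 369) (mv 429 (both (five 2 396 428) (mv 334 (both (five 5 301 302) (mv 366 (both (five 5 333 461) (mv 303 (both (five 5 302 335) (mv 367 (both (five 3 332 332) (mv 336 (both (five 1 333 337) (mv 304 (both (five 7 271 271) (five 6 271 272))))))))))))))))))))) (both (mv 366 (both (five 4 366 462) (mv 368 (both (five 1 365 369) (mv 429 (both (five 2 396 428) (mv 334 (both (five 6 301 302) (five 6 333 461))))))))) (both (mv 365 (both (five 3 364 364) (mv 462 (both (five 4 366 366) (five 7 365 494))))) (mv 365 (both (five 3 364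 364) (mv 333 (both (five 4 301 301) (mv 429 (both (five 2 396 428) (five 4 333 462))))))))))))))) (mv 432 (both (mv 368 (both (five 6 367 464) (mv 369 (both (five 1 365 397) (mv 370 (both (five 2 366 367) (five 2 367 371))))))) (both (mv 433 (both (five 0 397 397) (mv 464 (both (mv 434 (both (five 2 431 435) (mv 462 (both (five 1 429 461) (five 1 430 465))))) (both (mv 367 (both (five 7 367 496) (mv 303 (both (five 4 303 335) (mv 462 (both (five 1 429 461) (mv 430 (both (five 4 366 366) (five 5 366 494))))))))) (mv 434 (both (five 3 399 435) (mv 496 (both (five 7 367 367) (mv 560 (both (five 5 432 465) (five 7 463 592)))))))))))) (both (mv 397 (both (five 0 397 433) (mv 364 (both (five 3 364 365) (mv 368 (both (five 1 365 369) (mv 396 (both (five 3 363 363) (five 1 364 367))))))))) (both (mv 464 (both (five 6 367 368) (mv 496 (both (five 7 367 367) (mv 560 (both (five 7 463 592) (mv 465 (both (five 5 432 433) (mv 466 (both (five 2 462 494) (five 2 463 467))))))))))) (mv 368 (both (five 6 367 464) (mv 397 (both (five 1 365 369) (five 0 397 433))))))))))))))) (both (mv 398 (both (mv 401 (both (mv 366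 (both (five 3 365 365) (mv 430 (both (five 2 397 429) (five 4 366 462))))) (mv 370 (both (five 1 366 369) (mv 402 (both (five 1 367 371) (mv 434 (both (five 0 398 433) (five 0 399 435))))))))) (both (mv 397 (both (mv 364 (both (five 3 364 365) (mv 396 (both (five 3 363 363) (mv 428 (both (five 2 395 427) (five 2 396 429))))))) (mv 368 (both (five 1 365 369) (mv 432 (both (five 0 397 433) (five 6 367 464))))))) (both (mv 397 (both (mv 364 (both (five 3 364 365) (mv 396 (both (five 3 363 363) (mv 428 (both (five 2 395 427) (five 2 396 429))))))) (both (mv 369 (both (five 1 365 368) (mv 401 (both (five 1 366 370) (mv 429 (both (five 2 396 428) (five 2 397 430))))))) (mv 365 (both (five 3 364 364) (mv 369 (both (five 1 365 368) (mv 401 (both (five 3 365 366) (five 1 366 370)))))))))) (both (mv 401 (both (mv 365 (both (five 3 365 366) (mv 369 (both (five 1 366 370) (mv 397 (both (five 3 364 364) (five 1 365 368))))))) (both (mv 365 (both (five 3 365 366) (mv 397 (both (five 3 364 364) (mv 433 (both (five 0 397 432) (five 0 398 434))))))) (mv 370 (both (five 1 366 369) (mv 402 (both (five 1 367 371) (mv 434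 (both (five 0 398 433) (five 0 399 435)))))))))) (both (mv 397 (both (mv 364 (both (five 3 364 365) (mv 396 (both (five 3 363 363) (mv 428 (both (five 2 395 427) (five 2 396 429))))))) (both (mv 429 (both (five 2 396 428) (mv 401 (both (five 2 397 430) (mv 433 (both (five 0 397 432) (five 0 398 434))))))) (mv 365 (both (five 3 364 364) (mv 401 (both (five 3 365 366) (mv 433 (both (five 0 397 432) (five 0 398 434)))))))))) (mv 401 (both (mv 369 (both (five 1 366 370) (mv 397 (both (five 1 365 368) (mv 429 (both (five 2 396 428) (five 2 397 430))))))) (both (mv 429 (both (five 2 397 430) (mv 397 (both (five 2 396 428) (mv 433 (both (five 0 397 432) (five 0 398 434))))))) (mv 370 (both (five 1 366 369) (mv 402 (both (five 1 367 371) (mv 434 (both (five 0 398 433) (five 0 399 435)))))))))))))))) (both (mv 401 (both (mv 398 (both (mv 365 (both (five 3 365 366) (mv 397 (both (five 3 364 364) (mv 429 (both (five 2 396 428) (five 2 397 430))))))) (both (mv 369 (both (five 1 366 370) (mv 397 (both (five 1 365 368) (mv 429 (both (five 2 396 428) (five 2 397 430))))))) (mv 366 (both (five 3 365 365) (mv 370 (both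 (five 1 366 369) (mv 402 (both (five 3 366 367) (five 1 367 371)))))))))) (both (mv 402 (both (mv 371 (both (five 1 367 370) (mv 403 (both (five 1 368 372) (mv 435 (both (five 0 399 434) (five 0 400 436))))))) (both (mv 367 (both (five 3 366 366) (mv 403 (both (five 3 367 368) (mv 435 (both (five 0 399 434) (five 0 400 436))))))) (both (mv 367 (both (five 3 366 366) (mv 371 (both (five 1 367 370) (mv 403 (both (five 3 367 368) (five 1 368 372))))))) (mv 370 (both (five 1 367 371) (mv 338 (both (mv 306 (both (five 6 305 433) (mv 273 (both (five 7 273 305) (mv 274 (both (five 7 241 241) (five 6 273 369))))))) (both (mv 366 (both (five 3 366 367) (mv 434 (both (five 0 399 435) (mv 305 (both (five 7 305 337) (mv 306 (both (five 7 273 273) (mv 307 (both (five 5 274 275) (five 5 306 339))))))))))) (both (mv 366 (both (five 3 366 367) (mv 434 (both (five 0 399 435) (mv 305 (both (five 7 305 337) (mv 307 (both (five 5 306 339) (mv 465 (both (five 6 337 433) (mv 466 (both (five 6 369 497) (mv 369 (both (five 7 369 498) (mv 464 (both (five 2 462 494) (mv 432 (both (five 6 367 368) (five 5 368 496)))))))))))))))))))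 (mv 306 (both (five 6 305 433) (mv 274 (both (five 6 273 369) (mv 241 (both (five 7 241 273) (mv 307 (both (five 5 274 275) (mv 434 (both (five 5 306 339) (five 0 399 435))))))))))))))))))))) (both (mv 398 (both (mv 365 (both (five 3 365 366) (mv 369 (both (five 1 366 370) (mv 397 (both (five 3 364 364) (five 1 365 368))))))) (both (mv 365 (both (five 3 365 366) (mv 397 (both (five 3 364 364) (mv 429 (both (five 2 396 428) (five 2 397 430))))))) (both (mv 369 (both (five 1 366 370) (mv 397 (both (five 1 365 368) (mv 429 (both (five 2 396 428) (five 2 397 430))))))) (mv 368 (both (mv 366 (both (five 3 365 365) (mv 369 (both (five 1 366 370) (mv 429 (both (five 2 397 430) (mv 432 (both (five 6 367 464) (mv 337 (both (five 6 304 305) (mv 367 (both (five 1 334 338) (mv 303 (both (five 4 303 335) (mv 334 (both (five 3 333 333) (mv 302 (both (five 4 270 270) (five 5 270 271))))))))))))))))))) (both (mv 365 (both (five 3 365 366) (mv 369 (both (five 1 366 370) (mv 433 (both (five 0 398 434) (mv 336 (both (five 4 304 304) (five 7 336 465))))))))) (mv 432 (both (five 6 367 464) (mv 433 (both (five 0 398 434)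 (mv 336 (both (five 4 304 304) (five 4 336 465)))))))))))))) (both (mv 398 (both (mv 365 (both (five 3 365 366) (mv 397 (both (five 3 364 364) (mv 429 (both (five 2 396 428) (five 2 397 430))))))) (both (mv 429 (both (five 2 397 430) (mv 397 (both (five 2 396 428) (mv 433 (both (five 0 397 432) (five 0 398 434))))))) (mv 366 (both (five 3 365 365) (mv 402 (both (five 3 366 367) (mv 434 (both (five 0 398 433) (five 0 399 435)))))))))) (mv 398 (both (mv 369 (both (five 1 366 370) (mv 397 (both (five 1 365 368) (mv 429 (both (five 2 396 428) (five 2 397 430))))))) (both (mv 429 (both (five 2 397 430) (mv 397 (both (five 2 396 428) (mv 433 (both (five 0 397 432) (five 0 398 434))))))) (mv 370 (both (five 1 366 369) (mv 402 (both (five 1 367 371) (mv 434 (both (five 0 398 433) (five 0 399 435))))))))))))))) (both (mv 398 (both (mv 397 (both (mv 364 (both (five 3 364 365) (mv 396 (both (five 3 363 363) (mv 428 (both (five 2 395 427) (five 2 396 429))))))) (both (mv 364 (both (five 3 364 365) (mv 368 (both (five 1 365 369) (mv 396 (both (five 3 363 363) (five 1 364 367))))))) (mv 369 (both (five 1 365 368)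 (mv 401 (both (five 1 366 370) (mv 429 (both (five 2 396 428) (five 2 397 430)))))))))) (both (mv 401 (both (mv 366 (both (five 3 365 365) (mv 430 (both (five 2 397 429) (five 4 366 462))))) (both (mv 402 (both (mv 371 (both (five 1 367 370) (mv 403 (both (five 1 368 372) (mv 435 (both (five 0 399 434) (five 0 400 436))))))) (both (mv 429 (both (five 2 397 430) (mv 435 (both (five 0 399 434) (mv 403 (both (five 0 400 436) (mv 368 (both (five 3 367 367) (mv 372 (both (five 1 368 371) (mv 404 (both (five 3 368 369) (five 1 369 373))))))))))))) (both (mv 369 (both (five 1 366 370) (mv 429 (both (five 2 397 430) (mv 435 (both (five 0 399 434) (mv 403 (both (five 0 400 436) (mv 368 (both (five 3 367 367) (five 3 368 404))))))))))) (mv 370 (both (five 1 366 369) (five 1 367 371))))))) (mv 366 (both (five 3 365 365) (mv 370 (both (five 1 366 369) (mv 402 (both (five 3 366 367) (five 1 367 371)))))))))) (both (mv 397 (both (mv 364 (both (five 3 364 365) (mv 396 (both (five 3 363 363) (mv 428 (both (five 2 395 427) (five 2 396 429))))))) (both (mv 364 (both (five 3 364 365) (mv 368 (both (five 1 365 369) (mv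 396 (both (five 3 363 363) (five 1 364 367))))))) (both (mv 368 (both (five 1 365 369) (mv 396 (both (five 1 364 367) (mv 428 (both (five 2 395 427) (five 2 396 429))))))) (mv 430 (both (mv 365 (both (five 3 364 364) (mv 333 (both (five 4 301 301) (mv 368 (both (five 1 365 369) (mv 429 (both (five 2 396 428) (mv 334 (both (five 5 301 302) (mv 366 (both (five 5 333 461) (mv 303 (both (five 5 302 335) (mv 367 (both (five 3 332 332) (mv 336 (both (five 1 333 337) (mv 304 (both (five 7 271 271) (five 6 271 272))))))))))))))))))))) (both (mv 366 (both (five 4 366 462) (mv 368 (both (five 1 365 369) (mv 429 (both (five 2 396 428) (mv 334 (both (five 6 301 302) (five 6 333 461))))))))) (both (mv 365 (both (five 3 364 364) (mv 462 (both (five 4 366 366) (five 7 365 494))))) (mv 365 (both (five 3 364 364) (mv 333 (both (five 4 301 301) (mv 429 (both (five 2 396 428) (five 4 333 462))))))))))))))) (both (mv 430 (both (mv 366 (both (five 4 366 462) (mv 365 (both (five 3 365 401) (mv 364 (both (five 0 363 363) (five 0 364 367))))))) (both (mv 429 (both (five 2 397 401) (mv 428 (both (five 2 396 397) (five 1 395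 427))))) (mv 462 (both (five 4 366 366) (mv 494 (both (five 5 366 367) (mv 397 (both (five 7 365 365) (mv 428 (both (five 2 396 429) (mv 396 (both (five 2 395 427) (mv 363 (both (five 3 363 364) (mv 395 (both (five 3 362 362) (mv 460 (both (five 7 363 492) (mv 461 (both (five 0 459 459) (five 0 460 496)))))))))))))))))))))) (both (mv 401 (both (mv 369 (both (five 1 366 370) (mv 397 (both (five 1 365 368) (mv 429 (both (five 2 396 428) (five 2 397 430))))))) (both (mv 430 (both (five 2 397 429) (mv 366 (both (five 4 366 462) (mv 402 (both (five 3 366 367) (mv 371 (both (five 1 367 370) (mv 403 (both (five 1 368 372) (mv 435 (both (five 0 399 434) (five 0 400 436))))))))))))) (both (mv 370 (both (five 1 366 369) (mv 402 (both (five 1 367 371) (mv 367 (both (five 3 366 366) (mv 403 (both (five 3 367 368) (mv 435 (both (five 0 399 434) (five 0 400 436))))))))))) (mv 429 (both (five 2 397 430) (mv 397 (both (five 2 396 428) (mv 368 (both (five 1 365 369) (mv 367 (both (five 1 364 396) (mv 402 (both (five 3 366 366) (five 3 367 403))))))))))))))) (both (mv 397 (both (mv 364 (both (five 3 364 365) (mv 396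 (both (five 3 363 363) (mv 428 (both (five 2 395 427) (five 2 396 429))))))) (both (mv 369 (both (five 1 365 368) (mv 401 (both (five 1 366 370) (mv 429 (both (five 2 396 428) (five 2 397 430))))))) (mv 365 (both (five 3 364 364) (mv 369 (both (five 1 365 368) (mv 401 (both (five 3 365 366) (five 1 366 370)))))))))) (mv 397 (both (mv 396 (both (mv 364 (both (five 3 363 363) (five 3 364 365))) (both (mv 427 (both (five 2 395 428) (mv 395 (both (five 2 394 426) (mv 362 (both (five 3 362 363) (mv 366 (both (five 1 363 367) (mv 365 (both (five 1 362 394) (five 3 365 401))))))))))) (both (mv 363 (both (five 3 363 364) (mv 395 (both (five 3 362 362) (mv 427 (both (five 2 394 426) (five 2 395 428))))))) (mv 365 (both (five 3 364 364) (mv 366 (both (five 3 365 401) (mv 395 (both (five 1 363 367) (mv 427 (both (five 2 394 426) (five 2 395 428))))))))))))) (both (mv 368 (both (five 1 365 369) (mv 396 (both (five 1 364 367) (mv 363 (both (five 3 363 364) (mv 395 (both (five 3 362 362) (mv 427 (both (five 2 394 426) (five 2 395 428))))))))))) (both (mv 401 (both (mv 366 (both (five 3 365 365) (mv 402 (both (five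 3 366 367) (mv 371 (both (five 1 367 370) (mv 403 (both (five 1 368 372) (mv 435 (both (five 0 399 434) (five 0 400 436))))))))))) (both (mv 369 (both (five 1 365 368) (five 1 366 370))) (mv 368 (both (five 1 365 369) (mv 367 (both (five 1 364 396) (mv 402 (both (five 3 366 366) (five 3 367 403)))))))))) (mv 365 (both (five 3 364 364) (mv 369 (both (five 1 365 368) (mv 401 (both (five 3 365 366) (five 1 366 370)))))))))))))))))) (both (mv 401 (both (mv 402 (both (mv 371 (both (five 1 367 370) (mv 403 (both (five 1 368 372) (mv 435 (both (five 0 399 434) (five 0 400 436))))))) (both (mv 371 (both (five 1 367 370) (mv 403 (both (five 1 368 372) (mv 368 (both (five 3 367 367) (mv 404 (both (five 3 368 369) (mv 432 (both (five 2 400 433) (five 6 367 464))))))))))) (both (mv 435 (both (five 0 399 434) (mv 403 (both (five 0 400 436) (mv 368 (both (five 3 367 367) (mv 404 (both (five 3 368 369) (mv 432 (both (five 2 400 433) (five 6 367 464))))))))))) (mv 370 (both (five 1 367 371) (mv 433 (both (mv 338 (both (five 6 305 306) (mv 465 (both (five 6 337 434) (five 5 369 497))))) (both (mv 338 (both (five 6 305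 306) (mv 434 (both (five 0 399 435) (mv 307 (both (five 5 306 339) (mv 337 (both (five 7 305 305) (mv 369 (both (five 7 337 466) (mv 336 (both (five 7 304 304) (mv 335 (both (five 0 334 334) (mv 303 (both (five 3 302 302) (mv 432 (both (five 4 303 367) (five 7 303 368))))))))))))))))))) (both (mv 338 (both (five 6 305 306) (mv 465 (both (five 5 337 369) (five 5 369 497))))) (mv 434 (both (five 0 399 435) (mv 465 (both (five 5 369 497) (mv 464 (both (five 1 430 462) (mv 496 (both (five 6 368 369) (five 5 432 560))))))))))))))))))) (both (mv 402 (both (mv 371 (both (five 1 367 370) (mv 403 (both (five 1 368 372) (mv 435 (both (five 0 399 434) (five 0 400 436))))))) (both (mv 435 (both (five 0 399 434) (mv 403 (both (five 0 400 436) (mv 368 (both (five 3 367 367) (mv 372 (both (five 1 368 371) (mv 404 (both (five 3 368 369) (five 1 369 373))))))))))) (both (mv 435 (both (five 0 399 434) (mv 403 (both (five 0 400 436) (mv 368 (both (five 3 367 367) (mv 369 (both (five 3 368 404) (mv 398 (both (five 1 366 370) (five 1 365 397))))))))))) (both (mv 403 (both (mv 368 (both (five 3 367 367) (mv 372 (both (five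 1 368 371) (mv 404 (both (five 3 368 369) (five 1 369 373))))))) (both (mv 368 (both (five 3 367 367) (mv 369 (both (five 3 368 404) (mv 398 (both (five 1 366 370) (five 1 365 397))))))) (mv 371 (both (five 1 367 370) (five 1 368 372)))))) (mv 370 (both (five 1 367 371) (mv 369 (both (five 1 366 398) (mv 434 (both (five 0 399 435) (mv 337 (both (five 4 305 305) (five 7 337 466)))))))))))))) (both (mv 402 (both (mv 371 (both (five 1 367 370) (mv 403 (both (five 1 368 372) (mv 435 (both (five 0 399 434) (five 0 400 436))))))) (both (mv 371 (both (five 1 367 370) (mv 403 (both (five 1 368 372) (mv 368 (both (five 3 367 367) (mv 432 (both (five 6 367 464) (mv 433 (both (five 2 400 404) (mv 336 (both (five 4 304 304) (five 4 336 465))))))))))))) (both (mv 435 (both (five 0 399 434) (mv 403 (both (five 0 400 436) (mv 368 (both (five 3 367 367) (mv 432 (both (five 6 367 464) (mv 433 (both (five 2 400 404) (mv 336 (both (five 4 304 304) (five 4 336 465))))))))))))) (mv 370 (both (five 1 367 371) (mv 434 (both (five 0 399 435) (mv 433 (both (five 0 398 398) (mv 338 (both (five 6 305 306) (five 6 337 465)))))))))))))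 (both (mv 398 (both (mv 369 (both (five 1 366 370) (mv 397 (both (five 1 365 368) (mv 429 (both (five 2 396 428) (five 2 397 430))))))) (both (mv 429 (both (five 2 397 430) (mv 397 (both (five 2 396 428) (mv 433 (both (five 0 397 432) (five 0 398 434))))))) (both (mv 369 (both (five 1 366 370) (mv 368 (both (five 1 365 397) (mv 433 (both (five 0 398 434) (mv 336 (both (five 4 304 304) (five 7 336 465))))))))) (mv 432 (both (mv 369 (both (five 1 366 370) (mv 337 (both (five 6 304 305) (mv 429 (both (five 2 397 430) (mv 433 (both (five 0 398 434) (mv 306 (both (five 5 305 338) (mv 336 (both (five 7 304 304) (mv 465 (both (five 7 336 368) (mv 497 (both (five 6 400 496) (mv 498 (both (five 4 369 466) (five 4 401 530))))))))))))))))))) (both (mv 369 (both (five 1 366 370) (mv 464 (both (five 6 367 368) (five 5 368 496))))) (both (mv 369 (both (five 1 366 370) (mv 305 (both (five 6 304 337) (mv 429 (both (five 2 397 430) (mv 433 (both (five 0 398 434) (mv 496 (both (five 5 368 464) (mv 497 (both (five 6 400 465) (mv 462 (both (five 3 462 498) (mv 461 (both (five 0 460 460) (five 3 461 494)))))))))))))))))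 (mv 368 (both (five 6 367 464) (mv 433 (both (five 0 398 434) (mv 336 (both (five 4 304 304) (five 4 336 465))))))))))))))) (both (mv 434 (both (mv 402 (both (five 0 399 435) (mv 370 (both (five 1 367 371) (mv 369 (both (five 1 366 398) (mv 337 (both (five 4 305 305) (five 7 337 466))))))))) (both (mv 433 (both (five 0 398 398) (mv 465 (both (mv 496 (both (five 6 400 497) (mv 560 (both (five 5 432 464) (five 7 463 592))))) (both (mv 497 (both (five 6 400 496) (mv 370 (both (five 5 369 402) (mv 369 (both (five 5 337 338) (mv 498 (both (five 4 369 466) (five 4 401 530))))))))) (mv 464 (both (five 1 430 462) (mv 466 (both (five 2 462 494) (mv 498 (both (five 0 463 499) (five 7 401 530)))))))))))) (both (mv 433 (both (five 0 398 398) (mv 435 (both (five 3 399 432) (five 3 400 436))))) (mv 435 (both (five 0 399 402) (mv 433 (both (five 3 399 432) (five 3 400 436))))))))) (both (mv 368 (both (mv 402 (both (mv 371 (both (five 1 367 370) (mv 403 (both (five 1 368 372) (mv 404 (both (five 3 368 369) (mv 436 (both (five 0 400 435) (five 0 401 437))))))))) (both (mv 403 (both (five 3 367 367) (mv 404 (both (five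 3 368 369) (mv 436 (both (five 0 400 435) (five 0 401 437))))))) (both (mv 370 (both (five 1 367 371) (mv 398 (both (five 1 366 369) (mv 429 (both (five 2 397 430) (mv 397 (both (five 2 396 428) (mv 364 (both (five 3 364 365) (mv 396 (both (five 3 363 363) (five 1 364 367))))))))))))) (mv 371 (both (five 1 367 370) (mv 403 (both (five 3 367 367) (five 1 368 372))))))))) (both (mv 464 (both (five 6 367 432) (mv 465 (both (mv 466 (both (five 2 462 494) (mv 467 (both (five 2 463 496) (mv 499 (both (five 0 463 498) (five 0 464 500))))))) (both (mv 466 (both (five 2 462 494) (mv 497 (both (five 7 368 433) (mv 498 (both (five 0 462 462) (five 0 463 499))))))) (both (mv 497 (both (five 7 368 433) (mv 462 (both (five 0 462 498) (mv 429 (both (five 3 429 430) (mv 461 (both (five 3 428 428) (five 0 461 496))))))))) (mv 433 (both (five 7 368 497) (mv 304 (both (five 4 304 336) (mv 466 (both (five 2 462 494) (mv 496 (both (five 2 463 467) (five 5 432 560))))))))))))))) (mv 370 (both (mv 402 (both (five 1 367 371) (mv 403 (both (five 3 367 367) (mv 432 (both (five 6 367 464) (mv 404 (both (five 2 400 433) (mv 436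 (both (five 0 400 435) (five 0 401 437))))))))))) (both (mv 398 (both (five 1 366 369) (mv 432 (both (five 6 367 464) (mv 397 (both (five 0 397 433) (mv 364 (both (five 3 364 365) (mv 396 (both (five 3 363 363) (five 1 364 367))))))))))) (mv 369 (both (five 2 367 371) (five 1 366 398))))))))) (mv 465 (both (mv 433 (both (mv 368 (both (five 7 368 497) (mv 336 (both (five 4 304 304) (five 7 336 369))))) (mv 398 (both (five 0 398 434) (mv 397 (both (five 0 397 432) (mv 429 (both (five 2 396 428) (five 2 397 430))))))))) (both (mv 464 (both (mv 432 (both (five 6 367 368) (mv 496 (both (five 7 367 367) (five 5 368 369))))) (mv 466 (both (five 2 462 494) (mv 435 (both (five 1 431 434) (mv 467 (both (five 1 432 436) (mv 499 (both (five 0 463 498) (five 0 464 500))))))))))) (both (mv 433 (both (mv 496 (both (five 6 400 497) (mv 560 (both (five 5 432 464) (five 7 463 592))))) (mv 398 (both (five 0 398 434) (mv 397 (both (five 0 397 432) (mv 429 (both (five 2 396 428) (five 2 397 430))))))))) (both (mv 433 (both (mv 398 (both (five 0 398 434) (mv 429 (both (five 2 397 430) (mv 397 (both (five 2 396 428) (mv 364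 (both (five 3 364 365) (mv 368 (both (five 1 365 369) (mv 396 (both (five 3 363 363) (five 1 364 367))))))))))))) (mv 496 (both (five 6 400 497) (mv 560 (both (five 5 432 464) (five 7 463 592))))))) (mv 464 (both (mv 432 (both (five 6 367 368) (mv 496 (both (five 7 367 367) (five 5 368 369))))) (both (mv 466 (both (five 2 462 494) (mv 467 (both (five 2 463 496) (mv 499 (both (five 0 463 498) (five 0 464 500))))))) (mv 432 (both (five 6 367 368) (mv 466 (both (five 2 462 494) (mv 498 (both (five 0 463 499) (mv 462 (both (five 0 462 497) (mv 429 (both (five 3 429 430) (mv 461 (both (five 3 428 428) (five 1 429 433)))))))))))))))))))))))))))) (both (mv 464 (both (mv 432 (both (five 6 367 368) (mv 496 (both (five 7 367 367) (mv 560 (both (five 7 463 592) (mv 465 (both (five 5 432 433) (mv 466 (both (five 2 462 494) (five 2 463 467))))))))))) (both (mv 465 (both (mv 466 (both (five 2 462 494) (mv 467 (both (five 2 463 496) (mv 499 (both (five 0 463 498) (five 0 464 500))))))) (both (mv 462 (both (mv 429 (both (five 3 429 430) (mv 461 (both (five 3 428 428) (mv 497 (both (five 0 461 496) (five 0 462 498)))))))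 (both (mv 429 (both (five 3 429 430) (mv 433 (both (five 1 430 434) (mv 461 (both (five 3 428 428) (mv 496 (both (five 0 460 460) (five 5 432 560))))))))) (both (mv 433 (both (five 1 430 434) (mv 496 (both (five 5 432 560) (mv 497 (both (five 3 462 498) (five 0 461 461))))))) (both (mv 429 (both (five 3 429 430) (mv 428 (both (five 3 428 461) (mv 398 (both (five 2 396 397) (mv 433 (both (five 1 430 434) (mv 497 (both (five 0 462 498) (mv 401 (both (five 7 368 368) (mv 366 (both (five 3 365 365) (mv 402 (both (five 3 366 367) (five 5 369 370))))))))))))))))) (mv 429 (both (five 3 429 430) (mv 433 (both (five 1 430 434) (mv 496 (both (five 5 432 560) (mv 497 (both (five 6 400 401) (five 0 462 498)))))))))))))) (both (mv 466 (both (five 2 462 494) (mv 435 (both (five 1 431 434) (mv 467 (both (five 1 432 436) (mv 499 (both (five 0 463 498) (five 0 464 500))))))))) (mv 466 (both (five 2 462 494) (mv 435 (both (five 1 431 434) (mv 467 (both (five 1 432 436) (five 2 463 496))))))))))) (both (mv 465 (both (mv 466 (both (five 2 462 494) (mv 467 (both (five 2 463 496) (mv 499 (both (five 0 463 498) (five 0 464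 500))))))) (both (mv 462 (both (mv 429 (both (five 3 429 430) (mv 461 (both (five 3 428 428) (mv 497 (both (five 0 461 496) (five 0 462 498))))))) (both (mv 429 (both (five 3 429 430) (mv 433 (both (five 1 430 434) (mv 461 (both (five 3 428 428) (five 1 429 432))))))) (mv 433 (both (five 1 430 434) (mv 496 (both (five 5 432 560) (mv 497 (both (five 6 400 401) (five 0 462 498)))))))))) (both (mv 466 (both (five 2 462 494) (mv 435 (both (five 1 431 434) (mv 467 (both (five 1 432 436) (mv 499 (both (five 0 463 498) (five 0 464 500))))))))) (mv 466 (both (five 2 462 494) (mv 435 (both (five 1 431 434) (mv 467 (both (five 1 432 436) (five 2 463 496))))))))))) (both (mv 432 (both (five 6 367 368) (mv 433 (both (mv 434 (both (five 2 431 435) (mv 462 (both (five 1 429 461) (five 1 430 465))))) (both (mv 398 (both (five 0 397 397) (mv 462 (both (five 1 429 461) (mv 366 (both (five 4 366 430) (mv 365 (both (five 3 365 401) (mv 364 (both (five 0 363 363) (five 0 364 367))))))))))) (mv 398 (both (five 0 397 397) (mv 434 (both (five 0 398 401) (five 3 399 435)))))))))) (both (mv 432 (both (five 6 367 368) (mv 433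 (both (mv 398 (both (five 0 397 397) (mv 434 (both (five 0 398 401) (five 3 399 435))))) (both (mv 367 (both (five 7 367 496) (mv 303 (both (five 4 303 335) (mv 398 (both (five 0 397 397) (mv 462 (both (five 1 429 461) (mv 430 (both (five 4 366 366) (five 5 366 494))))))))))) (mv 496 (both (five 7 367 367) (five 5 400 401)))))))) (ref 0))))))) (both (mv 398 (both (mv 397 (both (mv 364 (both (five 3 364 365) (mv 396 (both (five 3 363 363) (mv 428 (both (five 2 395 427) (five 2 396 429))))))) (mv 368 (both (five 1 365 369) (mv 432 (both (five 0 397 433) (five 6 367 464))))))) (both (mv 430 (both (mv 366 (both (five 4 366 462) (mv 365 (both (five 3 365 401) (mv 364 (both (five 0 363 363) (five 0 364 367))))))) (both (mv 464 (both (mv 432 (both (five 6 367 368) (mv 496 (both (five 7 367 367) (mv 401 (both (five 5 368 369) (five 5 400 433))))))) (both (mv 429 (both (five 2 397 401) (mv 465 (both (five 3 429 462) (mv 466 (both (five 2 462 494) (mv 467 (both (five 2 463 496) (mv 499 (both (five 0 463 498) (five 0 464 500))))))))))) (both (mv 432 (both (five 6 367 368) (mv 496 (both (five 7 367 367) (mv 560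 (both (five 7 463 592) (mv 465 (both (five 5 432 433) (mv 466 (both (five 2 462 494) (five 2 463 467))))))))))) (mv 368 (both (five 6 367 432) (mv 429 (both (five 2 397 401) (mv 428 (both (five 1 395 427) (mv 462 (both (five 3 428 461) (five 3 429 465))))))))))))) (both (mv 464 (both (mv 462 (both (five 4 366 366) (mv 429 (both (five 3 429 465) (mv 428 (both (five 0 427 427) (five 3 428 461))))))) (both (mv 432 (both (five 6 367 368) (mv 496 (both (five 7 367 367) (mv 560 (both (five 7 463 592) (mv 465 (both (five 5 432 433) (mv 466 (both (five 2 462 494) (five 2 463 467))))))))))) (mv 432 (both (five 6 367 368) (mv 367 (both (five 7 367 496) (mv 462 (both (five 4 366 366) (five 5 366 494)))))))))) (both (mv 401 (both (five 2 397 429) (mv 366 (both (five 3 365 365) (mv 370 (both (five 1 366 369) (mv 402 (both (five 3 366 367) (five 1 367 371))))))))) (mv 366 (both (five 4 366 462) (mv 401 (both (five 3 365 365) (five 2 397 429)))))))))) (both (mv 430 (both (mv 366 (both (five 4 366 462) (mv 365 (both (five 3 365 401) (mv 364 (both (five 0 363 363) (five 0 364 367))))))) (both (mv 429 (both (five 2 397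 401) (mv 428 (both (five 2 396 397) (five 1 395 427))))) (mv 462 (both (five 4 366 366) (mv 494 (both (five 5 366 367) (mv 397 (both (five 7 365 365) (mv 428 (both (five 2 396 429) (mv 396 (both (five 2 395 427) (mv 363 (both (five 3 363 364) (mv 395 (both (five 3 362 362) (mv 460 (both (five 7 363 492) (mv 461 (both (five 0 459 459) (five 0 460 496)))))))))))))))))))))) (both (mv 397 (both (mv 368 (both (five 1 365 369) (mv 432 (both (five 0 397 433) (five 6 367 464))))) (mv 429 (both (five 2 396 428) (mv 430 (both (five 2 397 401) (mv 366 (both (five 4 366 462) (mv 334 (both (five 6 301 302) (five 6 333 461))))))))))) (both (mv 397 (both (mv 368 (both (five 1 365 369) (mv 432 (both (five 0 397 433) (five 6 367 464))))) (mv 396 (both (mv 364 (both (five 3 363 363) (five 3 364 365))) (both (mv 427 (both (five 2 395 428) (mv 395 (both (five 2 394 426) (mv 362 (both (five 3 362 363) (mv 366 (both (five 1 363 367) (mv 365 (both (five 1 362 394) (five 3 365 401))))))))))) (both (mv 363 (both (five 3 363 364) (mv 395 (both (five 3 362 362) (mv 427 (both (five 2 394 426) (five 2 395 428))))))) (mv 365 (both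 (five 3 364 364) (mv 366 (both (five 3 365 401) (mv 395 (both (five 1 363 367) (mv 427 (both (five 2 394 426) (five 2 395 428))))))))))))))) (mv 397 (both (mv 368 (both (five 1 365 369) (mv 432 (both (five 0 397 433) (five 6 367 464))))) (both (mv 365 (both (five 3 364 364) (mv 401 (both (five 3 365 366) (mv 370 (both (five 1 366 369) (mv 402 (both (five 1 367 371) (mv 430 (both (five 2 397 429) (mv 301 (both (five 4 301 333) (mv 433 (both (five 0 397 432) (mv 462 (both (five 7 365 494) (mv 497 (both (five 5 369 465) (mv 496 (both (five 3 462 498) (mv 461 (both (five 0 460 460) (five 0 461 464))))))))))))))))))))))) (both (mv 364 (both (five 3 364 365) (mv 368 (both (five 1 365 369) (mv 396 (both (five 3 363 363) (five 1 364 367))))))) (mv 364 (both (five 3 364 365) (mv 396 (both (five 3 363 363) (mv 368 (both (five 1 364 367) (mv 432 (both (five 0 397 433) (five 6 367 464))))))))))))))))))) (both (mv 464 (both (mv 432 (both (five 6 367 368) (mv 496 (both (five 7 367 367) (mv 401 (both (five 5 368 369) (five 5 400 433))))))) (both (mv 465 (both (mv 466 (both (five 2 462 494) (mv 435 (both (five 1 431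 434) (mv 467 (both (five 1 432 436) (mv 499 (both (five 0 463 498) (five 0 464 500))))))))) (both (mv 433 (both (mv 434 (both (five 1 430 462) (mv 435 (both (five 2 432 436) (mv 401 (both (five 0 399 402) (mv 368 (both (five 7 368 497) (mv 336 (both (five 4 304 304) (five 7 336 369))))))))))) (both (mv 496 (both (five 5 432 560) (mv 401 (both (five 6 368 369) (five 6 400 497))))) (both (mv 462 (both (five 1 430 434) (mv 429 (both (five 3 429 430) (mv 461 (both (five 3 428 428) (mv 497 (both (five 0 461 496) (five 0 462 498))))))))) (mv 434 (both (five 1 430 462) (mv 435 (both (five 2 432 436) (mv 401 (both (five 0 399 402) (mv 496 (both (five 6 368 369) (five 5 432 560))))))))))))) (both (mv 466 (both (five 2 462 494) (mv 434 (both (five 1 431 435) (mv 433 (both (five 1 430 462) (mv 496 (both (five 5 432 560) (mv 401 (both (five 6 368 369) (five 6 400 497))))))))))) (mv 466 (both (five 2 462 494) (mv 467 (both (five 2 463 496) (mv 499 (both (five 0 463 498) (five 0 464 500))))))))))) (both (mv 465 (both (mv 466 (both (five 2 462 494) (mv 467 (both (five 2 463 496) (mv 499 (both (five 0 463 498) (five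 0 464 500))))))) (both (mv 462 (both (mv 429 (both (five 3 429 430) (mv 461 (both (five 3 428 428) (mv 497 (both (five 0 461 496) (five 0 462 498))))))) (both (mv 429 (both (five 3 429 430) (mv 433 (both (five 1 430 434) (mv 461 (both (five 3 428 428) (five 1 429 432))))))) (mv 433 (both (five 1 430 434) (mv 496 (both (five 5 432 560) (mv 497 (both (five 6 400 401) (five 0 462 498)))))))))) (both (mv 466 (both (five 2 462 494) (mv 435 (both (five 1 431 434) (mv 467 (both (five 1 432 436) (mv 499 (both (five 0 463 498) (five 0 464 500))))))))) (mv 466 (both (five 2 462 494) (mv 435 (both (five 1 431 434) (mv 467 (both (five 1 432 436) (five 2 463 496))))))))))) (both (mv 432 (both (five 6 367 368) (mv 433 (both (mv 434 (both (five 2 431 435) (mv 462 (both (five 1 429 461) (five 1 430 465))))) (both (mv 398 (both (five 0 397 397) (mv 462 (both (five 1 429 461) (mv 366 (both (five 4 366 430) (mv 365 (both (five 3 365 401) (mv 364 (both (five 0 363 363) (five 0 364 367))))))))))) (mv 398 (both (five 0 397 397) (mv 434 (both (five 0 398 401) (five 3 399 435)))))))))) (both (ref 0) (mv 432 (both (five 6 367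 368) (mv 496 (both (five 7 367 367) (mv 560 (both (five 7 463 592) (mv 465 (both (five 5 432 433) (mv 466 (both (five 2 462 494) (five 2 463 467))))))))))))))))) (both (mv 401 (both (mv 402 (both (mv 371 (both (five 1 367 370) (mv 403 (both (five 1 368 372) (mv 435 (both (five 0 399 434) (five 0 400 436))))))) (both (mv 367 (both (five 3 366 366) (mv 371 (both (five 1 367 370) (mv 403 (both (five 3 367 368) (five 1 368 372))))))) (both (mv 367 (both (five 3 366 366) (mv 403 (both (five 3 367 368) (mv 435 (both (five 0 399 434) (five 0 400 436))))))) (mv 366 (both (five 3 366 367) (mv 370 (both (five 1 367 371) (mv 398 (both (five 3 365 365) (mv 434 (both (five 0 398 433) (five 0 399 435))))))))))))) (both (mv 398 (both (mv 365 (both (five 3 365 366) (mv 369 (both (five 1 366 370) (mv 397 (both (five 3 364 364) (five 1 365 368))))))) (both (mv 365 (both (five 3 365 366) (mv 397 (both (five 3 364 364) (mv 433 (both (five 0 397 432) (five 0 398 434))))))) (both (mv 369 (both (five 1 366 370) (mv 368 (both (five 1 365 397) (mv 433 (both (five 0 398 434) (mv 336 (both (five 4 304 304) (five 7 336 465)))))))))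 (mv 368 (both (mv 432 (both (five 6 367 464) (mv 433 (both (five 0 398 434) (mv 336 (both (five 4 304 304) (five 4 336 465))))))) (both (mv 366 (both (five 3 365 365) (mv 369 (both (five 1 366 370) (mv 432 (both (five 6 367 464) (mv 337 (both (five 6 304 305) (mv 367 (both (five 1 334 338) (mv 303 (both (five 4 303 335) (mv 334 (both (five 3 333 333) (mv 302 (both (five 4 270 270) (five 5 270 271))))))))))))))))) (mv 369 (both (five 1 366 370) (mv 433 (both (five 0 398 434) (mv 336 (both (five 4 304 304) (five 7 336 465)))))))))))))) (both (mv 402 (both (mv 371 (both (five 1 367 370) (mv 403 (both (five 1 368 372) (mv 435 (both (five 0 399 434) (five 0 400 436))))))) (both (mv 367 (both (five 3 366 366) (mv 403 (both (five 3 367 368) (mv 435 (both (five 0 399 434) (five 0 400 436))))))) (both (mv 367 (both (five 3 366 366) (mv 371 (both (five 1 367 370) (mv 403 (both (five 3 367 368) (five 1 368 372))))))) (mv 370 (both (five 1 367 371) (mv 338 (both (mv 306 (both (five 6 305 433) (mv 273 (both (five 7 273 305) (mv 274 (both (five 7 241 241) (five 6 273 369))))))) (both (mv 366 (both (five 3 366 367)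 (mv 434 (both (five 0 399 435) (mv 305 (both (five 7 305 337) (mv 306 (both (five 7 273 273) (mv 307 (both (five 5 274 275) (five 5 306 339))))))))))) (both (mv 366 (both (five 3 366 367) (mv 434 (both (five 0 399 435) (mv 305 (both (five 7 305 337) (mv 307 (both (five 5 306 339) (mv 465 (both (five 6 337 433) (mv 466 (both (five 6 369 497) (mv 369 (both (five 7 369 498) (mv 464 (both (five 2 462 494) (mv 432 (both (five 6 367 368) (five 5 368 496))))))))))))))))))) (mv 306 (both (five 6 305 433) (mv 274 (both (five 6 273 369) (mv 241 (both (five 7 241 273) (mv 307 (both (five 5 274 275) (mv 434 (both (five 5 306 339) (five 0 399 435))))))))))))))))))))) (both (mv 402 (both (mv 371 (both (five 1 367 370) (mv 403 (both (five 1 368 372) (mv 435 (both (five 0 399 434) (five 0 400 436))))))) (both (mv 435 (both (five 0 399 434) (mv 403 (both (five 0 400 436) (mv 368 (both (five 3 367 367) (mv 372 (both (five 1 368 371) (mv 404 (both (five 3 368 369) (five 1 369 373))))))))))) (both (mv 435 (both (five 0 399 434) (mv 403 (both (five 0 400 436) (mv 368 (both (five 3 367 367) (mv 369 (both (five 3 368 404)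 (mv 398 (both (five 1 366 370) (five 1 365 397))))))))))) (both (mv 403 (both (mv 368 (both (five 3 367 367) (mv 372 (both (five 1 368 371) (mv 404 (both (five 3 368 369) (five 1 369 373))))))) (both (mv 368 (both (five 3 367 367) (mv 369 (both (five 3 368 404) (mv 398 (both (five 1 366 370) (five 1 365 397))))))) (mv 371 (both (five 1 367 370) (five 1 368 372)))))) (mv 370 (both (five 1 367 371) (mv 369 (both (five 1 366 398) (mv 434 (both (five 0 399 435) (mv 337 (both (five 4 305 305) (five 7 337 466)))))))))))))) (both (mv 434 (both (mv 402 (both (five 0 399 435) (mv 370 (both (five 1 367 371) (mv 369 (both (five 1 366 398) (mv 337 (both (five 4 305 305) (five 7 337 466))))))))) (both (mv 433 (both (five 0 398 398) (mv 465 (both (mv 496 (both (five 6 400 497) (mv 560 (both (five 5 432 464) (five 7 463 592))))) (both (mv 497 (both (five 6 400 496) (mv 370 (both (five 5 369 402) (mv 369 (both (five 5 337 338) (mv 498 (both (five 4 369 466) (five 4 401 530))))))))) (mv 464 (both (five 1 430 462) (mv 466 (both (five 2 462 494) (mv 498 (both (five 0 463 499) (five 7 401 530)))))))))))) (both (mv 433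 (both (five 0 398 398) (mv 435 (both (five 3 399 432) (five 3 400 436))))) (mv 435 (both (five 0 399 402) (mv 433 (both (five 3 399 432) (five 3 400 436))))))))) (both (mv 398 (both (mv 365 (both (five 3 365 366) (mv 397 (both (five 3 364 364) (mv 428 (both (five 2 396 429) (mv 396 (both (five 2 395 427) (mv 368 (both (five 1 364 367) (mv 432 (both (five 0 397 433) (five 6 367 464))))))))))))) (both (mv 397 (both (mv 364 (both (five 3 364 365) (mv 396 (both (five 3 363 363) (mv 428 (both (five 2 395 427) (five 2 396 429))))))) (mv 368 (both (five 1 365 369) (mv 432 (both (five 0 397 433) (five 6 367 464))))))) (both (mv 370 (both (five 1 366 369) (mv 402 (both (five 1 367 371) (mv 367 (both (five 3 366 366) (mv 368 (both (five 3 367 403) (mv 397 (both (five 1 364 396) (mv 432 (both (five 0 397 433) (five 6 367 464))))))))))))) (mv 366 (both (five 3 365 365) (mv 370 (both (five 1 366 369) (mv 402 (both (five 3 366 367) (five 1 367 371))))))))))) (mv 398 (both (mv 365 (both (five 3 365 366) (mv 397 (both (five 3 364 364) (mv 433 (both (five 0 397 432) (five 0 398 434))))))) (both (mv 365 (both (five 3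 365 366) (mv 397 (both (five 3 364 364) (mv 368 (both (five 1 365 369) (mv 396 (both (five 1 364 367) (mv 428 (both (five 2 395 427) (five 2 396 429))))))))))) (both (mv 433 (both (five 0 398 434) (mv 397 (both (five 0 397 432) (mv 368 (both (five 1 365 369) (mv 396 (both (five 1 364 367) (mv 428 (both (five 2 395 427) (five 2 396 429))))))))))) (mv 366 (both (five 3 365 365) (mv 402 (both (five 3 366 367) (mv 434 (both (five 0 398 433) (five 0 399 435)))))))))))))))))) (mv 464 (both (mv 465 (both (mv 466 (both (five 2 462 494) (mv 467 (both (five 2 463 496) (mv 499 (both (five 0 463 498) (five 0 464 500))))))) (both (mv 433 (both (mv 496 (both (five 5 432 560) (mv 401 (both (five 6 368 369) (five 6 400 497))))) (both (mv 434 (both (five 1 430 462) (mv 435 (both (five 2 432 436) (mv 401 (both (five 0 399 402) (mv 368 (both (five 7 368 497) (mv 336 (both (five 4 304 304) (five 7 336 369))))))))))) (both (mv 462 (both (five 1 430 434) (mv 496 (both (five 5 432 560) (mv 497 (both (five 3 462 498) (five 0 461 461))))))) (mv 434 (both (five 1 430 462) (mv 435 (both (five 2 432 436) (mv 401 (both (five 0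 399 402) (mv 496 (both (five 6 368 369) (five 5 432 560))))))))))))) (both (mv 466 (both (five 2 462 494) (mv 435 (both (five 1 431 434) (mv 467 (both (five 1 432 436) (mv 499 (both (five 0 463 498) (five 0 464 500))))))))) (mv 466 (both (five 2 462 494) (mv 435 (both (five 1 431 434) (mv 467 (both (five 1 432 436) (five 2 463 496))))))))))) (both (mv 465 (both (mv 466 (both (five 2 462 494) (mv 467 (both (five 2 463 496) (mv 499 (both (five 0 463 498) (five 0 464 500))))))) (both (mv 433 (both (mv 434 (both (five 1 430 462) (mv 435 (both (five 2 431 432) (five 2 432 436))))) (mv 496 (both (five 5 432 560) (mv 401 (both (five 6 368 369) (five 6 400 497))))))) (mv 466 (both (five 2 462 494) (mv 435 (both (five 1 431 434) (mv 467 (both (five 1 432 436) (mv 499 (both (five 0 463 498) (five 0 464 500)))))))))))) (both (mv 432 (both (five 6 367 368) (mv 433 (both (mv 434 (both (five 2 431 435) (mv 462 (both (five 1 429 461) (five 1 430 465))))) (both (mv 398 (both (five 0 397 397) (mv 462 (both (five 1 429 461) (mv 366 (both (five 4 366 430) (mv 365 (both (five 3 365 401) (mv 364 (both (five 0 363 363) (five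 0 364 367))))))))))) (mv 398 (both (five 0 397 397) (mv 434 (both (five 0 398 401) (five 3 399 435)))))))))) (both (mv 432 (both (five 6 367 368) (mv 496 (both (five 7 367 367) (mv 560 (both (five 7 463 592) (mv 465 (both (five 5 432 433) (mv 466 (both (five 2 462 494) (five 2 463 467))))))))))) (mv 401 (both (mv 432 (both (five 6 367 368) (mv 496 (both (five 7 367 367) (five 5 368 369))))) (both (mv 402 (both (mv 371 (both (five 1 367 370) (mv 403 (both (five 1 368 372) (mv 435 (both (five 0 399 434) (five 0 400 436))))))) (both (mv 435 (both (five 0 399 434) (mv 403 (both (five 0 400 436) (mv 368 (both (five 3 367 367) (mv 372 (both (five 1 368 371) (mv 404 (both (five 3 368 369) (five 1 369 373))))))))))) (both (mv 435 (both (five 0 399 434) (mv 403 (both (five 0 400 436) (mv 368 (both (five 3 367 367) (mv 369 (both (five 3 368 404) (mv 398 (both (five 1 366 370) (five 1 365 397))))))))))) (both (mv 403 (both (mv 368 (both (five 3 367 367) (mv 372 (both (five 1 368 371) (mv 404 (both (five 3 368 369) (five 1 369 373))))))) (both (mv 368 (both (five 3 367 367) (mv 369 (both (five 3 368 404) (mv 398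 (both (five 1 366 370) (five 1 365 397))))))) (mv 371 (both (five 1 367 370) (five 1 368 372)))))) (mv 370 (both (five 1 367 371) (mv 369 (both (five 1 366 398) (mv 434 (both (five 0 399 435) (mv 337 (both (five 4 305 305) (five 7 337 466)))))))))))))) (both (mv 366 (both (mv 402 (both (five 3 366 367) (mv 371 (both (five 1 367 370) (mv 403 (both (five 1 368 372) (mv 435 (both (five 0 399 434) (five 0 400 436))))))))) (both (mv 398 (both (five 3 365 365) (mv 369 (both (five 1 366 370) (mv 462 (both (five 4 366 430) (mv 496 (both (five 5 368 432) (mv 497 (both (five 3 462 498) (five 0 461 461))))))))))) (mv 365 (both (five 3 365 398) (mv 367 (both (five 0 364 364) (five 3 366 402)))))))) (both (mv 432 (both (five 6 367 368) (mv 369 (both (five 5 368 496) (mv 370 (both (five 1 366 398) (mv 371 (both (five 2 368 372) (five 1 367 402))))))))) (mv 432 (both (five 6 367 368) (mv 367 (both (five 7 367 496) (mv 303 (both (five 4 303 335) (mv 402 (both (five 3 366 366) (mv 371 (both (five 1 367 370) (mv 403 (both (five 1 368 372) (mv 435 (both (five 0 399 434) (five 0 400 436)))))))))))))))))))))))))))))))))))))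 (both (mv 431 (both (mv 366 (both (five 7 366 398) (mv 367 (both (five 7 334 334) (mv 368 (both (five 5 335 336) (five 5 367 400))))))) (both (mv 366 (both (five 7 366 398) (mv 367 (both (five 7 334 334) (mv 336 (both (five 5 335 368) (mv 335 (both (five 5 303 304) (mv 462 (both (five 6 334 430) (five 6 366 494))))))))))) (both (mv 367 (both (mv 368 (both (five 5 335 336) (five 5 367 400))) (both (mv 462 (both (five 6 366 494) (mv 335 (both (five 6 334 430) (mv 302 (both (five 7 302 334) (mv 303 (both (five 7 270 270) (mv 304 (both (five 5 271 272) (five 5 303 336))))))))))) (mv 400 (both (five 5 367 368) (mv 462 (both (five 6 366 494) (mv 335 (both (five 6 334 430) (mv 432 (both (five 4 303 303) (five 4 335 464)))))))))))) (both (mv 366 (both (five 7 366 398) (mv 367 (both (five 7 334 334) (mv 462 (both (five 6 366 494) (mv 335 (both (five 6 334 430) (mv 304 (both (five 5 303 336) (mv 303 (both (five 5 271 272) (mv 432 (both (five 4 303 400) (five 4 335 464))))))))))))))) (mv 398 (both (five 7 366 366) (mv 397 (both (mv 396 (both (five 0 396 432) (mv 363 (both (five 3 363 364) (mv 395 (both (five 3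 362 362) (five 0 395 430))))))) (both (mv 400 (both (five 5 367 368) (mv 364 (both (five 3 364 365) (mv 396 (both (five 3 363 363) (mv 428 (both (five 2 395 427) (five 2 396 429))))))))) (both (mv 400 (both (five 5 367 368) (mv 364 (both (five 3 364 365) (mv 428 (both (five 2 396 429) (mv 433 (both (five 0 397 432) (mv 401 (both (five 0 398 434) (mv 370 (both (five 1 366 369) (mv 402 (both (five 1 367 371) (five 2 398 430))))))))))))))) (mv 368 (both (five 5 367 400) (mv 396 (both (five 0 396 432) (mv 395 (both (five 0 395 430) (mv 427 (both (five 2 394 426) (five 2 395 428)))))))))))))))))))) (both (mv 431 (both (five 4 399 496) (mv 366 (both (five 7 366 398) (mv 367 (both (five 7 334 334) (mv 336 (both (five 5 335 368) (mv 335 (both (five 5 303 304) (mv 462 (both (five 6 334 430) (five 6 366 494))))))))))))) (both (mv 431 (both (five 4 399 496) (mv 398 (both (five 7 366 366) (mv 397 (both (mv 396 (both (five 0 396 432) (mv 363 (both (five 3 363 364) (mv 395 (both (five 3 362 362) (five 0 395 430))))))) (both (mv 400 (both (five 5 367 368) (mv 364 (both (five 3 364 365) (mv 396 (both (five 3 363 363)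 (mv 428 (both (five 2 395 427) (five 2 396 429))))))))) (both (mv 400 (both (five 5 367 368) (mv 364 (both (five 3 364 365) (mv 428 (both (five 2 396 429) (mv 433 (both (five 0 397 432) (mv 401 (both (five 0 398 434) (mv 370 (both (five 1 366 369) (mv 402 (both (five 1 367 371) (five 2 398 430))))))))))))))) (mv 368 (both (five 5 367 400) (mv 396 (both (five 0 396 432) (mv 395 (both (five 0 395 430) (mv 427 (both (five 2 394 426) (five 2 395 428))))))))))))))))) (both (mv 431 (both (five 4 399 496) (mv 367 (both (mv 368 (both (five 5 335 336) (five 5 367 400))) (both (mv 462 (both (five 6 366 494) (mv 335 (both (five 6 334 430) (mv 302 (both (five 7 302 334) (mv 303 (both (five 7 270 270) (mv 304 (both (five 5 271 272) (five 5 303 336))))))))))) (mv 400 (both (five 5 367 368) (mv 462 (both (five 6 366 494) (mv 335 (both (five 6 334 430) (mv 432 (both (five 4 303 303) (five 4 335 464)))))))))))))) (both (mv 431 (both (five 4 399 496) (mv 366 (both (five 7 366 398) (mv 367 (both (five 7 334 334) (mv 462 (both (five 6 366 494) (mv 335 (both (five 6 334 430) (mv 304 (both (five 5 303 336) (mv 303 (both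 (five 5 271 272) (mv 432 (both (five 4 303 400) (five 4 335 464))))))))))))))))) (mv 431 (both (five 4 399 496) (mv 366 (both (five 7 366 398) (mv 367 (both (five 7 334 334) (mv 368 (both (five 5 335 336) (five 5 367 400)))))))))))))))

theorem L53 : W (S 988530863161101255477965199823351247902181399264280175473348632901073111861570523490045856288251469453467802101127056952626884798991366094595640433003529764864) (S 56731658227380924828900789841733932669539018810747443281616108955286931588514977083953228742979079719153645961892166516565845044015338309993867318019832429906842163389824510197760) :=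
  check_sound (Env.cons L52 Env.nil) (x := 399) (t := tL53) (by decide +kernel)

end P062.Cert
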