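import Vale.Agent.P062.Check
import Vale.Agent.P062.Cert.C2
import Vale.Agent.P062.Cert.C3
import Vale.Agent.P062.Cert.C4
import Vale.Agent.P062.Cert.C6
import Vale.Agent.P062.Cert.C7

/-! Snaky certificate, part 8 (machine generated, checked by the kernel) -/

set_option maxRecDepth 100000

namespace P062.Cert

open T

def tL54 : T :=
  (both (ref 0) (both (mv 560 (both (mv 592 (both (five 7 463 496) (ref 1))) (both (mv 592 (both (ref 1) (both (mv 559 (both (five 4 463 527) (mv 561 (both (mv 562 (both (mv 595 (both (five 0 559 594) (mv 563 (both (five 0 560 596) (mv 531 (both (five 1 527 530) (five 1 528 532))))))) (both (mv 531 (both (five 1 527 530) (mv 563 (both (five 1 528 532) (mv 564 (both (five 2 560 593) (mv 596 (both (five 0 560 595) (five 0 561 597))))))))) (both (mv 531 (both (five 1 527 530) (mv 563 (both (five 1 528 532) (mv 593 (both (five 2 560 564) (mv 558 (both (five 0 558 594) (mv 589 (both (five 2 557 590) (mv 557 (both (five 2 556 588) (five 3 524 524))))))))))))) (mv 594 (both (five 0 559 595) (mv 558 (both (five 0 558 593) (mv 589 (both (five 2 557 590) (mv 557 (both (five 2 556 588)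 (five 3 524 524))))))))))))) (both (mv 558 (both (mv 589 (both (five 2 557 590) (mv 557 (both (five 2 556 588) (five 3 524 524))))) (both (mv 557 (both (five 3 524 524) (mv 588 (both (five 2 556 589) (mv 556 (both (five 2 555 587) (five 0 556 591))))))) (both (mv 590 (both (five 2 557 589) (mv 562 (both (five 2 558 591) (mv 595 (both (five 0 559 594) (mv 563 (both (five 0 560 596) (mv 531 (both (five 1 527 530) (five 1 528 532))))))))))) (mv 557 (both (five 3 524 524) (mv 591 (both (five 0 556 556) (mv 562 (both (five 2 558 590) (mv 595 (both (five 0 559 594) (mv 563 (both (five 0 560 596) (mv 531 (both (five 1 527 530) (five 1 528 532))))))))))))))))) (both (mv 558 (both (mv 557 (both (five 0 557 593) (five 3 524 524))) (both (mv 589 (both (five 2 557 590) (mv 557 (both (five 2 556 588) (five 3 524 524))))) (mv 590 (both (five 2 557 589) (mv 593 (both (five 0 558 594) (mv 625 (both (five 7 528 657) (mv 591 (both (five 0 590 626) (mv 622 (both (five 2 589 621) (mv 654 (both (five 5 558 686) (mv 655 (both (five 5 527 623) (five 4 558 687)))))))))))))))))) (both (mv 562 (both (mv 591 (both (five 2 559 563)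 (five 2 558 590))) (both (mv 595 (both (five 0 559 594) (mv 563 (both (five 0 560 596) (mv 531 (both (five 1 527 530) (five 1 528 532))))))) (mv 530 (both (five 1 527 531) (mv 591 (both (five 2 558 590) (mv 594 (both (five 0 559 595) (mv 623 (both (five 5 527 655) (mv 593 (both (five 2 590 622) (mv 498 (both (five 6 465 466) (five 6 497 625)))))))))))))))) (both (mv 562 (both (mv 595 (both (five 0 559 594) (mv 563 (both (five 0 560 596) (mv 531 (both (five 1 527 530) (five 1 528 532))))))) (both (mv 594 (both (five 0 559 595) (mv 593 (both (five 0 558 558) (mv 625 (both (five 7 528 657) (mv 530 (both (five 1 527 531) (five 6 497 498))))))))) (mv 563 (both (five 2 559 591) (mv 564 (both (five 2 560 593) (mv 533 (both (five 1 529 532) (mv 565 (both (five 1 530 534) (mv 597 (both (five 0 561 596) (five 0 562 598)))))))))))))) (mv 562 (both (mv 591 (both (five 2 559 563) (five 2 558 590))) (both (mv 531 (both (five 1 527 530) (mv 563 (both (five 1 528 532) (mv 564 (both (five 2 560 593) (mv 596 (both (five 0 560 595) (five 0 561 597))))))))) (mv 530 (both (five 1 527 531) (mv 590 (both (five 2 558 591) (mv 558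 (both (five 2 557 589) (mv 557 (both (five 0 557 593) (five 3 524 524)))))))))))))))))))) (both (mv 624 (both (five 7 495 527) (mv 655 (both (five 6 527 623) (mv 656 (both (five 6 559 687) (mv 657 (both (five 4 560 689) (five 4 528 625))))))))) (mv 527 (both (five 4 463 559) (five 7 495 624))))))) (both (mv 464 (both (mv 465 (both (mv 462 (both (mv 368 (both (mv 369 (both (mv 367 (both (mv 370 (both (mv 339 (both (five 1 335 338) (mv 371 (both (five 1 336 340) (mv 403 (both (five 0 367 402) (five 0 368 404))))))) (both (mv 335 (both (five 3 334 334) (mv 371 (both (five 3 335 336) (mv 403 (both (five 0 367 402) (five 0 368 404))))))) (both (mv 335 (both (five 3 334 334) (mv 339 (both (five 1 335 338) (mv 371 (both (five 3 335 336) (five 1 336 340))))))) (mv 338 (both (five 1 335 339) (mv 306 (both (mv 334 (both (five 3 334 335) (mv 398 (both (five 2 366 399) (mv 402 (both (five 0 367 403) (mv 305 (both (five 7 273 273) (mv 307 (both (five 5 274 275) (mv 337 (both (five 7 305 434) (mv 308 (both (five 2 305 309) (five 2 304 336))))))))))))))) (both (mv 274 (both (five 6 273 401) (mv 275 (both (five 5 242 243)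 (mv 402 (both (five 5 274 307) (five 0 367 403))))))) (both (mv 274 (both (five 6 273 401) (mv 335 (both (five 3 334 334) (mv 337 (both (five 6 241 242) (mv 336 (both (five 1 303 307) (mv 303 (both (five 3 302 302) (mv 271 (both (five 4 239 239) (mv 238 (both (five 7 238 270) (mv 272 (both (five 5 239 240) (mv 399 (both (five 6 271 304) (five 2 366 398))))))))))))))))))) (mv 274 (both (five 6 273 401) (mv 241 (both (five 7 241 273) (mv 275 (both (five 5 242 243) (mv 335 (both (five 3 334 334) (mv 337 (both (five 6 241 242) (mv 399 (both (five 2 366 398) (mv 402 (both (five 0 367 403) (mv 305 (both (five 7 305 434) (mv 276 (both (five 2 273 277) (mv 303 (both (five 1 271 304) (mv 302 (both (five 7 270 270) (five 3 302 336))))))))))))))))))))))))))))))))) (both (mv 366 (both (mv 333 (both (five 3 333 334) (mv 337 (both (five 1 334 338) (mv 365 (both (five 3 332 332) (five 1 333 336))))))) (mv 398 (both (five 2 365 397) (five 4 366 430))))) (both (mv 370 (both (mv 339 (both (five 1 335 338) (mv 371 (both (five 1 336 340) (mv 403 (both (five 0 367 402) (five 0 368 404))))))) (both (mv 334 (both (five 3 334 335)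 (mv 366 (both (five 3 333 333) (mv 402 (both (five 0 366 401) (five 0 367 403))))))) (mv 334 (both (five 3 334 335) (mv 338 (both (five 1 335 339) (mv 366 (both (five 3 333 333) (five 1 334 337)))))))))) (both (mv 366 (both (mv 398 (both (five 2 365 397) (five 4 366 430))) (mv 338 (both (five 1 334 337) (mv 370 (both (five 1 335 339) (mv 402 (both (five 0 366 401) (five 0 367 403))))))))) (mv 366 (both (mv 398 (both (five 2 365 397) (five 4 366 430))) (mv 334 (both (five 3 333 333) (mv 370 (both (five 3 334 335) (mv 402 (both (five 0 366 401) (five 0 367 403)))))))))))))) (both (mv 367 (both (mv 366 (both (mv 333 (both (five 3 333 334) (mv 337 (both (five 1 334 338) (mv 365 (both (five 3 332 332) (five 1 333 336))))))) (mv 398 (both (five 2 365 397) (five 4 366 430))))) (both (mv 370 (both (mv 339 (both (five 1 335 338) (mv 371 (both (five 1 336 340) (mv 403 (both (five 0 367 402) (five 0 368 404))))))) (both (mv 335 (both (five 3 334 334) (mv 371 (both (five 3 335 336) (mv 403 (both (five 0 367 402) (five 0 368 404))))))) (both (mv 335 (both (five 3 334 334) (mv 339 (both (five 1 335 338) (mv 371 (both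 (five 3 335 336) (five 1 336 340))))))) (mv 335 (both (five 3 334 334) (mv 338 (both (five 1 335 339) (mv 398 (both (five 2 366 399) (mv 401 (both (five 5 337 433) (mv 306 (both (five 6 273 274) (mv 402 (both (five 0 367 403) (mv 305 (both (five 7 273 273) (mv 307 (both (five 5 274 275) (mv 336 (both (five 2 303 304) (five 1 303 337))))))))))))))))))))))) (both (mv 370 (both (mv 339 (both (five 1 335 338) (mv 371 (both (five 1 336 340) (mv 403 (both (five 0 367 402) (five 0 368 404))))))) (both (mv 334 (both (five 3 334 335) (mv 366 (both (five 3 333 333) (mv 402 (both (five 0 366 401) (five 0 367 403))))))) (mv 334 (both (five 3 334 335) (mv 338 (both (five 1 335 339) (mv 366 (both (five 3 333 333) (five 1 334 337)))))))))) (both (mv 366 (both (mv 398 (both (five 2 365 397) (five 4 366 430))) (mv 334 (both (five 3 333 333) (mv 370 (both (five 3 334 335) (mv 402 (both (five 0 366 401) (five 0 367 403))))))))) (mv 366 (both (mv 398 (both (five 2 365 397) (five 4 366 430))) (mv 338 (both (five 1 334 337) (mv 370 (both (five 1 335 339) (mv 402 (both (five 0 366 401) (five 0 367 403)))))))))))))) (both (mv 367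 (both (mv 366 (both (mv 333 (both (five 3 333 334) (mv 337 (both (five 1 334 338) (mv 365 (both (five 3 332 332) (five 1 333 336))))))) (mv 398 (both (five 2 365 397) (five 4 366 430))))) (both (mv 370 (both (mv 339 (both (five 1 335 338) (mv 371 (both (five 1 336 340) (mv 403 (both (five 0 367 402) (five 0 368 404))))))) (both (mv 335 (both (five 3 334 334) (mv 371 (both (five 3 335 336) (mv 403 (both (five 0 367 402) (five 0 368 404))))))) (both (mv 335 (both (five 3 334 334) (mv 339 (both (five 1 335 338) (mv 371 (both (five 3 335 336) (five 1 336 340))))))) (mv 335 (both (five 3 334 334) (mv 338 (both (five 1 335 339) (mv 399 (both (five 2 366 398) (mv 402 (both (five 0 367 403) (mv 434 (both (five 6 337 433) (mv 305 (both (five 7 305 337) (mv 306 (both (five 7 273 273) (mv 307 (both (five 5 274 275) (mv 304 (both (five 2 303 336) (mv 272 (both (five 3 271 271) (five 5 271 303))))))))))))))))))))))))) (both (mv 370 (both (mv 339 (both (five 1 335 338) (mv 371 (both (five 1 336 340) (mv 403 (both (five 0 367 402) (five 0 368 404))))))) (both (mv 335 (both (five 3 334 334) (mv 371 (both (five 3 335 336)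 (mv 403 (both (five 0 367 402) (five 0 368 404))))))) (mv 334 (both (five 3 334 335) (mv 338 (both (five 1 335 339) (mv 366 (both (five 3 333 333) (five 1 334 337)))))))))) (both (mv 366 (both (mv 398 (both (five 2 365 397) (five 4 366 430))) (both (mv 337 (both (five 1 334 338) (mv 365 (both (five 1 333 336) (mv 332 (both (five 3 332 333) (mv 364 (both (five 3 331 331) (mv 396 (both (five 2 363 395) (five 2 364 397))))))))))) (mv 337 (both (five 1 334 338) (mv 336 (both (five 1 333 365) (mv 398 (both (five 4 366 430) (mv 370 (both (five 2 366 399) (mv 371 (both (five 3 335 335) (five 3 336 372)))))))))))))) (both (mv 366 (both (mv 398 (both (five 2 365 397) (five 4 366 430))) (both (mv 333 (both (five 3 333 334) (mv 365 (both (five 3 332 332) (mv 336 (both (five 1 333 337) (mv 364 (both (five 1 332 335) (mv 396 (both (five 2 363 395) (five 2 364 397))))))))))) (mv 333 (both (five 3 333 334) (mv 332 (both (five 3 332 365) (mv 398 (both (five 4 366 430) (mv 370 (both (five 2 366 399) (mv 403 (both (five 0 367 402) (mv 371 (both (five 0 368 404) (mv 336 (both (five 3 335 335) (mv 340 (both (five 1 336 339)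 (mv 372 (both (five 3 336 337) (five 1 337 341)))))))))))))))))))))) (both (mv 370 (both (mv 339 (both (five 1 335 338) (mv 371 (both (five 1 336 340) (mv 403 (both (five 0 367 402) (five 0 368 404))))))) (both (mv 335 (both (five 3 334 334) (mv 371 (both (five 3 335 336) (mv 403 (both (five 0 367 402) (five 0 368 404))))))) (mv 334 (both (five 3 334 335) (mv 338 (both (five 1 335 339) (mv 366 (both (five 3 333 333) (mv 398 (both (five 2 365 397) (five 4 366 430)))))))))))) (mv 366 (both (mv 398 (both (five 2 365 397) (five 4 366 430))) (mv 334 (both (five 3 333 333) (mv 338 (both (five 1 334 337) (mv 370 (both (five 3 334 335) (five 1 335 339)))))))))))))))) (both (mv 433 (both (five 1 430 434) (mv 401 (both (five 7 336 336) (mv 432 (both (five 6 336 337) (five 1 429 461))))))) (both (mv 433 (both (five 1 430 434) (mv 432 (both (five 1 429 461) (mv 401 (both (five 6 336 337) (mv 370 (both (five 5 337 338) (mv 497 (both (five 5 369 402) (five 0 462 498))))))))))) (mv 433 (both (five 1 430 434) (mv 401 (both (five 7 336 336) (mv 370 (both (five 5 337 338) (mv 497 (both (five 5 369 402) (five 0 462 498)))))))))))))))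 (both (mv 433 (both (five 1 430 434) (mv 497 (both (five 0 462 498) (mv 401 (both (five 7 368 400) (mv 369 (both (five 7 336 336) (mv 370 (both (five 5 337 338) (five 5 369 402))))))))))) (both (mv 400 (both (five 6 367 432) (mv 366 (both (mv 367 (both (mv 398 (both (five 4 366 430) (mv 369 (both (five 2 365 397) (mv 334 (both (five 3 333 333) (mv 370 (both (five 3 334 335) (mv 402 (both (five 0 366 401) (five 0 367 403))))))))))) (both (mv 398 (both (five 4 366 430) (mv 369 (both (five 2 365 397) (mv 333 (both (five 3 333 334) (mv 337 (both (five 1 334 338) (mv 365 (both (five 3 332 332) (five 1 333 336))))))))))) (both (mv 365 (both (five 0 365 401) (mv 332 (both (five 3 332 333) (mv 336 (both (five 1 333 337) (mv 364 (both (five 3 331 331) (five 1 332 335))))))))) (mv 365 (both (five 0 365 401) (mv 336 (both (five 1 333 337) (mv 364 (both (five 1 332 335) (mv 396 (both (five 2 363 395) (five 2 364 397))))))))))))) (both (mv 398 (both (five 4 366 430) (mv 399 (both (mv 369 (both (five 1 365 397) (mv 370 (both (five 2 367 371) (five 1 366 401))))) (both (mv 365 (both (five 3 365 401) (mv 364 (both (five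 0 363 363) (five 3 364 397))))) (both (mv 401 (both (five 3 365 365) (mv 402 (both (mv 370 (both (five 1 366 369) (five 1 367 371))) (both (mv 435 (both (five 0 399 434) (mv 403 (both (five 0 400 436) (mv 372 (both (five 1 368 371) (mv 404 (both (five 3 368 369) (five 1 369 373))))))))) (both (mv 371 (both (five 1 367 370) (mv 403 (both (five 1 368 372) (mv 435 (both (five 0 399 434) (five 0 400 436))))))) (mv 369 (both (five 1 366 370) (mv 403 (both (five 3 368 404) (mv 435 (both (five 0 399 434) (five 0 400 436))))))))))))) (mv 397 (both (five 1 365 369) (mv 396 (both (mv 364 (both (five 3 363 363) (five 3 364 365))) (both (mv 427 (both (five 2 395 428) (mv 395 (both (five 2 394 426) (mv 362 (both (five 3 362 363) (mv 394 (both (five 3 361 361) (five 1 362 365))))))))) (both (mv 363 (both (five 3 363 364) (mv 395 (both (five 3 362 362) (mv 427 (both (five 2 394 426) (five 2 395 428))))))) (mv 365 (both (five 3 364 364) (mv 395 (both (five 1 362 394) (mv 427 (both (five 2 394 426) (five 2 395 428))))))))))))))))))) (both (mv 369 (both (mv 398 (both (five 4 366 430) (mv 397 (both (five 2 365 367) (five 1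 365 399))))) (both (mv 367 (both (mv 338 (both (five 1 334 337) (mv 370 (both (five 1 335 339) (mv 402 (both (five 0 366 401) (five 0 367 403))))))) (both (mv 334 (both (five 3 333 333) (mv 338 (both (five 1 334 337) (mv 370 (both (five 3 334 335) (five 1 335 339))))))) (both (mv 334 (both (five 3 333 333) (mv 370 (both (five 3 334 335) (mv 402 (both (five 0 366 401) (five 0 367 403))))))) (mv 334 (both (five 3 333 333) (mv 337 (both (five 1 334 338) (mv 305 (both (five 6 272 273) (mv 401 (both (five 0 366 402) (mv 304 (both (five 7 272 272) (mv 306 (both (five 5 273 274) (mv 335 (both (five 2 302 303) (five 1 302 336))))))))))))))))))) (mv 398 (both (five 4 366 430) (mv 399 (both (five 1 365 397) (mv 370 (both (five 2 367 371) (five 1 366 401)))))))))) (both (mv 365 (both (mv 367 (both (five 0 365 401) (mv 332 (both (five 3 332 333) (mv 336 (both (five 1 333 337) (mv 364 (both (five 3 331 331) (five 1 332 335))))))))) (both (mv 398 (both (five 4 366 430) (mv 399 (both (five 3 365 401) (mv 364 (both (five 0 363 363) (five 3 364 397))))))) (both (mv 367 (both (mv 332 (both (five 3 332 333) (mv 336 (both (five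 1 333 337) (mv 364 (both (five 3 331 331) (five 1 332 335))))))) (both (mv 333 (both (five 3 332 332) (mv 336 (both (five 1 333 337) (mv 397 (both (five 2 364 396) (mv 398 (both (five 7 333 430) (mv 301 (both (five 4 269 269) (mv 300 (both (five 7 268 268) (mv 302 (both (five 5 269 270) (mv 303 (both (five 0 300 335) (mv 272 (both (five 1 268 271) (mv 304 (both (five 1 269 273) (five 6 271 399))))))))))))))))))))) (both (mv 332 (both (five 3 332 333) (mv 364 (both (five 3 331 331) (mv 396 (both (five 2 363 395) (five 2 364 397))))))) (mv 336 (both (five 1 333 337) (mv 364 (both (five 1 332 335) (mv 396 (both (five 2 363 395) (five 2 364 397))))))))))) (mv 367 (both (five 0 365 401) (mv 333 (both (five 3 332 332) (mv 336 (both (five 1 333 337) (mv 397 (both (five 2 364 396) (mv 398 (both (five 7 333 430) (mv 301 (both (five 4 269 269) (mv 300 (both (five 7 268 268) (mv 302 (both (five 5 269 270) (mv 303 (both (five 0 300 335) (mv 272 (both (five 1 268 271) (mv 304 (both (five 1 269 273) (five 6 271 399))))))))))))))))))))))))))) (both (mv 367 (both (mv 365 (both (mv 332 (both (five 3 332 333) (mv 336 (both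 (five 1 333 337) (mv 364 (both (five 3 331 331) (five 1 332 335))))))) (both (mv 333 (both (five 3 332 332) (mv 336 (both (five 1 333 337) (mv 397 (both (five 2 364 396) (mv 398 (both (five 7 333 430) (mv 301 (both (five 4 269 269) (mv 300 (both (five 7 268 268) (mv 302 (both (five 5 269 270) (mv 303 (both (five 0 300 335) (mv 272 (both (five 1 268 271) (mv 304 (both (five 1 269 273) (five 6 271 399))))))))))))))))))))) (both (mv 332 (both (five 3 332 333) (mv 364 (both (five 3 331 331) (mv 396 (both (five 2 363 395) (five 2 364 397))))))) (mv 336 (both (five 1 333 337) (mv 364 (both (five 1 332 335) (mv 396 (both (five 2 363 395) (five 2 364 397))))))))))) (both (mv 365 (both (mv 333 (both (five 3 332 332) (mv 337 (both (five 1 333 336) (mv 369 (both (five 3 333 334) (five 1 334 338))))))) (both (mv 336 (both (five 1 333 337) (mv 364 (both (five 1 332 335) (five 0 364 399))))) (mv 332 (both (five 3 332 333) (mv 364 (both (five 3 331 331) (five 0 364 399)))))))) (both (mv 398 (both (five 4 366 430) (mv 369 (both (five 2 365 397) (mv 338 (both (five 1 334 337) (mv 370 (both (five 1 335 339) (mv 335 (both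 (five 3 334 334) (mv 371 (both (five 3 335 336) (mv 403 (both (five 0 367 402) (five 0 368 404))))))))))))))) (mv 398 (both (five 4 366 430) (mv 369 (both (five 2 365 397) (mv 333 (both (five 3 333 334) (mv 332 (both (five 3 332 365) (mv 370 (both (five 2 366 399) (mv 339 (both (five 1 335 338) (mv 371 (both (five 1 336 340) (mv 403 (both (five 0 367 402) (five 0 368 404))))))))))))))))))))) (mv 367 (both (mv 369 (both (mv 338 (both (five 1 334 337) (mv 370 (both (five 1 335 339) (mv 402 (both (five 0 366 401) (five 0 367 403))))))) (both (mv 334 (both (five 3 333 333) (mv 338 (both (five 1 334 337) (mv 370 (both (five 3 334 335) (five 1 335 339))))))) (both (mv 334 (both (five 3 333 333) (mv 370 (both (five 3 334 335) (mv 402 (both (five 0 366 401) (five 0 367 403))))))) (mv 334 (both (five 3 333 333) (mv 337 (both (five 1 334 338) (mv 305 (both (five 6 272 273) (mv 401 (both (five 0 366 402) (mv 304 (both (five 7 272 272) (mv 306 (both (five 5 273 274) (mv 335 (both (five 2 302 303) (five 1 302 336))))))))))))))))))) (both (mv 365 (both (mv 333 (both (five 3 332 332) (mv 337 (both (five 1 333 336) (mv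 369 (both (five 3 333 334) (five 1 334 338))))))) (both (mv 336 (both (five 1 333 337) (mv 364 (both (five 1 332 335) (five 0 364 399))))) (mv 332 (both (five 3 332 333) (mv 364 (both (five 3 331 331) (five 0 364 399)))))))) (both (mv 365 (both (five 0 365 401) (mv 332 (both (five 3 332 333) (mv 364 (both (five 3 331 331) (five 0 364 399))))))) (mv 365 (both (five 0 365 401) (mv 336 (both (five 1 333 337) (mv 364 (both (five 1 332 335) (five 0 364 399))))))))))))))))))) (both (mv 369 (both (mv 367 (both (mv 366 (both (mv 333 (both (five 3 333 334) (mv 337 (both (five 1 334 338) (mv 365 (both (five 3 332 332) (five 1 333 336))))))) (mv 398 (both (five 2 365 397) (five 4 366 430))))) (both (mv 370 (both (mv 339 (both (five 1 335 338) (mv 371 (both (five 1 336 340) (mv 403 (both (five 0 367 402) (five 0 368 404))))))) (both (mv 335 (both (five 3 334 334) (mv 371 (both (five 3 335 336) (mv 403 (both (five 0 367 402) (five 0 368 404))))))) (both (mv 335 (both (five 3 334 334) (mv 339 (both (five 1 335 338) (mv 371 (both (five 3 335 336) (five 1 336 340))))))) (mv 335 (both (five 3 334 334) (mv 338 (both (five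 1 335 339) (mv 398 (both (five 2 366 399) (mv 401 (both (five 5 337 433) (mv 306 (both (five 6 273 274) (mv 402 (both (five 0 367 403) (mv 305 (both (five 7 273 273) (mv 307 (both (five 5 274 275) (mv 336 (both (five 2 303 304) (five 1 303 337))))))))))))))))))))))) (both (mv 370 (both (mv 339 (both (five 1 335 338) (mv 371 (both (five 1 336 340) (mv 403 (both (five 0 367 402) (five 0 368 404))))))) (both (mv 334 (both (five 3 334 335) (mv 366 (both (five 3 333 333) (mv 402 (both (five 0 366 401) (five 0 367 403))))))) (mv 334 (both (five 3 334 335) (mv 338 (both (five 1 335 339) (mv 366 (both (five 3 333 333) (five 1 334 337)))))))))) (both (mv 366 (both (mv 398 (both (five 2 365 397) (five 4 366 430))) (mv 334 (both (five 3 333 333) (mv 370 (both (five 3 334 335) (mv 402 (both (five 0 366 401) (five 0 367 403))))))))) (mv 366 (both (mv 398 (both (five 2 365 397) (five 4 366 430))) (mv 338 (both (five 1 334 337) (mv 370 (both (five 1 335 339) (mv 402 (both (five 0 366 401) (five 0 367 403)))))))))))))) (both (mv 398 (both (mv 366 (both (five 4 366 430) (mv 367 (both (five 2 365 397) (mv 333 (both (five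 3 333 334) (mv 337 (both (five 1 334 338) (mv 365 (both (five 3 332 332) (five 1 333 336))))))))))) (both (mv 400 (both (five 6 367 432) (mv 399 (both (five 1 365 397) (mv 370 (both (five 2 366 367) (five 2 367 371))))))) (mv 400 (both (five 6 367 432) (mv 430 (both (five 4 366 366) (mv 527 (both (five 4 398 494) (five 7 430 559)))))))))) (both (mv 432 (both (five 6 367 400) (mv 433 (both (five 1 429 461) (mv 401 (both (five 6 336 337) (mv 370 (both (five 5 337 338) (mv 497 (both (five 5 369 402) (five 0 462 498))))))))))) (both (mv 432 (both (five 6 367 400) (mv 433 (both (five 1 429 461) (mv 401 (both (five 7 336 336) (five 6 336 337))))))) (mv 432 (both (five 6 367 400) (mv 433 (both (five 1 429 461) (mv 401 (both (five 7 336 336) (mv 370 (both (five 5 337 338) (mv 497 (both (five 5 369 402) (five 0 462 498)))))))))))))))) (mv 432 (both (five 6 367 400) (mv 433 (both (five 1 430 434) (five 1 429 461)))))))))) (both (mv 433 (both (five 1 430 434) (mv 461 (both (five 1 429 432) (mv 428 (both (five 3 428 429) (mv 460 (both (five 3 427 427) (mv 459 (both (five 0 459 494) (mv 491 (both (five 2 458 490) (five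 2 459 492))))))))))))) (both (mv 430 (both (five 3 429 429) (mv 398 (both (five 4 366 366) (mv 527 (both (five 4 398 494) (five 7 430 559))))))) (mv 429 (both (five 3 429 430) (mv 433 (both (five 1 430 434) (mv 461 (both (five 3 428 428) (five 1 429 432))))))))))) (both (mv 466 (both (five 2 462 494) (mv 435 (both (five 1 431 434) (mv 467 (both (five 1 432 436) (mv 499 (both (five 0 463 498) (five 0 464 500))))))))) (both (mv 498 (both (mv 462 (both (five 0 462 497) (mv 429 (both (five 3 429 430) (mv 433 (both (five 1 430 434) (mv 461 (both (five 3 428 428) (five 1 429 432))))))))) (both (mv 466 (both (five 0 463 499) (mv 433 (both (mv 401 (both (five 4 369 369) (mv 530 (both (five 4 401 497) (five 7 433 562))))) (both (mv 435 (both (five 1 431 434) (mv 467 (both (five 1 432 436) (mv 371 (both (five 6 370 403) (mv 468 (both (five 3 432 432) (mv 469 (both (five 2 465 497) (mv 501 (both (five 0 465 500) (five 0 466 502))))))))))))) (mv 401 (both (five 4 369 369) (mv 434 (both (five 1 431 435) (five 7 401 530)))))))))) (both (mv 466 (both (five 0 463 499) (mv 434 (both (five 1 431 435) (mv 433 (both (five 1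 430 462) (mv 401 (both (five 4 369 369) (five 7 401 530))))))))) (mv 497 (both (five 0 462 462) (mv 499 (both (five 0 463 466) (five 3 464 500))))))))) (both (mv 498 (both (mv 497 (both (five 0 462 462) (mv 499 (both (five 0 463 466) (five 3 464 500))))) (both (mv 462 (both (five 0 462 497) (mv 430 (both (five 3 429 429) (mv 398 (both (five 4 366 366) (mv 527 (both (five 4 398 494) (five 7 430 559))))))))) (mv 466 (both (five 2 462 494) (five 0 463 499)))))) (mv 462 (both (mv 429 (both (five 3 429 430) (mv 433 (both (five 1 430 434) (mv 461 (both (five 3 428 428) (five 1 429 432))))))) (both (mv 430 (both (five 3 429 429) (mv 398 (both (five 4 366 366) (mv 527 (both (five 4 398 494) (five 7 430 559))))))) (mv 434 (both (five 1 430 433) (mv 466 (both (five 1 431 435) (five 2 462 494))))))))))))) (both (mv 559 (both (mv 561 (both (mv 589 (both (mv 621 (both (mv 588 (both (mv 591 (both (five 1 556 590) (mv 623 (both (five 5 527 655) (mv 622 (both (five 3 588 624) (mv 587 (both (five 3 587 620) (five 0 586 586))))))))) (both (mv 620 (both (mv 622 (both (mv 623 (both (five 3 588 624) (five 3 587 587))) (both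 (mv 623 (both (five 3 588 624) (mv 655 (both (five 0 620 656) (five 5 527 591))))) (mv 619 (both (mv 650 (both (five 2 618 651) (mv 618 (both (five 2 617 649) (five 1 585 617))))) (both (mv 654 (both (five 0 619 655) (mv 718 (both (five 7 589 686) (mv 618 (both (five 1 585 617) (mv 586 (both (five 3 585 585) (five 3 586 587))))))))) (mv 651 (both (five 2 618 650) (mv 683 (both (five 5 587 715) (mv 587 (both (five 0 586 586) (five 5 555 556))))))))))))) (both (mv 587 (both (mv 622 (both (five 3 587 623) (five 0 586 586))) (both (mv 619 (both (mv 622 (both (five 3 587 623) (mv 651 (both (five 2 618 650) (mv 683 (both (five 5 587 715) (mv 714 (both (five 6 586 682) (mv 684 (both (five 4 587 716) (mv 652 (both (five 4 555 555) (mv 685 (both (five 4 588 717) (mv 686 (both (five 3 651 687) (mv 718 (both (five 0 683 719) (five 4 589 653))))))))))))))))))) (both (mv 617 (both (five 1 585 618) (mv 622 (both (five 3 587 623) (mv 651 (both (five 2 618 650) (mv 683 (both (five 5 587 715) (mv 682 (both (five 6 586 714) (mv 684 (both (five 4 587 716) (mv 654 (both (five 0 619 655) (mv 718 (both (five 7 589 686) (mv 685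 (both (five 0 682 717) (five 1 650 653))))))))))))))))))) (both (mv 618 (both (five 1 585 617) (mv 650 (both (five 2 617 649) (mv 682 (both (five 5 586 714) (mv 555 (both (five 6 554 651) (five 6 522 523))))))))) (mv 618 (both (five 1 585 617) (mv 653 (both (five 0 618 654) (mv 685 (both (five 7 588 717) (mv 684 (both (five 6 588 716) (mv 686 (both (five 4 589 718) (mv 652 (both (five 7 555 555) (mv 715 (both (five 6 587 683) (mv 687 (both (five 3 652 688) (mv 655 (both (five 1 652 656) (mv 623 (both (five 3 587 622) (five 5 527 591))))))))))))))))))))))))) (mv 619 (both (mv 618 (both (five 1 585 617) (mv 650 (both (five 2 617 649) (mv 682 (both (five 5 586 714) (mv 555 (both (five 6 554 651) (five 6 522 523))))))))) (both (mv 586 (both (five 0 585 585) (mv 554 (both (five 3 553 553) (mv 651 (both (five 7 554 683) (mv 522 (both (five 7 522 555) (five 4 490 490))))))))) (both (mv 618 (both (five 1 585 617) (mv 649 (both (five 2 617 650) (mv 653 (both (five 0 618 654) (mv 717 (both (five 7 588 685) (mv 586 (both (five 3 585 585) (mv 554 (both (five 3 553 553) (mv 651 (both (five 7 554 683) (five 4 522 522)))))))))))))))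 (mv 618 (both (five 1 585 617) (mv 650 (both (five 2 617 649) (mv 682 (both (five 5 586 714) (mv 586 (both (five 3 585 585) (five 5 554 555)))))))))))))))) (both (mv 556 (both (mv 653 (both (five 7 556 685) (five 4 524 524))) (both (mv 524 (both (five 4 492 492) (mv 619 (both (five 6 523 651) (mv 618 (both (five 1 585 617) (mv 650 (both (five 2 617 649) (mv 586 (both (five 3 585 585) (mv 523 (both (five 7 491 491) (mv 554 (both (five 5 522 555) (mv 553 (both (five 7 521 521) (five 2 521 522))))))))))))))))) (mv 652 (both (mv 683 (both (five 6 555 651) (mv 684 (both (five 6 587 715) (five 5 588 716))))) (both (mv 651 (both (five 6 555 683) (mv 650 (both (five 1 617 649) (mv 653 (both (five 4 556 685) (mv 681 (both (five 2 649 682) (mv 618 (both (five 3 617 617) (mv 654 (both (five 3 618 619) (mv 686 (both (five 0 651 687) (mv 655 (both (five 3 620 656) (mv 623 (both (five 1 620 624) (five 6 558 591))))))))))))))))))) (mv 684 (both (five 5 588 716) (mv 685 (both (five 4 588 717) (five 4 556 653))))))))))) (both (mv 653 (both (mv 685 (both (five 7 588 717) (five 7 556 556))) (mv 623 (both (mv 622 (both (five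 3 588 624) (five 3 587 587))) (both (mv 655 (both (five 5 527 591) (mv 654 (both (five 3 620 656) (mv 652 (both (five 1 620 624) (mv 684 (both (five 5 588 716) (five 2 651 683))))))))) (mv 655 (both (five 5 527 591) (mv 656 (both (five 3 620 654) (five 0 620 622)))))))))) (both (mv 556 (both (mv 653 (both (five 7 556 685) (five 4 524 524))) (both (mv 524 (both (five 4 492 492) (mv 619 (both (five 6 523 651) (mv 618 (both (five 1 585 617) (mv 650 (both (five 2 617 649) (mv 586 (both (five 3 585 585) (mv 523 (both (five 7 491 491) (mv 554 (both (five 5 522 555) (mv 553 (both (five 7 521 521) (five 2 521 522))))))))))))))))) (mv 652 (both (mv 683 (both (five 6 555 651) (mv 684 (both (five 6 587 715) (five 5 588 716))))) (both (mv 685 (both (five 4 556 653) (mv 651 (both (five 6 555 683) (mv 650 (both (five 1 617 649) (mv 619 (both (five 2 618 622) (mv 617 (both (five 1 585 618) (mv 555 (both (five 7 523 523) (mv 587 (both (five 6 554 682) (mv 554 (both (five 0 553 553) (five 7 522 522))))))))))))))))) (mv 684 (both (five 5 588 716) (mv 685 (both (five 4 588 717) (five 4 556 653))))))))))) (mv 653 (both (mv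 685 (both (five 7 588 717) (five 7 556 556))) (mv 587 (both (mv 623 (both (five 3 587 622) (mv 655 (both (five 5 527 591) (mv 654 (both (five 3 620 656) (mv 652 (both (five 3 619 619) (five 1 620 624))))))))) (both (mv 586 (both (five 0 585 585) (mv 618 (both (five 2 585 617) (mv 654 (both (five 0 618 619) (mv 655 (both (five 3 620 656) (mv 623 (both (five 5 527 591) (mv 652 (both (five 1 620 624) (mv 684 (both (five 5 588 716) (five 7 555 555))))))))))))))) (mv 586 (both (five 0 586 622) (five 0 585 585)))))))))))))) (both (mv 622 (both (mv 623 (both (five 3 588 624) (mv 587 (both (five 0 586 586) (five 0 587 590))))) (both (mv 623 (both (five 3 588 624) (mv 620 (both (mv 651 (both (five 2 619 652) (mv 655 (both (five 0 620 656) (mv 619 (both (five 2 618 650) (five 0 619 654))))))) (both (mv 655 (both (five 0 620 656) (mv 619 (both (five 0 619 654) (mv 618 (both (five 1 585 617) (five 1 586 590))))))) (both (mv 651 (both (five 2 619 652) (mv 619 (both (five 2 618 650) (mv 618 (both (five 1 585 617) (five 1 586 590))))))) (mv 652 (both (five 2 619 651) (mv 684 (both (five 5 588 716) (mv 715 (both (five 6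 587 683) (mv 685 (both (five 4 588 717) (mv 653 (both (five 4 556 556) (mv 686 (both (five 4 589 718) (mv 687 (both (five 3 652 688) (mv 719 (both (five 0 684 720) (mv 655 (both (five 0 620 656) (five 7 590 590))))))))))))))))))))))))) (both (mv 619 (both (mv 587 (both (five 0 586 586) (mv 618 (both (five 2 586 590) (mv 617 (both (five 1 584 616) (five 1 585 620))))))) (both (mv 620 (both (mv 618 (both (five 1 585 617) (five 1 586 590))) (both (mv 651 (both (five 2 618 650) (mv 715 (both (five 5 587 683) (mv 654 (both (five 0 619 655) (mv 686 (both (five 7 589 718) (mv 556 (both (five 6 523 524) (mv 685 (both (five 7 556 653) (mv 717 (both (five 6 589 590) (mv 781 (both (five 5 653 749) (mv 716 (both (five 1 682 714) (mv 684 (both (five 2 683 687) (five 5 588 652))))))))))))))))))))) (mv 650 (both (five 2 618 651) (mv 618 (both (five 2 617 649) (five 1 585 617)))))))) (both (mv 587 (both (five 0 586 586) (mv 651 (both (mv 683 (both (five 5 555 556) (mv 714 (both (five 6 586 682) (mv 715 (both (five 6 618 746) (mv 716 (both (five 4 619 748) (five 4 587 684))))))))) (both (mv 590 (both (five 2 586 618) (mv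 555 (both (five 3 554 554) (mv 650 (both (five 6 554 682) (mv 652 (both (five 4 555 684) (five 1 618 653))))))))) (both (mv 683 (both (five 5 555 556) (mv 714 (both (five 6 586 682) (mv 715 (both (five 6 618 746) (mv 748 (both (five 4 619 716) (mv 747 (both (five 4 651 780) (mv 618 (both (five 7 618 650) (five 2 586 590))))))))))))) (mv 683 (both (five 5 555 556) (mv 716 (both (five 4 587 684) (mv 715 (both (five 4 619 748) (mv 746 (both (five 6 618 714) (mv 747 (both (five 6 650 778) (mv 618 (both (five 7 618 650) (five 2 586 590))))))))))))))))))) (mv 556 (both (mv 685 (both (five 7 556 653) (mv 587 (both (five 0 586 586) (mv 651 (both (five 5 555 683) (mv 650 (both (five 2 618 620) (mv 555 (both (five 6 554 682) (mv 554 (both (five 0 553 553) (five 7 522 522))))))))))))) (both (mv 587 (both (five 0 586 586) (mv 651 (both (five 5 555 683) (mv 524 (both (five 5 523 555) (five 6 491 492))))))) (mv 653 (both (five 7 556 685) (mv 524 (both (five 4 524 620) (five 4 492 492)))))))))))) (mv 623 (both (five 3 588 624) (mv 587 (both (five 3 587 620) (five 0 586 586))))))))) (both (mv 590 (both (five 1 556 591)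 (mv 587 (both (mv 618 (both (five 2 586 619) (mv 586 (both (five 2 585 617) (mv 554 (both (five 3 553 553) (five 3 554 555))))))) (both (mv 554 (both (five 3 554 555) (mv 586 (both (five 3 553 553) (mv 617 (both (five 2 585 618) (mv 585 (both (five 2 584 616) (five 0 585 620))))))))) (both (mv 586 (both (mv 554 (both (five 3 553 553) (five 3 554 555))) (both (mv 585 (both (five 0 585 620) (mv 616 (both (five 2 584 617) (mv 584 (both (five 2 583 615) (mv 552 (both (five 3 551 551) (five 3 552 553))))))))) (mv 620 (both (five 0 585 585) (mv 555 (both (five 3 554 554) (mv 652 (both (five 7 555 684) (mv 523 (both (five 4 523 619) (five 7 523 556)))))))))))) (both (mv 618 (both (five 2 586 619) (mv 586 (both (five 2 585 617) (mv 585 (both (five 0 585 620) (mv 553 (both (five 3 552 552) (five 3 553 554))))))))) (both (mv 556 (both (mv 653 (both (five 7 556 685) (mv 524 (both (five 4 524 620) (five 4 492 492))))) (both (mv 618 (both (five 2 586 619) (mv 586 (both (five 2 585 617) (mv 585 (both (five 0 585 620) (mv 584 (both (five 1 552 555) (mv 552 (both (five 3 551 551) (five 3 552 553))))))))))) (mv 685 (both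 (five 7 556 653) (mv 619 (both (five 2 586 618) (mv 651 (both (five 5 555 683) (mv 524 (both (five 5 523 555) (five 6 491 492)))))))))))) (mv 556 (both (mv 653 (both (five 7 556 685) (mv 524 (both (five 4 524 620) (five 4 492 492))))) (both (mv 685 (both (five 7 556 653) (mv 619 (both (five 2 586 618) (mv 651 (both (five 5 555 683) (mv 555 (both (five 3 554 554) (mv 682 (both (five 6 554 650) (mv 652 (both (five 4 555 684) (mv 523 (both (five 4 523 620) (mv 490 (both (five 7 490 522) (mv 491 (both (five 7 458 458) (five 4 459 459))))))))))))))))))) (mv 619 (both (five 2 586 618) (mv 651 (both (five 5 555 683) (mv 524 (both (five 5 523 555) (five 6 491 492)))))))))))))))))) (both (mv 623 (both (mv 591 (both (five 5 527 655) (five 1 556 590))) (both (mv 622 (both (five 3 588 624) (mv 587 (both (five 0 586 586) (five 0 587 590))))) (mv 653 (both (mv 685 (both (five 7 556 556) (mv 716 (both (five 6 588 684) (mv 717 (both (five 6 620 748) (mv 718 (both (five 4 621 750) (five 4 589 686))))))))) (mv 655 (both (five 5 527 591) (mv 624 (both (five 3 588 622) (mv 654 (both (five 1 620 652) (mv 625 (both (five 1 621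 656) (five 2 622 626)))))))))))))) (both (mv 620 (both (mv 556 (both (mv 653 (both (five 7 556 685) (five 4 524 524))) (both (mv 524 (both (five 4 492 492) (mv 619 (both (five 6 523 651) (mv 618 (both (five 1 585 617) (mv 650 (both (five 2 617 649) (mv 586 (both (five 3 585 585) (mv 523 (both (five 7 491 491) (mv 554 (both (five 5 522 555) (mv 553 (both (five 7 521 521) (five 2 521 522))))))))))))))))) (mv 652 (both (mv 683 (both (five 6 555 651) (mv 684 (both (five 6 587 715) (five 5 588 716))))) (both (mv 684 (both (five 5 588 716) (mv 685 (both (five 4 588 717) (five 4 556 653))))) (mv 685 (both (five 4 556 653) (mv 651 (both (five 6 555 683) (mv 650 (both (five 1 617 649) (mv 622 (both (five 2 618 619) (five 2 619 623))))))))))))))) (both (mv 591 (both (five 1 556 590) (mv 623 (both (five 5 527 655) (mv 622 (both (five 3 588 624) (mv 652 (both (five 2 619 651) (mv 684 (both (five 5 588 716) (mv 715 (both (five 6 587 683) (mv 685 (both (five 4 588 717) (mv 556 (both (five 4 556 653) (mv 523 (both (five 7 523 555) (mv 524 (both (five 7 491 491) (five 4 492 492))))))))))))))))))))) (both (mv 619 (both (mv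 618 (both (five 1 585 617) (five 1 586 590))) (both (mv 618 (both (five 1 585 617) (mv 650 (both (five 2 617 649) (mv 651 (both (five 2 618 622) (mv 586 (both (five 3 585 585) (mv 683 (both (five 7 586 715) (five 4 554 554))))))))))) (mv 591 (both (five 2 587 590) (mv 655 (both (five 5 527 623) (mv 654 (both (five 0 619 622) (mv 653 (both (five 3 619 652) (five 3 620 656)))))))))))) (both (mv 619 (both (mv 618 (both (five 1 585 617) (five 1 586 590))) (both (mv 618 (both (five 1 585 617) (mv 650 (both (five 2 617 649) (mv 651 (both (five 2 618 622) (mv 586 (both (five 3 585 585) (mv 683 (both (five 7 586 715) (five 4 554 554))))))))))) (mv 591 (both (five 2 587 590) (mv 655 (both (five 5 527 623) (mv 622 (both (five 0 619 654) (mv 651 (both (five 2 618 650) (mv 683 (both (five 5 587 715) (mv 556 (both (five 6 555 652) (five 6 523 524)))))))))))))))) (both (mv 590 (both (five 1 556 591) (mv 619 (both (five 1 586 618) (mv 651 (both (mv 683 (both (five 5 587 715) (mv 556 (both (five 6 555 652) (five 6 523 524))))) (both (mv 650 (both (five 2 618 622) (mv 649 (both (five 1 616 648) (five 1 617 652))))) (mv 715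 (both (five 5 587 683) (mv 622 (both (five 2 618 650) (mv 654 (both (five 0 619 655) (mv 686 (both (five 7 589 718) (mv 719 (both (five 4 590 687) (mv 685 (both (five 6 589 717) (mv 556 (both (five 7 556 653) (five 6 523 524)))))))))))))))))))))) (both (mv 556 (both (mv 653 (both (five 7 556 685) (five 4 524 524))) (both (mv 524 (both (five 4 492 492) (mv 619 (both (five 6 523 651) (mv 618 (both (five 1 585 617) (mv 650 (both (five 2 617 649) (mv 586 (both (five 3 585 585) (mv 523 (both (five 7 491 491) (mv 554 (both (five 5 522 555) (mv 553 (both (five 7 521 521) (five 2 521 522))))))))))))))))) (mv 652 (both (mv 683 (both (five 6 555 651) (mv 684 (both (five 6 587 715) (five 5 588 716))))) (both (mv 651 (both (five 6 555 683) (mv 650 (both (five 1 617 649) (mv 653 (both (five 4 556 685) (mv 681 (both (five 2 649 682) (mv 618 (both (five 3 617 617) (mv 654 (both (five 3 618 619) (mv 686 (both (five 0 651 687) (mv 655 (both (five 3 620 656) (mv 623 (both (five 1 620 624) (five 6 558 591))))))))))))))))))) (mv 684 (both (five 5 588 716) (mv 685 (both (five 4 588 717) (five 4 556 653))))))))))) (mv 653 (both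 (mv 685 (both (five 7 588 717) (five 7 556 556))) (mv 591 (both (five 1 556 590) (mv 655 (both (five 5 527 623) (mv 654 (both (five 3 620 656) (mv 619 (both (five 0 618 618) (five 0 619 622)))))))))))))))))) (mv 591 (both (five 1 556 590) (mv 623 (both (five 5 527 655) (mv 622 (both (five 3 588 624) (mv 620 (both (five 3 587 587) (mv 652 (both (five 2 619 651) (mv 684 (both (five 5 588 716) (mv 715 (both (five 6 587 683) (mv 685 (both (five 4 588 717) (mv 556 (both (five 4 556 653) (mv 523 (both (five 7 523 555) (mv 524 (both (five 7 491 491) (five 4 492 492)))))))))))))))))))))))))))))) (both (mv 557 (both (mv 652 (both (five 6 524 620) (mv 653 (both (five 6 556 684) (mv 654 (both (five 4 557 686) (five 4 525 622))))))) (both (mv 654 (both (five 4 525 622) (mv 653 (both (five 4 557 686) (mv 524 (both (five 7 524 556) (five 7 492 492))))))) (both (mv 652 (both (five 6 524 620) (mv 653 (both (five 6 556 684) (mv 524 (both (five 7 524 556) (five 7 492 492))))))) (mv 620 (both (five 6 524 652) (mv 619 (both (mv 618 (both (five 1 586 590) (mv 649 (both (five 2 617 650) (mv 617 (both (five 2 616 648) (five 1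 585 588))))))) (both (mv 622 (both (five 4 525 654) (mv 651 (both (five 2 618 650) (mv 587 (both (five 3 586 586) (mv 524 (both (five 7 492 492) (mv 556 (both (five 6 523 588) (five 5 523 555))))))))))) (both (mv 618 (both (five 1 586 590) (mv 649 (both (five 2 617 650) (mv 617 (both (five 2 616 648) (mv 585 (both (five 3 584 584) (five 3 585 586))))))))) (mv 618 (both (five 1 586 590) (mv 617 (both (five 1 585 588) (mv 585 (both (five 3 584 584) (five 3 585 586))))))))))))))))) (both (mv 562 (both (mv 595 (both (five 0 559 594) (mv 563 (both (five 0 560 596) (mv 531 (both (five 1 527 530) (five 1 528 532))))))) (mv 653 (both (mv 685 (both (mv 716 (both (five 6 588 684) (mv 717 (both (five 6 620 748) (mv 718 (both (five 4 621 750) (five 4 589 686))))))) (both (mv 716 (both (five 6 588 684) (mv 717 (both (five 6 620 748) (mv 590 (both (five 5 589 622) (five 2 558 591))))))) (both (mv 718 (both (five 4 589 686) (mv 717 (both (five 4 621 750) (mv 590 (both (five 5 589 622) (five 2 558 591))))))) (mv 718 (both (five 4 589 686) (mv 684 (both (five 6 588 716) (mv 591 (both (five 2 558 590) (mv 655 (both (five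 5 527 623) (mv 654 (both (five 2 652 656) (mv 683 (both (five 1 650 682) (five 2 651 652))))))))))))))))) (both (mv 557 (both (mv 652 (both (five 6 556 684) (five 6 524 620))) (mv 524 (both (five 7 524 556) (five 7 492 492))))) (mv 557 (both (mv 654 (both (five 4 557 686) (five 4 525 622))) (mv 524 (both (five 7 524 556) (five 7 492 492)))))))))) (both (mv 557 (both (mv 654 (both (five 4 525 622) (mv 653 (both (five 4 557 686) (mv 524 (both (five 7 524 556) (five 7 492 492))))))) (both (mv 652 (both (five 6 524 620) (mv 653 (both (five 6 556 684) (mv 524 (both (five 7 524 556) (five 7 492 492))))))) (mv 622 (both (five 4 525 654) (mv 623 (both (mv 588 (both (five 3 588 624) (mv 587 (both (five 3 587 620) (five 0 586 586))))) (both (mv 655 (both (five 5 527 591) (mv 624 (both (five 3 588 588) (mv 657 (both (five 0 621 656) (mv 625 (both (five 0 622 658) (five 7 528 593))))))))) (mv 655 (both (five 5 527 591) (mv 620 (both (five 6 524 652) (five 0 620 656))))))))))))) (both (mv 653 (both (mv 557 (both (mv 652 (both (five 6 556 684) (five 6 524 620))) (mv 524 (both (five 7 524 556) (five 7 492 492))))) (both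 (mv 685 (both (mv 716 (both (five 6 588 684) (mv 717 (both (five 6 620 748) (mv 588 (both (five 7 588 620) (five 7 556 556))))))) (both (mv 716 (both (five 6 588 684) (mv 717 (both (five 6 620 748) (mv 718 (both (five 4 621 750) (five 4 589 686))))))) (both (mv 718 (both (five 4 589 686) (mv 717 (both (five 4 621 750) (mv 588 (both (five 7 588 620) (five 7 556 556))))))) (mv 718 (both (five 4 589 686) (mv 684 (both (five 6 588 716) (mv 588 (both (five 7 556 556) (mv 591 (both (five 1 556 590) (mv 655 (both (five 5 527 623) (mv 654 (both (five 2 652 656) (mv 683 (both (five 1 650 682) (five 2 651 652))))))))))))))))))) (both (mv 685 (both (mv 716 (both (five 6 588 684) (mv 717 (both (five 6 620 748) (mv 588 (both (five 7 588 620) (five 7 556 556))))))) (both (mv 716 (both (five 6 588 684) (mv 717 (both (five 6 620 748) (mv 718 (both (five 4 621 750) (five 4 589 686))))))) (both (mv 718 (both (five 4 589 686) (mv 717 (both (five 4 621 750) (mv 588 (both (five 7 588 620) (five 7 556 556))))))) (mv 716 (both (five 6 588 684) (mv 686 (both (five 4 589 718) (mv 654 (both (five 4 557 557) (mv 588 (both (five 7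 556 556) (mv 591 (both (five 1 556 590) (mv 655 (both (five 6 558 623) (mv 656 (both (five 2 653 657) (five 3 620 620))))))))))))))))))) (both (mv 685 (both (mv 716 (both (five 6 588 684) (mv 717 (both (five 6 620 748) (mv 718 (both (five 4 621 750) (five 4 589 686))))))) (both (mv 684 (both (five 6 588 716) (mv 588 (both (five 7 556 556) (mv 591 (both (five 1 556 590) (mv 655 (both (five 5 527 623) (mv 654 (both (five 2 652 656) (mv 683 (both (five 1 650 682) (five 2 651 652))))))))))))) (mv 686 (both (five 4 589 718) (mv 556 (both (five 7 556 588) (mv 557 (both (five 4 557 654) (five 7 524 524)))))))))) (both (mv 557 (both (mv 524 (both (five 7 524 556) (five 7 492 492))) (mv 654 (both (five 4 557 686) (mv 620 (both (five 6 524 652) (mv 655 (both (five 3 620 656) (mv 618 (both (five 0 618 619) (mv 591 (both (five 5 527 623) (mv 562 (both (five 2 558 590) (mv 595 (both (five 0 559 594) (mv 563 (both (five 0 560 596) (mv 531 (both (five 1 527 530) (five 1 528 532))))))))))))))))))))) (mv 685 (both (mv 716 (both (five 6 588 684) (mv 717 (both (five 6 620 748) (mv 718 (both (five 4 621 750) (five 4 589 686)))))))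 (both (mv 718 (both (five 4 589 686) (mv 717 (both (five 4 621 750) (mv 620 (both (five 7 588 588) (mv 652 (both (five 7 620 749) (five 6 524 557))))))))) (both (mv 716 (both (five 6 588 684) (mv 717 (both (five 6 620 748) (mv 620 (both (five 7 588 588) (mv 652 (both (five 7 620 749) (five 6 524 557))))))))) (mv 684 (both (five 6 588 716) (mv 686 (both (five 4 589 718) (mv 557 (both (five 6 556 652) (five 4 557 654))))))))))))))))) (both (mv 562 (both (mv 595 (both (five 0 559 594) (mv 563 (both (five 0 560 596) (mv 531 (both (five 1 527 530) (five 1 528 532))))))) (mv 557 (both (mv 590 (both (five 2 558 591) (mv 524 (both (five 7 492 492) (mv 653 (both (five 7 524 556) (mv 684 (both (five 6 556 652) (mv 685 (both (five 6 588 716) (mv 717 (both (five 5 589 622) (mv 718 (both (five 4 621 750) (five 4 589 686))))))))))))))) (both (mv 524 (both (five 7 492 492) (mv 653 (both (five 7 524 556) (mv 684 (both (five 6 556 652) (mv 685 (both (five 6 588 716) (mv 686 (both (five 4 589 718) (five 4 557 654))))))))))) (mv 622 (both (five 4 525 654) (mv 591 (both (five 2 558 590) (mv 623 (both (five 5 527 655) (mv 624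 (both (five 3 588 588) (mv 657 (both (five 0 621 656) (mv 625 (both (five 0 622 658) (five 7 528 593)))))))))))))))))) (both (mv 622 (both (mv 654 (both (five 4 525 557) (mv 686 (both (five 7 589 718) (mv 591 (both (five 5 558 590) (mv 623 (both (five 5 527 655) (mv 624 (both (five 3 588 588) (mv 657 (both (five 0 621 656) (mv 625 (both (five 0 622 658) (five 7 528 593))))))))))))))) (both (mv 623 (both (mv 588 (both (five 3 588 624) (mv 587 (both (five 3 587 620) (five 0 586 586))))) (both (mv 655 (both (five 5 527 591) (mv 656 (both (five 0 620 620) (mv 657 (both (five 3 622 658) (five 0 621 624))))))) (both (mv 655 (both (five 5 527 591) (mv 620 (both (five 0 620 656) (mv 651 (both (five 2 619 652) (mv 619 (both (five 2 618 650) (mv 587 (both (five 3 586 586) (five 3 587 588))))))))))) (mv 624 (both (five 3 588 588) (mv 657 (both (five 0 621 656) (mv 625 (both (five 0 622 658) (five 3 589 590))))))))))) (both (mv 623 (both (mv 655 (both (five 5 527 591) (mv 656 (both (five 0 620 620) (mv 657 (both (five 3 622 658) (five 0 621 624))))))) (both (mv 654 (both (five 4 525 557) (mv 686 (both (five 7 589 718)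 (mv 590 (both (five 5 558 591) (mv 685 (both (five 6 589 717) (mv 687 (both (five 4 590 719) (mv 625 (both (five 3 589 624) (mv 657 (both (five 7 528 593) (mv 688 (both (five 1 653 656) (mv 721 (both (five 0 685 720) (mv 689 (both (five 0 686 722) (five 1 654 658))))))))))))))))))))) (both (mv 557 (both (five 4 525 654) (mv 620 (both (five 6 524 652) (mv 656 (both (five 0 620 655) (mv 624 (both (five 0 621 657) (mv 625 (both (five 3 589 590) (mv 594 (both (five 1 590 593) (mv 595 (both (five 1 591 626) (five 0 559 562))))))))))))))) (mv 654 (both (five 4 525 557) (mv 591 (both (five 5 527 655) (mv 686 (both (five 5 590 718) (five 5 558 590))))))))))) (both (mv 562 (both (mv 595 (both (five 0 559 594) (mv 563 (both (five 0 560 596) (mv 531 (both (five 1 527 530) (five 1 528 532))))))) (mv 590 (both (five 2 558 591) (mv 557 (both (five 4 525 654) (mv 620 (both (five 6 524 652) (mv 619 (both (five 1 586 618) (mv 651 (both (five 2 618 650) (mv 587 (both (five 3 586 586) (mv 524 (both (five 7 492 492) (mv 556 (both (five 6 523 588) (five 5 523 555))))))))))))))))))) (both (mv 623 (both (mv 588 (both (five 3 588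 624) (mv 587 (both (five 3 587 620) (five 0 586 586))))) (both (mv 655 (both (five 5 527 591) (mv 656 (both (five 0 620 620) (mv 657 (both (five 3 621 654) (five 3 622 658))))))) (mv 624 (both (five 3 588 588) (mv 657 (both (five 0 621 656) (mv 625 (both (five 0 622 658) (five 7 528 593)))))))))) (mv 623 (both (mv 588 (both (five 3 588 624) (mv 587 (both (five 3 587 620) (five 0 586 586))))) (both (mv 557 (both (five 4 525 654) (mv 620 (both (five 6 524 652) (mv 656 (both (five 0 620 655) (mv 624 (both (five 0 621 657) (mv 625 (both (five 3 589 590) (mv 594 (both (five 1 590 593) (mv 595 (both (five 1 591 626) (five 0 559 562))))))))))))))) (both (mv 557 (both (five 4 525 654) (mv 620 (both (five 6 524 652) (mv 655 (both (five 0 620 656) (mv 587 (both (five 3 587 588) (mv 619 (both (five 3 586 586) (mv 650 (both (five 2 618 651) (mv 618 (both (five 2 617 649) (five 1 586 590))))))))))))))) (mv 624 (both (five 3 588 588) (mv 657 (both (five 0 621 656) (mv 625 (both (five 0 622 658) (five 3 589 590))))))))))))))))) (both (mv 653 (both (mv 557 (both (mv 652 (both (five 6 556 684) (five 6 524 620))) (mv 524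 (both (five 7 524 556) (five 7 492 492))))) (both (mv 685 (both (mv 716 (both (five 6 588 684) (mv 717 (both (five 6 620 748) (mv 588 (both (five 7 588 620) (five 7 556 556))))))) (both (mv 716 (both (five 6 588 684) (mv 717 (both (five 6 620 748) (mv 718 (both (five 4 621 750) (five 4 589 686))))))) (both (mv 718 (both (five 4 589 686) (mv 717 (both (five 4 621 750) (mv 588 (both (five 7 588 620) (five 7 556 556))))))) (mv 716 (both (five 6 588 684) (mv 718 (both (five 4 589 686) (mv 588 (both (five 7 556 556) (mv 591 (both (five 1 556 590) (mv 623 (both (five 5 527 655) (mv 622 (both (five 3 588 624) (mv 587 (both (five 3 587 620) (five 0 586 586))))))))))))))))))) (both (mv 685 (both (mv 716 (both (five 6 588 684) (mv 717 (both (five 6 620 748) (mv 718 (both (five 4 621 750) (five 4 589 686))))))) (both (mv 718 (both (five 4 589 686) (mv 717 (both (five 4 621 750) (mv 588 (both (five 7 556 556) (mv 590 (both (five 5 589 622) (five 1 556 591))))))))) (both (mv 716 (both (five 6 588 684) (mv 717 (both (five 6 620 748) (mv 588 (both (five 7 556 556) (mv 590 (both (five 5 589 622) (five 1 556 591)))))))))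 (mv 718 (both (five 4 589 686) (mv 684 (both (five 6 588 716) (mv 556 (both (five 7 556 588) (mv 557 (both (five 6 556 652) (five 7 524 524))))))))))))) (both (mv 685 (both (mv 716 (both (five 6 588 684) (mv 717 (both (five 6 620 748) (mv 718 (both (five 4 621 750) (five 4 589 686))))))) (both (mv 718 (both (five 4 589 686) (mv 717 (both (five 4 621 750) (mv 620 (both (five 7 588 588) (mv 652 (both (five 7 620 749) (five 6 524 557))))))))) (both (mv 716 (both (five 6 588 684) (mv 717 (both (five 6 620 748) (mv 620 (both (five 7 588 588) (mv 652 (both (five 7 620 749) (five 6 524 557))))))))) (mv 684 (both (five 6 588 716) (mv 686 (both (five 4 589 718) (mv 652 (both (five 6 556 557) (mv 687 (both (five 3 652 688) (five 3 651 651))))))))))))) (mv 588 (both (mv 556 (both (five 7 556 685) (mv 524 (both (five 7 524 557) (five 4 492 492))))) (mv 591 (both (five 1 556 590) (mv 623 (both (five 5 527 655) (mv 622 (both (five 3 588 624) (mv 587 (both (five 3 587 620) (five 0 586 586)))))))))))))))) (both (mv 653 (both (mv 557 (both (mv 654 (both (five 4 557 686) (five 4 525 622))) (mv 524 (both (five 7 524 556) (five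 7 492 492))))) (both (mv 685 (both (mv 716 (both (five 6 588 684) (mv 717 (both (five 6 620 748) (mv 588 (both (five 7 588 620) (five 7 556 556))))))) (both (mv 716 (both (five 6 588 684) (mv 717 (both (five 6 620 748) (mv 718 (both (five 4 621 750) (five 4 589 686))))))) (both (mv 718 (both (five 4 589 686) (mv 717 (both (five 4 621 750) (mv 588 (both (five 7 588 620) (five 7 556 556))))))) (mv 716 (both (five 6 588 684) (mv 718 (both (five 4 589 686) (mv 588 (both (five 7 556 556) (mv 591 (both (five 1 556 590) (mv 623 (both (five 5 527 655) (mv 622 (both (five 3 588 624) (mv 587 (both (five 3 587 620) (five 0 586 586))))))))))))))))))) (both (mv 685 (both (mv 716 (both (five 6 588 684) (mv 717 (both (five 6 620 748) (mv 588 (both (five 7 588 620) (five 7 556 556))))))) (both (mv 716 (both (five 6 588 684) (mv 717 (both (five 6 620 748) (mv 718 (both (five 4 621 750) (five 4 589 686))))))) (both (mv 718 (both (five 4 589 686) (mv 717 (both (five 4 621 750) (mv 588 (both (five 7 588 620) (five 7 556 556))))))) (mv 716 (both (five 6 588 684) (mv 686 (both (five 4 589 718) (mv 654 (both (five 4 557 557) (mv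 588 (both (five 7 556 556) (mv 591 (both (five 1 556 590) (mv 655 (both (five 6 558 623) (mv 656 (both (five 2 653 657) (five 3 620 620))))))))))))))))))) (both (mv 588 (both (mv 556 (both (five 7 556 685) (mv 524 (both (five 7 524 557) (five 4 492 492))))) (mv 591 (both (five 1 556 590) (mv 623 (both (five 5 527 655) (mv 622 (both (five 3 588 624) (mv 587 (both (five 3 587 620) (five 0 586 586))))))))))) (mv 685 (both (mv 716 (both (five 6 588 684) (mv 717 (both (five 6 620 748) (mv 718 (both (five 4 621 750) (five 4 589 686))))))) (both (mv 716 (both (five 6 588 684) (mv 717 (both (five 6 620 748) (mv 620 (both (five 7 588 588) (mv 622 (both (five 5 589 590) (mv 654 (both (five 4 525 557) (mv 655 (both (five 0 619 619) (mv 656 (both (five 3 621 657) (five 0 620 623))))))))))))))) (both (mv 718 (both (five 4 589 686) (mv 717 (both (five 4 621 750) (mv 620 (both (five 7 588 588) (mv 622 (both (five 5 589 590) (mv 654 (both (five 4 525 557) (mv 655 (both (five 0 619 619) (mv 656 (both (five 3 621 657) (five 0 620 623))))))))))))))) (mv 684 (both (five 6 588 716) (mv 686 (both (five 4 589 718) (mv 654 (both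 (five 4 557 557) (mv 683 (both (five 1 650 682) (five 1 651 655)))))))))))))))))) (both (mv 622 (both (mv 623 (both (mv 588 (both (five 3 588 624) (mv 587 (both (five 3 587 620) (five 0 586 586))))) (both (mv 655 (both (five 5 527 591) (mv 656 (both (five 0 620 620) (mv 657 (both (five 3 622 658) (five 0 621 624))))))) (both (mv 655 (both (five 5 527 591) (mv 620 (both (five 0 620 656) (mv 651 (both (five 2 619 652) (mv 619 (both (five 2 618 650) (mv 587 (both (five 3 586 586) (five 3 587 588))))))))))) (mv 624 (both (five 3 588 588) (mv 657 (both (five 0 621 656) (mv 625 (both (five 0 622 658) (five 3 589 590))))))))))) (both (mv 654 (both (five 4 525 557) (mv 655 (both (mv 656 (both (five 3 621 657) (mv 620 (both (five 3 620 653) (five 0 619 619))))) (both (mv 686 (both (five 7 589 718) (mv 656 (both (five 3 621 657) (mv 590 (both (five 5 558 591) (mv 719 (both (five 4 590 687) (mv 685 (both (five 6 589 717) (mv 684 (both (five 1 651 683) (five 2 652 653))))))))))))) (both (mv 686 (both (five 7 589 718) (mv 619 (both (five 0 619 620) (mv 590 (both (five 5 558 591) (mv 685 (both (five 6 589 717) (mv 684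 (both (five 1 651 683) (mv 716 (both (five 6 588 653) (mv 687 (both (five 2 683 715) (five 4 590 719))))))))))))))) (mv 686 (both (five 7 589 718) (mv 656 (both (five 3 621 657) (mv 619 (both (five 0 619 620) (mv 590 (both (five 5 558 591) (mv 685 (both (five 6 589 717) (mv 684 (both (five 1 651 683) (five 1 652 687))))))))))))))))))) (both (mv 623 (both (mv 588 (both (five 3 588 624) (mv 587 (both (five 3 587 620) (five 0 586 586))))) (both (mv 655 (both (five 5 527 591) (mv 656 (both (five 0 620 620) (mv 657 (both (five 3 621 654) (five 3 622 658))))))) (mv 624 (both (five 3 588 588) (mv 657 (both (five 0 621 656) (mv 625 (both (five 0 622 658) (five 7 528 593)))))))))) (both (mv 623 (both (mv 588 (both (five 3 588 624) (mv 587 (both (five 3 587 620) (five 0 586 586))))) (both (mv 557 (both (five 4 525 654) (mv 620 (both (five 6 524 652) (mv 656 (both (five 0 620 655) (mv 624 (both (five 0 621 657) (mv 625 (both (five 3 589 590) (mv 594 (both (five 1 590 593) (mv 595 (both (five 1 591 626) (five 0 559 562))))))))))))))) (both (mv 557 (both (five 4 525 654) (mv 620 (both (five 6 524 652) (mv 655 (both (five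 0 620 656) (mv 587 (both (five 3 587 588) (mv 619 (both (five 3 586 586) (mv 650 (both (five 2 618 651) (mv 618 (both (five 2 617 649) (five 1 586 590))))))))))))))) (mv 624 (both (five 3 588 588) (mv 657 (both (five 0 621 656) (mv 625 (both (five 0 622 658) (five 3 589 590))))))))))) (both (mv 623 (both (mv 588 (both (five 3 588 624) (mv 587 (both (five 3 587 620) (five 0 586 586))))) (both (mv 654 (both (five 4 525 557) (mv 686 (both (five 7 589 718) (mv 590 (both (five 5 558 591) (mv 685 (both (five 6 589 717) (mv 687 (both (five 4 590 719) (mv 625 (both (five 3 589 624) (mv 657 (both (five 7 528 593) (mv 688 (both (five 1 653 656) (mv 721 (both (five 0 685 720) (mv 689 (both (five 0 686 722) (five 1 654 658))))))))))))))))))))) (mv 557 (both (five 4 525 654) (mv 620 (both (five 6 524 652) (mv 587 (both (five 3 587 588) (mv 619 (both (five 3 586 586) (mv 650 (both (five 2 618 651) (mv 618 (both (five 2 617 649) (five 1 586 590)))))))))))))))) (mv 654 (both (five 4 525 557) (mv 686 (both (five 7 589 718) (mv 591 (both (five 5 558 590) (mv 623 (both (five 6 558 655) (mv 624 (both (five 3 588 588) (mv 653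 (both (five 2 620 652) (five 2 621 625))))))))))))))))))) (mv 557 (both (mv 652 (both (five 6 524 620) (mv 653 (both (five 6 556 684) (mv 524 (both (five 7 524 556) (five 7 492 492))))))) (mv 562 (both (mv 595 (both (five 0 559 594) (mv 563 (both (five 0 560 596) (mv 531 (both (five 1 527 530) (five 1 528 532))))))) (mv 622 (both (five 4 525 654) (mv 591 (both (five 2 558 590) (mv 623 (both (five 5 527 655) (mv 624 (both (five 3 588 588) (mv 657 (both (five 0 621 656) (mv 625 (both (five 0 622 658) (five 7 528 593)))))))))))))))))))))))))))) (both (mv 557 (both (mv 558 (both (five 2 556 588) (five 3 524 524))) (both (mv 621 (both (mv 654 (both (five 4 525 622) (mv 653 (both (five 4 557 686) (mv 524 (both (five 7 524 556) (five 7 492 492))))))) (both (mv 652 (both (five 6 524 620) (mv 653 (both (five 6 556 684) (mv 524 (both (five 7 524 556) (five 7 492 492))))))) (mv 622 (both (five 4 525 654) (mv 623 (both (mv 655 (both (five 5 527 591) (mv 620 (both (five 6 524 652) (five 0 620 656))))) (both (mv 624 (both (five 3 588 588) (mv 657 (both (five 0 621 656) (mv 625 (both (five 0 622 658) (five 7 528 593)))))))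 (mv 655 (both (five 5 527 591) (mv 620 (both (five 6 524 652) (mv 588 (both (five 3 588 624) (five 3 587 587))))))))))))))) (both (mv 621 (both (mv 652 (both (five 6 524 620) (mv 653 (both (five 6 556 684) (mv 654 (both (five 4 557 686) (five 4 525 622))))))) (both (mv 654 (both (five 4 525 622) (mv 653 (both (five 4 557 686) (mv 588 (both (five 2 556 558) (mv 685 (both (five 7 556 556) (mv 716 (both (five 6 588 684) (mv 717 (both (five 6 620 748) (five 7 588 620))))))))))))) (both (mv 653 (both (mv 652 (both (five 6 556 684) (five 6 524 620))) (both (mv 588 (both (five 2 556 558) (mv 685 (both (five 7 556 556) (mv 716 (both (five 6 588 684) (mv 717 (both (five 6 620 748) (five 7 588 620))))))))) (both (mv 620 (both (five 6 524 652) (mv 588 (both (five 2 556 558) (mv 685 (both (five 7 588 717) (five 7 556 556))))))) (mv 684 (both (five 6 556 652) (mv 685 (both (five 6 588 716) (mv 588 (both (five 7 556 556) (five 2 556 558))))))))))) (both (mv 654 (both (five 4 525 622) (mv 653 (both (five 4 557 686) (mv 684 (both (five 6 556 652) (mv 685 (both (five 6 588 716) (mv 588 (both (five 7 556 556) (five 2 556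 558))))))))))) (mv 622 (both (five 4 525 654) (mv 623 (both (mv 655 (both (five 5 527 591) (mv 620 (both (five 6 524 652) (five 0 620 656))))) (both (mv 624 (both (five 3 588 588) (mv 657 (both (five 0 621 656) (mv 625 (both (five 0 622 658) (five 7 528 593))))))) (mv 655 (both (five 5 527 591) (mv 620 (both (five 6 524 652) (mv 588 (both (five 3 588 624) (five 3 587 587))))))))))))))))) (mv 524 (both (five 3 524 558) (mv 621 (both (five 7 492 492) (mv 652 (both (five 6 524 620) (mv 653 (both (five 6 556 684) (mv 654 (both (five 4 557 686) (five 4 525 622))))))))))))))) (both (mv 590 (both (five 2 557 558) (mv 562 (both (five 2 558 591) (mv 595 (both (five 0 559 594) (mv 563 (both (five 0 560 596) (mv 531 (both (five 1 527 530) (five 1 528 532))))))))))) (mv 558 (both (five 2 557 590) (mv 557 (both (five 2 556 588) (five 3 524 524))))))))) (both (mv 591 (both (five 6 463 496) (mv 562 (both (five 2 558 590) (mv 595 (both (five 0 559 594) (mv 563 (both (five 0 560 596) (mv 531 (both (five 1 527 530) (five 1 528 532))))))))))) (both (mv 593 (both (five 4 464 496) (mv 558 (both (five 0 558 594) (mv 589 (both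 (five 2 557 590) (mv 557 (both (five 2 556 588) (five 3 524 524))))))))) (mv 496 (both (five 6 463 591) (five 4 464 593))))))) (both (mv 527 (both (five 5 431 432) (mv 558 (both (five 6 462 590) (mv 557 (both (five 1 524 556) (five 3 524 524))))))) (mv 432 (both (five 5 431 527) (mv 400 (both (five 6 367 368) (mv 496 (both (five 6 463 591) (mv 401 (both (five 5 368 369) (five 5 400 433)))))))))))) (both (mv 465 (both (mv 466 (both (five 2 462 494) (mv 435 (both (five 1 431 434) (mv 467 (both (five 1 432 436) (mv 499 (both (five 0 463 498) (five 0 464 500))))))))) (both (mv 433 (both (five 5 432 496) (mv 434 (both (five 1 430 462) (mv 435 (both (five 2 431 432) (five 2 432 436))))))) (mv 433 (both (five 5 432 496) (mv 466 (both (five 2 462 494) (mv 498 (both (five 0 463 499) (mv 401 (both (five 4 369 369) (mv 497 (both (five 0 462 462) (five 4 401 530)))))))))))))) (both (mv 465 (both (mv 466 (both (five 2 462 494) (mv 467 (both (five 2 463 496) (mv 499 (both (five 0 463 498) (five 0 464 500))))))) (both (mv 466 (both (five 2 462 494) (mv 435 (both (five 1 431 434) (mv 467 (both (five 1 432 436) (mv 499 (both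 (five 0 463 498) (five 0 464 500))))))))) (both (mv 433 (both (five 5 432 496) (mv 462 (both (five 1 430 434) (mv 430 (both (five 3 429 429) (mv 398 (both (five 4 366 366) (mv 527 (both (five 4 398 494) (five 7 430 559))))))))))) (mv 433 (both (five 5 432 496) (mv 434 (both (five 1 430 462) (mv 435 (both (five 2 432 436) (five 1 431 466))))))))))) (mv 465 (both (mv 462 (both (mv 430 (both (five 3 429 429) (mv 398 (both (five 4 366 366) (mv 527 (both (five 4 398 494) (five 7 430 559))))))) (both (mv 497 (both (five 0 462 498) (mv 461 (both (five 0 461 496) (mv 428 (both (five 3 428 429) (mv 460 (both (five 3 427 427) (mv 459 (both (five 0 459 494) (mv 491 (both (five 2 458 490) (five 2 459 492))))))))))))) (mv 497 (both (five 0 462 498) (mv 496 (both (five 0 461 461) (mv 559 (both (five 6 463 591) (mv 527 (both (five 7 430 430) (five 5 431 432)))))))))))) (both (mv 496 (both (mv 466 (both (five 2 463 467) (mv 434 (both (five 1 431 435) (mv 498 (both (five 0 463 499) (mv 462 (both (five 0 462 497) (mv 429 (both (five 3 429 430) (mv 461 (both (five 3 428 428) (five 0 460 460))))))))))))) (mv 559 (both (five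 6 463 591) (mv 527 (both (five 5 431 432) (mv 558 (both (five 6 462 590) (mv 557 (both (five 1 524 556) (five 3 524 524))))))))))) (both (mv 466 (both (five 2 462 494) (mv 435 (both (five 1 431 434) (mv 467 (both (five 1 432 436) (mv 499 (both (five 0 463 498) (five 0 464 500))))))))) (mv 466 (both (five 2 462 494) (mv 435 (both (five 1 431 434) (mv 467 (both (five 1 432 436) (five 2 463 496)))))))))))))))) (both (mv 592 (both (five 7 463 496) (mv 624 (both (five 7 495 527) (mv 655 (both (five 6 527 623) (mv 656 (both (five 6 559 687) (mv 657 (both (five 4 560 689) (five 4 528 625))))))))))) (mv 496 (both (five 7 463 592) (mv 464 (both (mv 465 (both (five 5 432 433) (mv 466 (both (five 2 462 494) (five 2 463 467))))) (mv 559 (both (five 6 463 591) (mv 527 (both (five 5 431 432) (mv 558 (both (five 6 462 590) (mv 557 (both (five 1 524 556) (five 3 524 524)))))))))))))))))) (both (mv 527 (both (mv 560 (both (five 4 431 431) (mv 592 (both (five 4 463 559) (five 7 495 624))))) (both (mv 559 (both (mv 462 (both (five 7 430 430) (mv 590 (both (five 6 462 558) (mv 591 (both (five 7 462 494) (five 6 494 622)))))))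 (both (mv 462 (both (five 7 430 430) (mv 591 (both (five 7 462 494) (mv 592 (both (five 4 463 560) (five 4 495 624))))))) (mv 558 (both (five 6 462 590) (mv 557 (both (five 1 524 556) (mv 560 (both (five 3 524 524) (five 4 463 592)))))))))) (both (mv 432 (both (mv 400 (both (five 5 399 431) (mv 464 (both (five 6 367 368) (five 5 431 559))))) (both (mv 559 (both (five 5 431 464) (mv 462 (both (five 7 430 430) (mv 590 (both (five 6 462 558) (mv 591 (both (five 7 462 494) (five 6 494 622))))))))) (both (mv 431 (both (five 5 399 400) (mv 430 (both (five 7 398 398) (mv 462 (both (five 7 430 559) (mv 433 (both (five 2 430 434) (five 2 429 461))))))))) (mv 431 (both (five 5 399 400) (mv 462 (both (mv 433 (both (five 2 430 434) (mv 461 (both (five 1 428 460) (five 1 429 464))))) (both (mv 398 (both (five 7 398 430) (mv 399 (both (five 7 366 366) (mv 367 (both (five 6 366 494) (mv 335 (both (five 4 335 464) (mv 336 (both (five 5 303 304) (five 5 335 368))))))))))) (mv 430 (both (five 7 398 398) (mv 433 (both (five 2 430 434) (five 2 429 461)))))))))))))) (mv 431 (both (five 4 431 560) (mv 398 (both (five 7 398 430)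 (mv 399 (both (five 7 366 366) (mv 400 (both (five 5 367 368) (five 5 399 432))))))))))))) (both (ref 2) (both (mv 431 (both (mv 399 (both (five 4 399 496) (mv 366 (both (five 7 366 398) (mv 367 (both (five 7 334 334) (mv 368 (both (five 5 335 336) (five 5 367 400))))))))) (both (mv 527 (both (five 4 431 560) (mv 430 (both (five 7 398 398) (mv 559 (both (five 7 430 462) (mv 590 (both (five 6 462 558) (mv 591 (both (five 6 494 622) (mv 623 (both (five 5 495 496) (mv 624 (both (five 4 527 656) (five 4 495 592))))))))))))))) (both (mv 527 (both (five 4 431 560) (mv 398 (both (five 7 398 430) (mv 399 (both (five 7 366 366) (mv 400 (both (five 5 367 368) (five 5 399 432))))))))) (mv 399 (both (five 4 399 496) (mv 400 (both (five 5 367 368) (mv 527 (both (five 5 399 432) (five 4 431 560))))))))))) (both (mv 560 (both (mv 431 (both (five 4 431 527) (mv 496 (both (five 4 399 399) (five 7 431 464))))) (both (mv 527 (both (five 4 431 431) (mv 592 (both (five 4 463 559) (five 7 495 624))))) (both (mv 496 (both (five 7 463 592) (mv 431 (both (five 4 399 399) (five 7 431 464))))) (mv 592 (both (five 7 463 496) (mv 527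 (both (five 4 463 559) (five 7 495 624))))))))) (both (mv 431 (both (mv 527 (both (five 4 431 560) (mv 430 (both (five 7 398 398) (mv 559 (both (five 7 430 462) (mv 590 (both (five 6 462 558) (mv 591 (both (five 6 494 622) (mv 496 (both (five 5 463 464) (five 5 495 623))))))))))))) (both (mv 399 (both (five 4 399 496) (mv 366 (both (five 7 366 398) (mv 367 (both (five 7 334 334) (mv 368 (both (five 5 335 336) (five 5 367 400))))))))) (both (mv 527 (both (five 4 431 560) (mv 398 (both (five 7 398 430) (mv 399 (both (five 7 366 366) (mv 400 (both (five 5 367 368) (five 5 399 432))))))))) (mv 399 (both (five 4 399 496) (mv 400 (both (five 5 367 368) (mv 527 (both (five 5 399 432) (five 4 431 560))))))))))) (both (mv 527 (both (mv 560 (both (five 4 431 431) (mv 592 (both (five 4 463 559) (five 7 495 624))))) (both (mv 559 (both (mv 462 (both (five 7 430 430) (mv 590 (both (five 6 462 558) (mv 591 (both (five 7 462 494) (five 6 494 622))))))) (both (mv 590 (both (five 6 462 558) (mv 591 (both (five 6 494 622) (mv 496 (both (five 5 463 464) (five 5 495 623))))))) (mv 430 (both (five 7 430 462) (mv 431 (both (five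 7 398 398) (mv 432 (both (five 5 399 400) (five 5 431 464)))))))))) (both (mv 559 (both (mv 462 (both (five 7 430 430) (mv 590 (both (five 6 462 558) (mv 591 (both (five 7 462 494) (five 6 494 622))))))) (both (mv 462 (both (five 7 430 430) (mv 591 (both (five 7 462 494) (mv 592 (both (five 4 463 560) (five 4 495 624))))))) (mv 558 (both (five 6 462 590) (mv 557 (both (five 1 524 556) (mv 560 (both (five 3 524 524) (five 4 463 592)))))))))) (mv 431 (both (five 4 431 560) (mv 430 (both (five 7 398 398) (mv 429 (both (mv 464 (both (five 0 428 428) (mv 465 (both (five 0 429 432) (five 3 430 466))))) (both (mv 428 (both (five 0 428 464) (mv 395 (both (five 3 395 396) (mv 427 (both (five 3 394 394) (mv 459 (both (five 2 426 458) (five 2 427 460))))))))) (both (mv 432 (both (five 5 399 400) (mv 396 (both (five 3 396 397) (mv 428 (both (five 3 395 395) (mv 460 (both (five 2 427 459) (five 2 428 461))))))))) (mv 432 (both (five 5 399 400) (mv 396 (both (five 3 396 397) (mv 460 (both (five 2 428 461) (mv 465 (both (five 0 429 464) (mv 433 (both (five 0 430 466) (mv 402 (both (five 1 398 401) (mv 434 (both (five 1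 399 403) (five 2 430 462))))))))))))))))))))))))))) (mv 431 (both (mv 496 (both (five 4 399 399) (mv 560 (both (five 7 431 464) (five 7 463 592))))) (both (mv 527 (both (five 4 431 560) (mv 430 (both (five 7 398 398) (mv 429 (both (mv 464 (both (five 0 428 428) (mv 465 (both (five 0 429 432) (five 3 430 466))))) (both (mv 428 (both (five 0 428 464) (mv 395 (both (five 3 395 396) (mv 427 (both (five 3 394 394) (mv 459 (both (five 2 426 458) (five 2 427 460))))))))) (both (mv 432 (both (five 5 399 400) (mv 396 (both (five 3 396 397) (mv 428 (both (five 3 395 395) (mv 460 (both (five 2 427 459) (five 2 428 461))))))))) (mv 432 (both (five 5 399 400) (mv 396 (both (five 3 396 397) (mv 460 (both (five 2 428 461) (mv 465 (both (five 0 429 464) (mv 433 (both (five 0 430 466) (mv 402 (both (five 1 398 401) (mv 434 (both (five 1 399 403) (five 2 430 462))))))))))))))))))))))) (mv 399 (both (five 4 399 496) (mv 366 (both (five 7 366 398) (mv 367 (both (five 7 334 334) (mv 368 (both (five 5 335 336) (five 5 367 400))))))))))))))))))))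

theorem L54 : W (S 988530863161101255454148148505632801312661156727406042891648512794071073662266652643294668095351646301915173751338452436331818490997235976069578606837084717056) (S 20667120915405526489540716391926278902369418500652113456451748372398088682041125718332622419253314291527316231467452228916985052522291164784618550000072871800593913856613415028819273639470799972362983806185572141209029081435255630462976) :=
  check_sound (Env.cons L53 (Env.cons L49 (Env.cons L33 Env.nil))) (x := 463) (t := tL54) (by decide +kernel)

def tL55 : T :=
  (both (mv 494 (both (five 2 492 524) (mv 461 (both (five 3 460 460) (mv 465 (both (five 1 461 464) (mv 497 (both (five 3 461 462) (five 1 462 466))))))))) (both (mv 560 (both (mv 463 (both (five 7 463 592) (mv 431 (both (five 4 399 399) (five 7 431 464))))) (both (mv 464 (both (mv 431 (both (five 7 431 463) (mv 432 (both (five 7 399 399) (mv 433 (both (five 5 400 401) (five 5 432 465))))))) (both (mv 433 (both (five 5 432 465) (mv 432 (both (five 5 400 401) (mv 559 (both (five 6 431 527) (five 6 463 591))))))) (both (mv 431 (both (five 7 431 463) (mv 432 (both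 (five 7 399 399) (mv 559 (both (five 6 431 527) (five 6 463 591))))))) (mv 559 (both (five 6 463 591) (mv 558 (both (mv 557 (both (five 3 524 524) (mv 588 (both (five 2 556 589) (mv 556 (both (five 2 555 587) (five 1 524 527))))))) (both (mv 433 (both (five 5 432 465) (mv 463 (both (five 7 431 431) (mv 561 (both (five 4 464 593) (mv 590 (both (five 6 462 527) (five 2 557 589))))))))) (both (mv 557 (both (five 3 524 524) (mv 589 (both (five 2 556 588) (mv 561 (both (five 2 557 590) (five 4 464 593))))))) (mv 431 (both (five 7 431 463) (mv 433 (both (five 5 432 465) (mv 557 (both (five 3 524 524) (mv 461 (both (five 4 461 590) (mv 556 (both (five 1 524 527) (five 6 460 588))))))))))))))))))))) (both (mv 592 (both (mv 623 (both (five 6 495 591) (mv 624 (both (five 6 527 655) (mv 625 (both (five 4 496 593) (five 4 528 657))))))) (both (mv 465 (both (five 5 464 497) (mv 464 (both (five 5 432 433) (mv 593 (both (five 4 464 561) (five 4 496 625))))))) (mv 465 (both (five 5 464 497) (mv 464 (both (five 5 432 433) (mv 591 (both (five 6 463 559) (five 6 495 623)))))))))) (mv 592 (both (five 7 463 463) (mv 623 (both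 (five 6 495 591) (mv 624 (both (five 6 527 655) (mv 625 (both (five 4 496 593) (five 4 528 657))))))))))))) (both (mv 464 (both (mv 560 (both (mv 431 (both (five 7 431 463) (mv 432 (both (five 7 399 399) (mv 559 (both (five 6 431 527) (five 6 463 591))))))) (both (mv 592 (both (five 7 463 463) (mv 623 (both (five 6 495 591) (mv 624 (both (five 6 527 655) (mv 625 (both (five 4 496 593) (five 4 528 657))))))))) (mv 593 (both (five 4 464 561) (mv 592 (both (five 4 496 625) (mv 527 (both (five 7 495 624) (mv 432 (both (five 6 399 400) (five 6 431 559)))))))))))) (both (mv 494 (both (five 1 461 465) (mv 461 (both (five 3 460 460) (mv 462 (both (five 3 461 497) (mv 557 (both (five 5 461 589) (mv 556 (both (five 6 460 588) (mv 558 (both (five 4 461 590) (mv 527 (both (five 1 524 559) (mv 432 (both (five 6 399 400) (mv 433 (both (five 5 400 401) (five 1 429 463))))))))))))))))))) (mv 465 (both (five 1 461 494) (mv 433 (both (five 5 432 560) (mv 401 (both (five 6 368 369) (five 6 400 497)))))))))) (both (mv 494 (both (five 2 492 524) (mv 461 (both (five 3 460 460) (mv 462 (both (five 3 461 497) (mv 557 (both (five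 5 461 589) (mv 556 (both (five 6 460 588) (mv 558 (both (five 4 461 590) (mv 559 (both (five 1 524 527) (mv 592 (both (five 0 556 591) (mv 560 (both (five 7 463 463) (five 0 557 593))))))))))))))))))) (mv 494 (both (five 2 492 524) (mv 464 (both (five 1 461 465) (mv 560 (both (mv 591 (both (five 6 463 559) (mv 592 (both (five 6 495 623) (mv 593 (both (five 4 464 561) (five 4 496 625))))))) (both (mv 593 (both (five 4 464 561) (mv 592 (both (five 4 496 625) (mv 623 (both (five 6 495 591) (mv 624 (both (five 7 495 527) (five 6 527 655))))))))) (both (mv 593 (both (five 4 464 561) (mv 592 (both (five 4 496 625) (mv 527 (both (five 7 495 624) (mv 432 (both (five 6 399 400) (five 6 431 559))))))))) (mv 559 (both (five 6 463 591) (mv 432 (both (five 6 431 527) (mv 399 (both (five 7 399 431) (mv 400 (both (five 7 367 367) (mv 401 (both (five 5 368 369) (five 5 400 433)))))))))))))))))))))))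

theorem L55 : W (S 988530863186674619578336756865110845819126775104098558876359956461909287475517697927706188055377193898211299979079754656078381545756745792834308240066213838848) (S 747510271034881081167176744052390273542094194566081149038710779462610699887005984274970057341548226495200701968186688325123727918663438218999522344388532897421386706507009341291751508424345098649600) :=
  check_sound Env.nil (x := 496) (t := tL55) (by decide +kernel)

def tL56 : T :=
  (both (mv 461 (both (mv 462 (both (mv 430 (both (five 5 429 557) (mv 398 (both (five 4 366 366) (five 5 397 429))))) (mv 492 (both (five 2 460 464) (mv 491 (both (five 2 459 460) (five 1 458 490))))))) (both (mv 429 (both (mv 396 (both (five 7 396 428) (mv 397 (both (five 7 364 364) (mv 398 (both (five 5 365 366) (five 5 397 430))))))) (both (mv 398 (both (five 5 397 430) (mv 397 (both (five 5 365 366) (mv 524 (both (five 6 396 492) (five 6 428 556))))))) (mv 428 (both (five 7 396 396) (mv 556 (both (five 6 428 524) (mv 557 (both (five 7 428 460) (five 6 460 588)))))))))) (both (mv 462 (both (mv 492 (both (five 2 460 464) (mv 491 (both (five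 2 459 460) (five 1 458 490))))) (both (mv 460 (both (five 0 460 496) (mv 427 (both (five 3 427 428) (mv 459 (both (five 3 426 426) (mv 491 (both (five 2 458 490) (five 2 459 492))))))))) (both (mv 464 (both (five 2 460 492) (mv 433 (both (five 1 429 432) (mv 465 (both (five 1 430 434) (mv 496 (both (five 0 461 497) (five 5 432 560))))))))) (mv 496 (both (five 0 460 460) (mv 464 (both (five 0 461 497) (mv 433 (both (five 1 429 432) (mv 465 (both (five 1 430 434) (five 5 432 560))))))))))))) (both (mv 429 (both (mv 396 (both (five 7 396 428) (mv 397 (both (five 7 364 364) (mv 398 (both (five 5 365 366) (five 5 397 430))))))) (both (mv 396 (both (five 7 396 428) (mv 397 (both (five 7 364 364) (mv 524 (both (five 6 396 492) (five 6 428 556))))))) (both (mv 398 (both (five 5 397 430) (mv 397 (both (five 5 365 366) (mv 524 (both (five 6 396 492) (five 6 428 556))))))) (mv 396 (both (five 7 396 428) (mv 430 (both (five 5 397 398) (mv 556 (both (five 6 428 524) (mv 557 (both (five 5 429 462) (five 6 460 588))))))))))))) (mv 429 (both (mv 396 (both (five 7 396 428) (mv 397 (both (five 7 364 364) (mv 398 (both (five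 5 365 366) (five 5 397 430))))))) (both (mv 428 (both (five 7 396 396) (mv 556 (both (five 6 428 524) (mv 557 (both (five 7 428 460) (five 6 460 588))))))) (mv 430 (both (five 5 397 398) (mv 556 (both (five 6 428 524) (mv 557 (both (five 5 429 462) (five 6 460 588))))))))))))))) (both (mv 461 (both (mv 492 (both (mv 494 (both (five 1 460 464) (five 0 492 527))) (both (mv 462 (both (five 2 460 464) (mv 491 (both (five 2 459 460) (five 1 458 490))))) (mv 494 (both (five 0 492 527) (mv 459 (both (five 3 459 460) (mv 491 (both (five 3 458 458) (five 1 459 462)))))))))) (both (mv 429 (both (mv 396 (both (five 7 396 428) (mv 397 (both (five 7 364 364) (mv 398 (both (five 5 365 366) (five 5 397 430))))))) (both (mv 428 (both (five 7 396 396) (mv 556 (both (five 6 428 524) (mv 557 (both (five 7 428 460) (five 6 460 588))))))) (mv 430 (both (five 5 397 398) (mv 556 (both (five 6 428 524) (mv 557 (both (five 5 429 462) (five 6 460 588)))))))))) (both (mv 429 (both (mv 396 (both (five 7 396 428) (mv 397 (both (five 7 364 364) (mv 398 (both (five 5 365 366) (five 5 397 430))))))) (both (mv 398 (both (five 5 397 430)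 (mv 397 (both (five 5 365 366) (mv 524 (both (five 6 396 492) (five 6 428 556))))))) (mv 428 (both (five 7 396 396) (mv 556 (both (five 6 428 524) (mv 557 (both (five 7 428 460) (five 6 460 588)))))))))) (mv 462 (both (mv 430 (both (five 5 429 557) (mv 398 (both (five 4 366 366) (five 5 397 429))))) (mv 464 (both (five 2 460 492) (mv 433 (both (five 1 429 432) (mv 465 (both (five 1 430 434) (five 2 461 494))))))))))))) (both (mv 496 (both (mv 560 (both (five 7 463 592) (mv 464 (both (mv 433 (both (five 5 432 465) (mv 432 (both (five 5 400 401) (mv 559 (both (five 6 431 527) (five 6 463 591))))))) (both (mv 465 (both (five 5 432 433) (mv 466 (both (five 2 463 467) (mv 434 (both (five 1 431 435) (mv 498 (both (five 0 463 499) (mv 462 (both (five 0 462 497) (mv 429 (both (five 3 429 430) (mv 461 (both (five 3 428 428) (five 0 460 460))))))))))))))) (mv 559 (both (five 6 463 591) (mv 527 (both (five 5 431 432) (mv 462 (both (five 7 430 430) (mv 497 (both (five 3 462 498) (five 0 461 461)))))))))))))) (both (mv 494 (both (five 2 492 524) (mv 461 (both (five 3 460 460) (mv 462 (both (five 3 461 497) (mv 430 (both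 (five 5 429 557) (mv 398 (both (five 4 366 366) (five 5 397 429))))))))))) (mv 494 (both (five 2 492 524) (mv 464 (both (five 1 461 465) (mv 560 (both (five 7 463 592) (mv 559 (both (five 6 463 591) (mv 432 (both (five 5 431 527) (mv 400 (both (five 6 367 368) (mv 401 (both (five 5 368 369) (five 5 400 433)))))))))))))))))) (both (mv 494 (both (mv 492 (both (five 0 492 527) (mv 524 (both (five 2 492 496) (five 2 491 523))))) (both (mv 496 (both (five 2 492 524) (mv 461 (both (five 3 460 460) (mv 462 (both (five 3 461 497) (mv 430 (both (five 5 429 557) (mv 398 (both (five 4 366 366) (five 5 397 429))))))))))) (mv 492 (both (five 0 492 527) (mv 459 (both (five 3 459 460) (mv 491 (both (five 3 458 458) (five 1 459 462)))))))))) (both (mv 494 (both (mv 492 (both (five 1 460 464) (five 0 492 527))) (both (mv 496 (both (five 2 492 524) (mv 464 (both (five 1 461 465) (mv 560 (both (five 7 463 592) (mv 559 (both (five 6 463 591) (mv 432 (both (five 5 431 527) (mv 400 (both (five 6 367 368) (mv 401 (both (five 5 368 369) (five 5 400 433))))))))))))))) (both (mv 492 (both (five 0 492 527) (mv 524 (both (five 2 492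 496) (five 2 491 523))))) (mv 464 (both (five 1 460 492) (mv 465 (both (five 2 462 466) (five 1 461 496))))))))) (mv 494 (both (mv 496 (both (mv 461 (both (five 3 460 460) (mv 462 (both (five 3 461 497) (mv 430 (both (five 5 429 557) (mv 398 (both (five 4 366 366) (five 5 397 429))))))))) (mv 464 (both (five 1 461 465) (mv 560 (both (five 7 463 592) (mv 559 (both (five 6 463 591) (mv 432 (both (five 5 431 527) (mv 400 (both (five 6 367 368) (mv 401 (both (five 5 368 369) (five 5 400 433))))))))))))))) (both (mv 492 (both (five 0 492 527) (mv 459 (both (five 3 459 460) (mv 491 (both (five 3 458 458) (five 1 459 462))))))) (mv 464 (both (five 1 460 492) (mv 465 (both (five 2 462 466) (five 1 461 496)))))))))))))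

theorem L56 : W (S 988530863161101255477965199823351247902181399264280175473348632901073111861570523490045856288251469453467802101127056952626884798991366094595640433003529764864) (S 25326633117214465880203533809657322434975226530814250986411395191408074745600485553705034999326188861111904764988729958148775579087677008897526157052252099958656829431144842788864) :=
  check_sound Env.nil (x := 493) (t := tL56) (by decide +kernel)

def tL57 : T :=
  (both (mv 461 (both (mv 429 (both (mv 396 (both (five 7 396 428) (mv 397 (both (five 7 364 364) (mv 398 (both (five 5 365 366) (five 5 397 430))))))) (both (mv 398 (both (five 5 397 430) (mv 397 (both (five 5 365 366) (mv 524 (both (five 6 396 492) (five 6 428 556))))))) (mv 428 (both (five 7 396 396) (mv 556 (both (five 6 428 524) (mv 557 (both (five 7 428 460) (five 6 460 588)))))))))) (both (mv 462 (both (mv 492 (both (five 2 460 464) (mv 491 (both (five 2 459 460) (five 1 458 490))))) (mv 430 (both (five 5 429 557) (mv 398 (both (five 6 365 366) (five 6 397 494))))))) (both (mv 429 (both (mv 396 (both (five 7 396 428) (mv 397 (both (five 7 364 364) (mv 398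 (both (five 5 365 366) (five 5 397 430))))))) (both (mv 428 (both (five 7 396 396) (mv 556 (both (five 6 428 524) (mv 557 (both (five 7 428 460) (five 6 460 588))))))) (mv 430 (both (five 5 397 398) (mv 556 (both (five 6 428 524) (mv 557 (both (five 5 429 462) (five 6 460 588)))))))))) (both (mv 429 (both (mv 396 (both (five 7 396 428) (mv 397 (both (five 7 364 364) (mv 524 (both (five 6 396 492) (five 6 428 556))))))) (both (mv 524 (both (five 6 428 556) (mv 492 (both (five 6 396 397) (mv 462 (both (five 2 460 464) (mv 491 (both (five 2 459 460) (five 1 458 490))))))))) (mv 428 (both (five 7 396 396) (mv 462 (both (five 3 428 464) (mv 427 (both (five 0 426 426) (five 3 427 460)))))))))) (mv 462 (both (mv 430 (both (five 5 429 557) (mv 398 (both (five 4 366 366) (five 5 397 429))))) (mv 464 (both (five 2 460 492) (mv 433 (both (five 1 429 432) (mv 465 (both (five 1 430 434) (five 2 461 494)))))))))))))) (both (mv 461 (both (mv 462 (both (mv 430 (both (five 5 429 557) (mv 398 (both (five 4 366 366) (five 5 397 429))))) (mv 492 (both (five 2 460 464) (mv 491 (both (five 2 459 460) (five 1 458 490))))))) (both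 (mv 429 (both (mv 396 (both (five 7 396 428) (mv 397 (both (five 7 364 364) (mv 398 (both (five 5 365 366) (five 5 397 430))))))) (both (mv 398 (both (five 5 397 430) (mv 397 (both (five 5 365 366) (mv 524 (both (five 6 396 492) (five 6 428 556))))))) (mv 428 (both (five 7 396 396) (mv 556 (both (five 6 428 524) (mv 557 (both (five 7 428 460) (five 6 460 588)))))))))) (both (mv 462 (both (mv 492 (both (five 2 460 464) (mv 491 (both (five 2 459 460) (five 1 458 490))))) (both (mv 460 (both (five 0 460 496) (mv 427 (both (five 3 427 428) (mv 459 (both (five 3 426 426) (mv 491 (both (five 2 458 490) (five 2 459 492))))))))) (both (mv 464 (both (five 2 460 492) (mv 433 (both (five 1 429 432) (mv 465 (both (five 1 430 434) (mv 496 (both (five 0 461 497) (five 5 432 560))))))))) (mv 496 (both (five 0 460 460) (mv 464 (both (five 0 461 497) (mv 433 (both (five 1 429 432) (mv 465 (both (five 1 430 434) (five 5 432 560))))))))))))) (both (mv 429 (both (mv 396 (both (five 7 396 428) (mv 397 (both (five 7 364 364) (mv 398 (both (five 5 365 366) (five 5 397 430))))))) (both (mv 396 (both (five 7 396 428) (mv 397 (both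 (five 7 364 364) (mv 524 (both (five 6 396 492) (five 6 428 556))))))) (both (mv 398 (both (five 5 397 430) (mv 397 (both (five 5 365 366) (mv 524 (both (five 6 396 492) (five 6 428 556))))))) (mv 396 (both (five 7 396 428) (mv 430 (both (five 5 397 398) (mv 556 (both (five 6 428 524) (mv 557 (both (five 5 429 462) (five 6 460 588))))))))))))) (mv 429 (both (mv 396 (both (five 7 396 428) (mv 397 (both (five 7 364 364) (mv 398 (both (five 5 365 366) (five 5 397 430))))))) (both (mv 428 (both (five 7 396 396) (mv 556 (both (five 6 428 524) (mv 557 (both (five 7 428 460) (five 6 460 588))))))) (mv 430 (both (five 5 397 398) (mv 556 (both (five 6 428 524) (mv 557 (both (five 5 429 462) (five 6 460 588))))))))))))))) (both (mv 461 (both (mv 429 (both (mv 396 (both (five 7 396 428) (mv 397 (both (five 7 364 364) (mv 398 (both (five 5 365 366) (five 5 397 430))))))) (both (mv 398 (both (five 5 397 430) (mv 397 (both (five 5 365 366) (mv 524 (both (five 6 396 492) (five 6 428 556))))))) (mv 428 (both (five 7 396 396) (mv 556 (both (five 6 428 524) (mv 557 (both (five 7 428 460) (five 6 460 588)))))))))) (both (mv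 524 (both (mv 494 (both (five 2 492 496) (mv 523 (both (five 2 491 492) (five 1 490 522))))) (mv 556 (both (five 6 428 429) (mv 588 (both (five 6 460 557) (five 5 492 620))))))) (both (mv 496 (both (mv 494 (both (five 3 460 460) (five 2 492 524))) (both (mv 494 (both (five 2 492 524) (mv 462 (both (five 3 461 497) (mv 430 (both (five 6 397 398) (five 5 429 557))))))) (mv 399 (both (five 4 399 431) (mv 460 (both (five 0 460 462) (mv 428 (both (five 7 428 557) (mv 396 (both (five 4 364 364) (five 4 396 492)))))))))))) (both (mv 429 (both (mv 396 (both (five 7 396 428) (mv 397 (both (five 7 364 364) (mv 398 (both (five 5 365 366) (five 5 397 430))))))) (both (mv 396 (both (five 7 396 428) (mv 397 (both (five 7 364 364) (mv 524 (both (five 6 396 492) (five 6 428 556))))))) (both (mv 398 (both (five 5 397 430) (mv 397 (both (five 5 365 366) (mv 524 (both (five 6 396 492) (five 6 428 556))))))) (mv 396 (both (five 7 396 428) (mv 398 (both (five 5 397 430) (mv 524 (both (five 6 428 556) (mv 494 (both (five 2 492 496) (mv 523 (both (five 2 491 492) (five 1 490 522))))))))))))))) (mv 460 (both (mv 428 (both (five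 7 428 557) (mv 396 (both (five 4 364 364) (five 7 396 429))))) (mv 494 (both (five 3 460 496) (mv 459 (both (five 0 458 458) (five 0 459 462)))))))))))) (both (mv 494 (both (mv 524 (both (five 2 492 496) (mv 523 (both (five 2 491 492) (five 1 490 522))))) (both (mv 464 (both (five 1 460 492) (mv 465 (both (five 2 461 462) (five 2 462 466))))) (mv 496 (both (five 2 492 524) (mv 431 (both (five 4 399 399) (mv 560 (both (five 7 431 464) (five 7 463 592)))))))))) (both (mv 494 (both (mv 524 (both (five 2 492 496) (mv 523 (both (five 2 491 492) (five 1 490 522))))) (both (mv 492 (both (five 1 460 464) (mv 459 (both (five 3 459 460) (mv 491 (both (five 3 458 458) (mv 523 (both (five 2 490 522) (five 2 491 524))))))))) (both (mv 496 (both (five 2 492 524) (mv 431 (both (five 4 399 399) (mv 560 (both (five 7 431 464) (five 7 463 592))))))) (mv 464 (both (five 1 460 492) (mv 465 (both (five 2 462 466) (five 1 461 496))))))))) (both (mv 496 (both (mv 431 (both (five 4 399 399) (mv 560 (both (five 7 431 464) (five 7 463 592))))) (mv 494 (both (five 2 492 524) (mv 461 (both (five 3 460 460) (mv 462 (both (five 3 461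 497) (mv 430 (both (five 5 429 557) (mv 398 (both (five 4 366 366) (five 5 397 429))))))))))))) (mv 494 (both (mv 464 (both (five 1 460 492) (mv 465 (both (five 2 462 466) (five 1 461 496))))) (both (mv 492 (both (mv 491 (both (five 1 459 462) (mv 458 (both (five 3 458 459) (mv 490 (both (five 3 457 457) (mv 522 (both (five 2 489 521) (five 2 490 523))))))))) (both (mv 460 (both (five 3 459 459) (mv 428 (both (five 4 396 396) (mv 461 (both (five 3 460 496) (five 7 428 557))))))) (mv 462 (both (five 1 459 491) (mv 430 (both (five 6 397 398) (mv 461 (both (five 5 429 557) (mv 460 (both (five 0 460 496) (mv 428 (both (five 3 427 427) (mv 396 (both (five 4 364 364) (five 7 396 429)))))))))))))))) (both (mv 496 (both (mv 431 (both (five 4 399 399) (mv 560 (both (five 7 431 464) (five 7 463 592))))) (mv 461 (both (five 3 460 460) (mv 462 (both (five 3 461 497) (mv 430 (both (five 6 397 398) (five 5 429 557))))))))) (mv 464 (both (five 1 460 492) (mv 465 (both (five 2 461 462) (five 2 462 466)))))))))))))))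

theorem L57 : W (S 988530863161101255477965199823351247902181399264280175473348632901073111861570523490045856288251469453467802101127056952626884798991366094595640433003529764864) (S 4351082454377066592321901883357286860125762692913050521863434041628285102792072890513080134218523923861066637832037671836256809623213281049795238148328326860274880243845204482746184892416) :=
  check_sound Env.nil (x := 493) (t := tL57) (by decide +kernel)

def tL58 : T :=
  (both (mv 494 (both (mv 492 (both (five 0 492 527) (mv 524 (both (five 2 492 496) (five 2 491 523))))) (both (mv 492 (both (five 0 492 527) (mv 459 (both (five 3 459 460) (mv 491 (both (five 3 458 458) (mv 523 (both (five 2 490 522) (five 2 491 524))))))))) (both (mv 496 (both (five 2 492 524) (mv 461 (both (five 3 460 460) (mv 465 (both (five 1 461 464) (mv 497 (both (five 3 461 462) (five 1 462 466))))))))) (mv 496 (both (mv 460 (both (five 3 460 461) (mv 492 (both (five 3 459 459) (five 0 492 527))))) (both (mv 464 (both (five 1 461 465) (mv 527 (both (five 0 492 492) (mv 432 (both (five 6 399 400) (five 6 431 559))))))) (mv 461 (both (five 3 460 460)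 (mv 465 (both (five 1 461 464) (mv 497 (both (five 3 461 462) (five 1 462 466)))))))))))))) (both (mv 461 (both (mv 557 (both (mv 460 (both (five 7 428 428) (mv 588 (both (five 6 460 556) (mv 589 (both (five 7 460 492) (five 6 492 620))))))) (both (mv 589 (both (mv 588 (both (five 6 460 556) (five 6 492 620))) (both (mv 622 (both (five 4 493 590) (mv 621 (both (five 4 525 654) (mv 652 (both (five 6 524 620) (mv 653 (both (five 6 556 684) (mv 524 (both (five 7 524 556) (five 7 492 492))))))))))) (both (mv 620 (both (five 6 492 588) (mv 621 (both (five 6 524 652) (mv 622 (both (five 4 493 590) (five 4 525 654))))))) (mv 430 (both (five 5 429 462) (mv 556 (both (five 6 460 588) (mv 622 (both (five 4 493 590) (mv 621 (both (five 4 525 654) (mv 524 (both (five 7 524 653) (five 7 492 492))))))))))))))) (both (mv 460 (both (five 7 428 428) (mv 462 (both (five 5 429 430) (mv 463 (both (five 0 460 496) (mv 492 (both (five 2 460 464) (five 2 459 491))))))))) (mv 460 (both (five 7 428 428) (mv 462 (both (five 5 429 430) (mv 463 (both (five 0 460 496) (mv 431 (both (five 1 428 432) (mv 560 (both (five 4 431 527) (mv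 588 (both (five 6 460 556) (mv 589 (both (five 6 492 620) (mv 590 (both (five 4 493 622) (mv 591 (both (five 1 556 559) (mv 592 (both (five 1 557 561) (mv 624 (both (five 0 588 623) (five 0 589 625))))))))))))))))))))))))))) (both (mv 429 (both (mv 396 (both (five 7 396 428) (mv 397 (both (five 7 364 364) (mv 398 (both (five 5 365 366) (five 5 397 430))))))) (both (mv 398 (both (five 5 397 430) (mv 397 (both (five 5 365 366) (mv 524 (both (five 6 396 492) (five 6 428 556))))))) (both (mv 396 (both (five 7 396 428) (mv 397 (both (five 7 364 364) (mv 524 (both (five 6 396 492) (five 6 428 556))))))) (mv 428 (both (five 7 396 396) (mv 427 (both (mv 426 (both (five 0 426 462) (mv 393 (both (five 3 393 394) (mv 425 (both (five 3 392 392) (five 0 425 460))))))) (both (mv 430 (both (five 5 397 398) (mv 395 (both (five 3 394 394) (mv 459 (both (five 2 426 458) (mv 524 (both (five 6 428 556) (mv 492 (both (five 7 395 460) (five 4 395 491))))))))))) (both (mv 426 (both (five 0 426 462) (mv 393 (both (five 3 393 394) (mv 425 (both (five 3 392 392) (mv 457 (both (five 2 424 456) (five 2 425 458))))))))) (mv 426 (both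 (five 0 426 462) (mv 425 (both (five 0 425 460) (mv 457 (both (five 2 424 456) (five 2 425 458))))))))))))))))) (both (mv 429 (both (mv 396 (both (five 7 396 428) (mv 397 (both (five 7 364 364) (mv 398 (both (five 5 365 366) (five 5 397 430))))))) (both (mv 396 (both (five 7 396 428) (mv 397 (both (five 7 364 364) (mv 524 (both (five 6 396 492) (five 6 428 556))))))) (both (mv 398 (both (five 5 397 430) (mv 397 (both (five 5 365 366) (mv 524 (both (five 6 396 492) (five 6 428 556))))))) (mv 396 (both (five 7 396 428) (mv 430 (both (five 5 397 398) (mv 556 (both (five 6 428 524) (mv 557 (both (five 5 429 462) (five 6 460 588))))))))))))) (both (mv 557 (both (mv 430 (both (five 5 429 462) (mv 429 (both (five 5 397 398) (mv 556 (both (five 6 428 524) (five 6 460 588))))))) (both (mv 462 (both (five 5 429 430) (mv 463 (both (mv 492 (both (five 2 460 464) (mv 491 (both (five 2 459 460) (five 1 458 490))))) (both (mv 496 (both (five 0 460 460) (mv 431 (both (five 4 399 399) (mv 560 (both (five 4 431 527) (five 7 463 592))))))) (mv 464 (both (five 2 460 492) (mv 433 (both (five 1 429 432) (mv 465 (both (five 1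 430 434) (mv 496 (both (five 0 461 497) (five 5 432 560)))))))))))))) (mv 588 (both (five 6 460 556) (mv 589 (both (five 6 492 620) (mv 492 (both (five 7 460 460) (mv 621 (both (five 7 492 524) (mv 622 (both (five 4 493 590) (five 4 525 654)))))))))))))) (both (mv 429 (both (mv 524 (both (five 6 428 556) (mv 397 (both (five 6 396 492) (mv 364 (both (five 7 364 396) (mv 365 (both (five 7 332 332) (mv 366 (both (five 5 333 334) (five 5 365 398))))))))))) (both (mv 397 (both (mv 396 (both (five 7 364 364) (five 7 396 428))) (both (mv 364 (both (five 7 364 396) (mv 365 (both (five 7 332 332) (mv 366 (both (five 5 333 334) (five 5 365 398))))))) (mv 366 (both (five 5 365 398) (mv 365 (both (five 5 333 334) (mv 460 (both (five 6 364 492) (mv 428 (both (five 6 332 333) (five 7 428 557)))))))))))) (both (mv 557 (both (mv 556 (both (five 6 428 524) (five 6 460 588))) (both (mv 460 (both (five 7 428 428) (mv 589 (both (five 7 460 492) (mv 620 (both (five 6 492 588) (mv 621 (both (five 6 524 652) (mv 622 (both (five 4 493 590) (five 4 525 654))))))))))) (mv 524 (both (five 6 428 556) (mv 492 (both (five 6 396 397)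 (mv 589 (both (five 7 460 460) (five 7 492 621)))))))))) (mv 428 (both (five 7 396 396) (mv 556 (both (five 6 428 524) (mv 557 (both (five 7 428 460) (five 6 460 588))))))))))) (both (mv 429 (both (mv 396 (both (five 7 396 428) (mv 397 (both (five 7 364 364) (mv 398 (both (five 5 365 366) (five 5 397 430))))))) (both (mv 397 (both (mv 396 (both (five 7 364 364) (five 7 396 428))) (both (mv 364 (both (five 7 364 396) (mv 365 (both (five 7 332 332) (mv 366 (both (five 5 333 334) (five 5 365 398))))))) (mv 366 (both (five 5 365 398) (mv 365 (both (five 5 333 334) (mv 460 (both (five 6 364 492) (mv 428 (both (five 6 332 333) (five 7 428 557)))))))))))) (both (mv 430 (both (five 5 397 398) (mv 431 (both (mv 432 (both (five 2 428 460) (mv 400 (both (five 1 397 401) (mv 463 (both (five 5 399 527) (mv 368 (both (five 6 335 336) (five 6 367 464))))))))) (both (mv 462 (both (five 5 429 557) (mv 460 (both (five 1 427 459) (mv 463 (both (five 0 460 496) (mv 492 (both (five 2 460 464) (five 2 459 491))))))))) (both (mv 462 (both (five 5 429 557) (mv 432 (both (five 2 429 433) (mv 400 (both (five 1 397 401) (mv 463 (both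 (five 5 399 527) (mv 368 (both (five 6 335 336) (five 6 367 464))))))))))) (mv 432 (both (five 2 428 460) (mv 462 (both (five 2 429 433) (five 5 429 557))))))))))) (mv 428 (both (five 7 396 396) (mv 462 (both (mv 463 (both (five 3 428 464) (mv 496 (both (five 0 460 460) (mv 431 (both (five 4 399 399) (mv 560 (both (five 4 431 527) (five 7 463 592))))))))) (both (mv 557 (both (five 5 429 430) (five 7 428 460))) (mv 426 (both (five 0 426 427) (mv 430 (both (five 5 429 557) (mv 463 (both (five 3 428 464) (mv 527 (both (five 7 430 559) (mv 431 (both (five 4 431 560) (mv 399 (both (five 1 396 400) (five 4 399 496)))))))))))))))))))))) (mv 429 (both (mv 396 (both (five 7 396 428) (mv 397 (both (five 7 364 364) (mv 398 (both (five 5 365 366) (five 5 397 430))))))) (both (mv 428 (both (five 7 396 396) (mv 556 (both (five 6 428 524) (mv 557 (both (five 7 428 460) (five 6 460 588))))))) (mv 430 (both (five 5 397 398) (mv 556 (both (five 6 428 524) (mv 557 (both (five 5 429 462) (five 6 460 588))))))))))))))))) (both (mv 557 (both (mv 589 (both (mv 620 (both (five 6 492 588) (mv 621 (both (five 6 524 652) (mv 622 (both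 (five 4 493 590) (five 4 525 654))))))) (mv 492 (both (five 7 460 460) (mv 494 (both (five 5 461 462) (five 0 492 527))))))) (both (mv 461 (both (mv 428 (both (five 7 428 460) (mv 429 (both (five 7 396 396) (mv 430 (both (five 5 429 462) (five 5 397 398))))))) (both (mv 556 (both (five 6 460 588) (mv 429 (both (five 6 428 524) (mv 430 (both (five 5 429 462) (five 5 397 398))))))) (both (mv 556 (both (five 6 460 588) (mv 428 (both (five 7 428 460) (mv 429 (both (five 6 428 524) (five 7 396 396))))))) (mv 588 (both (five 6 460 556) (mv 460 (both (five 7 428 428) (mv 462 (both (five 5 429 430) (mv 459 (both (five 0 459 494) (mv 490 (both (five 2 458 491) (mv 458 (both (five 2 457 489) (mv 426 (both (five 3 425 425) (five 3 426 427))))))))))))))))))) (both (mv 589 (both (mv 620 (both (five 6 492 588) (mv 621 (both (five 6 524 652) (mv 622 (both (five 4 493 590) (five 4 525 654))))))) (both (mv 622 (both (five 4 493 590) (mv 621 (both (five 4 525 654) (mv 652 (both (five 6 524 620) (mv 653 (both (five 6 556 684) (mv 524 (both (five 7 524 556) (five 7 492 492))))))))))) (both (mv 622 (both (five 4 493 590) (mv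 621 (both (five 4 525 654) (mv 524 (both (five 7 492 492) (mv 556 (both (five 7 524 653) (mv 461 (both (five 6 428 429) (five 6 460 588))))))))))) (both (mv 621 (both (mv 620 (both (five 6 492 588) (five 6 524 652))) (both (mv 524 (both (five 7 492 492) (mv 556 (both (five 7 524 653) (mv 461 (both (five 6 428 429) (five 6 460 588))))))) (mv 652 (both (five 6 524 620) (mv 653 (both (five 6 556 684) (mv 524 (both (five 7 524 556) (five 7 492 492)))))))))) (mv 588 (both (five 6 492 620) (mv 556 (both (five 6 460 461) (mv 590 (both (five 4 493 622) (mv 591 (both (five 3 555 555) (five 3 556 592)))))))))))))) (mv 492 (both (mv 589 (both (five 7 460 460) (mv 494 (both (five 0 492 527) (five 5 461 462))))) (both (mv 460 (both (five 7 460 589) (mv 428 (both (five 4 396 396) (five 4 428 524))))) (mv 494 (both (five 0 492 527) (mv 463 (both (five 1 460 464) (mv 491 (both (five 1 459 462) (mv 523 (both (five 2 490 522) (five 2 491 524)))))))))))))))) (both (mv 496 (both (mv 560 (both (mv 464 (both (mv 433 (both (five 5 432 465) (mv 432 (both (five 5 400 401) (mv 559 (both (five 6 431 527) (five 6 463 591))))))) (both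 (mv 431 (both (five 7 431 463) (mv 432 (both (five 7 399 399) (mv 559 (both (five 6 431 527) (five 6 463 591))))))) (mv 463 (both (five 7 431 431) (mv 465 (both (five 5 432 433) (mv 466 (both (five 2 463 467) (mv 434 (both (five 1 431 435) (mv 498 (both (five 0 463 499) (mv 462 (both (five 0 462 497) (mv 429 (both (five 3 429 430) (mv 461 (both (five 3 428 428) (five 0 460 460)))))))))))))))))))) (both (mv 592 (both (mv 623 (both (five 6 495 591) (mv 624 (both (five 6 527 655) (mv 625 (both (five 4 496 593) (five 4 528 657))))))) (both (mv 465 (both (five 5 464 497) (mv 464 (both (five 5 432 433) (mv 593 (both (five 4 464 561) (five 4 496 625))))))) (mv 465 (both (five 5 464 497) (mv 464 (both (five 5 432 433) (mv 591 (both (five 6 463 559) (five 6 495 623)))))))))) (mv 463 (both (five 7 463 592) (mv 431 (both (five 4 399 399) (five 4 431 527)))))))) (both (mv 494 (both (five 2 492 524) (mv 461 (both (five 3 460 460) (mv 429 (both (mv 396 (both (five 7 396 428) (mv 397 (both (five 7 364 364) (mv 398 (both (five 5 365 366) (five 5 397 430))))))) (both (mv 396 (both (five 7 396 428) (mv 397 (both (five 7 364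 364) (mv 462 (both (five 4 365 365) (five 3 461 497))))))) (both (mv 398 (both (five 5 397 430) (mv 397 (both (five 5 365 366) (mv 462 (both (five 4 365 365) (five 3 461 497))))))) (mv 428 (both (five 7 396 396) (mv 430 (both (five 5 397 398) (mv 462 (both (five 3 461 497) (mv 427 (both (five 0 426 426) (five 0 427 463))))))))))))))))) (mv 494 (both (five 2 492 524) (mv 464 (both (five 1 461 465) (mv 560 (both (mv 591 (both (five 6 463 559) (mv 592 (both (five 6 495 623) (mv 593 (both (five 4 464 561) (five 4 496 625))))))) (both (mv 593 (both (five 4 464 561) (mv 592 (both (five 4 496 625) (mv 623 (both (five 6 495 591) (mv 624 (both (five 7 495 527) (five 6 527 655))))))))) (both (mv 593 (both (five 4 464 561) (mv 592 (both (five 4 496 625) (mv 527 (both (five 7 495 624) (mv 432 (both (five 6 399 400) (five 6 431 559))))))))) (mv 559 (both (five 6 463 591) (mv 432 (both (five 6 431 527) (mv 399 (both (five 7 399 431) (mv 400 (both (five 7 367 367) (mv 401 (both (five 5 368 369) (five 5 400 433)))))))))))))))))))))) (both (mv 494 (both (mv 492 (both (five 0 492 527) (mv 459 (both (five 3 459 460) (mv 463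 (both (five 1 460 464) (mv 491 (both (five 3 458 458) (five 1 459 462))))))))) (both (mv 496 (both (mv 461 (both (five 3 460 460) (mv 462 (both (five 3 461 497) (mv 430 (both (five 6 397 398) (five 5 429 557))))))) (mv 560 (both (mv 464 (both (five 1 461 465) (mv 431 (both (five 7 431 463) (mv 432 (both (five 7 399 399) (mv 400 (both (five 6 399 527) (mv 401 (both (five 5 368 369) (five 5 400 433))))))))))) (both (mv 592 (both (mv 624 (both (five 7 495 527) (mv 625 (both (five 4 496 593) (five 4 528 657))))) (both (mv 623 (both (five 6 495 591) (mv 624 (both (five 6 527 655) (mv 625 (both (five 4 496 593) (five 4 528 657))))))) (both (mv 591 (both (five 6 495 623) (mv 593 (both (five 4 496 625) (mv 464 (both (five 4 464 561) (mv 433 (both (five 5 432 465) (mv 432 (both (five 5 400 401) (mv 399 (both (five 7 399 431) (mv 400 (both (five 7 367 367) (five 6 399 527))))))))))))))) (mv 623 (both (five 6 495 591) (mv 624 (both (five 7 495 527) (five 6 527 655))))))))) (mv 592 (both (five 7 463 463) (mv 623 (both (five 6 495 591) (mv 624 (both (five 6 527 655) (mv 625 (both (five 4 496 593) (five 4 528 657))))))))))))))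 (both (mv 496 (both (mv 464 (both (five 1 461 465) (mv 463 (both (five 1 460 492) (mv 431 (both (five 4 399 399) (five 7 431 560))))))) (mv 461 (both (five 3 460 460) (mv 462 (both (five 3 461 497) (mv 430 (both (five 6 397 398) (five 5 429 557))))))))) (both (mv 492 (both (five 0 492 527) (mv 460 (both (five 3 459 459) (mv 428 (both (five 4 396 396) (mv 461 (both (five 3 460 496) (five 7 428 557))))))))) (mv 492 (both (five 0 492 527) (mv 463 (both (five 1 460 464) (mv 462 (both (five 1 459 491) (mv 430 (both (five 6 397 398) (mv 557 (both (five 5 429 461) (five 5 461 589)))))))))))))))) (both (mv 494 (both (mv 496 (both (five 2 492 524) (mv 463 (both (mv 431 (both (five 4 399 399) (mv 560 (both (five 7 431 464) (five 7 463 592))))) (both (mv 431 (both (five 4 399 399) (mv 560 (both (five 4 431 527) (five 7 463 592))))) (mv 465 (both (five 1 461 464) (mv 497 (both (five 1 462 466) (mv 401 (both (five 6 400 433) (mv 498 (both (five 3 462 462) (mv 499 (both (five 2 495 527) (mv 531 (both (five 0 495 530) (five 0 496 532)))))))))))))))))) (both (mv 492 (both (five 0 492 527) (mv 459 (both (five 3 459 460)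 (mv 463 (both (five 1 460 464) (mv 491 (both (five 3 458 458) (five 1 459 462))))))))) (mv 524 (both (five 2 492 496) (mv 523 (both (five 2 491 492) (five 1 490 522)))))))) (both (mv 494 (both (mv 524 (both (five 2 492 496) (mv 523 (both (five 2 491 492) (five 1 490 522))))) (both (mv 492 (both (mv 463 (both (five 1 460 464) (mv 462 (both (five 1 459 491) (mv 430 (both (five 6 397 398) (mv 557 (both (five 5 429 461) (five 5 461 589))))))))) (both (mv 459 (both (five 3 459 460) (mv 491 (both (five 3 458 458) (mv 523 (both (five 2 490 522) (five 2 491 524))))))) (mv 460 (both (five 3 459 459) (mv 428 (both (five 4 396 396) (mv 524 (both (five 2 491 523) (five 4 428 557)))))))))) (both (mv 496 (both (mv 464 (both (five 1 461 465) (mv 463 (both (five 1 460 492) (mv 431 (both (five 4 399 399) (five 7 431 560))))))) (mv 461 (both (five 3 460 460) (mv 462 (both (five 3 461 497) (mv 430 (both (five 6 397 398) (five 5 429 557))))))))) (mv 496 (both (five 2 492 524) (mv 461 (both (five 3 460 460) (mv 465 (both (five 1 461 464) (mv 497 (both (five 3 461 462) (five 1 462 466))))))))))))) (both (mv 494 (both (mv 496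 (both (five 2 492 524) (mv 465 (both (five 1 461 464) (mv 497 (both (five 1 462 466) (mv 462 (both (five 3 461 461) (mv 498 (both (five 3 462 463) (mv 499 (both (five 2 495 527) (mv 531 (both (five 0 495 530) (five 0 496 532))))))))))))))) (both (mv 492 (both (five 0 492 527) (mv 463 (both (five 1 460 464) (mv 462 (both (five 1 459 491) (mv 430 (both (five 6 397 398) (mv 557 (both (five 5 429 461) (five 5 461 589))))))))))) (mv 524 (both (five 2 492 496) (mv 523 (both (five 2 491 492) (five 1 490 522)))))))) (both (mv 494 (both (mv 496 (both (five 2 492 524) (mv 464 (both (five 1 461 465) (mv 432 (both (mv 527 (both (five 6 399 400) (five 6 431 559))) (both (mv 399 (both (five 7 399 431) (mv 400 (both (five 7 367 367) (mv 401 (both (five 5 368 369) (five 5 400 433))))))) (mv 401 (both (five 5 400 433) (mv 431 (both (five 7 399 399) (mv 460 (both (five 3 460 461) (mv 559 (both (five 6 431 527) (mv 560 (both (five 7 431 463) (five 6 463 591)))))))))))))))))) (both (mv 492 (both (five 0 492 527) (mv 459 (both (five 3 459 460) (mv 491 (both (five 3 458 458) (mv 523 (both (five 2 490 522) (five 2 491 524)))))))))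 (both (mv 492 (both (five 0 492 527) (mv 460 (both (five 3 459 459) (mv 428 (both (five 4 396 396) (mv 461 (both (five 3 460 496) (five 7 428 557))))))))) (mv 524 (both (five 2 492 496) (mv 523 (both (five 2 491 492) (five 1 490 522))))))))) (mv 494 (both (mv 492 (both (five 0 492 527) (mv 524 (both (five 2 492 496) (five 2 491 523))))) (both (mv 496 (both (five 2 492 524) (mv 461 (both (five 3 460 460) (mv 429 (both (mv 396 (both (five 7 396 428) (mv 397 (both (five 7 364 364) (mv 398 (both (five 5 365 366) (five 5 397 430))))))) (both (mv 396 (both (five 7 396 428) (mv 397 (both (five 7 364 364) (mv 462 (both (five 4 365 365) (five 3 461 497))))))) (both (mv 398 (both (five 5 397 430) (mv 397 (both (five 5 365 366) (mv 462 (both (five 4 365 365) (five 3 461 497))))))) (mv 428 (both (five 7 396 396) (mv 430 (both (five 5 397 398) (mv 462 (both (five 3 461 497) (mv 427 (both (five 0 426 426) (five 0 427 463))))))))))))))))) (mv 492 (both (five 0 492 527) (mv 459 (both (five 3 459 460) (mv 491 (both (five 3 458 458) (mv 462 (both (five 1 459 463) (mv 398 (both (five 6 397 430) (mv 490 (both (five 1 458 461)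 (mv 522 (both (five 2 489 521) (five 2 490 523)))))))))))))))))))))))))))

theorem L58 : W (S 988530863161101255454148148505632801312661156727406042891648512794071073662266652643294668095351646301915173751338452436331818490997235976069578606837084717056) (S 80263305040134466940755820512199039455734545710920122266530860818527557481281644142951482082602567346386155208463213448595952400824587236322465649256528367277341398934940191317656517508815808756946573459456) :=
  check_sound Env.nil (x := 493) (t := tL58) (by decide +kernel)

def tL59 : T :=
  (both (mv 560 (both (mv 431 (both (five 4 431 527) (mv 496 (both (five 4 399 399) (five 7 431 464))))) (both (mv 527 (both (five 4 431 431) (mv 592 (both (five 4 463 559) (five 7 495 624))))) (both (mv 496 (both (five 7 463 592) (mv 431 (both (five 4 399 399) (five 7 431 464))))) (mv 592 (both (five 7 463 496) (mv 527 (both (five 4 463 559) (five 7 495 624))))))))) (both (mv 527 (both (mv 560 (both (five 4 431 431) (mv 592 (both (five 4 463 559) (five 7 495 624))))) (both (mv 559 (both (mv 462 (both (five 7 430 430) (mv 590 (both (five 6 462 558) (mv 591 (both (five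 7 462 494) (five 6 494 622))))))) (both (mv 462 (both (five 7 430 430) (mv 591 (both (five 7 462 494) (mv 592 (both (five 4 463 560) (five 4 495 624))))))) (mv 558 (both (five 6 462 590) (mv 557 (both (five 1 524 556) (mv 560 (both (five 3 524 524) (five 4 463 592)))))))))) (both (mv 432 (both (mv 400 (both (five 5 399 431) (mv 464 (both (five 6 367 368) (five 5 431 559))))) (both (mv 559 (both (five 5 431 464) (mv 462 (both (five 7 430 430) (mv 590 (both (five 6 462 558) (mv 591 (both (five 7 462 494) (five 6 494 622))))))))) (both (mv 431 (both (five 5 399 400) (mv 430 (both (five 7 398 398) (mv 462 (both (five 7 430 559) (mv 433 (both (five 2 430 434) (five 2 429 461))))))))) (mv 431 (both (five 5 399 400) (mv 462 (both (mv 433 (both (five 2 430 434) (mv 461 (both (five 1 428 460) (five 1 429 464))))) (both (mv 398 (both (five 7 398 430) (mv 399 (both (five 7 366 366) (mv 367 (both (five 6 366 494) (mv 335 (both (five 4 335 464) (mv 336 (both (five 5 303 304) (five 5 335 368))))))))))) (mv 430 (both (five 7 398 398) (mv 433 (both (five 2 430 434) (five 2 429 461)))))))))))))) (mv 431 (both (five 4 431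 560) (mv 398 (both (five 7 398 430) (mv 399 (both (five 7 366 366) (mv 400 (both (five 5 367 368) (five 5 399 432))))))))))))) (both (mv 493 (both (mv 461 (both (mv 462 (both (mv 430 (both (five 5 429 557) (mv 398 (both (five 4 366 366) (five 5 397 429))))) (mv 492 (both (five 2 460 464) (mv 491 (both (five 2 459 460) (five 1 458 490))))))) (both (mv 429 (both (mv 396 (both (five 7 396 428) (mv 397 (both (five 7 364 364) (mv 398 (both (five 5 365 366) (five 5 397 430))))))) (both (mv 398 (both (five 5 397 430) (mv 397 (both (five 5 365 366) (mv 524 (both (five 6 396 492) (five 6 428 556))))))) (mv 428 (both (five 7 396 396) (mv 556 (both (five 6 428 524) (mv 557 (both (five 7 428 460) (five 6 460 588)))))))))) (both (mv 462 (both (mv 492 (both (five 2 460 464) (mv 491 (both (five 2 459 460) (five 1 458 490))))) (both (mv 460 (both (five 0 460 496) (mv 427 (both (five 3 427 428) (mv 459 (both (five 3 426 426) (mv 491 (both (five 2 458 490) (five 2 459 492))))))))) (both (mv 464 (both (five 2 460 492) (mv 433 (both (five 1 429 432) (mv 465 (both (five 1 430 434) (mv 496 (both (five 0 461 497) (five 5 432 560)))))))))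 (mv 496 (both (five 0 460 460) (mv 464 (both (five 0 461 497) (mv 433 (both (five 1 429 432) (mv 465 (both (five 1 430 434) (five 5 432 560))))))))))))) (both (mv 429 (both (mv 396 (both (five 7 396 428) (mv 397 (both (five 7 364 364) (mv 398 (both (five 5 365 366) (five 5 397 430))))))) (both (mv 396 (both (five 7 396 428) (mv 397 (both (five 7 364 364) (mv 524 (both (five 6 396 492) (five 6 428 556))))))) (both (mv 398 (both (five 5 397 430) (mv 397 (both (five 5 365 366) (mv 524 (both (five 6 396 492) (five 6 428 556))))))) (mv 396 (both (five 7 396 428) (mv 430 (both (five 5 397 398) (mv 556 (both (five 6 428 524) (mv 557 (both (five 5 429 462) (five 6 460 588))))))))))))) (mv 429 (both (mv 396 (both (five 7 396 428) (mv 397 (both (five 7 364 364) (mv 398 (both (five 5 365 366) (five 5 397 430))))))) (both (mv 428 (both (five 7 396 396) (mv 556 (both (five 6 428 524) (mv 557 (both (five 7 428 460) (five 6 460 588))))))) (mv 430 (both (five 5 397 398) (mv 556 (both (five 6 428 524) (mv 557 (both (five 5 429 462) (five 6 460 588))))))))))))))) (both (mv 461 (both (mv 429 (both (mv 396 (both (five 7 396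 428) (mv 397 (both (five 7 364 364) (mv 398 (both (five 5 365 366) (five 5 397 430))))))) (both (mv 398 (both (five 5 397 430) (mv 397 (both (five 5 365 366) (mv 524 (both (five 6 396 492) (five 6 428 556))))))) (mv 428 (both (five 7 396 396) (mv 556 (both (five 6 428 524) (mv 557 (both (five 7 428 460) (five 6 460 588)))))))))) (both (mv 462 (both (mv 492 (both (five 2 460 464) (mv 491 (both (five 2 459 460) (five 1 458 490))))) (mv 430 (both (five 5 429 557) (mv 398 (both (five 6 365 366) (five 6 397 494))))))) (both (mv 429 (both (mv 396 (both (five 7 396 428) (mv 397 (both (five 7 364 364) (mv 398 (both (five 5 365 366) (five 5 397 430))))))) (both (mv 428 (both (five 7 396 396) (mv 556 (both (five 6 428 524) (mv 557 (both (five 7 428 460) (five 6 460 588))))))) (mv 430 (both (five 5 397 398) (mv 556 (both (five 6 428 524) (mv 557 (both (five 5 429 462) (five 6 460 588)))))))))) (both (mv 429 (both (mv 396 (both (five 7 396 428) (mv 397 (both (five 7 364 364) (mv 524 (both (five 6 396 492) (five 6 428 556))))))) (both (mv 524 (both (five 6 428 556) (mv 492 (both (five 6 396 397) (mv 462 (both (five 2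 460 464) (mv 491 (both (five 2 459 460) (five 1 458 490))))))))) (mv 428 (both (five 7 396 396) (mv 462 (both (five 3 428 464) (mv 427 (both (five 0 426 426) (five 3 427 460)))))))))) (mv 462 (both (mv 430 (both (five 5 429 557) (mv 398 (both (five 4 366 366) (five 5 397 429))))) (mv 464 (both (five 2 460 492) (mv 433 (both (five 1 429 432) (mv 465 (both (five 1 430 434) (five 2 461 494)))))))))))))) (both (mv 496 (both (mv 560 (both (five 7 463 592) (mv 464 (both (mv 433 (both (five 5 432 465) (mv 432 (both (five 5 400 401) (mv 559 (both (five 6 431 527) (five 6 463 591))))))) (both (mv 465 (both (five 5 432 433) (mv 466 (both (five 2 463 467) (mv 434 (both (five 1 431 435) (mv 498 (both (five 0 463 499) (mv 462 (both (five 0 462 497) (mv 429 (both (five 3 429 430) (mv 461 (both (five 3 428 428) (five 0 460 460))))))))))))))) (mv 559 (both (five 6 463 591) (mv 527 (both (five 5 431 432) (mv 462 (both (five 7 430 430) (mv 497 (both (five 3 462 498) (five 0 461 461)))))))))))))) (both (mv 494 (both (five 2 492 524) (mv 461 (both (five 3 460 460) (mv 462 (both (five 3 461 497) (mv 430 (both (five 5 429 557)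 (mv 398 (both (five 4 366 366) (five 5 397 429))))))))))) (mv 494 (both (five 2 492 524) (mv 464 (both (five 1 461 465) (mv 560 (both (five 7 463 592) (mv 559 (both (five 6 463 591) (mv 432 (both (five 5 431 527) (mv 400 (both (five 6 367 368) (mv 401 (both (five 5 368 369) (five 5 400 433)))))))))))))))))) (both (mv 494 (both (mv 492 (both (five 0 492 527) (mv 459 (both (five 3 459 460) (mv 491 (both (five 3 458 458) (five 1 459 462))))))) (both (mv 496 (both (five 2 492 524) (mv 461 (both (five 3 460 460) (mv 462 (both (five 3 461 497) (mv 430 (both (five 5 429 557) (mv 398 (both (five 4 366 366) (five 5 397 429))))))))))) (both (mv 492 (both (five 0 492 527) (mv 460 (both (five 3 459 459) (mv 428 (both (five 4 396 396) (mv 461 (both (five 3 460 496) (five 7 428 557))))))))) (mv 492 (both (five 0 492 527) (mv 462 (both (five 1 459 491) (mv 430 (both (five 6 397 398) (mv 557 (both (five 5 429 461) (five 5 461 589))))))))))))) (both (mv 494 (both (mv 496 (both (five 2 492 524) (mv 464 (both (five 1 461 465) (mv 560 (both (five 7 463 592) (mv 559 (both (five 6 463 591) (mv 432 (both (five 5 431 527) (mv 400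 (both (five 6 367 368) (mv 401 (both (five 5 368 369) (five 5 400 433))))))))))))))) (both (mv 492 (both (five 0 492 527) (mv 459 (both (five 3 459 460) (mv 491 (both (five 3 458 458) (five 1 459 462))))))) (mv 464 (both (five 1 460 492) (mv 465 (both (five 2 462 466) (five 1 461 496)))))))) (both (mv 494 (both (mv 492 (both (five 1 460 464) (five 0 492 527))) (both (mv 496 (both (five 2 492 524) (mv 464 (both (five 1 461 465) (mv 560 (both (five 7 463 592) (mv 559 (both (five 6 463 591) (mv 432 (both (five 5 431 527) (mv 400 (both (five 6 367 368) (mv 401 (both (five 5 368 369) (five 5 400 433))))))))))))))) (both (mv 492 (both (five 0 492 527) (mv 460 (both (five 3 459 459) (mv 428 (both (five 4 396 396) (mv 461 (both (five 3 460 496) (five 7 428 557))))))))) (mv 464 (both (five 1 460 492) (mv 465 (both (five 2 462 466) (five 1 461 496))))))))) (both (mv 494 (both (mv 496 (both (five 2 492 524) (mv 464 (both (five 1 461 465) (mv 560 (both (five 7 463 592) (mv 559 (both (five 6 463 591) (mv 432 (both (five 5 431 527) (mv 400 (both (five 6 367 368) (mv 401 (both (five 5 368 369) (five 5 400 433)))))))))))))))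 (both (mv 492 (both (five 0 492 527) (mv 462 (both (five 1 459 491) (mv 430 (both (five 6 397 398) (mv 557 (both (five 5 429 461) (five 5 461 589))))))))) (mv 464 (both (five 1 460 492) (mv 465 (both (five 2 462 466) (five 1 461 496)))))))) (mv 494 (both (mv 496 (both (mv 461 (both (five 3 460 460) (mv 462 (both (five 3 461 497) (mv 430 (both (five 5 429 557) (mv 398 (both (five 4 366 366) (five 5 397 429))))))))) (mv 464 (both (five 1 461 465) (mv 560 (both (five 7 463 592) (mv 559 (both (five 6 463 591) (mv 432 (both (five 5 431 527) (mv 400 (both (five 6 367 368) (mv 401 (both (five 5 368 369) (five 5 400 433))))))))))))))) (both (mv 492 (both (five 0 492 527) (mv 459 (both (five 3 459 460) (mv 491 (both (five 3 458 458) (five 1 459 462))))))) (mv 464 (both (five 1 460 492) (mv 465 (both (five 2 462 466) (five 1 461 496)))))))))))))))) (both (mv 461 (both (mv 493 (both (mv 462 (both (mv 430 (both (five 5 429 557) (mv 398 (both (five 4 366 366) (five 5 397 429))))) (mv 492 (both (five 2 460 464) (mv 491 (both (five 2 459 460) (five 1 458 490))))))) (both (mv 429 (both (mv 398 (both (five 5 397 430) (mv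 397 (both (five 5 365 366) (mv 524 (both (five 6 396 492) (five 6 428 556))))))) (both (mv 396 (both (five 7 396 428) (mv 397 (both (five 7 364 364) (mv 524 (both (five 6 396 492) (five 6 428 556))))))) (mv 398 (both (five 5 397 430) (mv 428 (both (five 7 396 396) (mv 462 (both (five 3 428 464) (mv 427 (both (five 0 426 426) (five 3 427 460)))))))))))) (both (mv 557 (both (mv 588 (both (five 6 460 556) (mv 589 (both (five 6 492 620) (mv 590 (both (five 4 461 558) (five 4 493 622))))))) (mv 460 (both (five 7 428 428) (mv 462 (both (five 5 429 430) (mv 492 (both (five 2 460 464) (five 2 459 491))))))))) (both (mv 557 (both (mv 588 (both (five 6 460 556) (mv 589 (both (five 6 492 620) (mv 590 (both (five 4 461 558) (five 4 493 622))))))) (both (mv 460 (both (five 7 428 428) (mv 589 (both (five 7 460 492) (mv 590 (both (five 4 461 558) (five 4 493 622))))))) (mv 428 (both (five 7 428 460) (mv 429 (both (five 7 396 396) (mv 556 (both (five 6 428 524) (five 6 460 588)))))))))) (both (mv 429 (both (mv 396 (both (five 7 396 428) (mv 397 (both (five 7 364 364) (mv 398 (both (five 5 365 366) (five 5 397 430)))))))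 (both (mv 396 (both (five 7 396 428) (mv 397 (both (five 7 364 364) (mv 524 (both (five 6 396 492) (five 6 428 556))))))) (both (mv 398 (both (five 5 397 430) (mv 397 (both (five 5 365 366) (mv 524 (both (five 6 396 492) (five 6 428 556))))))) (mv 396 (both (five 7 396 428) (mv 430 (both (five 5 397 398) (mv 524 (both (five 6 428 556) (mv 557 (both (five 5 429 462) (mv 590 (both (five 4 461 558) (mv 589 (both (five 4 493 622) (mv 620 (both (five 6 492 588) (mv 621 (both (five 7 492 492) (five 6 524 652))))))))))))))))))))) (mv 557 (both (mv 588 (both (five 6 460 556) (mv 589 (both (five 6 492 620) (mv 590 (both (five 4 461 558) (five 4 493 622))))))) (mv 428 (both (five 7 428 460) (mv 429 (both (five 7 396 396) (mv 430 (both (five 5 397 398) (five 5 429 462))))))))))))))) (both (mv 493 (both (mv 460 (both (mv 428 (both (five 7 428 557) (mv 396 (both (five 4 364 364) (five 7 396 429))))) (mv 494 (both (five 3 460 496) (mv 459 (both (five 0 458 458) (five 3 459 492))))))) (both (mv 557 (both (mv 588 (both (five 6 460 556) (mv 589 (both (five 6 492 620) (mv 590 (both (five 4 461 558) (five 4 493 622)))))))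 (both (mv 460 (both (five 7 428 428) (mv 589 (both (five 7 460 492) (mv 590 (both (five 4 461 558) (five 4 493 622))))))) (mv 428 (both (five 7 428 460) (mv 429 (both (five 7 396 396) (mv 556 (both (five 6 428 524) (five 6 460 588)))))))))) (both (mv 496 (both (mv 431 (both (five 4 399 399) (mv 560 (both (five 7 431 464) (five 7 463 592))))) (mv 524 (both (five 2 492 494) (mv 429 (both (five 6 428 556) (mv 396 (both (five 7 396 428) (mv 397 (both (five 7 364 364) (mv 398 (both (five 5 365 366) (five 5 397 430))))))))))))) (mv 496 (both (mv 494 (both (five 3 460 460) (five 2 492 524))) (mv 431 (both (five 4 399 399) (mv 560 (both (five 7 431 464) (five 7 463 592))))))))))) (both (mv 496 (both (mv 431 (both (five 4 399 399) (mv 560 (both (five 7 431 464) (five 7 463 592))))) (mv 462 (both (five 0 460 460) (mv 497 (both (five 3 461 494) (five 3 462 498))))))) (both (mv 493 (both (mv 462 (both (mv 430 (both (five 5 429 557) (mv 398 (both (five 4 366 366) (five 5 397 429))))) (mv 464 (both (five 2 460 492) (mv 433 (both (five 1 429 432) (mv 465 (both (five 1 430 434) (five 2 461 494))))))))) (both (mv 496 (both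 (mv 431 (both (five 4 399 399) (mv 560 (both (five 7 431 464) (five 7 463 592))))) (mv 524 (both (five 2 492 494) (mv 429 (both (five 6 428 556) (mv 396 (both (five 7 396 428) (mv 397 (both (five 7 364 364) (mv 398 (both (five 5 365 366) (five 5 397 430))))))))))))) (both (mv 496 (both (mv 431 (both (five 4 399 399) (mv 560 (both (five 7 431 464) (five 7 463 592))))) (mv 494 (both (five 2 492 524) (mv 462 (both (five 3 461 497) (mv 430 (both (five 6 397 398) (five 5 429 557))))))))) (both (mv 429 (both (mv 396 (both (five 7 396 428) (mv 397 (both (five 7 364 364) (mv 398 (both (five 5 365 366) (five 5 397 430))))))) (both (mv 396 (both (five 7 396 428) (mv 397 (both (five 7 364 364) (mv 524 (both (five 6 396 492) (five 6 428 556))))))) (both (mv 398 (both (five 5 397 430) (mv 397 (both (five 5 365 366) (mv 524 (both (five 6 396 492) (five 6 428 556))))))) (mv 396 (both (five 7 396 428) (mv 430 (both (five 5 397 398) (mv 556 (both (five 6 428 524) (mv 557 (both (five 5 429 462) (five 6 460 588))))))))))))) (mv 496 (both (mv 431 (both (five 4 399 399) (mv 560 (both (five 7 431 464) (five 7 463 592))))) (mv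 524 (both (five 2 492 494) (mv 556 (both (five 6 428 429) (mv 588 (both (five 6 460 557) (five 5 492 620)))))))))))))) (mv 460 (both (mv 493 (both (mv 428 (both (five 7 428 557) (mv 396 (both (five 4 364 364) (five 7 396 429))))) (mv 494 (both (five 3 460 496) (mv 459 (both (five 0 458 458) (five 3 459 492))))))) (both (mv 462 (both (mv 428 (both (five 3 427 427) (mv 493 (both (five 7 428 557) (mv 396 (both (five 4 364 364) (five 7 396 429))))))) (mv 459 (both (five 0 459 494) (mv 491 (both (five 2 458 490) (five 2 459 492))))))) (both (mv 462 (both (five 0 460 496) (mv 459 (both (five 0 459 494) (mv 491 (both (five 2 458 490) (five 2 459 492))))))) (mv 462 (both (five 0 460 496) (mv 428 (both (five 3 427 427) (mv 493 (both (five 7 428 557) (mv 396 (both (five 4 364 364) (five 7 396 429)))))))))))))))))) (both (ref 0) (both (mv 431 (both (mv 399 (both (five 4 399 496) (mv 366 (both (five 7 366 398) (mv 367 (both (five 7 334 334) (mv 368 (both (five 5 335 336) (five 5 367 400))))))))) (both (mv 527 (both (five 4 431 560) (mv 430 (both (five 7 398 398) (mv 559 (both (five 7 430 462) (mv 590 (both (five 6 462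 558) (mv 591 (both (five 6 494 622) (mv 623 (both (five 5 495 496) (mv 624 (both (five 4 527 656) (five 4 495 592))))))))))))))) (both (mv 527 (both (five 4 431 560) (mv 398 (both (five 7 398 430) (mv 399 (both (five 7 366 366) (mv 400 (both (five 5 367 368) (five 5 399 432))))))))) (mv 399 (both (five 4 399 496) (mv 400 (both (five 5 367 368) (mv 527 (both (five 5 399 432) (five 4 431 560))))))))))) (mv 431 (both (mv 527 (both (five 4 431 560) (mv 430 (both (five 7 398 398) (mv 559 (both (five 7 430 462) (mv 590 (both (five 6 462 558) (mv 591 (both (five 6 494 622) (mv 496 (both (five 5 463 464) (five 5 495 623))))))))))))) (both (mv 399 (both (five 4 399 496) (mv 366 (both (five 7 366 398) (mv 367 (both (five 7 334 334) (mv 368 (both (five 5 335 336) (five 5 367 400))))))))) (both (mv 527 (both (five 4 431 560) (mv 398 (both (five 7 398 430) (mv 399 (both (five 7 366 366) (mv 400 (both (five 5 367 368) (five 5 399 432))))))))) (mv 399 (both (five 4 399 496) (mv 400 (both (five 5 367 368) (mv 527 (both (five 5 399 432) (five 4 431 560)))))))))))))))))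

theorem L59 : W (S 988530863161101255454148148505632801312661156727406042891648512794071073662266652643294668095351646301915173751338452436331818490997235976069578606837084717056) (S 317691865221152253047630724559301963280830170177992594502795115603889367909728110873498918184601107413799441260041779239888491845274957141104557544161070320843634050363857939431779477059888394272768) :=
  check_sound (Env.cons L33 Env.nil) (x := 463) (t := tL59) (by decide +kernel)

def tL60 : T :=
  (both (mv 494 (both (mv 492 (both (five 0 492 527) (mv 524 (both (five 2 492 496) (five 2 491 523))))) (both (mv 492 (both (five 0 492 527) (mv 459 (both (five 3 459 460) (mv 491 (both (five 3 458 458) (mv 523 (both (five 2 490 522) (five 2 491 524))))))))) (both (mv 496 (both (five 2 492 524) (mv 461 (both (five 3 460 460) (mv 465 (both (five 1 461 464) (mv 497 (both (five 3 461 462) (five 1 462 466))))))))) (mv 496 (both (mv 460 (both (five 3 460 461) (mv 492 (both (five 3 459 459) (five 0 492 527))))) (both (mv 464 (both (five 1 461 465) (mv 527 (both (five 0 492 492) (mv 432 (both (five 6 399 400) (five 6 431 559))))))) (mv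 461 (both (five 3 460 460) (mv 465 (both (five 1 461 464) (mv 497 (both (five 3 461 462) (five 1 462 466)))))))))))))) (both (mv 557 (both (mv 461 (both (mv 430 (both (five 5 429 462) (mv 429 (both (five 5 397 398) (mv 556 (both (five 6 428 524) (five 6 460 588))))))) (both (mv 462 (both (five 5 429 430) (mv 463 (both (mv 492 (both (five 2 460 464) (mv 491 (both (five 2 459 460) (five 1 458 490))))) (both (mv 496 (both (five 0 460 460) (mv 431 (both (five 4 399 399) (mv 560 (both (five 4 431 527) (five 7 463 592))))))) (mv 464 (both (five 2 460 492) (mv 433 (both (five 1 429 432) (mv 465 (both (five 1 430 434) (mv 496 (both (five 0 461 497) (five 5 432 560)))))))))))))) (mv 556 (both (five 6 460 588) (mv 558 (both (five 4 461 590) (mv 559 (both (five 1 524 527) (mv 524 (both (five 3 523 523) (five 3 524 560)))))))))))) (both (mv 589 (both (mv 620 (both (five 6 492 588) (mv 621 (both (five 6 524 652) (mv 622 (both (five 4 493 590) (five 4 525 654))))))) (both (mv 492 (both (five 7 460 460) (mv 621 (both (five 7 492 524) (mv 622 (both (five 4 493 590) (five 4 525 654))))))) (both (mv 492 (both (five 7 460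 460) (mv 620 (both (five 6 492 588) (mv 621 (both (five 7 492 524) (five 6 524 652))))))) (mv 588 (both (five 6 492 620) (mv 558 (both (mv 559 (both (five 2 556 560) (mv 556 (both (five 2 555 587) (five 1 524 527))))) (both (mv 460 (both (five 7 460 492) (mv 587 (both (five 1 554 586) (mv 590 (both (five 4 493 622) (mv 555 (both (five 3 554 554) (mv 556 (both (five 0 555 591) (mv 522 (both (five 3 522 523) (mv 619 (both (five 2 586 618) (mv 651 (both (five 5 523 524) (five 5 555 683))))))))))))))))) (both (mv 590 (both (five 4 493 622) (mv 559 (both (five 2 556 560) (mv 556 (both (five 1 524 527) (mv 591 (both (five 0 556 592) (five 0 555 555))))))))) (mv 559 (both (five 2 556 560) (mv 587 (both (five 1 554 586) (five 1 555 590))))))))))))))) (both (mv 589 (both (mv 492 (both (five 7 460 460) (mv 620 (both (five 6 492 588) (mv 621 (both (five 7 492 524) (five 6 524 652))))))) (both (mv 492 (both (five 7 460 460) (mv 621 (both (five 7 492 524) (mv 622 (both (five 4 493 590) (five 4 525 654))))))) (mv 588 (both (five 6 492 620) (mv 590 (both (five 4 493 622) (mv 558 (both (five 4 461 461) (mv 587 (both (five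 1 554 586) (five 1 555 559)))))))))))) (both (mv 560 (both (mv 558 (both (mv 559 (both (five 3 524 524) (mv 527 (both (five 1 524 556) (mv 592 (both (five 7 495 624) (five 4 463 463))))))) (mv 590 (both (five 4 461 461) (mv 622 (both (five 4 493 589) (five 7 525 654))))))) (both (mv 558 (both (mv 590 (both (five 4 461 461) (mv 622 (both (five 4 493 589) (five 7 525 654))))) (both (mv 559 (both (five 3 524 524) (mv 527 (both (five 1 524 556) (mv 463 (both (five 4 431 431) (mv 462 (both (five 7 430 430) (mv 464 (both (five 5 431 432) (mv 461 (both (five 2 460 492) (mv 496 (both (five 0 461 497) (five 5 463 591))))))))))))))) (mv 559 (both (five 3 524 524) (mv 527 (both (five 1 524 556) (mv 590 (both (five 6 462 463) (mv 622 (both (five 4 493 589) (five 7 525 654)))))))))))) (both (mv 592 (both (mv 527 (both (five 7 495 624) (mv 463 (both (five 4 463 559) (five 4 431 431))))) (both (mv 496 (both (five 7 463 463) (mv 623 (both (five 6 495 591) (mv 624 (both (five 6 527 655) (mv 625 (both (five 4 496 593) (five 4 528 657))))))))) (both (mv 463 (both (five 7 463 496) (mv 527 (both (five 4 431 431) (five 4 463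 559))))) (mv 624 (both (five 7 495 527) (mv 623 (both (five 6 527 655) (mv 496 (both (five 6 495 591) (mv 593 (both (five 4 496 625) (mv 464 (both (five 4 464 561) (mv 465 (both (five 5 464 497) (five 5 432 433))))))))))))))))) (both (mv 558 (both (mv 590 (both (five 4 461 461) (mv 622 (both (five 4 493 589) (five 7 525 654))))) (mv 559 (both (five 3 524 524) (mv 592 (both (five 0 557 593) (mv 591 (both (five 0 556 556) (mv 623 (both (five 5 527 655) (five 6 495 496))))))))))) (mv 592 (both (mv 624 (both (five 7 495 527) (mv 623 (both (five 6 527 655) (mv 657 (both (five 4 528 625) (mv 656 (both (five 4 560 689) (mv 622 (both (five 0 621 621) (mv 590 (both (five 4 493 589) (mv 558 (both (five 4 461 461) (five 7 525 654))))))))))))))) (both (mv 496 (both (five 7 463 463) (mv 465 (both (five 5 464 497) (mv 464 (both (five 5 432 433) (mv 593 (both (five 4 464 561) (five 4 496 625))))))))) (mv 463 (both (five 7 463 496) (mv 527 (both (five 4 431 431) (five 7 495 624))))))))))))) (both (mv 461 (both (mv 430 (both (five 5 429 462) (mv 429 (both (five 5 397 398) (mv 556 (both (five 6 428 524) (five 6 460 588)))))))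 (both (mv 462 (both (five 5 429 430) (mv 463 (both (mv 492 (both (five 2 460 464) (mv 491 (both (five 2 459 460) (five 1 458 490))))) (both (mv 496 (both (five 0 460 460) (mv 431 (both (five 4 399 399) (mv 560 (both (five 4 431 527) (five 7 463 592))))))) (mv 464 (both (five 2 460 492) (mv 433 (both (five 1 429 432) (mv 465 (both (five 1 430 434) (mv 496 (both (five 0 461 497) (five 5 432 560)))))))))))))) (mv 589 (both (mv 492 (both (five 7 460 460) (mv 621 (both (five 7 492 524) (mv 652 (both (five 6 524 620) (mv 653 (both (five 6 556 684) (mv 654 (both (five 4 557 686) (five 4 525 622))))))))))) (both (mv 556 (both (five 6 460 588) (mv 524 (both (five 6 428 429) (mv 621 (both (five 7 524 653) (five 7 492 492))))))) (mv 588 (both (five 6 492 620) (five 6 460 556))))))))) (both (mv 463 (both (mv 560 (both (mv 431 (both (five 4 431 527) (mv 496 (both (five 4 399 399) (five 7 431 464))))) (both (mv 527 (both (five 4 431 431) (mv 592 (both (five 4 463 559) (five 7 495 624))))) (both (mv 496 (both (five 7 463 592) (mv 431 (both (five 4 399 399) (five 7 431 464))))) (mv 592 (both (five 7 463 496) (mv 527 (both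 (five 4 463 559) (five 7 495 624))))))))) (both (mv 461 (both (mv 588 (both (five 6 460 556) (mv 589 (both (five 6 492 620) (mv 590 (both (five 4 461 558) (five 4 493 622))))))) (mv 462 (both (five 5 429 430) (mv 464 (both (five 2 460 492) (mv 432 (both (five 1 429 433) (mv 400 (both (five 6 367 368) (mv 496 (both (five 0 461 497) (five 6 399 527))))))))))))) (both (mv 461 (both (mv 588 (both (five 6 460 556) (mv 589 (both (five 6 492 620) (mv 590 (both (five 4 461 558) (five 4 493 622))))))) (mv 462 (both (five 5 429 430) (mv 464 (both (five 2 460 492) (mv 432 (both (five 1 429 433) (mv 368 (both (five 6 367 400) (mv 496 (both (five 0 461 497) (mv 431 (both (five 4 399 399) (five 7 431 560))))))))))))))) (mv 461 (both (mv 588 (both (five 6 460 556) (mv 589 (both (five 6 492 620) (mv 590 (both (five 4 461 558) (five 4 493 622))))))) (mv 430 (both (five 5 429 462) (mv 398 (both (five 5 397 429) (mv 431 (both (five 7 398 527) (mv 366 (both (five 4 334 334) (five 7 366 399))))))))))))))) (mv 589 (both (mv 620 (both (five 6 492 588) (mv 621 (both (five 6 524 652) (mv 622 (both (five 4 493 590) (five 4 525 654)))))))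 (both (mv 621 (both (mv 620 (both (five 6 492 588) (five 6 524 652))) (both (mv 654 (both (five 4 525 622) (mv 653 (both (five 4 557 686) (mv 556 (both (five 7 524 524) (mv 588 (both (five 6 460 461) (five 7 556 685))))))))) (mv 652 (both (five 6 524 620) (mv 653 (both (five 6 556 684) (mv 654 (both (five 4 525 622) (five 4 557 686)))))))))) (both (mv 590 (both (five 4 493 622) (mv 591 (both (mv 556 (both (five 3 556 592) (mv 555 (both (five 0 554 554) (five 0 555 558))))) (both (mv 558 (both (five 4 461 461) (mv 556 (both (five 0 555 555) (mv 559 (both (five 1 524 527) (mv 524 (both (five 3 523 523) (five 3 524 560))))))))) (both (mv 592 (both (five 3 556 556) (mv 560 (both (five 1 557 561) (mv 624 (both (five 7 495 527) (five 0 589 625))))))) (mv 558 (both (five 4 461 461) (mv 592 (both (five 3 557 593) (mv 560 (both (five 1 557 561) (mv 624 (both (five 7 495 527) (five 0 589 625))))))))))))))) (mv 588 (both (five 6 492 620) (mv 558 (both (mv 559 (both (five 2 556 560) (mv 556 (both (five 2 555 587) (five 1 524 527))))) (both (mv 559 (both (five 2 556 560) (mv 587 (both (five 1 554 586) (five 1 555 590)))))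 (mv 461 (both (five 6 460 556) (five 4 461 590))))))))))))))))))) (both (ref 0) (both (ref 1) (both (mv 494 (both (mv 496 (both (mv 464 (both (five 1 461 465) (mv 560 (both (mv 591 (both (five 6 463 559) (mv 592 (both (five 6 495 623) (mv 593 (both (five 4 464 561) (five 4 496 625))))))) (both (mv 593 (both (five 4 464 561) (mv 592 (both (five 4 496 625) (mv 623 (both (five 6 495 591) (mv 624 (both (five 7 495 527) (five 6 527 655))))))))) (both (mv 593 (both (five 4 464 561) (mv 592 (both (five 4 496 625) (mv 527 (both (five 7 495 624) (mv 432 (both (five 6 399 400) (five 6 431 559))))))))) (mv 559 (both (five 6 463 591) (mv 432 (both (five 6 431 527) (mv 399 (both (five 7 399 431) (mv 400 (both (five 7 367 367) (mv 401 (both (five 5 368 369) (five 5 400 433))))))))))))))))) (mv 461 (both (five 3 460 460) (mv 462 (both (five 3 461 497) (mv 430 (both (five 6 397 398) (five 5 429 557))))))))) (both (mv 496 (both (mv 464 (both (five 1 461 465) (mv 463 (both (five 1 460 492) (mv 431 (both (five 4 399 399) (five 7 431 560))))))) (mv 461 (both (five 3 460 460) (mv 462 (both (five 3 461 497) (mv 430 (both (five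 6 397 398) (five 5 429 557))))))))) (both (mv 464 (both (mv 492 (both (five 1 460 463) (five 0 492 527))) (both (mv 496 (both (five 1 461 465) (mv 560 (both (mv 431 (both (five 7 431 463) (mv 432 (both (five 7 399 399) (mv 559 (both (five 6 431 527) (five 6 463 591))))))) (both (mv 592 (both (five 7 463 463) (mv 623 (both (five 6 495 591) (mv 624 (both (five 6 527 655) (mv 625 (both (five 4 496 593) (five 4 528 657))))))))) (mv 593 (both (five 4 464 561) (mv 592 (both (five 4 496 625) (mv 527 (both (five 7 495 624) (mv 432 (both (five 6 399 400) (five 6 431 559)))))))))))))) (both (mv 496 (both (five 1 461 465) (mv 527 (both (five 0 492 492) (mv 432 (both (five 6 399 400) (five 6 431 559))))))) (mv 463 (both (five 1 460 492) (mv 465 (both (five 2 462 466) (five 1 461 496))))))))) (mv 462 (both (mv 430 (both (five 6 397 398) (mv 557 (both (five 5 429 461) (five 5 461 589))))) (mv 492 (both (five 0 492 527) (mv 491 (both (five 1 459 463) (mv 458 (both (five 3 458 459) (mv 490 (both (five 3 457 457) (mv 522 (both (five 2 489 521) (five 2 490 523))))))))))))))))) (both (ref 2) (both (mv 494 (both (mv 496 (both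 (five 2 492 524) (mv 464 (both (five 1 461 465) (mv 560 (both (mv 591 (both (five 6 463 559) (mv 592 (both (five 6 495 623) (mv 593 (both (five 4 464 561) (five 4 496 625))))))) (both (mv 593 (both (five 4 464 561) (mv 592 (both (five 4 496 625) (mv 623 (both (five 6 495 591) (mv 624 (both (five 7 495 527) (five 6 527 655))))))))) (both (mv 593 (both (five 4 464 561) (mv 592 (both (five 4 496 625) (mv 527 (both (five 7 495 624) (mv 432 (both (five 6 399 400) (five 6 431 559))))))))) (mv 559 (both (five 6 463 591) (mv 432 (both (five 6 431 527) (mv 399 (both (five 7 399 431) (mv 400 (both (five 7 367 367) (mv 401 (both (five 5 368 369) (five 5 400 433))))))))))))))))))) (both (mv 464 (both (mv 492 (both (five 1 460 463) (five 0 492 527))) (both (mv 496 (both (five 1 461 465) (mv 560 (both (mv 431 (both (five 7 431 463) (mv 432 (both (five 7 399 399) (mv 559 (both (five 6 431 527) (five 6 463 591))))))) (both (mv 592 (both (five 7 463 463) (mv 623 (both (five 6 495 591) (mv 624 (both (five 6 527 655) (mv 625 (both (five 4 496 593) (five 4 528 657))))))))) (mv 593 (both (five 4 464 561) (mv 592 (both (five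 4 496 625) (mv 527 (both (five 7 495 624) (mv 432 (both (five 6 399 400) (five 6 431 559)))))))))))))) (both (mv 496 (both (five 1 461 465) (mv 527 (both (five 0 492 492) (mv 432 (both (five 6 399 400) (five 6 431 559))))))) (mv 463 (both (five 1 460 492) (mv 465 (both (five 2 462 466) (five 1 461 496))))))))) (both (mv 492 (both (five 0 492 527) (mv 459 (both (five 3 459 460) (mv 491 (both (five 3 458 458) (mv 523 (both (five 2 490 522) (five 2 491 524))))))))) (mv 524 (both (five 2 492 496) (mv 523 (both (five 2 491 492) (five 1 490 522))))))))) (both (mv 494 (both (mv 496 (both (five 2 492 524) (mv 461 (both (five 3 460 460) (mv 462 (both (five 3 461 497) (mv 557 (both (five 5 461 589) (mv 556 (both (five 6 460 588) (mv 558 (both (five 4 461 590) (mv 559 (both (five 1 524 527) (mv 592 (both (five 0 556 591) (mv 560 (both (five 7 463 463) (five 0 557 593))))))))))))))))))) (both (mv 492 (both (five 0 492 527) (mv 459 (both (five 3 459 460) (mv 491 (both (five 3 458 458) (mv 462 (both (five 1 459 463) (mv 398 (both (five 6 397 430) (mv 490 (both (five 1 458 461) (mv 522 (both (five 2 489 521) (five 2 490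 523))))))))))))))) (mv 524 (both (five 2 492 496) (mv 523 (both (five 2 491 492) (five 1 490 522)))))))) (mv 494 (both (mv 496 (both (five 2 492 524) (mv 465 (both (five 1 461 464) (mv 497 (both (five 1 462 466) (mv 462 (both (five 3 461 461) (mv 498 (both (five 3 462 463) (mv 499 (both (five 2 495 527) (mv 531 (both (five 0 495 530) (five 0 496 532))))))))))))))) (both (mv 492 (both (five 0 492 527) (mv 463 (both (five 1 460 464) (mv 462 (both (five 1 459 491) (mv 430 (both (five 6 397 398) (mv 557 (both (five 5 429 461) (five 5 461 589))))))))))) (mv 524 (both (five 2 492 496) (mv 523 (both (five 2 491 492) (five 1 490 522))))))))))))))))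

theorem L60 : W (S 988530863161101255454148148505632801312661156727406042891648512794071073662266652643294668095351646301915173751338452436331818490997235976069578606837084717056) (S 3170400515578163545393110441595201833603011153220640629103649270729795526442421794612007176029000941269976232374584008828881971906062507290572457581182547236736806780608405668762070570341248065005300184252416) :=
  check_sound (Env.cons L47 (Env.cons L55 (Env.cons L40 Env.nil))) (x := 493) (t := tL60) (by decide +kernel)

def tL61 : T :=
  (both (mv 560 (both (mv 431 (both (five 4 431 527) (mv 496 (both (five 4 399 399) (five 7 431 464))))) (both (mv 527 (both (five 4 431 431) (mv 592 (both (five 4 463 559) (five 7 495 624))))) (both (mv 496 (both (five 7 463 592) (mv 431 (both (five 4 399 399) (five 7 431 464))))) (mv 592 (both (five 7 463 496) (mv 527 (both (five 4 463 559) (five 7 495 624))))))))) (both (mv 527 (both (mv 560 (both (five 4 431 431) (mv 592 (both (five 4 463 559) (five 7 495 624))))) (both (mv 559 (both (mv 462 (both (five 7 430 430) (mv 590 (both (five 6 462 558) (mv 591 (both (five 7 462 494) (five 6 494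 622))))))) (both (mv 462 (both (five 7 430 430) (mv 591 (both (five 7 462 494) (mv 592 (both (five 4 463 560) (five 4 495 624))))))) (mv 558 (both (five 6 462 590) (mv 557 (both (five 1 524 556) (mv 560 (both (five 3 524 524) (five 4 463 592)))))))))) (both (mv 432 (both (mv 400 (both (five 5 399 431) (mv 464 (both (five 6 367 368) (five 5 431 559))))) (both (mv 559 (both (five 5 431 464) (mv 462 (both (five 7 430 430) (mv 590 (both (five 6 462 558) (mv 591 (both (five 7 462 494) (five 6 494 622))))))))) (both (mv 431 (both (five 5 399 400) (mv 430 (both (five 7 398 398) (mv 462 (both (five 7 430 559) (mv 433 (both (five 2 430 434) (five 2 429 461))))))))) (mv 431 (both (five 5 399 400) (mv 462 (both (mv 433 (both (five 2 430 434) (mv 461 (both (five 1 428 460) (five 1 429 464))))) (both (mv 398 (both (five 7 398 430) (mv 399 (both (five 7 366 366) (mv 367 (both (five 6 366 494) (mv 335 (both (five 4 335 464) (mv 336 (both (five 5 303 304) (five 5 335 368))))))))))) (mv 430 (both (five 7 398 398) (mv 433 (both (five 2 430 434) (five 2 429 461)))))))))))))) (mv 431 (both (five 4 431 560) (mv 398 (both (five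 7 398 430) (mv 399 (both (five 7 366 366) (mv 400 (both (five 5 367 368) (five 5 399 432))))))))))))) (both (mv 493 (both (mv 461 (both (mv 462 (both (mv 430 (both (five 5 429 557) (mv 398 (both (five 4 366 366) (five 5 397 429))))) (mv 492 (both (five 2 460 464) (mv 491 (both (five 2 459 460) (five 1 458 490))))))) (both (mv 429 (both (mv 396 (both (five 7 396 428) (mv 397 (both (five 7 364 364) (mv 398 (both (five 5 365 366) (five 5 397 430))))))) (both (mv 398 (both (five 5 397 430) (mv 397 (both (five 5 365 366) (mv 524 (both (five 6 396 492) (five 6 428 556))))))) (both (mv 396 (both (five 7 396 428) (mv 397 (both (five 7 364 364) (mv 524 (both (five 6 396 492) (five 6 428 556))))))) (mv 398 (both (five 5 397 430) (mv 428 (both (five 7 396 396) (mv 524 (both (five 6 428 556) (mv 557 (both (five 7 428 460) (mv 558 (both (five 4 461 590) (mv 560 (both (five 3 524 559) (mv 592 (both (five 7 463 496) (mv 624 (both (five 7 495 527) (mv 655 (both (five 6 527 623) (mv 656 (both (five 6 559 687) (mv 657 (both (five 4 560 689) (five 4 528 625))))))))))))))))))))))))))) (both (mv 462 (both (mv 492 (both (five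 2 460 464) (mv 491 (both (five 2 459 460) (five 1 458 490))))) (both (mv 460 (both (five 0 460 496) (mv 427 (both (five 3 427 428) (mv 459 (both (five 3 426 426) (mv 491 (both (five 2 458 490) (five 2 459 492))))))))) (both (mv 464 (both (five 2 460 492) (mv 433 (both (five 1 429 432) (mv 465 (both (five 1 430 434) (mv 496 (both (five 0 461 497) (five 5 432 560))))))))) (mv 496 (both (five 0 460 460) (mv 464 (both (five 0 461 497) (mv 433 (both (five 1 429 432) (mv 465 (both (five 1 430 434) (five 5 432 560))))))))))))) (both (mv 462 (both (mv 430 (both (five 5 429 557) (mv 398 (both (five 4 366 366) (five 5 397 429))))) (mv 464 (both (five 2 460 492) (mv 433 (both (five 1 429 432) (mv 465 (both (five 1 430 434) (mv 496 (both (five 0 461 497) (five 5 432 560))))))))))) (mv 462 (both (mv 430 (both (five 5 429 557) (mv 398 (both (five 4 366 366) (five 5 397 429))))) (mv 496 (both (five 0 460 460) (mv 464 (both (five 0 461 497) (mv 433 (both (five 1 429 432) (mv 465 (both (five 1 430 434) (five 5 432 560)))))))))))))))) (both (mv 496 (both (mv 560 (both (five 7 463 592) (mv 464 (both (mv 433 (both (five 5 432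 465) (mv 432 (both (five 5 400 401) (mv 559 (both (five 6 431 527) (five 6 463 591))))))) (both (mv 465 (both (five 5 432 433) (mv 466 (both (five 2 463 467) (mv 434 (both (five 1 431 435) (mv 498 (both (five 0 463 499) (mv 462 (both (five 0 462 497) (mv 429 (both (five 3 429 430) (mv 461 (both (five 3 428 428) (five 0 460 460))))))))))))))) (mv 559 (both (five 6 463 591) (mv 527 (both (five 5 431 432) (mv 462 (both (five 7 430 430) (mv 497 (both (five 3 462 498) (five 0 461 461)))))))))))))) (both (mv 494 (both (five 2 492 524) (mv 461 (both (five 3 460 460) (mv 462 (both (five 3 461 497) (mv 430 (both (five 5 429 557) (mv 398 (both (five 4 366 366) (five 5 397 429))))))))))) (mv 494 (both (five 2 492 524) (mv 464 (both (five 1 461 465) (mv 560 (both (five 7 463 592) (mv 559 (both (five 6 463 591) (mv 432 (both (five 5 431 527) (mv 400 (both (five 6 367 368) (mv 401 (both (five 5 368 369) (five 5 400 433)))))))))))))))))) (both (mv 461 (both (mv 492 (both (mv 494 (both (five 1 460 464) (five 0 492 527))) (both (mv 462 (both (five 2 460 464) (mv 491 (both (five 2 459 460) (five 1 458 490))))) (mv 494 (both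 (five 0 492 527) (mv 459 (both (five 3 459 460) (mv 491 (both (five 3 458 458) (five 1 459 462)))))))))) (both (mv 429 (both (mv 396 (both (five 7 396 428) (mv 397 (both (five 7 364 364) (mv 398 (both (five 5 365 366) (five 5 397 430))))))) (both (mv 398 (both (five 5 397 430) (mv 397 (both (five 5 365 366) (mv 524 (both (five 6 396 492) (five 6 428 556))))))) (both (mv 396 (both (five 7 396 428) (mv 397 (both (five 7 364 364) (mv 524 (both (five 6 396 492) (five 6 428 556))))))) (mv 398 (both (five 5 397 430) (mv 428 (both (five 7 396 396) (mv 524 (both (five 6 428 556) (mv 557 (both (five 7 428 460) (mv 590 (both (five 4 461 558) (mv 589 (both (five 4 493 622) (mv 492 (both (five 7 492 621) (mv 494 (both (five 1 460 464) (five 0 492 527))))))))))))))))))))) (both (mv 428 (both (mv 396 (both (five 7 396 429) (mv 460 (both (five 4 364 364) (five 7 428 557))))) (both (mv 557 (both (five 7 428 460) (mv 462 (both (five 5 429 430) (mv 589 (both (five 5 461 494) (mv 590 (both (five 4 461 558) (five 4 493 622))))))))) (mv 429 (both (five 7 396 396) (mv 430 (both (five 5 397 398) (mv 462 (both (five 0 427 427)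 (five 3 428 464)))))))))) (both (mv 462 (both (mv 430 (both (five 5 429 557) (mv 398 (both (five 4 366 366) (five 5 397 429))))) (mv 492 (both (five 2 460 464) (mv 491 (both (five 2 459 460) (five 1 458 490))))))) (both (mv 557 (both (mv 462 (both (five 5 429 430) (mv 589 (both (five 5 461 494) (mv 590 (both (five 4 461 558) (five 4 493 622))))))) (both (mv 460 (both (five 7 428 428) (mv 589 (both (five 7 460 492) (mv 590 (both (five 4 461 558) (five 4 493 622))))))) (mv 428 (both (five 7 428 460) (mv 429 (both (five 7 396 396) (mv 430 (both (five 5 397 398) (five 5 429 462)))))))))) (mv 462 (both (mv 430 (both (five 5 429 557) (mv 398 (both (five 4 366 366) (five 5 397 429))))) (mv 464 (both (five 2 460 492) (mv 433 (both (five 1 429 432) (mv 465 (both (five 1 430 434) (five 2 461 494))))))))))))))) (both (mv 494 (both (mv 492 (both (five 0 492 527) (mv 524 (both (five 2 492 496) (five 2 491 523))))) (both (mv 496 (both (five 2 492 524) (mv 461 (both (five 3 460 460) (mv 462 (both (five 3 461 497) (mv 430 (both (five 5 429 557) (mv 398 (both (five 4 366 366) (five 5 397 429))))))))))) (mv 492 (both (five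 0 492 527) (mv 459 (both (five 3 459 460) (mv 491 (both (five 3 458 458) (five 1 459 462)))))))))) (both (mv 494 (both (mv 492 (both (five 1 460 464) (five 0 492 527))) (both (mv 496 (both (five 2 492 524) (mv 464 (both (five 1 461 465) (mv 560 (both (five 7 463 592) (mv 559 (both (five 6 463 591) (mv 432 (both (five 5 431 527) (mv 400 (both (five 6 367 368) (mv 401 (both (five 5 368 369) (five 5 400 433))))))))))))))) (both (mv 492 (both (five 0 492 527) (mv 524 (both (five 2 492 496) (five 2 491 523))))) (mv 464 (both (five 1 460 492) (mv 465 (both (five 2 462 466) (five 1 461 496))))))))) (both (mv 494 (both (mv 464 (both (five 1 460 492) (mv 465 (both (five 2 462 466) (five 1 461 496))))) (both (mv 464 (both (five 1 460 492) (mv 465 (both (five 2 461 462) (five 2 462 466))))) (mv 496 (both (five 2 492 524) (mv 461 (both (five 3 460 460) (mv 462 (both (five 3 461 497) (mv 430 (both (five 5 429 557) (mv 398 (both (five 4 366 366) (five 5 397 429)))))))))))))) (mv 494 (both (mv 496 (both (mv 461 (both (five 3 460 460) (mv 462 (both (five 3 461 497) (mv 430 (both (five 5 429 557) (mv 398 (both (five 4 366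 366) (five 5 397 429))))))))) (mv 464 (both (five 1 461 465) (mv 560 (both (five 7 463 592) (mv 559 (both (five 6 463 591) (mv 432 (both (five 5 431 527) (mv 400 (both (five 6 367 368) (mv 401 (both (five 5 368 369) (five 5 400 433))))))))))))))) (both (mv 492 (both (five 0 492 527) (mv 459 (both (five 3 459 460) (mv 491 (both (five 3 458 458) (five 1 459 462))))))) (mv 464 (both (five 1 460 492) (mv 465 (both (five 2 462 466) (five 1 461 496))))))))))))))) (both (mv 493 (both (mv 494 (both (mv 524 (both (five 2 492 496) (mv 523 (both (five 2 491 492) (five 1 490 522))))) (both (mv 464 (both (five 1 460 492) (mv 465 (both (five 2 461 462) (five 2 462 466))))) (mv 496 (both (five 2 492 524) (mv 431 (both (five 4 399 399) (mv 560 (both (five 7 431 464) (five 7 463 592)))))))))) (both (mv 461 (both (mv 429 (both (mv 396 (both (five 7 396 428) (mv 397 (both (five 7 364 364) (mv 524 (both (five 6 396 492) (five 6 428 556))))))) (both (mv 398 (both (five 5 397 430) (mv 397 (both (five 5 365 366) (mv 524 (both (five 6 396 492) (five 6 428 556))))))) (mv 428 (both (five 7 396 396) (mv 430 (both (five 5 397 398)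 (mv 431 (both (five 0 428 464) (mv 460 (both (five 2 428 432) (five 2 427 459)))))))))))) (both (mv 462 (both (mv 492 (both (five 2 460 464) (mv 491 (both (five 2 459 460) (five 1 458 490))))) (mv 430 (both (five 5 429 557) (mv 398 (both (five 6 365 366) (five 6 397 494))))))) (both (mv 428 (both (mv 396 (both (five 7 396 429) (mv 460 (both (five 4 364 364) (five 7 428 557))))) (both (mv 557 (both (five 7 428 460) (mv 462 (both (five 5 429 430) (mv 589 (both (five 5 461 494) (mv 590 (both (five 4 461 558) (five 4 493 622))))))))) (mv 429 (both (five 7 396 396) (mv 430 (both (five 5 397 398) (mv 462 (both (five 0 427 427) (five 3 428 464)))))))))) (both (mv 462 (both (mv 430 (both (five 5 429 557) (mv 398 (both (five 4 366 366) (five 5 397 429))))) (mv 464 (both (five 2 460 492) (mv 433 (both (five 1 429 432) (mv 465 (both (five 1 430 434) (five 2 461 494))))))))) (both (mv 557 (both (mv 462 (both (five 5 429 430) (mv 589 (both (five 5 461 494) (mv 590 (both (five 4 461 558) (five 4 493 622))))))) (both (mv 460 (both (five 7 428 428) (mv 589 (both (five 7 460 492) (mv 590 (both (five 4 461 558) (five 4 493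 622))))))) (mv 428 (both (five 7 428 460) (mv 429 (both (five 7 396 396) (mv 430 (both (five 5 397 398) (five 5 429 462)))))))))) (mv 429 (both (mv 396 (both (five 7 396 428) (mv 397 (both (five 7 364 364) (mv 524 (both (five 6 396 492) (five 6 428 556))))))) (both (mv 524 (both (five 6 428 556) (mv 492 (both (five 6 396 397) (mv 462 (both (five 2 460 464) (mv 491 (both (five 2 459 460) (five 1 458 490))))))))) (mv 428 (both (five 7 396 396) (mv 462 (both (five 3 428 464) (mv 427 (both (five 0 426 426) (five 3 427 460)))))))))))))))) (both (mv 461 (both (mv 429 (both (mv 396 (both (five 7 396 428) (mv 397 (both (five 7 364 364) (mv 524 (both (five 6 396 492) (five 6 428 556))))))) (both (mv 398 (both (five 5 397 430) (mv 397 (both (five 5 365 366) (mv 524 (both (five 6 396 492) (five 6 428 556))))))) (mv 428 (both (five 7 396 396) (mv 430 (both (five 5 397 398) (mv 431 (both (five 0 428 464) (mv 460 (both (five 2 428 432) (five 2 427 459)))))))))))) (both (mv 462 (both (mv 492 (both (five 2 460 464) (mv 491 (both (five 2 459 460) (five 1 458 490))))) (both (mv 460 (both (five 0 460 496) (mv 427 (both (five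 3 427 428) (mv 459 (both (five 3 426 426) (mv 491 (both (five 2 458 490) (five 2 459 492))))))))) (both (mv 464 (both (five 2 460 492) (mv 433 (both (five 1 429 432) (mv 465 (both (five 1 430 434) (mv 496 (both (five 0 461 497) (five 5 432 560))))))))) (mv 496 (both (five 0 460 460) (mv 464 (both (five 0 461 497) (mv 433 (both (five 1 429 432) (mv 465 (both (five 1 430 434) (five 5 432 560))))))))))))) (both (mv 462 (both (mv 430 (both (five 5 429 557) (mv 398 (both (five 4 366 366) (five 5 397 429))))) (mv 464 (both (five 2 460 492) (mv 433 (both (five 1 429 432) (mv 465 (both (five 1 430 434) (mv 496 (both (five 0 461 497) (five 5 432 560))))))))))) (both (mv 462 (both (mv 430 (both (five 5 429 557) (mv 398 (both (five 4 366 366) (five 5 397 429))))) (mv 460 (both (five 0 460 496) (mv 427 (both (five 3 427 428) (mv 459 (both (five 3 426 426) (mv 491 (both (five 2 458 490) (five 2 459 492))))))))))) (mv 462 (both (mv 430 (both (five 5 429 557) (mv 398 (both (five 4 366 366) (five 5 397 429))))) (mv 496 (both (five 0 460 460) (mv 464 (both (five 0 461 497) (mv 433 (both (five 1 429 432) (mv 465 (both (five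 1 430 434) (five 5 432 560)))))))))))))))) (both (mv 494 (both (mv 524 (both (five 2 492 496) (mv 523 (both (five 2 491 492) (five 1 490 522))))) (both (mv 462 (both (mv 430 (both (five 6 397 398) (mv 557 (both (five 5 429 461) (five 5 461 589))))) (both (mv 492 (both (five 1 459 491) (mv 460 (both (five 3 459 459) (mv 428 (both (five 4 396 396) (mv 524 (both (five 2 491 523) (five 4 428 557))))))))) (mv 398 (both (five 6 397 430) (mv 492 (both (five 1 459 491) (mv 460 (both (five 3 459 459) (mv 428 (both (five 4 396 396) (mv 427 (both (five 3 427 461) (mv 524 (both (five 7 395 395) (five 2 491 523)))))))))))))))) (both (mv 492 (both (mv 491 (both (five 1 459 462) (mv 458 (both (five 3 458 459) (mv 490 (both (five 3 457 457) (mv 522 (both (five 2 489 521) (five 2 490 523))))))))) (both (mv 460 (both (five 3 459 459) (mv 428 (both (five 4 396 396) (mv 461 (both (five 3 460 496) (five 7 428 557))))))) (mv 462 (both (five 1 459 491) (mv 430 (both (five 6 397 398) (mv 461 (both (five 5 429 557) (mv 460 (both (five 0 460 496) (mv 428 (both (five 3 427 427) (mv 396 (both (five 4 364 364) (five 7 396 429))))))))))))))))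 (mv 496 (both (five 2 492 524) (mv 461 (both (five 3 460 460) (mv 462 (both (five 3 461 497) (mv 430 (both (five 5 429 557) (mv 398 (both (five 4 366 366) (five 5 397 429))))))))))))))) (both (mv 494 (both (mv 524 (both (five 2 492 496) (mv 523 (both (five 2 491 492) (five 1 490 522))))) (both (mv 492 (both (five 1 460 464) (mv 459 (both (five 3 459 460) (mv 491 (both (five 3 458 458) (mv 523 (both (five 2 490 522) (five 2 491 524))))))))) (both (mv 496 (both (five 2 492 524) (mv 431 (both (five 4 399 399) (mv 560 (both (five 7 431 464) (five 7 463 592))))))) (mv 464 (both (five 1 460 492) (mv 465 (both (five 2 462 466) (five 1 461 496))))))))) (both (mv 496 (both (mv 431 (both (five 4 399 399) (mv 560 (both (five 7 431 464) (five 7 463 592))))) (mv 494 (both (five 2 492 524) (mv 461 (both (five 3 460 460) (mv 462 (both (five 3 461 497) (mv 430 (both (five 5 429 557) (mv 398 (both (five 4 366 366) (five 5 397 429))))))))))))) (mv 494 (both (mv 464 (both (five 1 460 492) (mv 465 (both (five 2 462 466) (five 1 461 496))))) (both (mv 492 (both (mv 491 (both (five 1 459 462) (mv 458 (both (five 3 458 459) (mv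 490 (both (five 3 457 457) (mv 522 (both (five 2 489 521) (five 2 490 523))))))))) (both (mv 460 (both (five 3 459 459) (mv 428 (both (five 4 396 396) (mv 461 (both (five 3 460 496) (five 7 428 557))))))) (mv 462 (both (five 1 459 491) (mv 430 (both (five 6 397 398) (mv 461 (both (five 5 429 557) (mv 460 (both (five 0 460 496) (mv 428 (both (five 3 427 427) (mv 396 (both (five 4 364 364) (five 7 396 429)))))))))))))))) (both (mv 496 (both (mv 431 (both (five 4 399 399) (mv 560 (both (five 7 431 464) (five 7 463 592))))) (mv 461 (both (five 3 460 460) (mv 462 (both (five 3 461 497) (mv 430 (both (five 6 397 398) (five 5 429 557))))))))) (mv 464 (both (five 1 460 492) (mv 465 (both (five 2 461 462) (five 2 462 466)))))))))))))))) (both (ref 0) (both (mv 431 (both (mv 496 (both (five 4 399 399) (mv 560 (both (five 4 431 527) (five 7 463 592))))) (both (mv 399 (both (five 4 399 496) (mv 366 (both (five 7 366 398) (mv 367 (both (five 7 334 334) (mv 368 (both (five 5 335 336) (five 5 367 400))))))))) (mv 527 (both (five 4 431 560) (mv 430 (both (five 7 398 398) (mv 432 (both (five 5 399 400) (mv 462 (both (five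 7 430 559) (mv 433 (both (five 2 430 434) (five 2 429 461)))))))))))))) (mv 431 (both (mv 527 (both (five 4 431 560) (mv 430 (both (five 7 398 398) (mv 559 (both (five 7 430 462) (mv 590 (both (five 6 462 558) (mv 591 (both (five 6 494 622) (mv 496 (both (five 5 463 464) (five 5 495 623))))))))))))) (both (mv 399 (both (five 4 399 496) (mv 366 (both (five 7 366 398) (mv 367 (both (five 7 334 334) (mv 368 (both (five 5 335 336) (five 5 367 400))))))))) (both (mv 527 (both (five 4 431 560) (mv 398 (both (five 7 398 430) (mv 399 (both (five 7 366 366) (mv 400 (both (five 5 367 368) (five 5 399 432))))))))) (mv 399 (both (five 4 399 496) (mv 400 (both (five 5 367 368) (mv 527 (both (five 5 399 432) (five 4 431 560)))))))))))))))))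

theorem L61 : W (S 988530863161101255454148148505632801312661156727406042891648512794071073662266652643294668095351646301915173751338452436331818490997235976069578606837084717056) (S 3210532167518910318855619000667615145681963589802588889298967038115785918853852632377401724181405782764274173058216953604742210512850441660828429642018566496032486304485525272802433661982329542101805446463488) :=
  check_sound (Env.cons L33 Env.nil) (x := 463) (t := tL61) (by decide +kernel)

def tL62 : T :=
  (both (mv 494 (both (mv 492 (both (five 0 492 527) (mv 524 (both (five 2 492 496) (five 2 491 523))))) (both (mv 492 (both (five 0 492 527) (mv 459 (both (five 3 459 460) (mv 491 (both (five 3 458 458) (mv 523 (both (five 2 490 522) (five 2 491 524))))))))) (both (mv 496 (both (five 2 492 524) (mv 461 (both (five 3 460 460) (mv 465 (both (five 1 461 464) (mv 497 (both (five 3 461 462) (five 1 462 466))))))))) (mv 496 (both (mv 460 (both (five 3 460 461) (mv 492 (both (five 3 459 459) (five 0 492 527))))) (both (mv 464 (both (five 1 461 465) (mv 527 (both (five 0 492 492) (mv 432 (both (five 6 399 400) (five 6 431 559)))))))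 (mv 461 (both (five 3 460 460) (mv 465 (both (five 1 461 464) (mv 497 (both (five 3 461 462) (five 1 462 466)))))))))))))) (both (mv 557 (both (mv 589 (both (mv 620 (both (five 6 492 588) (mv 621 (both (five 6 524 652) (mv 622 (both (five 4 493 590) (five 4 525 654))))))) (both (mv 492 (both (five 7 460 460) (mv 620 (both (five 6 492 588) (mv 621 (both (five 7 492 524) (five 6 524 652))))))) (mv 460 (both (five 7 460 492) (mv 461 (both (five 7 428 428) (mv 590 (both (five 4 461 558) (five 4 493 622)))))))))) (both (mv 589 (both (mv 620 (both (five 6 492 588) (mv 621 (both (five 6 524 652) (mv 622 (both (five 4 493 590) (five 4 525 654))))))) (both (mv 492 (both (five 7 460 460) (mv 621 (both (five 7 492 524) (mv 622 (both (five 4 493 590) (five 4 525 654))))))) (both (mv 492 (both (five 7 460 460) (mv 620 (both (five 6 492 588) (mv 621 (both (five 7 492 524) (five 6 524 652))))))) (mv 588 (both (five 6 492 620) (mv 558 (both (mv 559 (both (five 2 556 560) (mv 556 (both (five 2 555 587) (five 1 524 527))))) (both (mv 460 (both (five 7 460 492) (mv 587 (both (five 1 554 586) (mv 590 (both (five 4 493 622)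 (mv 555 (both (five 3 554 554) (mv 556 (both (five 0 555 591) (mv 522 (both (five 3 522 523) (mv 619 (both (five 2 586 618) (mv 651 (both (five 5 523 524) (five 5 555 683))))))))))))))))) (both (mv 590 (both (five 4 493 622) (mv 559 (both (five 2 556 560) (mv 556 (both (five 1 524 527) (mv 591 (both (five 0 556 592) (five 0 555 555))))))))) (mv 559 (both (five 2 556 560) (mv 587 (both (five 1 554 586) (five 1 555 590))))))))))))))) (both (mv 461 (both (mv 556 (both (five 6 460 588) (mv 558 (both (five 4 461 590) (mv 559 (both (five 1 524 527) (mv 524 (both (five 3 523 523) (five 3 524 560))))))))) (mv 460 (both (five 7 428 428) (mv 462 (both (five 5 429 430) (mv 463 (both (five 0 460 496) (mv 492 (both (five 2 460 464) (five 2 459 491))))))))))) (both (mv 560 (both (mv 558 (both (mv 559 (both (five 3 524 524) (mv 527 (both (five 1 524 556) (mv 592 (both (five 7 495 624) (five 4 463 463))))))) (mv 590 (both (five 4 461 461) (mv 622 (both (five 4 493 589) (five 7 525 654))))))) (both (mv 558 (both (mv 590 (both (five 4 461 461) (mv 622 (both (five 4 493 589) (five 7 525 654))))) (both (mv 559 (both (five 3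 524 524) (mv 527 (both (five 1 524 556) (mv 463 (both (five 4 431 431) (mv 462 (both (five 7 430 430) (mv 464 (both (five 5 431 432) (mv 461 (both (five 2 460 492) (mv 496 (both (five 0 461 497) (five 5 463 591))))))))))))))) (mv 559 (both (five 3 524 524) (mv 527 (both (five 1 524 556) (mv 590 (both (five 6 462 463) (mv 622 (both (five 4 493 589) (five 7 525 654)))))))))))) (both (mv 592 (both (mv 527 (both (five 7 495 624) (mv 463 (both (five 4 463 559) (five 4 431 431))))) (both (mv 496 (both (five 7 463 463) (mv 623 (both (five 6 495 591) (mv 624 (both (five 6 527 655) (mv 625 (both (five 4 496 593) (five 4 528 657))))))))) (both (mv 463 (both (five 7 463 496) (mv 527 (both (five 4 431 431) (five 4 463 559))))) (mv 624 (both (five 7 495 527) (mv 623 (both (five 6 527 655) (mv 496 (both (five 6 495 591) (mv 593 (both (five 4 496 625) (mv 464 (both (five 4 464 561) (mv 465 (both (five 5 464 497) (five 5 432 433))))))))))))))))) (both (mv 558 (both (mv 590 (both (five 4 461 461) (mv 622 (both (five 4 493 589) (five 7 525 654))))) (mv 559 (both (five 3 524 524) (mv 592 (both (five 0 557 593) (mv 591 (both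 (five 0 556 556) (mv 623 (both (five 5 527 655) (five 6 495 496))))))))))) (mv 592 (both (mv 624 (both (five 7 495 527) (mv 623 (both (five 6 527 655) (mv 657 (both (five 4 528 625) (mv 656 (both (five 4 560 689) (mv 622 (both (five 0 621 621) (mv 590 (both (five 4 493 589) (mv 558 (both (five 4 461 461) (five 7 525 654))))))))))))))) (both (mv 496 (both (five 7 463 463) (mv 465 (both (five 5 464 497) (mv 464 (both (five 5 432 433) (mv 593 (both (five 4 464 561) (five 4 496 625))))))))) (mv 463 (both (five 7 463 496) (mv 527 (both (five 4 431 431) (five 7 495 624))))))))))))) (both (mv 589 (both (mv 620 (both (five 6 492 588) (mv 621 (both (five 6 524 652) (mv 622 (both (five 4 493 590) (five 4 525 654))))))) (both (mv 492 (both (five 7 460 460) (mv 621 (both (five 7 492 524) (mv 622 (both (five 4 493 590) (five 4 525 654))))))) (mv 460 (both (five 7 460 492) (mv 461 (both (five 7 428 428) (mv 588 (both (five 6 460 556) (five 6 492 620)))))))))) (both (mv 460 (both (mv 461 (both (five 7 428 428) (mv 559 (both (mv 556 (both (five 6 460 588) (mv 558 (both (five 1 524 527) (mv 524 (both (five 3 523 523) (five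 3 524 560))))))) (both (mv 462 (both (five 5 429 430) (mv 463 (both (five 0 460 496) (mv 432 (both (five 1 428 431) (mv 464 (both (five 1 429 433) (five 5 431 527))))))))) (mv 462 (both (five 5 429 430) (mv 496 (both (five 0 460 463) (mv 588 (both (five 6 460 556) (mv 589 (both (five 6 492 620) (mv 560 (both (five 2 556 558) (mv 591 (both (five 6 463 464) (mv 623 (both (five 5 527 655) (five 6 495 592)))))))))))))))))))) (both (mv 492 (both (five 7 460 589) (mv 428 (both (five 4 396 396) (five 4 428 524))))) (both (mv 588 (both (mv 589 (both (five 7 460 492) (five 6 492 620))) (both (mv 461 (both (five 6 460 556) (mv 462 (both (five 5 429 430) (mv 463 (both (five 0 460 496) (mv 492 (both (five 2 460 464) (five 2 459 491))))))))) (mv 556 (both (five 6 460 461) (mv 620 (both (five 6 492 589) (five 5 524 652)))))))) (mv 428 (both (five 7 428 461) (mv 492 (both (five 4 396 396) (five 4 428 524))))))))) (both (mv 589 (both (mv 620 (both (five 6 492 588) (mv 621 (both (five 6 524 652) (mv 622 (both (five 4 493 590) (five 4 525 654))))))) (both (mv 621 (both (mv 620 (both (five 6 492 588) (five 6 524 652))) (both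 (mv 654 (both (five 4 525 622) (mv 653 (both (five 4 557 686) (mv 556 (both (five 7 524 524) (mv 588 (both (five 6 460 461) (five 7 556 685))))))))) (mv 652 (both (five 6 524 620) (mv 653 (both (five 6 556 684) (mv 654 (both (five 4 525 622) (five 4 557 686)))))))))) (both (mv 590 (both (five 4 493 622) (mv 591 (both (mv 556 (both (five 3 556 592) (mv 555 (both (five 0 554 554) (five 0 555 558))))) (both (mv 558 (both (five 4 461 461) (mv 556 (both (five 0 555 555) (mv 559 (both (five 1 524 527) (mv 524 (both (five 3 523 523) (five 3 524 560))))))))) (both (mv 592 (both (five 3 556 556) (mv 560 (both (five 1 557 561) (mv 624 (both (five 7 495 527) (five 0 589 625))))))) (mv 558 (both (five 4 461 461) (mv 592 (both (five 3 557 593) (mv 560 (both (five 1 557 561) (mv 624 (both (five 7 495 527) (five 0 589 625))))))))))))))) (mv 588 (both (five 6 492 620) (mv 558 (both (mv 559 (both (five 2 556 560) (mv 556 (both (five 2 555 587) (five 1 524 527))))) (both (mv 559 (both (five 2 556 560) (mv 587 (both (five 1 554 586) (five 1 555 590))))) (mv 461 (both (five 6 460 556) (five 4 461 590)))))))))))) (mv 589 (both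 (mv 620 (both (five 6 492 588) (mv 621 (both (five 6 524 652) (mv 622 (both (five 4 493 590) (five 4 525 654))))))) (both (mv 460 (both (five 7 460 492) (mv 461 (both (five 7 428 428) (mv 588 (both (five 6 460 556) (five 6 492 620))))))) (mv 460 (both (five 7 460 492) (mv 461 (both (five 7 428 428) (mv 590 (both (five 4 461 558) (five 4 493 622)))))))))))))))))) (both (mv 557 (both (mv 589 (both (mv 620 (both (five 6 492 588) (mv 621 (both (five 6 524 652) (mv 622 (both (five 4 493 590) (five 4 525 654))))))) (mv 492 (both (five 7 460 460) (mv 494 (both (five 5 461 462) (five 0 492 527))))))) (both (mv 461 (both (mv 556 (both (five 6 460 588) (mv 558 (both (five 4 461 590) (mv 559 (both (five 1 524 527) (mv 524 (both (five 3 523 523) (five 3 524 560))))))))) (mv 460 (both (five 7 428 428) (mv 462 (both (five 5 429 430) (mv 459 (both (five 0 459 494) (mv 490 (both (five 2 458 491) (mv 458 (both (five 2 457 489) (mv 426 (both (five 3 425 425) (five 3 426 427))))))))))))))) (both (mv 589 (both (mv 620 (both (five 6 492 588) (mv 621 (both (five 6 524 652) (mv 622 (both (five 4 493 590) (five 4 525 654)))))))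 (both (mv 492 (both (five 7 460 460) (mv 620 (both (five 6 492 588) (mv 621 (both (five 7 492 524) (five 6 524 652))))))) (mv 460 (both (five 7 460 492) (mv 461 (both (five 7 428 428) (mv 590 (both (five 4 461 558) (five 4 493 622)))))))))) (both (mv 589 (both (mv 620 (both (five 6 492 588) (mv 621 (both (five 6 524 652) (mv 622 (both (five 4 493 590) (five 4 525 654))))))) (both (mv 462 (both (five 5 461 494) (mv 461 (both (five 5 429 430) (mv 588 (both (five 6 460 556) (five 6 492 620))))))) (mv 462 (both (five 5 461 494) (mv 461 (both (five 5 429 430) (mv 590 (both (five 4 461 558) (five 4 493 622)))))))))) (mv 492 (both (mv 460 (both (five 7 460 589) (mv 428 (both (five 4 396 396) (five 7 428 461))))) (mv 494 (both (five 0 492 527) (mv 463 (both (five 1 460 464) (mv 491 (both (five 1 459 462) (mv 523 (both (five 2 490 522) (five 2 491 524)))))))))))))))) (both (ref 0) (both (mv 494 (both (mv 524 (both (five 2 492 496) (mv 523 (both (five 2 491 492) (five 1 490 522))))) (both (mv 492 (both (mv 463 (both (five 1 460 464) (mv 462 (both (five 1 459 491) (mv 430 (both (five 6 397 398) (mv 557 (both (five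 5 429 461) (five 5 461 589))))))))) (both (mv 459 (both (five 3 459 460) (mv 491 (both (five 3 458 458) (mv 523 (both (five 2 490 522) (five 2 491 524))))))) (mv 460 (both (five 3 459 459) (mv 428 (both (five 4 396 396) (mv 524 (both (five 2 491 523) (five 4 428 557)))))))))) (both (mv 496 (both (mv 464 (both (five 1 461 465) (mv 463 (both (five 1 460 492) (mv 431 (both (five 4 399 399) (five 7 431 560))))))) (mv 461 (both (five 3 460 460) (mv 462 (both (five 3 461 497) (mv 430 (both (five 6 397 398) (five 5 429 557))))))))) (mv 496 (both (five 2 492 524) (mv 461 (both (five 3 460 460) (mv 465 (both (five 1 461 464) (mv 497 (both (five 3 461 462) (five 1 462 466))))))))))))) (both (mv 494 (both (mv 492 (both (five 0 492 527) (mv 459 (both (five 3 459 460) (mv 463 (both (five 1 460 464) (mv 491 (both (five 3 458 458) (five 1 459 462))))))))) (both (mv 496 (both (mv 461 (both (five 3 460 460) (mv 462 (both (five 3 461 497) (mv 430 (both (five 6 397 398) (five 5 429 557))))))) (mv 560 (both (mv 464 (both (five 1 461 465) (mv 431 (both (five 7 431 463) (mv 432 (both (five 7 399 399) (mv 400 (both (five 6 399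 527) (mv 401 (both (five 5 368 369) (five 5 400 433))))))))))) (both (mv 592 (both (mv 624 (both (five 7 495 527) (mv 625 (both (five 4 496 593) (five 4 528 657))))) (both (mv 623 (both (five 6 495 591) (mv 624 (both (five 6 527 655) (mv 625 (both (five 4 496 593) (five 4 528 657))))))) (both (mv 591 (both (five 6 495 623) (mv 593 (both (five 4 496 625) (mv 464 (both (five 4 464 561) (mv 433 (both (five 5 432 465) (mv 432 (both (five 5 400 401) (mv 399 (both (five 7 399 431) (mv 400 (both (five 7 367 367) (five 6 399 527))))))))))))))) (mv 623 (both (five 6 495 591) (mv 624 (both (five 7 495 527) (five 6 527 655))))))))) (mv 592 (both (five 7 463 463) (mv 623 (both (five 6 495 591) (mv 624 (both (five 6 527 655) (mv 625 (both (five 4 496 593) (five 4 528 657)))))))))))))) (both (mv 496 (both (mv 464 (both (five 1 461 465) (mv 463 (both (five 1 460 492) (mv 431 (both (five 4 399 399) (five 7 431 560))))))) (mv 461 (both (five 3 460 460) (mv 462 (both (five 3 461 497) (mv 430 (both (five 6 397 398) (five 5 429 557))))))))) (both (mv 492 (both (five 0 492 527) (mv 460 (both (five 3 459 459) (mv 428 (both (five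 4 396 396) (mv 461 (both (five 3 460 496) (five 7 428 557))))))))) (mv 492 (both (five 0 492 527) (mv 463 (both (five 1 460 464) (mv 462 (both (five 1 459 491) (mv 430 (both (five 6 397 398) (mv 557 (both (five 5 429 461) (five 5 461 589)))))))))))))))) (both (mv 494 (both (mv 496 (both (five 2 492 524) (mv 463 (both (mv 431 (both (five 4 399 399) (mv 560 (both (five 7 431 464) (five 7 463 592))))) (both (mv 431 (both (five 4 399 399) (mv 560 (both (five 4 431 527) (five 7 463 592))))) (mv 465 (both (five 1 461 464) (mv 497 (both (five 1 462 466) (mv 401 (both (five 6 400 433) (mv 498 (both (five 3 462 462) (mv 499 (both (five 2 495 527) (mv 531 (both (five 0 495 530) (five 0 496 532)))))))))))))))))) (both (mv 492 (both (five 0 492 527) (mv 459 (both (five 3 459 460) (mv 463 (both (five 1 460 464) (mv 491 (both (five 3 458 458) (five 1 459 462))))))))) (mv 524 (both (five 2 492 496) (mv 523 (both (five 2 491 492) (five 1 490 522)))))))) (both (mv 494 (both (mv 496 (both (five 2 492 524) (mv 465 (both (five 1 461 464) (mv 497 (both (five 1 462 466) (mv 462 (both (five 3 461 461) (mv 498 (both (five 3 462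 463) (mv 499 (both (five 2 495 527) (mv 531 (both (five 0 495 530) (five 0 496 532))))))))))))))) (both (mv 492 (both (five 0 492 527) (mv 463 (both (five 1 460 464) (mv 462 (both (five 1 459 491) (mv 430 (both (five 6 397 398) (mv 557 (both (five 5 429 461) (five 5 461 589))))))))))) (mv 524 (both (five 2 492 496) (mv 523 (both (five 2 491 492) (five 1 490 522)))))))) (both (mv 494 (both (mv 496 (both (five 2 492 524) (mv 464 (both (five 1 461 465) (mv 432 (both (mv 527 (both (five 6 399 400) (five 6 431 559))) (both (mv 399 (both (five 7 399 431) (mv 400 (both (five 7 367 367) (mv 401 (both (five 5 368 369) (five 5 400 433))))))) (mv 401 (both (five 5 400 433) (mv 431 (both (five 7 399 399) (mv 460 (both (five 3 460 461) (mv 559 (both (five 6 431 527) (mv 560 (both (five 7 431 463) (five 6 463 591)))))))))))))))))) (both (mv 492 (both (five 0 492 527) (mv 459 (both (five 3 459 460) (mv 491 (both (five 3 458 458) (mv 523 (both (five 2 490 522) (five 2 491 524))))))))) (both (mv 492 (both (five 0 492 527) (mv 460 (both (five 3 459 459) (mv 428 (both (five 4 396 396) (mv 461 (both (five 3 460 496) (five 7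 428 557))))))))) (mv 524 (both (five 2 492 496) (mv 523 (both (five 2 491 492) (five 1 490 522))))))))) (mv 494 (both (mv 496 (both (five 2 492 524) (mv 461 (both (five 3 460 460) (mv 462 (both (five 3 461 497) (mv 557 (both (five 5 461 589) (mv 556 (both (five 6 460 588) (mv 558 (both (five 4 461 590) (mv 559 (both (five 1 524 527) (mv 592 (both (five 0 556 591) (mv 560 (both (five 7 463 463) (five 0 557 593))))))))))))))))))) (both (mv 492 (both (five 0 492 527) (mv 459 (both (five 3 459 460) (mv 491 (both (five 3 458 458) (mv 462 (both (five 1 459 463) (mv 398 (both (five 6 397 430) (mv 490 (both (five 1 458 461) (mv 522 (both (five 2 489 521) (five 2 490 523))))))))))))))) (mv 524 (both (five 2 492 496) (mv 523 (both (five 2 491 492) (five 1 490 522)))))))))))))))))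

theorem L62 : W (S 988530863161101255454148148505632801312661156727406042891648512794071073662266652643294668095351646301915173751338452436331818490997235976069578606837084717056) (S 3170400515578163545393110441595201833603011153220640629103650869065052916088972973278026671781906604314269932459277002062951420274645380515933307812809208070759711101871016650294218182592169336837707105566720) :=
  check_sound (Env.cons L55 Env.nil) (x := 493) (t := tL62) (by decide +kernel)

def tL63 : T :=
  (both (mv 560 (both (mv 431 (both (five 4 431 527) (mv 496 (both (five 4 399 399) (five 7 431 464))))) (both (mv 527 (both (five 4 431 431) (mv 592 (both (five 4 463 559) (five 7 495 624))))) (both (mv 496 (both (five 7 463 592) (mv 431 (both (five 4 399 399) (five 7 431 464))))) (mv 592 (both (five 7 463 496) (mv 527 (both (five 4 463 559) (five 7 495 624))))))))) (both (mv 527 (both (mv 560 (both (five 4 431 431) (mv 592 (both (five 4 463 559) (five 7 495 624))))) (both (mv 559 (both (mv 462 (both (five 7 430 430) (mv 590 (both (five 6 462 558) (mv 591 (both (five 7 462 494) (five 6 494 622))))))) (both (mv 462 (both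 (five 7 430 430) (mv 591 (both (five 7 462 494) (mv 592 (both (five 4 463 560) (five 4 495 624))))))) (mv 558 (both (five 6 462 590) (mv 557 (both (five 1 524 556) (mv 560 (both (five 3 524 524) (five 4 463 592)))))))))) (both (mv 432 (both (mv 400 (both (five 5 399 431) (mv 464 (both (five 6 367 368) (five 5 431 559))))) (both (mv 559 (both (five 5 431 464) (mv 462 (both (five 7 430 430) (mv 590 (both (five 6 462 558) (mv 591 (both (five 7 462 494) (five 6 494 622))))))))) (both (mv 431 (both (five 5 399 400) (mv 430 (both (five 7 398 398) (mv 462 (both (five 7 430 559) (mv 433 (both (five 2 430 434) (five 2 429 461))))))))) (mv 431 (both (five 5 399 400) (mv 462 (both (mv 433 (both (five 2 430 434) (mv 461 (both (five 1 428 460) (five 1 429 464))))) (both (mv 398 (both (five 7 398 430) (mv 399 (both (five 7 366 366) (mv 367 (both (five 6 366 494) (mv 335 (both (five 4 335 464) (mv 336 (both (five 5 303 304) (five 5 335 368))))))))))) (mv 430 (both (five 7 398 398) (mv 433 (both (five 2 430 434) (five 2 429 461)))))))))))))) (mv 431 (both (five 4 431 560) (mv 398 (both (five 7 398 430) (mv 399 (both (five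 7 366 366) (mv 400 (both (five 5 367 368) (five 5 399 432))))))))))))) (both (mv 493 (both (mv 461 (both (mv 462 (both (mv 430 (both (five 5 429 557) (mv 398 (both (five 4 366 366) (five 5 397 429))))) (mv 492 (both (five 2 460 464) (mv 491 (both (five 2 459 460) (five 1 458 490))))))) (both (mv 557 (both (mv 460 (both (five 7 428 428) (mv 589 (both (five 7 460 492) (mv 590 (both (five 4 461 558) (five 4 493 622))))))) (both (mv 460 (both (five 7 428 428) (mv 588 (both (five 6 460 556) (mv 589 (both (five 7 460 492) (five 6 492 620))))))) (mv 556 (both (five 6 460 588) (mv 558 (both (five 4 461 590) (mv 559 (both (five 1 524 527) (mv 524 (both (five 3 523 523) (five 3 524 560)))))))))))) (both (mv 462 (both (mv 492 (both (five 2 460 464) (mv 491 (both (five 2 459 460) (five 1 458 490))))) (both (mv 460 (both (five 0 460 496) (mv 427 (both (five 3 427 428) (mv 459 (both (five 3 426 426) (mv 491 (both (five 2 458 490) (five 2 459 492))))))))) (both (mv 464 (both (five 2 460 492) (mv 433 (both (five 1 429 432) (mv 465 (both (five 1 430 434) (mv 496 (both (five 0 461 497) (five 5 432 560))))))))) (mv 496 (both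 (five 0 460 460) (mv 464 (both (five 0 461 497) (mv 433 (both (five 1 429 432) (mv 465 (both (five 1 430 434) (five 5 432 560))))))))))))) (both (mv 462 (both (mv 430 (both (five 5 429 557) (mv 398 (both (five 4 366 366) (five 5 397 429))))) (mv 464 (both (five 2 460 492) (mv 433 (both (five 1 429 432) (mv 465 (both (five 1 430 434) (mv 496 (both (five 0 461 497) (five 5 432 560))))))))))) (mv 462 (both (mv 430 (both (five 5 429 557) (mv 398 (both (five 4 366 366) (five 5 397 429))))) (mv 496 (both (five 0 460 460) (mv 464 (both (five 0 461 497) (mv 433 (both (five 1 429 432) (mv 465 (both (five 1 430 434) (five 5 432 560)))))))))))))))) (both (mv 557 (both (mv 461 (both (mv 556 (both (five 6 460 588) (mv 558 (both (five 4 461 590) (mv 559 (both (five 1 524 527) (mv 524 (both (five 3 523 523) (five 3 524 560))))))))) (mv 460 (both (five 7 428 428) (mv 462 (both (five 5 429 430) (mv 459 (both (five 0 459 494) (mv 490 (both (five 2 458 491) (mv 458 (both (five 2 457 489) (mv 426 (both (five 3 425 425) (five 3 426 427))))))))))))))) (both (mv 589 (both (mv 620 (both (five 6 492 588) (mv 621 (both (five 6 524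 652) (mv 622 (both (five 4 493 590) (five 4 525 654))))))) (both (mv 492 (both (five 7 460 460) (mv 620 (both (five 6 492 588) (mv 621 (both (five 7 492 524) (five 6 524 652))))))) (mv 460 (both (five 7 460 492) (mv 461 (both (five 7 428 428) (mv 590 (both (five 4 461 558) (five 4 493 622)))))))))) (both (mv 589 (both (mv 620 (both (five 6 492 588) (mv 621 (both (five 6 524 652) (mv 622 (both (five 4 493 590) (five 4 525 654))))))) (both (mv 462 (both (five 5 461 494) (mv 461 (both (five 5 429 430) (mv 588 (both (five 6 460 556) (five 6 492 620))))))) (mv 462 (both (five 5 461 494) (mv 461 (both (five 5 429 430) (mv 590 (both (five 4 461 558) (five 4 493 622)))))))))) (mv 492 (both (mv 494 (both (five 1 460 464) (five 0 492 527))) (mv 589 (both (five 7 460 460) (mv 621 (both (five 7 492 524) (mv 652 (both (five 6 524 620) (mv 653 (both (five 6 556 684) (mv 654 (both (five 4 525 622) (five 4 557 686))))))))))))))))) (both (mv 496 (both (mv 560 (both (five 7 463 592) (mv 464 (both (mv 433 (both (five 5 432 465) (mv 432 (both (five 5 400 401) (mv 559 (both (five 6 431 527) (five 6 463 591))))))) (both (mv 465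 (both (five 5 432 433) (mv 466 (both (five 2 463 467) (mv 434 (both (five 1 431 435) (mv 498 (both (five 0 463 499) (mv 462 (both (five 0 462 497) (mv 429 (both (five 3 429 430) (mv 461 (both (five 3 428 428) (five 0 460 460))))))))))))))) (mv 559 (both (five 6 463 591) (mv 527 (both (five 5 431 432) (mv 462 (both (five 7 430 430) (mv 497 (both (five 3 462 498) (five 0 461 461)))))))))))))) (both (mv 494 (both (five 2 492 524) (mv 461 (both (five 3 460 460) (mv 462 (both (five 3 461 497) (mv 430 (both (five 5 429 557) (mv 398 (both (five 4 366 366) (five 5 397 429))))))))))) (mv 494 (both (five 2 492 524) (mv 464 (both (five 1 461 465) (mv 560 (both (five 7 463 592) (mv 559 (both (five 6 463 591) (mv 432 (both (five 5 431 527) (mv 400 (both (five 6 367 368) (mv 401 (both (five 5 368 369) (five 5 400 433)))))))))))))))))) (both (mv 494 (both (mv 492 (both (five 0 492 527) (mv 524 (both (five 2 492 496) (five 2 491 523))))) (both (mv 496 (both (five 2 492 524) (mv 461 (both (five 3 460 460) (mv 462 (both (five 3 461 497) (mv 430 (both (five 5 429 557) (mv 398 (both (five 4 366 366) (five 5 397 429)))))))))))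 (mv 492 (both (five 0 492 527) (mv 459 (both (five 3 459 460) (mv 491 (both (five 3 458 458) (five 1 459 462)))))))))) (both (mv 494 (both (mv 492 (both (five 1 460 464) (five 0 492 527))) (both (mv 496 (both (five 2 492 524) (mv 464 (both (five 1 461 465) (mv 560 (both (five 7 463 592) (mv 559 (both (five 6 463 591) (mv 432 (both (five 5 431 527) (mv 400 (both (five 6 367 368) (mv 401 (both (five 5 368 369) (five 5 400 433))))))))))))))) (both (mv 492 (both (five 0 492 527) (mv 524 (both (five 2 492 496) (five 2 491 523))))) (mv 464 (both (five 1 460 492) (mv 465 (both (five 2 462 466) (five 1 461 496))))))))) (both (mv 494 (both (mv 464 (both (five 1 460 492) (mv 465 (both (five 2 462 466) (five 1 461 496))))) (both (mv 464 (both (five 1 460 492) (mv 465 (both (five 2 461 462) (five 2 462 466))))) (mv 496 (both (five 2 492 524) (mv 461 (both (five 3 460 460) (mv 462 (both (five 3 461 497) (mv 430 (both (five 5 429 557) (mv 398 (both (five 4 366 366) (five 5 397 429)))))))))))))) (mv 494 (both (mv 496 (both (mv 461 (both (five 3 460 460) (mv 462 (both (five 3 461 497) (mv 430 (both (five 5 429 557) (mv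 398 (both (five 4 366 366) (five 5 397 429))))))))) (mv 464 (both (five 1 461 465) (mv 560 (both (five 7 463 592) (mv 559 (both (five 6 463 591) (mv 432 (both (five 5 431 527) (mv 400 (both (five 6 367 368) (mv 401 (both (five 5 368 369) (five 5 400 433))))))))))))))) (both (mv 492 (both (five 0 492 527) (mv 459 (both (five 3 459 460) (mv 491 (both (five 3 458 458) (five 1 459 462))))))) (mv 464 (both (five 1 460 492) (mv 465 (both (five 2 462 466) (five 1 461 496))))))))))))))) (both (mv 493 (both (mv 494 (both (mv 524 (both (five 2 492 496) (mv 523 (both (five 2 491 492) (five 1 490 522))))) (both (mv 464 (both (five 1 460 492) (mv 465 (both (five 2 461 462) (five 2 462 466))))) (mv 496 (both (five 2 492 524) (mv 431 (both (five 4 399 399) (mv 560 (both (five 7 431 464) (five 7 463 592)))))))))) (both (mv 557 (both (mv 589 (both (mv 620 (both (five 6 492 588) (mv 621 (both (five 6 524 652) (mv 622 (both (five 4 493 590) (five 4 525 654))))))) (both (mv 492 (both (five 7 460 460) (mv 620 (both (five 6 492 588) (mv 621 (both (five 7 492 524) (five 6 524 652))))))) (mv 460 (both (five 7 460 492) (mv 461 (both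 (five 7 428 428) (mv 590 (both (five 4 461 558) (five 4 493 622)))))))))) (both (mv 589 (both (mv 492 (both (five 7 460 460) (mv 494 (both (five 5 461 462) (five 1 460 464))))) (mv 620 (both (five 6 492 588) (mv 621 (both (five 6 524 652) (mv 622 (both (five 4 493 590) (five 4 525 654))))))))) (both (mv 461 (both (mv 556 (both (five 6 460 588) (mv 524 (both (five 6 428 429) (mv 558 (both (five 4 461 590) (mv 559 (both (five 3 523 523) (five 3 524 560))))))))) (mv 460 (both (five 7 428 428) (mv 462 (both (five 5 429 430) (mv 492 (both (five 2 460 464) (five 2 459 491))))))))) (both (mv 589 (both (mv 620 (both (five 6 492 588) (mv 621 (both (five 6 524 652) (mv 622 (both (five 4 493 590) (five 4 525 654))))))) (both (mv 462 (both (five 5 461 494) (mv 461 (both (five 5 429 430) (mv 588 (both (five 6 460 556) (five 6 492 620))))))) (mv 462 (both (five 5 461 494) (mv 461 (both (five 5 429 430) (mv 590 (both (five 4 461 558) (five 4 493 622)))))))))) (both (mv 461 (both (mv 462 (both (five 5 429 430) (mv 589 (both (five 5 461 494) (mv 590 (both (five 4 461 558) (five 4 493 622))))))) (both (mv 460 (both (five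 7 428 428) (mv 589 (both (five 7 460 492) (mv 590 (both (five 4 461 558) (five 4 493 622))))))) (mv 460 (both (five 7 428 428) (mv 462 (both (five 5 429 430) (mv 492 (both (five 2 460 464) (five 2 459 491)))))))))) (mv 461 (both (mv 460 (both (five 7 428 428) (mv 588 (both (five 6 460 556) (mv 589 (both (five 7 460 492) (five 6 492 620))))))) (both (mv 430 (both (five 5 429 462) (mv 429 (both (five 5 397 398) (mv 556 (both (five 6 428 524) (five 6 460 588))))))) (mv 460 (both (five 7 428 428) (mv 462 (both (five 5 429 430) (mv 492 (both (five 2 460 464) (five 2 459 491)))))))))))))))) (both (mv 461 (both (mv 462 (both (mv 430 (both (five 5 429 557) (mv 398 (both (five 4 366 366) (five 5 397 429))))) (mv 492 (both (five 2 460 464) (mv 491 (both (five 2 459 460) (five 1 458 490))))))) (both (mv 557 (both (mv 460 (both (five 7 428 428) (mv 589 (both (five 7 460 492) (mv 590 (both (five 4 461 558) (five 4 493 622))))))) (both (mv 460 (both (five 7 428 428) (mv 588 (both (five 6 460 556) (mv 589 (both (five 7 460 492) (five 6 492 620))))))) (mv 556 (both (five 6 460 588) (mv 524 (both (five 6 428 429) (mv 558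 (both (five 4 461 590) (mv 559 (both (five 3 523 523) (five 3 524 560)))))))))))) (both (mv 462 (both (mv 492 (both (five 2 460 464) (mv 491 (both (five 2 459 460) (five 1 458 490))))) (both (mv 460 (both (five 0 460 496) (mv 427 (both (five 3 427 428) (mv 459 (both (five 3 426 426) (mv 491 (both (five 2 458 490) (five 2 459 492))))))))) (both (mv 464 (both (five 2 460 492) (mv 433 (both (five 1 429 432) (mv 465 (both (five 1 430 434) (mv 496 (both (five 0 461 497) (five 5 432 560))))))))) (mv 496 (both (five 0 460 460) (mv 464 (both (five 0 461 497) (mv 433 (both (five 1 429 432) (mv 465 (both (five 1 430 434) (five 5 432 560))))))))))))) (both (mv 462 (both (mv 430 (both (five 5 429 557) (mv 398 (both (five 4 366 366) (five 5 397 429))))) (mv 464 (both (five 2 460 492) (mv 433 (both (five 1 429 432) (mv 465 (both (five 1 430 434) (mv 496 (both (five 0 461 497) (five 5 432 560))))))))))) (mv 462 (both (mv 430 (both (five 5 429 557) (mv 398 (both (five 4 366 366) (five 5 397 429))))) (mv 496 (both (five 0 460 460) (mv 464 (both (five 0 461 497) (mv 433 (both (five 1 429 432) (mv 465 (both (five 1 430 434)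 (five 5 432 560)))))))))))))))) (both (mv 494 (both (mv 524 (both (five 2 492 496) (mv 523 (both (five 2 491 492) (five 1 490 522))))) (both (mv 492 (both (mv 459 (both (five 3 459 460) (mv 491 (both (five 3 458 458) (five 1 459 462))))) (both (mv 460 (both (five 3 459 459) (mv 524 (both (five 2 491 523) (mv 557 (both (five 4 428 428) (mv 589 (both (five 4 460 556) (five 7 492 621))))))))) (mv 491 (both (five 1 459 462) (mv 523 (both (five 2 490 522) (five 2 491 524)))))))) (both (mv 492 (both (mv 459 (both (five 3 459 460) (mv 491 (both (five 3 458 458) (five 1 459 462))))) (both (mv 460 (both (five 3 459 459) (mv 461 (both (five 3 460 496) (mv 557 (both (five 7 428 428) (five 7 460 589))))))) (mv 462 (both (five 1 459 491) (mv 430 (both (five 6 397 398) (mv 557 (both (five 5 429 461) (five 5 461 589)))))))))) (mv 496 (both (five 2 492 524) (mv 461 (both (five 3 460 460) (mv 462 (both (five 3 461 497) (mv 430 (both (five 5 429 557) (mv 398 (both (five 4 366 366) (five 5 397 429))))))))))))))) (both (mv 494 (both (mv 524 (both (five 2 492 496) (mv 523 (both (five 2 491 492) (five 1 490 522))))) (both (mv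 492 (both (five 1 460 464) (mv 459 (both (five 3 459 460) (mv 491 (both (five 3 458 458) (mv 523 (both (five 2 490 522) (five 2 491 524))))))))) (both (mv 496 (both (five 2 492 524) (mv 431 (both (five 4 399 399) (mv 560 (both (five 7 431 464) (five 7 463 592))))))) (mv 464 (both (five 1 460 492) (mv 465 (both (five 2 462 466) (five 1 461 496))))))))) (both (mv 496 (both (mv 431 (both (five 4 399 399) (mv 560 (both (five 7 431 464) (five 7 463 592))))) (mv 494 (both (five 2 492 524) (mv 461 (both (five 3 460 460) (mv 462 (both (five 3 461 497) (mv 430 (both (five 5 429 557) (mv 398 (both (five 4 366 366) (five 5 397 429))))))))))))) (mv 494 (both (mv 464 (both (five 1 460 492) (mv 465 (both (five 2 462 466) (five 1 461 496))))) (both (mv 492 (both (mv 459 (both (five 3 459 460) (mv 491 (both (five 3 458 458) (five 1 459 462))))) (both (mv 460 (both (five 3 459 459) (mv 461 (both (five 3 460 496) (mv 557 (both (five 7 428 428) (five 7 460 589))))))) (mv 462 (both (five 1 459 491) (mv 430 (both (five 6 397 398) (mv 557 (both (five 5 429 461) (five 5 461 589)))))))))) (both (mv 496 (both (mv 431 (both (five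 4 399 399) (mv 560 (both (five 7 431 464) (five 7 463 592))))) (mv 461 (both (five 3 460 460) (mv 462 (both (five 3 461 497) (mv 430 (both (five 6 397 398) (five 5 429 557))))))))) (mv 464 (both (five 1 460 492) (mv 465 (both (five 2 461 462) (five 2 462 466)))))))))))))))) (both (mv 431 (both (mv 399 (both (five 4 399 496) (mv 366 (both (five 7 366 398) (mv 367 (both (five 7 334 334) (mv 368 (both (five 5 335 336) (five 5 367 400))))))))) (both (mv 527 (both (mv 430 (both (five 7 398 398) (mv 432 (both (five 5 399 400) (mv 462 (both (five 7 430 559) (mv 433 (both (five 2 430 434) (five 2 429 461))))))))) (both (mv 430 (both (five 7 398 398) (mv 559 (both (five 7 430 462) (mv 590 (both (five 6 462 558) (mv 591 (both (five 6 494 622) (mv 496 (both (five 5 463 464) (five 5 495 623))))))))))) (both (mv 432 (both (five 5 399 400) (mv 559 (both (five 5 431 464) (mv 590 (both (five 6 462 558) (mv 591 (both (five 6 494 622) (mv 623 (both (five 5 495 496) (mv 624 (both (five 4 527 656) (five 4 495 592))))))))))))) (mv 430 (both (five 7 398 398) (mv 429 (both (mv 464 (both (five 0 428 428) (mv 465 (both (five 0 429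 432) (five 3 430 466))))) (both (mv 428 (both (five 0 428 464) (mv 427 (both (five 0 427 462) (mv 459 (both (five 2 426 458) (five 2 427 460))))))) (mv 432 (both (five 5 399 400) (mv 461 (both (five 2 428 460) (mv 433 (both (five 2 429 462) (mv 402 (both (five 1 398 401) (mv 434 (both (five 1 399 403) (mv 466 (both (five 0 430 465) (five 0 431 467)))))))))))))))))))))) (both (mv 399 (both (mv 366 (both (five 7 366 398) (mv 367 (both (five 7 334 334) (mv 368 (both (five 5 335 336) (five 5 367 400))))))) (both (mv 366 (both (five 7 366 398) (mv 367 (both (five 7 334 334) (mv 336 (both (five 5 335 368) (mv 335 (both (five 5 303 304) (mv 462 (both (five 6 334 430) (five 6 366 494))))))))))) (both (mv 367 (both (mv 368 (both (five 5 335 336) (five 5 367 400))) (both (mv 462 (both (five 6 366 494) (mv 335 (both (five 6 334 430) (mv 302 (both (five 7 302 334) (mv 303 (both (five 7 270 270) (mv 304 (both (five 5 271 272) (five 5 303 336))))))))))) (mv 400 (both (five 5 367 368) (mv 462 (both (five 6 366 494) (mv 335 (both (five 6 334 430) (mv 432 (both (five 4 303 303) (five 4 335 464)))))))))))) (both (mv 366 (both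 (five 7 366 398) (mv 367 (both (five 7 334 334) (mv 462 (both (five 6 366 494) (mv 335 (both (five 6 334 430) (mv 304 (both (five 5 303 336) (mv 303 (both (five 5 271 272) (mv 432 (both (five 4 303 400) (five 4 335 464))))))))))))))) (mv 398 (both (five 7 366 366) (mv 400 (both (five 5 367 368) (mv 527 (both (five 7 398 430) (five 5 399 432)))))))))))) (both (mv 399 (both (five 4 399 496) (mv 368 (both (five 5 367 400) (mv 367 (both (five 5 335 336) (mv 334 (both (five 7 334 366) (mv 335 (both (five 7 302 302) (mv 462 (both (five 6 334 430) (five 6 366 494))))))))))))) (mv 399 (both (five 4 399 496) (mv 366 (both (five 7 366 398) (mv 367 (both (five 7 334 334) (mv 336 (both (five 5 335 368) (mv 335 (both (five 5 303 304) (mv 462 (both (five 6 334 430) (five 6 366 494)))))))))))))))))) (both (mv 431 (both (mv 496 (both (five 4 399 399) (mv 560 (both (five 4 431 527) (five 7 463 592))))) (both (mv 399 (both (five 4 399 496) (mv 366 (both (five 7 366 398) (mv 367 (both (five 7 334 334) (mv 368 (both (five 5 335 336) (five 5 367 400))))))))) (mv 527 (both (five 4 431 560) (mv 430 (both (five 7 398 398) (mv 432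 (both (five 5 399 400) (mv 462 (both (five 7 430 559) (mv 433 (both (five 2 430 434) (five 2 429 461)))))))))))))) (both (mv 431 (both (mv 527 (both (five 4 431 560) (mv 430 (both (five 7 398 398) (mv 559 (both (five 7 430 462) (mv 590 (both (five 6 462 558) (mv 591 (both (five 6 494 622) (mv 496 (both (five 5 463 464) (five 5 495 623))))))))))))) (both (mv 399 (both (five 4 399 496) (mv 366 (both (five 7 366 398) (mv 367 (both (five 7 334 334) (mv 368 (both (five 5 335 336) (five 5 367 400))))))))) (both (mv 527 (both (five 4 431 560) (mv 398 (both (five 7 398 430) (mv 399 (both (five 7 366 366) (mv 400 (both (five 5 367 368) (five 5 399 432))))))))) (mv 399 (both (five 4 399 496) (mv 400 (both (five 5 367 368) (mv 527 (both (five 5 399 432) (five 4 431 560))))))))))) (mv 431 (both (mv 496 (both (five 4 399 399) (mv 560 (both (five 7 431 464) (five 7 463 592))))) (both (mv 527 (both (five 4 431 560) (mv 430 (both (five 7 398 398) (mv 429 (both (mv 464 (both (five 0 428 428) (mv 465 (both (five 0 429 432) (five 3 430 466))))) (both (mv 428 (both (five 0 428 464) (mv 427 (both (five 0 427 462) (mv 459 (both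 (five 2 426 458) (five 2 427 460))))))) (mv 432 (both (five 5 399 400) (mv 461 (both (five 2 428 460) (mv 433 (both (five 2 429 462) (mv 402 (both (five 1 398 401) (mv 434 (both (five 1 399 403) (mv 466 (both (five 0 430 465) (five 0 431 467)))))))))))))))))))) (mv 399 (both (five 4 399 496) (mv 366 (both (five 7 366 398) (mv 367 (both (five 7 334 334) (mv 368 (both (five 5 335 336) (five 5 367 400)))))))))))))))))))

theorem L63 : W (S 988530863161101255454148148505632801312661156727406042891648512794071073662266652643294668095351646301915173751338452436331818490997235976069578606837084717056) (S 401316521238867898274603227623778474343453550513830602302336987256745968525250792922793788475490412797096479815004023674885803905601292666169178326685620280373221980177797496833123450611659823766631488684032) :=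
  check_sound Env.nil (x := 463) (t := tL63) (by decide +kernel)

def tL64 : T :=
  (both (mv 560 (both (mv 431 (both (five 4 431 527) (mv 496 (both (five 4 399 399) (five 7 431 464))))) (both (mv 527 (both (five 4 431 431) (mv 592 (both (five 4 463 559) (five 7 495 624))))) (both (mv 496 (both (five 7 463 592) (mv 431 (both (five 4 399 399) (five 7 431 464))))) (mv 592 (both (five 7 463 496) (mv 527 (both (five 4 463 559) (five 7 495 624))))))))) (both (mv 527 (both (mv 560 (both (five 4 431 431) (mv 592 (both (five 4 463 559) (five 7 495 624))))) (both (mv 559 (both (mv 462 (both (five 7 430 430) (mv 590 (both (five 6 462 558) (mv 591 (both (five 7 462 494) (five 6 494 622))))))) (both (mv 462 (both (five 7 430 430) (mv 591 (both (five 7 462 494) (mv 592 (both (five 4 463 560) (five 4 495 624))))))) (mv 558 (both (five 6 462 590) (mv 557 (both (five 1 524 556) (mv 560 (both (five 3 524 524) (five 4 463 592)))))))))) (both (mv 432 (both (mv 400 (both (five 5 399 431) (mv 464 (both (five 6 367 368) (five 5 431 559))))) (both (mv 559 (both (five 5 431 464) (mv 462 (both (five 7 430 430) (mv 590 (both (five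 6 462 558) (mv 591 (both (five 7 462 494) (five 6 494 622))))))))) (both (mv 431 (both (five 5 399 400) (mv 430 (both (five 7 398 398) (mv 462 (both (five 7 430 559) (mv 433 (both (five 2 430 434) (five 2 429 461))))))))) (mv 431 (both (five 5 399 400) (mv 462 (both (mv 433 (both (five 2 430 434) (mv 461 (both (five 1 428 460) (five 1 429 464))))) (both (mv 398 (both (five 7 398 430) (mv 399 (both (five 7 366 366) (mv 367 (both (five 6 366 494) (mv 335 (both (five 4 335 464) (mv 336 (both (five 5 303 304) (five 5 335 368))))))))))) (mv 430 (both (five 7 398 398) (mv 433 (both (five 2 430 434) (five 2 429 461)))))))))))))) (mv 431 (both (five 4 431 560) (mv 398 (both (five 7 398 430) (mv 399 (both (five 7 366 366) (mv 400 (both (five 5 367 368) (five 5 399 432))))))))))))) (both (mv 493 (both (ref 0) (both (mv 496 (both (mv 560 (both (five 7 463 592) (mv 464 (both (mv 433 (both (five 5 432 465) (mv 432 (both (five 5 400 401) (mv 559 (both (five 6 431 527) (five 6 463 591))))))) (both (mv 465 (both (five 5 432 433) (mv 466 (both (five 2 463 467) (mv 434 (both (five 1 431 435) (mv 498 (both (five 0 463 499)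 (mv 462 (both (five 0 462 497) (mv 429 (both (five 3 429 430) (mv 461 (both (five 3 428 428) (five 0 460 460))))))))))))))) (mv 559 (both (five 6 463 591) (mv 527 (both (five 5 431 432) (mv 462 (both (five 7 430 430) (mv 497 (both (five 3 462 498) (five 0 461 461)))))))))))))) (both (mv 494 (both (five 2 492 524) (mv 461 (both (five 3 460 460) (mv 462 (both (five 3 461 497) (mv 430 (both (five 5 429 557) (mv 398 (both (five 4 366 366) (five 5 397 429))))))))))) (mv 494 (both (five 2 492 524) (mv 464 (both (five 1 461 465) (mv 560 (both (five 7 463 592) (mv 559 (both (five 6 463 591) (mv 432 (both (five 5 431 527) (mv 400 (both (five 6 367 368) (mv 401 (both (five 5 368 369) (five 5 400 433)))))))))))))))))) (both (mv 494 (both (mv 492 (both (five 1 460 464) (five 0 492 527))) (both (mv 496 (both (five 2 492 524) (mv 464 (both (five 1 461 465) (mv 560 (both (five 7 463 592) (mv 559 (both (five 6 463 591) (mv 432 (both (five 5 431 527) (mv 400 (both (five 6 367 368) (mv 401 (both (five 5 368 369) (five 5 400 433))))))))))))))) (both (mv 492 (both (five 0 492 527) (mv 524 (both (five 2 492 496) (five 2 491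 523))))) (mv 464 (both (five 1 460 492) (mv 465 (both (five 2 462 466) (five 1 461 496))))))))) (both (mv 494 (both (mv 464 (both (five 1 460 492) (mv 465 (both (five 2 462 466) (five 1 461 496))))) (both (mv 464 (both (five 1 460 492) (mv 465 (both (five 2 461 462) (five 2 462 466))))) (mv 496 (both (five 2 492 524) (mv 461 (both (five 3 460 460) (mv 462 (both (five 3 461 497) (mv 430 (both (five 5 429 557) (mv 398 (both (five 4 366 366) (five 5 397 429)))))))))))))) (mv 494 (both (mv 496 (both (mv 461 (both (five 3 460 460) (mv 462 (both (five 3 461 497) (mv 430 (both (five 5 429 557) (mv 398 (both (five 4 366 366) (five 5 397 429))))))))) (mv 464 (both (five 1 461 465) (mv 560 (both (five 7 463 592) (mv 559 (both (five 6 463 591) (mv 432 (both (five 5 431 527) (mv 400 (both (five 6 367 368) (mv 401 (both (five 5 368 369) (five 5 400 433))))))))))))))) (both (mv 492 (both (five 0 492 527) (mv 462 (both (five 1 459 491) (mv 430 (both (five 6 397 398) (mv 557 (both (five 5 429 461) (five 5 461 589))))))))) (mv 464 (both (five 1 460 492) (mv 465 (both (five 2 462 466) (five 1 461 496))))))))))))) (both (mv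 493 (both (mv 494 (both (mv 524 (both (five 2 492 496) (mv 523 (both (five 2 491 492) (five 1 490 522))))) (both (mv 464 (both (five 1 460 492) (mv 465 (both (five 2 461 462) (five 2 462 466))))) (mv 496 (both (five 2 492 524) (mv 431 (both (five 4 399 399) (mv 560 (both (five 7 431 464) (five 7 463 592)))))))))) (both (mv 461 (both (mv 429 (both (mv 396 (both (five 7 396 428) (mv 397 (both (five 7 364 364) (mv 398 (both (five 5 365 366) (five 5 397 430))))))) (both (mv 398 (both (five 5 397 430) (mv 397 (both (five 5 365 366) (mv 524 (both (five 6 396 492) (five 6 428 556))))))) (mv 428 (both (five 7 396 396) (mv 556 (both (five 6 428 524) (mv 557 (both (five 7 428 460) (five 6 460 588)))))))))) (both (mv 462 (both (mv 492 (both (five 2 460 464) (mv 491 (both (five 2 459 460) (five 1 458 490))))) (mv 430 (both (five 5 429 557) (mv 398 (both (five 6 365 366) (five 6 397 494))))))) (both (mv 429 (both (mv 396 (both (five 7 396 428) (mv 397 (both (five 7 364 364) (mv 398 (both (five 5 365 366) (five 5 397 430))))))) (both (mv 428 (both (five 7 396 396) (mv 556 (both (five 6 428 524) (mv 557 (both (five 7 428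 460) (five 6 460 588))))))) (mv 430 (both (five 5 397 398) (mv 556 (both (five 6 428 524) (mv 557 (both (five 5 429 462) (five 6 460 588)))))))))) (both (mv 429 (both (mv 396 (both (five 7 396 428) (mv 397 (both (five 7 364 364) (mv 524 (both (five 6 396 492) (five 6 428 556))))))) (both (mv 524 (both (five 6 428 556) (mv 492 (both (five 6 396 397) (mv 462 (both (five 2 460 464) (mv 491 (both (five 2 459 460) (five 1 458 490))))))))) (mv 428 (both (five 7 396 396) (mv 462 (both (five 3 428 464) (mv 427 (both (five 0 426 426) (five 3 427 460)))))))))) (mv 462 (both (mv 430 (both (five 5 429 557) (mv 398 (both (five 4 366 366) (five 5 397 429))))) (mv 464 (both (five 2 460 492) (mv 433 (both (five 1 429 432) (mv 465 (both (five 1 430 434) (five 2 461 494)))))))))))))) (both (mv 461 (both (mv 462 (both (mv 430 (both (five 5 429 557) (mv 398 (both (five 4 366 366) (five 5 397 429))))) (mv 492 (both (five 2 460 464) (mv 491 (both (five 2 459 460) (five 1 458 490))))))) (both (mv 557 (both (mv 588 (both (five 6 460 556) (mv 589 (both (five 6 492 620) (mv 590 (both (five 4 461 558) (five 4 493 622))))))) (both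 (mv 460 (both (five 7 428 428) (mv 589 (both (five 7 460 492) (mv 590 (both (five 4 461 558) (five 4 493 622))))))) (mv 428 (both (five 7 428 460) (mv 429 (both (five 7 396 396) (mv 556 (both (five 6 428 524) (five 6 460 588)))))))))) (both (mv 462 (both (mv 464 (both (five 2 460 492) (mv 429 (both (five 3 428 428) (mv 430 (both (five 5 397 398) (five 3 429 465))))))) (both (mv 460 (both (five 0 460 496) (mv 428 (both (five 3 427 427) (mv 396 (both (five 4 364 364) (five 7 396 429))))))) (mv 460 (both (five 0 460 496) (mv 492 (both (five 2 460 464) (five 2 459 491)))))))) (both (mv 557 (both (mv 588 (both (five 6 460 556) (mv 589 (both (five 6 492 620) (mv 590 (both (five 4 461 558) (five 4 493 622))))))) (mv 460 (both (five 7 428 428) (mv 462 (both (five 5 429 430) (mv 492 (both (five 2 460 464) (five 2 459 491))))))))) (both (mv 429 (both (mv 396 (both (five 7 396 428) (mv 397 (both (five 7 364 364) (mv 398 (both (five 5 365 366) (five 5 397 430))))))) (both (mv 396 (both (five 7 396 428) (mv 397 (both (five 7 364 364) (mv 524 (both (five 6 396 492) (five 6 428 556))))))) (both (mv 398 (both (five 5 397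 430) (mv 397 (both (five 5 365 366) (mv 524 (both (five 6 396 492) (five 6 428 556))))))) (mv 396 (both (five 7 396 428) (mv 430 (both (five 5 397 398) (mv 556 (both (five 6 428 524) (mv 557 (both (five 5 429 462) (five 6 460 588))))))))))))) (mv 429 (both (mv 396 (both (five 7 396 428) (mv 397 (both (five 7 364 364) (mv 398 (both (five 5 365 366) (five 5 397 430))))))) (both (mv 428 (both (five 7 396 396) (mv 556 (both (five 6 428 524) (mv 557 (both (five 7 428 460) (five 6 460 588))))))) (mv 430 (both (five 5 397 398) (mv 556 (both (five 6 428 524) (mv 557 (both (five 5 429 462) (five 6 460 588)))))))))))))))) (both (mv 461 (both (mv 557 (both (mv 588 (both (five 6 460 556) (mv 589 (both (five 6 492 620) (mv 590 (both (five 4 461 558) (five 4 493 622))))))) (both (mv 462 (both (five 5 429 430) (mv 589 (both (five 5 461 494) (mv 590 (both (five 4 461 558) (five 4 493 622))))))) (mv 430 (both (five 5 429 462) (mv 429 (both (five 5 397 398) (mv 556 (both (five 6 428 524) (five 6 460 588)))))))))) (both (mv 429 (both (mv 396 (both (five 7 396 428) (mv 397 (both (five 7 364 364) (mv 398 (both (five 5 365 366)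 (five 5 397 430))))))) (both (mv 396 (both (five 7 396 428) (mv 397 (both (five 7 364 364) (mv 524 (both (five 6 396 492) (five 6 428 556))))))) (both (mv 398 (both (five 5 397 430) (mv 397 (both (five 5 365 366) (mv 524 (both (five 6 396 492) (five 6 428 556))))))) (mv 396 (both (five 7 396 428) (mv 398 (both (five 5 397 430) (mv 524 (both (five 6 428 556) (mv 494 (both (five 2 492 496) (mv 523 (both (five 2 491 492) (five 1 490 522))))))))))))))) (both (mv 496 (both (mv 494 (both (five 3 460 460) (five 2 492 524))) (both (mv 494 (both (five 2 492 524) (mv 462 (both (five 3 461 497) (mv 430 (both (five 6 397 398) (five 5 429 557))))))) (mv 399 (both (five 4 399 431) (mv 460 (both (five 0 460 462) (mv 428 (both (five 7 428 557) (mv 396 (both (five 4 364 364) (five 4 396 492)))))))))))) (both (mv 557 (both (mv 462 (both (five 5 429 430) (mv 589 (both (five 5 461 494) (mv 590 (both (five 4 461 558) (five 4 493 622))))))) (both (mv 460 (both (five 7 428 428) (mv 589 (both (five 7 460 492) (mv 590 (both (five 4 461 558) (five 4 493 622))))))) (mv 428 (both (five 7 428 460) (mv 429 (both (five 7 396 396) (mv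 430 (both (five 5 397 398) (five 5 429 462)))))))))) (mv 557 (both (mv 588 (both (five 6 460 556) (mv 589 (both (five 6 492 620) (mv 590 (both (five 4 461 558) (five 4 493 622))))))) (both (mv 460 (both (five 7 428 428) (mv 589 (both (five 7 460 492) (mv 590 (both (five 4 461 558) (five 4 493 622))))))) (mv 428 (both (five 7 428 460) (mv 429 (both (five 7 396 396) (mv 556 (both (five 6 428 524) (five 6 460 588))))))))))))))) (both (mv 461 (both (mv 496 (both (mv 494 (both (five 3 460 460) (five 2 492 524))) (mv 431 (both (five 4 399 399) (mv 560 (both (five 7 431 464) (five 7 463 592))))))) (both (mv 557 (both (mv 588 (both (five 6 460 556) (mv 589 (both (five 6 492 620) (mv 590 (both (five 4 461 558) (five 4 493 622))))))) (both (mv 460 (both (five 7 428 428) (mv 589 (both (five 7 460 492) (mv 590 (both (five 4 461 558) (five 4 493 622))))))) (mv 428 (both (five 7 428 460) (mv 429 (both (five 7 396 396) (mv 556 (both (five 6 428 524) (five 6 460 588)))))))))) (both (mv 496 (both (mv 431 (both (five 4 399 399) (mv 560 (both (five 7 431 464) (five 7 463 592))))) (mv 460 (both (five 3 460 494) (mv 428 (both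 (five 7 428 557) (mv 396 (both (five 4 364 364) (five 7 396 429))))))))) (mv 524 (both (mv 494 (both (five 2 492 496) (mv 523 (both (five 2 491 492) (five 1 490 522))))) (mv 556 (both (five 6 428 429) (mv 588 (both (five 6 460 557) (five 5 492 620))))))))))) (both (mv 496 (both (mv 431 (both (five 4 399 399) (mv 560 (both (five 7 431 464) (five 7 463 592))))) (mv 494 (both (five 2 492 524) (mv 461 (both (five 3 460 460) (mv 462 (both (five 3 461 497) (mv 430 (both (five 5 429 557) (mv 398 (both (five 4 366 366) (five 5 397 429))))))))))))) (mv 461 (both (mv 462 (both (mv 430 (both (five 5 429 557) (mv 398 (both (five 4 366 366) (five 5 397 429))))) (mv 492 (both (five 2 460 464) (mv 491 (both (five 2 459 460) (five 1 458 490))))))) (both (mv 496 (both (mv 431 (both (five 4 399 399) (mv 560 (both (five 7 431 464) (five 7 463 592))))) (mv 460 (both (five 3 460 494) (mv 428 (both (five 7 428 557) (mv 396 (both (five 4 364 364) (five 7 396 429))))))))) (both (mv 496 (both (mv 431 (both (five 4 399 399) (mv 560 (both (five 7 431 464) (five 7 463 592))))) (mv 462 (both (five 0 460 460) (mv 497 (both (five 3 461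 494) (five 3 462 498))))))) (both (mv 557 (both (mv 462 (both (five 5 429 430) (mv 589 (both (five 5 461 494) (mv 590 (both (five 4 461 558) (five 4 493 622))))))) (both (mv 460 (both (five 7 428 428) (mv 589 (both (five 7 460 492) (mv 590 (both (five 4 461 558) (five 4 493 622))))))) (mv 428 (both (five 7 428 460) (mv 429 (both (five 7 396 396) (mv 430 (both (five 5 397 398) (five 5 429 462)))))))))) (mv 462 (both (mv 430 (both (five 5 429 557) (mv 398 (both (five 4 366 366) (five 5 397 429))))) (mv 464 (both (five 2 460 492) (mv 433 (both (five 1 429 432) (mv 465 (both (five 1 430 434) (five 2 461 494))))))))))))))))))))) (both (mv 431 (both (mv 399 (both (five 4 399 496) (mv 366 (both (five 7 366 398) (mv 367 (both (five 7 334 334) (mv 368 (both (five 5 335 336) (five 5 367 400))))))))) (both (mv 527 (both (mv 430 (both (five 7 398 398) (mv 432 (both (five 5 399 400) (mv 462 (both (five 7 430 559) (mv 433 (both (five 2 430 434) (five 2 429 461))))))))) (both (mv 430 (both (five 7 398 398) (mv 559 (both (five 7 430 462) (mv 590 (both (five 6 462 558) (mv 591 (both (five 6 494 622) (mv 496 (both (five 5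 463 464) (five 5 495 623))))))))))) (both (mv 432 (both (five 5 399 400) (mv 559 (both (five 5 431 464) (mv 590 (both (five 6 462 558) (mv 591 (both (five 6 494 622) (mv 623 (both (five 5 495 496) (mv 624 (both (five 4 527 656) (five 4 495 592))))))))))))) (mv 430 (both (five 7 398 398) (mv 429 (both (mv 464 (both (five 0 428 428) (mv 465 (both (five 0 429 432) (five 3 430 466))))) (both (mv 428 (both (five 0 428 464) (mv 395 (both (five 3 395 396) (mv 427 (both (five 3 394 394) (five 0 427 462))))))) (mv 432 (both (five 5 399 400) (mv 461 (both (five 2 428 460) (mv 433 (both (five 2 429 462) (mv 402 (both (five 1 398 401) (mv 434 (both (five 1 399 403) (mv 466 (both (five 0 430 465) (five 0 431 467)))))))))))))))))))))) (both (mv 399 (both (mv 366 (both (five 7 366 398) (mv 367 (both (five 7 334 334) (mv 368 (both (five 5 335 336) (five 5 367 400))))))) (both (mv 366 (both (five 7 366 398) (mv 367 (both (five 7 334 334) (mv 336 (both (five 5 335 368) (mv 335 (both (five 5 303 304) (mv 462 (both (five 6 334 430) (five 6 366 494))))))))))) (both (mv 367 (both (mv 368 (both (five 5 335 336) (five 5 367 400)))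 (both (mv 462 (both (five 6 366 494) (mv 335 (both (five 6 334 430) (mv 302 (both (five 7 302 334) (mv 303 (both (five 7 270 270) (mv 304 (both (five 5 271 272) (five 5 303 336))))))))))) (mv 400 (both (five 5 367 368) (mv 462 (both (five 6 366 494) (mv 335 (both (five 6 334 430) (mv 432 (both (five 4 303 303) (five 4 335 464)))))))))))) (both (mv 366 (both (five 7 366 398) (mv 367 (both (five 7 334 334) (mv 462 (both (five 6 366 494) (mv 335 (both (five 6 334 430) (mv 304 (both (five 5 303 336) (mv 303 (both (five 5 271 272) (mv 432 (both (five 4 303 400) (five 4 335 464))))))))))))))) (mv 398 (both (five 7 366 366) (mv 400 (both (five 5 367 368) (mv 527 (both (five 7 398 430) (five 5 399 432)))))))))))) (both (mv 399 (both (five 4 399 496) (mv 368 (both (five 5 367 400) (mv 367 (both (five 5 335 336) (mv 334 (both (five 7 334 366) (mv 335 (both (five 7 302 302) (mv 462 (both (five 6 334 430) (five 6 366 494))))))))))))) (mv 399 (both (five 4 399 496) (mv 366 (both (five 7 366 398) (mv 367 (both (five 7 334 334) (mv 336 (both (five 5 335 368) (mv 335 (both (five 5 303 304) (mv 462 (both (five 6 334 430)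 (five 6 366 494)))))))))))))))))) (both (mv 431 (both (mv 496 (both (five 4 399 399) (mv 560 (both (five 4 431 527) (five 7 463 592))))) (both (mv 399 (both (five 4 399 496) (mv 366 (both (five 7 366 398) (mv 367 (both (five 7 334 334) (mv 368 (both (five 5 335 336) (five 5 367 400))))))))) (mv 527 (both (five 4 431 560) (mv 430 (both (five 7 398 398) (mv 432 (both (five 5 399 400) (mv 462 (both (five 7 430 559) (mv 433 (both (five 2 430 434) (five 2 429 461)))))))))))))) (mv 431 (both (mv 527 (both (five 4 431 560) (mv 430 (both (five 7 398 398) (mv 559 (both (five 7 430 462) (mv 590 (both (five 6 462 558) (mv 591 (both (five 6 494 622) (mv 496 (both (five 5 463 464) (five 5 495 623))))))))))))) (both (mv 399 (both (five 4 399 496) (mv 366 (both (five 7 366 398) (mv 367 (both (five 7 334 334) (mv 368 (both (five 5 335 336) (five 5 367 400))))))))) (both (mv 527 (both (five 4 431 560) (mv 398 (both (five 7 398 430) (mv 399 (both (five 7 366 366) (mv 400 (both (five 5 367 368) (five 5 399 432))))))))) (mv 399 (both (five 4 399 496) (mv 400 (both (five 5 367 368) (mv 527 (both (five 5 399 432) (five 4 431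 560)))))))))))))))))

theorem L64 : W (S 988530863161101255454148148505632801312661156727406042891648512794071073662266652643294668095351646301915173751338452436331818490997235976069578606837084717056) (S 361184869167306827419280004771899378199532735942329349072527998622749896469297776964613442365939227436446040833731961375043251009950795880829524600599185018240045466409615197171576411436791242217190638747648) :=
  check_sound (Env.cons L14 Env.nil) (x := 463) (t := tL64) (by decide +kernel)

end P062.Cert
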