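import Vale.Agent.P062.Check
import Vale.Agent.P062.Cert.C2
import Vale.Agent.P062.Cert.C3
import Vale.Agent.P062.Cert.C4
import Vale.Agent.P062.Cert.C5
import Vale.Agent.P062.Cert.C6
import Vale.Agent.P062.Cert.C7
import Vale.Agent.P062.Cert.C8

/-! Snaky certificate, part 9 (machine generated, checked by the kernel) -/

set_option maxRecDepth 100000

namespace P062.Cert

open T

def tL65 : T :=
  (both (ref 0) (both (ref 1) (both (ref 2) (both (ref 3) (both (mv 493 (both (ref 4) (both (mv 494 (both (mv 496 (both (five 2 492 524) (mv 527 (both (mv 464 (both (five 1 461 465) (mv 432 (both (five 6 399 400) (five 6 431 559))))) (both (mv 559 (both (mv 557 (both (mv 589 (both (five 5 461 462) (mv 620 (both (five 6 492 588) (mv 621 (both (five 6 524 652) (mv 622 (both (five 4 493 590) (five 4 525 654))))))))) (both (mv 558 (both (five 1 524 556) (mv 590 (both (five 6 462 463) (mv 622 (both (five 4 493 589) (five 7 525 654))))))) (both (mv 558 (both (five 1 524 556) (mv 463 (both (five 6 462 590) (mv 430 (both (five 7 430 462) (mv 431 (both (five 7 398 398) (five 4 399 399))))))))) (mv 462 (both (five 5 461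 589) (mv 430 (both (five 4 398 398) (five 7 430 463))))))))) (both (mv 591 (both (five 5 495 623) (mv 590 (both (five 6 494 622) (mv 558 (both (five 6 462 463) (mv 557 (both (five 1 524 556) (mv 592 (both (five 3 557 593) (five 4 495 624))))))))))) (mv 591 (both (five 7 462 462) (five 5 495 623)))))) (mv 463 (both (mv 431 (both (five 4 399 399) (mv 432 (both (five 5 399 400) (mv 433 (both (mv 434 (both (five 2 430 462) (mv 403 (both (five 1 399 402) (mv 435 (both (five 1 400 404) (mv 467 (both (five 0 431 466) (five 0 432 468))))))))) (both (mv 430 (both (five 7 398 398) (mv 401 (both (five 1 398 402) (mv 465 (both (five 0 430 466) (five 6 400 497))))))) (both (mv 430 (both (five 7 398 398) (mv 402 (both (five 1 398 401) (mv 434 (both (five 1 399 403) (five 2 430 462))))))) (mv 398 (both (five 7 398 430) (mv 434 (both (five 2 430 462) (mv 466 (both (five 0 431 467) (mv 497 (both (five 1 462 465) (mv 498 (both (five 2 495 499) (mv 530 (both (five 7 401 401) (five 0 495 531))))))))))))))))))))) (both (mv 431 (both (five 4 399 399) (mv 432 (both (five 5 399 400) (mv 433 (both (mv 401 (both (five 5 400 464)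 (mv 430 (both (five 7 398 398) (five 1 398 402))))) (both (mv 434 (both (five 2 430 462) (mv 403 (both (five 1 399 402) (mv 435 (both (five 1 400 404) (mv 467 (both (five 0 431 466) (five 0 432 468))))))))) (mv 398 (both (five 7 398 430) (mv 434 (both (five 2 430 462) (mv 464 (both (five 5 400 401) (five 2 431 435)))))))))))))) (both (mv 465 (both (five 1 461 464) (mv 497 (both (five 1 462 466) (mv 498 (both (five 3 462 462) (five 2 495 499))))))) (both (mv 431 (both (five 4 399 399) (mv 430 (both (five 7 398 398) (mv 432 (both (five 5 399 400) (mv 465 (both (five 1 461 464) (mv 466 (both (five 0 430 433) (five 1 462 497))))))))))) (mv 431 (both (five 4 399 399) (mv 398 (both (five 7 398 430) (mv 432 (both (five 5 399 400) (mv 464 (both (five 1 461 465) (mv 433 (both (five 5 400 401) (mv 434 (both (five 2 431 435) (five 2 430 462))))))))))))))))))))))) (both (mv 492 (both (five 0 492 527) (mv 459 (both (five 3 459 460) (mv 463 (both (five 1 460 464) (mv 491 (both (five 3 458 458) (five 1 459 462))))))))) (mv 524 (both (five 2 492 496) (mv 523 (both (five 2 491 492) (five 1 490 522)))))))) (both (ref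 5) (both (mv 557 (both (mv 589 (both (mv 620 (both (five 6 492 588) (mv 621 (both (five 6 524 652) (mv 622 (both (five 4 493 590) (five 4 525 654))))))) (mv 492 (both (five 7 460 460) (mv 494 (both (five 5 461 462) (five 0 492 527))))))) (both (mv 461 (both (mv 428 (both (five 7 428 460) (mv 429 (both (five 7 396 396) (mv 430 (both (five 5 397 398) (five 5 429 462))))))) (both (mv 430 (both (five 5 429 462) (mv 429 (both (five 5 397 398) (mv 556 (both (five 6 428 524) (five 6 460 588))))))) (both (mv 428 (both (five 7 428 460) (mv 429 (both (five 7 396 396) (mv 556 (both (five 6 428 524) (five 6 460 588))))))) (mv 430 (both (five 5 429 462) (mv 460 (both (five 7 428 428) (mv 556 (both (five 6 460 588) (mv 558 (both (five 4 461 590) (mv 559 (both (five 1 524 527) (mv 523 (both (five 3 523 524) (mv 555 (both (five 3 522 522) (mv 586 (both (five 2 554 587) (mv 554 (both (five 2 553 585) (mv 459 (both (five 6 458 491) (mv 494 (both (five 0 458 458) (five 3 459 492))))))))))))))))))))))))))) (both (mv 589 (both (mv 620 (both (five 6 492 588) (mv 621 (both (five 6 524 652) (mv 622 (both (five 4 493 590) (five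 4 525 654))))))) (both (mv 462 (both (five 5 461 494) (mv 461 (both (five 5 429 430) (mv 588 (both (five 6 460 556) (five 6 492 620))))))) (mv 462 (both (five 5 461 494) (mv 461 (both (five 5 429 430) (mv 590 (both (five 4 461 558) (five 4 493 622)))))))))) (both (mv 589 (both (mv 620 (both (five 6 492 588) (mv 621 (both (five 6 524 652) (mv 622 (both (five 4 493 590) (five 4 525 654))))))) (both (mv 492 (both (five 7 460 460) (mv 620 (both (five 6 492 588) (mv 621 (both (five 7 492 524) (five 6 524 652))))))) (mv 460 (both (five 7 460 492) (mv 461 (both (five 7 428 428) (mv 590 (both (five 4 461 558) (five 4 493 622)))))))))) (both (mv 461 (both (mv 462 (both (five 5 429 430) (mv 589 (both (five 5 461 494) (mv 590 (both (five 4 461 558) (five 4 493 622))))))) (both (mv 460 (both (five 7 428 428) (mv 589 (both (five 7 460 492) (mv 590 (both (five 4 461 558) (five 4 493 622))))))) (mv 428 (both (five 7 428 460) (mv 429 (both (five 7 396 396) (mv 430 (both (five 5 397 398) (five 5 429 462)))))))))) (mv 461 (both (mv 428 (both (five 7 428 460) (mv 429 (both (five 7 396 396) (mv 430 (both (five 5 397 398)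 (five 5 429 462))))))) (both (mv 430 (both (five 5 429 462) (mv 429 (both (five 5 397 398) (mv 556 (both (five 6 428 524) (five 6 460 588))))))) (mv 460 (both (five 7 428 428) (mv 588 (both (five 6 460 556) (mv 589 (both (five 7 460 492) (five 6 492 620)))))))))))))))) (both (mv 461 (both (mv 460 (both (mv 428 (both (five 7 428 557) (mv 396 (both (five 4 364 364) (five 7 396 429))))) (mv 494 (both (five 3 460 496) (mv 459 (both (five 0 458 458) (five 3 459 492))))))) (both (mv 494 (both (mv 492 (both (five 0 492 527) (mv 463 (both (five 1 460 464) (mv 491 (both (five 1 459 462) (mv 458 (both (five 3 458 459) (mv 490 (both (five 3 457 457) (mv 522 (both (five 2 489 521) (five 2 490 523))))))))))))) (both (mv 460 (both (five 3 460 496) (mv 459 (both (five 0 458 458) (five 0 459 462))))) (both (mv 460 (both (five 3 460 496) (mv 492 (both (five 3 459 459) (five 0 492 527))))) (mv 460 (both (five 3 460 496) (mv 492 (both (five 0 492 527) (mv 396 (both (five 4 396 428) (mv 463 (both (five 1 460 464) (mv 462 (both (five 2 459 491) (mv 398 (both (five 6 397 430) (mv 431 (both (five 1 428 432) (mv 399 (both (five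 7 366 366) (five 6 366 367))))))))))))))))))))) (both (mv 557 (both (mv 588 (both (five 6 460 556) (mv 589 (both (five 6 492 620) (mv 590 (both (five 4 461 558) (five 4 493 622))))))) (both (mv 462 (both (five 5 429 430) (mv 494 (both (five 5 461 589) (mv 492 (both (five 0 492 527) (mv 463 (both (five 1 460 464) (five 1 459 491))))))))) (mv 462 (both (five 5 429 430) (mv 556 (both (five 6 460 588) (mv 558 (both (five 4 461 590) (mv 527 (both (five 1 524 559) (mv 494 (both (five 0 492 492) (mv 496 (both (five 3 461 497) (mv 464 (both (five 1 461 465) (mv 432 (both (five 6 399 400) (mv 433 (both (five 5 400 401) (five 1 429 463)))))))))))))))))))))) (mv 557 (both (mv 588 (both (five 6 460 556) (mv 589 (both (five 6 492 620) (mv 590 (both (five 4 461 558) (five 4 493 622))))))) (mv 428 (both (five 7 428 460) (mv 429 (both (five 7 396 396) (mv 430 (both (five 5 397 398) (five 5 429 462))))))))))))) (both (mv 494 (both (mv 492 (both (five 0 492 527) (mv 524 (both (five 2 492 496) (five 2 491 523))))) (both (mv 492 (both (five 0 492 527) (mv 459 (both (five 3 459 460) (mv 491 (both (five 3 458 458) (mv 523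 (both (five 2 490 522) (five 2 491 524))))))))) (both (mv 496 (both (five 2 492 524) (mv 461 (both (five 3 460 460) (mv 465 (both (five 1 461 464) (mv 497 (both (five 3 461 462) (five 1 462 466))))))))) (mv 496 (both (mv 460 (both (five 3 460 461) (mv 492 (both (five 3 459 459) (five 0 492 527))))) (both (mv 464 (both (five 1 461 465) (mv 527 (both (five 0 492 492) (mv 432 (both (five 6 399 400) (five 6 431 559))))))) (mv 461 (both (five 3 460 460) (mv 465 (both (five 1 461 464) (mv 497 (both (five 3 461 462) (five 1 462 466)))))))))))))) (both (mv 494 (both (mv 496 (both (five 2 492 524) (mv 465 (both (five 1 461 464) (mv 497 (both (five 1 462 466) (mv 462 (both (five 3 461 461) (mv 498 (both (five 3 462 463) (mv 499 (both (five 2 495 527) (mv 531 (both (five 0 495 530) (five 0 496 532))))))))))))))) (both (mv 492 (both (five 0 492 527) (mv 463 (both (five 1 460 464) (mv 462 (both (five 1 459 491) (mv 430 (both (five 6 397 398) (mv 557 (both (five 5 429 461) (five 5 461 589))))))))))) (mv 524 (both (five 2 492 496) (mv 523 (both (five 2 491 492) (five 1 490 522)))))))) (ref 6))))))))) (both (ref 7)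 (both (ref 8) (both (ref 9) (both (ref 10) (both (ref 11) (both (ref 12) (both (ref 13) (both (ref 14) (both (ref 15) (both (ref 16) (both (mv 493 (both (ref 5) (both (ref 4) (both (mv 557 (both (mv 589 (both (mv 620 (both (five 6 492 588) (mv 621 (both (five 6 524 652) (mv 622 (both (five 4 493 590) (five 4 525 654))))))) (mv 492 (both (five 7 460 460) (mv 494 (both (five 5 461 462) (five 0 492 527))))))) (both (mv 461 (both (mv 428 (both (five 7 428 460) (mv 429 (both (five 7 396 396) (mv 430 (both (five 5 397 398) (five 5 429 462))))))) (mv 556 (both (five 6 460 588) (mv 558 (both (five 4 461 590) (mv 559 (both (five 1 524 527) (mv 524 (both (five 3 523 523) (five 3 524 560))))))))))) (both (mv 589 (both (mv 620 (both (five 6 492 588) (mv 621 (both (five 6 524 652) (mv 622 (both (five 4 493 590) (five 4 525 654))))))) (both (mv 462 (both (five 5 461 494) (mv 430 (both (five 5 429 461) (mv 620 (both (five 6 492 588) (mv 621 (both (five 6 524 652) (mv 654 (both (five 4 525 622) (mv 653 (both (five 4 557 686) (mv 524 (both (five 7 524 556) (five 7 492 492))))))))))))))) (both (mv 462 (both (five 5 461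 494) (mv 461 (both (five 5 429 430) (mv 590 (both (five 4 461 558) (five 4 493 622))))))) (mv 462 (both (five 5 461 494) (mv 461 (both (five 5 429 430) (mv 556 (both (five 6 460 588) (mv 558 (both (five 4 461 590) (mv 559 (both (five 1 524 527) (mv 524 (both (five 3 523 523) (five 3 524 560))))))))))))))))) (both (mv 589 (both (mv 620 (both (five 6 492 588) (mv 621 (both (five 6 524 652) (mv 622 (both (five 4 493 590) (five 4 525 654))))))) (both (mv 492 (both (five 7 460 460) (mv 620 (both (five 6 492 588) (mv 621 (both (five 7 492 524) (five 6 524 652))))))) (mv 460 (both (five 7 460 492) (mv 461 (both (five 7 428 428) (mv 590 (both (five 4 461 558) (five 4 493 622)))))))))) (both (mv 461 (both (mv 462 (both (five 5 429 430) (mv 589 (both (five 5 461 494) (mv 590 (both (five 4 461 558) (five 4 493 622))))))) (both (mv 460 (both (five 7 428 428) (mv 589 (both (five 7 460 492) (mv 590 (both (five 4 461 558) (five 4 493 622))))))) (mv 428 (both (five 7 428 460) (mv 429 (both (five 7 396 396) (mv 430 (both (five 5 397 398) (five 5 429 462)))))))))) (mv 461 (both (mv 428 (both (five 7 428 460) (mv 429 (both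 (five 7 396 396) (mv 430 (both (five 5 397 398) (five 5 429 462))))))) (both (mv 430 (both (five 5 429 462) (mv 429 (both (five 5 397 398) (mv 556 (both (five 6 428 524) (five 6 460 588))))))) (mv 460 (both (five 7 428 428) (mv 588 (both (five 6 460 556) (mv 589 (both (five 7 460 492) (five 6 492 620)))))))))))))))) (both (mv 494 (both (mv 496 (both (five 2 492 524) (mv 463 (both (mv 465 (both (five 1 461 464) (mv 497 (both (five 1 462 466) (mv 401 (both (five 6 400 433) (mv 498 (both (five 3 462 462) (mv 499 (both (five 2 495 527) (mv 531 (both (five 0 495 530) (five 0 496 532))))))))))))) (both (mv 431 (both (five 4 399 399) (mv 527 (both (five 4 431 560) (mv 400 (both (five 5 399 432) (mv 430 (both (five 7 398 398) (mv 559 (both (five 7 430 462) (mv 590 (both (five 6 462 558) (mv 591 (both (five 6 494 622) (five 5 495 623))))))))))))))) (mv 431 (both (five 4 399 399) (mv 464 (both (five 1 461 465) (five 7 431 560)))))))))) (both (mv 492 (both (five 0 492 527) (mv 459 (both (five 3 459 460) (mv 463 (both (five 1 460 464) (mv 491 (both (five 3 458 458) (five 1 459 462))))))))) (mv 524 (both (five 2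 492 496) (mv 523 (both (five 2 491 492) (five 1 490 522)))))))) (both (mv 461 (both (mv 557 (both (mv 588 (both (five 6 460 556) (mv 589 (both (five 6 492 620) (mv 590 (both (five 4 461 558) (five 4 493 622))))))) (mv 428 (both (five 7 428 460) (mv 429 (both (five 7 396 396) (mv 430 (both (five 5 397 398) (five 5 429 462))))))))) (both (mv 494 (both (mv 492 (both (five 0 492 527) (mv 463 (both (five 1 460 464) (mv 491 (both (five 1 459 462) (mv 458 (both (five 3 458 459) (mv 490 (both (five 3 457 457) (mv 522 (both (five 2 489 521) (five 2 490 523))))))))))))) (both (mv 460 (both (five 3 460 496) (mv 459 (both (five 0 458 458) (five 0 459 462))))) (both (mv 460 (both (five 3 460 496) (mv 492 (both (five 3 459 459) (five 0 492 527))))) (mv 460 (both (five 3 460 496) (mv 492 (both (five 0 492 527) (mv 396 (both (five 4 396 428) (mv 463 (both (five 1 460 464) (mv 462 (both (five 2 459 491) (mv 398 (both (five 6 397 430) (mv 431 (both (five 1 428 432) (mv 399 (both (five 7 366 366) (five 6 366 367))))))))))))))))))))) (both (mv 557 (both (mv 588 (both (five 6 460 556) (mv 589 (both (five 6 492 620) (mv 590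 (both (five 4 461 558) (five 4 493 622))))))) (both (mv 462 (both (five 5 429 430) (mv 494 (both (five 5 461 589) (mv 492 (both (five 0 492 527) (mv 463 (both (five 1 460 464) (five 1 459 491))))))))) (mv 462 (both (five 5 429 430) (mv 556 (both (five 6 460 588) (mv 558 (both (five 4 461 590) (mv 527 (both (five 1 524 559) (mv 492 (both (five 0 492 494) (mv 463 (both (five 2 460 464) (mv 431 (both (five 4 431 560) (mv 399 (both (five 4 399 496) (mv 400 (both (five 5 367 368) (five 5 399 432)))))))))))))))))))))) (mv 557 (both (mv 588 (both (five 6 460 556) (mv 589 (both (five 6 492 620) (mv 590 (both (five 4 461 558) (five 4 493 622))))))) (mv 460 (both (five 7 428 428) (mv 494 (both (five 3 460 496) (mv 492 (both (five 3 459 459) (five 0 492 527))))))))))))) (both (mv 494 (both (mv 496 (both (five 2 492 524) (mv 465 (both (five 1 461 464) (mv 497 (both (five 1 462 466) (mv 462 (both (five 3 461 461) (mv 498 (both (five 3 462 463) (mv 499 (both (five 2 495 527) (mv 531 (both (five 0 495 530) (five 0 496 532))))))))))))))) (both (mv 492 (both (five 0 492 527) (mv 463 (both (five 1 460 464) (mv 462 (both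 (five 1 459 491) (mv 430 (both (five 6 397 398) (mv 557 (both (five 5 429 461) (five 5 461 589))))))))))) (mv 524 (both (five 2 492 496) (mv 523 (both (five 2 491 492) (five 1 490 522)))))))) (mv 494 (both (mv 496 (both (five 2 492 524) (mv 464 (both (five 1 461 465) (mv 432 (both (mv 527 (both (five 6 399 400) (five 6 431 559))) (both (mv 399 (both (five 7 399 431) (mv 400 (both (five 7 367 367) (mv 401 (both (five 5 368 369) (five 5 400 433))))))) (mv 401 (both (five 5 400 433) (mv 431 (both (five 7 399 399) (mv 460 (both (five 3 460 461) (mv 559 (both (five 6 431 527) (mv 560 (both (five 7 431 463) (five 6 463 591)))))))))))))))))) (both (mv 492 (both (five 0 492 527) (mv 459 (both (five 3 459 460) (mv 491 (both (five 3 458 458) (mv 523 (both (five 2 490 522) (five 2 491 524))))))))) (both (mv 492 (both (five 0 492 527) (mv 460 (both (five 3 459 459) (mv 428 (both (five 4 396 396) (mv 461 (both (five 3 460 496) (five 7 428 557))))))))) (mv 524 (both (five 2 492 496) (mv 523 (both (five 2 491 492) (five 1 490 522)))))))))))))))) (both (mv 493 (both (ref 17) (both (ref 18) (both (mv 494 (both (mv 496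 (both (five 2 492 524) (mv 560 (both (mv 592 (both (five 7 463 463) (mv 623 (both (five 6 495 591) (mv 624 (both (five 6 527 655) (mv 625 (both (five 4 496 593) (five 4 528 657))))))))) (both (mv 464 (both (five 1 461 465) (mv 559 (both (five 6 463 591) (mv 432 (both (five 6 431 527) (mv 401 (both (five 5 400 433) (mv 400 (both (five 5 368 369) (mv 367 (both (five 7 367 399) (mv 368 (both (five 7 335 335) (five 6 367 463))))))))))))))) (mv 464 (both (five 1 461 465) (mv 593 (both (five 4 464 561) (mv 592 (both (five 4 496 625) (mv 527 (both (five 7 495 624) (mv 432 (both (five 6 399 400) (five 6 431 559)))))))))))))))) (both (mv 492 (both (five 0 492 527) (mv 459 (both (five 3 459 460) (mv 463 (both (five 1 460 464) (mv 491 (both (five 3 458 458) (five 1 459 462))))))))) (mv 524 (both (five 2 492 496) (mv 523 (both (five 2 491 492) (five 1 490 522)))))))) (both (mv 461 (both (mv 460 (both (mv 428 (both (five 7 428 557) (mv 396 (both (five 4 364 364) (five 7 396 429))))) (mv 494 (both (five 3 460 496) (mv 459 (both (five 0 458 458) (five 3 459 492))))))) (both (mv 494 (both (mv 460 (both (five 3 460 496)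 (mv 459 (both (five 0 458 458) (five 0 459 462))))) (both (mv 492 (both (five 0 492 527) (mv 463 (both (five 1 460 464) (mv 491 (both (five 1 459 462) (mv 458 (both (five 3 458 459) (mv 490 (both (five 3 457 457) (mv 522 (both (five 2 489 521) (five 2 490 523))))))))))))) (both (mv 460 (both (five 3 460 496) (mv 492 (both (five 3 459 459) (five 0 492 527))))) (mv 460 (both (five 3 460 496) (mv 492 (both (five 0 492 527) (mv 428 (both (five 4 396 396) (mv 463 (both (five 1 460 464) (mv 462 (both (five 3 427 427) (five 2 459 491))))))))))))))) (both (mv 557 (both (mv 588 (both (five 6 460 556) (mv 589 (both (five 6 492 620) (mv 590 (both (five 4 461 558) (five 4 493 622))))))) (mv 428 (both (five 7 428 460) (mv 429 (both (five 7 396 396) (mv 430 (both (five 5 397 398) (five 5 429 462))))))))) (mv 557 (both (mv 588 (both (five 6 460 556) (mv 589 (both (five 6 492 620) (mv 590 (both (five 4 461 558) (five 4 493 622))))))) (both (mv 462 (both (five 5 429 430) (mv 494 (both (five 5 461 589) (mv 492 (both (five 0 492 527) (mv 463 (both (five 1 460 464) (five 1 459 491))))))))) (mv 462 (both (five 5 429 430)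 (mv 556 (both (five 6 460 588) (mv 558 (both (five 4 461 590) (mv 527 (both (five 1 524 559) (mv 494 (both (five 0 492 492) (mv 496 (both (five 3 461 497) (mv 464 (both (five 1 461 465) (mv 432 (both (five 6 399 400) (mv 433 (both (five 5 400 401) (five 1 429 463)))))))))))))))))))))))))) (both (mv 461 (both (mv 557 (both (mv 588 (both (five 6 460 556) (mv 589 (both (five 6 492 620) (mv 590 (both (five 4 461 558) (five 4 493 622))))))) (both (mv 462 (both (five 5 429 430) (mv 589 (both (five 5 461 494) (mv 590 (both (five 4 461 558) (five 4 493 622))))))) (mv 430 (both (five 5 429 462) (mv 429 (both (five 5 397 398) (mv 556 (both (five 6 428 524) (five 6 460 588)))))))))) (both (mv 429 (both (mv 396 (both (five 7 396 428) (mv 397 (both (five 7 364 364) (mv 398 (both (five 5 365 366) (five 5 397 430))))))) (both (mv 396 (both (five 7 396 428) (mv 397 (both (five 7 364 364) (mv 524 (both (five 6 396 492) (five 6 428 556))))))) (both (mv 398 (both (five 5 397 430) (mv 397 (both (five 5 365 366) (mv 524 (both (five 6 396 492) (five 6 428 556))))))) (mv 396 (both (five 7 396 428) (mv 398 (both (five 5 397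 430) (mv 524 (both (five 6 428 556) (mv 494 (both (five 2 492 496) (mv 523 (both (five 2 491 492) (five 1 490 522))))))))))))))) (both (mv 557 (both (mv 462 (both (five 5 429 430) (mv 589 (both (five 5 461 494) (mv 590 (both (five 4 461 558) (five 4 493 622))))))) (both (mv 460 (both (five 7 428 428) (mv 588 (both (five 6 460 556) (mv 589 (both (five 7 460 492) (five 6 492 620))))))) (mv 430 (both (five 5 429 462) (mv 460 (both (five 7 428 428) (mv 494 (both (five 3 460 496) (mv 459 (both (five 0 458 458) (five 3 459 492)))))))))))) (both (mv 557 (both (mv 588 (both (five 6 460 556) (mv 589 (both (five 6 492 620) (mv 590 (both (five 4 461 558) (five 4 493 622))))))) (both (mv 460 (both (five 7 428 428) (mv 589 (both (five 7 460 492) (mv 590 (both (five 4 461 558) (five 4 493 622))))))) (mv 428 (both (five 7 428 460) (mv 429 (both (five 7 396 396) (mv 556 (both (five 6 428 524) (five 6 460 588)))))))))) (mv 557 (both (mv 462 (both (five 5 429 430) (mv 589 (both (five 5 461 494) (mv 590 (both (five 4 461 558) (five 4 493 622))))))) (both (mv 460 (both (five 7 428 428) (mv 589 (both (five 7 460 492) (mv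 590 (both (five 4 461 558) (five 4 493 622))))))) (mv 428 (both (five 7 428 460) (mv 429 (both (five 7 396 396) (mv 430 (both (five 5 397 398) (five 5 429 462))))))))))))))) (both (mv 494 (both (mv 496 (both (five 2 492 524) (mv 465 (both (five 1 461 464) (mv 497 (both (five 1 462 466) (mv 462 (both (five 3 461 461) (mv 498 (both (five 3 462 463) (mv 499 (both (five 2 495 527) (mv 531 (both (five 0 495 530) (five 0 496 532))))))))))))))) (both (mv 492 (both (five 0 492 527) (mv 463 (both (five 1 460 464) (mv 462 (both (five 1 459 491) (mv 430 (both (five 6 397 398) (mv 557 (both (five 5 429 461) (five 5 461 589))))))))))) (mv 524 (both (five 2 492 496) (mv 523 (both (five 2 491 492) (five 1 490 522)))))))) (both (ref 19) (mv 494 (both (mv 492 (both (five 0 492 527) (mv 459 (both (five 3 459 460) (mv 463 (both (five 1 460 464) (mv 491 (both (five 3 458 458) (five 1 459 462))))))))) (both (mv 496 (both (five 2 492 524) (mv 461 (both (five 3 460 460) (mv 429 (both (mv 396 (both (five 7 396 428) (mv 397 (both (five 7 364 364) (mv 398 (both (five 5 365 366) (five 5 397 430))))))) (both (mv 396 (both (five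 7 396 428) (mv 397 (both (five 7 364 364) (mv 462 (both (five 4 365 365) (five 3 461 497))))))) (both (mv 398 (both (five 5 397 430) (mv 397 (both (five 5 365 366) (mv 462 (both (five 4 365 365) (five 3 461 497))))))) (mv 428 (both (five 7 396 396) (mv 430 (both (five 5 397 398) (mv 462 (both (five 3 461 497) (mv 427 (both (five 0 426 426) (five 0 427 463))))))))))))))))) (both (mv 492 (both (five 0 492 527) (mv 460 (both (five 3 459 459) (mv 428 (both (five 4 396 396) (mv 461 (both (five 3 460 496) (five 7 428 557))))))))) (mv 492 (both (five 0 492 527) (mv 463 (both (five 1 460 464) (mv 462 (both (five 1 459 491) (mv 430 (both (five 6 397 398) (mv 557 (both (five 5 429 461) (five 5 461 589))))))))))))))))))))))) (both (mv 493 (both (mv 494 (both (mv 496 (both (five 2 492 524) (mv 465 (both (five 1 461 464) (mv 497 (both (five 1 462 466) (mv 462 (both (five 3 461 461) (mv 498 (both (five 3 462 463) (mv 499 (both (five 2 495 527) (mv 531 (both (five 0 495 530) (five 0 496 532))))))))))))))) (both (mv 492 (both (five 0 492 527) (mv 463 (both (five 1 460 464) (mv 462 (both (five 1 459 491) (mv 430 (both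 (five 6 397 398) (mv 557 (both (five 5 429 461) (five 5 461 589))))))))))) (mv 524 (both (five 2 492 496) (mv 523 (both (five 2 491 492) (five 1 490 522)))))))) (both (ref 5) (both (ref 4) (both (mv 557 (both (mv 589 (both (mv 620 (both (five 6 492 588) (mv 621 (both (five 6 524 652) (mv 622 (both (five 4 493 590) (five 4 525 654))))))) (both (mv 492 (both (five 7 460 460) (mv 620 (both (five 6 492 588) (mv 621 (both (five 7 492 524) (five 6 524 652))))))) (mv 460 (both (five 7 460 492) (mv 461 (both (five 7 428 428) (mv 590 (both (five 4 461 558) (five 4 493 622)))))))))) (both (mv 589 (both (mv 620 (both (five 6 492 588) (mv 621 (both (five 6 524 652) (mv 622 (both (five 4 493 590) (five 4 525 654))))))) (both (mv 492 (both (five 7 460 460) (mv 621 (both (five 7 492 524) (mv 622 (both (five 4 493 590) (five 4 525 654))))))) (both (mv 492 (both (five 7 460 460) (mv 620 (both (five 6 492 588) (mv 621 (both (five 7 492 524) (five 6 524 652))))))) (mv 492 (both (five 7 460 460) (mv 494 (both (five 5 461 462) (mv 463 (both (five 1 460 464) (mv 523 (both (five 2 491 524) (mv 491 (both (five 2 490 522) (mv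 458 (both (five 3 458 459) (mv 490 (both (five 3 457 457) (mv 555 (both (five 7 458 587) (mv 588 (both (five 6 492 620) (mv 590 (both (five 4 493 622) (mv 556 (both (five 0 554 554) (five 3 555 591))))))))))))))))))))))))))) (both (mv 461 (both (mv 428 (both (five 7 428 460) (mv 429 (both (five 7 396 396) (mv 430 (both (five 5 429 462) (five 5 397 398))))))) (both (mv 556 (both (five 6 460 588) (mv 429 (both (five 6 428 524) (mv 430 (both (five 5 429 462) (five 5 397 398))))))) (both (mv 556 (both (five 6 460 588) (mv 428 (both (five 7 428 460) (mv 429 (both (five 6 428 524) (five 7 396 396))))))) (mv 588 (both (five 6 460 556) (mv 460 (both (five 7 428 428) (mv 462 (both (five 5 429 430) (mv 459 (both (five 0 459 494) (mv 490 (both (five 2 458 491) (mv 458 (both (five 2 457 489) (mv 426 (both (five 3 425 425) (five 3 426 427))))))))))))))))))) (both (mv 589 (both (mv 620 (both (five 6 492 588) (mv 621 (both (five 6 524 652) (mv 622 (both (five 4 493 590) (five 4 525 654))))))) (both (mv 462 (both (five 5 461 494) (mv 461 (both (five 5 429 430) (mv 588 (both (five 6 460 556) (five 6 492 620))))))) (mv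 462 (both (five 5 461 494) (mv 461 (both (five 5 429 430) (mv 590 (both (five 4 461 558) (five 4 493 622)))))))))) (mv 461 (both (mv 462 (both (five 5 429 430) (mv 589 (both (five 5 461 494) (mv 590 (both (five 4 461 558) (five 4 493 622))))))) (both (mv 460 (both (five 7 428 428) (mv 589 (both (five 7 460 492) (mv 590 (both (five 4 461 558) (five 4 493 622))))))) (mv 428 (both (five 7 428 460) (mv 429 (both (five 7 396 396) (mv 430 (both (five 5 397 398) (five 5 429 462))))))))))))))) (both (mv 494 (both (mv 496 (both (five 2 492 524) (mv 463 (both (mv 431 (both (five 4 399 399) (mv 560 (both (five 7 431 464) (five 7 463 592))))) (both (mv 431 (both (five 4 399 399) (mv 560 (both (five 4 431 527) (five 7 463 592))))) (mv 465 (both (five 1 461 464) (mv 497 (both (five 1 462 466) (mv 401 (both (five 6 400 433) (mv 498 (both (five 3 462 462) (mv 499 (both (five 2 495 527) (mv 531 (both (five 0 495 530) (five 0 496 532)))))))))))))))))) (both (mv 492 (both (five 0 492 527) (mv 459 (both (five 3 459 460) (mv 463 (both (five 1 460 464) (mv 491 (both (five 3 458 458) (five 1 459 462))))))))) (mv 524 (both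 (five 2 492 496) (mv 523 (both (five 2 491 492) (five 1 490 522)))))))) (both (mv 494 (both (mv 492 (both (five 0 492 527) (mv 459 (both (five 3 459 460) (mv 463 (both (five 1 460 464) (mv 491 (both (five 3 458 458) (five 1 459 462))))))))) (both (mv 496 (both (mv 461 (both (five 3 460 460) (mv 462 (both (five 3 461 497) (mv 430 (both (five 6 397 398) (five 5 429 557))))))) (mv 560 (both (mv 464 (both (five 1 461 465) (mv 431 (both (five 7 431 463) (mv 432 (both (five 7 399 399) (mv 400 (both (five 6 399 527) (mv 401 (both (five 5 368 369) (five 5 400 433))))))))))) (both (mv 592 (both (mv 624 (both (five 7 495 527) (mv 625 (both (five 4 496 593) (five 4 528 657))))) (both (mv 623 (both (five 6 495 591) (mv 624 (both (five 6 527 655) (mv 625 (both (five 4 496 593) (five 4 528 657))))))) (both (mv 591 (both (five 6 495 623) (mv 593 (both (five 4 496 625) (mv 464 (both (five 4 464 561) (mv 433 (both (five 5 432 465) (mv 432 (both (five 5 400 401) (mv 399 (both (five 7 399 431) (mv 400 (both (five 7 367 367) (five 6 399 527))))))))))))))) (mv 623 (both (five 6 495 591) (mv 624 (both (five 7 495 527) (five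 6 527 655))))))))) (mv 592 (both (five 7 463 463) (mv 623 (both (five 6 495 591) (mv 624 (both (five 6 527 655) (mv 625 (both (five 4 496 593) (five 4 528 657)))))))))))))) (both (mv 496 (both (mv 464 (both (five 1 461 465) (mv 463 (both (five 1 460 492) (mv 431 (both (five 4 399 399) (five 7 431 560))))))) (mv 461 (both (five 3 460 460) (mv 462 (both (five 3 461 497) (mv 430 (both (five 6 397 398) (five 5 429 557))))))))) (both (mv 492 (both (five 0 492 527) (mv 460 (both (five 3 459 459) (mv 428 (both (five 4 396 396) (mv 461 (both (five 3 460 496) (five 7 428 557))))))))) (mv 492 (both (five 0 492 527) (mv 463 (both (five 1 460 464) (mv 462 (both (five 1 459 491) (mv 430 (both (five 6 397 398) (mv 557 (both (five 5 429 461) (five 5 461 589)))))))))))))))) (both (mv 461 (both (mv 557 (both (mv 588 (both (five 6 460 556) (mv 589 (both (five 6 492 620) (mv 590 (both (five 4 461 558) (five 4 493 622))))))) (both (mv 462 (both (five 5 429 430) (mv 589 (both (five 5 461 494) (mv 590 (both (five 4 461 558) (five 4 493 622))))))) (mv 430 (both (five 5 429 462) (mv 429 (both (five 5 397 398) (mv 556 (both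 (five 6 428 524) (five 6 460 588)))))))))) (both (mv 429 (both (mv 396 (both (five 7 396 428) (mv 397 (both (five 7 364 364) (mv 398 (both (five 5 365 366) (five 5 397 430))))))) (both (mv 396 (both (five 7 396 428) (mv 397 (both (five 7 364 364) (mv 524 (both (five 6 396 492) (five 6 428 556))))))) (both (mv 398 (both (five 5 397 430) (mv 397 (both (five 5 365 366) (mv 524 (both (five 6 396 492) (five 6 428 556))))))) (mv 396 (both (five 7 396 428) (mv 398 (both (five 5 397 430) (mv 524 (both (five 6 428 556) (mv 494 (both (five 2 492 496) (mv 523 (both (five 2 491 492) (five 1 490 522))))))))))))))) (both (mv 557 (both (mv 462 (both (five 5 429 430) (mv 589 (both (five 5 461 494) (mv 590 (both (five 4 461 558) (five 4 493 622))))))) (both (mv 460 (both (five 7 428 428) (mv 588 (both (five 6 460 556) (mv 589 (both (five 7 460 492) (five 6 492 620))))))) (mv 430 (both (five 5 429 462) (mv 460 (both (five 7 428 428) (mv 494 (both (five 3 460 496) (mv 459 (both (five 0 458 458) (five 3 459 492)))))))))))) (both (mv 557 (both (mv 588 (both (five 6 460 556) (mv 589 (both (five 6 492 620) (mv 590 (both (five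 4 461 558) (five 4 493 622))))))) (both (mv 460 (both (five 7 428 428) (mv 589 (both (five 7 460 492) (mv 590 (both (five 4 461 558) (five 4 493 622))))))) (mv 428 (both (five 7 428 460) (mv 429 (both (five 7 396 396) (mv 556 (both (five 6 428 524) (five 6 460 588)))))))))) (mv 557 (both (mv 462 (both (five 5 429 430) (mv 589 (both (five 5 461 494) (mv 590 (both (five 4 461 558) (five 4 493 622))))))) (both (mv 460 (both (five 7 428 428) (mv 589 (both (five 7 460 492) (mv 590 (both (five 4 461 558) (five 4 493 622))))))) (mv 428 (both (five 7 428 460) (mv 429 (both (five 7 396 396) (mv 430 (both (five 5 397 398) (five 5 429 462))))))))))))))) (ref 6))))))))) (both (mv 493 (both (ref 5) (both (ref 4) (both (mv 557 (both (mv 589 (both (mv 620 (both (five 6 492 588) (mv 621 (both (five 6 524 652) (mv 622 (both (five 4 493 590) (five 4 525 654))))))) (mv 492 (both (five 7 460 460) (mv 494 (both (five 5 461 462) (five 0 492 527))))))) (both (mv 461 (both (mv 428 (both (five 7 428 460) (mv 429 (both (five 7 396 396) (mv 430 (both (five 5 397 398) (five 5 429 462))))))) (mv 556 (both (five 6 460 588) (mv 558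 (both (five 4 461 590) (mv 559 (both (five 1 524 527) (mv 524 (both (five 3 523 523) (five 3 524 560))))))))))) (both (mv 589 (both (mv 620 (both (five 6 492 588) (mv 621 (both (five 6 524 652) (mv 622 (both (five 4 493 590) (five 4 525 654))))))) (both (mv 462 (both (five 5 461 494) (mv 430 (both (five 5 429 461) (mv 620 (both (five 6 492 588) (mv 621 (both (five 6 524 652) (mv 654 (both (five 4 525 622) (mv 653 (both (five 4 557 686) (mv 524 (both (five 7 524 556) (five 7 492 492))))))))))))))) (both (mv 462 (both (five 5 461 494) (mv 461 (both (five 5 429 430) (mv 590 (both (five 4 461 558) (five 4 493 622))))))) (mv 462 (both (five 5 461 494) (mv 461 (both (five 5 429 430) (mv 556 (both (five 6 460 588) (mv 558 (both (five 4 461 590) (mv 559 (both (five 1 524 527) (mv 524 (both (five 3 523 523) (five 3 524 560))))))))))))))))) (both (mv 589 (both (mv 620 (both (five 6 492 588) (mv 621 (both (five 6 524 652) (mv 622 (both (five 4 493 590) (five 4 525 654))))))) (both (mv 492 (both (five 7 460 460) (mv 620 (both (five 6 492 588) (mv 621 (both (five 7 492 524) (five 6 524 652))))))) (mv 460 (both (five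 7 460 492) (mv 461 (both (five 7 428 428) (mv 590 (both (five 4 461 558) (five 4 493 622)))))))))) (both (mv 461 (both (mv 462 (both (five 5 429 430) (mv 589 (both (five 5 461 494) (mv 590 (both (five 4 461 558) (five 4 493 622))))))) (both (mv 460 (both (five 7 428 428) (mv 589 (both (five 7 460 492) (mv 590 (both (five 4 461 558) (five 4 493 622))))))) (mv 428 (both (five 7 428 460) (mv 429 (both (five 7 396 396) (mv 430 (both (five 5 397 398) (five 5 429 462)))))))))) (mv 461 (both (mv 428 (both (five 7 428 460) (mv 429 (both (five 7 396 396) (mv 430 (both (five 5 397 398) (five 5 429 462))))))) (both (mv 430 (both (five 5 429 462) (mv 429 (both (five 5 397 398) (mv 556 (both (five 6 428 524) (five 6 460 588))))))) (mv 460 (both (five 7 428 428) (mv 588 (both (five 6 460 556) (mv 589 (both (five 7 460 492) (five 6 492 620)))))))))))))))) (both (mv 494 (both (mv 496 (both (five 2 492 524) (mv 463 (both (mv 431 (both (five 4 399 399) (mv 560 (both (five 7 431 464) (five 7 463 592))))) (both (mv 431 (both (five 4 399 399) (mv 560 (both (five 4 431 527) (five 7 463 592))))) (mv 465 (both (five 1 461 464)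 (mv 497 (both (five 1 462 466) (mv 401 (both (five 6 400 433) (mv 498 (both (five 3 462 462) (mv 499 (both (five 2 495 527) (mv 531 (both (five 0 495 530) (five 0 496 532)))))))))))))))))) (both (mv 492 (both (five 0 492 527) (mv 459 (both (five 3 459 460) (mv 463 (both (five 1 460 464) (mv 491 (both (five 3 458 458) (five 1 459 462))))))))) (mv 524 (both (five 2 492 496) (mv 523 (both (five 2 491 492) (five 1 490 522)))))))) (both (mv 461 (both (mv 557 (both (mv 588 (both (five 6 460 556) (mv 589 (both (five 6 492 620) (mv 590 (both (five 4 461 558) (five 4 493 622))))))) (mv 428 (both (five 7 428 460) (mv 429 (both (five 7 396 396) (mv 430 (both (five 5 397 398) (five 5 429 462))))))))) (both (mv 494 (both (mv 492 (both (five 0 492 527) (mv 463 (both (five 1 460 464) (mv 491 (both (five 1 459 462) (mv 458 (both (five 3 458 459) (mv 490 (both (five 3 457 457) (mv 522 (both (five 2 489 521) (five 2 490 523))))))))))))) (both (mv 460 (both (five 3 460 496) (mv 459 (both (five 0 458 458) (five 0 459 462))))) (both (mv 460 (both (five 3 460 496) (mv 492 (both (five 3 459 459) (five 0 492 527))))) (mv 460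 (both (five 3 460 496) (mv 492 (both (five 0 492 527) (mv 396 (both (five 4 396 428) (mv 463 (both (five 1 460 464) (mv 462 (both (five 2 459 491) (mv 398 (both (five 6 397 430) (mv 431 (both (five 1 428 432) (mv 399 (both (five 7 366 366) (five 6 366 367))))))))))))))))))))) (both (mv 557 (both (mv 588 (both (five 6 460 556) (mv 589 (both (five 6 492 620) (mv 590 (both (five 4 461 558) (five 4 493 622))))))) (both (mv 462 (both (five 5 429 430) (mv 494 (both (five 5 461 589) (mv 492 (both (five 0 492 527) (mv 463 (both (five 1 460 464) (five 1 459 491))))))))) (mv 462 (both (five 5 429 430) (mv 556 (both (five 6 460 588) (mv 558 (both (five 4 461 590) (mv 527 (both (five 1 524 559) (mv 492 (both (five 0 492 494) (mv 463 (both (five 2 460 464) (mv 431 (both (five 4 431 560) (mv 399 (both (five 4 399 496) (mv 400 (both (five 5 367 368) (five 5 399 432)))))))))))))))))))))) (mv 557 (both (mv 588 (both (five 6 460 556) (mv 589 (both (five 6 492 620) (mv 590 (both (five 4 461 558) (five 4 493 622))))))) (mv 460 (both (five 7 428 428) (mv 494 (both (five 3 460 496) (mv 492 (both (five 3 459 459) (five 0 492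 527))))))))))))) (both (mv 494 (both (mv 496 (both (five 2 492 524) (mv 465 (both (five 1 461 464) (mv 497 (both (five 1 462 466) (mv 462 (both (five 3 461 461) (mv 498 (both (five 3 462 463) (mv 499 (both (five 2 495 527) (mv 531 (both (five 0 495 530) (five 0 496 532))))))))))))))) (both (mv 492 (both (five 0 492 527) (mv 463 (both (five 1 460 464) (mv 462 (both (five 1 459 491) (mv 430 (both (five 6 397 398) (mv 557 (both (five 5 429 461) (five 5 461 589))))))))))) (mv 524 (both (five 2 492 496) (mv 523 (both (five 2 491 492) (five 1 490 522)))))))) (mv 494 (both (mv 496 (both (five 2 492 524) (mv 560 (both (mv 463 (both (five 7 463 592) (mv 431 (both (five 4 399 399) (five 7 431 464))))) (both (mv 460 (both (five 3 460 461) (mv 463 (both (five 7 463 592) (mv 431 (both (five 4 399 399) (five 4 431 527))))))) (both (mv 460 (both (five 3 460 461) (mv 464 (both (five 1 461 465) (mv 593 (both (five 4 464 561) (mv 592 (both (five 4 496 625) (mv 527 (both (five 7 495 624) (mv 432 (both (five 6 399 400) (five 6 431 559))))))))))))) (mv 464 (both (five 1 461 465) (mv 431 (both (five 7 431 463) (mv 432 (both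 (five 7 399 399) (mv 400 (both (five 6 399 527) (mv 401 (both (five 5 368 369) (five 5 400 433))))))))))))))))) (both (mv 492 (both (five 0 492 527) (mv 459 (both (five 3 459 460) (mv 491 (both (five 3 458 458) (mv 523 (both (five 2 490 522) (five 2 491 524))))))))) (both (mv 492 (both (five 0 492 527) (mv 460 (both (five 3 459 459) (mv 428 (both (five 4 396 396) (mv 461 (both (five 3 460 496) (five 7 428 557))))))))) (mv 524 (both (five 2 492 496) (mv 523 (both (five 2 491 492) (five 1 490 522)))))))))))))))) (both (mv 493 (both (ref 17) (both (ref 18) (both (mv 494 (both (mv 496 (both (five 2 492 524) (mv 560 (both (mv 592 (both (five 7 463 463) (mv 623 (both (five 6 495 591) (mv 624 (both (five 6 527 655) (mv 625 (both (five 4 496 593) (five 4 528 657))))))))) (both (mv 464 (both (five 1 461 465) (mv 463 (both (five 7 431 431) (mv 559 (both (five 6 463 591) (mv 432 (both (five 5 431 527) (mv 400 (both (five 6 367 368) (mv 401 (both (five 5 368 369) (five 5 400 433))))))))))))) (mv 464 (both (five 1 461 465) (mv 593 (both (five 4 464 561) (mv 592 (both (five 4 496 625) (mv 527 (both (five 7 495 624)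 (mv 432 (both (five 6 399 400) (five 6 431 559)))))))))))))))) (both (mv 492 (both (five 0 492 527) (mv 459 (both (five 3 459 460) (mv 463 (both (five 1 460 464) (mv 491 (both (five 3 458 458) (five 1 459 462))))))))) (mv 524 (both (five 2 492 496) (mv 523 (both (five 2 491 492) (five 1 490 522)))))))) (both (mv 461 (both (mv 460 (both (mv 428 (both (five 7 428 557) (mv 396 (both (five 4 364 364) (five 7 396 429))))) (mv 494 (both (five 3 460 496) (mv 459 (both (five 0 458 458) (five 3 459 492))))))) (both (mv 494 (both (mv 460 (both (five 3 460 496) (mv 459 (both (five 0 458 458) (five 0 459 462))))) (both (mv 492 (both (five 0 492 527) (mv 463 (both (five 1 460 464) (mv 491 (both (five 1 459 462) (mv 458 (both (five 3 458 459) (mv 490 (both (five 3 457 457) (mv 522 (both (five 2 489 521) (five 2 490 523))))))))))))) (both (mv 460 (both (five 3 460 496) (mv 492 (both (five 3 459 459) (five 0 492 527))))) (mv 460 (both (five 3 460 496) (mv 492 (both (five 0 492 527) (mv 428 (both (five 4 396 396) (mv 463 (both (five 1 460 464) (mv 462 (both (five 3 427 427) (five 2 459 491))))))))))))))) (both (mv 557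 (both (mv 588 (both (five 6 460 556) (mv 589 (both (five 6 492 620) (mv 590 (both (five 4 461 558) (five 4 493 622))))))) (mv 428 (both (five 7 428 460) (mv 429 (both (five 7 396 396) (mv 430 (both (five 5 397 398) (five 5 429 462))))))))) (mv 557 (both (mv 588 (both (five 6 460 556) (mv 589 (both (five 6 492 620) (mv 590 (both (five 4 461 558) (five 4 493 622))))))) (both (mv 462 (both (five 5 429 430) (mv 494 (both (five 5 461 589) (mv 492 (both (five 0 492 527) (mv 463 (both (five 1 460 464) (five 1 459 491))))))))) (mv 462 (both (five 5 429 430) (mv 556 (both (five 6 460 588) (mv 558 (both (five 4 461 590) (mv 527 (both (five 1 524 559) (mv 494 (both (five 0 492 492) (mv 496 (both (five 3 461 497) (mv 464 (both (five 1 461 465) (mv 432 (both (five 6 399 400) (mv 433 (both (five 5 400 401) (five 1 429 463)))))))))))))))))))))))))) (both (mv 461 (both (mv 557 (both (mv 588 (both (five 6 460 556) (mv 589 (both (five 6 492 620) (mv 590 (both (five 4 461 558) (five 4 493 622))))))) (both (mv 462 (both (five 5 429 430) (mv 589 (both (five 5 461 494) (mv 590 (both (five 4 461 558) (five 4 493 622)))))))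 (mv 430 (both (five 5 429 462) (mv 429 (both (five 5 397 398) (mv 556 (both (five 6 428 524) (five 6 460 588)))))))))) (both (mv 429 (both (mv 396 (both (five 7 396 428) (mv 397 (both (five 7 364 364) (mv 398 (both (five 5 365 366) (five 5 397 430))))))) (both (mv 396 (both (five 7 396 428) (mv 397 (both (five 7 364 364) (mv 524 (both (five 6 396 492) (five 6 428 556))))))) (both (mv 398 (both (five 5 397 430) (mv 397 (both (five 5 365 366) (mv 524 (both (five 6 396 492) (five 6 428 556))))))) (mv 396 (both (five 7 396 428) (mv 398 (both (five 5 397 430) (mv 524 (both (five 6 428 556) (mv 494 (both (five 2 492 496) (mv 523 (both (five 2 491 492) (five 1 490 522))))))))))))))) (both (mv 557 (both (mv 462 (both (five 5 429 430) (mv 589 (both (five 5 461 494) (mv 590 (both (five 4 461 558) (five 4 493 622))))))) (both (mv 460 (both (five 7 428 428) (mv 588 (both (five 6 460 556) (mv 589 (both (five 7 460 492) (five 6 492 620))))))) (mv 430 (both (five 5 429 462) (mv 460 (both (five 7 428 428) (mv 494 (both (five 3 460 496) (mv 459 (both (five 0 458 458) (five 3 459 492)))))))))))) (both (mv 557 (both (mv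 588 (both (five 6 460 556) (mv 589 (both (five 6 492 620) (mv 590 (both (five 4 461 558) (five 4 493 622))))))) (both (mv 460 (both (five 7 428 428) (mv 589 (both (five 7 460 492) (mv 590 (both (five 4 461 558) (five 4 493 622))))))) (mv 428 (both (five 7 428 460) (mv 429 (both (five 7 396 396) (mv 556 (both (five 6 428 524) (five 6 460 588)))))))))) (mv 557 (both (mv 462 (both (five 5 429 430) (mv 589 (both (five 5 461 494) (mv 590 (both (five 4 461 558) (five 4 493 622))))))) (both (mv 460 (both (five 7 428 428) (mv 589 (both (five 7 460 492) (mv 590 (both (five 4 461 558) (five 4 493 622))))))) (mv 428 (both (five 7 428 460) (mv 429 (both (five 7 396 396) (mv 430 (both (five 5 397 398) (five 5 429 462))))))))))))))) (both (mv 494 (both (mv 496 (both (five 2 492 524) (mv 465 (both (five 1 461 464) (mv 497 (both (five 1 462 466) (mv 462 (both (five 3 461 461) (mv 498 (both (five 3 462 463) (mv 499 (both (five 2 495 527) (mv 531 (both (five 0 495 530) (five 0 496 532))))))))))))))) (both (mv 492 (both (five 0 492 527) (mv 463 (both (five 1 460 464) (mv 462 (both (five 1 459 491) (mv 430 (both (five 6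 397 398) (mv 557 (both (five 5 429 461) (five 5 461 589))))))))))) (mv 524 (both (five 2 492 496) (mv 523 (both (five 2 491 492) (five 1 490 522)))))))) (both (ref 19) (mv 494 (both (mv 492 (both (five 0 492 527) (mv 459 (both (five 3 459 460) (mv 463 (both (five 1 460 464) (mv 491 (both (five 3 458 458) (five 1 459 462))))))))) (both (mv 496 (both (five 2 492 524) (mv 461 (both (five 3 460 460) (mv 429 (both (mv 396 (both (five 7 396 428) (mv 397 (both (five 7 364 364) (mv 398 (both (five 5 365 366) (five 5 397 430))))))) (both (mv 396 (both (five 7 396 428) (mv 397 (both (five 7 364 364) (mv 462 (both (five 4 365 365) (five 3 461 497))))))) (both (mv 398 (both (five 5 397 430) (mv 397 (both (five 5 365 366) (mv 462 (both (five 4 365 365) (five 3 461 497))))))) (mv 428 (both (five 7 396 396) (mv 430 (both (five 5 397 398) (mv 462 (both (five 3 461 497) (mv 427 (both (five 0 426 426) (five 0 427 463))))))))))))))))) (both (mv 492 (both (five 0 492 527) (mv 460 (both (five 3 459 459) (mv 428 (both (five 4 396 396) (mv 461 (both (five 3 460 496) (five 7 428 557))))))))) (mv 492 (both (five 0 492 527) (mv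 463 (both (five 1 460 464) (mv 462 (both (five 1 459 491) (mv 430 (both (five 6 397 398) (mv 557 (both (five 5 429 461) (five 5 461 589))))))))))))))))))))))) (both (mv 493 (both (mv 557 (both (mv 589 (both (mv 620 (both (five 6 492 588) (mv 621 (both (five 6 524 652) (mv 622 (both (five 4 493 590) (five 4 525 654))))))) (both (mv 492 (both (five 7 460 460) (mv 620 (both (five 6 492 588) (mv 621 (both (five 7 492 524) (five 6 524 652))))))) (mv 460 (both (five 7 460 492) (mv 461 (both (five 7 428 428) (mv 590 (both (five 4 461 558) (five 4 493 622)))))))))) (both (mv 558 (both (mv 461 (both (five 4 461 590) (mv 428 (both (five 7 428 460) (mv 429 (both (five 7 396 396) (mv 556 (both (five 6 428 524) (five 6 460 588))))))))) (both (mv 559 (both (mv 524 (both (five 3 524 560) (mv 523 (both (five 0 522 522) (five 3 523 556))))) (both (mv 560 (both (five 3 524 524) (mv 592 (both (five 0 557 593) (mv 527 (both (five 4 463 463) (five 7 495 624))))))) (mv 527 (both (five 1 524 556) (mv 590 (both (five 6 462 463) (mv 622 (both (five 5 526 654) (five 6 494 591)))))))))) (both (mv 556 (both (mv 559 (both (five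 1 524 527) (mv 524 (both (five 3 523 523) (five 3 524 560))))) (both (mv 461 (both (five 6 460 588) (mv 428 (both (five 7 428 460) (mv 429 (both (five 7 396 396) (five 6 428 524))))))) (mv 559 (both (five 1 524 527) (mv 588 (both (five 6 460 461) (five 2 555 587)))))))) (both (mv 559 (both (mv 590 (both (five 4 461 461) (mv 527 (both (five 6 462 463) (mv 622 (both (five 6 494 591) (five 7 525 654))))))) (both (mv 560 (both (five 3 524 524) (mv 592 (both (five 0 557 593) (mv 496 (both (five 7 463 463) (mv 591 (both (five 6 463 464) (five 6 495 623))))))))) (mv 560 (both (five 3 524 524) (mv 592 (both (five 0 557 593) (mv 624 (both (five 7 495 527) (mv 655 (both (five 6 527 623) (mv 656 (both (five 6 559 687) (mv 657 (both (five 4 560 689) (five 4 528 625)))))))))))))))) (mv 556 (both (mv 559 (both (five 1 524 527) (mv 588 (both (five 6 460 461) (five 2 555 587))))) (both (mv 559 (both (five 1 524 527) (mv 587 (both (five 2 555 588) (mv 591 (both (five 0 556 592) (mv 555 (both (five 2 554 586) (five 0 555 590))))))))) (both (mv 461 (both (five 6 460 588) (five 4 461 590))) (mv 527 (both (five 1 524 559)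 (mv 590 (both (five 4 461 461) (mv 555 (both (five 0 555 591) (mv 522 (both (five 3 522 523) (mv 554 (both (five 3 521 521) (mv 586 (both (five 2 553 585) (five 2 554 587)))))))))))))))))))))) (both (mv 589 (both (mv 620 (both (five 6 492 588) (mv 621 (both (five 6 524 652) (mv 622 (both (five 4 493 590) (five 4 525 654))))))) (both (mv 492 (both (five 7 460 460) (mv 621 (both (five 7 492 524) (mv 622 (both (five 4 493 590) (five 4 525 654))))))) (both (mv 492 (both (five 7 460 460) (mv 620 (both (five 6 492 588) (mv 621 (both (five 7 492 524) (five 6 524 652))))))) (mv 588 (both (five 6 492 620) (mv 558 (both (mv 559 (both (five 2 556 560) (mv 556 (both (five 2 555 587) (five 1 524 527))))) (both (mv 460 (both (five 7 460 492) (mv 587 (both (five 1 554 586) (mv 590 (both (five 4 493 622) (mv 555 (both (five 3 554 554) (mv 556 (both (five 0 555 591) (mv 522 (both (five 3 522 523) (mv 619 (both (five 2 586 618) (mv 651 (both (five 5 523 524) (five 5 555 683))))))))))))))))) (both (mv 590 (both (five 4 493 622) (mv 559 (both (five 2 556 560) (mv 556 (both (five 1 524 527) (mv 591 (both (five 0 556 592)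 (five 0 555 555))))))))) (mv 559 (both (five 2 556 560) (mv 587 (both (five 1 554 586) (five 1 555 590))))))))))))))) (both (mv 560 (both (mv 558 (both (mv 590 (both (five 4 461 461) (mv 622 (both (five 4 493 589) (five 7 525 654))))) (mv 559 (both (five 3 524 524) (mv 527 (both (five 1 524 556) (mv 463 (both (five 4 431 431) (mv 464 (both (five 5 431 432) (mv 496 (both (five 5 463 591) (mv 465 (both (five 5 432 433) (mv 466 (both (five 2 463 467) (mv 434 (both (five 1 431 435) (mv 498 (both (five 0 463 499) (mv 561 (both (five 4 464 593) (mv 562 (both (five 3 527 563) (mv 530 (both (five 1 527 531) (mv 594 (both (five 7 465 497) (five 0 559 595))))))))))))))))))))))))))))) (both (mv 558 (both (mv 559 (both (five 3 524 524) (mv 527 (both (five 1 524 556) (mv 592 (both (five 7 495 624) (five 4 463 463))))))) (mv 590 (both (five 4 461 461) (mv 622 (both (five 4 493 589) (five 7 525 654))))))) (both (mv 558 (both (mv 590 (both (five 4 461 461) (mv 622 (both (five 4 493 589) (five 7 525 654))))) (mv 559 (both (five 3 524 524) (mv 592 (both (five 0 557 593) (mv 591 (both (five 0 556 556) (mv 623 (both (five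 5 527 655) (five 6 495 496))))))))))) (mv 592 (both (mv 463 (both (five 7 463 496) (mv 527 (both (five 4 431 431) (five 7 495 624))))) (both (mv 624 (both (five 7 495 527) (mv 655 (both (five 6 527 623) (mv 656 (both (five 6 559 687) (mv 657 (both (five 4 560 689) (five 4 528 625))))))))) (mv 496 (both (five 7 463 463) (mv 465 (both (five 5 464 497) (mv 464 (both (five 5 432 433) (mv 593 (both (five 4 464 561) (five 4 496 625)))))))))))))))) (both (mv 589 (both (mv 492 (both (five 7 460 460) (mv 621 (both (five 7 492 524) (mv 652 (both (five 6 524 620) (mv 653 (both (five 6 556 684) (mv 654 (both (five 4 525 622) (five 4 557 686))))))))))) (both (mv 621 (both (mv 620 (both (five 6 492 588) (five 6 524 652))) (both (mv 654 (both (five 4 525 622) (mv 653 (both (five 4 557 686) (mv 556 (both (five 7 524 524) (mv 588 (both (five 6 460 461) (five 7 556 685))))))))) (mv 652 (both (five 6 524 620) (mv 653 (both (five 6 556 684) (mv 654 (both (five 4 525 622) (five 4 557 686)))))))))) (both (mv 461 (both (mv 460 (both (five 7 428 428) (five 7 460 492))) (both (mv 556 (both (five 6 460 588) (mv 524 (both (five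 6 428 429) (mv 621 (both (five 7 524 653) (five 7 492 492))))))) (mv 428 (both (five 7 428 460) (mv 429 (both (five 7 396 396) (mv 556 (both (five 6 428 524) (five 6 460 588)))))))))) (mv 460 (both (five 7 460 492) (mv 461 (both (five 7 428 428) (mv 588 (both (five 6 460 556) (five 6 492 620))))))))))) (both (mv 589 (both (mv 620 (both (five 6 492 588) (mv 621 (both (five 6 524 652) (mv 622 (both (five 4 493 590) (five 4 525 654))))))) (both (mv 460 (both (five 7 460 492) (mv 461 (both (five 7 428 428) (mv 588 (both (five 6 460 556) (five 6 492 620))))))) (mv 460 (both (five 7 460 492) (mv 461 (both (five 7 428 428) (mv 590 (both (five 4 461 558) (five 4 493 622)))))))))) (mv 461 (both (mv 460 (both (five 7 428 428) (mv 588 (both (five 6 460 556) (mv 589 (both (five 7 460 492) (five 6 492 620))))))) (both (mv 460 (both (five 7 428 428) (mv 463 (both (mv 560 (both (mv 431 (both (five 4 431 527) (mv 496 (both (five 4 399 399) (five 7 431 464))))) (both (mv 527 (both (five 4 431 431) (mv 592 (both (five 4 463 559) (five 7 495 624))))) (both (mv 496 (both (five 7 463 592) (mv 431 (both (five 4 399 399) (five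 7 431 464))))) (mv 592 (both (five 7 463 496) (mv 527 (both (five 4 463 559) (five 7 495 624))))))))) (both (mv 492 (both (five 7 460 589) (mv 462 (both (five 2 460 464) (five 2 459 491))))) (mv 496 (both (five 0 460 462) (mv 431 (both (five 4 399 399) (mv 560 (both (five 4 431 527) (five 7 463 592)))))))))))) (mv 556 (both (five 6 460 588) (mv 558 (both (five 4 461 590) (mv 559 (both (five 1 524 527) (mv 524 (both (five 3 523 523) (five 3 524 560))))))))))))))))))) (both (ref 20) (both (ref 21) (both (ref 22) (both (mv 557 (both (mv 461 (both (mv 556 (both (five 6 460 588) (mv 428 (both (five 7 428 460) (mv 429 (both (five 6 428 524) (five 7 396 396))))))) (both (mv 556 (both (five 6 460 588) (mv 524 (both (five 6 428 429) (mv 494 (both (five 2 492 496) (mv 523 (both (five 1 490 522) (five 2 491 492))))))))) (mv 460 (both (five 7 428 428) (mv 494 (both (five 3 460 496) (mv 459 (both (five 3 459 492) (five 0 458 458)))))))))) (both (mv 589 (both (mv 620 (both (five 6 492 588) (mv 621 (both (five 6 524 652) (mv 622 (both (five 4 493 590) (five 4 525 654))))))) (mv 494 (both (five 5 461 462) (mv 524 (both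 (five 2 492 496) (mv 523 (both (five 2 491 492) (five 1 490 522))))))))) (both (mv 589 (both (mv 620 (both (five 6 492 588) (mv 621 (both (five 6 524 652) (mv 622 (both (five 4 493 590) (five 4 525 654))))))) (both (mv 460 (both (five 7 460 492) (mv 461 (both (five 7 428 428) (mv 588 (both (five 6 460 556) (five 6 492 620))))))) (mv 460 (both (five 7 460 492) (mv 461 (both (five 7 428 428) (mv 590 (both (five 4 461 558) (five 4 493 622)))))))))) (both (mv 589 (both (mv 620 (both (five 6 492 588) (mv 621 (both (five 6 524 652) (mv 622 (both (five 4 525 654) (five 4 493 590))))))) (both (mv 620 (both (five 6 492 588) (mv 621 (both (five 6 524 652) (mv 654 (both (five 4 525 622) (mv 653 (both (five 4 557 686) (mv 524 (both (five 7 524 556) (mv 494 (both (five 2 492 496) (five 5 461 462))))))))))))) (both (mv 621 (both (mv 622 (both (five 4 525 654) (five 4 493 590))) (both (mv 494 (both (five 5 461 462) (mv 524 (both (five 2 492 496) (mv 653 (both (five 7 524 556) (mv 684 (both (five 6 556 652) (mv 685 (both (five 6 588 716) (mv 686 (both (five 4 589 718) (five 4 557 654))))))))))))) (mv 590 (both (five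 4 493 622) (mv 494 (both (five 5 461 462) (mv 524 (both (five 2 492 496) (mv 653 (both (five 7 524 556) (mv 684 (both (five 6 556 652) (mv 685 (both (five 6 588 716) (five 5 557 558)))))))))))))))) (both (mv 558 (both (mv 494 (both (five 5 461 462) (mv 524 (both (five 2 492 496) (mv 559 (both (five 3 524 560) (mv 523 (both (five 3 523 556) (five 0 522 522))))))))) (both (mv 588 (both (five 6 492 620) (mv 587 (both (five 1 554 586) (mv 559 (both (five 1 555 590) (five 2 556 560))))))) (mv 620 (both (five 6 492 588) (mv 621 (both (five 6 524 652) (mv 494 (both (five 5 461 462) (mv 524 (both (five 2 492 496) (mv 653 (both (five 7 524 556) (mv 685 (both (five 5 557 590) (mv 686 (both (five 4 589 718) (five 4 557 654)))))))))))))))))) (mv 558 (both (mv 588 (both (five 6 492 620) (mv 587 (both (five 1 554 586) (mv 559 (both (five 1 555 590) (five 2 556 560))))))) (both (mv 494 (both (five 5 461 462) (mv 524 (both (five 2 492 496) (mv 559 (both (five 3 524 560) (mv 523 (both (five 3 523 556) (five 0 522 522))))))))) (both (mv 588 (both (five 6 492 620) (mv 587 (both (five 1 554 586) (mv 590 (both (five 4 493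 622) (mv 618 (both (five 2 586 619) (mv 555 (both (five 3 554 554) (mv 591 (both (five 3 555 556) (mv 623 (both (five 0 588 624) (mv 687 (both (five 7 558 655) (mv 592 (both (five 3 557 593) (mv 560 (both (five 1 557 561) (five 6 495 496))))))))))))))))))))) (mv 620 (both (five 6 492 588) (mv 590 (both (five 4 493 622) (mv 494 (both (five 5 461 462) (mv 524 (both (five 2 492 496) (mv 523 (both (five 0 522 522) (mv 556 (both (five 3 523 559) (mv 555 (both (five 0 555 591) (five 0 554 554)))))))))))))))))))))))) (mv 589 (both (mv 460 (both (five 7 460 492) (mv 461 (both (five 7 428 428) (mv 590 (both (five 4 461 558) (five 4 493 622))))))) (both (mv 494 (both (five 5 461 462) (mv 524 (both (five 2 492 496) (mv 522 (both (five 1 490 523) (mv 622 (both (five 4 493 590) (mv 621 (both (five 4 525 654) (mv 652 (both (five 6 524 620) (mv 653 (both (five 7 524 556) (five 6 556 684))))))))))))))) (mv 494 (both (five 5 461 462) (mv 524 (both (five 2 492 496) (mv 523 (both (five 2 491 492) (five 1 490 522))))))))))))))) (both (mv 494 (both (mv 496 (both (five 2 492 524) (mv 463 (both (mv 431 (both (five 4 399 399)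 (mv 560 (both (five 7 431 464) (five 7 463 592))))) (both (mv 431 (both (five 4 399 399) (mv 560 (both (five 4 431 527) (five 7 463 592))))) (mv 465 (both (five 1 461 464) (mv 497 (both (five 1 462 466) (mv 401 (both (five 6 400 433) (mv 498 (both (five 3 462 462) (mv 499 (both (five 2 495 527) (mv 531 (both (five 0 495 530) (five 0 496 532)))))))))))))))))) (both (mv 492 (both (five 0 492 527) (mv 459 (both (five 3 459 460) (mv 463 (both (five 1 460 464) (mv 491 (both (five 3 458 458) (five 1 459 462))))))))) (mv 524 (both (five 2 492 496) (mv 523 (both (five 2 491 492) (five 1 490 522)))))))) (both (mv 494 (both (mv 496 (both (five 2 492 524) (mv 465 (both (five 1 461 464) (mv 497 (both (five 1 462 466) (mv 462 (both (five 3 461 461) (mv 498 (both (five 3 462 463) (mv 499 (both (five 2 495 527) (mv 531 (both (five 0 495 530) (five 0 496 532))))))))))))))) (both (mv 492 (both (five 0 492 527) (mv 463 (both (five 1 460 464) (mv 491 (both (five 1 459 462) (mv 458 (both (five 3 458 459) (mv 490 (both (five 3 457 457) (mv 522 (both (five 2 489 521) (five 2 490 523))))))))))))) (mv 524 (both (five 2 492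 496) (mv 523 (both (five 2 491 492) (five 1 490 522)))))))) (mv 494 (both (mv 496 (both (five 2 492 524) (mv 464 (both (five 1 461 465) (mv 432 (both (mv 527 (both (five 6 399 400) (five 6 431 559))) (both (mv 399 (both (five 7 399 431) (mv 400 (both (five 7 367 367) (mv 401 (both (five 5 368 369) (five 5 400 433))))))) (mv 401 (both (five 5 400 433) (mv 431 (both (five 7 399 399) (mv 460 (both (five 3 460 461) (mv 559 (both (five 6 431 527) (mv 560 (both (five 7 431 463) (five 6 463 591)))))))))))))))))) (both (mv 492 (both (five 0 492 527) (mv 459 (both (five 3 459 460) (mv 491 (both (five 3 458 458) (mv 523 (both (five 2 490 522) (five 2 491 524))))))))) (both (mv 492 (both (five 0 492 527) (mv 460 (both (five 3 459 459) (mv 428 (both (five 4 396 396) (mv 461 (both (five 3 460 496) (five 7 428 557))))))))) (mv 524 (both (five 2 492 496) (mv 523 (both (five 2 491 492) (five 1 490 522))))))))))))))))) (both (mv 493 (both (mv 494 (both (mv 496 (both (five 2 492 524) (mv 465 (both (five 1 461 464) (mv 497 (both (five 1 462 466) (mv 462 (both (five 3 461 461) (mv 498 (both (five 3 462 463) (mv 499 (both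 (five 2 495 527) (mv 531 (both (five 0 495 530) (five 0 496 532))))))))))))))) (both (mv 492 (both (five 0 492 527) (mv 463 (both (five 1 460 464) (mv 462 (both (five 1 459 491) (mv 430 (both (five 6 397 398) (mv 557 (both (five 5 429 461) (five 5 461 589))))))))))) (mv 524 (both (five 2 492 496) (mv 523 (both (five 2 491 492) (five 1 490 522)))))))) (both (ref 17) (both (mv 557 (both (mv 589 (both (mv 620 (both (five 6 492 588) (mv 621 (both (five 6 524 652) (mv 622 (both (five 4 493 590) (five 4 525 654))))))) (both (mv 494 (both (five 5 461 462) (mv 524 (both (five 2 492 496) (mv 522 (both (five 1 490 523) (mv 622 (both (five 4 493 590) (mv 621 (both (five 4 525 654) (mv 652 (both (five 6 524 620) (mv 653 (both (five 7 524 556) (five 6 556 684))))))))))))))) (both (mv 620 (both (five 6 492 588) (mv 621 (both (five 6 524 652) (mv 654 (both (five 4 525 622) (mv 653 (both (five 4 557 686) (mv 524 (both (five 7 524 556) (mv 494 (both (five 2 492 496) (five 5 461 462))))))))))))) (both (mv 590 (both (five 4 493 622) (mv 494 (both (five 5 461 462) (mv 496 (both (five 2 492 524) (mv 465 (both (five 1 461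 464) (mv 497 (both (five 1 462 466) (mv 592 (both (five 5 464 560) (mv 591 (both (five 3 556 556) (mv 624 (both (five 0 589 625) (mv 588 (both (five 0 588 623) (mv 558 (both (five 3 557 593) (mv 587 (both (five 1 554 586) (five 1 555 559))))))))))))))))))))))) (mv 588 (both (five 6 492 620) (mv 494 (both (five 5 461 462) (mv 496 (both (five 2 492 524) (mv 465 (both (five 1 461 464) (mv 497 (both (five 1 462 466) (mv 560 (both (five 5 464 592) (mv 559 (both (five 2 556 558) (mv 591 (both (five 1 556 590) (mv 623 (both (five 5 527 655) (five 5 495 527)))))))))))))))))))))))) (both (mv 461 (both (mv 428 (both (five 7 428 460) (mv 429 (both (five 7 396 396) (mv 430 (both (five 5 397 398) (five 5 429 462))))))) (mv 556 (both (five 6 460 588) (mv 558 (both (five 4 461 590) (mv 559 (both (five 1 524 527) (mv 524 (both (five 3 523 523) (five 3 524 560))))))))))) (both (mv 589 (both (mv 620 (both (five 6 492 588) (mv 621 (both (five 6 524 652) (mv 622 (both (five 4 493 590) (five 4 525 654))))))) (both (mv 621 (both (mv 620 (both (five 6 492 588) (five 6 524 652))) (both (mv 654 (both (five 4 525 622) (mv 653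 (both (five 4 557 686) (mv 556 (both (five 7 524 524) (mv 588 (both (five 6 460 461) (five 7 556 685))))))))) (mv 652 (both (five 6 524 620) (mv 653 (both (five 6 556 684) (mv 654 (both (five 4 525 622) (five 4 557 686)))))))))) (both (mv 590 (both (five 4 493 622) (mv 591 (both (mv 556 (both (five 3 556 592) (mv 555 (both (five 0 554 554) (five 0 555 558))))) (both (mv 558 (both (five 4 461 461) (mv 556 (both (five 0 555 555) (mv 559 (both (five 1 524 527) (mv 524 (both (five 3 523 523) (five 3 524 560))))))))) (both (mv 592 (both (five 3 556 556) (mv 560 (both (five 1 557 561) (mv 624 (both (five 7 495 527) (five 0 589 625))))))) (mv 558 (both (five 4 461 461) (mv 592 (both (five 3 557 593) (mv 560 (both (five 1 557 561) (mv 624 (both (five 7 495 527) (five 0 589 625))))))))))))))) (mv 588 (both (five 6 492 620) (mv 558 (both (mv 559 (both (five 2 556 560) (mv 556 (both (five 2 555 587) (five 1 524 527))))) (both (mv 559 (both (five 2 556 560) (mv 587 (both (five 1 554 586) (five 1 555 590))))) (mv 461 (both (five 6 460 556) (five 4 461 590)))))))))))) (both (mv 461 (both (mv 428 (both (five 7 428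 460) (mv 429 (both (five 7 396 396) (mv 430 (both (five 5 429 462) (five 5 397 398))))))) (both (mv 590 (both (five 4 461 558) (mv 589 (both (five 4 493 622) (mv 620 (both (five 6 492 588) (mv 621 (both (five 6 524 652) (mv 618 (both (five 1 586 619) (mv 592 (both (five 2 588 591) (mv 460 (both (five 7 428 428) (mv 496 (both (five 3 460 494) (mv 560 (both (five 7 463 463) (mv 624 (both (five 7 495 527) (mv 625 (both (five 4 496 593) (five 4 528 657))))))))))))))))))))))) (mv 590 (both (five 4 461 558) (mv 589 (both (five 4 493 622) (mv 462 (both (five 5 461 494) (five 5 429 430)))))))))) (both (mv 461 (both (mv 462 (both (five 5 429 430) (mv 589 (both (five 5 461 494) (mv 590 (both (five 4 461 558) (five 4 493 622))))))) (both (mv 428 (both (five 7 428 460) (mv 429 (both (five 7 396 396) (mv 430 (both (five 5 397 398) (five 5 429 462))))))) (mv 558 (both (five 4 461 590) (mv 559 (both (mv 524 (both (five 3 524 560) (mv 523 (both (five 0 522 522) (five 3 523 556))))) (both (mv 428 (both (five 7 428 460) (mv 396 (both (five 7 396 429) (mv 560 (both (five 3 524 524) (mv 592 (both (five 0 557 593) (mv 527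 (both (five 4 463 463) (five 7 495 624))))))))))) (both (mv 592 (both (mv 556 (both (five 0 556 591) (five 1 524 527))) (both (mv 428 (both (five 7 428 460) (mv 396 (both (five 7 396 429) (mv 560 (both (five 0 557 593) (mv 527 (both (five 4 463 463) (five 7 495 624))))))))) (mv 591 (both (five 0 556 556) (mv 593 (both (five 3 558 594) (five 0 557 560)))))))) (mv 428 (both (five 7 428 460) (mv 429 (both (five 7 396 396) (mv 556 (both (five 6 428 524) (five 1 524 527)))))))))))))))) (mv 461 (both (mv 428 (both (five 7 428 460) (mv 429 (both (five 7 396 396) (mv 430 (both (five 5 429 462) (five 5 397 398))))))) (both (mv 556 (both (five 6 460 588) (mv 428 (both (five 7 428 460) (mv 429 (both (five 6 428 524) (five 7 396 396))))))) (mv 588 (both (five 6 460 556) (mv 589 (both (five 6 492 620) (mv 462 (both (five 5 461 494) (five 5 429 430)))))))))))))))) (both (mv 494 (both (mv 496 (both (five 2 492 524) (mv 463 (both (mv 431 (both (five 4 399 399) (mv 560 (both (five 7 431 464) (five 7 463 592))))) (both (mv 431 (both (five 4 399 399) (mv 560 (both (five 4 431 527) (five 7 463 592))))) (mv 465 (both (five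 1 461 464) (mv 497 (both (five 1 462 466) (mv 401 (both (five 6 400 433) (mv 498 (both (five 3 462 462) (mv 499 (both (five 2 495 527) (mv 531 (both (five 0 495 530) (five 0 496 532)))))))))))))))))) (both (mv 492 (both (five 0 492 527) (mv 459 (both (five 3 459 460) (mv 463 (both (five 1 460 464) (mv 491 (both (five 3 458 458) (five 1 459 462))))))))) (mv 524 (both (five 2 492 496) (mv 523 (both (five 2 491 492) (five 1 490 522)))))))) (both (mv 461 (both (mv 460 (both (mv 428 (both (five 7 428 557) (mv 396 (both (five 4 364 364) (five 7 396 429))))) (mv 494 (both (five 3 460 496) (mv 459 (both (five 0 458 458) (five 3 459 492))))))) (both (mv 494 (both (mv 460 (both (five 3 460 496) (mv 459 (both (five 0 458 458) (five 0 459 462))))) (both (mv 492 (both (five 0 492 527) (mv 463 (both (five 1 460 464) (mv 491 (both (five 1 459 462) (mv 458 (both (five 3 458 459) (mv 490 (both (five 3 457 457) (mv 522 (both (five 2 489 521) (five 2 490 523))))))))))))) (both (mv 460 (both (five 3 460 496) (mv 492 (both (five 3 459 459) (five 0 492 527))))) (mv 460 (both (five 3 460 496) (mv 492 (both (five 0 492 527)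 (mv 428 (both (five 4 396 396) (mv 463 (both (five 1 460 464) (mv 462 (both (five 3 427 427) (five 2 459 491))))))))))))))) (both (mv 557 (both (mv 588 (both (five 6 460 556) (mv 589 (both (five 6 492 620) (mv 590 (both (five 4 461 558) (five 4 493 622))))))) (mv 428 (both (five 7 428 460) (mv 429 (both (five 7 396 396) (mv 430 (both (five 5 397 398) (five 5 429 462))))))))) (mv 557 (both (mv 588 (both (five 6 460 556) (mv 589 (both (five 6 492 620) (mv 590 (both (five 4 461 558) (five 4 493 622))))))) (both (mv 462 (both (five 5 429 430) (mv 494 (both (five 5 461 589) (mv 492 (both (five 0 492 527) (mv 463 (both (five 1 460 464) (five 1 459 491))))))))) (mv 556 (both (five 6 460 588) (mv 558 (both (five 4 461 590) (mv 559 (both (five 1 524 527) (mv 592 (both (five 0 556 591) (mv 560 (both (five 0 557 593) (mv 496 (both (five 7 463 463) (mv 465 (both (five 5 464 497) (mv 464 (both (five 5 432 433) (five 1 461 494)))))))))))))))))))))))) (both (mv 494 (both (mv 524 (both (five 2 492 496) (mv 523 (both (five 2 491 492) (five 1 490 522))))) (both (mv 492 (both (mv 463 (both (five 1 460 464) (mv 462 (both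 (five 1 459 491) (mv 430 (both (five 6 397 398) (mv 557 (both (five 5 429 461) (five 5 461 589))))))))) (both (mv 459 (both (five 3 459 460) (mv 491 (both (five 3 458 458) (mv 523 (both (five 2 490 522) (five 2 491 524))))))) (mv 460 (both (five 3 459 459) (mv 428 (both (five 4 396 396) (mv 524 (both (five 2 491 523) (five 4 428 557)))))))))) (both (mv 496 (both (mv 464 (both (five 1 461 465) (mv 463 (both (five 1 460 492) (mv 431 (both (five 4 399 399) (five 7 431 560))))))) (mv 461 (both (five 3 460 460) (mv 462 (both (five 3 461 497) (mv 430 (both (five 6 397 398) (five 5 429 557))))))))) (mv 496 (both (five 2 492 524) (mv 461 (both (five 3 460 460) (mv 465 (both (five 1 461 464) (mv 497 (both (five 3 461 462) (five 1 462 466))))))))))))) (both (ref 19) (mv 494 (both (mv 492 (both (five 0 492 527) (mv 459 (both (five 3 459 460) (mv 463 (both (five 1 460 464) (mv 491 (both (five 3 458 458) (five 1 459 462))))))))) (both (mv 496 (both (five 2 492 524) (mv 461 (both (five 3 460 460) (mv 429 (both (mv 396 (both (five 7 396 428) (mv 397 (both (five 7 364 364) (mv 398 (both (five 5 365 366) (five 5 397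 430))))))) (both (mv 396 (both (five 7 396 428) (mv 397 (both (five 7 364 364) (mv 462 (both (five 4 365 365) (five 3 461 497))))))) (both (mv 398 (both (five 5 397 430) (mv 397 (both (five 5 365 366) (mv 462 (both (five 4 365 365) (five 3 461 497))))))) (mv 428 (both (five 7 396 396) (mv 430 (both (five 5 397 398) (mv 462 (both (five 3 461 497) (mv 427 (both (five 0 426 426) (five 0 427 463))))))))))))))))) (both (mv 492 (both (five 0 492 527) (mv 460 (both (five 3 459 459) (mv 428 (both (five 4 396 396) (mv 461 (both (five 3 460 496) (five 7 428 557))))))))) (mv 492 (both (five 0 492 527) (mv 463 (both (five 1 460 464) (mv 462 (both (five 1 459 491) (mv 430 (both (five 6 397 398) (mv 557 (both (five 5 429 461) (five 5 461 589))))))))))))))))))))))) (both (mv 463 (both (mv 560 (both (mv 431 (both (five 4 431 527) (mv 496 (both (five 4 399 399) (five 7 431 464))))) (both (mv 527 (both (five 4 431 431) (mv 592 (both (five 4 463 559) (five 7 495 624))))) (both (mv 496 (both (five 7 463 592) (mv 431 (both (five 4 399 399) (five 7 431 464))))) (mv 592 (both (five 7 463 496) (mv 527 (both (five 4 463 559)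 (five 7 495 624))))))))) (both (mv 527 (both (mv 560 (both (five 4 431 431) (mv 592 (both (five 4 463 559) (five 7 495 624))))) (both (mv 559 (both (mv 462 (both (five 7 430 430) (mv 590 (both (five 6 462 558) (mv 591 (both (five 7 462 494) (five 6 494 622))))))) (both (mv 462 (both (five 7 430 430) (mv 591 (both (five 7 462 494) (mv 592 (both (five 4 463 560) (five 4 495 624))))))) (mv 558 (both (five 6 462 590) (mv 557 (both (five 1 524 556) (mv 560 (both (five 3 524 524) (five 4 463 592)))))))))) (both (mv 432 (both (mv 400 (both (five 5 399 431) (mv 464 (both (five 6 367 368) (five 5 431 559))))) (both (mv 559 (both (five 5 431 464) (mv 462 (both (five 7 430 430) (mv 590 (both (five 6 462 558) (mv 591 (both (five 7 462 494) (five 6 494 622))))))))) (both (mv 431 (both (five 5 399 400) (mv 430 (both (five 7 398 398) (mv 462 (both (five 7 430 559) (mv 433 (both (five 2 430 434) (five 2 429 461))))))))) (mv 431 (both (five 5 399 400) (mv 462 (both (mv 433 (both (five 2 430 434) (mv 461 (both (five 1 428 460) (five 1 429 464))))) (both (mv 398 (both (five 7 398 430) (mv 399 (both (five 7 366 366) (mv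 367 (both (five 6 366 494) (mv 335 (both (five 4 335 464) (mv 336 (both (five 5 303 304) (five 5 335 368))))))))))) (mv 430 (both (five 7 398 398) (mv 433 (both (five 2 430 434) (five 2 429 461)))))))))))))) (mv 431 (both (five 4 431 560) (mv 398 (both (five 7 398 430) (mv 399 (both (five 7 366 366) (mv 400 (both (five 5 367 368) (five 5 399 432))))))))))))) (both (ref 23) (both (ref 24) (both (ref 25) (both (mv 431 (both (mv 399 (both (five 4 399 496) (mv 366 (both (five 7 366 398) (mv 367 (both (five 7 334 334) (mv 368 (both (five 5 335 336) (five 5 367 400))))))))) (both (mv 527 (both (five 4 431 560) (mv 430 (both (five 7 398 398) (mv 559 (both (five 7 430 462) (mv 590 (both (five 6 462 558) (mv 591 (both (five 6 494 622) (mv 623 (both (five 5 495 496) (mv 624 (both (five 4 527 656) (five 4 495 592))))))))))))))) (both (mv 527 (both (five 4 431 560) (mv 398 (both (five 7 398 430) (mv 399 (both (five 7 366 366) (mv 400 (both (five 5 367 368) (five 5 399 432))))))))) (mv 399 (both (five 4 399 496) (mv 400 (both (five 5 367 368) (mv 527 (both (five 5 399 432) (five 4 431 560))))))))))) (mv 431 (both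 (mv 527 (both (five 4 431 560) (mv 430 (both (five 7 398 398) (mv 559 (both (five 7 430 462) (mv 590 (both (five 6 462 558) (mv 591 (both (five 6 494 622) (mv 496 (both (five 5 463 464) (five 5 495 623))))))))))))) (both (mv 399 (both (five 4 399 496) (mv 366 (both (five 7 366 398) (mv 367 (both (five 7 334 334) (mv 368 (both (five 5 335 336) (five 5 367 400))))))))) (both (mv 527 (both (five 4 431 560) (mv 398 (both (five 7 398 430) (mv 399 (both (five 7 366 366) (mv 400 (both (five 5 367 368) (five 5 399 432))))))))) (mv 399 (both (five 4 399 496) (mv 400 (both (five 5 367 368) (mv 527 (both (five 5 399 432) (five 4 431 560)))))))))))))))))) (both (ref 26) (both (ref 27) (both (mv 463 (both (mv 560 (both (mv 431 (both (five 4 431 527) (mv 496 (both (five 4 399 399) (five 7 431 464))))) (both (mv 527 (both (five 4 431 431) (mv 592 (both (five 4 463 559) (five 7 495 624))))) (both (mv 496 (both (five 7 463 592) (mv 431 (both (five 4 399 399) (five 7 431 464))))) (mv 592 (both (five 7 463 496) (mv 527 (both (five 4 463 559) (five 7 495 624))))))))) (both (mv 462 (both (mv 464 (both (mv 461 (both (mv 428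 (both (five 3 428 429) (mv 460 (both (five 3 427 427) (mv 492 (both (five 2 459 491) (five 2 460 493))))))) (mv 432 (both (five 1 429 433) (mv 400 (both (five 6 367 368) (mv 527 (both (five 5 399 431) (five 5 431 559))))))))) (both (mv 527 (both (mv 560 (both (five 4 431 431) (mv 592 (both (five 4 463 559) (five 7 495 624))))) (both (mv 431 (both (five 4 431 560) (mv 400 (both (five 5 399 432) (mv 399 (both (five 5 367 368) (mv 366 (both (five 7 366 398) (mv 367 (both (five 7 334 334) (five 6 366 494))))))))))) (both (mv 432 (both (five 5 431 559) (mv 400 (both (five 6 367 368) (five 5 399 431))))) (mv 559 (both (five 5 431 432) (mv 591 (both (five 7 462 494) (mv 592 (both (five 4 463 560) (five 4 495 624))))))))))) (mv 465 (both (mv 494 (both (five 2 462 466) (five 2 461 493))) (both (mv 434 (both (five 1 430 433) (mv 466 (both (five 1 431 435) (mv 498 (both (five 0 462 497) (five 0 463 499))))))) (mv 433 (both (five 1 430 434) (mv 493 (both (five 2 461 494) (mv 461 (both (five 2 460 492) (mv 428 (both (five 3 428 429) (mv 460 (both (five 3 427 427) (five 7 428 557))))))))))))))))) (both (mv 461 (both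 (mv 493 (both (mv 430 (both (five 5 429 557) (mv 398 (both (five 4 366 366) (five 5 397 429))))) (mv 492 (both (five 2 460 464) (mv 491 (both (five 2 459 460) (five 1 458 490))))))) (both (mv 460 (both (mv 427 (both (five 3 427 428) (mv 459 (both (five 3 426 426) (five 0 459 494))))) (both (mv 428 (both (five 3 427 427) (mv 429 (both (five 3 428 464) (mv 492 (both (five 2 459 491) (mv 397 (both (five 6 364 365) (five 5 396 524))))))))) (mv 459 (both (five 0 459 494) (mv 491 (both (five 2 458 490) (five 2 459 492)))))))) (both (mv 493 (both (mv 430 (both (five 5 429 557) (mv 398 (both (five 4 366 366) (five 5 397 429))))) (mv 464 (both (five 2 460 492) (mv 433 (both (five 1 429 432) (mv 465 (both (five 1 430 434) (five 2 461 494))))))))) (both (mv 460 (both (mv 459 (both (five 0 459 494) (mv 426 (both (five 3 426 427) (mv 458 (both (five 3 425 425) (mv 490 (both (five 2 457 489) (five 2 458 491))))))))) (both (mv 428 (both (five 3 427 427) (mv 493 (both (five 7 428 557) (mv 396 (both (five 4 364 364) (five 7 396 429))))))) (mv 459 (both (five 0 459 494) (mv 490 (both (five 2 458 491) (mv 458 (both (five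 2 457 489) (mv 425 (both (five 3 425 426) (mv 429 (both (five 1 426 430) (mv 457 (both (five 3 424 424) (five 1 425 428)))))))))))))))) (mv 493 (both (mv 492 (both (five 2 460 464) (mv 491 (both (five 2 459 460) (five 1 458 490))))) (mv 430 (both (five 5 429 557) (mv 398 (both (five 6 365 366) (five 6 397 494)))))))))))) (both (mv 461 (both (mv 431 (both (mv 527 (both (five 4 431 560) (mv 430 (both (five 7 398 398) (five 7 430 559))))) (mv 432 (both (five 1 428 460) (mv 433 (both (five 2 430 434) (five 1 429 464))))))) (both (mv 460 (both (mv 428 (both (five 3 427 427) (mv 432 (both (five 1 428 431) (mv 464 (both (five 3 428 429) (five 1 429 433))))))) (both (mv 431 (both (five 1 428 432) (mv 492 (both (five 2 459 491) (mv 493 (both (five 2 460 464) (mv 527 (both (five 4 431 560) (mv 557 (both (five 7 460 589) (mv 556 (both (five 6 460 588) (mv 524 (both (five 5 428 429) (mv 555 (both (five 6 459 587) (mv 554 (both (five 1 521 553) (mv 522 (both (five 3 521 521) (mv 558 (both (five 3 522 523) (five 1 524 559))))))))))))))))))))))) (mv 427 (both (five 3 427 428) (mv 459 (both (five 3 426 426) (mv 491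 (both (five 2 458 490) (five 2 459 492)))))))))) (both (mv 430 (both (mv 493 (both (five 5 429 557) (mv 464 (both (five 2 460 492) (mv 429 (both (five 3 428 428) (five 3 429 465))))))) (mv 366 (both (five 4 366 398) (mv 527 (both (five 7 430 559) (mv 431 (both (five 4 431 560) (mv 432 (both (five 5 399 400) (five 2 429 433))))))))))) (both (mv 430 (both (mv 527 (both (five 7 430 559) (mv 431 (both (five 4 431 560) (mv 432 (both (five 2 429 433) (five 1 428 460))))))) (mv 398 (both (five 4 366 366) (mv 493 (both (five 5 397 429) (five 5 429 557))))))) (mv 493 (both (mv 430 (both (five 5 429 557) (mv 398 (both (five 4 366 366) (five 5 397 429))))) (mv 492 (both (five 2 460 464) (mv 491 (both (five 2 459 460) (five 1 458 490)))))))))))) (both (mv 527 (both (mv 560 (both (five 4 431 431) (mv 592 (both (five 4 463 559) (five 7 495 624))))) (both (mv 431 (both (five 4 431 560) (mv 400 (both (five 5 399 432) (mv 399 (both (five 5 367 368) (mv 367 (both (five 6 366 494) (mv 334 (both (five 7 334 366) (mv 335 (both (five 7 302 302) (five 6 334 430))))))))))))) (both (mv 559 (both (five 7 430 430) (mv 432 (both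 (five 5 431 464) (mv 400 (both (five 5 399 431) (mv 494 (both (five 7 462 591) (mv 493 (both (five 0 492 492) (mv 557 (both (five 5 461 589) (mv 556 (both (five 1 524 558) (mv 461 (both (five 6 460 588) (mv 428 (both (five 7 428 460) (mv 429 (both (five 7 396 396) (five 6 428 524))))))))))))))))))))) (mv 559 (both (five 7 430 430) (mv 591 (both (five 7 462 494) (mv 592 (both (five 4 463 560) (five 4 495 624))))))))))) (both (mv 527 (both (mv 560 (both (five 4 431 431) (mv 592 (both (five 4 463 559) (five 7 495 624))))) (both (mv 431 (both (five 4 431 560) (mv 398 (both (five 7 398 430) (mv 399 (both (five 7 366 366) (mv 367 (both (five 6 366 494) (mv 368 (both (five 5 335 336) (five 5 367 400))))))))))) (mv 430 (both (five 7 430 559) (mv 398 (both (five 4 366 366) (five 4 398 494)))))))) (mv 527 (both (mv 560 (both (five 4 431 431) (mv 592 (both (five 4 463 559) (five 7 495 624))))) (both (mv 431 (both (five 4 431 560) (mv 398 (both (five 7 398 430) (mv 432 (both (five 5 399 400) (mv 433 (both (five 2 430 434) (mv 461 (both (five 1 428 460) (five 1 429 464))))))))))) (both (mv 559 (both (five 7 430 430)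 (mv 591 (both (five 7 462 494) (mv 592 (both (five 4 463 560) (five 4 495 624))))))) (mv 559 (both (five 7 430 430) (mv 432 (both (five 5 431 464) (mv 400 (both (five 5 399 431) (mv 494 (both (five 7 462 591) (mv 493 (both (five 0 492 492) (mv 557 (both (five 5 461 589) (mv 556 (both (five 1 524 558) (mv 461 (both (five 6 460 588) (mv 428 (both (five 7 428 460) (mv 429 (both (five 7 396 396) (five 6 428 524))))))))))))))))))))))))))))))) (both (ref 23) (both (mv 462 (both (mv 430 (both (mv 398 (both (five 4 366 366) (mv 527 (both (five 4 398 494) (five 7 430 559))))) (both (mv 431 (both (mv 527 (both (five 7 430 559) (mv 432 (both (five 5 399 400) (mv 433 (both (five 2 430 434) (mv 401 (both (five 1 398 402) (mv 464 (both (five 5 400 496) (mv 429 (both (five 0 428 428) (five 0 429 465))))))))))))) (both (mv 527 (both (five 7 430 559) (mv 400 (both (five 5 399 432) (mv 399 (both (five 5 367 368) (mv 367 (both (five 6 334 335) (five 6 366 494))))))))) (mv 399 (both (five 4 399 496) (mv 367 (both (five 6 334 335) (five 6 366 494)))))))) (both (mv 398 (both (five 4 366 366) (mv 494 (both (five 6 397 493)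 (mv 365 (both (five 7 365 397) (mv 399 (both (five 5 366 367) (mv 431 (both (five 4 399 496) (mv 400 (both (five 5 367 368) (mv 401 (both (five 2 398 402) (five 2 397 429))))))))))))))) (mv 398 (both (five 4 366 366) (mv 527 (both (five 7 398 431) (five 7 430 559))))))))) (both (mv 496 (both (mv 494 (both (mv 431 (both (five 4 399 399) (mv 497 (both (five 3 462 498) (mv 465 (both (five 1 462 466) (mv 433 (both (five 6 400 401) (mv 434 (both (five 2 430 432) (five 1 430 464))))))))))) (both (mv 399 (both (five 4 399 431) (mv 493 (both (five 2 492 524) (mv 492 (both (five 1 459 491) (five 0 492 527))))))) (mv 493 (both (five 2 492 524) (mv 492 (both (five 1 460 464) (five 0 492 527)))))))) (both (mv 493 (both (mv 494 (both (five 2 492 524) (mv 460 (both (five 3 460 461) (mv 492 (both (five 3 459 459) (five 0 492 527))))))) (both (mv 399 (both (five 4 399 431) (mv 461 (both (five 0 460 460) (mv 464 (both (five 2 460 492) (mv 428 (both (five 3 428 429) (mv 432 (both (five 1 429 433) (mv 527 (both (five 6 399 400) (five 6 431 559))))))))))))) (both (mv 399 (both (five 4 399 431) (mv 494 (both (five 2 492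 524) (mv 492 (both (five 1 460 464) (five 0 492 527))))))) (mv 399 (both (five 4 399 431) (mv 461 (both (five 0 460 460) (mv 524 (both (five 2 492 494) (mv 556 (both (five 6 428 429) (mv 588 (both (five 6 460 557) (five 5 492 620))))))))))))))) (both (mv 461 (both (five 0 460 460) (mv 497 (both (five 3 461 494) (five 3 462 498))))) (mv 461 (both (five 0 460 460) (mv 497 (both (five 0 461 464) (five 3 462 498))))))))) (both (mv 430 (both (mv 461 (both (mv 496 (both (five 0 460 460) (mv 497 (both (five 3 461 494) (five 3 462 498))))) (both (mv 493 (both (five 5 429 557) (mv 527 (both (five 7 430 559) (mv 494 (both (five 0 492 492) (mv 496 (both (five 3 461 497) (five 2 492 524))))))))) (both (mv 493 (both (five 5 429 557) (mv 527 (both (five 7 430 559) (mv 492 (both (five 0 492 494) (mv 491 (both (five 2 459 460) (five 1 458 490))))))))) (mv 460 (both (five 0 460 496) (mv 427 (both (five 3 427 428) (mv 459 (both (five 3 426 426) (mv 491 (both (five 2 458 490) (five 2 459 492))))))))))))) (both (mv 398 (both (five 4 366 366) (mv 493 (both (five 6 397 494) (mv 461 (both (five 5 397 429) (five 5 429 557)))))))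 (mv 398 (both (five 4 366 366) (mv 527 (both (five 7 398 431) (five 7 430 559)))))))) (both (mv 496 (both (mv 461 (both (five 0 460 460) (mv 497 (both (five 0 461 464) (five 3 462 498))))) (both (mv 527 (both (mv 431 (both (five 4 399 399) (mv 430 (both (five 7 398 398) (mv 432 (both (five 5 399 400) (mv 433 (both (five 2 430 434) (mv 401 (both (five 1 398 402) (five 5 400 464))))))))))) (both (mv 497 (both (five 3 462 498) (mv 559 (both (five 7 430 430) (mv 464 (both (five 6 431 432) (five 5 463 591))))))) (both (mv 431 (both (five 4 399 399) (mv 432 (both (five 5 399 400) (mv 433 (both (five 2 430 434) (mv 464 (both (five 5 400 401) (five 5 431 559))))))))) (mv 430 (both (five 7 430 559) (mv 431 (both (five 7 398 398) (five 4 399 399))))))))) (both (mv 430 (both (mv 398 (both (five 4 366 366) (mv 527 (both (five 7 398 431) (five 7 430 559))))) (mv 461 (both (five 0 460 460) (mv 493 (both (five 5 429 557) (mv 464 (both (five 2 460 492) (mv 429 (both (five 3 428 428) (five 3 429 465))))))))))) (mv 430 (both (mv 398 (both (five 4 366 366) (mv 461 (both (five 0 460 460) (mv 493 (both (five 5 397 429) (five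 5 429 557))))))) (mv 431 (both (five 4 399 399) (mv 497 (both (five 3 462 498) (mv 527 (both (five 7 430 559) (mv 432 (both (five 5 399 400) (mv 433 (both (five 2 430 434) (mv 401 (both (five 1 398 402) (five 6 400 465))))))))))))))))))) (both (mv 461 (both (mv 493 (both (mv 430 (both (five 5 429 557) (mv 398 (both (five 4 366 366) (five 5 397 429))))) (mv 492 (both (five 2 460 464) (mv 491 (both (five 2 459 460) (five 1 458 490))))))) (both (mv 460 (both (mv 427 (both (five 3 427 428) (mv 459 (both (five 3 426 426) (five 0 459 494))))) (both (mv 428 (both (five 3 427 427) (mv 429 (both (five 3 428 464) (mv 492 (both (five 2 459 491) (mv 397 (both (five 6 364 365) (five 5 396 524))))))))) (mv 459 (both (five 0 459 494) (mv 491 (both (five 2 458 490) (five 2 459 492)))))))) (both (mv 493 (both (mv 430 (both (five 5 429 557) (mv 398 (both (five 4 366 366) (five 5 397 429))))) (mv 464 (both (five 2 460 492) (mv 433 (both (five 1 429 432) (mv 465 (both (five 1 430 434) (five 2 461 494))))))))) (both (mv 460 (both (mv 459 (both (five 0 459 494) (mv 426 (both (five 3 426 427) (mv 458 (both (five 3 425 425)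 (mv 490 (both (five 2 457 489) (five 2 458 491))))))))) (both (mv 428 (both (five 3 427 427) (mv 493 (both (five 7 428 557) (mv 396 (both (five 4 364 364) (five 7 396 429))))))) (mv 459 (both (five 0 459 494) (mv 490 (both (five 2 458 491) (mv 458 (both (five 2 457 489) (mv 425 (both (five 3 425 426) (mv 429 (both (five 1 426 430) (mv 457 (both (five 3 424 424) (five 1 425 428)))))))))))))))) (mv 493 (both (mv 492 (both (five 2 460 464) (mv 491 (both (five 2 459 460) (five 1 458 490))))) (mv 430 (both (five 5 429 557) (mv 398 (both (five 6 365 366) (five 6 397 494)))))))))))) (mv 496 (both (mv 527 (both (mv 430 (both (five 7 430 559) (mv 398 (both (five 4 366 366) (five 4 398 494))))) (both (mv 431 (both (five 4 399 399) (mv 430 (both (five 7 398 398) (mv 432 (both (five 5 399 400) (mv 433 (both (five 2 430 434) (mv 401 (both (five 1 398 402) (five 5 400 464))))))))))) (mv 431 (both (five 4 399 399) (mv 432 (both (five 5 399 400) (mv 433 (both (five 2 430 434) (mv 464 (both (five 5 400 401) (five 5 431 559)))))))))))) (both (mv 461 (both (five 0 460 460) (mv 497 (both (five 3 461 494) (five 3 462 498)))))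 (mv 461 (both (five 0 460 460) (mv 497 (both (five 0 461 464) (five 3 462 498)))))))))))))) (both (ref 24) (mv 431 (both (mv 496 (both (five 4 399 399) (mv 560 (both (five 4 431 527) (five 7 463 592))))) (both (mv 399 (both (five 4 399 496) (mv 366 (both (five 7 366 398) (mv 367 (both (five 7 334 334) (mv 368 (both (five 5 335 336) (five 5 367 400))))))))) (mv 527 (both (five 4 431 560) (mv 430 (both (five 7 398 398) (mv 432 (both (five 5 399 400) (mv 462 (both (five 7 430 559) (mv 433 (both (five 2 430 434) (five 2 429 461)))))))))))))))))))) (both (ref 28) (both (ref 29) (both (ref 30) (both (ref 31) (both (ref 32) (mv 493 (both (mv 461 (both (mv 557 (both (mv 588 (both (five 6 460 556) (mv 589 (both (five 6 492 620) (mv 590 (both (five 4 461 558) (five 4 493 622))))))) (both (mv 462 (both (five 5 429 430) (mv 589 (both (five 5 461 494) (mv 590 (both (five 4 461 558) (five 4 493 622))))))) (mv 430 (both (five 5 429 462) (mv 429 (both (five 5 397 398) (mv 556 (both (five 6 428 524) (five 6 460 588)))))))))) (both (mv 429 (both (mv 396 (both (five 7 396 428) (mv 397 (both (five 7 364 364) (mv 398 (both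 (five 5 365 366) (five 5 397 430))))))) (both (mv 396 (both (five 7 396 428) (mv 397 (both (five 7 364 364) (mv 524 (both (five 6 396 492) (five 6 428 556))))))) (both (mv 398 (both (five 5 397 430) (mv 397 (both (five 5 365 366) (mv 524 (both (five 6 396 492) (five 6 428 556))))))) (mv 396 (both (five 7 396 428) (mv 398 (both (five 5 397 430) (mv 524 (both (five 6 428 556) (mv 494 (both (five 2 492 496) (mv 523 (both (five 2 491 492) (five 1 490 522))))))))))))))) (both (mv 557 (both (mv 462 (both (five 5 429 430) (mv 589 (both (five 5 461 494) (mv 590 (both (five 4 461 558) (five 4 493 622))))))) (both (mv 460 (both (five 7 428 428) (mv 588 (both (five 6 460 556) (mv 589 (both (five 7 460 492) (five 6 492 620))))))) (mv 430 (both (five 5 429 462) (mv 460 (both (five 7 428 428) (mv 494 (both (five 3 460 496) (mv 459 (both (five 0 458 458) (five 3 459 492)))))))))))) (both (mv 557 (both (mv 588 (both (five 6 460 556) (mv 589 (both (five 6 492 620) (mv 590 (both (five 4 461 558) (five 4 493 622))))))) (both (mv 460 (both (five 7 428 428) (mv 589 (both (five 7 460 492) (mv 590 (both (five 4 461 558) (five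 4 493 622))))))) (mv 428 (both (five 7 428 460) (mv 429 (both (five 7 396 396) (mv 556 (both (five 6 428 524) (five 6 460 588)))))))))) (mv 557 (both (mv 462 (both (five 5 429 430) (mv 589 (both (five 5 461 494) (mv 590 (both (five 4 461 558) (five 4 493 622))))))) (both (mv 460 (both (five 7 428 428) (mv 589 (both (five 7 460 492) (mv 590 (both (five 4 461 558) (five 4 493 622))))))) (mv 428 (both (five 7 428 460) (mv 429 (both (five 7 396 396) (mv 430 (both (five 5 397 398) (five 5 429 462))))))))))))))) (both (ref 17) (both (mv 494 (both (mv 496 (both (five 2 492 524) (mv 463 (both (mv 431 (both (five 4 399 399) (mv 560 (both (five 7 431 464) (five 7 463 592))))) (both (mv 431 (both (five 4 399 399) (mv 560 (both (five 4 431 527) (five 7 463 592))))) (mv 465 (both (five 1 461 464) (mv 497 (both (five 1 462 466) (mv 401 (both (five 6 400 433) (mv 498 (both (five 3 462 462) (mv 499 (both (five 2 495 527) (mv 531 (both (five 0 495 530) (five 0 496 532)))))))))))))))))) (both (mv 492 (both (five 0 492 527) (mv 460 (both (five 3 459 459) (mv 428 (both (five 4 396 396) (mv 524 (both (five 2 491 523) (five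 4 428 557))))))))) (both (mv 464 (both (mv 492 (both (five 1 460 463) (five 0 492 527))) (both (mv 496 (both (five 1 461 465) (mv 560 (both (mv 431 (both (five 7 431 463) (mv 432 (both (five 7 399 399) (mv 559 (both (five 6 431 527) (five 6 463 591))))))) (both (mv 592 (both (five 7 463 463) (mv 623 (both (five 6 495 591) (mv 624 (both (five 6 527 655) (mv 625 (both (five 4 496 593) (five 4 528 657))))))))) (mv 593 (both (five 4 464 561) (mv 592 (both (five 4 496 625) (mv 527 (both (five 7 495 624) (mv 432 (both (five 6 399 400) (five 6 431 559)))))))))))))) (both (mv 496 (both (five 1 461 465) (mv 527 (both (five 0 492 492) (mv 432 (both (five 6 399 400) (five 6 431 559))))))) (mv 463 (both (five 1 460 492) (mv 465 (both (five 2 462 466) (five 1 461 496))))))))) (mv 524 (both (five 2 492 496) (mv 523 (both (five 2 491 492) (five 1 490 522))))))))) (both (ref 21) (both (ref 33) (both (mv 496 (both (mv 560 (both (mv 464 (both (mv 433 (both (five 5 432 465) (mv 432 (both (five 5 400 401) (mv 559 (both (five 6 431 527) (five 6 463 591))))))) (both (mv 431 (both (five 7 431 463) (mv 432 (both (five 7 399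 399) (mv 559 (both (five 6 431 527) (five 6 463 591))))))) (mv 463 (both (five 7 431 431) (mv 465 (both (five 5 432 433) (mv 466 (both (five 2 463 467) (mv 434 (both (five 1 431 435) (mv 498 (both (five 0 463 499) (mv 462 (both (five 0 462 497) (mv 429 (both (five 3 429 430) (mv 461 (both (five 3 428 428) (five 0 460 460)))))))))))))))))))) (both (mv 592 (both (mv 623 (both (five 6 495 591) (mv 624 (both (five 6 527 655) (mv 625 (both (five 4 496 593) (five 4 528 657))))))) (both (mv 465 (both (five 5 464 497) (mv 464 (both (five 5 432 433) (mv 593 (both (five 4 464 561) (five 4 496 625))))))) (mv 465 (both (five 5 464 497) (mv 464 (both (five 5 432 433) (mv 591 (both (five 6 463 559) (five 6 495 623)))))))))) (mv 463 (both (five 7 463 592) (mv 431 (both (five 4 399 399) (five 4 431 527)))))))) (both (mv 494 (both (five 2 492 524) (mv 461 (both (five 3 460 460) (mv 429 (both (mv 396 (both (five 7 396 428) (mv 397 (both (five 7 364 364) (mv 398 (both (five 5 365 366) (five 5 397 430))))))) (both (mv 396 (both (five 7 396 428) (mv 397 (both (five 7 364 364) (mv 462 (both (five 4 365 365) (five 3 461 497)))))))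 (both (mv 398 (both (five 5 397 430) (mv 397 (both (five 5 365 366) (mv 462 (both (five 4 365 365) (five 3 461 497))))))) (mv 428 (both (five 7 396 396) (mv 430 (both (five 5 397 398) (mv 462 (both (five 3 461 497) (mv 427 (both (five 0 426 426) (five 0 427 463))))))))))))))))) (mv 494 (both (five 2 492 524) (mv 464 (both (five 1 461 465) (mv 560 (both (mv 591 (both (five 6 463 559) (mv 592 (both (five 6 495 623) (mv 593 (both (five 4 464 561) (five 4 496 625))))))) (both (mv 593 (both (five 4 464 561) (mv 592 (both (five 4 496 625) (mv 623 (both (five 6 495 591) (mv 624 (both (five 7 495 527) (five 6 527 655))))))))) (both (mv 593 (both (five 4 464 561) (mv 592 (both (five 4 496 625) (mv 527 (both (five 7 495 624) (mv 432 (both (five 6 399 400) (five 6 431 559))))))))) (mv 559 (both (five 6 463 591) (mv 432 (both (five 6 431 527) (mv 399 (both (five 7 399 431) (mv 400 (both (five 7 367 367) (mv 401 (both (five 5 368 369) (five 5 400 433)))))))))))))))))))))) (both (ref 34) (mv 494 (both (mv 492 (both (five 0 492 527) (mv 460 (both (five 3 459 459) (mv 428 (both (five 4 396 396) (mv 557 (both (five 7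 428 461) (five 4 428 524))))))))) (both (mv 496 (both (five 2 492 524) (mv 464 (both (five 1 461 465) (mv 432 (both (mv 527 (both (five 6 399 400) (five 6 431 559))) (both (mv 399 (both (five 7 399 431) (mv 400 (both (five 7 367 367) (mv 401 (both (five 5 368 369) (five 5 400 433))))))) (mv 401 (both (five 5 400 433) (mv 431 (both (five 7 399 399) (mv 460 (both (five 3 460 461) (mv 559 (both (five 6 431 527) (mv 560 (both (five 7 431 463) (five 6 463 591)))))))))))))))))) (both (mv 496 (both (five 2 492 524) (mv 460 (both (five 3 460 461) (mv 464 (both (five 1 461 465) (mv 492 (both (five 3 459 459) (five 1 460 463))))))))) (mv 464 (both (mv 492 (both (five 1 460 463) (five 0 492 527))) (both (mv 496 (both (five 1 461 465) (mv 560 (both (mv 431 (both (five 7 431 463) (mv 432 (both (five 7 399 399) (mv 559 (both (five 6 431 527) (five 6 463 591))))))) (both (mv 592 (both (five 7 463 463) (mv 623 (both (five 6 495 591) (mv 624 (both (five 6 527 655) (mv 625 (both (five 4 496 593) (five 4 528 657))))))))) (mv 593 (both (five 4 464 561) (mv 592 (both (five 4 496 625) (mv 527 (both (five 7 495 624) (mv 432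 (both (five 6 399 400) (five 6 431 559)))))))))))))) (both (mv 496 (both (five 1 461 465) (mv 527 (both (five 0 492 492) (mv 432 (both (five 6 399 400) (five 6 431 559))))))) (mv 463 (both (five 1 460 492) (mv 465 (both (five 2 462 466) (five 1 461 496))))))))))))))))))))))))))))))))))))))))))))))))))))

theorem L65 : W (S 988530863058807798957393715067720623286798683220635978952802738122718218409262471505648588255249455916730668840373243557345566271959196709010660073920568229888) (S 529396249708465929611242468133423717190685085742149877127391093754997720763318265481314225647346732510678726737906809447117551435704353109380881616549456074443170062271757312703981499468197739327862304425489105333545476702653428306804736) :=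
  check_sound (Env.cons L13 (Env.cons L18 (Env.cons L19 (Env.cons L25 (Env.cons L26 (Env.cons L27 (Env.cons L23 (Env.cons L30 (Env.cons L32 (Env.cons L34 (Env.cons L38 (Env.cons L39 (Env.cons L41 (Env.cons L43 (Env.cons L48 (Env.cons L51 (Env.cons L54 (Env.cons L14 (Env.cons L15 (Env.cons L24 (Env.cons L46 (Env.cons L55 (Env.cons L37 (Env.cons L56 (Env.cons L57 (Env.cons L33 (Env.cons L58 (Env.cons L59 (Env.cons L60 (Env.cons L61 (Env.cons L62 (Env.cons L63 (Env.cons L64 (Env.cons L16 (Env.cons L29 Env.nil))))))))))))))))))))))))))))))))))) (x := 495) (t := tL65) (by decide +kernel)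

def tL66 : T :=
  (both (mv 464 (both (mv 433 (both (five 1 429 432) (mv 465 (both (five 1 430 434) (mv 493 (both (five 2 460 492) (mv 430 (both (five 5 429 557) (mv 366 (both (five 6 365 398) (mv 466 (both (five 3 430 431) (mv 498 (both (five 0 462 497) (five 0 463 499))))))))))))))) (both (mv 496 (both (five 0 461 497) (mv 431 (both (five 7 431 560) (mv 399 (both (five 4 367 367) (five 7 399 432))))))) (both (mv 492 (both (five 2 460 493) (mv 496 (both (five 0 461 497) (mv 560 (both (five 7 431 431) (mv 433 (both (five 5 432 465) (mv 559 (both (five 6 463 591) (mv 561 (both (five 3 525 558) (five 4 464 593))))))))))))) (both (mv 433 (both (five 1 429 432) (mv 465 (both (five 1 430 434) (mv 493 (both (five 2 460 492) (mv 430 (both (five 5 429 557) (mv 366 (both (five 6 365 398) (mv 431 (both (five 3 430 466) (mv 496 (both (five 7 431 560) (mv 399 (both (five 4 367 367) (five 4 399 495))))))))))))))))) (mv 433 (both (five 1 429 432) (mv 465 (both (five 1 430 434) (mv 496 (both (five 0 461 497) (five 5 432 560)))))))))))) (both (mv 460 (both (mv 427 (both (five 3 427 428) (mv 431 (both (five 1 428 432)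 (mv 459 (both (five 3 426 426) (five 1 427 430))))))) (both (mv 431 (both (five 1 428 432) (mv 459 (both (five 1 427 430) (mv 426 (both (five 3 426 427) (mv 458 (both (five 3 425 425) (mv 490 (both (five 2 457 489) (five 2 458 491))))))))))) (both (mv 427 (both (five 3 427 428) (mv 459 (both (five 3 426 426) (mv 491 (both (five 2 458 490) (five 2 459 492))))))) (both (mv 431 (both (five 1 428 432) (mv 430 (both (five 1 427 459) (mv 492 (both (five 2 459 491) (mv 495 (both (five 0 460 496) (mv 366 (both (five 4 366 398) (mv 557 (both (five 5 429 493) (mv 524 (both (five 4 428 428) (mv 589 (both (five 4 460 556) (five 7 492 621))))))))))))))))) (mv 428 (both (five 3 427 427) (mv 431 (both (five 1 428 432) (mv 492 (both (five 2 459 491) (mv 493 (both (five 4 396 396) (five 7 428 557)))))))))))))) (both (mv 460 (both (mv 492 (both (five 2 459 491) (mv 493 (both (five 2 460 464) (mv 557 (both (five 5 429 430) (five 7 460 589))))))) (both (mv 427 (both (five 3 427 428) (mv 431 (both (five 1 428 432) (mv 459 (both (five 3 426 426) (five 1 427 430))))))) (mv 427 (both (five 3 427 428) (mv 459 (both (five 3 426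 426) (mv 491 (both (five 2 458 490) (five 2 459 492)))))))))) (both (mv 460 (both (mv 427 (both (five 3 427 428) (mv 459 (both (five 3 426 426) (mv 491 (both (five 2 458 490) (five 2 459 492))))))) (mv 496 (both (five 0 460 495) (mv 464 (both (five 0 461 497) (mv 433 (both (five 1 429 432) (mv 465 (both (five 1 430 434) (five 5 432 560))))))))))) (both (mv 460 (both (mv 427 (both (five 3 427 428) (mv 431 (both (five 1 428 432) (mv 459 (both (five 3 426 426) (five 1 427 430))))))) (both (mv 496 (both (five 0 460 495) (mv 464 (both (five 0 461 497) (mv 433 (both (five 1 429 432) (mv 465 (both (five 1 430 434) (five 5 432 560))))))))) (mv 496 (both (five 0 460 495) (mv 464 (both (five 0 461 497) (mv 560 (both (five 7 431 431) (mv 433 (both (five 5 432 465) (mv 559 (both (five 6 463 591) (mv 561 (both (five 3 525 558) (five 4 464 593)))))))))))))))) (mv 460 (both (mv 496 (both (five 0 460 495) (mv 464 (both (five 0 461 497) (mv 560 (both (five 7 431 431) (mv 433 (both (five 5 432 465) (mv 559 (both (five 6 463 591) (mv 561 (both (five 3 525 558) (five 4 464 593))))))))))))) (mv 427 (both (five 3 427 428)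 (mv 459 (both (five 3 426 426) (mv 491 (both (five 2 458 490) (five 2 459 492))))))))))))))

theorem L66 : W (S 1208204388182987309854677329126614041181560794727877351489700658896907128927465368308633887901090869039668622067242084401754769618945726899907575348861083844608) (S 8702164916858655786011309427441753145172810622077039857757942744005634735727479016872216272646293101913319985227537502448113458237455311665300758807121073325943854675713468796066311700480) :=
  check_sound Env.nil (x := 463) (t := tL66) (by decide +kernel)

def tL67 : T :=
  (both (mv 460 (both (mv 427 (both (five 3 427 428) (mv 459 (both (five 3 426 426) (mv 491 (both (five 2 458 490) (five 2 459 492))))))) (mv 496 (both (five 0 460 495) (mv 464 (both (five 0 461 497) (mv 433 (both (five 1 429 432) (mv 465 (both (five 1 430 434) (five 5 432 560))))))))))) (both (mv 464 (both (mv 496 (both (five 0 461 497) (mv 431 (both (five 7 431 560) (mv 399 (both (five 4 367 367) (five 7 399 432))))))) (both (mv 493 (both (five 2 460 492) (mv 494 (both (five 2 461 465) (mv 431 (both (five 5 430 558) (mv 399 (both (five 6 366 367) (five 6 398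 495))))))))) (mv 433 (both (five 1 429 432) (mv 465 (both (five 1 430 434) (mv 496 (both (five 0 461 497) (five 5 432 560)))))))))) (both (mv 460 (both (mv 427 (both (five 3 427 428) (mv 459 (both (five 3 426 426) (mv 491 (both (five 2 458 490) (five 2 459 492))))))) (mv 431 (both (five 1 428 432) (mv 494 (both (five 5 430 558) (mv 399 (both (five 6 366 367) (five 6 398 495))))))))) (both (mv 464 (both (mv 496 (both (five 0 461 497) (mv 431 (both (five 7 431 560) (mv 399 (both (five 4 367 367) (five 7 399 432))))))) (both (mv 432 (both (five 1 429 433) (mv 493 (both (five 2 460 492) (mv 465 (both (five 2 461 494) (mv 498 (both (five 0 462 497) (mv 466 (both (five 0 463 499) (mv 435 (both (five 1 431 434) (mv 467 (both (five 3 431 431) (five 1 432 436))))))))))))))) (both (mv 496 (both (five 0 461 497) (mv 560 (both (five 7 431 431) (mv 433 (both (five 5 432 465) (mv 559 (both (five 6 463 591) (mv 561 (both (five 3 525 558) (five 4 464 593))))))))))) (both (mv 432 (both (five 1 429 433) (mv 431 (both (five 1 428 460) (mv 496 (both (five 7 399 399) (five 7 431 560))))))) (mv 433 (both (five 1 429 432)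 (mv 465 (both (five 1 430 434) (mv 496 (both (five 0 461 497) (five 5 432 560)))))))))))) (both (mv 460 (both (mv 427 (both (five 3 427 428) (mv 431 (both (five 1 428 432) (mv 459 (both (five 3 426 426) (mv 490 (both (five 2 458 491) (mv 458 (both (five 2 457 489) (mv 494 (both (five 0 458 493) (five 5 430 558))))))))))))) (both (mv 496 (both (five 0 460 495) (mv 464 (both (five 0 461 497) (mv 433 (both (five 1 429 432) (mv 465 (both (five 1 430 434) (five 5 432 560))))))))) (mv 496 (both (five 0 460 495) (mv 464 (both (five 0 461 497) (mv 560 (both (five 7 431 431) (mv 433 (both (five 5 432 465) (mv 559 (both (five 6 463 591) (mv 561 (both (five 3 525 558) (five 4 464 593)))))))))))))))) (mv 460 (both (mv 496 (both (five 0 460 495) (mv 464 (both (five 0 461 497) (mv 560 (both (five 7 431 431) (mv 433 (both (five 5 432 465) (mv 559 (both (five 6 463 591) (mv 561 (both (five 3 525 558) (five 4 464 593))))))))))))) (mv 427 (both (five 3 427 428) (mv 459 (both (five 3 426 426) (mv 491 (both (five 2 458 490) (five 2 459 492))))))))))))))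

theorem L67 : W (S 1208204388182987309854677329126614041181560794727877351489700658896907128927465368308633887901090869039668622067242084401754769618945726899907575348861083844608) (S 40522612991505805953553513118036617567443847230847316926045964493184482888857256830992134577135742730842351567098487301565755977920054967909534887008078415517846219892513893777408) :=
  check_sound Env.nil (x := 463) (t := tL67) (by decide +kernel)

def tL68 : T :=
  (both (mv 460 (both (mv 427 (both (five 3 427 428) (mv 459 (both (five 3 426 426) (mv 491 (both (five 2 458 490) (five 2 459 492))))))) (mv 496 (both (five 0 460 495) (mv 464 (both (five 0 461 497) (mv 433 (both (five 1 429 432) (mv 465 (both (five 1 430 434) (five 5 432 560))))))))))) (both (mv 464 (both (mv 496 (both (five 0 461 497) (mv 431 (both (five 7 431 560) (mv 399 (both (five 4 367 367) (five 7 399 432))))))) (both (mv 429 (both (five 3 428 428) (mv 433 (both (five 1 429 432) (mv 465 (both (five 3 429 430) (five 1 430 434))))))) (mv 496 (both (five 0 461 497) (mv 560 (both (five 7 431 431) (mv 433 (both (five 5 432 465) (mv 559 (both (five 6 463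 591) (mv 561 (both (five 3 525 558) (five 4 464 593)))))))))))))) (both (mv 460 (both (mv 427 (both (five 3 427 428) (mv 431 (both (five 1 428 432) (mv 459 (both (five 3 426 426) (five 1 427 430))))))) (both (mv 427 (both (five 3 427 428) (mv 459 (both (five 3 426 426) (mv 491 (both (five 2 458 490) (five 2 459 492))))))) (both (mv 431 (both (five 1 428 432) (mv 459 (both (five 1 427 430) (mv 491 (both (five 2 458 490) (five 2 459 492))))))) (mv 428 (both (five 3 427 427) (mv 431 (both (five 1 428 432) (mv 492 (both (five 2 459 491) (mv 495 (both (five 0 460 496) (mv 524 (both (five 4 428 557) (mv 429 (both (five 5 396 397) (five 5 428 556))))))))))))))))) (both (mv 460 (both (mv 427 (both (five 3 427 428) (mv 431 (both (five 1 428 432) (mv 459 (both (five 3 426 426) (five 1 427 430))))))) (both (mv 431 (both (five 1 428 432) (mv 459 (both (five 1 427 430) (mv 491 (both (five 2 458 490) (five 2 459 492))))))) (both (mv 427 (both (five 3 427 428) (mv 459 (both (five 3 426 426) (mv 491 (both (five 2 458 490) (five 2 459 492))))))) (mv 428 (both (five 3 427 427) (mv 429 (both (five 3 428 464) (mv 431 (both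 (five 1 428 432) (mv 492 (both (five 2 459 491) (mv 397 (both (five 6 364 365) (five 5 396 524))))))))))))))) (both (mv 460 (both (mv 431 (both (five 1 428 432) (mv 459 (both (five 1 427 430) (mv 491 (both (five 2 458 490) (five 2 459 492))))))) (both (mv 496 (both (five 0 460 495) (mv 464 (both (five 0 461 497) (mv 433 (both (five 1 429 432) (mv 465 (both (five 1 430 434) (five 5 432 560))))))))) (mv 496 (both (five 0 460 495) (mv 464 (both (five 0 461 497) (mv 560 (both (five 7 431 431) (mv 433 (both (five 5 432 465) (mv 559 (both (five 6 463 591) (mv 561 (both (five 3 525 558) (five 4 464 593)))))))))))))))) (mv 460 (both (mv 496 (both (five 0 460 495) (mv 464 (both (five 0 461 497) (mv 560 (both (five 7 431 431) (mv 433 (both (five 5 432 465) (mv 559 (both (five 6 463 591) (mv 561 (both (five 3 525 558) (five 4 464 593))))))))))))) (mv 427 (both (five 3 427 428) (mv 459 (both (five 3 426 426) (mv 491 (both (five 2 458 490) (five 2 459 492))))))))))))))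

theorem L68 : W (S 1208204388182987309854677329126614041181560794727877351489700658896907128927465368308633887901090869039668622067242084401754769618945726899907575348861083844608) (S 40522612992213423908262470500329592544974215323935158310991949684005485026623843012032580582257243726112506730249736759522807057749977200427374229713730923117430153032359647117312) :=
  check_sound Env.nil (x := 463) (t := tL68) (by decide +kernel)

def tL69 : T :=
  (both (mv 464 (both (mv 432 (both (mv 399 (both (five 7 399 431) (mv 400 (both (five 7 367 367) (mv 401 (both (five 5 368 369) (five 5 400 433))))))) (both (mv 399 (both (five 7 399 431) (mv 400 (both (five 7 367 367) (mv 369 (both (five 5 368 401) (mv 368 (both (five 5 336 337) (mv 370 (both (five 2 367 371) (mv 397 (both (five 1 365 398) (mv 463 (both (five 6 367 495) (mv 497 (both (five 0 461 462) (five 4 368 465))))))))))))))))) (both (mv 401 (both (five 5 400 433) (mv 400 (both (five 5 368 369) (mv 367 (both (five 7 367 399) (mv 368 (both (five 7 335 335) (mv 463 (both (five 6 367 495) (mv 497 (both (five 0 461 462) (five 4 368 465))))))))))))) (both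 (mv 433 (both (five 5 400 401) (mv 462 (both (five 1 429 463) (mv 430 (both (five 2 429 431) (mv 493 (both (five 5 429 557) (mv 398 (both (five 6 365 366) (five 5 397 429))))))))))) (mv 463 (both (mv 462 (both (five 1 429 433) (five 0 461 497))) (both (mv 399 (both (five 7 399 431) (mv 400 (both (five 7 367 367) (mv 368 (both (five 6 367 495) (mv 337 (both (five 5 336 369) (mv 336 (both (five 5 304 305) (mv 465 (both (five 4 336 433) (five 4 368 497))))))))))))) (both (mv 399 (both (five 7 399 431) (mv 367 (both (five 7 367 400) (mv 462 (both (five 1 429 433) (mv 429 (both (five 3 428 428) (mv 493 (both (five 2 460 492) (five 4 429 558))))))))))) (mv 399 (both (five 7 399 431) (mv 367 (both (five 7 367 400) (mv 462 (both (five 0 461 497) (mv 429 (both (five 3 428 428) (mv 493 (both (five 2 460 492) (five 4 429 558)))))))))))))))))))) (both (mv 560 (both (mv 559 (both (five 6 463 591) (mv 561 (both (five 3 525 558) (five 4 464 593))))) (both (mv 465 (both (five 5 432 433) (mv 592 (both (five 5 464 497) (mv 593 (both (five 4 464 561) (five 4 496 625))))))) (mv 465 (both (five 5 432 433) (mv 591 (both (five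 6 463 559) (mv 592 (both (five 5 464 497) (five 6 495 623)))))))))) (both (mv 560 (both (mv 559 (both (five 6 463 591) (mv 561 (both (five 3 525 558) (five 4 464 593))))) (both (mv 431 (both (five 7 431 463) (mv 432 (both (five 7 399 399) (mv 593 (both (five 4 464 561) (mv 592 (both (five 4 496 625) (mv 465 (both (five 5 464 497) (mv 429 (both (five 0 429 430) (mv 466 (both (five 3 431 467) (mv 493 (both (five 4 429 558) (mv 396 (both (five 7 396 428) (mv 397 (both (five 7 364 364) (mv 524 (both (five 6 396 492) (five 6 428 556))))))))))))))))))))))) (both (mv 431 (both (five 7 431 463) (mv 432 (both (five 7 399 399) (mv 591 (both (five 6 463 559) (mv 592 (both (five 6 495 623) (mv 465 (both (five 5 464 497) (mv 429 (both (five 0 429 430) (mv 466 (both (five 3 431 467) (mv 493 (both (five 4 429 558) (mv 396 (both (five 7 396 428) (mv 397 (both (five 7 364 364) (mv 524 (both (five 6 396 492) (five 6 428 556))))))))))))))))))))))) (mv 431 (both (five 7 431 463) (mv 399 (both (five 7 399 432) (mv 591 (both (five 6 463 559) (mv 592 (both (five 6 495 623) (mv 593 (both (five 4 464 561) (five 4 496 625)))))))))))))))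 (both (mv 560 (both (mv 559 (both (five 6 463 591) (mv 561 (both (five 3 525 558) (five 4 464 593))))) (both (mv 463 (both (five 7 431 431) (mv 462 (both (five 0 461 497) (mv 428 (both (five 3 428 429) (mv 432 (both (five 1 429 433) (mv 592 (both (five 7 463 495) (mv 593 (both (five 4 464 561) (five 4 496 625))))))))))))) (mv 463 (both (five 7 431 431) (mv 462 (both (five 0 461 497) (mv 428 (both (five 3 428 429) (mv 432 (both (five 1 429 433) (mv 591 (both (five 6 463 559) (mv 592 (both (five 7 463 495) (five 6 495 623)))))))))))))))) (mv 560 (both (mv 591 (both (five 6 463 559) (mv 592 (both (five 6 495 623) (mv 593 (both (five 4 464 561) (five 4 496 625))))))) (mv 431 (both (five 7 431 463) (mv 432 (both (five 7 399 399) (mv 433 (both (five 5 400 401) (five 5 432 465)))))))))))))) (both (mv 493 (both (mv 429 (both (five 4 429 558) (mv 397 (both (five 4 397 494) (mv 398 (both (five 5 365 366) (five 5 397 430))))))) (both (mv 464 (both (mv 560 (both (mv 559 (both (five 6 463 591) (mv 561 (both (five 3 525 558) (five 4 464 593))))) (both (mv 465 (both (five 5 432 433) (mv 592 (both (five 5 464 497) (mv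 593 (both (five 4 464 561) (five 4 496 625))))))) (mv 465 (both (five 5 432 433) (mv 591 (both (five 6 463 559) (mv 592 (both (five 5 464 497) (five 6 495 623)))))))))) (both (mv 462 (both (mv 430 (both (five 5 429 557) (mv 398 (both (five 6 365 366) (five 6 397 494))))) (mv 463 (both (five 2 460 492) (five 0 461 497))))) (mv 560 (both (mv 559 (both (five 6 463 591) (mv 561 (both (five 3 525 558) (five 4 464 593))))) (mv 431 (both (five 7 431 463) (mv 432 (both (five 7 399 399) (mv 433 (both (five 5 400 401) (five 5 432 465)))))))))))) (both (mv 429 (both (mv 397 (both (five 4 397 494) (mv 398 (both (five 5 365 366) (five 5 397 430))))) (both (mv 396 (both (five 7 396 428) (mv 430 (both (five 5 397 398) (mv 556 (both (five 6 428 524) (mv 557 (both (five 5 429 462) (five 6 460 588))))))))) (mv 397 (both (five 4 397 494) (mv 524 (both (five 6 396 492) (five 6 428 556)))))))) (both (mv 429 (both (five 4 429 558) (mv 398 (both (five 5 397 430) (mv 397 (both (five 5 365 366) (mv 524 (both (five 6 396 492) (five 6 428 556))))))))) (mv 429 (both (five 4 429 558) (mv 397 (both (five 4 397 494) (mv 524 (both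 (five 6 396 492) (five 6 428 556)))))))))))) (both (mv 494 (both (mv 495 (both (five 2 493 497) (mv 524 (both (five 2 492 493) (five 1 491 523))))) (both (mv 462 (both (mv 557 (both (five 6 429 430) (mv 589 (both (five 6 461 558) (five 5 493 621))))) (both (mv 429 (both (five 7 429 558) (mv 397 (both (five 4 365 365) (five 4 397 493))))) (mv 430 (both (five 6 429 557) (mv 398 (both (five 6 397 493) (mv 399 (both (five 5 366 367) (five 5 398 431)))))))))) (mv 462 (both (mv 557 (both (five 6 429 430) (mv 589 (both (five 6 461 558) (five 5 493 621))))) (both (mv 430 (both (five 6 429 557) (mv 397 (both (five 7 397 429) (mv 398 (both (five 7 365 365) (mv 399 (both (five 5 366 367) (five 5 398 431))))))))) (mv 497 (both (five 3 461 495) (mv 463 (both (five 0 461 464) (mv 558 (both (five 7 429 429) (five 5 430 431))))))))))))) (both (mv 429 (both (mv 493 (both (five 4 429 558) (mv 396 (both (five 7 396 428) (mv 397 (both (five 7 364 364) (mv 524 (both (five 6 396 492) (five 6 428 556))))))))) (both (mv 464 (both (mv 462 (both (mv 494 (both (five 7 429 558) (mv 397 (both (five 4 365 365) (five 7 397 430)))))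 (mv 463 (both (five 3 428 428) (mv 432 (both (five 1 429 433) (mv 399 (both (five 7 399 431) (mv 400 (both (five 7 367 367) (mv 368 (both (five 6 367 495) (mv 369 (both (five 5 336 337) (five 5 368 401))))))))))))))) (both (mv 560 (both (mv 559 (both (five 6 463 591) (mv 561 (both (five 3 525 558) (five 4 464 593))))) (mv 433 (both (five 5 432 465) (mv 432 (both (five 5 400 401) (mv 431 (both (five 7 399 399) (mv 430 (both (five 2 429 462) (mv 397 (both (five 3 396 396) (five 3 397 398))))))))))))) (both (mv 560 (both (mv 559 (both (five 6 463 591) (mv 561 (both (five 3 525 558) (five 4 464 593))))) (both (mv 433 (both (five 5 432 465) (mv 401 (both (five 5 400 432) (mv 593 (both (five 4 464 561) (mv 592 (both (five 4 496 625) (mv 463 (both (five 7 463 495) (mv 462 (both (five 3 428 428) (mv 494 (both (five 7 429 558) (mv 397 (both (five 4 365 365) (five 7 397 430))))))))))))))))) (both (mv 433 (both (five 5 432 465) (mv 401 (both (five 5 400 432) (mv 591 (both (five 6 463 559) (mv 592 (both (five 6 495 623) (mv 463 (both (five 7 463 495) (mv 462 (both (five 3 428 428) (mv 494 (both (five 7 429 558)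 (mv 397 (both (five 4 365 365) (five 7 397 430))))))))))))))))) (mv 591 (both (five 6 463 559) (mv 592 (both (five 6 495 623) (mv 593 (both (five 4 464 561) (five 4 496 625))))))))))) (both (mv 560 (both (mv 559 (both (five 6 463 591) (mv 561 (both (five 3 525 558) (five 4 464 593))))) (both (mv 463 (both (five 7 431 431) (mv 592 (both (five 7 463 495) (mv 593 (both (five 4 464 561) (five 4 496 625))))))) (mv 463 (both (five 7 431 431) (mv 591 (both (five 6 463 559) (mv 592 (both (five 7 463 495) (five 6 495 623)))))))))) (mv 560 (both (mv 591 (both (five 6 463 559) (mv 592 (both (five 6 495 623) (mv 593 (both (five 4 464 561) (five 4 496 625))))))) (mv 431 (both (five 7 431 463) (mv 432 (both (five 7 399 399) (mv 433 (both (five 5 400 401) (five 5 432 465)))))))))))))) (both (mv 493 (both (mv 397 (both (five 4 397 494) (mv 398 (both (five 5 365 366) (five 5 397 430))))) (both (mv 430 (both (five 5 397 398) (mv 556 (both (five 6 428 524) (mv 557 (both (five 5 429 462) (five 6 460 588))))))) (mv 397 (both (five 4 397 494) (mv 524 (both (five 6 396 492) (five 6 428 556)))))))) (mv 493 (both (five 4 429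 558) (mv 430 (both (five 5 397 398) (mv 556 (both (five 6 428 524) (mv 557 (both (five 5 429 462) (five 6 460 588))))))))))))) (both (mv 494 (both (mv 495 (both (five 2 493 497) (mv 524 (both (five 2 492 493) (five 1 491 523))))) (both (mv 464 (both (mv 560 (both (mv 591 (both (five 6 463 559) (mv 592 (both (five 6 495 623) (mv 593 (both (five 4 464 561) (five 4 496 625))))))) (mv 431 (both (five 7 431 463) (mv 432 (both (five 7 399 399) (mv 433 (both (five 5 400 401) (five 5 432 465))))))))) (both (mv 462 (both (mv 463 (both (five 0 461 497) (mv 493 (both (five 2 461 465) (five 2 460 492))))) (mv 430 (both (five 6 429 557) (mv 397 (both (five 7 397 429) (mv 398 (both (five 7 365 365) (mv 399 (both (five 5 366 367) (five 5 398 431))))))))))) (both (mv 560 (both (mv 591 (both (five 6 463 559) (mv 592 (both (five 6 495 623) (mv 593 (both (five 4 464 561) (five 4 496 625))))))) (mv 433 (both (five 5 432 465) (mv 432 (both (five 5 400 401) (mv 399 (both (five 7 399 431) (mv 400 (both (five 7 367 367) (mv 397 (both (five 0 397 398) (mv 429 (both (five 4 397 493) (mv 462 (both (five 4 365 365) (five 7 397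 430))))))))))))))))) (both (mv 462 (both (mv 463 (both (five 0 461 497) (mv 493 (both (five 2 461 465) (five 2 460 492))))) (both (mv 430 (both (five 6 429 557) (mv 397 (both (five 7 397 429) (mv 398 (both (five 7 365 365) (five 6 397 493))))))) (mv 430 (both (five 6 429 557) (mv 397 (both (five 7 397 429) (mv 365 (both (five 7 365 398) (mv 463 (both (five 0 461 497) (mv 433 (both (five 1 429 432) (mv 465 (both (five 1 430 434) (five 5 432 560)))))))))))))))) (mv 462 (both (mv 463 (both (five 0 461 497) (mv 431 (both (five 7 431 560) (mv 399 (both (five 4 367 367) (five 7 399 432))))))) (mv 430 (both (five 6 429 557) (mv 397 (both (five 7 397 429) (mv 398 (both (five 7 365 365) (five 6 397 493)))))))))))))) (both (mv 493 (both (mv 429 (both (five 4 397 397) (mv 396 (both (five 7 396 428) (mv 430 (both (five 5 397 398) (mv 462 (both (five 5 429 557) (mv 431 (both (five 5 398 399) (mv 432 (both (five 2 429 433) (mv 400 (both (five 1 397 401) (mv 464 (both (five 0 429 465) (mv 463 (both (five 2 460 492) (five 7 431 560))))))))))))))))))) (both (mv 495 (both (five 2 492 524) (mv 464 (both (five 1 461 465)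 (mv 463 (both (five 1 460 492) (mv 431 (both (five 7 431 560) (mv 399 (both (five 4 367 367) (five 7 399 432))))))))))) (mv 429 (both (five 4 397 397) (mv 430 (both (five 5 397 398) (mv 556 (both (five 6 428 524) (mv 557 (both (five 5 429 462) (five 6 460 588)))))))))))) (mv 464 (both (mv 560 (both (mv 591 (both (five 6 463 559) (mv 592 (both (five 6 495 623) (mv 593 (both (five 4 464 561) (five 4 496 625))))))) (mv 431 (both (five 7 431 463) (mv 432 (both (five 7 399 399) (mv 433 (both (five 5 400 401) (five 5 432 465))))))))) (both (mv 497 (both (five 2 493 495) (mv 462 (both (five 0 461 463) (mv 430 (both (five 6 429 557) (mv 397 (both (five 7 397 429) (mv 398 (both (five 7 365 365) (mv 399 (both (five 5 366 367) (five 5 398 431))))))))))))) (both (mv 432 (both (mv 399 (both (five 7 399 431) (mv 400 (both (five 7 367 367) (mv 401 (both (five 5 368 369) (five 5 400 433))))))) (both (mv 399 (both (five 7 399 431) (mv 400 (both (five 7 367 367) (mv 369 (both (five 5 368 401) (mv 368 (both (five 5 336 337) (mv 497 (both (five 4 368 465) (five 2 493 495))))))))))) (both (mv 399 (both (five 7 399 431) (mv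 400 (both (five 7 367 367) (mv 497 (both (five 2 493 495) (mv 465 (both (five 4 368 368) (mv 560 (both (five 5 432 433) (five 5 464 592))))))))))) (mv 433 (both (five 5 400 401) (mv 495 (both (five 2 493 497) (mv 523 (both (five 1 491 524) (mv 560 (both (five 5 432 465) (mv 591 (both (five 6 463 559) (mv 592 (both (five 6 495 623) (mv 593 (both (five 4 464 561) (five 4 496 625))))))))))))))))))) (both (mv 560 (both (mv 591 (both (five 6 463 559) (mv 592 (both (five 6 495 623) (mv 593 (both (five 4 464 561) (five 4 496 625))))))) (mv 433 (both (five 5 432 465) (mv 401 (both (five 5 400 432) (mv 497 (both (five 2 493 495) (mv 462 (both (five 0 461 463) (mv 430 (both (five 6 429 557) (mv 397 (both (five 7 397 429) (mv 398 (both (five 7 365 365) (mv 399 (both (five 5 366 367) (mv 400 (both (five 0 398 434) (mv 369 (both (five 1 365 368) (five 1 366 370))))))))))))))))))))))) (mv 497 (both (five 2 493 495) (mv 463 (both (five 0 461 462) (mv 498 (both (five 3 463 499) (mv 560 (both (five 7 431 431) (mv 591 (both (five 6 463 559) (mv 592 (both (five 6 495 623) (mv 593 (both (five 4 464 561) (five 4 496 625))))))))))))))))))))))))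 (both (mv 560 (both (mv 464 (both (mv 559 (both (five 6 463 591) (mv 561 (both (five 3 525 558) (five 4 464 593))))) (both (mv 465 (both (five 5 432 433) (mv 592 (both (five 5 464 497) (mv 593 (both (five 4 464 561) (five 4 496 625))))))) (mv 465 (both (five 5 432 433) (mv 591 (both (five 6 463 559) (mv 592 (both (five 5 464 497) (five 6 495 623)))))))))) (both (mv 592 (both (mv 623 (both (five 6 495 591) (mv 624 (both (five 6 527 655) (mv 625 (both (five 4 496 593) (five 4 528 657))))))) (mv 495 (both (five 7 463 463) (mv 497 (both (five 5 464 465) (five 2 493 494))))))) (both (mv 464 (both (mv 559 (both (five 6 463 591) (mv 561 (both (five 3 525 558) (five 4 464 593))))) (mv 431 (both (five 7 431 463) (mv 432 (both (five 7 399 399) (mv 433 (both (five 5 400 401) (five 5 432 465))))))))) (both (mv 464 (both (mv 559 (both (five 6 463 591) (mv 561 (both (five 3 525 558) (five 4 464 593))))) (both (mv 463 (both (five 7 431 431) (mv 592 (both (five 7 463 495) (mv 593 (both (five 4 464 561) (five 4 496 625))))))) (mv 463 (both (five 7 431 431) (mv 591 (both (five 6 463 559) (mv 592 (both (five 7 463 495)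 (five 6 495 623)))))))))) (both (mv 464 (both (mv 465 (both (five 5 432 433) (mv 592 (both (five 5 464 497) (mv 593 (both (five 4 464 561) (five 4 496 625))))))) (both (mv 463 (both (five 7 431 431) (mv 592 (both (five 7 463 495) (mv 593 (both (five 4 464 561) (five 4 496 625))))))) (mv 431 (both (five 7 431 463) (mv 432 (both (five 7 399 399) (mv 433 (both (five 5 400 401) (five 5 432 465)))))))))) (mv 464 (both (mv 431 (both (five 7 431 463) (mv 432 (both (five 7 399 399) (mv 433 (both (five 5 400 401) (five 5 432 465))))))) (both (mv 465 (both (five 5 432 433) (mv 591 (both (five 6 463 559) (mv 592 (both (five 5 464 497) (five 6 495 623))))))) (mv 463 (both (five 7 431 431) (mv 591 (both (five 6 463 559) (mv 592 (both (five 7 463 495) (five 6 495 623)))))))))))))))) (both (mv 494 (both (mv 495 (both (five 2 493 497) (mv 524 (both (five 2 492 493) (five 1 491 523))))) (both (mv 462 (both (mv 557 (both (five 6 429 430) (mv 589 (both (five 6 461 558) (five 5 493 621))))) (both (mv 429 (both (five 7 429 558) (mv 397 (both (five 4 365 365) (five 4 397 493))))) (mv 430 (both (five 6 429 557) (mv 397 (both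 (five 7 397 429) (mv 398 (both (five 7 365 365) (five 6 397 493)))))))))) (mv 462 (both (mv 557 (both (five 6 429 430) (mv 589 (both (five 6 461 558) (five 5 493 621))))) (both (mv 495 (both (five 3 461 497) (mv 524 (both (five 1 491 523) (mv 558 (both (five 7 429 429) (mv 557 (both (five 6 461 589) (mv 559 (both (five 3 524 560) (five 4 462 591))))))))))) (both (mv 430 (both (five 6 429 557) (mv 397 (both (five 7 397 429) (mv 398 (both (five 7 365 365) (mv 399 (both (five 5 366 367) (five 5 398 431))))))))) (mv 429 (both (five 7 429 558) (mv 397 (both (five 4 365 365) (five 7 397 430)))))))))))) (both (mv 494 (both (mv 495 (both (five 2 493 497) (mv 524 (both (five 2 492 493) (five 1 491 523))))) (both (mv 462 (both (mv 557 (both (five 6 429 430) (mv 589 (both (five 6 461 558) (five 5 493 621))))) (both (mv 429 (both (five 7 429 558) (mv 397 (both (five 4 365 365) (five 4 397 493))))) (mv 430 (both (five 6 429 557) (mv 397 (both (five 7 397 429) (mv 398 (both (five 7 365 365) (five 6 397 493)))))))))) (mv 462 (both (mv 557 (both (five 6 429 430) (mv 589 (both (five 6 461 558) (five 5 493 621))))) (both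 (mv 430 (both (five 6 429 557) (mv 397 (both (five 7 397 429) (mv 398 (both (five 7 365 365) (mv 367 (both (five 5 366 399) (mv 366 (both (five 5 334 335) (mv 495 (both (five 4 366 463) (five 3 461 497))))))))))))) (both (mv 429 (both (five 7 429 558) (mv 397 (both (five 4 365 365) (five 7 397 430))))) (mv 495 (both (five 3 461 497) (mv 524 (both (five 1 491 523) (mv 558 (both (five 7 429 429) (mv 557 (both (five 6 461 589) (mv 559 (both (five 3 524 560) (five 4 462 591)))))))))))))))))) (mv 494 (both (mv 495 (both (five 2 493 497) (mv 524 (both (five 2 492 493) (five 1 491 523))))) (both (mv 462 (both (mv 557 (both (five 6 429 430) (mv 589 (both (five 6 461 558) (five 5 493 621))))) (both (mv 429 (both (five 7 429 558) (mv 397 (both (five 4 365 365) (five 4 397 493))))) (mv 430 (both (five 6 429 557) (mv 397 (both (five 7 397 429) (mv 398 (both (five 7 365 365) (five 6 397 493)))))))))) (mv 462 (both (mv 557 (both (five 6 429 430) (mv 589 (both (five 6 461 558) (five 5 493 621))))) (both (mv 430 (both (five 6 429 557) (mv 397 (both (five 7 397 429) (mv 398 (both (five 7 365 365) (mv 495 (both (five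 3 461 497) (mv 463 (both (five 4 366 366) (mv 523 (both (five 1 491 524) (mv 560 (both (five 7 463 592) (mv 464 (both (five 7 431 431) (mv 433 (both (five 1 429 432) (five 5 432 465))))))))))))))))))) (mv 497 (both (five 3 461 495) (mv 463 (both (five 0 461 464) (mv 558 (both (five 7 429 429) (five 5 430 431)))))))))))))))))))))

theorem L69 : W (S 1208204388182987309842768803467754817886800673459440285198850598843406109827813432885258293804640957463892307892347782143607236464948661840644544435777861320704) (S 747510271043583246036927862237368223946034770231802925548901300593107559553388508084777588063658423788877404106988381463320475407850398411124071986544396099193785291155938388095571246112239773548544) :=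
  check_sound Env.nil (x := 496) (t := tL69) (by decide +kernel)

end P062.Cert
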