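import Vale.Agent.P062.Check
import Vale.Agent.P062.Cert.C9

/-! Snaky certificate, part 10 (machine generated, checked by the kernel) -/

set_option maxRecDepth 100000

namespace P062.Cert

open T

def tL70 : T :=
  (both (mv 461 (both (mv 462 (both (ref 0) (both (mv 463 (both (mv 460 (both (mv 427 (both (five 3 427 428) (mv 431 (both (five 1 428 432) (mv 459 (both (five 3 426 426) (five 1 427 430))))))) (both (mv 427 (both (five 3 427 428) (mv 459 (both (five 3 426 426) (mv 491 (both (five 2 458 490) (five 2 459 492))))))) (mv 431 (both (five 1 428 432) (mv 491 (both (five 2 459 492) (mv 494 (both (five 5 430 558) (mv 399 (both (five 6 366 367) (five 5 398 430)))))))))))) (both (mv 494 (both (mv 431 (both (five 5 430 558) (mv 399 (both (five 6 366 367) (five 6 398 495))))) (both (mv 557 (both (five 6 429 430) (mv 589 (both (five 6 461 558) (five 5 493 621))))) (mv 430 (both (five 6 429 557) (mv 399 (both (five 5 398 431) (mv 398 (both (five 5 366 367) (mv 365 (both (five 7 365 397) (mv 366 (both (five 7 333 333) (five 4 366 495)))))))))))))) (mv 460 (both (mv 427 (both (five 3 427 428) (mv 459 (both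 (five 3 426 426) (mv 491 (both (five 2 458 490) (five 2 459 492))))))) (mv 496 (both (five 0 460 495) (mv 464 (both (five 0 461 497) (mv 433 (both (five 1 429 432) (mv 465 (both (five 1 430 434) (five 5 432 560)))))))))))))) (both (ref 1) (both (mv 463 (both (mv 494 (both (mv 431 (both (five 5 430 558) (mv 399 (both (five 6 366 367) (five 6 398 495))))) (both (mv 557 (both (five 6 429 430) (mv 589 (both (five 6 461 558) (five 5 493 621))))) (mv 430 (both (five 6 429 557) (mv 399 (both (five 5 398 431) (mv 398 (both (five 5 366 367) (mv 365 (both (five 7 365 397) (mv 366 (both (five 7 333 333) (five 4 366 495)))))))))))))) (both (mv 464 (both (mv 433 (both (five 1 429 432) (mv 465 (both (five 1 430 434) (mv 493 (both (five 2 460 492) (mv 430 (both (five 5 429 557) (mv 366 (both (five 6 365 398) (mv 466 (both (five 3 430 431) (mv 498 (both (five 0 462 497) (five 0 463 499))))))))))))))) (both (mv 496 (both (five 0 461 497) (mv 431 (both (five 7 431 560) (mv 399 (both (five 4 367 367) (five 7 399 432))))))) (both (mv 492 (both (five 2 460 493) (mv 496 (both (five 0 461 497) (mv 560 (both (five 7 431 431)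 (mv 433 (both (five 5 432 465) (mv 559 (both (five 6 463 591) (mv 561 (both (five 3 525 558) (five 4 464 593))))))))))))) (both (mv 433 (both (five 1 429 432) (mv 465 (both (five 1 430 434) (mv 493 (both (five 2 460 492) (mv 430 (both (five 5 429 557) (mv 366 (both (five 6 365 398) (mv 431 (both (five 3 430 466) (mv 496 (both (five 7 431 560) (mv 399 (both (five 4 367 367) (five 4 399 495))))))))))))))))) (mv 433 (both (five 1 429 432) (mv 465 (both (five 1 430 434) (mv 496 (both (five 0 461 497) (five 5 432 560)))))))))))) (both (mv 464 (both (mv 496 (both (five 0 461 497) (mv 431 (both (five 7 431 560) (mv 399 (both (five 4 367 367) (five 7 399 432))))))) (both (mv 493 (both (five 2 460 492) (mv 494 (both (five 2 461 465) (mv 431 (both (five 5 430 558) (mv 399 (both (five 6 366 367) (five 6 398 495))))))))) (mv 433 (both (five 1 429 432) (mv 465 (both (five 1 430 434) (mv 496 (both (five 0 461 497) (five 5 432 560)))))))))) (mv 464 (both (mv 433 (both (five 1 429 432) (mv 465 (both (five 1 430 434) (mv 496 (both (five 0 461 497) (five 5 432 560))))))) (mv 493 (both (five 2 460 492) (mv 430 (both (five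 5 429 557) (mv 398 (both (five 6 365 366) (five 6 397 494))))))))))))) (both (mv 557 (both (mv 430 (both (five 5 429 493) (five 6 429 494))) (both (mv 589 (both (mv 493 (both (mv 460 (both (five 7 428 428) (five 7 460 492))) (mv 588 (both (five 6 460 556) (five 6 492 620))))) (mv 494 (both (five 6 461 558) (five 5 493 621))))) (both (mv 493 (both (five 5 429 430) (mv 460 (both (five 7 428 428) (mv 492 (both (five 7 460 589) (mv 490 (both (five 1 458 491) (mv 556 (both (five 6 460 588) (mv 555 (both (five 1 522 554) (mv 524 (both (five 6 459 587) (mv 459 (both (five 7 427 427) (mv 458 (both (five 0 457 457) (five 2 457 489))))))))))))))))))) (mv 494 (both (five 6 429 430) (mv 589 (both (five 6 461 558) (five 5 493 621))))))))) (both (mv 460 (both (mv 494 (both (mv 430 (both (five 6 429 557) (mv 398 (both (five 6 397 493) (mv 399 (both (five 5 366 367) (five 5 398 431))))))) (both (mv 459 (both (five 0 459 495) (mv 426 (both (five 3 426 427) (mv 458 (both (five 3 425 425) (five 0 458 493))))))) (mv 430 (both (five 6 429 557) (mv 431 (both (five 5 398 399) (five 1 427 459)))))))) (both (mv 463 (both (mv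 427 (both (five 3 427 428) (mv 431 (both (five 1 428 432) (mv 459 (both (five 3 426 426) (five 1 427 430))))))) (both (mv 496 (both (five 0 460 495) (mv 464 (both (five 0 461 497) (mv 433 (both (five 1 429 432) (mv 465 (both (five 1 430 434) (five 5 432 560))))))))) (mv 496 (both (five 0 460 495) (mv 464 (both (five 0 461 497) (mv 560 (both (five 7 431 431) (mv 433 (both (five 5 432 465) (mv 559 (both (five 6 463 591) (mv 561 (both (five 3 525 558) (five 4 464 593)))))))))))))))) (both (mv 557 (both (mv 494 (both (five 6 429 430) (mv 589 (both (five 6 461 558) (five 5 493 621))))) (both (mv 493 (both (five 7 428 428) (five 5 429 430))) (mv 428 (both (five 7 428 493) (mv 463 (both (five 3 427 427) (mv 431 (both (five 1 428 432) (mv 494 (both (five 5 430 558) (mv 399 (both (five 6 366 367) (five 6 398 495)))))))))))))) (both (mv 463 (both (mv 427 (both (five 3 427 428) (mv 431 (both (five 1 428 432) (mv 459 (both (five 3 426 426) (mv 490 (both (five 2 458 491) (mv 458 (both (five 2 457 489) (mv 494 (both (five 0 458 493) (five 5 430 558))))))))))))) (both (mv 496 (both (five 0 460 495) (mv 464 (both (five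 0 461 497) (mv 433 (both (five 1 429 432) (mv 465 (both (five 1 430 434) (five 5 432 560))))))))) (mv 496 (both (five 0 460 495) (mv 464 (both (five 0 461 497) (mv 560 (both (five 7 431 431) (mv 433 (both (five 5 432 465) (mv 559 (both (five 6 463 591) (mv 561 (both (five 3 525 558) (five 4 464 593)))))))))))))))) (both (mv 557 (both (mv 494 (both (five 6 429 430) (mv 589 (both (five 6 461 558) (five 5 493 621))))) (mv 428 (both (five 7 428 493) (mv 427 (both (five 3 427 463) (mv 426 (both (five 0 425 425) (five 3 426 459))))))))) (mv 494 (both (mv 459 (both (five 0 459 495) (mv 458 (both (five 0 458 493) (mv 490 (both (five 2 457 489) (five 2 458 491))))))) (mv 557 (both (five 6 429 430) (mv 589 (both (five 6 461 558) (five 5 493 621))))))))))))) (mv 460 (both (mv 494 (both (mv 430 (both (five 6 429 557) (mv 398 (both (five 6 397 493) (mv 399 (both (five 5 366 367) (five 5 398 431))))))) (both (mv 459 (both (five 0 459 495) (mv 426 (both (five 3 426 427) (mv 458 (both (five 3 425 425) (five 0 458 493))))))) (mv 430 (both (five 6 429 557) (mv 431 (both (five 5 398 399) (five 1 427 459)))))))) (both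 (mv 463 (both (mv 427 (both (five 3 427 428) (mv 459 (both (five 3 426 426) (mv 491 (both (five 2 458 490) (five 2 459 492))))))) (mv 496 (both (five 0 460 495) (mv 464 (both (five 0 461 497) (mv 433 (both (five 1 429 432) (mv 465 (both (five 1 430 434) (five 5 432 560))))))))))) (both (mv 463 (both (mv 492 (both (five 2 459 491) (mv 493 (both (five 2 460 464) (mv 557 (both (five 5 429 430) (five 7 460 589))))))) (both (mv 496 (both (five 0 460 495) (mv 464 (both (five 0 461 497) (mv 433 (both (five 1 429 432) (mv 465 (both (five 1 430 434) (five 5 432 560))))))))) (mv 428 (both (five 3 427 427) (mv 431 (both (five 1 428 432) (mv 492 (both (five 2 459 491) (mv 493 (both (five 4 396 396) (five 7 428 557)))))))))))) (mv 557 (both (mv 430 (both (five 6 429 494) (mv 431 (both (five 1 427 459) (mv 432 (both (five 2 429 433) (five 1 428 463))))))) (both (mv 493 (both (five 7 428 428) (mv 589 (both (five 7 460 492) (five 5 461 494))))) (mv 493 (both (five 7 428 428) (five 5 429 430))))))))))))))))) (both (mv 493 (both (mv 429 (both (five 4 429 558) (mv 397 (both (five 4 397 494) (mv 398 (both (five 5 365 366)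 (five 5 397 430))))))) (both (mv 557 (both (mv 588 (both (five 6 460 556) (mv 589 (both (five 6 492 620) (mv 460 (both (five 7 460 492) (mv 621 (both (five 5 493 494) (mv 653 (both (five 5 525 558) (mv 654 (both (five 4 525 622) (five 4 557 686))))))))))))) (both (mv 462 (both (five 5 429 430) (mv 589 (both (five 5 461 494) (mv 492 (both (five 7 460 460) (mv 463 (both (five 2 460 464) (mv 490 (both (five 1 458 491) (mv 621 (both (five 7 492 524) (mv 653 (both (five 5 525 558) (mv 654 (both (five 4 525 622) (five 4 557 686))))))))))))))))) (both (mv 524 (both (mv 523 (both (mv 494 (both (five 1 491 495) (five 1 490 522))) (mv 555 (both (five 2 522 554) (mv 556 (both (five 6 460 588) (mv 558 (both (five 0 523 559) (mv 587 (both (five 2 554 586) (mv 492 (both (five 6 459 460) (five 5 491 619))))))))))))) (both (mv 523 (both (mv 494 (both (five 1 491 495) (five 1 490 522))) (both (mv 558 (both (five 0 522 522) (five 0 523 559))) (mv 462 (both (five 5 429 430) (mv 490 (both (five 3 490 491) (mv 494 (both (five 1 491 495) (mv 554 (both (five 2 522 555) (mv 558 (both (five 0 523 559) (mv 463 (both (five 5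 430 431) (mv 464 (both (five 2 461 465) (five 2 460 492)))))))))))))))))) (both (mv 492 (both (mv 490 (both (five 0 490 491) (mv 556 (both (five 5 460 588) (mv 555 (both (five 1 522 554) (mv 460 (both (five 6 459 587) (mv 459 (both (five 7 427 427) (mv 458 (both (five 0 457 457) (five 2 457 489))))))))))))) (both (mv 430 (both (five 5 429 462) (mv 556 (both (five 5 460 588) (mv 555 (both (five 1 522 554) (mv 460 (both (five 6 459 587) (mv 459 (both (five 7 427 427) (mv 458 (both (five 0 457 457) (five 0 458 494))))))))))))) (mv 462 (both (five 5 429 430) (mv 463 (both (five 2 460 464) (mv 491 (both (five 0 490 490) (five 1 459 494)))))))))) (both (mv 523 (both (mv 558 (both (five 0 522 522) (five 0 523 559))) (both (mv 430 (both (five 5 429 462) (mv 490 (both (five 3 490 491) (mv 522 (both (five 3 489 489) (mv 521 (both (five 1 489 492) (five 0 521 556))))))))) (mv 555 (both (five 2 522 554) (mv 556 (both (five 6 460 588) (mv 558 (both (five 0 523 559) (mv 587 (both (five 2 554 586) (mv 492 (both (five 6 459 460) (five 5 491 619)))))))))))))) (both (mv 523 (both (mv 430 (both (five 5 429 462) (mv 491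 (both (five 3 490 490) (mv 494 (both (five 1 491 495) (mv 555 (both (five 2 522 554) (mv 556 (both (five 6 460 588) (mv 459 (both (five 4 427 427) (mv 458 (both (five 7 426 426) (five 0 458 460))))))))))))))) (mv 558 (both (five 0 522 522) (five 0 523 559))))) (mv 523 (both (mv 430 (both (five 5 429 462) (mv 491 (both (five 3 490 490) (mv 494 (both (five 1 491 495) (mv 556 (both (five 6 460 588) (mv 459 (both (five 4 427 427) (mv 458 (both (five 0 458 460) (five 3 458 492))))))))))))) (mv 558 (both (five 0 522 522) (five 0 523 559))))))))))) (both (mv 430 (both (five 5 429 462) (mv 588 (both (five 6 460 556) (mv 589 (both (five 6 492 620) (mv 492 (both (five 7 460 460) (mv 621 (both (five 7 492 524) (mv 653 (both (five 5 525 558) (mv 654 (both (five 4 525 622) (five 4 557 686))))))))))))))) (both (mv 430 (both (five 5 429 462) (mv 588 (both (five 6 460 556) (mv 589 (both (five 6 492 620) (mv 621 (both (five 5 493 494) (mv 653 (both (five 5 525 558) (mv 654 (both (five 4 525 622) (five 4 557 686))))))))))))) (mv 430 (both (five 5 429 462) (mv 588 (both (five 6 460 556) (mv 589 (both (five 6 492 620)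 (mv 492 (both (five 7 460 460) (mv 621 (both (five 5 493 494) (five 7 492 524))))))))))))))))) (both (mv 557 (both (mv 588 (both (five 6 460 556) (mv 589 (both (five 6 492 620) (mv 492 (both (five 7 460 460) (mv 621 (both (five 5 493 494) (five 7 492 524))))))))) (both (mv 462 (both (five 5 429 430) (mv 589 (both (five 5 461 494) (mv 492 (both (five 7 460 460) (mv 463 (both (five 2 460 464) (mv 490 (both (five 1 458 491) (mv 620 (both (five 6 492 588) (mv 621 (both (five 7 492 524) (five 6 524 652))))))))))))))) (both (mv 430 (both (five 5 429 462) (mv 429 (both (five 5 397 398) (mv 397 (both (five 4 397 494) (mv 524 (both (five 6 396 492) (five 6 428 556))))))))) (both (mv 430 (both (five 5 429 462) (mv 429 (both (five 5 397 398) (mv 556 (both (five 6 428 524) (five 6 460 588))))))) (mv 430 (both (five 5 429 462) (mv 429 (both (five 5 397 398) (mv 494 (both (five 4 397 397) (mv 588 (both (five 6 460 556) (mv 589 (both (five 6 492 620) (five 5 493 621)))))))))))))))) (both (mv 429 (both (five 4 429 558) (mv 398 (both (five 5 397 430) (mv 397 (both (five 5 365 366) (mv 524 (both (five 6 396 492) (five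 6 428 556))))))))) (mv 429 (both (five 4 429 558) (mv 397 (both (five 4 397 494) (mv 524 (both (five 6 396 492) (five 6 428 556)))))))))))) (both (mv 462 (both (ref 0) (both (ref 2) (both (mv 524 (both (mv 493 (both (mv 429 (both (five 6 428 556) (five 4 429 558))) (both (mv 557 (both (five 5 429 430) (mv 588 (both (five 6 460 556) (mv 589 (both (five 6 492 620) (mv 621 (both (five 7 492 492) (mv 653 (both (five 5 525 558) (mv 654 (both (five 4 525 622) (five 4 557 686))))))))))))) (both (mv 429 (both (five 4 429 558) (mv 430 (both (five 5 397 398) (five 5 429 557))))) (mv 429 (both (five 6 428 556) (mv 430 (both (five 5 397 398) (five 5 429 557))))))))) (both (mv 523 (both (mv 490 (both (five 3 490 491) (mv 522 (both (five 3 489 489) (mv 554 (both (five 2 521 553) (five 2 522 555))))))) (both (mv 554 (both (five 2 522 555) (mv 522 (both (five 2 521 553) (mv 558 (both (five 0 522 557) (five 0 523 559))))))) (both (mv 490 (both (five 3 490 491) (mv 522 (both (five 3 489 489) (mv 558 (both (five 0 522 557) (five 0 523 559))))))) (mv 491 (both (five 3 490 490) (mv 459 (both (mv 555 (both (five 2 522 554)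 (mv 426 (both (five 7 426 458) (mv 427 (both (five 7 394 394) (mv 395 (both (five 4 395 492) (mv 396 (both (five 5 363 364) (five 5 395 428))))))))))) (both (mv 555 (both (five 2 522 554) (mv 426 (both (five 7 426 458) (mv 558 (both (five 0 523 559) (mv 588 (both (five 4 459 556) (mv 587 (both (five 4 491 620) (mv 618 (both (five 6 490 586) (mv 619 (both (five 5 491 492) (five 6 522 650))))))))))))))) (both (mv 427 (both (five 4 427 556) (mv 394 (both (five 7 394 426) (mv 395 (both (five 7 362 362) (mv 396 (both (five 5 363 364) (five 5 395 428))))))))) (mv 427 (both (five 4 427 556) (mv 395 (both (five 4 395 492) (mv 396 (both (five 5 363 364) (five 5 395 428))))))))))))))))) (both (mv 523 (both (mv 490 (both (five 3 490 491) (mv 522 (both (five 3 489 489) (mv 554 (both (five 2 521 553) (five 2 522 555))))))) (both (mv 554 (both (five 2 522 555) (mv 522 (both (five 2 521 553) (mv 558 (both (five 0 522 557) (five 0 523 559))))))) (both (mv 490 (both (five 3 490 491) (mv 522 (both (five 3 489 489) (mv 558 (both (five 0 522 557) (five 0 523 559))))))) (mv 555 (both (five 2 522 554) (mv 587 (both (mv 492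 (both (five 5 491 619) (mv 558 (both (five 0 523 559) (mv 493 (both (five 4 429 429) (mv 463 (both (five 2 460 464) (mv 557 (both (five 5 429 430) (mv 589 (both (five 7 492 621) (mv 588 (both (five 1 554 586) (five 6 492 620))))))))))))))) (both (mv 491 (both (five 3 490 490) (mv 558 (both (five 0 523 559) (mv 493 (both (five 4 429 429) (mv 557 (both (five 5 429 430) (mv 586 (both (five 6 490 618) (mv 588 (both (five 1 554 589) (five 4 491 620))))))))))))) (both (mv 490 (both (five 3 490 491) (mv 619 (both (five 5 491 492) (mv 650 (both (five 6 522 618) (mv 651 (both (five 6 554 682) (mv 652 (both (five 4 523 620) (five 4 555 684))))))))))) (mv 491 (both (five 3 490 490) (mv 618 (both (five 6 490 586) (mv 619 (both (five 5 491 492) (five 6 522 650))))))))))))))))) (both (mv 493 (both (mv 523 (both (mv 490 (both (five 3 490 491) (mv 522 (both (five 3 489 489) (mv 554 (both (five 2 521 553) (five 2 522 555))))))) (both (mv 554 (both (five 2 522 555) (mv 522 (both (five 2 521 553) (mv 492 (both (five 1 489 521) (mv 463 (both (five 2 460 464) (mv 557 (both (five 5 429 430) (mv 588 (both (five 5 460 556)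 (mv 589 (both (five 6 492 620) (five 7 492 621))))))))))))))) (both (mv 490 (both (five 3 490 491) (mv 522 (both (five 3 489 489) (mv 492 (both (five 1 489 521) (mv 463 (both (five 2 460 464) (mv 557 (both (five 5 429 430) (mv 588 (both (five 5 460 556) (mv 589 (both (five 6 492 620) (five 7 492 621))))))))))))))) (mv 491 (both (five 3 490 490) (mv 555 (both (five 2 522 554) (mv 557 (both (five 5 429 430) (mv 588 (both (five 6 460 556) (mv 587 (both (five 4 491 620) (mv 618 (both (five 6 490 586) (mv 619 (both (five 5 491 492) (five 6 522 650))))))))))))))))))) (both (mv 430 (both (five 5 429 557) (mv 398 (both (five 6 365 366) (five 5 397 429))))) (mv 429 (both (five 6 428 556) (mv 396 (both (five 7 396 428) (mv 397 (both (five 7 364 364) (five 6 396 492)))))))))) (both (mv 523 (both (mv 490 (both (five 3 490 491) (mv 522 (both (five 3 489 489) (mv 554 (both (five 2 521 553) (five 2 522 555))))))) (both (mv 522 (both (mv 554 (both (five 2 521 553) (five 2 522 555))) (both (mv 558 (both (five 0 523 559) (mv 493 (both (five 4 429 429) (mv 521 (both (five 1 489 492) (mv 488 (both (five 3 488 489) (mv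 520 (both (five 3 487 487) (mv 552 (both (five 2 519 551) (five 2 520 553))))))))))))) (mv 555 (both (five 2 522 554) (mv 558 (both (five 0 523 559) (mv 493 (both (five 4 429 429) (mv 521 (both (five 1 489 492) (mv 488 (both (five 3 488 489) (mv 520 (both (five 3 487 487) (five 0 520 556)))))))))))))))) (both (mv 556 (both (mv 429 (both (five 6 428 493) (mv 491 (both (five 3 490 490) (mv 427 (both (five 4 427 459) (mv 428 (both (five 0 426 426) (mv 463 (both (five 0 427 430) (five 3 428 464))))))))))) (both (mv 491 (both (five 3 490 490) (mv 459 (both (five 4 427 427) (mv 588 (both (five 7 459 492) (five 4 459 555))))))) (mv 493 (both (five 6 428 429) (mv 588 (both (five 5 460 492) (five 5 492 620)))))))) (mv 490 (both (five 3 490 491) (mv 522 (both (five 3 489 489) (mv 553 (both (five 2 521 554) (mv 521 (both (five 2 520 552) (mv 493 (both (five 1 489 492) (mv 429 (both (five 6 428 556) (five 4 429 558))))))))))))))))) (both (mv 523 (both (mv 490 (both (five 3 490 491) (mv 522 (both (five 3 489 489) (mv 554 (both (five 2 521 553) (five 2 522 555))))))) (both (mv 490 (both (five 3 490 491) (mv 522 (both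 (five 3 489 489) (mv 558 (both (five 0 522 557) (five 0 523 559))))))) (both (mv 554 (both (five 2 522 555) (mv 522 (both (five 2 521 553) (mv 558 (both (five 0 522 557) (five 0 523 559))))))) (mv 491 (both (five 3 490 490) (mv 555 (both (five 2 522 554) (mv 558 (both (five 0 523 559) (mv 493 (both (five 4 429 429) (mv 557 (both (five 5 429 430) (mv 588 (both (five 6 460 556) (mv 620 (both (five 4 491 587) (five 6 492 589))))))))))))))))))) (mv 523 (both (mv 490 (both (five 3 490 491) (mv 522 (both (five 3 489 489) (mv 554 (both (five 2 521 553) (five 2 522 555))))))) (both (mv 554 (both (five 2 522 555) (mv 522 (both (five 2 521 553) (mv 558 (both (five 0 522 557) (five 0 523 559))))))) (mv 427 (both (mv 558 (both (five 0 523 559) (mv 429 (both (five 4 429 493) (mv 428 (both (five 0 426 426) (mv 463 (both (five 0 427 430) (five 3 428 464))))))))) (both (mv 491 (both (five 3 490 490) (mv 459 (both (five 4 427 556) (mv 394 (both (five 7 394 426) (mv 395 (both (five 7 362 362) (five 4 395 492))))))))) (mv 491 (both (five 3 490 490) (mv 459 (both (five 4 427 556) (mv 395 (both (five 4 395 492) (mv 396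 (both (five 5 363 364) (five 5 395 428)))))))))))))))))))))) (both (mv 493 (both (mv 429 (both (five 4 429 558) (mv 396 (both (five 7 396 428) (mv 397 (both (five 7 364 364) (mv 524 (both (five 6 396 492) (five 6 428 556))))))))) (both (mv 460 (both (mv 463 (both (mv 427 (both (five 3 427 428) (mv 459 (both (five 3 426 426) (mv 491 (both (five 2 458 490) (five 2 459 492))))))) (mv 496 (both (five 0 460 495) (mv 464 (both (five 0 461 497) (mv 433 (both (five 1 429 432) (mv 465 (both (five 1 430 434) (five 5 432 560))))))))))) (both (mv 459 (both (mv 426 (both (five 3 426 427) (mv 458 (both (five 3 425 425) (mv 490 (both (five 2 457 489) (five 2 458 491))))))) (both (mv 426 (both (five 3 426 427) (mv 458 (both (five 3 425 425) (mv 457 (both (five 0 457 492) (mv 489 (both (five 2 456 488) (five 2 457 490))))))))) (both (mv 426 (both (five 3 426 427) (mv 458 (both (five 3 425 425) (mv 492 (both (five 0 457 457) (mv 463 (both (five 2 460 464) (five 2 459 491))))))))) (both (mv 490 (both (five 2 458 491) (mv 458 (both (five 2 457 489) (mv 492 (both (five 0 457 457) (mv 463 (both (five 2 460 464) (mv 431 (both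 (five 1 428 432) (mv 495 (both (five 0 460 496) (mv 557 (both (five 7 460 589) (mv 556 (both (five 6 460 588) (mv 427 (both (five 7 427 524) (mv 554 (both (five 5 426 522) (five 1 522 555))))))))))))))))))))) (both (mv 490 (both (five 2 458 491) (mv 458 (both (five 2 457 489) (mv 425 (both (five 3 425 426) (mv 457 (both (five 3 424 424) (five 0 457 492))))))))) (mv 426 (both (five 3 426 427) (mv 491 (both (five 2 458 490) (mv 463 (both (five 2 459 492) (mv 496 (both (five 0 460 495) (mv 464 (both (five 0 461 497) (mv 433 (both (five 1 429 432) (mv 465 (both (five 1 430 434) (five 5 432 560))))))))))))))))))))) (both (mv 428 (both (five 7 428 557) (mv 427 (both (five 3 427 463) (mv 426 (both (five 0 425 425) (five 3 426 459))))))) (mv 428 (both (five 7 428 557) (mv 396 (both (five 4 364 364) (five 4 396 492))))))))) (both (mv 429 (both (five 4 429 558) (mv 428 (both (five 7 396 396) (mv 426 (both (five 0 426 427) (mv 463 (both (five 3 428 464) (mv 556 (both (five 6 428 524) (mv 557 (both (five 7 428 460) (five 6 460 588))))))))))))) (both (mv 429 (both (five 4 429 558) (mv 428 (both (five 7 396 396)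 (mv 426 (both (five 0 426 427) (mv 460 (both (five 7 428 557) (mv 463 (both (five 3 428 464) (mv 431 (both (five 1 428 432) (mv 491 (both (five 2 459 492) (mv 459 (both (five 2 458 490) (mv 458 (both (five 3 425 425) (five 1 425 457))))))))))))))))))) (mv 429 (both (five 4 429 558) (mv 524 (both (five 6 428 556) (mv 492 (both (five 6 396 397) (mv 463 (both (five 2 460 464) (mv 491 (both (five 2 459 460) (five 1 458 490)))))))))))))))) (both (mv 493 (both (mv 557 (both (five 5 429 430) (mv 588 (both (five 6 460 556) (mv 589 (both (five 6 492 620) (mv 492 (both (five 7 460 460) (mv 621 (both (five 7 492 524) (mv 653 (both (five 5 525 558) (mv 654 (both (five 4 525 622) (five 4 557 686))))))))))))))) (both (mv 429 (both (five 4 429 558) (mv 396 (both (five 7 396 428) (mv 397 (both (five 7 364 364) (mv 524 (both (five 6 396 492) (five 6 428 556))))))))) (mv 430 (both (five 5 429 557) (mv 398 (both (five 6 365 366) (five 5 397 429)))))))) (both (mv 463 (both (mv 460 (both (mv 427 (both (five 3 427 428) (mv 431 (both (five 1 428 432) (mv 459 (both (five 3 426 426) (five 1 427 430))))))) (both (mv 431 (both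 (five 1 428 432) (mv 459 (both (five 1 427 430) (mv 491 (both (five 2 458 490) (five 2 459 492))))))) (both (mv 427 (both (five 3 427 428) (mv 459 (both (five 3 426 426) (mv 491 (both (five 2 458 490) (five 2 459 492))))))) (mv 428 (both (five 3 427 427) (mv 431 (both (five 1 428 432) (mv 492 (both (five 2 459 491) (mv 396 (both (five 4 396 493) (mv 363 (both (five 7 363 395) (mv 364 (both (five 7 331 331) (mv 365 (both (five 5 332 333) (five 5 364 397))))))))))))))))))) (both (mv 464 (both (mv 496 (both (five 0 461 497) (mv 431 (both (five 7 431 560) (mv 399 (both (five 4 367 367) (five 7 399 432))))))) (both (mv 429 (both (five 3 428 428) (mv 433 (both (five 1 429 432) (mv 465 (both (five 3 429 430) (five 1 430 434))))))) (mv 496 (both (five 0 461 497) (mv 560 (both (five 7 431 431) (mv 433 (both (five 5 432 465) (mv 559 (both (five 6 463 591) (mv 561 (both (five 3 525 558) (five 4 464 593)))))))))))))) (both (mv 460 (both (mv 431 (both (five 1 428 432) (mv 459 (both (five 1 427 430) (mv 491 (both (five 2 458 490) (five 2 459 492))))))) (both (mv 496 (both (five 0 460 495) (mv 464 (both (five 0 461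 497) (mv 433 (both (five 1 429 432) (mv 465 (both (five 1 430 434) (five 5 432 560))))))))) (mv 496 (both (five 0 460 495) (mv 464 (both (five 0 461 497) (mv 560 (both (five 7 431 431) (mv 433 (both (five 5 432 465) (mv 559 (both (five 6 463 591) (mv 561 (both (five 3 525 558) (five 4 464 593)))))))))))))))) (both (mv 460 (both (mv 427 (both (five 3 427 428) (mv 459 (both (five 3 426 426) (mv 491 (both (five 2 458 490) (five 2 459 492))))))) (mv 496 (both (five 0 460 495) (mv 464 (both (five 0 461 497) (mv 433 (both (five 1 429 432) (mv 465 (both (five 1 430 434) (five 5 432 560))))))))))) (mv 460 (both (mv 496 (both (five 0 460 495) (mv 464 (both (five 0 461 497) (mv 560 (both (five 7 431 431) (mv 433 (both (five 5 432 465) (mv 559 (both (five 6 463 591) (mv 561 (both (five 3 525 558) (five 4 464 593))))))))))))) (mv 427 (both (five 3 427 428) (mv 459 (both (five 3 426 426) (mv 491 (both (five 2 458 490) (five 2 459 492)))))))))))))) (both (mv 493 (both (mv 430 (both (five 5 429 557) (mv 398 (both (five 6 365 366) (five 5 397 429))))) (both (mv 429 (both (mv 398 (both (five 5 397 430) (mv 397 (both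 (five 5 365 366) (mv 524 (both (five 6 396 492) (five 6 428 556))))))) (both (mv 396 (both (five 7 396 428) (mv 397 (both (five 7 364 364) (mv 524 (both (five 6 396 492) (five 6 428 556))))))) (mv 398 (both (five 5 397 430) (mv 428 (both (five 7 396 396) (mv 427 (both (five 0 426 426) (mv 463 (both (five 3 427 460) (five 3 428 464)))))))))))) (mv 460 (both (mv 463 (both (mv 427 (both (five 3 427 428) (mv 459 (both (five 3 426 426) (mv 491 (both (five 2 458 490) (five 2 459 492))))))) (mv 496 (both (five 0 460 495) (mv 464 (both (five 0 461 497) (mv 433 (both (five 1 429 432) (mv 465 (both (five 1 430 434) (five 5 432 560))))))))))) (both (mv 459 (both (mv 426 (both (five 3 426 427) (mv 458 (both (five 3 425 425) (mv 490 (both (five 2 457 489) (five 2 458 491))))))) (both (mv 426 (both (five 3 426 427) (mv 458 (both (five 3 425 425) (mv 457 (both (five 0 457 492) (mv 489 (both (five 2 456 488) (five 2 457 490))))))))) (both (mv 426 (both (five 3 426 427) (mv 458 (both (five 3 425 425) (mv 492 (both (five 0 457 457) (mv 463 (both (five 2 460 464) (five 2 459 491))))))))) (both (mv 490 (both (five 2 458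 491) (mv 458 (both (five 2 457 489) (mv 492 (both (five 0 457 457) (mv 463 (both (five 2 460 464) (mv 431 (both (five 1 428 432) (mv 495 (both (five 0 460 496) (mv 557 (both (five 7 460 589) (mv 556 (both (five 6 460 588) (mv 427 (both (five 7 427 524) (mv 554 (both (five 5 426 522) (five 1 522 555))))))))))))))))))))) (both (mv 490 (both (five 2 458 491) (mv 458 (both (five 2 457 489) (mv 425 (both (five 3 425 426) (mv 457 (both (five 3 424 424) (five 0 457 492))))))))) (mv 426 (both (five 3 426 427) (mv 491 (both (five 2 458 490) (mv 463 (both (five 2 459 492) (mv 496 (both (five 0 460 495) (mv 464 (both (five 0 461 497) (mv 433 (both (five 1 429 432) (mv 465 (both (five 1 430 434) (five 5 432 560))))))))))))))))))))) (both (mv 428 (both (five 7 428 557) (mv 427 (both (five 3 427 463) (mv 426 (both (five 0 425 425) (five 3 426 459))))))) (mv 428 (both (five 7 428 557) (mv 396 (both (five 4 364 364) (five 4 396 492)))))))))))) (both (mv 493 (both (mv 557 (both (five 5 429 430) (mv 588 (both (five 6 460 556) (mv 589 (both (five 6 492 620) (mv 492 (both (five 7 460 460) (mv 621 (both (five 7 492 524)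 (mv 653 (both (five 5 525 558) (mv 654 (both (five 4 525 622) (five 4 557 686))))))))))))))) (both (mv 429 (both (five 4 429 558) (mv 524 (both (five 6 428 556) (mv 492 (both (five 6 396 397) (mv 463 (both (five 2 460 464) (mv 491 (both (five 2 459 460) (five 1 458 490))))))))))) (mv 430 (both (five 5 429 557) (mv 398 (both (five 6 365 366) (five 5 397 429)))))))) (mv 460 (both (mv 463 (both (mv 427 (both (five 3 427 428) (mv 431 (both (five 1 428 432) (mv 459 (both (five 3 426 426) (five 1 427 430))))))) (both (mv 496 (both (five 0 460 495) (mv 464 (both (five 0 461 497) (mv 433 (both (five 1 429 432) (mv 465 (both (five 1 430 434) (five 5 432 560))))))))) (mv 496 (both (five 0 460 495) (mv 464 (both (five 0 461 497) (mv 560 (both (five 7 431 431) (mv 433 (both (five 5 432 465) (mv 559 (both (five 6 463 591) (mv 561 (both (five 3 525 558) (five 4 464 593)))))))))))))))) (both (mv 493 (both (mv 429 (both (five 4 429 558) (mv 430 (both (five 5 397 398) (five 5 429 557))))) (both (mv 429 (both (five 4 429 558) (mv 396 (both (five 7 396 428) (mv 397 (both (five 7 364 364) (mv 398 (both (five 5 365 366)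 (five 5 397 430))))))))) (both (mv 557 (both (five 7 428 428) (five 5 429 430))) (mv 428 (both (five 7 428 557) (mv 396 (both (five 4 364 364) (five 7 396 429))))))))) (both (mv 459 (both (mv 426 (both (five 3 426 427) (mv 458 (both (five 3 425 425) (mv 490 (both (five 2 457 489) (five 2 458 491))))))) (mv 430 (both (five 1 427 431) (mv 493 (both (five 5 429 557) (mv 398 (both (five 6 365 366) (five 5 397 429))))))))) (mv 463 (both (mv 496 (both (five 0 460 495) (mv 464 (both (five 0 461 497) (mv 433 (both (five 1 429 432) (mv 465 (both (five 1 430 434) (five 5 432 560))))))))) (both (mv 428 (both (five 3 427 427) (mv 429 (both (five 3 428 464) (mv 493 (both (five 7 396 396) (five 7 428 557))))))) (mv 428 (both (five 3 427 427) (mv 431 (both (five 1 428 432) (mv 493 (both (five 7 428 557) (mv 396 (both (five 4 364 364) (five 7 396 429))))))))))))))))))))))))) (both (ref 3) (both (mv 462 (both (mv 463 (both (mv 460 (both (mv 427 (both (five 3 427 428) (mv 431 (both (five 1 428 432) (mv 459 (both (five 3 426 426) (five 1 427 430))))))) (both (mv 427 (both (five 3 427 428) (mv 459 (both (five 3 426 426)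 (mv 491 (both (five 2 458 490) (five 2 459 492))))))) (mv 431 (both (five 1 428 432) (mv 491 (both (five 2 459 492) (mv 494 (both (five 5 430 558) (mv 399 (both (five 6 366 367) (five 5 398 430)))))))))))) (both (mv 494 (both (mv 431 (both (five 5 430 558) (mv 399 (both (five 6 366 367) (five 6 398 495))))) (both (mv 557 (both (five 6 429 430) (mv 589 (both (five 6 461 558) (five 5 493 621))))) (mv 430 (both (five 6 429 557) (mv 399 (both (five 5 398 431) (mv 398 (both (five 5 366 367) (mv 365 (both (five 7 365 397) (mv 366 (both (five 7 333 333) (five 4 366 495)))))))))))))) (mv 460 (both (mv 427 (both (five 3 427 428) (mv 459 (both (five 3 426 426) (mv 491 (both (five 2 458 490) (five 2 459 492))))))) (mv 496 (both (five 0 460 495) (mv 464 (both (five 0 461 497) (mv 433 (both (five 1 429 432) (mv 465 (both (five 1 430 434) (five 5 432 560)))))))))))))) (both (ref 2) (both (mv 463 (both (mv 460 (both (mv 427 (both (five 3 427 428) (mv 459 (both (five 3 426 426) (mv 491 (both (five 2 458 490) (five 2 459 492))))))) (mv 431 (both (five 1 428 432) (mv 494 (both (five 5 430 558) (mv 399 (both (five 6 366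 367) (five 6 398 495))))))))) (both (mv 464 (both (mv 496 (both (five 0 461 497) (mv 431 (both (five 7 431 560) (mv 399 (both (five 4 367 367) (five 7 399 432))))))) (both (mv 428 (both (five 3 428 429) (mv 433 (both (five 1 429 432) (mv 465 (both (five 1 430 434) (mv 498 (both (five 0 462 497) (mv 466 (both (five 0 463 499) (mv 369 (both (five 4 369 401) (mv 494 (both (five 2 462 495) (mv 558 (both (five 5 430 431) (mv 557 (both (five 6 461 589) (mv 559 (both (five 4 462 591) (mv 524 (both (five 0 523 523) (five 3 524 560))))))))))))))))))))))) (both (mv 429 (both (five 3 428 428) (mv 433 (both (five 1 429 432) (mv 465 (both (five 1 430 434) (mv 558 (both (five 7 429 494) (mv 560 (both (five 5 432 496) (mv 559 (both (five 3 525 561) (mv 524 (both (five 0 523 523) (five 3 524 557))))))))))))))) (both (mv 496 (both (five 0 461 497) (mv 560 (both (five 7 431 431) (mv 433 (both (five 5 432 465) (mv 559 (both (five 6 463 591) (mv 561 (both (five 3 525 558) (five 4 464 593))))))))))) (mv 428 (both (five 3 428 429) (mv 432 (both (five 1 429 433) (mv 496 (both (five 0 461 497) (mv 399 (both (five 7 399 431)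 (mv 400 (both (five 7 367 367) (mv 368 (both (five 6 367 495) (mv 369 (both (five 5 336 337) (five 5 368 401)))))))))))))))))))) (both (mv 460 (both (mv 427 (both (five 3 427 428) (mv 459 (both (five 3 426 426) (mv 491 (both (five 2 458 490) (five 2 459 492))))))) (mv 496 (both (five 0 460 495) (mv 464 (both (five 0 461 497) (mv 433 (both (five 1 429 432) (mv 465 (both (five 1 430 434) (five 5 432 560))))))))))) (both (mv 464 (both (mv 496 (both (five 0 461 497) (mv 431 (both (five 7 431 560) (mv 399 (both (five 4 367 367) (five 7 399 432))))))) (both (mv 428 (both (five 3 428 429) (mv 432 (both (five 1 429 433) (mv 460 (both (five 3 427 427) (five 1 428 431))))))) (both (mv 496 (both (five 0 461 497) (mv 560 (both (five 7 431 431) (mv 433 (both (five 5 432 465) (mv 559 (both (five 6 463 591) (mv 561 (both (five 3 525 558) (five 4 464 593))))))))))) (mv 433 (both (five 1 429 432) (mv 465 (both (five 1 430 434) (mv 496 (both (five 0 461 497) (five 5 432 560))))))))))) (both (mv 460 (both (mv 496 (both (five 0 460 495) (mv 464 (both (five 0 461 497) (mv 560 (both (five 7 431 431) (mv 433 (both (five 5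 432 465) (mv 559 (both (five 6 463 591) (mv 561 (both (five 3 525 558) (five 4 464 593))))))))))))) (mv 427 (both (five 3 427 428) (mv 459 (both (five 3 426 426) (mv 491 (both (five 2 458 490) (five 2 459 492))))))))) (mv 496 (both (mv 464 (both (five 0 461 497) (mv 433 (both (five 1 429 432) (mv 465 (both (five 1 430 434) (five 5 432 560))))))) (both (mv 495 (both (five 0 460 460) (mv 497 (both (five 2 493 494) (five 3 462 498))))) (mv 460 (both (five 0 460 495) (mv 431 (both (five 1 428 432) (mv 491 (both (five 2 459 492) (mv 459 (both (five 2 458 490) (mv 426 (both (five 3 426 427) (mv 425 (both (five 3 425 458) (mv 558 (both (five 5 430 494) (mv 560 (both (five 7 431 464) (mv 559 (both (five 3 525 561) (mv 524 (both (five 0 523 523) (five 3 524 557)))))))))))))))))))))))))))))) (both (mv 494 (both (mv 557 (both (five 6 429 430) (mv 589 (both (five 6 461 558) (five 5 493 621))))) (both (mv 558 (both (five 7 429 429) (mv 557 (both (five 6 461 589) (mv 559 (both (five 4 462 591) (mv 524 (both (five 0 523 523) (five 3 524 560))))))))) (both (mv 429 (both (five 7 429 558) (mv 397 (both (five 4 365 365)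 (five 7 397 430))))) (mv 430 (both (five 6 429 557) (mv 397 (both (five 7 397 429) (mv 398 (both (five 7 365 365) (mv 399 (both (five 5 366 367) (five 5 398 431))))))))))))) (both (mv 460 (both (mv 463 (both (mv 427 (both (five 3 427 428) (mv 459 (both (five 3 426 426) (mv 491 (both (five 2 458 490) (five 2 459 492))))))) (mv 496 (both (five 0 460 495) (mv 464 (both (five 0 461 497) (mv 433 (both (five 1 429 432) (mv 465 (both (five 1 430 434) (five 5 432 560))))))))))) (both (mv 459 (both (mv 426 (both (five 3 426 427) (mv 458 (both (five 3 425 425) (mv 490 (both (five 2 457 489) (five 2 458 491))))))) (mv 430 (both (five 1 427 431) (mv 494 (both (five 0 459 495) (five 6 429 557))))))) (both (mv 463 (both (mv 496 (both (five 0 460 495) (mv 464 (both (five 0 461 497) (mv 433 (both (five 1 429 432) (mv 465 (both (five 1 430 434) (five 5 432 560))))))))) (both (mv 428 (both (five 3 427 427) (mv 429 (both (five 3 428 464) (mv 431 (both (five 1 428 432) (mv 492 (both (five 2 459 491) (mv 397 (both (five 6 364 365) (five 5 396 524))))))))))) (both (mv 427 (both (five 3 427 428) (mv 491 (both (five 2 459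 492) (mv 496 (both (five 0 460 495) (mv 464 (both (five 0 461 497) (mv 560 (both (five 7 431 431) (mv 591 (both (five 6 463 559) (mv 592 (both (five 6 495 623) (mv 593 (both (five 4 464 561) (five 4 496 625))))))))))))))))) (mv 428 (both (five 3 427 427) (mv 431 (both (five 1 428 432) (mv 492 (both (five 2 459 491) (mv 495 (both (five 0 460 496) (mv 524 (both (five 4 428 557) (mv 429 (both (five 5 396 397) (five 5 428 556))))))))))))))))) (both (mv 459 (both (mv 426 (both (five 3 426 427) (mv 458 (both (five 3 425 425) (mv 490 (both (five 2 457 489) (five 2 458 491))))))) (both (mv 430 (both (five 1 427 431) (mv 429 (both (five 1 426 458) (mv 494 (both (five 7 397 397) (five 6 429 557))))))) (mv 426 (both (five 3 426 427) (mv 430 (both (five 1 427 431) (mv 491 (both (five 2 458 490) (mv 463 (both (five 2 459 492) (mv 494 (both (five 6 429 557) (mv 429 (both (five 7 397 397) (mv 464 (both (five 3 428 428) (five 3 429 465)))))))))))))))))) (both (mv 463 (both (mv 431 (both (five 1 428 432) (mv 459 (both (five 1 427 430) (mv 491 (both (five 2 458 490) (five 2 459 492))))))) (both (mv 496 (both (five 0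 460 495) (mv 464 (both (five 0 461 497) (mv 433 (both (five 1 429 432) (mv 465 (both (five 1 430 434) (five 5 432 560))))))))) (mv 496 (both (five 0 460 495) (mv 464 (both (five 0 461 497) (mv 560 (both (five 7 431 431) (mv 591 (both (five 6 463 559) (mv 592 (both (five 6 495 623) (mv 593 (both (five 4 464 561) (five 4 496 625)))))))))))))))) (mv 463 (both (mv 427 (both (five 3 427 428) (mv 431 (both (five 1 428 432) (mv 459 (both (five 3 426 426) (five 1 427 430))))))) (both (mv 496 (both (five 0 460 495) (mv 464 (both (five 0 461 497) (mv 433 (both (five 1 429 432) (mv 465 (both (five 1 430 434) (five 5 432 560))))))))) (mv 496 (both (five 0 460 495) (mv 464 (both (five 0 461 497) (mv 560 (both (five 7 431 431) (mv 591 (both (five 6 463 559) (mv 592 (both (five 6 495 623) (mv 593 (both (five 4 464 561) (five 4 496 625)))))))))))))))))))))) (both (mv 463 (both (mv 460 (both (mv 427 (both (five 3 427 428) (mv 431 (both (five 1 428 432) (mv 459 (both (five 3 426 426) (five 1 427 430))))))) (both (mv 427 (both (five 3 427 428) (mv 459 (both (five 3 426 426) (mv 491 (both (five 2 458 490) (five 2 459 492)))))))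 (mv 431 (both (five 1 428 432) (mv 491 (both (five 2 459 492) (mv 494 (both (five 5 430 558) (mv 399 (both (five 6 366 367) (five 5 398 430)))))))))))) (both (mv 464 (both (mv 496 (both (five 0 461 497) (mv 431 (both (five 7 431 560) (mv 399 (both (five 4 367 367) (five 7 399 432))))))) (both (mv 429 (both (five 3 428 428) (mv 433 (both (five 1 429 432) (mv 465 (both (five 3 429 430) (five 1 430 434))))))) (mv 496 (both (five 0 461 497) (mv 560 (both (five 7 431 431) (mv 433 (both (five 5 432 465) (mv 559 (both (five 6 463 591) (mv 561 (both (five 3 525 558) (five 4 464 593)))))))))))))) (both (mv 460 (both (mv 427 (both (five 3 427 428) (mv 459 (both (five 3 426 426) (mv 491 (both (five 2 458 490) (five 2 459 492))))))) (mv 496 (both (five 0 460 495) (mv 464 (both (five 0 461 497) (mv 433 (both (five 1 429 432) (mv 465 (both (five 1 430 434) (five 5 432 560))))))))))) (both (mv 460 (both (mv 496 (both (five 0 460 495) (mv 464 (both (five 0 461 497) (mv 560 (both (five 7 431 431) (mv 433 (both (five 5 432 465) (mv 559 (both (five 6 463 591) (mv 561 (both (five 3 525 558) (five 4 464 593)))))))))))))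 (mv 427 (both (five 3 427 428) (mv 459 (both (five 3 426 426) (mv 491 (both (five 2 458 490) (five 2 459 492))))))))) (mv 460 (both (mv 431 (both (five 1 428 432) (mv 459 (both (five 1 427 430) (mv 491 (both (five 2 458 490) (five 2 459 492))))))) (both (mv 496 (both (five 0 460 495) (mv 464 (both (five 0 461 497) (mv 433 (both (five 1 429 432) (mv 465 (both (five 1 430 434) (five 5 432 560))))))))) (mv 496 (both (five 0 460 495) (mv 464 (both (five 0 461 497) (mv 560 (both (five 7 431 431) (mv 433 (both (five 5 432 465) (mv 559 (both (five 6 463 591) (mv 561 (both (five 3 525 558) (five 4 464 593))))))))))))))))))))) (both (mv 494 (both (mv 557 (both (five 6 429 430) (mv 589 (both (five 6 461 558) (five 5 493 621))))) (both (mv 429 (both (five 7 429 558) (mv 397 (both (five 4 365 365) (five 7 397 430))))) (both (mv 495 (both (mv 430 (both (five 6 429 557) (mv 397 (both (five 7 397 429) (mv 398 (both (five 7 365 365) (mv 366 (both (five 4 366 463) (mv 367 (both (five 5 334 335) (five 5 366 399))))))))))) (both (mv 460 (both (five 0 459 459) (mv 496 (both (five 0 460 463) (five 3 461 497))))) (mv 460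 (both (five 0 459 459) (mv 496 (both (five 3 461 497) (mv 524 (both (five 1 491 523) (mv 557 (both (five 6 429 430) (mv 492 (both (five 4 428 428) (mv 589 (both (five 4 460 556) (five 7 492 621)))))))))))))))) (mv 558 (both (five 7 429 429) (mv 557 (both (five 6 461 589) (mv 559 (both (five 4 462 591) (mv 524 (both (five 0 523 523) (five 3 524 560))))))))))))) (mv 494 (both (mv 557 (both (five 6 429 430) (mv 589 (both (five 6 461 558) (five 5 493 621))))) (both (mv 460 (both (mv 459 (both (five 0 459 495) (mv 426 (both (five 3 426 427) (mv 458 (both (five 3 425 425) (mv 490 (both (five 2 457 489) (five 2 458 491))))))))) (both (mv 558 (both (five 7 429 429) (mv 463 (both (five 5 430 431) (mv 428 (both (five 3 427 427) (mv 492 (both (five 2 459 491) (mv 557 (both (five 4 428 524) (five 6 461 589))))))))))) (both (mv 429 (both (five 7 429 558) (mv 365 (both (five 4 365 397) (mv 459 (both (five 0 459 495) (mv 426 (both (five 3 426 427) (mv 458 (both (five 3 425 425) (mv 457 (both (five 1 425 428) (mv 489 (both (five 2 456 488) (five 2 457 490))))))))))))))) (mv 429 (both (five 7 429 558) (mv 365 (both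 (five 4 365 397) (mv 459 (both (five 0 459 495) (mv 490 (both (five 2 458 491) (mv 458 (both (five 2 457 489) (mv 425 (both (five 3 425 426) (mv 457 (both (five 3 424 424) (five 1 425 428))))))))))))))))))) (both (mv 430 (both (five 6 429 557) (mv 397 (both (five 7 397 429) (mv 398 (both (five 7 365 365) (mv 399 (both (five 5 366 367) (five 5 398 431))))))))) (mv 429 (both (five 7 429 558) (mv 397 (both (five 4 365 365) (five 7 397 430))))))))))))))))) (both (mv 524 (both (mv 523 (both (mv 490 (both (five 3 490 491) (mv 522 (both (five 3 489 489) (mv 554 (both (five 2 521 553) (five 2 522 555))))))) (both (mv 554 (both (five 2 522 555) (mv 522 (both (five 2 521 553) (mv 558 (both (five 0 522 557) (five 0 523 559))))))) (both (mv 490 (both (five 3 490 491) (mv 522 (both (five 3 489 489) (mv 558 (both (five 0 522 557) (five 0 523 559))))))) (mv 491 (both (five 3 490 490) (mv 459 (both (mv 555 (both (five 2 522 554) (mv 426 (both (five 7 426 458) (mv 427 (both (five 7 394 394) (mv 395 (both (five 4 395 492) (mv 396 (both (five 5 363 364) (five 5 395 428))))))))))) (both (mv 555 (both (five 2 522 554) (mv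 426 (both (five 7 426 458) (mv 558 (both (five 0 523 559) (mv 588 (both (five 4 459 556) (mv 587 (both (five 4 491 620) (mv 618 (both (five 6 490 586) (mv 619 (both (five 5 491 492) (five 6 522 650))))))))))))))) (both (mv 427 (both (five 4 427 556) (mv 394 (both (five 7 394 426) (mv 395 (both (five 7 362 362) (mv 396 (both (five 5 363 364) (five 5 395 428))))))))) (mv 427 (both (five 4 427 556) (mv 395 (both (five 4 395 492) (mv 396 (both (five 5 363 364) (five 5 395 428))))))))))))))))) (both (mv 493 (both (mv 557 (both (mv 588 (both (five 6 460 556) (mv 589 (both (five 6 492 620) (mv 621 (both (five 5 493 494) (mv 653 (both (five 5 525 558) (mv 654 (both (five 4 525 622) (five 4 557 686))))))))))) (both (mv 460 (both (five 7 428 428) (mv 589 (both (five 7 460 492) (mv 621 (both (five 5 493 494) (mv 653 (both (five 5 525 558) (mv 654 (both (five 4 525 622) (five 4 557 686))))))))))) (both (mv 460 (both (five 7 428 428) (mv 556 (both (five 6 460 588) (mv 555 (both (five 1 522 554) (mv 492 (both (five 6 459 587) (mv 459 (both (five 7 427 427) (mv 458 (both (five 0 457 457) (five 0 458 494)))))))))))))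 (mv 588 (both (five 6 460 556) (mv 589 (both (five 6 492 620) (mv 621 (both (five 7 492 492) (mv 653 (both (five 5 525 558) (mv 654 (both (five 4 525 622) (five 4 557 686))))))))))))))) (both (mv 429 (both (five 4 429 558) (mv 397 (both (five 4 397 494) (mv 398 (both (five 5 365 366) (five 5 397 430))))))) (mv 429 (both (five 6 428 556) (mv 396 (both (five 7 396 428) (mv 397 (both (five 7 364 364) (five 6 396 492)))))))))) (both (mv 523 (both (mv 490 (both (five 3 490 491) (mv 522 (both (five 3 489 489) (mv 554 (both (five 2 521 553) (five 2 522 555))))))) (both (mv 554 (both (five 2 522 555) (mv 522 (both (five 2 521 553) (mv 558 (both (five 0 522 557) (five 0 523 559))))))) (both (mv 490 (both (five 3 490 491) (mv 522 (both (five 3 489 489) (mv 558 (both (five 0 522 557) (five 0 523 559))))))) (mv 460 (both (mv 558 (both (five 0 523 559) (mv 493 (both (five 4 429 429) (mv 428 (both (five 7 428 557) (mv 396 (both (five 4 364 364) (five 4 396 492))))))))) (both (mv 491 (both (five 3 490 490) (mv 494 (both (five 1 491 495) (mv 554 (both (five 2 522 555) (mv 558 (both (five 0 523 559) (mv 493 (both (five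 4 429 429) (mv 428 (both (five 7 428 557) (mv 396 (both (five 4 364 364) (mv 459 (both (five 5 395 427) (five 0 458 458))))))))))))))))) (mv 491 (both (five 3 490 490) (mv 494 (both (five 1 491 495) (mv 555 (both (five 2 522 554) (mv 587 (both (five 5 459 492) (mv 618 (both (five 6 490 586) (mv 619 (both (five 6 522 650) (mv 620 (both (five 4 491 588) (five 4 523 652)))))))))))))))))))))) (both (mv 493 (both (mv 429 (both (five 6 428 556) (mv 396 (both (five 7 396 428) (mv 397 (both (five 7 364 364) (five 6 396 492))))))) (both (mv 557 (both (mv 460 (both (five 7 428 428) (mv 556 (both (five 6 460 588) (mv 555 (both (five 1 522 554) (mv 492 (both (five 6 459 587) (mv 459 (both (five 7 427 427) (mv 458 (both (five 0 457 457) (five 0 458 494))))))))))))) (both (mv 460 (both (five 7 428 428) (mv 589 (both (five 7 460 492) (mv 494 (both (five 5 493 621) (mv 495 (both (five 2 492 496) (five 1 491 523))))))))) (both (mv 588 (both (five 6 460 556) (mv 589 (both (five 6 492 620) (mv 494 (both (five 5 493 621) (mv 495 (both (five 2 492 496) (five 1 491 523))))))))) (mv 460 (both (five 7 428 428) (mv 492 (both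 (five 7 460 589) (mv 490 (both (five 0 490 491) (mv 556 (both (five 5 460 588) (mv 459 (both (five 7 427 427) (mv 458 (both (five 0 457 457) (five 2 457 489))))))))))))))))) (both (mv 494 (both (mv 495 (both (five 2 492 496) (five 1 491 523))) (both (mv 429 (both (five 4 397 397) (mv 398 (both (five 5 397 430) (mv 428 (both (five 7 396 396) (mv 460 (both (five 7 428 557) (mv 458 (both (five 0 458 459) (mv 523 (both (five 1 490 522) (mv 555 (both (five 6 427 492) (five 2 522 554))))))))))))))) (mv 429 (both (five 4 397 397) (mv 398 (both (five 5 397 430) (mv 428 (both (five 7 396 396) (mv 460 (both (five 7 428 557) (mv 459 (both (five 0 458 458) (mv 495 (both (five 3 459 492) (five 3 460 496)))))))))))))))) (mv 429 (both (five 6 428 556) (mv 397 (both (five 4 397 494) (mv 398 (both (five 5 365 366) (five 5 397 430))))))))))) (both (mv 523 (both (mv 490 (both (five 3 490 491) (mv 522 (both (five 3 489 489) (mv 554 (both (five 2 521 553) (five 2 522 555))))))) (both (mv 490 (both (five 3 490 491) (mv 522 (both (five 3 489 489) (mv 558 (both (five 0 522 557) (five 0 523 559))))))) (both (mv 554 (both (five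 2 522 555) (mv 522 (both (five 2 521 553) (mv 558 (both (five 0 522 557) (five 0 523 559))))))) (mv 556 (both (mv 491 (both (five 3 490 490) (mv 459 (both (five 4 427 427) (mv 555 (both (five 2 522 554) (five 4 459 588))))))) (both (mv 493 (both (five 6 428 429) (mv 588 (both (five 6 460 557) (five 5 492 620))))) (mv 429 (both (five 6 428 493) (mv 491 (both (five 3 490 490) (mv 459 (both (five 4 427 427) (mv 494 (both (five 1 491 495) (mv 555 (both (five 2 522 554) (mv 458 (both (five 7 426 426) (mv 460 (both (five 5 427 428) (five 1 426 430)))))))))))))))))))))) (both (mv 523 (both (mv 490 (both (five 3 490 491) (mv 522 (both (five 3 489 489) (mv 554 (both (five 2 521 553) (five 2 522 555))))))) (both (mv 494 (both (five 1 491 495) (mv 493 (both (five 1 490 522) (mv 429 (both (five 6 428 556) (five 4 429 558))))))) (mv 491 (both (five 3 490 490) (mv 459 (both (mv 555 (both (five 2 522 554) (mv 426 (both (five 7 426 458) (mv 427 (both (five 7 394 394) (mv 395 (both (five 4 395 492) (mv 396 (both (five 5 363 364) (five 5 395 428))))))))))) (both (mv 555 (both (five 2 522 554) (mv 426 (both (five 7 426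 458) (mv 558 (both (five 0 523 559) (mv 588 (both (five 4 459 556) (mv 587 (both (five 4 491 620) (mv 618 (both (five 6 490 586) (mv 619 (both (five 5 491 492) (five 6 522 650))))))))))))))) (both (mv 427 (both (five 4 427 556) (mv 394 (both (five 7 394 426) (mv 395 (both (five 7 362 362) (mv 396 (both (five 5 363 364) (five 5 395 428))))))))) (mv 427 (both (five 4 427 556) (mv 395 (both (five 4 395 492) (mv 396 (both (five 5 363 364) (five 5 395 428)))))))))))))))) (both (mv 523 (both (mv 490 (both (five 3 490 491) (mv 522 (both (five 3 489 489) (mv 558 (both (five 0 522 557) (five 0 523 559))))))) (both (mv 494 (both (five 1 491 495) (mv 493 (both (five 1 490 522) (mv 429 (both (five 6 428 556) (five 4 429 558))))))) (mv 556 (both (mv 491 (both (five 3 490 490) (mv 459 (both (five 4 427 427) (mv 588 (both (five 7 459 492) (five 7 491 620))))))) (both (mv 429 (both (five 6 428 493) (mv 460 (both (five 5 428 492) (mv 491 (both (five 3 490 490) (mv 459 (both (five 4 427 427) (mv 430 (both (five 1 426 458) (mv 431 (both (five 2 427 428) (five 2 428 432))))))))))))) (mv 493 (both (five 6 428 429) (mv 588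 (both (five 6 460 557) (five 5 492 620))))))))))) (both (mv 523 (both (mv 490 (both (five 3 490 491) (mv 522 (both (five 3 489 489) (mv 554 (both (five 2 521 553) (five 2 522 555))))))) (both (mv 554 (both (five 2 522 555) (mv 522 (both (five 2 521 553) (mv 558 (both (five 0 522 557) (five 0 523 559))))))) (both (mv 490 (both (five 3 490 491) (mv 522 (both (five 3 489 489) (mv 558 (both (five 0 522 557) (five 0 523 559))))))) (mv 556 (both (mv 491 (both (five 3 490 490) (mv 459 (both (five 4 427 427) (mv 588 (both (five 7 459 492) (five 4 459 555))))))) (both (mv 429 (both (five 6 428 493) (mv 460 (both (five 5 428 492) (mv 491 (both (five 3 490 490) (mv 459 (both (five 4 427 427) (mv 458 (both (five 1 426 430) (mv 426 (both (five 3 425 425) (five 7 426 555))))))))))))) (mv 493 (both (five 6 428 429) (mv 588 (both (five 6 460 557) (five 5 492 620)))))))))))) (both (mv 523 (both (mv 490 (both (five 3 490 491) (mv 522 (both (five 3 489 489) (mv 554 (both (five 2 521 553) (five 2 522 555))))))) (both (mv 554 (both (five 2 522 555) (mv 522 (both (five 2 521 553) (mv 558 (both (five 0 522 557) (five 0 523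 559))))))) (both (mv 490 (both (five 3 490 491) (mv 522 (both (five 3 489 489) (mv 558 (both (five 0 522 557) (five 0 523 559))))))) (mv 492 (both (mv 558 (both (five 0 523 559) (mv 429 (both (five 4 429 493) (mv 460 (both (five 5 428 556) (mv 397 (both (five 6 364 365) (five 5 396 428))))))))) (both (mv 490 (both (five 3 490 491) (mv 494 (both (five 1 491 495) (mv 555 (both (five 2 522 554) (mv 460 (both (five 6 427 428) (mv 587 (both (five 6 459 556) (five 5 491 619))))))))))) (both (mv 491 (both (five 3 490 490) (mv 494 (both (five 1 491 495) (mv 554 (both (five 2 522 555) (mv 558 (both (five 0 523 559) (mv 493 (both (five 4 429 429) (mv 459 (both (five 3 458 458) (mv 427 (both (five 4 395 395) (five 4 427 556))))))))))))))) (mv 491 (both (five 3 490 490) (mv 494 (both (five 1 491 495) (mv 554 (both (five 2 522 555) (mv 558 (both (five 0 523 559) (mv 493 (both (five 4 429 429) (mv 459 (both (five 3 458 458) (mv 427 (both (five 4 395 395) (mv 426 (both (five 7 394 394) (mv 428 (both (five 5 395 396) (mv 460 (both (five 0 425 425) (five 7 428 557))))))))))))))))))))))))))))) (mv 523 (both (mv 490 (both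 (five 3 490 491) (mv 522 (both (five 3 489 489) (mv 554 (both (five 2 521 553) (five 2 522 555))))))) (both (mv 554 (both (five 2 522 555) (mv 522 (both (five 2 521 553) (mv 558 (both (five 0 522 557) (five 0 523 559))))))) (both (mv 490 (both (five 3 490 491) (mv 522 (both (five 3 489 489) (mv 558 (both (five 0 522 557) (five 0 523 559))))))) (mv 492 (both (mv 558 (both (five 0 523 559) (mv 429 (both (five 4 429 493) (mv 460 (both (five 5 428 556) (mv 397 (both (five 6 364 365) (five 5 396 428))))))))) (both (mv 491 (both (five 3 490 490) (mv 494 (both (five 1 491 495) (mv 555 (both (five 2 522 554) (mv 558 (both (five 0 523 559) (mv 429 (both (five 4 429 493) (mv 587 (both (five 5 491 619) (mv 586 (both (five 6 490 618) (mv 557 (both (five 2 554 556) (mv 588 (both (five 1 554 589) (five 4 491 620))))))))))))))))))) (mv 491 (both (five 3 490 490) (mv 494 (both (five 1 491 495) (mv 555 (both (five 2 522 554) (mv 460 (both (five 6 427 428) (five 5 459 587)))))))))))))))))))))))))) (both (mv 462 (both (mv 463 (both (mv 460 (both (mv 427 (both (five 3 427 428) (mv 431 (both (five 1 428 432) (mv 459 (both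 (five 3 426 426) (five 1 427 430))))))) (both (mv 427 (both (five 3 427 428) (mv 459 (both (five 3 426 426) (mv 491 (both (five 2 458 490) (five 2 459 492))))))) (mv 431 (both (five 1 428 432) (mv 491 (both (five 2 459 492) (mv 494 (both (five 5 430 558) (mv 399 (both (five 6 366 367) (five 5 398 430)))))))))))) (both (mv 464 (both (mv 496 (both (five 0 461 497) (mv 431 (both (five 7 431 560) (mv 399 (both (five 4 367 367) (five 7 399 432))))))) (both (mv 429 (both (five 3 428 428) (mv 433 (both (five 1 429 432) (mv 465 (both (five 3 429 430) (five 1 430 434))))))) (mv 496 (both (five 0 461 497) (mv 560 (both (five 7 431 431) (mv 433 (both (five 5 432 465) (mv 559 (both (five 6 463 591) (mv 561 (both (five 3 525 558) (five 4 464 593)))))))))))))) (both (mv 460 (both (mv 427 (both (five 3 427 428) (mv 459 (both (five 3 426 426) (mv 491 (both (five 2 458 490) (five 2 459 492))))))) (mv 496 (both (five 0 460 495) (mv 464 (both (five 0 461 497) (mv 433 (both (five 1 429 432) (mv 465 (both (five 1 430 434) (five 5 432 560))))))))))) (both (mv 460 (both (mv 496 (both (five 0 460 495) (mv 464 (both (five 0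 461 497) (mv 560 (both (five 7 431 431) (mv 433 (both (five 5 432 465) (mv 559 (both (five 6 463 591) (mv 561 (both (five 3 525 558) (five 4 464 593))))))))))))) (mv 427 (both (five 3 427 428) (mv 459 (both (five 3 426 426) (mv 491 (both (five 2 458 490) (five 2 459 492))))))))) (mv 460 (both (mv 431 (both (five 1 428 432) (mv 459 (both (five 1 427 430) (mv 491 (both (five 2 458 490) (five 2 459 492))))))) (both (mv 496 (both (five 0 460 495) (mv 464 (both (five 0 461 497) (mv 433 (both (five 1 429 432) (mv 465 (both (five 1 430 434) (five 5 432 560))))))))) (mv 496 (both (five 0 460 495) (mv 464 (both (five 0 461 497) (mv 560 (both (five 7 431 431) (mv 433 (both (five 5 432 465) (mv 559 (both (five 6 463 591) (mv 561 (both (five 3 525 558) (five 4 464 593))))))))))))))))))))) (both (mv 463 (both (mv 460 (both (mv 427 (both (five 3 427 428) (mv 431 (both (five 1 428 432) (mv 459 (both (five 3 426 426) (five 1 427 430))))))) (both (mv 431 (both (five 1 428 432) (mv 459 (both (five 1 427 430) (mv 491 (both (five 2 458 490) (five 2 459 492))))))) (both (mv 427 (both (five 3 427 428) (mv 459 (both (five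 3 426 426) (mv 491 (both (five 2 458 490) (five 2 459 492))))))) (mv 428 (both (five 3 427 427) (mv 431 (both (five 1 428 432) (mv 492 (both (five 2 459 491) (mv 396 (both (five 4 396 493) (mv 363 (both (five 7 363 395) (mv 364 (both (five 7 331 331) (mv 365 (both (five 5 332 333) (five 5 364 397))))))))))))))))))) (both (mv 464 (both (mv 496 (both (five 0 461 497) (mv 431 (both (five 7 431 560) (mv 399 (both (five 4 367 367) (five 7 399 432))))))) (both (mv 429 (both (five 3 428 428) (mv 433 (both (five 1 429 432) (mv 465 (both (five 3 429 430) (five 1 430 434))))))) (mv 496 (both (five 0 461 497) (mv 560 (both (five 7 431 431) (mv 433 (both (five 5 432 465) (mv 559 (both (five 6 463 591) (mv 561 (both (five 3 525 558) (five 4 464 593)))))))))))))) (both (mv 460 (both (mv 431 (both (five 1 428 432) (mv 459 (both (five 1 427 430) (mv 491 (both (five 2 458 490) (five 2 459 492))))))) (both (mv 496 (both (five 0 460 495) (mv 464 (both (five 0 461 497) (mv 433 (both (five 1 429 432) (mv 465 (both (five 1 430 434) (five 5 432 560))))))))) (mv 496 (both (five 0 460 495) (mv 464 (both (five 0 461 497) (mv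 560 (both (five 7 431 431) (mv 433 (both (five 5 432 465) (mv 559 (both (five 6 463 591) (mv 561 (both (five 3 525 558) (five 4 464 593)))))))))))))))) (both (mv 460 (both (mv 427 (both (five 3 427 428) (mv 459 (both (five 3 426 426) (mv 491 (both (five 2 458 490) (five 2 459 492))))))) (mv 496 (both (five 0 460 495) (mv 464 (both (five 0 461 497) (mv 433 (both (five 1 429 432) (mv 465 (both (five 1 430 434) (five 5 432 560))))))))))) (mv 460 (both (mv 496 (both (five 0 460 495) (mv 464 (both (five 0 461 497) (mv 560 (both (five 7 431 431) (mv 433 (both (five 5 432 465) (mv 559 (both (five 6 463 591) (mv 561 (both (five 3 525 558) (five 4 464 593))))))))))))) (mv 427 (both (five 3 427 428) (mv 459 (both (five 3 426 426) (mv 491 (both (five 2 458 490) (five 2 459 492)))))))))))))) (both (mv 429 (both (mv 494 (both (five 7 429 558) (mv 397 (both (five 4 365 365) (five 7 397 430))))) (both (mv 493 (both (five 4 429 558) (mv 396 (both (five 7 396 428) (mv 397 (both (five 7 364 364) (mv 524 (both (five 6 396 492) (five 6 428 556))))))))) (both (mv 493 (both (mv 428 (both (five 7 396 396) (mv 427 (both (five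 0 426 426) (mv 430 (both (five 5 397 398) (mv 394 (both (five 3 394 395) (mv 459 (both (five 2 426 458) (mv 431 (both (five 2 427 460) (mv 399 (both (five 1 396 400) (five 5 398 494))))))))))))))) (both (mv 397 (both (five 4 397 494) (mv 524 (both (five 6 396 492) (five 6 428 556))))) (mv 398 (both (five 5 397 430) (mv 397 (both (five 5 365 366) (mv 524 (both (five 6 396 492) (five 6 428 556)))))))))) (mv 558 (both (five 4 429 493) (five 7 429 494))))))) (both (mv 463 (both (mv 460 (both (mv 427 (both (five 3 427 428) (mv 431 (both (five 1 428 432) (mv 459 (both (five 3 426 426) (five 1 427 430))))))) (both (mv 431 (both (five 1 428 432) (mv 459 (both (five 1 427 430) (mv 491 (both (five 2 458 490) (five 2 459 492))))))) (both (mv 427 (both (five 3 427 428) (mv 459 (both (five 3 426 426) (mv 491 (both (five 2 458 490) (five 2 459 492))))))) (mv 428 (both (five 3 427 427) (mv 431 (both (five 1 428 432) (mv 492 (both (five 2 459 491) (mv 396 (both (five 4 396 493) (mv 363 (both (five 7 363 395) (mv 364 (both (five 7 331 331) (mv 365 (both (five 5 332 333) (five 5 364 397))))))))))))))))))) (both (mv 460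 (both (mv 427 (both (five 3 427 428) (mv 459 (both (five 3 426 426) (mv 491 (both (five 2 458 490) (five 2 459 492))))))) (mv 496 (both (five 0 460 495) (mv 464 (both (five 0 461 497) (mv 433 (both (five 1 429 432) (mv 465 (both (five 1 430 434) (five 5 432 560))))))))))) (both (mv 464 (both (mv 429 (both (five 3 428 428) (mv 433 (both (five 1 429 432) (mv 465 (both (five 3 429 430) (five 1 430 434))))))) (mv 496 (both (five 0 461 497) (mv 560 (both (five 7 431 431) (mv 591 (both (five 6 463 559) (mv 592 (both (five 6 495 623) (mv 593 (both (five 4 464 561) (five 4 496 625))))))))))))) (both (mv 464 (both (mv 432 (both (five 1 429 433) (mv 493 (both (five 2 460 492) (mv 465 (both (five 2 461 494) (mv 498 (both (five 0 462 497) (mv 466 (both (five 0 463 499) (mv 431 (both (five 3 430 430) (five 3 431 467))))))))))))) (both (mv 496 (both (five 0 461 497) (mv 560 (both (five 7 431 431) (mv 591 (both (five 6 463 559) (mv 592 (both (five 6 495 623) (mv 593 (both (five 4 464 561) (five 4 496 625))))))))))) (both (mv 432 (both (five 1 429 433) (mv 431 (both (five 1 428 460) (mv 496 (both (five 7 399 399) (five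 7 431 560))))))) (mv 433 (both (five 1 429 432) (mv 465 (both (five 1 430 434) (mv 496 (both (five 0 461 497) (five 5 432 560))))))))))) (mv 464 (both (mv 496 (both (five 0 461 497) (mv 560 (both (five 7 431 431) (mv 591 (both (five 6 463 559) (mv 592 (both (five 6 495 623) (mv 593 (both (five 4 464 561) (five 4 496 625))))))))))) (both (mv 428 (both (five 3 428 429) (mv 427 (both (five 3 427 460) (mv 493 (both (five 2 460 492) (mv 465 (both (five 2 461 494) (mv 434 (both (five 1 430 433) (mv 466 (both (five 1 431 435) (mv 498 (both (five 0 462 497) (five 0 463 499))))))))))))))) (mv 428 (both (five 3 428 429) (mv 427 (both (five 3 427 460) (mv 493 (both (five 2 460 492) (mv 465 (both (five 2 461 494) (mv 434 (both (five 1 430 433) (mv 466 (both (five 1 431 435) (mv 431 (both (five 3 430 430) (mv 496 (both (five 7 431 560) (mv 399 (both (five 4 367 367) (five 4 399 495))))))))))))))))))))))))))) (both (mv 429 (both (mv 558 (both (five 4 429 493) (five 7 429 494))) (both (mv 494 (both (five 7 429 558) (mv 397 (both (five 4 365 365) (five 7 397 430))))) (both (mv 493 (both (five 4 429 558) (mv 396 (both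 (five 7 396 428) (mv 397 (both (five 7 364 364) (mv 524 (both (five 6 396 492) (five 6 428 556))))))))) (mv 493 (both (mv 428 (both (five 7 396 396) (mv 427 (both (five 0 426 426) (mv 463 (both (five 0 427 430) (five 3 428 464))))))) (mv 397 (both (five 4 397 494) (mv 524 (both (five 6 396 492) (five 6 428 556))))))))))) (both (ref 1) (mv 494 (both (mv 429 (both (five 7 429 558) (mv 397 (both (five 4 365 365) (five 4 397 493))))) (both (mv 430 (both (mv 398 (both (five 6 397 493) (mv 365 (both (five 7 365 397) (mv 366 (both (five 7 333 333) (mv 367 (both (five 5 334 335) (five 5 366 399))))))))) (both (mv 431 (both (five 5 398 399) (mv 432 (both (five 2 429 433) (mv 460 (both (five 1 427 459) (five 1 428 463))))))) (mv 398 (both (five 6 397 493) (mv 365 (both (five 7 365 397) (mv 366 (both (five 7 333 333) (mv 335 (both (five 5 334 367) (mv 303 (both (five 5 302 334) (mv 463 (both (five 4 366 495) (mv 431 (both (five 5 430 558) (mv 432 (both (five 2 429 433) (five 1 428 460)))))))))))))))))))) (both (mv 493 (both (mv 429 (both (five 4 397 397) (mv 524 (both (five 6 428 556) (mv 495 (both (five 2 492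 496) (five 1 491 523))))))) (mv 430 (both (five 6 397 398) (mv 431 (both (five 5 398 399) (mv 432 (both (five 2 429 433) (mv 460 (both (five 1 427 459) (five 1 428 463))))))))))) (both (mv 429 (both (five 7 429 558) (mv 397 (both (five 4 365 365) (five 7 397 430))))) (mv 558 (both (five 7 429 429) (mv 431 (both (five 5 430 463) (mv 430 (both (five 5 398 399) (mv 433 (both (five 2 429 432) (mv 460 (both (five 1 427 459) (mv 493 (both (five 6 397 398) (mv 496 (both (five 3 460 495) (mv 559 (both (five 4 462 591) (mv 560 (both (five 3 525 561) (mv 465 (both (five 5 432 464) (mv 497 (both (five 6 400 401) (five 5 464 592))))))))))))))))))))))))))))))))))) (both (mv 493 (both (mv 557 (both (mv 588 (both (five 6 460 556) (mv 589 (both (five 6 492 620) (mv 492 (both (five 7 460 460) (mv 621 (both (five 5 493 494) (five 7 492 524))))))))) (both (mv 462 (both (five 5 429 430) (mv 588 (both (five 6 460 556) (mv 589 (both (five 5 461 494) (five 6 492 620))))))) (both (mv 430 (both (five 5 429 462) (mv 460 (both (five 7 428 428) (mv 589 (both (five 7 460 492) (mv 621 (both (five 5 493 494) (mv 652 (both (five 6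 524 620) (mv 653 (both (five 6 556 684) (mv 654 (both (five 4 525 622) (five 4 557 686))))))))))))))) (both (mv 430 (both (five 5 429 462) (mv 460 (both (five 7 428 428) (mv 492 (both (five 7 460 589) (mv 490 (both (five 0 490 491) (mv 556 (both (five 6 460 588) (mv 555 (both (five 1 522 554) (mv 524 (both (five 6 459 587) (mv 459 (both (five 7 427 427) (mv 458 (both (five 0 457 457) (five 2 457 489))))))))))))))))))) (mv 492 (both (mv 462 (both (five 5 429 430) (mv 463 (both (five 2 460 464) (mv 491 (both (five 0 490 490) (five 1 459 494))))))) (both (mv 460 (both (five 7 428 428) (mv 490 (both (five 0 490 491) (mv 556 (both (five 6 460 588) (mv 555 (both (five 1 522 554) (mv 524 (both (five 6 459 587) (mv 459 (both (five 7 427 427) (mv 458 (both (five 0 457 457) (five 2 457 489))))))))))))))) (mv 430 (both (five 5 429 462) (mv 460 (both (five 7 428 428) (mv 556 (both (five 6 460 588) (mv 555 (both (five 1 522 554) (mv 524 (both (five 6 459 587) (mv 459 (both (five 7 427 427) (mv 458 (both (five 0 457 457) (five 0 458 494))))))))))))))))))))))) (both (mv 429 (both (mv 396 (both (five 7 396 428) (mv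 397 (both (five 7 364 364) (mv 524 (both (five 6 396 492) (five 6 428 556))))))) (both (mv 396 (both (five 7 396 428) (mv 397 (both (five 7 364 364) (mv 398 (both (five 5 365 366) (five 5 397 430))))))) (mv 430 (both (five 5 397 398) (mv 556 (both (five 6 428 524) (mv 557 (both (five 5 429 462) (five 6 460 588)))))))))) (both (mv 429 (both (mv 397 (both (five 4 397 494) (mv 524 (both (five 6 396 492) (five 6 428 556))))) (both (mv 428 (both (five 7 396 396) (mv 556 (both (five 6 428 524) (mv 557 (both (five 7 428 460) (five 6 460 588))))))) (mv 396 (both (five 7 396 428) (mv 397 (both (five 7 364 364) (five 4 397 494)))))))) (both (mv 429 (both (mv 397 (both (five 4 397 494) (mv 398 (both (five 5 365 366) (five 5 397 430))))) (both (mv 428 (both (five 7 396 396) (mv 427 (both (mv 426 (both (five 0 426 462) (mv 393 (both (five 3 393 394) (mv 425 (both (five 3 392 392) (five 0 425 460))))))) (both (mv 430 (both (five 5 397 398) (mv 459 (both (five 2 426 458) (mv 431 (both (five 2 427 460) (mv 399 (both (five 1 396 400) (mv 463 (both (five 0 428 464) (mv 495 (both (five 6 398 494) (five 4 399 496)))))))))))))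 (mv 398 (both (five 5 397 430) (mv 426 (both (five 0 426 462) (mv 393 (both (five 3 393 394) (mv 425 (both (five 3 392 392) (mv 457 (both (five 2 424 456) (five 2 425 458)))))))))))))))) (both (mv 396 (both (five 7 396 428) (mv 397 (both (five 7 364 364) (five 4 397 494))))) (mv 396 (both (five 7 396 428) (mv 397 (both (five 7 364 364) (mv 398 (both (five 5 365 366) (five 5 397 430))))))))))) (mv 557 (both (mv 588 (both (five 6 460 556) (mv 589 (both (five 6 492 620) (mv 492 (both (five 7 460 460) (mv 621 (both (five 5 493 494) (five 7 492 524))))))))) (both (mv 462 (both (five 5 429 430) (mv 589 (both (five 5 461 494) (mv 492 (both (five 7 460 460) (mv 463 (both (five 2 460 464) (mv 490 (both (five 1 458 491) (mv 620 (both (five 6 492 588) (mv 621 (both (five 7 492 524) (five 6 524 652))))))))))))))) (both (mv 430 (both (five 5 429 462) (mv 429 (both (five 5 397 398) (mv 397 (both (five 4 397 494) (mv 524 (both (five 6 396 492) (five 6 428 556))))))))) (both (mv 430 (both (five 5 429 462) (mv 429 (both (five 5 397 398) (mv 556 (both (five 6 428 524) (five 6 460 588))))))) (mv 430 (both (five 5 429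 462) (mv 429 (both (five 5 397 398) (mv 494 (both (five 4 397 397) (mv 588 (both (five 6 460 556) (mv 589 (both (five 6 492 620) (five 5 493 621))))))))))))))))))))) (both (mv 493 (both (mv 429 (both (five 4 429 558) (mv 397 (both (five 4 397 494) (mv 398 (both (five 5 365 366) (five 5 397 430))))))) (both (mv 557 (both (mv 462 (both (five 5 429 430) (mv 588 (both (five 6 460 556) (mv 589 (both (five 5 461 494) (five 6 492 620))))))) (both (mv 460 (both (five 7 428 428) (mv 589 (both (five 7 460 492) (mv 621 (both (five 5 493 494) (mv 653 (both (five 5 525 558) (mv 654 (both (five 4 525 622) (five 4 557 686))))))))))) (both (mv 492 (both (mv 462 (both (five 5 429 430) (mv 463 (both (five 2 460 464) (mv 491 (both (five 2 459 460) (five 1 458 490))))))) (both (mv 460 (both (five 7 428 428) (mv 491 (both (five 0 490 490) (mv 556 (both (five 6 460 588) (mv 555 (both (five 1 522 554) (mv 523 (both (five 5 459 587) (mv 522 (both (five 2 490 494) (five 3 522 558))))))))))))) (both (mv 462 (both (five 5 429 430) (mv 463 (both (five 2 460 464) (mv 491 (both (five 0 490 490) (five 1 459 494))))))) (mv 460 (both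 (five 7 428 428) (mv 462 (both (five 5 429 430) (mv 463 (both (five 2 460 464) (mv 431 (both (five 1 428 432) (mv 494 (both (five 5 430 558) (mv 399 (both (five 6 366 367) (five 6 398 495))))))))))))))))) (mv 430 (both (five 5 429 462) (mv 460 (both (five 7 428 428) (mv 588 (both (five 6 460 556) (mv 589 (both (five 7 460 492) (five 6 492 620))))))))))))) (both (mv 557 (both (mv 462 (both (five 5 429 430) (mv 588 (both (five 6 460 556) (mv 589 (both (five 5 461 494) (five 6 492 620))))))) (both (mv 460 (both (five 7 428 428) (mv 589 (both (five 7 460 492) (mv 621 (both (five 5 493 494) (mv 652 (both (five 6 524 620) (mv 653 (both (five 6 556 684) (mv 654 (both (five 4 525 622) (five 4 557 686))))))))))))) (mv 428 (both (five 7 428 460) (mv 429 (both (five 7 396 396) (mv 430 (both (five 5 397 398) (five 5 429 462)))))))))) (both (mv 429 (both (five 4 429 558) (mv 396 (both (five 7 396 428) (mv 397 (both (five 7 364 364) (mv 398 (both (five 5 365 366) (five 5 397 430))))))))) (mv 429 (both (five 4 429 558) (mv 396 (both (five 7 396 428) (mv 397 (both (five 7 364 364) (five 4 397 494)))))))))))) (both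 (mv 524 (both (mv 493 (both (mv 429 (both (five 6 428 556) (five 4 429 558))) (both (mv 557 (both (mv 588 (both (five 6 460 556) (mv 589 (both (five 6 492 620) (mv 621 (both (five 5 493 494) (mv 653 (both (five 5 525 558) (mv 654 (both (five 4 525 622) (five 4 557 686))))))))))) (both (mv 460 (both (five 7 428 428) (mv 589 (both (five 7 460 492) (mv 621 (both (five 5 493 494) (mv 653 (both (five 5 525 558) (mv 654 (both (five 4 525 622) (five 4 557 686))))))))))) (both (mv 460 (both (five 7 428 428) (mv 556 (both (five 6 460 588) (mv 555 (both (five 1 522 554) (mv 492 (both (five 6 459 587) (mv 459 (both (five 7 427 427) (mv 458 (both (five 0 457 457) (five 0 458 494))))))))))))) (mv 588 (both (five 6 460 556) (mv 589 (both (five 6 492 620) (mv 621 (both (five 7 492 492) (mv 653 (both (five 5 525 558) (mv 654 (both (five 4 525 622) (five 4 557 686))))))))))))))) (both (mv 429 (both (five 4 429 558) (mv 396 (both (five 7 396 428) (mv 397 (both (five 7 364 364) (five 4 397 494))))))) (mv 429 (both (five 6 428 556) (mv 396 (both (five 7 396 428) (mv 397 (both (five 7 364 364) (five 6 396 492)))))))))))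 (both (mv 523 (both (mv 490 (both (five 3 490 491) (mv 522 (both (five 3 489 489) (mv 554 (both (five 2 521 553) (five 2 522 555))))))) (both (mv 554 (both (five 2 522 555) (mv 522 (both (five 2 521 553) (mv 558 (both (five 0 522 557) (five 0 523 559))))))) (both (mv 490 (both (five 3 490 491) (mv 522 (both (five 3 489 489) (mv 558 (both (five 0 522 557) (five 0 523 559))))))) (mv 491 (both (five 3 490 490) (mv 459 (both (mv 555 (both (five 2 522 554) (mv 426 (both (five 7 426 458) (mv 427 (both (five 7 394 394) (mv 395 (both (five 4 395 492) (mv 396 (both (five 5 363 364) (five 5 395 428))))))))))) (both (mv 555 (both (five 2 522 554) (mv 426 (both (five 7 426 458) (mv 558 (both (five 0 523 559) (mv 588 (both (five 4 459 556) (mv 587 (both (five 4 491 620) (mv 618 (both (five 6 490 586) (mv 619 (both (five 5 491 492) (five 6 522 650))))))))))))))) (both (mv 427 (both (five 4 427 556) (mv 394 (both (five 7 394 426) (mv 395 (both (five 7 362 362) (mv 396 (both (five 5 363 364) (five 5 395 428))))))))) (mv 427 (both (five 4 427 556) (mv 395 (both (five 4 395 492) (mv 396 (both (five 5 363 364) (five 5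 395 428))))))))))))))))) (both (mv 493 (both (mv 494 (both (mv 495 (both (five 2 492 496) (five 1 491 523))) (both (mv 429 (both (five 4 397 397) (mv 428 (both (five 7 396 396) (mv 460 (both (five 7 428 557) (mv 458 (both (five 0 458 459) (mv 523 (both (five 1 490 522) (mv 555 (both (five 6 427 492) (five 2 522 554))))))))))))) (mv 429 (both (five 4 397 397) (mv 428 (both (five 7 396 396) (mv 460 (both (five 7 428 557) (mv 459 (both (five 0 458 458) (mv 495 (both (five 3 459 492) (five 3 460 496)))))))))))))) (both (mv 557 (both (mv 460 (both (five 7 428 428) (mv 556 (both (five 6 460 588) (mv 555 (both (five 1 522 554) (mv 492 (both (five 6 459 587) (mv 459 (both (five 7 427 427) (mv 458 (both (five 0 457 457) (five 0 458 494))))))))))))) (both (mv 460 (both (five 7 428 428) (mv 589 (both (five 7 460 492) (mv 494 (both (five 5 493 621) (mv 495 (both (five 2 492 496) (five 1 491 523))))))))) (both (mv 588 (both (five 6 460 556) (mv 589 (both (five 6 492 620) (mv 494 (both (five 5 493 621) (mv 495 (both (five 2 492 496) (five 1 491 523))))))))) (mv 460 (both (five 7 428 428) (mv 492 (both (five 7 460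 589) (mv 490 (both (five 0 490 491) (mv 556 (both (five 5 460 588) (mv 459 (both (five 7 427 427) (mv 458 (both (five 0 457 457) (five 2 457 489))))))))))))))))) (both (mv 429 (both (five 6 428 556) (mv 396 (both (five 7 396 428) (mv 397 (both (five 7 364 364) (five 4 397 494))))))) (mv 429 (both (five 6 428 556) (mv 397 (both (five 6 396 492) (mv 364 (both (five 7 364 396) (mv 365 (both (five 7 332 332) (mv 366 (both (five 5 333 334) (five 5 365 398))))))))))))))) (both (mv 523 (both (mv 490 (both (five 3 490 491) (mv 522 (both (five 3 489 489) (mv 554 (both (five 2 521 553) (five 2 522 555))))))) (both (mv 490 (both (five 3 490 491) (mv 522 (both (five 3 489 489) (mv 558 (both (five 0 522 557) (five 0 523 559))))))) (both (mv 554 (both (five 2 522 555) (mv 522 (both (five 2 521 553) (mv 558 (both (five 0 522 557) (five 0 523 559))))))) (mv 490 (both (five 3 490 491) (mv 494 (both (five 1 491 495) (mv 554 (both (five 2 522 555) (mv 558 (both (five 0 523 559) (mv 429 (both (five 7 429 462) (five 4 429 493))))))))))))))) (both (mv 523 (both (mv 490 (both (five 3 490 491) (mv 522 (both (five 3 489 489)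 (mv 554 (both (five 2 521 553) (five 2 522 555))))))) (both (mv 494 (both (five 1 491 495) (mv 493 (both (five 1 490 522) (mv 429 (both (five 6 428 556) (five 4 429 558))))))) (mv 491 (both (five 3 490 490) (mv 459 (both (mv 555 (both (five 2 522 554) (mv 426 (both (five 7 426 458) (mv 427 (both (five 7 394 394) (mv 395 (both (five 4 395 492) (mv 396 (both (five 5 363 364) (five 5 395 428))))))))))) (both (mv 555 (both (five 2 522 554) (mv 426 (both (five 7 426 458) (mv 558 (both (five 0 523 559) (mv 588 (both (five 4 459 556) (mv 587 (both (five 4 491 620) (mv 618 (both (five 6 490 586) (mv 619 (both (five 5 491 492) (five 6 522 650))))))))))))))) (both (mv 427 (both (five 4 427 556) (mv 394 (both (five 7 394 426) (mv 395 (both (five 7 362 362) (mv 396 (both (five 5 363 364) (five 5 395 428))))))))) (mv 427 (both (five 4 427 556) (mv 395 (both (five 4 395 492) (mv 396 (both (five 5 363 364) (five 5 395 428)))))))))))))))) (mv 523 (both (mv 490 (both (five 3 490 491) (mv 522 (both (five 3 489 489) (mv 558 (both (five 0 522 557) (five 0 523 559))))))) (both (mv 490 (both (five 3 490 491) (mv 494 (both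 (five 1 491 495) (mv 522 (both (five 3 489 489) (five 1 490 493))))))) (both (mv 494 (both (five 1 491 495) (mv 493 (both (five 1 490 522) (mv 429 (both (five 6 428 556) (five 4 429 558))))))) (mv 490 (both (five 3 490 491) (mv 494 (both (five 1 491 495) (mv 558 (both (five 0 523 559) (mv 429 (both (five 7 429 462) (five 4 429 493))))))))))))))))))) (both (mv 462 (both (mv 494 (both (mv 557 (both (five 6 429 430) (mv 589 (both (five 6 461 558) (five 5 493 621))))) (both (mv 558 (both (five 7 429 429) (mv 557 (both (five 6 461 589) (mv 559 (both (five 4 462 591) (mv 524 (both (five 0 523 523) (five 3 524 560))))))))) (both (mv 429 (both (five 7 429 558) (mv 397 (both (five 4 365 365) (five 7 397 430))))) (mv 430 (both (five 6 429 557) (mv 397 (both (five 7 397 429) (mv 398 (both (five 7 365 365) (mv 399 (both (five 5 366 367) (five 5 398 431))))))))))))) (both (mv 460 (both (mv 463 (both (mv 427 (both (five 3 427 428) (mv 431 (both (five 1 428 432) (mv 459 (both (five 3 426 426) (five 1 427 430))))))) (both (mv 496 (both (five 0 460 495) (mv 464 (both (five 0 461 497) (mv 433 (both (five 1 429 432) (mv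 465 (both (five 1 430 434) (five 5 432 560))))))))) (mv 496 (both (five 0 460 495) (mv 464 (both (five 0 461 497) (mv 560 (both (five 7 431 431) (mv 433 (both (five 5 432 465) (mv 559 (both (five 6 463 591) (mv 561 (both (five 3 525 558) (five 4 464 593)))))))))))))))) (both (mv 493 (both (mv 429 (both (five 4 429 558) (mv 430 (both (five 5 397 398) (five 5 429 557))))) (both (mv 429 (both (five 4 429 558) (mv 396 (both (five 7 396 428) (mv 397 (both (five 7 364 364) (mv 398 (both (five 5 365 366) (five 5 397 430))))))))) (both (mv 557 (both (five 7 428 428) (five 5 429 430))) (mv 428 (both (five 7 428 557) (mv 396 (both (five 4 364 364) (five 7 396 429))))))))) (both (mv 459 (both (mv 426 (both (five 3 426 427) (mv 458 (both (five 3 425 425) (mv 490 (both (five 2 457 489) (five 2 458 491))))))) (mv 430 (both (five 1 427 431) (mv 493 (both (five 5 429 557) (mv 398 (both (five 6 365 366) (five 5 397 429))))))))) (mv 463 (both (mv 496 (both (five 0 460 495) (mv 464 (both (five 0 461 497) (mv 433 (both (five 1 429 432) (mv 465 (both (five 1 430 434) (five 5 432 560))))))))) (both (mv 428 (both (five 3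 427 427) (mv 429 (both (five 3 428 464) (mv 493 (both (five 7 396 396) (five 7 428 557))))))) (mv 428 (both (five 3 427 427) (mv 431 (both (five 1 428 432) (mv 493 (both (five 7 428 557) (mv 396 (both (five 4 364 364) (five 7 396 429)))))))))))))))) (both (mv 460 (both (mv 494 (both (mv 430 (both (five 6 429 557) (mv 398 (both (five 6 397 493) (mv 399 (both (five 5 366 367) (five 5 398 431))))))) (both (mv 459 (both (five 0 459 495) (mv 426 (both (five 3 426 427) (mv 458 (both (five 3 425 425) (five 0 458 493))))))) (mv 430 (both (five 6 429 557) (mv 431 (both (five 5 398 399) (five 1 427 459)))))))) (both (mv 463 (both (mv 427 (both (five 3 427 428) (mv 431 (both (five 1 428 432) (mv 459 (both (five 3 426 426) (five 1 427 430))))))) (both (mv 496 (both (five 0 460 495) (mv 464 (both (five 0 461 497) (mv 433 (both (five 1 429 432) (mv 465 (both (five 1 430 434) (five 5 432 560))))))))) (mv 496 (both (five 0 460 495) (mv 464 (both (five 0 461 497) (mv 560 (both (five 7 431 431) (mv 433 (both (five 5 432 465) (mv 559 (both (five 6 463 591) (mv 561 (both (five 3 525 558) (five 4 464 593))))))))))))))))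 (both (mv 557 (both (mv 494 (both (five 6 429 430) (mv 589 (both (five 6 461 558) (five 5 493 621))))) (both (mv 493 (both (five 7 428 428) (five 5 429 430))) (mv 428 (both (five 7 428 493) (mv 463 (both (five 3 427 427) (mv 431 (both (five 1 428 432) (mv 494 (both (five 5 430 558) (mv 399 (both (five 6 366 367) (five 6 398 495)))))))))))))) (both (mv 463 (both (mv 427 (both (five 3 427 428) (mv 431 (both (five 1 428 432) (mv 459 (both (five 3 426 426) (mv 490 (both (five 2 458 491) (mv 458 (both (five 2 457 489) (mv 494 (both (five 0 458 493) (five 5 430 558))))))))))))) (both (mv 496 (both (five 0 460 495) (mv 464 (both (five 0 461 497) (mv 433 (both (five 1 429 432) (mv 465 (both (five 1 430 434) (five 5 432 560))))))))) (mv 496 (both (five 0 460 495) (mv 464 (both (five 0 461 497) (mv 560 (both (five 7 431 431) (mv 433 (both (five 5 432 465) (mv 559 (both (five 6 463 591) (mv 561 (both (five 3 525 558) (five 4 464 593)))))))))))))))) (both (mv 557 (both (mv 494 (both (five 6 429 430) (mv 589 (both (five 6 461 558) (five 5 493 621))))) (mv 428 (both (five 7 428 493) (mv 427 (both (five 3 427 463)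 (mv 426 (both (five 0 425 425) (five 3 426 459))))))))) (mv 494 (both (mv 459 (both (five 0 459 495) (mv 458 (both (five 0 458 493) (mv 490 (both (five 2 457 489) (five 2 458 491))))))) (mv 557 (both (five 6 429 430) (mv 589 (both (five 6 461 558) (five 5 493 621))))))))))))) (both (mv 463 (both (mv 460 (both (mv 431 (both (five 1 428 432) (mv 494 (both (five 5 430 558) (mv 399 (both (five 6 366 367) (five 6 398 495))))))) (both (mv 428 (both (five 3 427 427) (mv 431 (both (five 1 428 432) (mv 493 (both (five 7 428 557) (mv 396 (both (five 4 364 364) (five 7 396 429))))))))) (mv 427 (both (five 3 427 428) (mv 459 (both (five 3 426 426) (mv 495 (both (five 0 459 494) (five 0 460 496)))))))))) (both (mv 464 (both (mv 496 (both (five 0 461 497) (mv 431 (both (five 7 431 560) (mv 399 (both (five 4 367 367) (five 7 399 432))))))) (both (mv 428 (both (five 3 428 429) (mv 433 (both (five 1 429 432) (mv 465 (both (five 1 430 434) (mv 498 (both (five 0 462 497) (mv 466 (both (five 0 463 499) (mv 369 (both (five 4 369 401) (mv 494 (both (five 2 462 495) (mv 558 (both (five 5 430 431) (mv 557 (both (five 6 461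 589) (mv 559 (both (five 4 462 591) (mv 524 (both (five 0 523 523) (five 3 524 560))))))))))))))))))))))) (both (mv 429 (both (five 3 428 428) (mv 433 (both (five 1 429 432) (mv 465 (both (five 1 430 434) (mv 558 (both (five 7 429 494) (mv 560 (both (five 5 432 496) (mv 559 (both (five 3 525 561) (mv 524 (both (five 0 523 523) (five 3 524 557))))))))))))))) (both (mv 496 (both (five 0 461 497) (mv 560 (both (five 7 431 431) (mv 433 (both (five 5 432 465) (mv 559 (both (five 6 463 591) (mv 561 (both (five 3 525 558) (five 4 464 593))))))))))) (mv 428 (both (five 3 428 429) (mv 432 (both (five 1 429 433) (mv 496 (both (five 0 461 497) (mv 399 (both (five 7 399 431) (mv 400 (both (five 7 367 367) (mv 368 (both (five 6 367 495) (mv 369 (both (five 5 336 337) (five 5 368 401)))))))))))))))))))) (both (mv 429 (both (mv 558 (both (five 4 429 493) (five 7 429 494))) (mv 428 (both (five 3 428 464) (mv 427 (both (five 0 426 426) (five 3 427 460))))))) (both (mv 464 (both (mv 428 (both (five 3 428 429) (mv 432 (both (five 1 429 433) (mv 460 (both (five 3 427 427) (five 1 428 431))))))) (both (mv 496 (both (five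 0 461 497) (mv 560 (both (five 7 431 431) (mv 591 (both (five 6 463 559) (mv 592 (both (five 6 495 623) (mv 593 (both (five 4 464 561) (five 4 496 625))))))))))) (mv 433 (both (five 1 429 432) (mv 465 (both (five 1 430 434) (mv 496 (both (five 0 461 497) (five 5 432 560)))))))))) (mv 496 (both (mv 495 (both (five 0 460 460) (mv 497 (both (five 2 493 494) (five 3 462 498))))) (both (mv 464 (both (five 0 461 497) (mv 433 (both (five 1 429 432) (mv 465 (both (five 1 430 434) (five 5 432 560))))))) (mv 460 (both (five 0 460 495) (mv 431 (both (five 1 428 432) (mv 558 (both (five 5 430 494) (mv 560 (both (five 7 431 464) (mv 559 (both (five 3 525 561) (mv 524 (both (five 0 523 523) (five 3 524 557))))))))))))))))))))) (both (mv 429 (both (mv 558 (both (five 4 429 493) (five 7 429 494))) (both (mv 493 (both (five 4 429 558) (mv 396 (both (five 7 396 428) (mv 397 (both (five 7 364 364) (mv 398 (both (five 5 365 366) (five 5 397 430))))))))) (both (mv 494 (both (five 7 429 558) (mv 397 (both (five 4 365 365) (five 7 397 430))))) (mv 430 (both (mv 494 (both (five 7 397 397) (mv 399 (both (five 5 398 431) (mv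 398 (both (five 5 366 367) (mv 366 (both (five 6 333 334) (mv 463 (both (five 4 366 495) (mv 464 (both (five 3 428 428) (five 3 429 465))))))))))))) (both (mv 398 (both (five 5 397 493) (mv 366 (both (five 6 333 334) (mv 335 (both (five 5 334 367) (mv 463 (both (five 4 366 495) (mv 464 (both (five 3 428 428) (five 3 429 465))))))))))) (both (mv 397 (both (five 7 397 494) (mv 365 (both (five 4 333 333) (mv 334 (both (five 5 333 366) (mv 364 (both (five 7 332 332) (mv 396 (both (five 7 364 493) (mv 395 (both (five 0 394 394) (mv 431 (both (five 3 395 428) (five 3 396 432))))))))))))))) (both (mv 397 (both (five 7 397 494) (mv 333 (both (five 4 333 365) (mv 398 (both (five 5 397 493) (mv 366 (both (five 6 333 334) (mv 335 (both (five 5 334 367) (mv 463 (both (five 4 366 495) (mv 464 (both (five 3 429 465) (mv 432 (both (five 1 429 433) (mv 431 (both (five 1 428 460) (mv 496 (both (five 7 399 399) (five 7 431 560))))))))))))))))))))) (mv 397 (both (five 7 397 494) (mv 333 (both (five 4 333 365) (mv 493 (both (five 5 397 398) (mv 428 (both (five 7 396 396) (mv 427 (both (five 0 426 426) (mv 463 (both (five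 3 427 460) (five 3 428 464)))))))))))))))))))))) (both (mv 430 (both (mv 493 (both (five 5 429 557) (mv 398 (both (five 6 365 366) (five 5 397 429))))) (both (mv 429 (both (mv 493 (both (five 5 397 398) (mv 428 (both (five 7 396 396) (mv 427 (both (five 0 426 426) (mv 463 (both (five 3 427 460) (five 3 428 464))))))))) (both (mv 494 (both (five 7 397 397) (mv 399 (both (five 5 398 431) (mv 398 (both (five 5 366 367) (mv 366 (both (five 6 333 334) (mv 463 (both (five 4 366 495) (mv 464 (both (five 3 428 428) (five 3 429 465))))))))))))) (both (mv 397 (both (five 7 397 494) (mv 365 (both (five 4 333 333) (mv 334 (both (five 5 333 366) (mv 364 (both (five 7 332 332) (mv 396 (both (five 7 364 493) (mv 395 (both (five 0 394 394) (mv 431 (both (five 3 395 428) (five 3 396 432))))))))))))))) (mv 398 (both (five 5 397 493) (mv 366 (both (five 6 333 334) (mv 335 (both (five 5 334 367) (mv 463 (both (five 4 366 495) (mv 464 (both (five 3 429 465) (mv 432 (both (five 1 429 433) (mv 431 (both (five 1 428 460) (mv 496 (both (five 7 399 399) (five 7 431 560))))))))))))))))))))) (both (mv 494 (both (five 6 429 557)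 (mv 397 (both (five 7 397 429) (mv 398 (both (five 7 365 365) (mv 399 (both (five 5 366 367) (five 5 398 431))))))))) (mv 557 (both (five 5 429 493) (five 6 429 494))))))) (mv 494 (both (mv 557 (both (five 6 429 430) (mv 589 (both (five 6 461 558) (five 5 493 621))))) (both (mv 429 (both (five 7 429 558) (mv 397 (both (five 4 365 365) (five 4 397 493))))) (mv 430 (both (five 6 429 557) (mv 397 (both (five 7 397 429) (mv 398 (both (five 7 365 365) (five 6 397 493))))))))))))))))) (both (mv 493 (both (mv 557 (both (mv 588 (both (five 6 460 556) (mv 589 (both (five 6 492 620) (mv 492 (both (five 7 460 460) (mv 621 (both (five 5 493 494) (five 7 492 524))))))))) (both (mv 462 (both (five 5 429 430) (mv 588 (both (five 6 460 556) (mv 589 (both (five 5 461 494) (five 6 492 620))))))) (both (mv 430 (both (five 5 429 462) (mv 460 (both (five 7 428 428) (mv 589 (both (five 7 460 492) (mv 621 (both (five 5 493 494) (mv 652 (both (five 6 524 620) (mv 653 (both (five 6 556 684) (mv 654 (both (five 4 525 622) (five 4 557 686))))))))))))))) (both (mv 430 (both (five 5 429 462) (mv 460 (both (five 7 428 428) (mv 492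 (both (five 7 460 589) (mv 490 (both (five 0 490 491) (mv 556 (both (five 6 460 588) (mv 555 (both (five 1 522 554) (mv 524 (both (five 6 459 587) (mv 459 (both (five 7 427 427) (mv 458 (both (five 0 457 457) (five 2 457 489))))))))))))))))))) (mv 492 (both (mv 462 (both (five 5 429 430) (mv 463 (both (five 2 460 464) (mv 491 (both (five 0 490 490) (five 1 459 494))))))) (both (mv 460 (both (five 7 428 428) (mv 490 (both (five 0 490 491) (mv 556 (both (five 6 460 588) (mv 555 (both (five 1 522 554) (mv 524 (both (five 6 459 587) (mv 459 (both (five 7 427 427) (mv 458 (both (five 0 457 457) (five 2 457 489))))))))))))))) (mv 430 (both (five 5 429 462) (mv 460 (both (five 7 428 428) (mv 556 (both (five 6 460 588) (mv 555 (both (five 1 522 554) (mv 524 (both (five 6 459 587) (mv 459 (both (five 7 427 427) (mv 458 (both (five 0 457 457) (five 0 458 494))))))))))))))))))))))) (both (mv 429 (both (five 4 429 558) (mv 428 (both (five 7 396 396) (mv 427 (both (mv 426 (both (five 0 426 462) (mv 393 (both (five 3 393 394) (mv 425 (both (five 3 392 392) (five 0 425 460))))))) (both (mv 430 (both (five 5 397 398)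 (mv 459 (both (five 2 426 458) (mv 431 (both (five 2 427 460) (mv 399 (both (five 1 396 400) (mv 463 (both (five 0 428 464) (mv 495 (both (five 6 398 494) (five 4 399 496))))))))))))) (mv 398 (both (five 5 397 430) (mv 426 (both (five 0 426 462) (mv 393 (both (five 3 393 394) (mv 425 (both (five 3 392 392) (mv 457 (both (five 2 424 456) (five 2 425 458)))))))))))))))))) (both (mv 429 (both (five 4 429 558) (mv 428 (both (five 7 396 396) (mv 556 (both (five 6 428 524) (mv 557 (both (five 7 428 460) (five 6 460 588))))))))) (mv 429 (both (five 4 429 558) (mv 430 (both (five 5 397 398) (mv 556 (both (five 6 428 524) (mv 557 (both (five 5 429 462) (five 6 460 588))))))))))))) (mv 493 (both (mv 429 (both (five 4 429 558) (mv 397 (both (five 4 397 494) (mv 524 (both (five 6 396 492) (five 6 428 556))))))) (both (mv 557 (both (mv 588 (both (five 6 460 556) (mv 589 (both (five 6 492 620) (mv 492 (both (five 7 460 460) (mv 621 (both (five 5 493 494) (five 7 492 524))))))))) (both (mv 462 (both (five 5 429 430) (mv 588 (both (five 6 460 556) (mv 589 (both (five 5 461 494) (five 6 492 620))))))) (both (mv 430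 (both (five 5 429 462) (mv 460 (both (five 7 428 428) (mv 589 (both (five 7 460 492) (mv 621 (both (five 5 493 494) (mv 652 (both (five 6 524 620) (mv 653 (both (five 6 556 684) (mv 654 (both (five 4 525 622) (five 4 557 686))))))))))))))) (both (mv 430 (both (five 5 429 462) (mv 460 (both (five 7 428 428) (mv 492 (both (five 7 460 589) (mv 490 (both (five 0 490 491) (mv 556 (both (five 6 460 588) (mv 555 (both (five 1 522 554) (mv 524 (both (five 6 459 587) (mv 459 (both (five 7 427 427) (mv 458 (both (five 0 457 457) (five 2 457 489))))))))))))))))))) (mv 492 (both (mv 462 (both (five 5 429 430) (mv 463 (both (five 2 460 464) (mv 491 (both (five 0 490 490) (five 1 459 494))))))) (both (mv 460 (both (five 7 428 428) (mv 490 (both (five 0 490 491) (mv 556 (both (five 6 460 588) (mv 555 (both (five 1 522 554) (mv 524 (both (five 6 459 587) (mv 459 (both (five 7 427 427) (mv 458 (both (five 0 457 457) (five 2 457 489))))))))))))))) (mv 430 (both (five 5 429 462) (mv 460 (both (five 7 428 428) (mv 556 (both (five 6 460 588) (mv 555 (both (five 1 522 554) (mv 524 (both (five 6 459 587) (mv 459 (both (five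 7 427 427) (mv 458 (both (five 0 457 457) (five 0 458 494))))))))))))))))))))))) (both (mv 429 (both (five 4 429 558) (mv 396 (both (five 7 396 428) (mv 397 (both (five 7 364 364) (mv 524 (both (five 6 396 492) (five 6 428 556))))))))) (mv 429 (both (five 4 429 558) (mv 396 (both (five 7 396 428) (mv 397 (both (five 7 364 364) (five 4 397 494)))))))))))))))))))))))) (both (mv 527 (both (mv 492 (both (five 3 492 493) (mv 496 (both (five 1 493 497) (mv 524 (both (five 3 491 491) (five 1 492 495))))))) (both (mv 492 (both (five 3 492 493) (mv 524 (both (five 3 491 491) (mv 560 (both (five 0 524 559) (five 0 525 561))))))) (both (mv 496 (both (five 1 493 497) (mv 495 (both (five 1 492 524) (mv 560 (both (five 0 525 561) (mv 463 (both (five 4 431 431) (five 7 463 592))))))))) (mv 496 (both (five 1 493 497) (mv 464 (both (mv 560 (both (mv 559 (both (five 6 463 591) (mv 561 (both (five 3 525 558) (five 4 464 593))))) (both (mv 463 (both (five 7 431 431) (mv 592 (both (five 7 463 495) (mv 593 (both (five 4 464 561) (five 4 496 625))))))) (mv 463 (both (five 7 431 431) (mv 591 (both (five 6 463 559) (mv 592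 (both (five 7 463 495) (five 6 495 623)))))))))) (both (mv 492 (both (five 3 492 493) (mv 560 (both (five 0 525 561) (mv 431 (both (five 7 431 463) (mv 432 (both (five 7 399 399) (mv 433 (both (five 5 400 401) (five 5 432 465))))))))))) (mv 432 (both (five 6 431 559) (mv 400 (both (five 6 399 495) (mv 401 (both (five 5 368 369) (five 5 400 433)))))))))))))))) (both (mv 527 (both (mv 493 (both (five 3 492 492) (mv 461 (both (mv 429 (both (five 4 429 558) (mv 397 (both (five 4 397 494) (mv 398 (both (five 5 365 366) (five 5 397 430))))))) (both (mv 557 (both (five 2 524 556) (mv 428 (both (five 7 428 460) (mv 462 (both (five 5 429 430) (mv 560 (both (five 0 525 561) (mv 589 (both (five 5 461 494) (mv 620 (both (five 6 492 588) (mv 621 (both (five 6 524 652) (mv 653 (both (five 5 525 558) (mv 654 (both (five 4 525 622) (five 4 557 686))))))))))))))))))) (both (mv 557 (both (five 2 524 556) (mv 428 (both (five 7 428 460) (mv 429 (both (five 7 396 396) (mv 430 (both (five 5 397 398) (five 5 429 462))))))))) (mv 429 (both (five 4 429 558) (mv 396 (both (five 7 396 428) (mv 397 (both (five 7 364 364) (five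 4 397 494))))))))))))) (both (mv 496 (both (five 1 493 497) (mv 464 (both (mv 432 (both (five 6 431 559) (mv 400 (both (five 6 399 495) (mv 401 (both (five 5 368 369) (five 5 400 433))))))) (both (mv 560 (both (five 0 525 561) (mv 431 (both (five 7 431 463) (mv 432 (both (five 7 399 399) (mv 433 (both (five 5 400 401) (five 5 432 465))))))))) (mv 560 (both (mv 559 (both (five 6 463 591) (mv 561 (both (five 3 525 558) (five 4 464 593))))) (both (mv 463 (both (five 7 431 431) (mv 592 (both (five 7 463 495) (mv 593 (both (five 4 464 561) (five 4 496 625))))))) (mv 463 (both (five 7 431 431) (mv 591 (both (five 6 463 559) (mv 592 (both (five 7 463 495) (five 6 495 623))))))))))))))) (both (mv 493 (both (five 3 492 492) (mv 461 (both (mv 429 (both (five 4 429 558) (mv 397 (both (five 4 397 494) (mv 398 (both (five 5 365 366) (five 5 397 430))))))) (both (mv 496 (both (five 1 493 497) (mv 557 (both (five 2 524 556) (mv 428 (both (five 7 428 460) (mv 462 (both (five 5 429 430) (mv 589 (both (five 5 461 494) (mv 620 (both (five 6 492 588) (mv 621 (both (five 6 524 652) (mv 653 (both (five 5 525 558) (mv 654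 (both (five 4 525 622) (five 4 557 686))))))))))))))))))) (both (mv 557 (both (five 2 524 556) (mv 428 (both (five 7 428 460) (mv 429 (both (five 7 396 396) (mv 430 (both (five 5 397 398) (five 5 429 462))))))))) (mv 429 (both (five 4 429 558) (mv 396 (both (five 7 396 428) (mv 397 (both (five 7 364 364) (five 4 397 494))))))))))))) (mv 496 (both (five 1 493 497) (mv 464 (both (mv 432 (both (five 6 431 559) (mv 400 (both (five 6 399 495) (mv 401 (both (five 5 368 369) (five 5 400 433))))))) (both (mv 560 (both (five 0 525 561) (mv 431 (both (five 7 431 463) (mv 432 (both (five 7 399 399) (mv 433 (both (five 5 400 401) (five 5 432 465))))))))) (mv 492 (both (five 3 492 493) (mv 556 (both (five 2 524 557) (mv 560 (both (five 0 525 561) (mv 463 (both (five 7 431 431) (mv 591 (both (five 6 463 559) (mv 592 (both (five 7 463 495) (five 6 495 623)))))))))))))))))))))) (both (mv 527 (both (mv 556 (both (five 2 524 557) (mv 524 (both (five 2 523 555) (mv 560 (both (five 0 524 559) (five 0 525 561))))))) (both (mv 496 (both (five 1 493 497) (mv 524 (both (five 1 492 495) (mv 556 (both (five 2 523 555) (five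 2 524 557))))))) (mv 496 (both (five 1 493 497) (mv 464 (both (mv 432 (both (five 6 431 559) (mv 400 (both (five 6 399 495) (mv 401 (both (five 5 368 369) (five 5 400 433))))))) (both (mv 560 (both (five 0 525 561) (mv 431 (both (five 7 431 463) (mv 432 (both (five 7 399 399) (mv 433 (both (five 5 400 401) (five 5 432 465))))))))) (mv 560 (both (mv 559 (both (five 6 463 591) (mv 561 (both (five 3 525 558) (five 4 464 593))))) (both (mv 463 (both (five 7 431 431) (mv 592 (both (five 7 463 495) (mv 593 (both (five 4 464 561) (five 4 496 625))))))) (mv 463 (both (five 7 431 431) (mv 591 (both (five 6 463 559) (mv 592 (both (five 7 463 495) (five 6 495 623)))))))))))))))))) (both (mv 527 (both (mv 492 (both (five 3 492 493) (mv 524 (both (five 3 491 491) (mv 560 (both (five 0 524 559) (five 0 525 561))))))) (both (mv 492 (both (five 3 492 493) (mv 524 (both (five 3 491 491) (mv 556 (both (five 2 523 555) (five 2 524 557))))))) (both (mv 556 (both (five 2 524 557) (mv 524 (both (five 2 523 555) (mv 560 (both (five 0 524 559) (five 0 525 561))))))) (mv 493 (both (five 3 492 492) (mv 461 (both (mv 429 (both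 (five 4 429 558) (mv 397 (both (five 4 397 494) (mv 398 (both (five 5 365 366) (five 5 397 430))))))) (both (mv 557 (both (five 2 524 556) (mv 428 (both (five 7 428 460) (mv 462 (both (five 5 429 430) (mv 560 (both (five 0 525 561) (mv 589 (both (five 5 461 494) (mv 620 (both (five 6 492 588) (mv 621 (both (five 6 524 652) (mv 653 (both (five 5 525 558) (mv 654 (both (five 4 525 622) (five 4 557 686))))))))))))))))))) (both (mv 557 (both (five 2 524 556) (mv 428 (both (five 7 428 460) (mv 429 (both (five 7 396 396) (mv 430 (both (five 5 397 398) (five 5 429 462))))))))) (mv 429 (both (five 4 429 558) (mv 396 (both (five 7 396 428) (mv 397 (both (five 7 364 364) (five 4 397 494))))))))))))))))) (both (mv 527 (both (mv 492 (both (five 3 492 493) (mv 496 (both (five 1 493 497) (mv 524 (both (five 3 491 491) (five 1 492 495))))))) (both (mv 492 (both (five 3 492 493) (mv 524 (both (five 3 491 491) (mv 556 (both (five 2 523 555) (five 2 524 557))))))) (both (mv 496 (both (five 1 493 497) (mv 524 (both (five 1 492 495) (mv 556 (both (five 2 523 555) (five 2 524 557))))))) (mv 493 (both (five 3 492 492) (mv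 461 (both (mv 429 (both (five 4 429 558) (mv 397 (both (five 4 397 494) (mv 398 (both (five 5 365 366) (five 5 397 430))))))) (both (mv 496 (both (five 1 493 497) (mv 557 (both (five 2 524 556) (mv 428 (both (five 7 428 460) (mv 462 (both (five 5 429 430) (mv 589 (both (five 5 461 494) (mv 620 (both (five 6 492 588) (mv 621 (both (five 6 524 652) (mv 653 (both (five 5 525 558) (mv 654 (both (five 4 525 622) (five 4 557 686))))))))))))))))))) (both (mv 557 (both (five 2 524 556) (mv 428 (both (five 7 428 460) (mv 429 (both (five 7 396 396) (mv 430 (both (five 5 397 398) (five 5 429 462))))))))) (mv 429 (both (five 4 429 558) (mv 396 (both (five 7 396 428) (mv 397 (both (five 7 364 364) (five 4 397 494))))))))))))))))) (mv 527 (both (mv 492 (both (five 3 492 493) (mv 496 (both (five 1 493 497) (mv 524 (both (five 3 491 491) (five 1 492 495))))))) (both (mv 556 (both (five 2 524 557) (mv 524 (both (five 2 523 555) (mv 560 (both (five 0 524 559) (five 0 525 561))))))) (mv 496 (both (five 1 493 497) (mv 464 (both (mv 432 (both (five 6 431 559) (mv 400 (both (five 6 399 495) (mv 401 (both (five 5 368 369)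 (five 5 400 433))))))) (both (mv 560 (both (five 0 525 561) (mv 431 (both (five 7 431 463) (mv 432 (both (five 7 399 399) (mv 433 (both (five 5 400 401) (five 5 432 465))))))))) (mv 492 (both (five 3 492 493) (mv 556 (both (five 2 524 557) (mv 560 (both (five 0 525 561) (mv 463 (both (five 7 431 431) (mv 591 (both (five 6 463 559) (mv 592 (both (five 7 463 495) (five 6 495 623)))))))))))))))))))))))))))

theorem L70 : W (S 988530863058807798957393715067720623286798683220635978952802738122718218409262471505648588255249455916730668840373243557345566271959196709010660073920568229888) (S 421382347741842353090907235198837442321530802419402598582417077512143485260111797796507438533936052280230962812740899810082495249498275243939484106562852037150364268594903217639056449102058419088458302619648) :=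
  check_sound (Env.cons L66 (Env.cons L67 (Env.cons L68 (Env.cons L69 Env.nil)))) (x := 526) (t := tL70) (by decide +kernel)

def tL71 : T :=
  (both (mv 493 (both (mv 494 (both (mv 495 (both (mv 496 (both (five 2 493 497) (five 2 492 524))) (both (mv 496 (both (five 2 493 497) (mv 464 (both (five 1 461 465) (mv 463 (both (five 1 460 492) (mv 431 (both (five 4 399 399) (five 7 431 560))))))))) (mv 492 (both (mv 459 (both (five 3 459 460) (mv 491 (both (five 3 458 458) (five 0 490 490))))) (both (mv 463 (both (five 1 460 464) (mv 399 (both (five 6 398 431) (mv 491 (both (five 0 490 490) (mv 523 (both (five 2 490 522) (five 2 491 524))))))))) (mv 460 (both (five 3 459 459) (mv 428 (both (five 4 396 396) (mv 524 (both (five 1 491 523) (five 4 428 557))))))))))))) (both (mv 495 (both (mv 496 (both (five 2 493 497) (five 2 492 524))) (both (mv 496 (both (five 2 493 497) (mv 464 (both (five 1 461 465) (mv 463 (both (five 1 460 492) (mv 431 (both (five 4 399 399) (five 7 431 560))))))))) (mv 492 (both (mv 459 (both (five 3 459 460) (mv 463 (both (five 1 460 464) (mv 431 (both (five 6 398 399) (mv 558 (both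 (five 5 430 462) (five 5 462 590))))))))) (mv 491 (both (five 0 490 490) (mv 523 (both (five 2 490 522) (five 2 491 524)))))))))) (both (mv 462 (both (mv 430 (both (five 6 397 398) (five 6 429 557))) (mv 558 (both (mv 590 (both (five 7 493 622) (mv 591 (both (five 4 462 559) (five 4 494 623))))) (mv 463 (both (five 5 430 431) (mv 464 (both (five 2 461 465) (mv 492 (both (five 1 459 491) (five 1 460 495))))))))))) (both (mv 462 (both (mv 430 (both (five 6 397 398) (five 6 429 557))) (both (mv 430 (both (five 6 397 398) (mv 397 (both (five 7 397 429) (mv 431 (both (five 5 398 399) (mv 558 (both (five 5 430 463) (mv 590 (both (five 7 493 622) (mv 591 (both (five 4 462 559) (five 4 494 623))))))))))))) (mv 558 (both (mv 431 (both (five 5 430 463) (mv 557 (both (five 5 461 589) (mv 559 (both (five 4 462 591) (mv 524 (both (five 0 523 523) (five 3 524 560))))))))) (both (mv 590 (both (five 7 493 622) (mv 591 (both (five 4 462 559) (five 4 494 623))))) (mv 431 (both (five 5 430 463) (mv 589 (both (five 5 461 557) (mv 590 (both (five 6 493 621) (five 7 493 622))))))))))))) (mv 492 (both (mv 524 (both (mv 495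 (both (five 2 492 496) (five 2 491 523))) (both (mv 495 (both (five 2 492 496) (mv 460 (both (five 3 459 459) (mv 428 (both (five 4 396 396) (five 4 428 557))))))) (mv 523 (both (five 1 490 522) (mv 558 (both (five 0 523 559) (mv 590 (both (five 7 493 622) (mv 589 (both (five 6 493 621) (mv 557 (both (five 7 460 460) (five 5 461 462)))))))))))))) (both (mv 491 (both (five 0 490 490) (mv 459 (both (five 3 458 458) (mv 460 (both (five 3 459 495) (mv 396 (both (five 4 396 428) (mv 523 (both (five 2 490 522) (mv 555 (both (five 5 459 587) (mv 554 (both (five 6 458 586) (mv 556 (both (five 1 522 557) (five 4 459 588))))))))))))))))) (both (mv 524 (both (mv 523 (both (five 1 490 522) (mv 558 (both (five 0 523 559) (mv 590 (both (five 7 493 622) (mv 589 (both (five 6 493 621) (mv 557 (both (five 7 460 460) (five 5 461 462))))))))))) (both (mv 491 (both (five 0 490 490) (mv 459 (both (five 3 458 458) (mv 427 (both (five 4 395 395) (mv 556 (both (five 7 427 460) (five 7 459 588))))))))) (mv 490 (both (five 0 490 491) (mv 523 (both (five 1 490 522) (mv 554 (both (five 2 522 555) (mv 558 (both (five 0 523 559)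 (mv 590 (both (five 7 493 622) (mv 589 (both (five 6 493 621) (mv 557 (both (five 5 461 462) (mv 588 (both (five 6 492 620) (mv 587 (both (five 1 554 586) (mv 619 (both (five 6 491 556) (five 2 586 618)))))))))))))))))))))))) (both (mv 491 (both (five 0 490 490) (mv 459 (both (five 3 458 458) (mv 460 (both (five 3 459 495) (mv 428 (both (five 4 396 396) (mv 557 (both (five 4 428 524) (five 7 460 589))))))))))) (both (mv 491 (both (five 0 490 490) (mv 458 (both (five 3 458 459) (mv 523 (both (five 2 490 522) (mv 524 (both (five 2 491 495) (mv 558 (both (five 0 523 559) (mv 590 (both (five 7 493 622) (mv 589 (both (five 6 493 621) (mv 557 (both (five 5 461 462) (mv 588 (both (five 6 492 620) (mv 587 (both (five 1 554 586) (mv 619 (both (five 6 491 556) (five 2 586 618))))))))))))))))))))))) (mv 491 (both (five 0 490 490) (mv 523 (both (five 2 490 522) (mv 524 (both (five 2 491 495) (mv 555 (both (five 2 522 554) (mv 460 (both (five 6 427 428) (five 5 459 587)))))))))))))))))))))) (both (mv 557 (both (mv 461 (both (mv 428 (both (five 7 428 460) (mv 429 (both (five 7 396 396) (mv 430 (both (five 5 397 398)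 (five 5 429 462))))))) (both (mv 428 (both (five 7 428 460) (mv 429 (both (five 7 396 396) (mv 556 (both (five 6 428 524) (five 6 460 588))))))) (both (mv 430 (both (five 5 429 462) (mv 429 (both (five 5 397 398) (mv 556 (both (five 6 428 524) (five 6 460 588))))))) (mv 492 (both (mv 460 (both (five 7 428 428) (mv 490 (both (five 0 490 491) (mv 556 (both (five 6 460 588) (mv 555 (both (five 1 522 554) (mv 524 (both (five 6 459 587) (mv 459 (both (five 7 427 427) (mv 458 (both (five 0 457 457) (five 2 457 489))))))))))))))) (both (mv 462 (both (five 5 429 430) (mv 463 (both (five 2 460 464) (mv 491 (both (five 0 490 490) (five 1 459 494))))))) (mv 430 (both (five 5 429 462) (mv 460 (both (five 7 428 428) (mv 556 (both (five 6 460 588) (mv 555 (both (five 1 522 554) (mv 524 (both (five 6 459 587) (mv 459 (both (five 7 427 427) (mv 458 (both (five 0 457 457) (five 0 458 494)))))))))))))))))))))) (both (mv 461 (both (mv 428 (both (five 7 428 460) (mv 429 (both (five 7 396 396) (mv 430 (both (five 5 397 398) (five 5 429 462))))))) (both (mv 430 (both (five 5 429 462) (mv 429 (both (five 5 397 398) (mv 556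 (both (five 6 428 524) (five 6 460 588))))))) (both (mv 428 (both (five 7 428 460) (mv 429 (both (five 7 396 396) (mv 556 (both (five 6 428 524) (five 6 460 588))))))) (mv 430 (both (five 5 429 462) (mv 460 (both (five 7 428 428) (mv 492 (both (five 7 460 589) (mv 490 (both (five 0 490 491) (mv 556 (both (five 6 460 588) (mv 555 (both (five 1 522 554) (mv 524 (both (five 6 459 587) (mv 459 (both (five 7 427 427) (mv 458 (both (five 0 457 457) (five 2 457 489))))))))))))))))))))))) (both (mv 589 (both (mv 620 (both (five 6 492 588) (mv 621 (both (five 6 524 652) (mv 622 (both (five 4 493 590) (five 4 525 654))))))) (mv 492 (both (five 7 460 460) (mv 491 (both (five 0 490 490) (mv 494 (both (five 5 461 462) (mv 458 (both (five 3 458 459) (mv 523 (both (five 2 490 522) (mv 495 (both (five 2 491 524) (mv 464 (both (five 1 460 463) (mv 496 (both (five 1 461 465) (five 2 493 497))))))))))))))))))) (both (mv 589 (both (mv 621 (both (five 5 493 494) (mv 622 (both (five 4 493 590) (five 4 525 654))))) (mv 460 (both (five 7 460 492) (mv 461 (both (five 7 428 428) (mv 588 (both (five 6 460 556) (five 6 492 620)))))))))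 (both (mv 589 (both (mv 621 (both (five 5 493 494) (mv 622 (both (five 4 493 590) (five 4 525 654))))) (both (mv 620 (both (five 6 492 588) (mv 621 (both (five 6 524 652) (mv 622 (both (five 4 493 590) (five 4 525 654))))))) (mv 462 (both (five 5 461 494) (mv 461 (both (five 5 429 430) (mv 588 (both (five 6 460 556) (five 6 492 620)))))))))) (mv 589 (both (mv 621 (both (five 5 493 494) (mv 622 (both (five 4 493 590) (five 4 525 654))))) (both (mv 492 (both (five 7 460 460) (mv 490 (both (five 0 490 491) (mv 621 (both (five 7 492 524) (mv 622 (both (five 4 493 590) (five 4 525 654))))))))) (mv 460 (both (five 7 460 492) (mv 461 (both (five 7 428 428) (mv 462 (both (five 5 429 430) (five 5 461 494)))))))))))))))) (both (mv 461 (both (mv 429 (both (five 4 429 558) (mv 430 (both (five 5 397 398) (mv 556 (both (five 6 428 524) (mv 557 (both (five 5 429 462) (five 6 460 588))))))))) (both (mv 557 (both (mv 556 (both (five 6 460 588) (mv 555 (both (five 1 522 554) (mv 558 (both (five 4 461 590) (mv 523 (both (five 3 522 522) (mv 524 (both (five 0 523 559) (mv 490 (both (five 3 490 491) (mv 587 (both (five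 2 554 586) (mv 619 (both (five 5 491 492) (five 5 523 651))))))))))))))))) (both (mv 460 (both (five 7 428 428) (mv 492 (both (five 7 460 589) (mv 490 (both (five 0 490 491) (mv 556 (both (five 6 460 588) (mv 555 (both (five 1 522 554) (mv 524 (both (five 6 459 587) (mv 459 (both (five 7 427 427) (mv 458 (both (five 0 457 457) (five 2 457 489))))))))))))))))) (both (mv 430 (both (five 5 429 462) (mv 460 (both (five 7 428 428) (mv 589 (both (five 7 460 492) (mv 590 (both (five 4 461 558) (five 4 493 622))))))))) (mv 428 (both (five 7 428 460) (mv 430 (both (five 5 429 462) (mv 588 (both (five 6 460 556) (mv 589 (both (five 6 492 620) (mv 590 (both (five 4 461 558) (five 4 493 622))))))))))))))) (both (mv 557 (both (mv 428 (both (five 7 428 460) (mv 429 (both (five 7 396 396) (mv 430 (both (five 5 397 398) (five 5 429 462))))))) (both (mv 430 (both (five 5 429 462) (mv 429 (both (five 5 397 398) (mv 556 (both (five 6 428 524) (five 6 460 588))))))) (mv 460 (both (five 7 428 428) (mv 492 (both (five 7 460 589) (mv 490 (both (five 0 490 491) (mv 556 (both (five 6 460 588) (mv 555 (both (five 1 522 554)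 (mv 524 (both (five 6 459 587) (mv 459 (both (five 7 427 427) (mv 458 (both (five 0 457 457) (five 2 457 489)))))))))))))))))))) (both (mv 429 (both (five 4 429 558) (mv 396 (both (five 7 396 428) (mv 397 (both (five 7 364 364) (mv 398 (both (five 5 365 366) (five 5 397 430))))))))) (mv 429 (both (five 4 429 558) (mv 396 (both (five 7 396 428) (mv 397 (both (five 7 364 364) (mv 524 (both (five 6 396 492) (five 6 428 556)))))))))))))) (both (mv 494 (both (mv 495 (both (mv 496 (both (five 2 493 497) (five 2 492 524))) (both (mv 496 (both (five 2 493 497) (mv 464 (both (five 1 461 465) (mv 463 (both (five 1 460 492) (mv 431 (both (five 4 399 399) (five 7 431 560))))))))) (mv 492 (both (mv 459 (both (five 3 459 460) (mv 463 (both (five 1 460 464) (mv 431 (both (five 6 398 399) (mv 558 (both (five 5 430 462) (five 5 462 590))))))))) (mv 491 (both (five 0 490 490) (mv 523 (both (five 2 490 522) (five 2 491 524)))))))))) (both (mv 495 (both (mv 496 (both (five 2 493 497) (five 2 492 524))) (both (mv 496 (both (five 2 493 497) (mv 464 (both (five 1 461 465) (mv 463 (both (five 1 460 492) (mv 431 (both (five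 4 399 399) (five 7 431 560))))))))) (mv 492 (both (mv 459 (both (five 3 459 460) (mv 491 (both (five 3 458 458) (five 0 490 490))))) (both (mv 460 (both (five 3 459 459) (mv 428 (both (five 4 396 396) (mv 463 (both (five 1 460 464) (mv 399 (both (five 6 398 431) (mv 524 (both (five 2 491 523) (mv 395 (both (five 7 395 427) (mv 429 (both (five 5 396 397) (mv 556 (both (five 5 428 461) (mv 587 (both (five 6 459 555) (mv 588 (both (five 6 491 619) (five 5 492 620))))))))))))))))))))) (mv 491 (both (five 0 490 490) (mv 523 (both (five 2 490 522) (five 2 491 524))))))))))) (both (mv 558 (both (mv 461 (both (five 4 429 429) (five 7 461 590))) (both (mv 590 (both (five 7 493 622) (mv 589 (both (five 6 493 621) (mv 591 (both (five 4 494 623) (mv 462 (both (five 4 462 559) (mv 430 (both (five 6 397 398) (mv 431 (both (five 5 398 399) (five 5 430 463))))))))))))) (mv 462 (both (mv 430 (both (five 6 397 398) (mv 431 (both (five 5 398 399) (five 5 430 463))))) (both (mv 429 (both (five 7 429 461) (mv 430 (both (five 7 397 397) (five 6 397 398))))) (mv 461 (both (five 7 429 429) (mv 463 (both (five 5 430 431) (mv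 464 (both (five 2 461 465) (five 2 460 492))))))))))))) (both (mv 558 (both (mv 461 (both (five 4 429 429) (five 7 461 590))) (both (mv 590 (both (five 7 493 622) (mv 589 (both (five 6 493 621) (mv 591 (both (five 4 494 623) (mv 462 (both (five 4 462 559) (mv 430 (both (five 6 397 398) (mv 431 (both (five 5 398 399) (five 5 430 463))))))))))))) (mv 462 (both (mv 430 (both (five 6 397 398) (mv 431 (both (five 5 398 399) (five 5 430 463))))) (both (mv 461 (both (five 7 429 429) (mv 463 (both (five 5 430 431) (mv 464 (both (five 2 461 465) (mv 432 (both (five 1 429 433) (mv 496 (both (five 0 461 497) (mv 495 (both (five 3 460 460) (five 2 492 524))))))))))))) (mv 429 (both (five 7 429 461) (mv 430 (both (five 7 397 397) (five 6 397 398))))))))))) (mv 495 (both (mv 496 (both (five 2 493 497) (five 2 492 524))) (both (mv 496 (both (five 2 493 497) (mv 461 (both (five 3 460 460) (mv 429 (both (five 4 429 558) (mv 396 (both (five 7 396 428) (mv 397 (both (five 7 364 364) (mv 398 (both (five 5 365 366) (five 5 397 430))))))))))))) (mv 492 (both (mv 459 (both (five 3 459 460) (mv 491 (both (five 3 458 458) (five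 0 490 490))))) (both (mv 460 (both (five 3 459 459) (mv 428 (both (five 4 396 396) (mv 524 (both (five 2 491 523) (mv 395 (both (five 7 395 427) (mv 429 (both (five 5 396 397) (mv 556 (both (five 5 428 461) (mv 587 (both (five 6 459 555) (mv 588 (both (five 6 491 619) (five 5 492 620))))))))))))))))) (mv 491 (both (five 0 490 490) (mv 523 (both (five 2 490 522) (five 2 491 524)))))))))))))))) (both (mv 461 (both (mv 429 (both (five 4 429 558) (mv 396 (both (five 7 396 428) (mv 397 (both (five 7 364 364) (five 4 397 494))))))) (both (mv 557 (both (mv 460 (both (five 7 428 428) (mv 589 (both (five 7 460 492) (mv 590 (both (five 4 461 558) (five 4 493 622))))))) (both (mv 588 (both (five 6 460 556) (mv 589 (both (five 6 492 620) (mv 621 (both (five 5 493 494) (mv 622 (both (five 4 493 590) (five 4 525 654))))))))) (both (mv 428 (both (five 7 428 460) (mv 430 (both (five 5 429 462) (mv 588 (both (five 6 460 556) (mv 589 (both (five 6 492 620) (mv 621 (both (five 5 493 494) (mv 653 (both (five 5 525 558) (mv 654 (both (five 4 525 622) (five 4 557 686))))))))))))))) (mv 430 (both (five 5 429 462) (mv 460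 (both (five 7 428 428) (mv 556 (both (five 6 460 588) (mv 555 (both (five 1 522 554) (mv 558 (both (five 4 461 590) (mv 523 (both (five 3 522 522) (mv 587 (both (five 2 554 586) (mv 491 (both (five 5 459 492) (mv 458 (both (five 7 458 490) (mv 459 (both (five 7 426 426) (five 0 458 494))))))))))))))))))))))))) (both (mv 557 (both (mv 428 (both (five 7 428 460) (mv 429 (both (five 7 396 396) (mv 430 (both (five 5 397 398) (five 5 429 462))))))) (mv 588 (both (five 6 460 556) (mv 589 (both (five 6 492 620) (mv 621 (both (five 5 493 494) (mv 622 (both (five 4 493 590) (five 4 525 654))))))))))) (both (mv 429 (both (five 4 429 558) (mv 396 (both (five 7 396 428) (mv 397 (both (five 7 364 364) (mv 398 (both (five 5 365 366) (five 5 397 430))))))))) (mv 429 (both (five 4 429 558) (mv 397 (both (five 4 397 494) (mv 398 (both (five 5 365 366) (five 5 397 430)))))))))))) (both (mv 461 (both (mv 429 (both (five 4 429 558) (mv 396 (both (five 7 396 428) (mv 397 (both (five 7 364 364) (five 4 397 494))))))) (both (mv 557 (both (mv 588 (both (five 6 460 556) (mv 589 (both (five 6 492 620) (mv 590 (both (five 4 461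 558) (five 4 493 622))))))) (both (mv 588 (both (five 6 460 556) (mv 589 (both (five 6 492 620) (mv 621 (both (five 5 493 494) (mv 622 (both (five 4 493 590) (five 4 525 654))))))))) (both (mv 588 (both (five 6 460 556) (mv 589 (both (five 6 492 620) (mv 621 (both (five 5 493 494) (mv 653 (both (five 5 525 558) (mv 654 (both (five 4 525 622) (five 4 557 686))))))))))) (both (mv 428 (both (five 7 428 460) (mv 462 (both (five 5 429 430) (mv 494 (both (five 5 461 589) (mv 558 (both (five 7 461 590) (mv 559 (both (five 4 462 591) (mv 524 (both (five 0 523 523) (five 3 524 560))))))))))))) (mv 430 (both (five 5 429 462) (mv 460 (both (five 7 428 428) (mv 556 (both (five 6 460 588) (mv 555 (both (five 1 522 554) (mv 558 (both (five 4 461 590) (mv 523 (both (five 3 522 522) (mv 524 (both (five 0 523 559) (mv 491 (both (five 3 490 490) (mv 459 (both (five 4 427 427) (mv 458 (both (five 7 426 426) (five 0 458 494)))))))))))))))))))))))))) (both (mv 429 (both (mv 396 (both (five 7 396 428) (mv 397 (both (five 7 364 364) (five 4 397 494))))) (mv 430 (both (five 5 397 398) (mv 556 (both (five 6 428 524) (mv 557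 (both (five 5 429 462) (five 6 460 588))))))))) (mv 429 (both (five 4 429 558) (mv 430 (both (five 5 397 398) (mv 556 (both (five 6 428 524) (mv 557 (both (five 5 429 462) (five 6 460 588))))))))))))) (both (mv 494 (both (mv 462 (both (mv 430 (both (five 6 397 398) (five 6 429 557))) (mv 558 (both (mv 590 (both (five 7 493 622) (mv 591 (both (five 4 462 559) (five 4 494 623))))) (mv 463 (both (five 5 430 431) (mv 464 (both (five 2 461 465) (mv 492 (both (five 1 459 491) (five 1 460 495))))))))))) (both (mv 495 (both (mv 496 (both (five 2 493 497) (five 2 492 524))) (both (mv 496 (both (five 2 493 497) (mv 464 (both (five 1 461 465) (mv 463 (both (five 1 460 492) (mv 431 (both (five 4 399 399) (five 7 431 560))))))))) (mv 492 (both (mv 459 (both (five 3 459 460) (mv 463 (both (five 1 460 464) (mv 431 (both (five 6 398 399) (mv 558 (both (five 5 430 462) (five 5 462 590))))))))) (mv 491 (both (five 0 490 490) (mv 523 (both (five 2 490 522) (five 2 491 524)))))))))) (both (mv 495 (both (mv 496 (both (five 2 493 497) (five 2 492 524))) (both (mv 496 (both (five 2 493 497) (mv 464 (both (five 1 461 465)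 (mv 463 (both (five 1 460 492) (mv 431 (both (five 4 399 399) (five 7 431 560))))))))) (mv 492 (both (mv 459 (both (five 3 459 460) (mv 491 (both (five 3 458 458) (five 0 490 490))))) (both (mv 463 (both (five 1 460 464) (mv 399 (both (five 6 398 431) (mv 491 (both (five 0 490 490) (mv 523 (both (five 2 490 522) (five 2 491 524))))))))) (mv 460 (both (five 3 459 459) (mv 428 (both (five 4 396 396) (mv 524 (both (five 1 491 523) (five 4 428 557))))))))))))) (both (mv 557 (both (mv 462 (both (five 6 429 430) (five 5 461 589))) (both (mv 461 (both (mv 556 (both (five 6 460 588) (mv 555 (both (five 1 522 554) (mv 558 (both (five 4 461 590) (mv 523 (both (five 3 522 522) (mv 524 (both (five 0 523 559) (mv 490 (both (five 3 490 491) (mv 587 (both (five 2 554 586) (mv 619 (both (five 5 491 492) (five 5 523 651))))))))))))))))) (both (mv 460 (both (five 7 428 428) (mv 459 (both (five 0 458 458) (mv 462 (both (five 5 429 430) (mv 426 (both (five 3 426 427) (mv 491 (both (five 2 458 490) (mv 463 (both (five 2 459 492) (mv 431 (both (five 1 428 432) (mv 367 (both (five 6 366 399) (mv 464 (both (five 2 461 465)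 (mv 496 (both (five 0 461 497) (five 7 431 560))))))))))))))))))))) (mv 428 (both (five 7 428 460) (mv 462 (both (five 5 429 430) (mv 558 (both (five 7 461 590) (mv 559 (both (five 4 462 591) (mv 524 (both (five 0 523 523) (five 3 524 560)))))))))))))) (mv 589 (both (five 5 493 621) (mv 460 (both (five 7 460 492) (mv 461 (both (five 7 428 428) (mv 588 (both (five 6 460 556) (five 6 492 620)))))))))))) (mv 557 (both (mv 462 (both (five 6 429 430) (five 5 461 589))) (both (mv 461 (both (mv 462 (both (five 5 429 430) (mv 558 (both (five 7 461 590) (mv 559 (both (five 4 462 591) (mv 524 (both (five 0 523 523) (five 3 524 560))))))))) (both (mv 460 (both (five 7 428 428) (mv 459 (both (five 0 458 458) (mv 462 (both (five 6 429 430) (five 0 459 495))))))) (mv 428 (both (five 7 428 460) (mv 556 (both (five 6 460 588) (mv 555 (both (five 1 522 554) (mv 558 (both (five 7 461 590) (mv 523 (both (five 3 522 522) (mv 524 (both (five 1 491 495) (five 0 523 559)))))))))))))))) (mv 589 (both (five 5 493 621) (mv 588 (both (five 6 492 620) (mv 461 (both (five 6 460 556) (mv 590 (both (five 4 461 558) (five 4 493 622)))))))))))))))))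 (both (mv 461 (both (mv 429 (both (five 4 429 558) (mv 396 (both (five 7 396 428) (mv 397 (both (five 7 364 364) (five 4 397 494))))))) (both (mv 557 (both (mv 588 (both (five 6 460 556) (mv 589 (both (five 6 492 620) (mv 621 (both (five 5 493 494) (mv 653 (both (five 5 525 558) (mv 654 (both (five 4 525 622) (five 4 557 686))))))))))) (both (mv 430 (both (five 5 429 462) (mv 460 (both (five 7 428 428) (mv 589 (both (five 7 460 492) (mv 621 (both (five 5 493 494) (mv 653 (both (five 5 525 558) (mv 654 (both (five 4 525 622) (five 4 557 686))))))))))))) (both (mv 460 (both (five 7 428 428) (mv 492 (both (five 7 460 589) (mv 490 (both (five 0 490 491) (mv 556 (both (five 6 460 588) (mv 555 (both (five 1 522 554) (mv 524 (both (five 6 459 587) (mv 459 (both (five 7 427 427) (mv 458 (both (five 0 457 457) (five 2 457 489))))))))))))))))) (mv 492 (both (mv 460 (both (five 7 428 428) (mv 490 (both (five 0 490 491) (mv 556 (both (five 6 460 588) (mv 555 (both (five 1 522 554) (mv 524 (both (five 6 459 587) (mv 459 (both (five 7 427 427) (mv 458 (both (five 0 457 457) (five 2 457 489))))))))))))))) (both (mv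 462 (both (five 5 429 430) (mv 463 (both (five 2 460 464) (mv 491 (both (five 0 490 490) (five 1 459 494))))))) (mv 430 (both (five 5 429 462) (mv 460 (both (five 7 428 428) (mv 556 (both (five 6 460 588) (mv 555 (both (five 1 522 554) (mv 524 (both (five 6 459 587) (mv 459 (both (five 7 427 427) (mv 458 (both (five 0 457 457) (five 0 458 494)))))))))))))))))))))) (both (mv 429 (both (mv 396 (both (five 7 396 428) (mv 397 (both (five 7 364 364) (five 4 397 494))))) (mv 430 (both (five 5 397 398) (mv 556 (both (five 6 428 524) (mv 557 (both (five 5 429 462) (five 6 460 588))))))))) (mv 429 (both (five 4 429 558) (mv 430 (both (five 5 397 398) (mv 556 (both (five 6 428 524) (mv 557 (both (five 5 429 462) (five 6 460 588))))))))))))) (both (mv 461 (both (mv 557 (both (mv 460 (both (five 7 428 428) (mv 589 (both (five 7 460 492) (mv 590 (both (five 4 461 558) (five 4 493 622))))))) (both (mv 588 (both (five 6 460 556) (mv 589 (both (five 6 492 620) (mv 621 (both (five 5 493 494) (mv 622 (both (five 4 493 590) (five 4 525 654))))))))) (both (mv 588 (both (five 6 460 556) (mv 589 (both (five 6 492 620) (mv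 621 (both (five 5 493 494) (mv 653 (both (five 5 525 558) (mv 654 (both (five 4 525 622) (five 4 557 686))))))))))) (mv 556 (both (five 6 460 588) (mv 555 (both (five 1 522 554) (mv 558 (both (five 4 461 590) (mv 523 (both (five 3 522 522) (mv 524 (both (five 0 523 559) (mv 490 (both (five 3 490 491) (mv 587 (both (five 2 554 586) (mv 619 (both (five 5 491 492) (five 5 523 651))))))))))))))))))))) (both (mv 429 (both (mv 396 (both (five 7 396 428) (mv 397 (both (five 7 364 364) (five 4 397 494))))) (both (mv 398 (both (five 5 397 430) (mv 428 (both (five 7 396 396) (mv 556 (both (five 6 428 524) (mv 557 (both (five 7 428 460) (five 6 460 588))))))))) (mv 397 (both (five 4 397 494) (mv 398 (both (five 5 365 366) (five 5 397 430)))))))) (both (mv 429 (both (five 4 429 558) (mv 396 (both (five 7 396 428) (mv 397 (both (five 7 364 364) (mv 398 (both (five 5 365 366) (five 5 397 430))))))))) (mv 429 (both (five 4 429 558) (mv 397 (both (five 4 397 494) (mv 398 (both (five 5 365 366) (five 5 397 430))))))))))) (both (mv 461 (both (mv 429 (both (five 4 429 558) (mv 396 (both (five 7 396 428) (mv 397 (both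 (five 7 364 364) (five 4 397 494))))))) (both (mv 557 (both (mv 556 (both (five 6 460 588) (mv 555 (both (five 1 522 554) (mv 558 (both (five 4 461 590) (mv 523 (both (five 3 522 522) (mv 524 (both (five 0 523 559) (mv 587 (both (five 2 554 586) (mv 619 (both (five 5 491 492) (five 5 523 651))))))))))))))) (both (mv 492 (both (mv 460 (both (five 7 428 428) (mv 490 (both (five 0 490 491) (mv 556 (both (five 6 460 588) (mv 555 (both (five 1 522 554) (mv 524 (both (five 6 459 587) (mv 459 (both (five 7 427 427) (mv 458 (both (five 0 457 457) (five 2 457 489))))))))))))))) (both (mv 462 (both (five 5 429 430) (mv 463 (both (five 2 460 464) (mv 491 (both (five 0 490 490) (five 1 459 494))))))) (mv 430 (both (five 5 429 462) (mv 460 (both (five 7 428 428) (mv 556 (both (five 6 460 588) (mv 555 (both (five 1 522 554) (mv 524 (both (five 6 459 587) (mv 459 (both (five 7 427 427) (mv 458 (both (five 0 457 457) (five 0 458 494)))))))))))))))))) (both (mv 494 (both (mv 460 (both (five 7 428 428) (mv 459 (both (five 0 458 458) (mv 495 (both (five 3 459 492) (five 3 460 496))))))) (mv 462 (both (five 5 429 430)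 (mv 558 (both (five 7 461 590) (mv 559 (both (five 4 462 591) (mv 524 (both (five 0 523 523) (five 3 524 560))))))))))) (both (mv 460 (both (five 7 428 428) (mv 556 (both (five 6 460 588) (mv 555 (both (five 1 522 554) (mv 558 (both (five 4 461 590) (mv 523 (both (five 3 522 522) (mv 587 (both (five 2 554 586) (mv 491 (both (five 5 459 492) (mv 458 (both (five 7 458 490) (mv 459 (both (five 7 426 426) (five 0 458 494))))))))))))))))))) (mv 460 (both (five 7 428 428) (mv 556 (both (five 6 460 588) (mv 555 (both (five 1 522 554) (mv 558 (both (five 4 461 590) (mv 523 (both (five 3 522 522) (mv 524 (both (five 0 523 559) (mv 491 (both (five 3 490 490) (mv 459 (both (five 4 427 427) (mv 458 (both (five 7 426 426) (five 0 458 494)))))))))))))))))))))))) (both (mv 429 (both (mv 396 (both (five 7 396 428) (mv 397 (both (five 7 364 364) (five 4 397 494))))) (mv 430 (both (five 5 397 398) (mv 556 (both (five 6 428 524) (mv 557 (both (five 5 429 462) (five 6 460 588))))))))) (mv 429 (both (five 4 429 558) (mv 430 (both (five 5 397 398) (mv 556 (both (five 6 428 524) (mv 557 (both (five 5 429 462) (five 6 460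 588))))))))))))) (both (mv 558 (both (mv 590 (both (five 7 493 622) (mv 494 (both (mv 495 (both (mv 496 (both (five 2 493 497) (five 2 492 524))) (both (mv 496 (both (five 2 493 497) (mv 464 (both (five 1 461 465) (mv 463 (both (five 1 460 492) (mv 431 (both (five 4 399 399) (five 7 431 560))))))))) (mv 492 (both (mv 459 (both (five 3 459 460) (mv 491 (both (five 3 458 458) (five 0 490 490))))) (both (mv 463 (both (five 1 460 464) (mv 399 (both (five 6 398 431) (mv 491 (both (five 0 490 490) (mv 523 (both (five 2 490 522) (five 2 491 524))))))))) (mv 460 (both (five 3 459 459) (mv 428 (both (five 4 396 396) (mv 524 (both (five 1 491 523) (five 4 428 557))))))))))))) (both (mv 589 (both (five 6 493 621) (mv 462 (both (five 5 461 557) (mv 591 (both (five 4 462 559) (five 4 494 623))))))) (mv 463 (both (five 5 462 495) (mv 462 (both (five 5 430 431) (mv 591 (both (five 4 462 559) (five 4 494 623)))))))))))) (both (mv 461 (both (five 4 429 429) (mv 557 (both (mv 556 (both (five 6 460 588) (mv 555 (both (five 1 522 554) (mv 523 (both (five 3 522 522) (mv 524 (both (five 0 523 559) (mv 587 (both (five 2 554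 586) (mv 619 (both (five 5 491 492) (five 5 523 651))))))))))))) (both (mv 460 (both (five 7 428 428) (mv 589 (both (five 7 460 492) (mv 494 (both (five 6 461 462) (five 5 493 621))))))) (mv 428 (both (five 7 428 460) (mv 556 (both (five 6 460 588) (mv 555 (both (five 1 522 554) (mv 523 (both (five 3 522 522) (mv 524 (both (five 0 523 559) (mv 490 (both (five 3 490 491) (mv 494 (both (five 1 491 495) (mv 589 (both (five 6 461 462) (five 5 493 621)))))))))))))))))))))) (both (mv 461 (both (five 4 429 429) (mv 590 (both (five 4 461 557) (five 7 493 622))))) (mv 461 (both (five 4 429 429) (mv 590 (both (five 7 461 494) (five 7 493 622))))))))) (both (mv 494 (both (mv 495 (both (mv 496 (both (five 2 493 497) (five 2 492 524))) (both (mv 496 (both (five 2 493 497) (mv 464 (both (five 1 461 465) (mv 463 (both (five 1 460 492) (mv 431 (both (five 4 399 399) (five 7 431 560))))))))) (mv 492 (both (mv 459 (both (five 3 459 460) (mv 491 (both (five 3 458 458) (five 0 490 490))))) (both (mv 463 (both (five 1 460 464) (mv 399 (both (five 6 398 431) (mv 491 (both (five 0 490 490) (mv 523 (both (five 2 490 522) (five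 2 491 524))))))))) (mv 460 (both (five 3 459 459) (mv 428 (both (five 4 396 396) (mv 524 (both (five 1 491 523) (five 4 428 557))))))))))))) (both (mv 495 (both (mv 496 (both (five 2 493 497) (five 2 492 524))) (both (mv 496 (both (five 2 493 497) (mv 464 (both (five 1 461 465) (mv 463 (both (five 1 460 492) (mv 431 (both (five 4 399 399) (five 7 431 560))))))))) (mv 492 (both (mv 459 (both (five 3 459 460) (mv 463 (both (five 1 460 464) (mv 431 (both (five 6 398 399) (mv 558 (both (five 5 430 462) (five 5 462 590))))))))) (mv 491 (both (five 0 490 490) (mv 523 (both (five 2 490 522) (five 2 491 524)))))))))) (both (mv 462 (both (mv 430 (both (five 6 397 398) (five 6 429 557))) (both (mv 430 (both (five 6 397 398) (mv 397 (both (five 7 397 429) (mv 431 (both (five 5 398 399) (mv 558 (both (five 5 430 463) (mv 590 (both (five 7 493 622) (mv 591 (both (five 4 462 559) (five 4 494 623))))))))))))) (mv 558 (both (mv 431 (both (five 5 430 463) (mv 557 (both (five 5 461 589) (mv 559 (both (five 4 462 591) (mv 524 (both (five 0 523 523) (five 3 524 560))))))))) (both (mv 590 (both (five 7 493 622) (mv 591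 (both (five 4 462 559) (five 4 494 623))))) (mv 431 (both (five 5 430 463) (mv 589 (both (five 5 461 557) (mv 590 (both (five 6 493 621) (five 7 493 622))))))))))))) (both (mv 461 (both (mv 429 (both (five 4 397 397) (mv 396 (both (five 7 396 428) (mv 430 (both (five 5 397 398) (mv 462 (both (five 5 429 557) (mv 431 (both (five 5 398 399) (mv 432 (both (five 2 429 433) (five 2 428 460))))))))))))) (both (mv 557 (both (mv 462 (both (five 6 429 430) (five 5 461 589))) (both (mv 460 (both (five 7 428 428) (mv 589 (both (five 7 460 492) (mv 590 (both (five 4 461 558) (five 4 493 622))))))) (mv 460 (both (five 7 428 428) (mv 459 (both (five 0 458 458) (mv 462 (both (five 6 429 430) (five 0 459 495)))))))))) (mv 429 (both (five 4 397 397) (five 4 429 558)))))) (mv 461 (both (mv 429 (both (five 4 397 397) (five 4 429 558))) (both (mv 429 (both (five 4 397 397) (mv 396 (both (five 7 396 428) (mv 430 (both (five 5 397 398) (mv 557 (both (five 5 429 462) (mv 589 (both (five 5 493 621) (mv 492 (both (five 7 460 460) (mv 491 (both (five 0 490 490) (mv 523 (both (five 2 490 522) (mv 495 (both (five 2 491 524) (mv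 464 (both (five 1 460 463) (mv 496 (both (five 1 461 465) (five 2 493 497))))))))))))))))))))))) (mv 557 (both (mv 462 (both (five 6 429 430) (five 5 461 589))) (both (mv 460 (both (five 7 428 428) (mv 589 (both (five 7 460 492) (mv 590 (both (five 4 461 558) (five 4 493 622))))))) (mv 460 (both (five 7 428 428) (mv 459 (both (five 0 458 458) (mv 462 (both (five 6 429 430) (five 0 459 495)))))))))))))))))) (mv 558 (both (mv 590 (both (five 7 493 622) (mv 494 (both (mv 589 (both (five 6 493 621) (mv 462 (both (five 5 461 557) (mv 591 (both (five 4 462 559) (five 4 494 623))))))) (mv 495 (both (five 5 462 463) (mv 496 (both (five 2 493 497) (five 2 492 524))))))))) (both (mv 461 (both (five 4 429 429) (mv 557 (both (mv 556 (both (five 6 460 588) (mv 555 (both (five 1 522 554) (mv 523 (both (five 3 522 522) (mv 524 (both (five 0 523 559) (mv 587 (both (five 2 554 586) (mv 619 (both (five 5 491 492) (five 5 523 651))))))))))))) (both (mv 462 (both (five 5 429 430) (mv 494 (both (five 5 461 589) (mv 559 (both (five 4 462 591) (mv 524 (both (five 0 523 523) (five 3 524 560))))))))) (mv 430 (both (five 5 429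 462) (mv 588 (both (five 6 460 556) (mv 589 (both (five 6 492 620) (mv 621 (both (five 5 493 494) (five 5 525 653)))))))))))))) (both (mv 461 (both (five 4 429 429) (mv 590 (both (five 4 461 557) (five 7 493 622))))) (mv 461 (both (five 4 429 429) (mv 590 (both (five 7 461 494) (five 7 493 622)))))))))))))))))))))) (both (mv 527 (both (mv 496 (both (five 1 493 497) (mv 524 (both (five 1 492 495) (mv 556 (both (five 2 523 555) (five 2 524 557))))))) (both (mv 556 (both (five 2 524 557) (mv 524 (both (five 2 523 555) (mv 560 (both (five 0 524 559) (five 0 525 561))))))) (both (mv 496 (both (five 1 493 497) (mv 524 (both (five 1 492 495) (mv 560 (both (five 0 524 559) (five 0 525 561))))))) (mv 559 (both (mv 496 (both (five 1 493 497) (mv 464 (both (five 6 431 432) (mv 560 (both (five 0 525 561) (five 6 463 591))))))) (both (mv 494 (both (mv 557 (both (five 2 524 556) (mv 560 (both (five 0 525 561) (mv 589 (both (five 5 493 621) (mv 588 (both (five 2 556 558) (mv 591 (both (five 1 556 590) (five 7 494 623))))))))))) (both (mv 462 (both (five 4 430 430) (mv 557 (both (five 2 524 556) (mv 589 (both (five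 6 461 558) (five 5 493 621))))))) (mv 462 (both (five 4 430 430) (mv 591 (both (five 7 462 495) (five 7 494 623)))))))) (both (mv 496 (both (five 1 493 497) (mv 464 (both (five 6 431 432) (mv 591 (both (five 5 463 495) (five 5 495 623))))))) (mv 494 (both (mv 462 (both (five 4 430 430) (mv 557 (both (five 2 524 556) (mv 589 (both (five 6 461 558) (five 5 493 621))))))) (mv 496 (both (five 1 493 497) (mv 464 (both (five 6 431 432) (mv 560 (both (five 0 525 561) (mv 463 (both (five 7 431 431) (mv 465 (both (five 5 432 433) (mv 466 (both (five 2 462 495) (mv 435 (both (five 1 431 434) (mv 467 (both (five 1 432 436) (mv 499 (both (five 0 463 498) (five 0 464 500))))))))))))))))))))))))))))) (both (mv 527 (both (mv 496 (both (five 1 493 497) (mv 524 (both (five 1 492 495) (mv 560 (both (five 0 524 559) (five 0 525 561))))))) (both (mv 492 (both (five 3 492 493) (mv 524 (both (five 3 491 491) (mv 560 (both (five 0 524 559) (five 0 525 561))))))) (both (mv 492 (both (five 3 492 493) (mv 496 (both (five 1 493 497) (mv 524 (both (five 3 491 491) (five 1 492 495))))))) (mv 496 (both (five 1 493 497) (mv 464 (both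 (mv 432 (both (five 6 431 559) (mv 399 (both (five 7 399 431) (mv 400 (both (five 7 367 367) (five 6 399 495))))))) (both (mv 492 (both (five 3 492 493) (mv 560 (both (five 0 525 561) (mv 431 (both (five 7 431 463) (mv 432 (both (five 7 399 399) (mv 433 (both (five 5 400 401) (five 5 432 465))))))))))) (both (mv 493 (both (five 3 492 492) (mv 560 (both (five 0 525 561) (mv 463 (both (five 7 431 431) (mv 465 (both (five 5 432 433) (mv 494 (both (five 2 461 462) (five 1 461 495))))))))))) (mv 432 (both (five 6 431 559) (mv 400 (both (five 6 399 495) (mv 401 (both (five 5 368 369) (five 5 400 433))))))))))))))))) (both (mv 527 (both (mv 496 (both (five 1 493 497) (mv 464 (both (mv 432 (both (five 6 431 559) (mv 399 (both (five 7 399 431) (mv 400 (both (five 7 367 367) (five 6 399 495))))))) (both (mv 492 (both (five 3 492 493) (mv 560 (both (five 0 525 561) (mv 431 (both (five 7 431 463) (mv 432 (both (five 7 399 399) (mv 433 (both (five 5 400 401) (five 5 432 465))))))))))) (both (mv 493 (both (five 3 492 492) (mv 560 (both (five 0 525 561) (mv 463 (both (five 7 431 431) (mv 465 (both (five 5 432 433)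 (mv 494 (both (five 2 461 462) (five 1 461 495))))))))))) (mv 432 (both (five 6 431 559) (mv 400 (both (five 6 399 495) (mv 401 (both (five 5 368 369) (five 5 400 433))))))))))))) (both (mv 559 (both (mv 496 (both (five 1 493 497) (mv 464 (both (five 6 431 432) (mv 560 (both (five 0 525 561) (five 6 463 591))))))) (both (mv 494 (both (mv 557 (both (five 2 524 556) (mv 560 (both (five 0 525 561) (mv 589 (both (five 5 493 621) (mv 588 (both (five 2 556 558) (mv 591 (both (five 1 556 590) (five 7 494 623))))))))))) (both (mv 462 (both (five 4 430 430) (mv 557 (both (five 2 524 556) (mv 589 (both (five 6 461 558) (five 5 493 621))))))) (mv 462 (both (five 4 430 430) (mv 591 (both (five 7 462 495) (five 7 494 623)))))))) (both (mv 496 (both (five 1 493 497) (mv 464 (both (five 6 431 432) (mv 591 (both (five 5 463 495) (five 5 495 623))))))) (mv 494 (both (mv 462 (both (five 4 430 430) (mv 557 (both (five 2 524 556) (mv 589 (both (five 6 461 558) (five 5 493 621))))))) (mv 496 (both (five 1 493 497) (mv 464 (both (five 6 431 432) (mv 560 (both (five 0 525 561) (mv 463 (both (five 7 431 431) (mv 465 (both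 (five 5 432 433) (mv 466 (both (five 2 462 495) (mv 435 (both (five 1 431 434) (mv 467 (both (five 1 432 436) (mv 499 (both (five 0 463 498) (five 0 464 500))))))))))))))))))))))))) (both (mv 493 (both (five 3 492 492) (mv 461 (both (mv 557 (both (mv 428 (both (five 7 428 460) (mv 429 (both (five 7 396 396) (mv 430 (both (five 5 397 398) (five 5 429 462))))))) (mv 588 (both (five 6 460 556) (mv 589 (both (five 6 492 620) (mv 621 (both (five 5 493 494) (mv 622 (both (five 4 493 590) (five 4 525 654))))))))))) (both (mv 557 (both (five 2 524 556) (mv 590 (both (five 4 461 558) (mv 589 (both (five 4 493 622) (mv 620 (both (five 6 492 588) (mv 621 (both (five 5 493 494) (five 6 524 652))))))))))) (mv 429 (both (five 4 429 558) (mv 396 (both (five 7 396 428) (mv 397 (both (five 7 364 364) (mv 398 (both (five 5 365 366) (five 5 397 430)))))))))))))) (both (mv 493 (both (five 3 492 492) (mv 461 (both (mv 429 (both (five 4 429 558) (mv 396 (both (five 7 396 428) (mv 397 (both (five 7 364 364) (mv 398 (both (five 5 365 366) (five 5 397 430))))))))) (both (mv 496 (both (five 1 493 497) (mv 557 (both (five 2 524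 556) (mv 460 (both (five 7 428 428) (mv 462 (both (five 5 429 430) (mv 463 (both (five 0 460 495) (mv 431 (both (five 1 428 432) (mv 560 (both (five 7 431 464) (five 0 525 561))))))))))))))) (both (mv 429 (both (five 4 429 558) (mv 428 (both (five 7 396 396) (mv 557 (both (five 7 428 460) (five 2 524 556))))))) (mv 429 (both (five 4 429 558) (mv 430 (both (five 5 397 398) (mv 557 (both (five 5 429 462) (five 2 524 556))))))))))))) (mv 493 (both (five 3 492 492) (mv 461 (both (mv 429 (both (five 4 429 558) (mv 396 (both (five 7 396 428) (mv 397 (both (five 7 364 364) (five 4 397 494))))))) (both (mv 496 (both (five 1 493 497) (mv 557 (both (five 2 524 556) (mv 428 (both (five 7 428 460) (mv 429 (both (five 7 396 396) (mv 397 (both (five 4 397 494) (mv 398 (both (five 5 365 366) (five 5 397 430))))))))))))) (both (mv 557 (both (five 2 524 556) (mv 590 (both (five 4 461 558) (mv 589 (both (five 4 493 622) (mv 620 (both (five 6 492 588) (mv 621 (both (five 5 493 494) (five 6 524 652))))))))))) (mv 429 (both (five 4 429 558) (mv 428 (both (five 7 396 396) (mv 557 (both (five 7 428 460) (five 2 524 556))))))))))))))))))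 (both (mv 527 (both (mv 556 (both (five 2 524 557) (mv 524 (both (five 2 523 555) (mv 560 (both (five 0 524 559) (five 0 525 561))))))) (both (mv 492 (both (five 3 492 493) (mv 524 (both (five 3 491 491) (mv 560 (both (five 0 524 559) (five 0 525 561))))))) (mv 493 (both (five 3 492 492) (mv 461 (both (mv 557 (both (mv 428 (both (five 7 428 460) (mv 429 (both (five 7 396 396) (mv 430 (both (five 5 397 398) (five 5 429 462))))))) (mv 588 (both (five 6 460 556) (mv 589 (both (five 6 492 620) (mv 621 (both (five 5 493 494) (mv 622 (both (five 4 493 590) (five 4 525 654))))))))))) (both (mv 557 (both (five 2 524 556) (mv 590 (both (five 4 461 558) (mv 589 (both (five 4 493 622) (mv 620 (both (five 6 492 588) (mv 621 (both (five 5 493 494) (five 6 524 652))))))))))) (mv 429 (both (five 4 429 558) (mv 396 (both (five 7 396 428) (mv 397 (both (five 7 364 364) (mv 398 (both (five 5 365 366) (five 5 397 430))))))))))))))))) (both (mv 527 (both (mv 496 (both (five 1 493 497) (mv 524 (both (five 1 492 495) (mv 556 (both (five 2 523 555) (five 2 524 557))))))) (both (mv 556 (both (five 2 524 557) (mv 524 (both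 (five 2 523 555) (mv 560 (both (five 0 524 559) (five 0 525 561))))))) (both (mv 496 (both (five 1 493 497) (mv 524 (both (five 1 492 495) (mv 560 (both (five 0 524 559) (five 0 525 561))))))) (mv 493 (both (five 3 492 492) (mv 461 (both (mv 429 (both (five 4 429 558) (mv 396 (both (five 7 396 428) (mv 397 (both (five 7 364 364) (mv 398 (both (five 5 365 366) (five 5 397 430))))))))) (both (mv 496 (both (five 1 493 497) (mv 557 (both (five 2 524 556) (mv 460 (both (five 7 428 428) (mv 462 (both (five 5 429 430) (mv 463 (both (five 0 460 495) (mv 431 (both (five 1 428 432) (mv 560 (both (five 7 431 464) (five 0 525 561))))))))))))))) (both (mv 429 (both (five 4 429 558) (mv 428 (both (five 7 396 396) (mv 557 (both (five 7 428 460) (five 2 524 556))))))) (mv 429 (both (five 4 429 558) (mv 430 (both (five 5 397 398) (mv 557 (both (five 5 429 462) (five 2 524 556))))))))))))))))) (both (mv 527 (both (mv 496 (both (five 1 493 497) (mv 524 (both (five 1 492 495) (mv 556 (both (five 2 523 555) (five 2 524 557))))))) (both (mv 493 (both (five 3 492 492) (mv 461 (both (mv 557 (both (mv 428 (both (five 7 428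 460) (mv 429 (both (five 7 396 396) (mv 430 (both (five 5 397 398) (five 5 429 462))))))) (mv 588 (both (five 6 460 556) (mv 589 (both (five 6 492 620) (mv 621 (both (five 5 493 494) (mv 622 (both (five 4 493 590) (five 4 525 654))))))))))) (both (mv 557 (both (five 2 524 556) (mv 590 (both (five 4 461 558) (mv 589 (both (five 4 493 622) (mv 620 (both (five 6 492 588) (mv 621 (both (five 5 493 494) (five 6 524 652))))))))))) (mv 429 (both (five 4 429 558) (mv 396 (both (five 7 396 428) (mv 397 (both (five 7 364 364) (mv 398 (both (five 5 365 366) (five 5 397 430)))))))))))))) (mv 492 (both (five 3 492 493) (mv 496 (both (five 1 493 497) (mv 524 (both (five 3 491 491) (five 1 492 495)))))))))) (mv 527 (both (mv 556 (both (five 2 524 557) (mv 524 (both (five 2 523 555) (mv 560 (both (five 0 524 559) (five 0 525 561))))))) (both (mv 496 (both (five 1 493 497) (mv 524 (both (five 1 492 495) (mv 560 (both (five 0 524 559) (five 0 525 561))))))) (mv 493 (both (five 3 492 492) (mv 461 (both (mv 429 (both (five 4 429 558) (mv 396 (both (five 7 396 428) (mv 397 (both (five 7 364 364) (five 4 397 494))))))) (both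 (mv 496 (both (five 1 493 497) (mv 557 (both (five 2 524 556) (mv 428 (both (five 7 428 460) (mv 429 (both (five 7 396 396) (mv 397 (both (five 4 397 494) (mv 398 (both (five 5 365 366) (five 5 397 430))))))))))))) (both (mv 557 (both (five 2 524 556) (mv 590 (both (five 4 461 558) (mv 589 (both (five 4 493 622) (mv 620 (both (five 6 492 588) (mv 621 (both (five 5 493 494) (five 6 524 652))))))))))) (mv 429 (both (five 4 429 558) (mv 428 (both (five 7 396 396) (mv 557 (both (five 7 428 460) (five 2 524 556)))))))))))))))))))))))

theorem L71 : W (S 988530863058807798957393715067720623286798683220635978952802738122718218409262471505648588255249455916730668840373243557345566271959196709010660073920568229888) (S 321053216787397769789697709424060981865277161607316894761158778521312364532134481363450019878517078311267395134358738609268197423830229435704004187121900743186492348463349298267130215115992746724730251247616) :=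
  check_sound Env.nil (x := 526) (t := tL71) (by decide +kernel)

def tL72 : T :=
  (both (mv 464 (both (mv 429 (both (five 3 428 428) (mv 465 (both (five 3 429 430) (mv 497 (both (five 0 461 496) (five 0 462 498))))))) (both (mv 429 (both (five 3 428 428) (mv 433 (both (five 1 429 432) (mv 465 (both (five 3 429 430) (five 1 430 434))))))) (both (mv 433 (both (five 1 429 432) (mv 465 (both (five 1 430 434) (mv 497 (both (five 0 461 496) (five 0 462 498))))))) (mv 428 (both (five 3 428 429) (mv 432 (both (five 1 429 433) (mv 460 (both (five 3 427 427) (mv 496 (both (five 0 460 495) (five 0 461 497))))))))))))) (both (mv 464 (both (mv 429 (both (five 3 428 428) (mv 465 (both (five 3 429 430) (mv 497 (both (five 0 461 496) (five 0 462 498))))))) (both (mv 432 (both (five 1 429 433) (mv 496 (both (five 0 461 497) (mv 399 (both (five 7 399 431) (mv 400 (both (five 7 367 367) (mv 368 (both (five 6 367 495) (mv 369 (both (five 5 336 337) (five 5 368 401))))))))))))) (mv 429 (both (five 3 428 428) (mv 433 (both (five 1 429 432) (mv 465 (both (five 3 429 430) (five 1 430 434)))))))))) (both (mv 460 (both (mv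 427 (both (five 3 427 428) (mv 459 (both (five 3 426 426) (mv 491 (both (five 2 458 490) (five 2 459 492))))))) (both (mv 427 (both (five 3 427 428) (mv 431 (both (five 1 428 432) (mv 459 (both (five 3 426 426) (five 1 427 430))))))) (mv 431 (both (five 1 428 432) (mv 491 (both (five 2 459 492) (mv 494 (both (five 5 430 558) (mv 399 (both (five 6 366 367) (five 5 398 430)))))))))))) (both (mv 460 (both (mv 427 (both (five 3 427 428) (mv 459 (both (five 3 426 426) (mv 491 (both (five 2 458 490) (five 2 459 492))))))) (both (mv 491 (both (five 2 459 492) (mv 459 (both (five 2 458 490) (mv 426 (both (five 3 426 427) (mv 430 (both (five 1 427 431) (mv 458 (both (five 3 425 425) (five 1 426 429))))))))))) (both (mv 491 (both (five 2 459 492) (mv 459 (both (five 2 458 490) (mv 430 (both (five 1 427 431) (mv 429 (both (five 1 426 458) (mv 464 (both (five 3 428 428) (five 3 429 465))))))))))) (both (mv 427 (both (five 3 427 428) (mv 459 (both (five 3 426 426) (mv 430 (both (five 1 427 431) (mv 429 (both (five 1 426 458) (mv 464 (both (five 3 429 465) (mv 496 (both (five 0 460 495) (five 0 461 497)))))))))))))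 (mv 428 (both (five 3 427 427) (mv 429 (both (five 3 428 464) (mv 492 (both (five 2 459 491) (mv 397 (both (five 6 364 365) (five 5 396 524)))))))))))))) (both (mv 464 (both (mv 496 (both (five 0 461 497) (mv 460 (both (five 0 460 495) (mv 491 (both (five 2 459 492) (mv 459 (both (five 2 458 490) (mv 426 (both (five 3 426 427) (mv 430 (both (five 1 427 431) (mv 458 (both (five 3 425 425) (five 1 426 429))))))))))))))) (both (mv 433 (both (five 1 429 432) (mv 465 (both (five 1 430 434) (mv 430 (both (five 3 429 429) (mv 466 (both (five 3 430 431) (mv 498 (both (five 0 462 497) (five 0 463 499))))))))))) (both (mv 432 (both (five 1 429 433) (mv 431 (both (five 1 428 460) (mv 399 (both (five 7 399 496) (mv 367 (both (five 4 335 335) (mv 334 (both (five 7 334 366) (mv 368 (both (five 5 335 336) (mv 400 (both (five 5 367 495) (mv 369 (both (five 5 336 337) (mv 370 (both (five 2 367 371) (five 2 366 398))))))))))))))))))) (mv 433 (both (five 1 429 432) (mv 465 (both (five 1 430 434) (mv 497 (both (five 0 461 496) (five 0 462 498))))))))))) (mv 460 (both (mv 432 (both (five 1 428 431) (mv 464 (both (five 1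 429 433) (mv 496 (both (five 0 460 495) (five 0 461 497))))))) (mv 427 (both (five 3 427 428) (mv 459 (both (five 3 426 426) (mv 491 (both (five 2 458 490) (five 2 459 492))))))))))))))

theorem L72 : W (S 1098367625620897554414966916341311749705249829925584464939389243549938437993102871474672933650507596160031881084978390673160817810950260598906390896203242930176) (S 943490606260303722586054096585817864560824740928283130475392865415733558854768245664244596918558922461034917623746814724021060982424647324842399779948180270066842992640) :=
  check_sound Env.nil (x := 463) (t := tL72) (by decide +kernel)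

def tL73 : T :=
  (both (mv 460 (both (mv 427 (both (five 3 427 428) (mv 459 (both (five 3 426 426) (mv 491 (both (five 2 458 490) (five 2 459 492))))))) (both (mv 427 (both (five 3 427 428) (mv 459 (both (five 3 426 426) (mv 495 (both (five 0 459 494) (five 0 460 496))))))) (both (mv 491 (both (five 2 459 492) (mv 459 (both (five 2 458 490) (mv 495 (both (five 0 459 494) (five 0 460 496))))))) (mv 427 (both (five 3 427 428) (mv 492 (both (five 2 459 491) (mv 464 (both (five 2 460 493) (mv 496 (both (five 0 460 495) (five 0 461 497))))))))))))) (both (mv 464 (both (mv 493 (both (five 2 460 492) (mv 465 (both (five 2 461 494) (mv 497 (both (five 0 461 496) (five 0 462 498))))))) (both (mv 432 (both (five 1 429 433) (mv 493 (both (five 2 460 492) (mv 494 (both (five 2 461 465) (mv 558 (both (five 5 430 431) (five 7 461 590))))))))) (mv 432 (both (five 1 429 433) (mv 496 (both (five 0 461 497) (mv 399 (both (five 7 399 431) (mv 400 (both (five 7 367 367) (mv 368 (both (five 6 367 495) (mv 369 (both (five 5 336 337) (five 5 368 401)))))))))))))))) (both (mv 460 (both (mv 432 (both (five 1 428 431) (mv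 464 (both (five 1 429 433) (mv 496 (both (five 0 460 495) (five 0 461 497))))))) (mv 427 (both (five 3 427 428) (mv 459 (both (five 3 426 426) (mv 491 (both (five 2 458 490) (five 2 459 492))))))))) (both (mv 460 (both (mv 427 (both (five 3 427 428) (mv 459 (both (five 3 426 426) (mv 491 (both (five 2 458 490) (five 2 459 492))))))) (both (mv 427 (both (five 3 427 428) (mv 431 (both (five 1 428 432) (mv 459 (both (five 3 426 426) (mv 490 (both (five 2 458 491) (mv 458 (both (five 2 457 489) (mv 494 (both (five 0 458 493) (five 5 430 558))))))))))))) (mv 432 (both (five 1 428 431) (mv 464 (both (five 1 429 433) (mv 493 (both (five 2 460 492) (mv 465 (both (five 2 461 494) (mv 497 (both (five 0 461 496) (five 0 462 498)))))))))))))) (both (mv 460 (both (mv 427 (both (five 3 427 428) (mv 459 (both (five 3 426 426) (mv 491 (both (five 2 458 490) (five 2 459 492))))))) (mv 431 (both (five 1 428 432) (mv 494 (both (five 5 430 558) (mv 399 (both (five 6 366 367) (five 6 398 495))))))))) (mv 460 (both (mv 432 (both (five 1 428 431) (mv 464 (both (five 1 429 433) (mv 496 (both (five 0 460 495) (five 0 461 497)))))))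 (both (mv 427 (both (five 3 427 428) (mv 431 (both (five 1 428 432) (mv 459 (both (five 3 426 426) (mv 490 (both (five 2 458 491) (mv 458 (both (five 2 457 489) (mv 494 (both (five 0 458 493) (five 5 430 558))))))))))))) (mv 427 (both (five 3 427 428) (mv 459 (both (five 3 426 426) (mv 495 (both (five 0 459 494) (five 0 460 496)))))))))))))))

theorem L73 : W (S 1098367625620897554414966916341311749705249829925584464939389243549938437993102871474672933650507596160031881084978390673160817810950260598906390896203242930176) (S 4052261298678835292252658644081385175644897732627423015924271083003489425555266634586663188921836504291555386079462531677721883045324390102095796632351124367515056712784099147776) :=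
  check_sound Env.nil (x := 463) (t := tL73) (by decide +kernel)

end P062.Cert
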