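import Vale.Agent.P062.Check
import Vale.Agent.P062.Cert.C10

/-! Snaky certificate, part 11 (machine generated, checked by the kernel) -/

set_option maxRecDepth 100000

namespace P062.Cert

open T

def tL74 : T :=
  (both (mv 461 (both (mv 462 (both (mv 463 (both (mv 460 (both (mv 432 (both (five 1 428 431) (mv 464 (both (five 1 429 433) (mv 496 (both (five 0 460 495) (five 0 461 497))))))) (mv 427 (both (five 3 427 428) (mv 459 (both (five 3 426 426) (mv 491 (both (five 2 458 490) (five 2 459 492))))))))) (both (mv 464 (both (mv 429 (both (five 3 428 428) (mv 465 (both (five 3 429 430) (mv 497 (both (five 0 461 496) (five 0 462 498))))))) (both (mv 432 (both (five 1 429 433) (mv 496 (both (five 0 461 497) (mv 399 (both (five 7 399 431) (mv 400 (both (five 7 367 367) (mv 368 (both (five 6 367 495) (mv 369 (both (five 5 336 337) (five 5 368 401))))))))))))) (mv 429 (both (five 3 428 428) (mv 433 (both (five 1 429 432) (mv 465 (both (five 3 429 430) (five 1 430 434)))))))))) (both (mv 460 (both (mv 427 (both (five 3 427 428) (mv 459 (both (five 3 426 426) (mv 491 (both (five 2 458 490) (five 2 459 492)))))))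 (both (mv 431 (both (five 1 428 432) (mv 459 (both (five 1 427 430) (mv 491 (both (five 2 458 490) (five 2 459 492))))))) (both (mv 427 (both (five 3 427 428) (mv 431 (both (five 1 428 432) (mv 459 (both (five 3 426 426) (five 1 427 430))))))) (mv 428 (both (five 3 427 427) (mv 431 (both (five 1 428 432) (mv 492 (both (five 2 459 491) (mv 495 (both (five 0 460 496) (mv 524 (both (five 4 428 557) (mv 429 (both (five 5 396 397) (five 5 428 556))))))))))))))))) (both (mv 460 (both (mv 427 (both (five 3 427 428) (mv 459 (both (five 3 426 426) (mv 491 (both (five 2 458 490) (five 2 459 492))))))) (both (mv 491 (both (five 2 459 492) (mv 459 (both (five 2 458 490) (mv 426 (both (five 3 426 427) (mv 430 (both (five 1 427 431) (mv 458 (both (five 3 425 425) (five 1 426 429))))))))))) (both (mv 491 (both (five 2 459 492) (mv 459 (both (five 2 458 490) (mv 430 (both (five 1 427 431) (mv 429 (both (five 1 426 458) (mv 464 (both (five 3 428 428) (five 3 429 465))))))))))) (both (mv 427 (both (five 3 427 428) (mv 459 (both (five 3 426 426) (mv 430 (both (five 1 427 431) (mv 429 (both (five 1 426 458) (mv 464 (both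 (five 3 429 465) (mv 496 (both (five 0 460 495) (five 0 461 497))))))))))))) (mv 428 (both (five 3 427 427) (mv 492 (both (five 2 459 491) (mv 495 (both (five 0 460 496) (mv 524 (both (five 4 428 557) (mv 429 (both (five 5 396 397) (five 5 428 556)))))))))))))))) (both (mv 460 (both (mv 427 (both (five 3 427 428) (mv 459 (both (five 3 426 426) (mv 491 (both (five 2 458 490) (five 2 459 492))))))) (both (mv 431 (both (five 1 428 432) (mv 459 (both (five 1 427 430) (mv 491 (both (five 2 458 490) (five 2 459 492))))))) (both (mv 427 (both (five 3 427 428) (mv 431 (both (five 1 428 432) (mv 459 (both (five 3 426 426) (five 1 427 430))))))) (mv 428 (both (five 3 427 427) (mv 429 (both (five 3 428 464) (mv 431 (both (five 1 428 432) (mv 492 (both (five 2 459 491) (mv 397 (both (five 6 364 365) (five 5 396 524))))))))))))))) (both (mv 464 (both (mv 496 (both (five 0 461 497) (mv 460 (both (five 0 460 495) (mv 491 (both (five 2 459 492) (mv 459 (both (five 2 458 490) (mv 426 (both (five 3 426 427) (mv 430 (both (five 1 427 431) (mv 458 (both (five 3 425 425) (five 1 426 429))))))))))))))) (both (mv 433 (both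 (five 1 429 432) (mv 465 (both (five 1 430 434) (mv 430 (both (five 3 429 429) (mv 466 (both (five 3 430 431) (mv 498 (both (five 0 462 497) (five 0 463 499))))))))))) (both (mv 432 (both (five 1 429 433) (mv 431 (both (five 1 428 460) (mv 399 (both (five 7 399 496) (mv 367 (both (five 4 335 335) (mv 334 (both (five 7 334 366) (mv 368 (both (five 5 335 336) (mv 400 (both (five 5 367 495) (mv 369 (both (five 5 336 337) (mv 370 (both (five 2 367 371) (five 2 366 398))))))))))))))))))) (mv 433 (both (five 1 429 432) (mv 465 (both (five 1 430 434) (mv 497 (both (five 0 461 496) (five 0 462 498))))))))))) (mv 464 (both (mv 429 (both (five 3 428 428) (mv 465 (both (five 3 429 430) (mv 497 (both (five 0 461 496) (five 0 462 498))))))) (both (mv 429 (both (five 3 428 428) (mv 433 (both (five 1 429 432) (mv 465 (both (five 3 429 430) (five 1 430 434))))))) (both (mv 433 (both (five 1 429 432) (mv 465 (both (five 1 430 434) (mv 497 (both (five 0 461 496) (five 0 462 498))))))) (mv 428 (both (five 3 428 429) (mv 432 (both (five 1 429 433) (mv 460 (both (five 3 427 427) (mv 496 (both (five 0 460 495) (five 0 461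 497)))))))))))))))))))) (both (mv 460 (both (mv 463 (both (mv 432 (both (five 1 428 431) (mv 464 (both (five 1 429 433) (mv 496 (both (five 0 460 495) (five 0 461 497))))))) (mv 427 (both (five 3 427 428) (mv 459 (both (five 3 426 426) (mv 491 (both (five 2 458 490) (five 2 459 492))))))))) (both (mv 459 (both (mv 426 (both (five 3 426 427) (mv 458 (both (five 3 425 425) (mv 490 (both (five 2 457 489) (five 2 458 491))))))) (mv 494 (both (five 0 459 495) (mv 558 (both (five 7 429 429) (mv 589 (both (five 6 461 557) (mv 590 (both (five 6 493 621) (mv 591 (both (five 4 462 559) (five 4 494 623))))))))))))) (both (mv 463 (both (mv 432 (both (five 1 428 431) (mv 464 (both (five 1 429 433) (mv 496 (both (five 0 460 495) (five 0 461 497))))))) (both (mv 428 (both (five 3 427 427) (mv 492 (both (five 2 459 491) (mv 495 (both (five 0 460 496) (mv 524 (both (five 4 428 557) (mv 429 (both (five 5 396 397) (five 5 428 556))))))))))) (mv 428 (both (five 3 427 427) (mv 429 (both (five 3 428 464) (mv 431 (both (five 1 428 432) (mv 492 (both (five 2 459 491) (mv 397 (both (five 6 364 365) (five 5 396 524))))))))))))))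 (both (mv 491 (both (mv 463 (both (five 2 459 492) (mv 428 (both (five 3 427 427) (mv 432 (both (five 1 428 431) (mv 464 (both (five 3 428 429) (five 1 429 433))))))))) (both (mv 459 (both (five 2 458 490) (mv 427 (both (five 3 426 426) (mv 428 (both (five 3 427 463) (mv 396 (both (five 6 363 364) (five 5 395 523))))))))) (both (mv 490 (both (five 2 458 459) (mv 492 (both (five 1 457 489) (mv 524 (both (five 3 490 523) (mv 428 (both (five 4 428 557) (mv 429 (both (five 5 396 397) (five 5 428 556))))))))))) (mv 459 (both (five 2 458 490) (mv 427 (both (five 3 426 426) (mv 492 (both (five 2 459 463) (mv 395 (both (five 4 363 363) (five 4 395 524))))))))))))) (both (mv 463 (both (mv 432 (both (five 1 428 431) (mv 464 (both (five 1 429 433) (mv 496 (both (five 0 460 495) (five 0 461 497))))))) (both (mv 428 (both (five 3 427 427) (mv 432 (both (five 1 428 431) (mv 464 (both (five 3 428 429) (five 1 429 433))))))) (mv 427 (both (five 3 427 428) (mv 459 (both (five 3 426 426) (mv 494 (both (five 0 459 495) (mv 558 (both (five 7 429 429) (mv 589 (both (five 6 461 557) (mv 590 (both (five 6 493 621) (mv 591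 (both (five 4 462 559) (five 4 494 623)))))))))))))))))) (mv 463 (both (mv 432 (both (five 1 428 431) (mv 464 (both (five 1 429 433) (mv 496 (both (five 0 460 495) (five 0 461 497))))))) (both (mv 432 (both (five 1 428 431) (mv 464 (both (five 1 429 433) (mv 429 (both (five 3 428 428) (mv 492 (both (five 2 459 491) (mv 365 (both (five 6 364 397) (mv 496 (both (five 0 461 497) (mv 524 (both (five 5 428 556) (mv 558 (both (five 7 429 494) (mv 523 (both (five 0 523 559) (mv 522 (both (five 0 522 557) (mv 554 (both (five 2 521 553) (five 2 522 555))))))))))))))))))))))) (mv 491 (both (five 2 459 492) (mv 459 (both (five 2 458 490) (mv 494 (both (five 0 459 495) (mv 558 (both (five 7 429 429) (mv 589 (both (five 6 461 557) (mv 590 (both (five 6 493 621) (mv 591 (both (five 4 462 559) (five 4 494 623)))))))))))))))))))))))) (both (mv 460 (both (mv 463 (both (mv 432 (both (five 1 428 431) (mv 464 (both (five 1 429 433) (mv 496 (both (five 0 460 495) (five 0 461 497))))))) (mv 427 (both (five 3 427 428) (mv 459 (both (five 3 426 426) (mv 491 (both (five 2 458 490) (five 2 459 492))))))))) (both (mv 463 (both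 (mv 432 (both (five 1 428 431) (mv 464 (both (five 1 429 433) (mv 496 (both (five 0 460 495) (five 0 461 497))))))) (both (mv 428 (both (five 3 427 427) (mv 492 (both (five 2 459 491) (mv 495 (both (five 0 460 496) (mv 524 (both (five 4 428 557) (mv 523 (both (five 1 491 494) (five 6 427 555))))))))))) (mv 427 (both (five 3 427 428) (mv 431 (both (five 1 428 432) (mv 491 (both (five 2 459 492) (mv 494 (both (five 5 430 558) (mv 399 (both (five 6 366 367) (five 5 398 430)))))))))))))) (both (mv 459 (both (mv 426 (both (five 3 426 427) (mv 458 (both (five 3 425 425) (mv 490 (both (five 2 457 489) (five 2 458 491))))))) (mv 494 (both (five 0 459 495) (mv 557 (both (five 6 429 430) (mv 589 (both (five 6 461 558) (five 5 493 621))))))))) (both (mv 459 (both (mv 426 (both (five 3 426 427) (mv 458 (both (five 3 425 425) (mv 490 (both (five 2 457 489) (five 2 458 491))))))) (both (mv 427 (both (five 3 426 426) (mv 431 (both (five 1 427 430) (mv 463 (both (five 3 427 428) (five 1 428 432))))))) (mv 430 (both (five 1 427 431) (mv 491 (both (five 2 458 490) (mv 492 (both (five 2 459 463) (mv 557 (both (five 6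 429 494) (mv 428 (both (five 4 428 524) (mv 396 (both (five 6 363 364) (five 6 395 523)))))))))))))))) (both (mv 494 (both (mv 557 (both (five 6 429 430) (mv 589 (both (five 6 461 558) (five 5 493 621))))) (both (mv 459 (both (five 0 459 495) (mv 427 (both (five 3 426 426) (mv 463 (both (five 3 427 428) (mv 431 (both (five 1 428 432) (five 5 430 558))))))))) (mv 430 (both (five 6 429 557) (mv 431 (both (five 5 398 399) (five 1 427 459)))))))) (mv 494 (both (mv 557 (both (five 6 429 430) (mv 589 (both (five 6 461 558) (five 5 493 621))))) (both (mv 459 (both (five 0 459 495) (mv 491 (both (five 2 458 490) (mv 463 (both (five 2 459 492) (mv 431 (both (five 1 428 432) (five 5 430 558))))))))) (mv 430 (both (five 6 429 557) (mv 431 (both (five 5 398 399) (five 1 427 459)))))))))))))) (both (mv 494 (both (mv 429 (both (five 7 429 558) (mv 397 (both (five 4 365 365) (five 7 397 430))))) (both (mv 558 (both (five 7 429 429) (mv 589 (both (five 6 461 557) (mv 590 (both (five 6 493 621) (mv 591 (both (five 4 462 559) (five 4 494 623))))))))) (both (mv 430 (both (five 6 429 557) (mv 397 (both (five 7 397 429)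 (mv 398 (both (five 7 365 365) (mv 399 (both (five 5 366 367) (five 5 398 431))))))))) (mv 557 (both (five 6 429 430) (mv 589 (both (five 6 461 558) (five 5 493 621))))))))) (both (ref 0) (mv 494 (both (mv 429 (both (five 7 429 558) (mv 397 (both (five 4 365 365) (five 7 397 430))))) (both (mv 495 (both (mv 430 (both (five 6 429 557) (mv 397 (both (five 7 397 429) (mv 398 (both (five 7 365 365) (mv 366 (both (five 4 366 463) (mv 367 (both (five 5 334 335) (five 5 366 399))))))))))) (both (mv 460 (both (five 0 459 459) (mv 496 (both (five 0 460 463) (five 3 461 497))))) (mv 460 (both (five 0 459 459) (mv 496 (both (five 3 461 497) (mv 524 (both (five 1 491 523) (mv 557 (both (five 6 429 430) (mv 492 (both (five 4 428 428) (mv 556 (both (five 5 428 429) (five 4 460 589)))))))))))))))) (both (mv 557 (both (five 6 429 430) (mv 589 (both (five 6 461 558) (five 5 493 621))))) (mv 558 (both (five 7 429 429) (mv 589 (both (five 6 461 557) (mv 590 (both (five 6 493 621) (mv 591 (both (five 4 462 559) (five 4 494 623))))))))))))))))))) (both (mv 462 (both (mv 460 (both (mv 463 (both (mv 432 (both (five 1 428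 431) (mv 464 (both (five 1 429 433) (mv 496 (both (five 0 460 495) (five 0 461 497))))))) (mv 427 (both (five 3 427 428) (mv 459 (both (five 3 426 426) (mv 491 (both (five 2 458 490) (five 2 459 492))))))))) (both (mv 463 (both (mv 432 (both (five 1 428 431) (mv 464 (both (five 1 429 433) (mv 496 (both (five 0 460 495) (five 0 461 497))))))) (both (mv 428 (both (five 3 427 427) (mv 492 (both (five 2 459 491) (mv 495 (both (five 0 460 496) (mv 524 (both (five 4 428 557) (mv 523 (both (five 1 491 494) (five 6 427 555))))))))))) (mv 427 (both (five 3 427 428) (mv 431 (both (five 1 428 432) (mv 491 (both (five 2 459 492) (mv 494 (both (five 5 430 558) (mv 399 (both (five 6 366 367) (five 5 398 430)))))))))))))) (both (mv 459 (both (mv 426 (both (five 3 426 427) (mv 458 (both (five 3 425 425) (mv 490 (both (five 2 457 489) (five 2 458 491))))))) (mv 494 (both (five 0 459 495) (mv 557 (both (five 6 429 430) (mv 589 (both (five 6 461 558) (five 5 493 621))))))))) (both (mv 459 (both (mv 426 (both (five 3 426 427) (mv 458 (both (five 3 425 425) (mv 490 (both (five 2 457 489) (five 2 458 491))))))) (both (mv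 427 (both (five 3 426 426) (mv 431 (both (five 1 427 430) (mv 463 (both (five 3 427 428) (five 1 428 432))))))) (mv 430 (both (five 1 427 431) (mv 491 (both (five 2 458 490) (mv 492 (both (five 2 459 463) (mv 557 (both (five 6 429 494) (mv 428 (both (five 4 428 524) (mv 396 (both (five 6 363 364) (five 6 395 523)))))))))))))))) (both (mv 494 (both (mv 557 (both (five 6 429 430) (mv 589 (both (five 6 461 558) (five 5 493 621))))) (both (mv 459 (both (five 0 459 495) (mv 427 (both (five 3 426 426) (mv 463 (both (five 3 427 428) (mv 431 (both (five 1 428 432) (five 5 430 558))))))))) (mv 430 (both (five 6 429 557) (mv 431 (both (five 5 398 399) (five 1 427 459)))))))) (mv 494 (both (mv 557 (both (five 6 429 430) (mv 589 (both (five 6 461 558) (five 5 493 621))))) (both (mv 459 (both (five 0 459 495) (mv 491 (both (five 2 458 490) (mv 463 (both (five 2 459 492) (mv 431 (both (five 1 428 432) (five 5 430 558))))))))) (mv 430 (both (five 6 429 557) (mv 431 (both (five 5 398 399) (five 1 427 459)))))))))))))) (both (mv 463 (both (mv 460 (both (mv 432 (both (five 1 428 431) (mv 464 (both (five 1 429 433) (mv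 496 (both (five 0 460 495) (five 0 461 497))))))) (mv 427 (both (five 3 427 428) (mv 459 (both (five 3 426 426) (mv 491 (both (five 2 458 490) (five 2 459 492))))))))) (both (mv 464 (both (mv 433 (both (five 1 429 432) (mv 465 (both (five 1 430 434) (mv 497 (both (five 0 461 496) (five 0 462 498))))))) (both (mv 493 (both (five 2 460 492) (mv 496 (both (five 0 461 497) (mv 557 (both (five 5 429 430) (mv 588 (both (five 6 460 556) (mv 589 (both (five 6 492 620) (mv 590 (both (five 4 461 558) (five 4 493 622))))))))))))) (mv 432 (both (five 1 429 433) (mv 493 (both (five 2 460 492) (mv 557 (both (five 5 429 430) (mv 588 (both (five 6 460 556) (mv 589 (both (five 6 492 620) (mv 590 (both (five 4 461 558) (five 4 493 622)))))))))))))))) (both (mv 460 (both (mv 427 (both (five 3 427 428) (mv 459 (both (five 3 426 426) (mv 491 (both (five 2 458 490) (five 2 459 492))))))) (both (mv 431 (both (five 1 428 432) (mv 459 (both (five 1 427 430) (mv 491 (both (five 2 458 490) (five 2 459 492))))))) (both (mv 427 (both (five 3 427 428) (mv 431 (both (five 1 428 432) (mv 459 (both (five 3 426 426) (five 1 427 430)))))))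 (mv 428 (both (five 3 427 427) (mv 431 (both (five 1 428 432) (mv 492 (both (five 2 459 491) (mv 493 (both (five 4 396 396) (five 7 428 557))))))))))))) (both (mv 496 (both (mv 460 (both (five 0 460 495) (mv 427 (both (five 3 427 428) (mv 431 (both (five 1 428 432) (mv 459 (both (five 3 426 426) (five 1 427 430))))))))) (both (mv 464 (both (five 0 461 497) (mv 432 (both (five 1 429 433) (mv 399 (both (five 7 399 431) (mv 400 (both (five 7 367 367) (mv 368 (both (five 6 367 495) (mv 369 (both (five 5 336 337) (five 5 368 401))))))))))))) (both (mv 464 (both (five 0 461 497) (mv 432 (both (five 1 429 433) (mv 431 (both (five 7 399 399) (five 1 428 460))))))) (mv 495 (both (five 0 460 460) (mv 497 (both (five 0 461 464) (five 3 462 498))))))))) (mv 493 (both (mv 557 (both (five 5 429 430) (mv 588 (both (five 6 460 556) (mv 589 (both (five 6 492 620) (mv 590 (both (five 4 461 558) (five 4 493 622))))))))) (mv 492 (both (five 2 460 464) (mv 491 (both (five 2 459 460) (five 1 458 490)))))))))))) (both (ref 1) (both (mv 557 (both (mv 430 (both (five 5 429 493) (five 6 429 494))) (both (mv 493 (both (five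 5 429 430) (mv 588 (both (five 6 460 556) (mv 589 (both (five 6 492 620) (mv 590 (both (five 4 461 558) (five 4 493 622))))))))) (both (mv 494 (both (five 6 429 430) (mv 589 (both (five 6 461 558) (five 5 493 621))))) (mv 493 (both (mv 556 (both (five 6 460 588) (mv 555 (both (five 1 522 554) (mv 558 (both (five 4 461 590) (mv 523 (both (five 3 522 522) (mv 524 (both (five 0 523 559) (mv 490 (both (five 3 490 491) (mv 587 (both (five 2 554 586) (mv 619 (both (five 5 491 492) (five 5 523 651))))))))))))))))) (both (mv 588 (both (five 6 460 556) (mv 589 (both (five 6 492 620) (mv 621 (both (five 5 493 494) (mv 622 (both (five 4 493 590) (five 4 525 654))))))))) (both (mv 588 (both (five 6 460 556) (mv 589 (both (five 6 492 620) (mv 621 (both (five 5 493 494) (mv 492 (both (five 7 492 524) (mv 490 (both (five 0 490 491) (mv 653 (both (five 5 525 558) (mv 654 (both (five 4 525 622) (five 4 557 686))))))))))))))) (both (mv 590 (both (five 4 461 558) (mv 589 (both (five 4 493 622) (mv 620 (both (five 6 492 588) (mv 621 (both (five 5 493 494) (five 6 524 652))))))))) (mv 590 (both (five 4 461 558) (mv 589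 (both (five 4 493 622) (mv 621 (both (five 5 493 494) (mv 524 (both (five 7 492 492) (mv 652 (both (five 6 524 620) (mv 653 (both (five 7 524 556) (five 6 556 684)))))))))))))))))))))) (both (mv 460 (both (mv 459 (both (mv 426 (both (five 3 426 427) (mv 458 (both (five 3 425 425) (mv 490 (both (five 2 457 489) (five 2 458 491))))))) (mv 430 (both (five 1 427 431) (mv 494 (both (five 0 459 495) (five 6 429 557))))))) (both (mv 463 (both (mv 432 (both (five 1 428 431) (mv 464 (both (five 1 429 433) (mv 496 (both (five 0 460 495) (five 0 461 497))))))) (both (mv 428 (both (five 3 427 427) (mv 431 (both (five 1 428 432) (mv 492 (both (five 2 459 491) (mv 493 (both (five 4 396 396) (five 7 428 557))))))))) (mv 492 (both (five 2 459 491) (mv 464 (both (five 2 460 493) (mv 496 (both (five 0 460 495) (five 0 461 497)))))))))) (both (mv 463 (both (mv 432 (both (five 1 428 431) (mv 464 (both (five 1 429 433) (mv 496 (both (five 0 460 495) (five 0 461 497))))))) (mv 427 (both (five 3 427 428) (mv 459 (both (five 3 426 426) (mv 491 (both (five 2 458 490) (five 2 459 492))))))))) (both (mv 557 (both (mv 430 (both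 (five 5 429 493) (five 6 429 494))) (both (mv 430 (both (five 6 429 494) (mv 431 (both (five 1 427 459) (mv 432 (both (five 2 429 433) (five 1 428 463))))))) (mv 428 (both (five 7 428 493) (mv 427 (both (five 3 427 463) (mv 426 (both (five 0 425 425) (five 3 426 459)))))))))) (both (mv 557 (both (mv 430 (both (five 5 429 493) (five 6 429 494))) (both (mv 494 (both (five 6 429 430) (mv 459 (both (five 0 459 495) (mv 426 (both (five 3 426 427) (mv 458 (both (five 3 425 425) (mv 490 (both (five 2 457 489) (five 2 458 491))))))))))) (mv 428 (both (five 7 428 493) (mv 427 (both (five 3 427 463) (mv 426 (both (five 0 425 425) (five 3 426 459)))))))))) (mv 557 (both (mv 430 (both (five 5 429 493) (five 6 429 494))) (both (mv 430 (both (five 6 429 494) (mv 431 (both (five 1 427 459) (mv 432 (both (five 2 429 433) (five 1 428 463))))))) (mv 428 (both (five 7 428 493) (mv 492 (both (five 4 428 524) (mv 463 (both (five 2 459 491) (mv 432 (both (five 1 428 431) (mv 464 (both (five 1 429 433) (mv 496 (both (five 0 460 495) (five 0 461 497)))))))))))))))))))))) (mv 494 (both (mv 557 (both (five 6 429 430) (mv 589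 (both (five 6 461 558) (five 5 493 621))))) (both (mv 430 (both (mv 431 (both (five 5 398 399) (mv 432 (both (five 2 429 433) (mv 460 (both (five 1 427 459) (five 1 428 463))))))) (both (mv 398 (both (five 6 397 493) (mv 365 (both (five 7 365 397) (mv 366 (both (five 7 333 333) (mv 367 (both (five 5 334 335) (five 5 366 399))))))))) (mv 398 (both (five 6 397 493) (mv 365 (both (five 7 365 397) (mv 366 (both (five 7 333 333) (mv 335 (both (five 5 334 367) (mv 303 (both (five 5 302 334) (mv 463 (both (five 4 366 495) (mv 431 (both (five 5 430 558) (mv 432 (both (five 2 429 433) (five 1 428 460)))))))))))))))))))) (both (mv 493 (both (mv 558 (both (five 7 461 590) (mv 463 (both (five 5 430 431) (mv 464 (both (five 2 461 465) (mv 432 (both (five 1 429 433) (mv 496 (both (five 0 461 497) (mv 495 (both (five 3 460 460) (five 2 492 524))))))))))))) (both (mv 557 (both (five 5 461 589) (mv 460 (both (five 7 428 428) (mv 459 (both (five 0 458 458) (five 0 459 495))))))) (mv 557 (both (five 5 461 589) (mv 556 (both (five 6 460 588) (mv 555 (both (five 1 522 554) (mv 558 (both (five 7 461 590) (mv 431 (both (five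 5 430 463) (mv 523 (both (five 3 522 522) (mv 559 (both (five 3 523 524) (five 4 462 591)))))))))))))))))) (mv 430 (both (five 6 429 557) (mv 431 (both (five 5 398 399) (mv 432 (both (five 2 429 433) (mv 460 (both (five 1 427 459) (five 1 428 463))))))))))))))))))) (both (mv 493 (both (mv 557 (both (mv 588 (both (five 6 460 556) (mv 589 (both (five 6 492 620) (mv 621 (both (five 5 493 494) (mv 622 (both (five 4 493 590) (five 4 525 654))))))))) (both (mv 492 (both (mv 462 (both (five 5 429 430) (mv 463 (both (five 2 460 464) (mv 491 (both (five 0 490 490) (five 1 459 494))))))) (both (mv 460 (both (five 7 428 428) (mv 490 (both (five 0 490 491) (mv 556 (both (five 6 460 588) (mv 555 (both (five 1 522 554) (mv 524 (both (five 6 459 587) (mv 459 (both (five 7 427 427) (mv 458 (both (five 0 457 457) (five 2 457 489))))))))))))))) (mv 430 (both (five 5 429 462) (mv 460 (both (five 7 428 428) (mv 556 (both (five 6 460 588) (mv 555 (both (five 1 522 554) (mv 524 (both (five 6 459 587) (mv 459 (both (five 7 427 427) (mv 458 (both (five 0 457 457) (five 0 458 494)))))))))))))))))) (both (mv 428 (both (five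 7 428 460) (mv 462 (both (five 5 429 430) (mv 589 (both (five 5 461 494) (mv 620 (both (five 6 492 588) (mv 621 (both (five 6 524 652) (mv 622 (both (five 4 493 590) (five 4 525 654))))))))))))) (both (mv 428 (both (five 7 428 460) (mv 462 (both (five 5 429 430) (mv 589 (both (five 5 461 494) (mv 622 (both (five 4 493 590) (mv 621 (both (five 4 525 654) (mv 524 (both (five 7 492 492) (mv 652 (both (five 6 524 620) (mv 653 (both (five 7 524 556) (five 6 556 684))))))))))))))))) (mv 430 (both (five 5 429 462) (mv 460 (both (five 7 428 428) (mv 492 (both (five 7 460 589) (mv 490 (both (five 0 490 491) (mv 556 (both (five 6 460 588) (mv 555 (both (five 1 522 554) (mv 524 (both (five 6 459 587) (mv 459 (both (five 7 427 427) (mv 458 (both (five 0 457 457) (five 2 457 489)))))))))))))))))))))))) (both (mv 429 (both (mv 396 (both (five 7 396 428) (mv 397 (both (five 7 364 364) (five 4 397 494))))) (both (mv 428 (both (five 7 396 396) (mv 427 (both (mv 426 (both (five 0 426 462) (mv 393 (both (five 3 393 394) (mv 425 (both (five 3 392 392) (five 0 425 460))))))) (both (mv 430 (both (five 5 397 398) (mv 459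 (both (five 2 426 458) (mv 431 (both (five 2 427 460) (mv 399 (both (five 1 396 400) (mv 463 (both (five 0 428 464) (mv 495 (both (five 6 398 494) (five 4 399 496))))))))))))) (mv 398 (both (five 5 397 430) (mv 426 (both (five 0 426 462) (mv 393 (both (five 3 393 394) (mv 425 (both (five 3 392 392) (mv 457 (both (five 2 424 456) (five 2 425 458)))))))))))))))) (both (mv 396 (both (five 7 396 428) (mv 397 (both (five 7 364 364) (mv 398 (both (five 5 365 366) (five 5 397 430))))))) (mv 397 (both (five 4 397 494) (mv 398 (both (five 5 365 366) (five 5 397 430))))))))) (both (mv 429 (both (mv 430 (both (five 5 397 398) (mv 556 (both (five 6 428 524) (mv 557 (both (five 5 429 462) (five 6 460 588))))))) (both (mv 396 (both (five 7 396 428) (mv 397 (both (five 7 364 364) (mv 524 (both (five 6 396 492) (five 6 428 556))))))) (mv 396 (both (five 7 396 428) (mv 397 (both (five 7 364 364) (mv 398 (both (five 5 365 366) (five 5 397 430)))))))))) (both (mv 429 (both (mv 396 (both (five 7 396 428) (mv 397 (both (five 7 364 364) (five 4 397 494))))) (both (mv 428 (both (five 7 396 396) (mv 556 (both (five 6 428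 524) (mv 557 (both (five 7 428 460) (five 6 460 588))))))) (mv 397 (both (five 4 397 494) (mv 524 (both (five 6 396 492) (five 6 428 556)))))))) (mv 429 (both (mv 397 (both (five 4 397 494) (mv 398 (both (five 5 365 366) (five 5 397 430))))) (both (mv 430 (both (five 5 397 398) (mv 556 (both (five 6 428 524) (mv 557 (both (five 5 429 462) (five 6 460 588))))))) (mv 397 (both (five 4 397 494) (mv 524 (both (five 6 396 492) (five 6 428 556))))))))))))) (both (mv 493 (both (mv 429 (both (five 4 429 558) (mv 430 (both (five 5 397 398) (mv 556 (both (five 6 428 524) (mv 557 (both (five 5 429 462) (five 6 460 588))))))))) (both (mv 557 (both (mv 588 (both (five 6 460 556) (mv 589 (both (five 6 492 620) (mv 590 (both (five 4 461 558) (five 4 493 622))))))) (both (mv 460 (both (five 7 428 428) (mv 492 (both (five 7 460 589) (mv 490 (both (five 0 490 491) (mv 556 (both (five 6 460 588) (mv 555 (both (five 1 522 554) (mv 524 (both (five 6 459 587) (mv 459 (both (five 7 427 427) (mv 458 (both (five 0 457 457) (five 2 457 489))))))))))))))))) (both (mv 430 (both (five 5 429 462) (mv 460 (both (five 7 428 428)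 (mv 589 (both (five 7 460 492) (mv 590 (both (five 4 461 558) (five 4 493 622))))))))) (mv 556 (both (five 6 460 588) (mv 555 (both (five 1 522 554) (mv 558 (both (five 4 461 590) (mv 523 (both (five 3 522 522) (mv 524 (both (five 0 523 559) (mv 490 (both (five 3 490 491) (mv 587 (both (five 2 554 586) (mv 619 (both (five 5 491 492) (five 5 523 651))))))))))))))))))))) (both (mv 429 (both (mv 430 (both (five 5 397 398) (mv 556 (both (five 6 428 524) (mv 557 (both (five 5 429 462) (five 6 460 588))))))) (both (mv 396 (both (five 7 396 428) (mv 397 (both (five 7 364 364) (mv 524 (both (five 6 396 492) (five 6 428 556))))))) (mv 396 (both (five 7 396 428) (mv 397 (both (five 7 364 364) (mv 398 (both (five 5 365 366) (five 5 397 430)))))))))) (both (mv 429 (both (five 4 429 558) (mv 396 (both (five 7 396 428) (mv 397 (both (five 7 364 364) (mv 398 (both (five 5 365 366) (five 5 397 430))))))))) (mv 429 (both (five 4 429 558) (mv 396 (both (five 7 396 428) (mv 397 (both (five 7 364 364) (mv 524 (both (five 6 396 492) (five 6 428 556)))))))))))))) (both (mv 462 (both (mv 463 (both (mv 464 (both (mv 429 (both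 (five 3 428 428) (mv 465 (both (five 3 429 430) (mv 497 (both (five 0 461 496) (five 0 462 498))))))) (both (mv 429 (both (five 3 428 428) (mv 433 (both (five 1 429 432) (mv 465 (both (five 3 429 430) (five 1 430 434))))))) (both (mv 433 (both (five 1 429 432) (mv 465 (both (five 1 430 434) (mv 497 (both (five 0 461 496) (five 0 462 498))))))) (mv 428 (both (five 3 428 429) (mv 432 (both (five 1 429 433) (mv 460 (both (five 3 427 427) (mv 496 (both (five 0 460 495) (five 0 461 497))))))))))))) (both (mv 464 (both (mv 429 (both (five 3 428 428) (mv 465 (both (five 3 429 430) (mv 497 (both (five 0 461 496) (five 0 462 498))))))) (both (mv 432 (both (five 1 429 433) (mv 496 (both (five 0 461 497) (mv 399 (both (five 7 399 431) (mv 400 (both (five 7 367 367) (mv 368 (both (five 6 367 495) (mv 369 (both (five 5 336 337) (five 5 368 401))))))))))))) (mv 429 (both (five 3 428 428) (mv 433 (both (five 1 429 432) (mv 465 (both (five 3 429 430) (five 1 430 434)))))))))) (both (mv 460 (both (mv 427 (both (five 3 427 428) (mv 459 (both (five 3 426 426) (mv 491 (both (five 2 458 490) (five 2 459 492))))))) (both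 (mv 431 (both (five 1 428 432) (mv 459 (both (five 1 427 430) (mv 491 (both (five 2 458 490) (five 2 459 492))))))) (both (mv 427 (both (five 3 427 428) (mv 431 (both (five 1 428 432) (mv 459 (both (five 3 426 426) (five 1 427 430))))))) (mv 428 (both (five 3 427 427) (mv 431 (both (five 1 428 432) (mv 492 (both (five 2 459 491) (mv 396 (both (five 4 396 493) (mv 363 (both (five 7 363 395) (mv 364 (both (five 7 331 331) (mv 365 (both (five 5 332 333) (five 5 364 397))))))))))))))))))) (both (mv 464 (both (mv 496 (both (five 0 461 497) (mv 460 (both (five 0 460 495) (mv 491 (both (five 2 459 492) (mv 459 (both (five 2 458 490) (mv 426 (both (five 3 426 427) (mv 430 (both (five 1 427 431) (mv 458 (both (five 3 425 425) (five 1 426 429))))))))))))))) (both (mv 433 (both (five 1 429 432) (mv 465 (both (five 1 430 434) (mv 430 (both (five 3 429 429) (mv 466 (both (five 3 430 431) (mv 498 (both (five 0 462 497) (five 0 463 499))))))))))) (both (mv 432 (both (five 1 429 433) (mv 431 (both (five 1 428 460) (mv 399 (both (five 7 399 496) (mv 367 (both (five 4 335 335) (mv 334 (both (five 7 334 366) (mv 368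 (both (five 5 335 336) (mv 400 (both (five 5 367 495) (mv 369 (both (five 5 336 337) (mv 370 (both (five 2 367 371) (five 2 366 398))))))))))))))))))) (mv 433 (both (five 1 429 432) (mv 465 (both (five 1 430 434) (mv 497 (both (five 0 461 496) (five 0 462 498))))))))))) (both (mv 460 (both (mv 427 (both (five 3 427 428) (mv 459 (both (five 3 426 426) (mv 491 (both (five 2 458 490) (five 2 459 492))))))) (both (mv 491 (both (five 2 459 492) (mv 459 (both (five 2 458 490) (mv 426 (both (five 3 426 427) (mv 430 (both (five 1 427 431) (mv 458 (both (five 3 425 425) (five 1 426 429))))))))))) (both (mv 491 (both (five 2 459 492) (mv 459 (both (five 2 458 490) (mv 430 (both (five 1 427 431) (mv 429 (both (five 1 426 458) (mv 464 (both (five 3 428 428) (five 3 429 465))))))))))) (both (mv 427 (both (five 3 427 428) (mv 459 (both (five 3 426 426) (mv 430 (both (five 1 427 431) (mv 429 (both (five 1 426 458) (mv 464 (both (five 3 429 465) (mv 496 (both (five 0 460 495) (five 0 461 497))))))))))))) (mv 428 (both (five 3 427 427) (mv 429 (both (five 3 428 464) (mv 492 (both (five 2 459 491) (mv 397 (both (five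 6 364 365) (five 5 396 524)))))))))))))) (mv 460 (both (mv 432 (both (five 1 428 431) (mv 464 (both (five 1 429 433) (mv 496 (both (five 0 460 495) (five 0 461 497))))))) (mv 427 (both (five 3 427 428) (mv 459 (both (five 3 426 426) (mv 491 (both (five 2 458 490) (five 2 459 492))))))))))))))) (both (ref 0) (both (mv 429 (both (mv 558 (both (five 4 429 493) (five 7 429 494))) (both (mv 494 (both (five 7 429 558) (mv 397 (both (five 4 365 365) (five 7 397 430))))) (both (mv 493 (both (five 4 429 558) (mv 396 (both (five 7 396 428) (mv 397 (both (five 7 364 364) (mv 398 (both (five 5 365 366) (five 5 397 430))))))))) (mv 493 (both (mv 396 (both (five 7 396 428) (mv 397 (both (five 7 364 364) (five 4 397 494))))) (both (mv 428 (both (five 7 396 396) (mv 427 (both (five 0 426 426) (mv 430 (both (five 5 397 398) (mv 394 (both (five 3 394 395) (mv 459 (both (five 2 426 458) (mv 431 (both (five 2 427 460) (mv 399 (both (five 1 396 400) (five 5 398 494))))))))))))))) (both (mv 396 (both (five 7 396 428) (mv 397 (both (five 7 364 364) (mv 398 (both (five 5 365 366) (five 5 397 430))))))) (mv 397 (both (five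 4 397 494) (mv 398 (both (five 5 365 366) (five 5 397 430))))))))))))) (both (mv 429 (both (mv 558 (both (five 4 429 493) (five 7 429 494))) (both (mv 494 (both (five 7 429 558) (mv 397 (both (five 4 365 365) (five 7 397 430))))) (both (mv 493 (both (five 4 429 558) (mv 396 (both (five 7 396 428) (mv 397 (both (five 7 364 364) (mv 398 (both (five 5 365 366) (five 5 397 430))))))))) (mv 493 (both (mv 396 (both (five 7 396 428) (mv 397 (both (five 7 364 364) (five 4 397 494))))) (both (mv 428 (both (five 7 396 396) (mv 427 (both (five 0 426 426) (mv 430 (both (five 5 397 398) (five 0 427 463))))))) (mv 397 (both (five 4 397 494) (mv 398 (both (five 5 365 366) (five 5 397 430)))))))))))) (both (ref 1) (mv 494 (both (mv 429 (both (five 7 429 558) (mv 397 (both (five 4 365 365) (five 7 397 430))))) (both (mv 493 (both (mv 429 (both (five 4 397 397) (mv 524 (both (five 6 428 556) (mv 495 (both (five 2 492 496) (five 1 491 523))))))) (mv 430 (both (five 6 397 398) (mv 431 (both (five 5 398 399) (mv 432 (both (five 2 429 433) (mv 460 (both (five 1 427 459) (five 1 428 463))))))))))) (both (mv 430 (both (mv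 431 (both (five 5 398 399) (mv 432 (both (five 2 429 433) (mv 460 (both (five 1 427 459) (five 1 428 463))))))) (both (mv 398 (both (five 6 397 493) (mv 365 (both (five 7 365 397) (mv 366 (both (five 7 333 333) (mv 367 (both (five 5 334 335) (five 5 366 399))))))))) (mv 398 (both (five 6 397 493) (mv 365 (both (five 7 365 397) (mv 366 (both (five 7 333 333) (mv 335 (both (five 5 334 367) (mv 303 (both (five 5 302 334) (mv 463 (both (five 4 366 495) (mv 431 (both (five 5 430 558) (mv 432 (both (five 2 429 433) (five 1 428 460)))))))))))))))))))) (both (mv 429 (both (five 7 429 558) (mv 397 (both (five 4 365 365) (five 4 397 493))))) (mv 558 (both (five 7 429 429) (mv 431 (both (five 5 430 463) (mv 399 (both (five 5 398 430) (mv 590 (both (five 7 461 493) (mv 591 (both (five 4 462 559) (five 4 494 623)))))))))))))))))))))) (both (mv 493 (both (mv 429 (both (five 4 429 558) (mv 396 (both (five 7 396 428) (mv 397 (both (five 7 364 364) (five 4 397 494))))))) (both (mv 557 (both (mv 428 (both (five 7 428 460) (mv 430 (both (five 5 429 462) (mv 588 (both (five 6 460 556) (mv 589 (both (five 6 492 620) (mv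 621 (both (five 5 493 494) (mv 653 (both (five 5 525 558) (mv 654 (both (five 4 525 622) (five 4 557 686))))))))))))))) (both (mv 588 (both (five 6 460 556) (mv 589 (both (five 6 492 620) (mv 621 (both (five 5 493 494) (mv 622 (both (five 4 493 590) (five 4 525 654))))))))) (both (mv 430 (both (five 5 429 462) (mv 460 (both (five 7 428 428) (mv 556 (both (five 6 460 588) (mv 555 (both (five 1 522 554) (mv 558 (both (five 4 461 590) (mv 523 (both (five 3 522 522) (mv 587 (both (five 2 554 586) (mv 491 (both (five 5 459 492) (mv 458 (both (five 7 458 490) (mv 459 (both (five 7 426 426) (five 0 458 494))))))))))))))))))))) (mv 460 (both (five 7 428 428) (mv 589 (both (five 7 460 492) (mv 590 (both (five 4 461 558) (five 4 493 622))))))))))) (both (mv 429 (both (mv 396 (both (five 7 396 428) (mv 397 (both (five 7 364 364) (five 4 397 494))))) (both (mv 428 (both (five 7 396 396) (mv 427 (both (mv 426 (both (five 0 426 462) (mv 393 (both (five 3 393 394) (mv 425 (both (five 3 392 392) (five 0 425 460))))))) (both (mv 430 (both (five 5 397 398) (mv 459 (both (five 2 426 458) (mv 431 (both (five 2 427 460)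 (mv 399 (both (five 1 396 400) (mv 463 (both (five 0 428 464) (mv 495 (both (five 6 398 494) (five 4 399 496))))))))))))) (mv 398 (both (five 5 397 430) (mv 426 (both (five 0 426 462) (mv 393 (both (five 3 393 394) (mv 425 (both (five 3 392 392) (mv 457 (both (five 2 424 456) (five 2 425 458)))))))))))))))) (both (mv 396 (both (five 7 396 428) (mv 397 (both (five 7 364 364) (mv 398 (both (five 5 365 366) (five 5 397 430))))))) (mv 397 (both (five 4 397 494) (mv 398 (both (five 5 365 366) (five 5 397 430))))))))) (both (mv 429 (both (five 4 429 558) (mv 396 (both (five 7 396 428) (mv 397 (both (five 7 364 364) (mv 398 (both (five 5 365 366) (five 5 397 430))))))))) (mv 429 (both (five 4 429 558) (mv 397 (both (five 4 397 494) (mv 398 (both (five 5 365 366) (five 5 397 430)))))))))))) (both (mv 493 (both (mv 429 (both (five 4 429 558) (mv 396 (both (five 7 396 428) (mv 397 (both (five 7 364 364) (five 4 397 494))))))) (both (mv 429 (both (mv 396 (both (five 7 396 428) (mv 397 (both (five 7 364 364) (five 4 397 494))))) (both (mv 428 (both (five 7 396 396) (mv 556 (both (five 6 428 524) (mv 557 (both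 (five 7 428 460) (five 6 460 588))))))) (mv 397 (both (five 4 397 494) (mv 524 (both (five 6 396 492) (five 6 428 556)))))))) (both (mv 429 (both (five 4 429 558) (mv 396 (both (five 7 396 428) (mv 397 (both (five 7 364 364) (mv 524 (both (five 6 396 492) (five 6 428 556))))))))) (mv 557 (both (mv 588 (both (five 6 460 556) (mv 589 (both (five 6 492 620) (mv 621 (both (five 5 493 494) (mv 622 (both (five 4 493 590) (five 4 525 654))))))))) (both (mv 588 (both (five 6 460 556) (mv 589 (both (five 6 492 620) (mv 621 (both (five 5 493 494) (mv 653 (both (five 5 525 558) (mv 654 (both (five 4 525 622) (five 4 557 686))))))))))) (both (mv 590 (both (five 4 461 558) (mv 589 (both (five 4 493 622) (mv 620 (both (five 6 492 588) (mv 621 (both (five 5 493 494) (five 6 524 652))))))))) (both (mv 590 (both (five 4 461 558) (mv 589 (both (five 4 493 622) (mv 621 (both (five 5 493 494) (mv 524 (both (five 7 492 492) (mv 652 (both (five 6 524 620) (mv 653 (both (five 7 524 556) (five 6 556 684))))))))))))) (mv 556 (both (five 6 460 588) (mv 555 (both (five 1 522 554) (mv 558 (both (five 4 461 590) (mv 523 (both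 (five 3 522 522) (mv 524 (both (five 0 523 559) (mv 490 (both (five 3 490 491) (mv 587 (both (five 2 554 586) (mv 619 (both (five 5 491 492) (five 5 523 651)))))))))))))))))))))))))) (both (mv 493 (both (mv 429 (both (five 4 429 558) (mv 396 (both (five 7 396 428) (mv 397 (both (five 7 364 364) (five 4 397 494))))))) (both (mv 557 (both (mv 588 (both (five 6 460 556) (mv 589 (both (five 6 492 620) (mv 621 (both (five 5 493 494) (mv 653 (both (five 5 525 558) (mv 654 (both (five 4 525 622) (five 4 557 686))))))))))) (both (mv 430 (both (five 5 429 462) (mv 460 (both (five 7 428 428) (mv 589 (both (five 7 460 492) (mv 621 (both (five 5 493 494) (mv 653 (both (five 5 525 558) (mv 654 (both (five 4 525 622) (five 4 557 686))))))))))))) (both (mv 460 (both (five 7 428 428) (mv 492 (both (five 7 460 589) (mv 490 (both (five 0 490 491) (mv 556 (both (five 6 460 588) (mv 555 (both (five 1 522 554) (mv 524 (both (five 6 459 587) (mv 459 (both (five 7 427 427) (mv 458 (both (five 0 457 457) (five 2 457 489))))))))))))))))) (mv 492 (both (mv 462 (both (five 5 429 430) (mv 463 (both (five 2 460 464) (mv 491 (both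 (five 0 490 490) (five 1 459 494))))))) (both (mv 460 (both (five 7 428 428) (mv 490 (both (five 0 490 491) (mv 556 (both (five 6 460 588) (mv 555 (both (five 1 522 554) (mv 524 (both (five 6 459 587) (mv 459 (both (five 7 427 427) (mv 458 (both (five 0 457 457) (five 2 457 489))))))))))))))) (mv 430 (both (five 5 429 462) (mv 460 (both (five 7 428 428) (mv 556 (both (five 6 460 588) (mv 555 (both (five 1 522 554) (mv 524 (both (five 6 459 587) (mv 459 (both (five 7 427 427) (mv 458 (both (five 0 457 457) (five 0 458 494)))))))))))))))))))))) (both (mv 429 (both (five 4 429 558) (mv 430 (both (five 5 397 398) (mv 556 (both (five 6 428 524) (mv 557 (both (five 5 429 462) (five 6 460 588))))))))) (mv 429 (both (mv 396 (both (five 7 396 428) (mv 397 (both (five 7 364 364) (five 4 397 494))))) (both (mv 428 (both (five 7 396 396) (mv 556 (both (five 6 428 524) (mv 557 (both (five 7 428 460) (five 6 460 588))))))) (mv 397 (both (five 4 397 494) (mv 524 (both (five 6 396 492) (five 6 428 556)))))))))))) (both (mv 493 (both (mv 429 (both (five 4 429 558) (mv 396 (both (five 7 396 428) (mv 397 (both (five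 7 364 364) (five 4 397 494))))))) (both (mv 557 (both (mv 588 (both (five 6 460 556) (mv 589 (both (five 6 492 620) (mv 590 (both (five 4 461 558) (five 4 493 622))))))) (both (mv 588 (both (five 6 460 556) (mv 589 (both (five 6 492 620) (mv 621 (both (five 5 493 494) (mv 622 (both (five 4 493 590) (five 4 525 654))))))))) (both (mv 588 (both (five 6 460 556) (mv 589 (both (five 6 492 620) (mv 621 (both (five 5 493 494) (mv 653 (both (five 5 525 558) (mv 654 (both (five 4 525 622) (five 4 557 686))))))))))) (both (mv 428 (both (five 7 428 460) (mv 462 (both (five 5 429 430) (mv 494 (both (five 5 461 589) (mv 558 (both (five 7 461 590) (mv 463 (both (five 5 430 431) (mv 464 (both (five 2 461 465) (mv 432 (both (five 1 429 433) (mv 496 (both (five 0 461 497) (mv 524 (both (five 2 492 495) (mv 523 (both (five 0 522 522) (five 0 523 559))))))))))))))))))))) (mv 428 (both (five 7 428 460) (mv 462 (both (five 5 429 430) (mv 556 (both (five 6 460 588) (mv 555 (both (five 1 522 554) (mv 558 (both (five 4 461 590) (mv 523 (both (five 3 522 522) (mv 559 (both (five 0 523 524) (mv 591 (both (five 4 462 494) (five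 0 556 592)))))))))))))))))))))) (both (mv 429 (both (mv 396 (both (five 7 396 428) (mv 397 (both (five 7 364 364) (five 4 397 494))))) (mv 430 (both (five 5 397 398) (mv 556 (both (five 6 428 524) (mv 557 (both (five 5 429 462) (five 6 460 588))))))))) (mv 429 (both (five 4 429 558) (mv 430 (both (five 5 397 398) (mv 556 (both (five 6 428 524) (mv 557 (both (five 5 429 462) (five 6 460 588))))))))))))) (both (mv 493 (both (mv 429 (both (five 4 429 558) (mv 396 (both (five 7 396 428) (mv 397 (both (five 7 364 364) (five 4 397 494))))))) (both (mv 557 (both (mv 460 (both (five 7 428 428) (mv 589 (both (five 7 460 492) (mv 590 (both (five 4 461 558) (five 4 493 622))))))) (both (mv 462 (both (five 5 429 430) (mv 589 (both (five 5 461 494) (mv 620 (both (five 6 492 588) (mv 621 (both (five 6 524 652) (mv 622 (both (five 4 493 590) (five 4 525 654))))))))))) (both (mv 460 (both (five 7 428 428) (mv 589 (both (five 7 460 492) (mv 621 (both (five 5 493 494) (mv 653 (both (five 5 525 558) (mv 654 (both (five 4 525 622) (five 4 557 686))))))))))) (mv 494 (both (mv 460 (both (five 7 428 428) (mv 459 (both (five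 0 458 458) (mv 495 (both (five 3 459 492) (five 3 460 496))))))) (both (mv 462 (both (five 5 429 430) (mv 558 (both (five 7 461 590) (mv 463 (both (five 5 430 431) (mv 464 (both (five 2 461 465) (mv 432 (both (five 1 429 433) (mv 496 (both (five 0 461 497) (mv 524 (both (five 2 492 495) (mv 523 (both (five 0 522 522) (five 0 523 559))))))))))))))))) (mv 428 (both (five 7 428 460) (mv 462 (both (five 5 429 430) (mv 558 (both (five 7 461 590) (mv 463 (both (five 5 430 431) (mv 464 (both (five 2 461 465) (five 2 460 492)))))))))))))))))) (both (mv 429 (both (mv 396 (both (five 7 396 428) (mv 397 (both (five 7 364 364) (five 4 397 494))))) (both (mv 428 (both (five 7 396 396) (mv 427 (both (mv 426 (both (five 0 426 462) (mv 393 (both (five 3 393 394) (mv 425 (both (five 3 392 392) (five 0 425 460))))))) (both (mv 430 (both (five 5 397 398) (mv 459 (both (five 2 426 458) (mv 431 (both (five 2 427 460) (mv 399 (both (five 1 396 400) (mv 463 (both (five 0 428 464) (mv 495 (both (five 6 398 494) (five 4 399 496))))))))))))) (mv 398 (both (five 5 397 430) (mv 426 (both (five 0 426 462) (mv 393 (both (five 3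 393 394) (mv 425 (both (five 3 392 392) (mv 457 (both (five 2 424 456) (five 2 425 458)))))))))))))))) (both (mv 396 (both (five 7 396 428) (mv 397 (both (five 7 364 364) (mv 398 (both (five 5 365 366) (five 5 397 430))))))) (mv 397 (both (five 4 397 494) (mv 398 (both (five 5 365 366) (five 5 397 430))))))))) (both (mv 429 (both (five 4 429 558) (mv 396 (both (five 7 396 428) (mv 397 (both (five 7 364 364) (mv 398 (both (five 5 365 366) (five 5 397 430))))))))) (mv 429 (both (five 4 429 558) (mv 397 (both (five 4 397 494) (mv 398 (both (five 5 365 366) (five 5 397 430)))))))))))) (both (mv 493 (both (mv 429 (both (five 4 429 558) (mv 397 (both (five 4 397 494) (mv 398 (both (five 5 365 366) (five 5 397 430))))))) (both (mv 557 (both (mv 588 (both (five 6 460 556) (mv 589 (both (five 6 492 620) (mv 621 (both (five 5 493 494) (mv 622 (both (five 4 493 590) (five 4 525 654))))))))) (both (mv 588 (both (five 6 460 556) (mv 589 (both (five 6 492 620) (mv 621 (both (five 5 493 494) (mv 653 (both (five 5 525 558) (mv 654 (both (five 4 525 622) (five 4 557 686))))))))))) (both (mv 590 (both (five 4 461 558)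 (mv 589 (both (five 4 493 622) (mv 620 (both (five 6 492 588) (mv 621 (both (five 5 493 494) (five 6 524 652))))))))) (both (mv 590 (both (five 4 461 558) (mv 589 (both (five 4 493 622) (mv 621 (both (five 5 493 494) (mv 524 (both (five 7 492 492) (mv 652 (both (five 6 524 620) (mv 653 (both (five 7 524 556) (five 6 556 684))))))))))))) (mv 556 (both (five 6 460 588) (mv 555 (both (five 1 522 554) (mv 558 (both (five 4 461 590) (mv 523 (both (five 3 522 522) (mv 524 (both (five 0 523 559) (mv 490 (both (five 3 490 491) (mv 587 (both (five 2 554 586) (mv 619 (both (five 5 491 492) (five 5 523 651)))))))))))))))))))))) (both (mv 429 (both (mv 397 (both (five 4 397 494) (mv 398 (both (five 5 365 366) (five 5 397 430))))) (both (mv 430 (both (five 5 397 398) (mv 556 (both (five 6 428 524) (mv 557 (both (five 5 429 462) (five 6 460 588))))))) (mv 397 (both (five 4 397 494) (mv 524 (both (five 6 396 492) (five 6 428 556)))))))) (mv 429 (both (five 4 429 558) (mv 430 (both (five 5 397 398) (mv 556 (both (five 6 428 524) (mv 557 (both (five 5 429 462) (five 6 460 588))))))))))))) (mv 493 (both (mv 429 (both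 (five 4 429 558) (mv 430 (both (five 5 397 398) (mv 556 (both (five 6 428 524) (mv 557 (both (five 5 429 462) (five 6 460 588))))))))) (both (mv 557 (both (mv 588 (both (five 6 460 556) (mv 589 (both (five 6 492 620) (mv 621 (both (five 5 493 494) (mv 622 (both (five 4 493 590) (five 4 525 654))))))))) (both (mv 492 (both (mv 462 (both (five 5 429 430) (mv 463 (both (five 2 460 464) (mv 491 (both (five 0 490 490) (five 1 459 494))))))) (both (mv 460 (both (five 7 428 428) (mv 490 (both (five 0 490 491) (mv 556 (both (five 6 460 588) (mv 555 (both (five 1 522 554) (mv 524 (both (five 6 459 587) (mv 459 (both (five 7 427 427) (mv 458 (both (five 0 457 457) (five 2 457 489))))))))))))))) (mv 430 (both (five 5 429 462) (mv 460 (both (five 7 428 428) (mv 556 (both (five 6 460 588) (mv 555 (both (five 1 522 554) (mv 524 (both (five 6 459 587) (mv 459 (both (five 7 427 427) (mv 458 (both (five 0 457 457) (five 0 458 494)))))))))))))))))) (both (mv 428 (both (five 7 428 460) (mv 462 (both (five 5 429 430) (mv 589 (both (five 5 461 494) (mv 620 (both (five 6 492 588) (mv 621 (both (five 6 524 652) (mv 622 (both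 (five 4 493 590) (five 4 525 654))))))))))))) (both (mv 428 (both (five 7 428 460) (mv 462 (both (five 5 429 430) (mv 589 (both (five 5 461 494) (mv 622 (both (five 4 493 590) (mv 621 (both (five 4 525 654) (mv 524 (both (five 7 492 492) (mv 652 (both (five 6 524 620) (mv 653 (both (five 7 524 556) (five 6 556 684))))))))))))))))) (mv 430 (both (five 5 429 462) (mv 460 (both (five 7 428 428) (mv 492 (both (five 7 460 589) (mv 490 (both (five 0 490 491) (mv 556 (both (five 6 460 588) (mv 555 (both (five 1 522 554) (mv 524 (both (five 6 459 587) (mv 459 (both (five 7 427 427) (mv 458 (both (five 0 457 457) (five 2 457 489)))))))))))))))))))))))) (both (mv 429 (both (five 4 429 558) (mv 428 (both (five 7 396 396) (mv 427 (both (mv 426 (both (five 0 426 462) (mv 393 (both (five 3 393 394) (mv 425 (both (five 3 392 392) (five 0 425 460))))))) (both (mv 430 (both (five 5 397 398) (mv 459 (both (five 2 426 458) (mv 431 (both (five 2 427 460) (mv 399 (both (five 1 396 400) (mv 463 (both (five 0 428 464) (mv 495 (both (five 6 398 494) (five 4 399 496))))))))))))) (mv 398 (both (five 5 397 430) (mv 426 (both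 (five 0 426 462) (mv 393 (both (five 3 393 394) (mv 425 (both (five 3 392 392) (mv 457 (both (five 2 424 456) (five 2 425 458)))))))))))))))))) (mv 557 (both (mv 588 (both (five 6 460 556) (mv 589 (both (five 6 492 620) (mv 621 (both (five 5 493 494) (mv 492 (both (five 7 492 524) (mv 490 (both (five 0 490 491) (mv 653 (both (five 5 525 558) (mv 654 (both (five 4 525 622) (five 4 557 686))))))))))))))) (both (mv 588 (both (five 6 460 556) (mv 589 (both (five 6 492 620) (mv 621 (both (five 5 493 494) (mv 622 (both (five 4 493 590) (five 4 525 654))))))))) (both (mv 460 (both (five 7 428 428) (mv 589 (both (five 7 460 492) (mv 590 (both (five 4 461 558) (five 4 493 622))))))) (mv 556 (both (five 6 460 588) (mv 555 (both (five 1 522 554) (mv 558 (both (five 4 461 590) (mv 523 (both (five 3 522 522) (mv 524 (both (five 0 523 559) (mv 490 (both (five 3 490 491) (mv 587 (both (five 2 554 586) (mv 619 (both (five 5 491 492) (five 5 523 651))))))))))))))))))))))))))))))))))))) (both (mv 524 (both (mv 527 (both (mv 496 (both (five 1 492 495) (five 1 493 497))) (mv 556 (both (five 2 523 555) (five 2 524 557)))))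 (both (mv 523 (both (mv 490 (both (five 3 490 491) (mv 494 (both (five 1 491 495) (mv 522 (both (five 3 489 489) (mv 554 (both (five 2 521 553) (five 2 522 555))))))))) (both (mv 490 (both (five 3 490 491) (mv 494 (both (five 1 491 495) (mv 522 (both (five 3 489 489) (mv 558 (both (five 0 522 557) (five 0 523 559))))))))) (both (mv 554 (both (five 2 522 555) (mv 522 (both (five 2 521 553) (mv 558 (both (five 0 522 557) (five 0 523 559))))))) (mv 491 (both (five 3 490 490) (mv 459 (both (mv 427 (both (five 4 427 556) (mv 394 (both (five 7 394 426) (mv 395 (both (five 7 362 362) (five 4 395 492))))))) (both (mv 494 (both (five 1 491 495) (mv 555 (both (five 2 522 554) (mv 460 (both (five 5 427 428) (mv 558 (both (five 0 523 559) (mv 587 (both (five 5 459 492) (mv 586 (both (five 6 490 618) (mv 588 (both (five 4 491 620) (mv 589 (both (five 1 554 557) (mv 621 (both (five 6 493 590) (five 0 586 622))))))))))))))))))) (mv 427 (both (five 4 427 556) (mv 394 (both (five 7 394 426) (mv 362 (both (five 7 362 395) (mv 428 (both (five 5 395 396) (mv 555 (both (five 5 427 460) (five 2 522 554))))))))))))))))))))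 (both (mv 523 (both (mv 554 (both (five 2 522 555) (mv 522 (both (five 2 521 553) (mv 558 (both (five 0 522 557) (five 0 523 559))))))) (both (mv 490 (both (five 3 490 491) (mv 494 (both (five 1 491 495) (mv 522 (both (five 3 489 489) (mv 558 (both (five 0 522 557) (five 0 523 559))))))))) (mv 491 (both (five 3 490 490) (mv 492 (both (five 3 491 527) (mv 494 (both (five 1 491 495) (mv 555 (both (five 2 522 554) (mv 460 (both (five 6 427 428) (five 5 459 587)))))))))))))) (both (mv 523 (both (mv 495 (both (five 1 491 494) (mv 527 (both (five 1 492 496) (mv 555 (both (five 2 522 554) (five 2 523 556))))))) (both (mv 491 (both (five 3 490 490) (mv 495 (both (five 1 491 494) (mv 527 (both (five 3 491 492) (five 1 492 496))))))) (mv 490 (both (five 3 490 491) (mv 522 (both (five 3 489 489) (mv 554 (both (five 2 521 553) (five 2 522 555)))))))))) (both (mv 527 (both (mv 496 (both (five 1 492 495) (five 1 493 497))) (both (mv 491 (both (five 3 491 492) (mv 523 (both (five 3 490 490) (mv 494 (both (five 1 491 495) (mv 557 (both (five 2 524 556) (mv 558 (both (five 0 522 522) (five 0 523 559))))))))))) (mv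 491 (both (five 3 491 492) (mv 496 (both (five 1 493 497) (mv 523 (both (five 3 490 490) (mv 557 (both (five 2 524 556) (mv 558 (both (five 0 522 522) (five 0 523 559)))))))))))))) (mv 527 (both (mv 556 (both (five 2 523 555) (five 2 524 557))) (both (mv 491 (both (five 3 491 492) (mv 496 (both (five 1 493 497) (mv 523 (both (five 3 490 490) (mv 554 (both (five 2 522 555) (mv 522 (both (five 2 521 553) (mv 558 (both (five 0 522 557) (five 0 523 559))))))))))))) (both (mv 491 (both (five 3 491 492) (mv 496 (both (five 1 493 497) (mv 523 (both (five 3 490 490) (mv 555 (both (five 2 522 554) (five 2 523 556))))))))) (mv 491 (both (five 3 491 492) (mv 496 (both (five 1 493 497) (mv 523 (both (five 3 490 490) (mv 557 (both (five 2 524 556) (mv 558 (both (five 0 522 522) (five 0 523 559))))))))))))))))))))) (both (mv 524 (both (mv 523 (both (mv 495 (both (five 1 491 494) (mv 527 (both (five 1 492 496) (mv 555 (both (five 2 522 554) (five 2 523 556))))))) (both (mv 491 (both (five 3 490 490) (mv 495 (both (five 1 491 494) (mv 527 (both (five 3 491 492) (five 1 492 496))))))) (mv 490 (both (five 3 490 491)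 (mv 522 (both (five 3 489 489) (mv 554 (both (five 2 521 553) (five 2 522 555)))))))))) (both (mv 523 (both (mv 490 (both (five 3 490 491) (mv 522 (both (five 3 489 489) (mv 554 (both (five 2 521 553) (five 2 522 555))))))) (both (mv 494 (both (five 1 491 495) (mv 493 (both (five 1 490 522) (mv 554 (both (five 2 522 555) (mv 558 (both (five 0 523 559) (mv 461 (both (five 4 429 429) (five 7 461 590))))))))))) (both (mv 490 (both (five 3 490 491) (mv 494 (both (five 1 491 495) (mv 522 (both (five 3 489 489) (five 1 490 493))))))) (mv 491 (both (five 3 490 490) (mv 459 (both (mv 427 (both (five 4 427 556) (mv 394 (both (five 7 394 426) (mv 395 (both (five 7 362 362) (five 4 395 492))))))) (both (mv 494 (both (five 1 491 495) (mv 555 (both (five 2 522 554) (mv 460 (both (five 5 427 428) (mv 558 (both (five 0 523 559) (mv 587 (both (five 5 459 492) (mv 618 (both (five 6 490 586) (mv 619 (both (five 6 522 650) (mv 620 (both (five 4 491 588) (five 4 523 652))))))))))))))))) (mv 427 (both (five 4 427 556) (mv 394 (both (five 7 394 426) (mv 362 (both (five 7 362 395) (mv 428 (both (five 5 395 396) (mv 555 (both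 (five 5 427 460) (five 2 522 554)))))))))))))))))))) (both (mv 527 (both (mv 496 (both (five 1 492 495) (five 1 493 497))) (mv 492 (both (five 3 491 491) (five 3 492 493))))) (both (mv 523 (both (mv 495 (both (five 1 491 494) (mv 527 (both (five 1 492 496) (mv 555 (both (five 2 522 554) (five 2 523 556))))))) (both (mv 490 (both (five 3 490 491) (mv 522 (both (five 3 489 489) (mv 554 (both (five 2 521 553) (five 2 522 555))))))) (mv 490 (both (five 3 490 491) (mv 494 (both (five 1 491 495) (mv 522 (both (five 3 489 489) (five 1 490 493)))))))))) (both (mv 523 (both (mv 490 (both (five 3 490 491) (mv 522 (both (five 3 489 489) (mv 554 (both (five 2 521 553) (five 2 522 555))))))) (both (mv 490 (both (five 3 490 491) (mv 522 (both (five 3 489 489) (mv 493 (both (five 1 490 494) (mv 492 (both (five 1 489 521) (five 3 492 527))))))))) (both (mv 554 (both (five 2 522 555) (mv 522 (both (five 2 521 553) (mv 493 (both (five 1 490 494) (mv 492 (both (five 1 489 521) (five 3 492 527))))))))) (mv 490 (both (five 3 490 491) (mv 555 (both (five 2 522 554) (mv 527 (both (five 2 523 556) (mv 493 (both (five 3 492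 492) (mv 496 (both (five 1 493 497) (mv 558 (both (five 0 523 559) (mv 461 (both (five 4 429 429) (mv 590 (both (five 7 461 494) (five 7 493 622))))))))))))))))))))) (mv 527 (both (mv 496 (both (five 1 492 495) (five 1 493 497))) (mv 493 (both (five 3 492 492) (mv 555 (both (five 2 523 556) (mv 523 (both (five 2 522 554) (mv 558 (both (five 0 523 559) (mv 461 (both (five 4 429 429) (mv 590 (both (five 7 461 494) (five 7 493 622))))))))))))))))))))) (both (mv 493 (both (mv 461 (both (mv 429 (both (five 4 429 558) (mv 396 (both (five 7 396 428) (mv 397 (both (five 7 364 364) (five 4 397 494))))))) (both (mv 527 (both (five 3 492 492) (mv 496 (both (five 1 493 497) (mv 557 (both (five 2 524 556) (mv 462 (both (five 5 429 430) (mv 589 (both (five 5 461 494) (mv 620 (both (five 6 492 588) (mv 621 (both (five 6 524 652) (mv 622 (both (five 4 493 590) (five 4 525 654))))))))))))))))) (mv 429 (both (five 4 429 558) (mv 396 (both (five 7 396 428) (mv 397 (both (five 7 364 364) (mv 398 (both (five 5 365 366) (five 5 397 430)))))))))))) (both (mv 461 (both (mv 429 (both (five 4 429 558) (mv 396 (both (five 7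 396 428) (mv 397 (both (five 7 364 364) (five 4 397 494))))))) (both (mv 557 (both (mv 428 (both (five 7 428 460) (mv 430 (both (five 5 429 462) (mv 588 (both (five 6 460 556) (mv 589 (both (five 6 492 620) (mv 621 (both (five 5 493 494) (mv 653 (both (five 5 525 558) (mv 654 (both (five 4 525 622) (five 4 557 686))))))))))))))) (both (mv 588 (both (five 6 460 556) (mv 589 (both (five 6 492 620) (mv 621 (both (five 5 493 494) (mv 622 (both (five 4 493 590) (five 4 525 654))))))))) (both (mv 430 (both (five 5 429 462) (mv 460 (both (five 7 428 428) (mv 556 (both (five 6 460 588) (mv 555 (both (five 1 522 554) (mv 558 (both (five 4 461 590) (mv 523 (both (five 3 522 522) (mv 587 (both (five 2 554 586) (mv 491 (both (five 5 459 492) (mv 458 (both (five 7 458 490) (mv 459 (both (five 7 426 426) (five 0 458 494))))))))))))))))))))) (mv 460 (both (five 7 428 428) (mv 589 (both (five 7 460 492) (mv 590 (both (five 4 461 558) (five 4 493 622))))))))))) (both (mv 557 (both (mv 588 (both (five 6 460 556) (mv 589 (both (five 6 492 620) (mv 621 (both (five 5 493 494) (mv 622 (both (five 4 493 590) (five 4 525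 654))))))))) (mv 428 (both (five 7 428 460) (mv 429 (both (five 7 396 396) (mv 430 (both (five 5 397 398) (five 5 429 462))))))))) (both (mv 429 (both (five 4 429 558) (mv 396 (both (five 7 396 428) (mv 397 (both (five 7 364 364) (mv 398 (both (five 5 365 366) (five 5 397 430))))))))) (mv 429 (both (five 4 429 558) (mv 397 (both (five 4 397 494) (mv 398 (both (five 5 365 366) (five 5 397 430)))))))))))) (both (mv 557 (both (mv 556 (both (five 2 524 527) (mv 461 (both (five 6 460 588) (mv 429 (both (five 4 429 558) (mv 396 (both (five 7 396 428) (mv 397 (both (five 7 364 364) (five 4 397 494))))))))))) (both (mv 461 (both (mv 428 (both (five 7 428 460) (mv 429 (both (five 7 396 396) (mv 430 (both (five 5 397 398) (five 5 429 462))))))) (mv 590 (both (five 4 461 558) (mv 589 (both (five 4 493 622) (mv 620 (both (five 6 492 588) (mv 621 (both (five 5 493 494) (five 6 524 652))))))))))) (both (mv 589 (both (mv 621 (both (five 5 493 494) (mv 622 (both (five 4 493 590) (five 4 525 654))))) (both (mv 620 (both (five 6 492 588) (mv 621 (both (five 6 524 652) (mv 622 (both (five 4 493 590) (five 4 525 654)))))))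 (both (mv 462 (both (five 5 461 494) (mv 556 (both (five 2 524 527) (mv 555 (both (five 1 522 554) (mv 588 (both (five 6 492 620) (mv 590 (both (five 3 555 591) (five 4 493 622))))))))))) (mv 620 (both (five 6 492 588) (mv 621 (both (five 5 493 494) (five 6 524 652))))))))) (both (mv 556 (both (five 2 524 527) (mv 461 (both (five 6 460 588) (mv 428 (both (five 7 428 460) (mv 429 (both (five 7 396 396) (mv 430 (both (five 5 397 398) (five 5 429 462))))))))))) (mv 461 (both (mv 429 (both (five 4 429 558) (mv 396 (both (five 7 396 428) (mv 397 (both (five 7 364 364) (five 4 397 494))))))) (both (mv 428 (both (five 7 428 460) (mv 429 (both (five 7 396 396) (mv 430 (both (five 5 397 398) (five 5 429 462))))))) (both (mv 428 (both (five 7 428 460) (mv 430 (both (five 5 429 462) (mv 527 (both (five 2 524 556) (mv 496 (both (five 1 493 497) (mv 590 (both (five 4 461 558) (mv 589 (both (five 4 493 622) (mv 621 (both (five 5 493 494) (mv 620 (both (five 6 524 652) (mv 591 (both (five 2 588 592) (mv 559 (both (five 5 495 623) (mv 464 (both (five 6 431 432) (five 5 463 495))))))))))))))))))))))) (mv 429 (both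 (five 4 429 558) (mv 397 (both (five 4 397 494) (mv 398 (both (five 5 365 366) (five 5 397 430)))))))))))))))) (both (mv 492 (both (five 3 492 527) (mv 491 (both (five 0 490 490) (mv 494 (both (mv 459 (both (five 3 458 458) (mv 460 (both (five 3 459 495) (mv 428 (both (five 4 396 396) (mv 523 (both (five 2 490 522) (five 5 427 555))))))))) (both (mv 462 (both (five 1 459 463) (mv 430 (both (five 6 397 398) (mv 399 (both (five 5 398 431) (mv 429 (both (five 7 397 397) (mv 522 (both (five 2 490 523) (mv 558 (both (five 7 429 461) (mv 590 (both (five 7 493 622) (mv 591 (both (five 4 462 559) (five 4 494 623))))))))))))))))) (mv 458 (both (five 3 458 459) (mv 462 (both (five 1 459 463) (mv 430 (both (five 6 397 398) (mv 399 (both (five 5 398 431) (mv 429 (both (five 7 397 397) (mv 558 (both (five 7 429 461) (mv 590 (both (five 7 493 622) (mv 591 (both (five 4 462 559) (five 4 494 623)))))))))))))))))))))))) (both (mv 492 (both (five 3 492 527) (mv 491 (both (five 0 490 490) (mv 494 (both (mv 459 (both (five 3 458 458) (mv 460 (both (five 3 459 495) (mv 428 (both (five 4 396 396) (mv 523 (both (five 2 490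 522) (five 5 427 555))))))))) (mv 462 (both (five 1 459 463) (mv 557 (both (five 6 429 430) (mv 589 (both (five 6 461 558) (five 5 493 621))))))))))))) (both (mv 461 (both (mv 429 (both (five 4 429 558) (mv 396 (both (five 7 396 428) (mv 397 (both (five 7 364 364) (mv 398 (both (five 5 365 366) (five 5 397 430))))))))) (both (mv 527 (both (five 3 492 492) (mv 496 (both (five 1 493 497) (mv 557 (both (five 2 524 556) (mv 428 (both (five 7 428 460) (mv 590 (both (five 4 461 558) (mv 589 (both (five 4 493 622) (mv 620 (both (five 6 492 588) (mv 621 (both (five 6 524 652) (mv 591 (both (five 2 588 592) (mv 559 (both (five 5 495 623) (mv 464 (both (five 6 431 432) (five 5 463 495))))))))))))))))))))))) (both (mv 527 (both (five 3 492 492) (mv 496 (both (five 1 493 497) (mv 557 (both (five 2 524 556) (mv 428 (both (five 7 428 460) (mv 429 (both (five 7 396 396) (mv 430 (both (five 5 397 398) (five 5 429 462))))))))))))) (mv 429 (both (five 4 429 558) (mv 398 (both (five 5 397 430) (mv 397 (both (five 5 365 366) (mv 364 (both (five 7 364 396) (mv 365 (both (five 7 332 332) (mv 492 (both (five 6 364 460) (five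 3 492 527))))))))))))))))) (both (mv 527 (both (five 3 492 492) (mv 557 (both (five 2 524 556) (mv 589 (both (mv 620 (both (five 6 492 588) (mv 621 (both (five 6 524 652) (mv 622 (both (five 4 493 590) (five 4 525 654))))))) (mv 462 (both (five 5 461 494) (mv 461 (both (five 5 429 430) (mv 428 (both (five 7 428 460) (mv 429 (both (five 7 396 396) (mv 426 (both (five 0 426 427) (mv 464 (both (five 3 428 463) (mv 496 (both (five 1 493 497) (mv 432 (both (five 6 431 559) (mv 399 (both (five 7 399 431) (mv 400 (both (five 7 367 367) (five 6 399 495))))))))))))))))))))))))))) (both (mv 461 (both (mv 527 (both (five 3 492 492) (mv 496 (both (five 1 493 497) (mv 557 (both (five 2 524 556) (mv 428 (both (five 7 428 460) (mv 590 (both (five 4 461 558) (mv 589 (both (five 4 493 622) (mv 620 (both (five 6 492 588) (mv 621 (both (five 6 524 652) (mv 591 (both (five 2 588 592) (mv 559 (both (five 5 495 623) (mv 464 (both (five 6 431 432) (five 5 463 495))))))))))))))))))))))) (both (mv 527 (both (five 3 492 492) (mv 496 (both (five 1 493 497) (mv 557 (both (five 2 524 556) (mv 428 (both (five 7 428 460) (mv 429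 (both (five 7 396 396) (mv 397 (both (five 4 397 494) (mv 398 (both (five 5 365 366) (five 5 397 430))))))))))))))) (mv 429 (both (five 4 429 558) (mv 397 (both (five 4 397 494) (mv 398 (both (five 5 365 366) (five 5 397 430)))))))))) (both (mv 461 (both (mv 429 (both (five 4 429 558) (mv 396 (both (five 7 396 428) (mv 397 (both (five 7 364 364) (five 4 397 494))))))) (both (mv 527 (both (five 3 492 492) (mv 496 (both (five 1 493 497) (mv 557 (both (five 2 524 556) (mv 428 (both (five 7 428 460) (mv 429 (both (five 7 396 396) (mv 494 (both (five 4 397 397) (mv 589 (both (five 5 461 462) (five 5 493 621))))))))))))))) (both (mv 527 (both (five 3 492 492) (mv 496 (both (five 1 493 497) (mv 557 (both (five 2 524 556) (mv 428 (both (five 7 428 460) (mv 590 (both (five 4 461 558) (mv 589 (both (five 4 493 622) (mv 620 (both (five 6 492 588) (mv 621 (both (five 6 524 652) (mv 591 (both (five 2 588 592) (mv 559 (both (five 5 495 623) (mv 464 (both (five 6 431 432) (five 5 463 495))))))))))))))))))))))) (mv 429 (both (five 4 429 558) (mv 397 (both (five 4 397 494) (mv 364 (both (five 7 364 396) (mv 365 (both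 (five 7 332 332) (mv 492 (both (five 6 364 460) (five 3 492 527))))))))))))))) (both (mv 461 (both (mv 429 (both (five 4 429 558) (mv 397 (both (five 4 397 494) (mv 398 (both (five 5 365 366) (five 5 397 430))))))) (both (mv 527 (both (five 3 492 492) (mv 496 (both (five 1 493 497) (mv 557 (both (five 2 524 556) (mv 462 (both (five 5 429 430) (mv 589 (both (five 5 461 494) (mv 620 (both (five 6 492 588) (mv 621 (both (five 6 524 652) (mv 622 (both (five 4 493 590) (five 4 525 654))))))))))))))))) (both (mv 429 (both (five 4 429 558) (mv 398 (both (five 5 397 430) (mv 397 (both (five 5 365 366) (mv 364 (both (five 7 364 396) (mv 365 (both (five 7 332 332) (mv 492 (both (five 6 364 460) (five 3 492 527))))))))))))) (mv 429 (both (five 4 429 558) (mv 397 (both (five 4 397 494) (mv 364 (both (five 7 364 396) (mv 365 (both (five 7 332 332) (mv 492 (both (five 6 364 460) (five 3 492 527))))))))))))))) (mv 461 (both (mv 429 (both (five 4 429 558) (mv 397 (both (five 4 397 494) (mv 398 (both (five 5 365 366) (five 5 397 430))))))) (both (mv 527 (both (five 3 492 492) (mv 496 (both (five 1 493 497) (mv 557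 (both (five 2 524 556) (mv 462 (both (five 5 429 430) (mv 589 (both (five 5 461 494) (mv 620 (both (five 6 492 588) (mv 621 (both (five 6 524 652) (mv 622 (both (five 4 493 590) (five 4 525 654))))))))))))))))) (mv 527 (both (five 3 492 492) (mv 496 (both (five 1 493 497) (mv 557 (both (five 2 524 556) (mv 428 (both (five 7 428 460) (mv 590 (both (five 4 461 558) (mv 589 (both (five 4 493 622) (mv 620 (both (five 6 492 588) (mv 621 (both (five 6 524 652) (mv 591 (both (five 2 588 592) (mv 559 (both (five 5 495 623) (mv 464 (both (five 6 431 432) (five 5 463 495))))))))))))))))))))))))))))))))))))) (both (mv 527 (both (mv 492 (both (five 3 492 493) (mv 496 (both (five 1 493 497) (mv 524 (both (five 3 491 491) (five 1 492 495))))))) (both (mv 492 (both (five 3 492 493) (mv 524 (both (five 3 491 491) (mv 556 (both (five 2 523 555) (five 2 524 557))))))) (both (mv 496 (both (five 1 493 497) (mv 524 (both (five 1 492 495) (mv 556 (both (five 2 523 555) (five 2 524 557))))))) (mv 493 (both (five 3 492 492) (mv 461 (both (mv 429 (both (five 4 429 558) (mv 396 (both (five 7 396 428) (mv 397 (both (five 7 364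 364) (mv 398 (both (five 5 365 366) (five 5 397 430))))))))) (both (mv 557 (both (five 2 524 556) (mv 428 (both (five 7 428 460) (mv 429 (both (five 7 396 396) (mv 430 (both (five 5 397 398) (five 5 429 462))))))))) (both (mv 496 (both (five 1 493 497) (mv 557 (both (five 2 524 556) (mv 428 (both (five 7 428 460) (mv 590 (both (five 4 461 558) (mv 589 (both (five 4 493 622) (mv 620 (both (five 6 492 588) (mv 621 (both (five 6 524 652) (mv 591 (both (five 2 588 592) (mv 559 (both (five 5 495 623) (mv 464 (both (five 6 431 432) (five 5 463 495))))))))))))))))))))) (mv 429 (both (five 4 429 558) (mv 430 (both (five 5 397 398) (mv 557 (both (five 5 429 462) (five 2 524 556))))))))))))))))) (both (mv 493 (both (mv 492 (both (five 3 492 527) (mv 491 (both (five 0 490 490) (mv 494 (both (mv 459 (both (five 3 458 458) (mv 460 (both (five 3 459 495) (mv 428 (both (five 4 396 396) (mv 523 (both (five 2 490 522) (five 5 427 555))))))))) (mv 462 (both (five 1 459 463) (mv 557 (both (five 6 429 430) (mv 589 (both (five 6 461 558) (five 5 493 621))))))))))))) (both (mv 557 (both (mv 556 (both (five 2 524 527) (mv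 461 (both (five 6 460 588) (mv 429 (both (five 4 429 558) (mv 396 (both (five 7 396 428) (mv 397 (both (five 7 364 364) (five 4 397 494))))))))))) (both (mv 461 (both (mv 428 (both (five 7 428 460) (mv 429 (both (five 7 396 396) (mv 430 (both (five 5 397 398) (five 5 429 462))))))) (mv 590 (both (five 4 461 558) (mv 589 (both (five 4 493 622) (mv 620 (both (five 6 492 588) (mv 621 (both (five 5 493 494) (five 6 524 652))))))))))) (both (mv 589 (both (mv 621 (both (five 5 493 494) (mv 622 (both (five 4 493 590) (five 4 525 654))))) (both (mv 620 (both (five 6 492 588) (mv 621 (both (five 6 524 652) (mv 622 (both (five 4 493 590) (five 4 525 654))))))) (both (mv 462 (both (five 5 461 494) (mv 556 (both (five 2 524 527) (mv 555 (both (five 1 522 554) (mv 588 (both (five 6 492 620) (mv 590 (both (five 3 555 591) (five 4 493 622))))))))))) (mv 620 (both (five 6 492 588) (mv 621 (both (five 5 493 494) (five 6 524 652))))))))) (both (mv 556 (both (five 2 524 527) (mv 461 (both (five 6 460 588) (mv 428 (both (five 7 428 460) (mv 429 (both (five 7 396 396) (mv 430 (both (five 5 397 398) (five 5 429 462)))))))))))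 (mv 558 (both (mv 556 (both (five 2 524 527) (mv 555 (both (five 1 522 554) (mv 523 (both (five 3 522 522) (mv 524 (both (five 0 523 559) (mv 490 (both (five 3 490 491) (mv 494 (both (five 1 491 495) (mv 589 (both (five 5 461 462) (five 5 493 621))))))))))))))) (mv 461 (both (five 4 429 429) (five 4 461 590)))))))))) (both (mv 461 (both (mv 429 (both (five 4 429 558) (mv 396 (both (five 7 396 428) (mv 397 (both (five 7 364 364) (five 4 397 494))))))) (both (mv 557 (both (mv 428 (both (five 7 428 460) (mv 430 (both (five 5 429 462) (mv 588 (both (five 6 460 556) (mv 589 (both (five 6 492 620) (mv 621 (both (five 5 493 494) (mv 653 (both (five 5 525 558) (mv 654 (both (five 4 525 622) (five 4 557 686))))))))))))))) (both (mv 588 (both (five 6 460 556) (mv 589 (both (five 6 492 620) (mv 621 (both (five 5 493 494) (mv 622 (both (five 4 493 590) (five 4 525 654))))))))) (both (mv 430 (both (five 5 429 462) (mv 460 (both (five 7 428 428) (mv 556 (both (five 6 460 588) (mv 555 (both (five 1 522 554) (mv 558 (both (five 4 461 590) (mv 523 (both (five 3 522 522) (mv 587 (both (five 2 554 586) (mv 491 (both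 (five 5 459 492) (mv 458 (both (five 7 458 490) (mv 459 (both (five 7 426 426) (five 0 458 494))))))))))))))))))))) (mv 460 (both (five 7 428 428) (mv 589 (both (five 7 460 492) (mv 590 (both (five 4 461 558) (five 4 493 622))))))))))) (both (mv 557 (both (mv 588 (both (five 6 460 556) (mv 589 (both (five 6 492 620) (mv 621 (both (five 5 493 494) (mv 622 (both (five 4 493 590) (five 4 525 654))))))))) (mv 428 (both (five 7 428 460) (mv 429 (both (five 7 396 396) (mv 430 (both (five 5 397 398) (five 5 429 462))))))))) (both (mv 429 (both (five 4 429 558) (mv 396 (both (five 7 396 428) (mv 397 (both (five 7 364 364) (mv 398 (both (five 5 365 366) (five 5 397 430))))))))) (mv 429 (both (five 4 429 558) (mv 397 (both (five 4 397 494) (mv 398 (both (five 5 365 366) (five 5 397 430)))))))))))) (both (mv 492 (both (five 3 492 527) (mv 491 (both (five 0 490 490) (mv 494 (both (mv 459 (both (five 3 458 458) (mv 460 (both (five 3 459 495) (mv 428 (both (five 4 396 396) (mv 523 (both (five 2 490 522) (five 5 427 555))))))))) (both (mv 462 (both (five 1 459 463) (mv 430 (both (five 6 397 398) (mv 399 (both (five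 5 398 431) (mv 429 (both (five 7 397 397) (mv 522 (both (five 2 490 523) (mv 558 (both (five 7 429 461) (mv 590 (both (five 7 493 622) (mv 591 (both (five 4 462 559) (five 4 494 623))))))))))))))))) (mv 458 (both (five 3 458 459) (mv 462 (both (five 1 459 463) (mv 430 (both (five 6 397 398) (mv 399 (both (five 5 398 431) (mv 429 (both (five 7 397 397) (mv 558 (both (five 7 429 461) (mv 590 (both (five 7 493 622) (mv 591 (both (five 4 462 559) (five 4 494 623)))))))))))))))))))))))) (both (mv 492 (both (five 3 492 527) (mv 491 (both (five 0 490 490) (mv 494 (both (mv 459 (both (five 3 458 458) (mv 460 (both (five 3 459 495) (mv 428 (both (five 4 396 396) (mv 523 (both (five 2 490 522) (five 5 427 555))))))))) (mv 462 (both (five 1 459 463) (mv 430 (both (five 6 429 557) (mv 397 (both (five 7 397 429) (mv 398 (both (five 7 365 365) (mv 399 (both (five 5 366 367) (five 5 398 431))))))))))))))))) (both (mv 527 (both (five 3 492 492) (mv 557 (both (five 2 524 556) (mv 589 (both (mv 620 (both (five 6 492 588) (mv 621 (both (five 6 524 652) (mv 622 (both (five 4 493 590) (five 4 525 654))))))) (both (mv 620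 (both (five 6 492 588) (mv 621 (both (five 6 524 652) (mv 653 (both (five 5 525 558) (mv 654 (both (five 4 525 622) (five 4 557 686))))))))) (both (mv 620 (both (five 6 492 588) (mv 621 (both (five 6 524 652) (mv 558 (both (five 5 525 653) (mv 461 (both (five 4 429 429) (five 4 461 590))))))))) (mv 590 (both (five 4 493 622) (mv 461 (both (five 4 461 558) (mv 428 (both (five 7 428 460) (mv 429 (both (five 7 396 396) (mv 430 (both (five 5 397 398) (five 5 429 462))))))))))))))))))) (mv 558 (both (mv 461 (both (five 4 429 429) (mv 590 (both (five 7 461 494) (five 7 493 622))))) (both (mv 527 (both (five 3 492 492) (mv 556 (both (five 2 524 557) (mv 524 (both (five 2 523 555) (mv 523 (both (five 0 523 559) (mv 494 (both (five 1 491 495) (five 1 490 522))))))))))) (mv 461 (both (five 4 429 429) (mv 590 (both (five 4 461 557) (five 7 493 622))))))))))))))) (both (mv 524 (both (mv 527 (both (mv 496 (both (five 1 492 495) (five 1 493 497))) (mv 556 (both (five 2 523 555) (five 2 524 557))))) (both (mv 523 (both (mv 554 (both (five 2 522 555) (mv 522 (both (five 2 521 553) (mv 558 (both (five 0 522 557) (five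 0 523 559))))))) (both (mv 490 (both (five 3 490 491) (mv 494 (both (five 1 491 495) (mv 522 (both (five 3 489 489) (five 1 490 493))))))) (mv 494 (both (five 1 491 495) (mv 462 (both (mv 557 (both (five 6 429 430) (mv 589 (both (five 6 461 558) (five 5 493 621))))) (both (mv 430 (both (five 6 429 557) (mv 397 (both (five 7 397 429) (mv 398 (both (five 7 365 365) (mv 399 (both (five 5 366 367) (five 5 398 431))))))))) (both (mv 490 (both (five 3 490 491) (mv 554 (both (five 2 522 555) (mv 558 (both (five 0 523 559) (mv 429 (both (five 7 429 461) (mv 431 (both (five 5 430 463) (mv 589 (both (five 6 461 557) (mv 590 (both (five 6 493 621) (mv 622 (both (five 7 493 493) (mv 623 (both (five 4 494 591) (five 4 526 655))))))))))))))))))) (mv 490 (both (five 3 490 491) (mv 554 (both (five 2 522 555) (mv 558 (both (five 0 523 559) (mv 429 (both (five 7 429 461) (mv 430 (both (five 7 397 397) (mv 431 (both (five 5 398 399) (five 5 430 463)))))))))))))))))))))) (both (mv 523 (both (mv 495 (both (five 1 491 494) (mv 527 (both (five 1 492 496) (mv 555 (both (five 2 522 554) (five 2 523 556))))))) (both (mv 490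 (both (five 3 490 491) (mv 522 (both (five 3 489 489) (mv 554 (both (five 2 521 553) (five 2 522 555))))))) (mv 490 (both (five 3 490 491) (mv 494 (both (five 1 491 495) (mv 522 (both (five 3 489 489) (five 1 490 493)))))))))) (both (mv 523 (both (mv 554 (both (five 2 522 555) (mv 522 (both (five 2 521 553) (mv 558 (both (five 0 522 557) (five 0 523 559))))))) (both (mv 490 (both (five 3 490 491) (mv 522 (both (five 3 489 489) (mv 558 (both (five 0 522 557) (five 0 523 559))))))) (mv 491 (both (five 3 490 490) (mv 555 (both (five 2 522 554) (mv 556 (both (five 2 523 527) (mv 459 (both (five 4 427 427) (five 4 459 588)))))))))))) (mv 523 (both (mv 490 (both (five 3 490 491) (mv 494 (both (five 1 491 495) (mv 522 (both (five 3 489 489) (five 1 490 493))))))) (both (mv 490 (both (five 3 490 491) (mv 522 (both (five 3 489 489) (mv 558 (both (five 0 522 557) (five 0 523 559))))))) (both (mv 494 (both (five 1 491 495) (mv 493 (both (five 1 490 522) (mv 558 (both (five 0 523 559) (mv 461 (both (five 4 429 429) (five 7 461 590))))))))) (mv 494 (both (five 1 491 495) (mv 557 (both (mv 462 (both (five 6 429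 430) (mv 589 (both (five 5 461 493) (five 5 493 621))))) (both (mv 491 (both (five 3 490 490) (mv 556 (both (five 2 524 527) (mv 427 (both (five 4 427 459) (mv 558 (both (five 0 523 559) (mv 588 (both (five 7 491 620) (mv 493 (both (five 6 460 461) (mv 589 (both (five 5 493 621) (mv 586 (both (five 1 554 587) (mv 590 (both (five 7 493 622) (mv 591 (both (five 3 556 592) (five 4 494 623))))))))))))))))))))) (both (mv 462 (both (five 6 429 430) (mv 490 (both (five 3 490 491) (mv 527 (both (five 2 524 556) (mv 496 (both (five 1 493 497) (mv 558 (both (five 0 523 559) (mv 431 (both (five 5 430 463) (mv 461 (both (five 7 429 429) (mv 590 (both (five 7 461 493) (mv 622 (both (five 7 525 654) (mv 623 (both (five 4 494 591) (five 4 526 655))))))))))))))))))))) (mv 462 (both (five 6 429 430) (mv 589 (both (five 6 461 558) (five 5 493 621)))))))))))))))))))) (both (mv 524 (both (mv 527 (both (mv 496 (both (five 1 492 495) (five 1 493 497))) (mv 492 (both (five 3 491 491) (five 3 492 493))))) (both (mv 523 (both (mv 554 (both (five 2 522 555) (mv 522 (both (five 2 521 553) (mv 558 (both (five 0 522 557) (five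 0 523 559))))))) (both (mv 490 (both (five 3 490 491) (mv 494 (both (five 1 491 495) (mv 522 (both (five 3 489 489) (five 1 490 493))))))) (mv 494 (both (five 1 491 495) (mv 462 (both (mv 557 (both (five 6 429 430) (mv 589 (both (five 6 461 558) (five 5 493 621))))) (both (mv 430 (both (five 6 429 557) (mv 397 (both (five 7 397 429) (mv 398 (both (five 7 365 365) (mv 399 (both (five 5 366 367) (five 5 398 431))))))))) (both (mv 490 (both (five 3 490 491) (mv 554 (both (five 2 522 555) (mv 558 (both (five 0 523 559) (mv 429 (both (five 7 429 461) (mv 431 (both (five 5 430 463) (mv 589 (both (five 6 461 557) (mv 590 (both (five 6 493 621) (mv 622 (both (five 7 493 493) (mv 623 (both (five 4 494 591) (five 4 526 655))))))))))))))))))) (mv 490 (both (five 3 490 491) (mv 554 (both (five 2 522 555) (mv 558 (both (five 0 523 559) (mv 429 (both (five 7 429 461) (mv 430 (both (five 7 397 397) (mv 431 (both (five 5 398 399) (five 5 430 463)))))))))))))))))))))) (both (mv 523 (both (mv 554 (both (five 2 522 555) (mv 522 (both (five 2 521 553) (mv 558 (both (five 0 522 557) (five 0 523 559))))))) (both (mv 490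 (both (five 3 490 491) (mv 522 (both (five 3 489 489) (mv 558 (both (five 0 522 557) (five 0 523 559))))))) (mv 491 (both (five 3 490 490) (mv 492 (both (five 3 491 527) (mv 555 (both (five 2 522 554) (mv 460 (both (five 6 427 428) (five 5 459 587)))))))))))) (mv 523 (both (mv 554 (both (five 2 522 555) (mv 522 (both (five 2 521 553) (mv 558 (both (five 0 522 557) (five 0 523 559))))))) (both (mv 554 (both (five 2 522 555) (mv 522 (both (five 2 521 553) (mv 493 (both (five 1 490 494) (mv 492 (both (five 1 489 521) (five 3 492 527))))))))) (both (mv 494 (both (five 1 491 495) (mv 493 (both (five 1 490 522) (mv 558 (both (five 0 523 559) (mv 461 (both (five 4 429 429) (five 7 461 590))))))))) (mv 495 (both (five 1 491 494) (mv 527 (both (five 1 492 496) (mv 493 (both (five 3 492 492) (mv 554 (both (five 2 522 555) (mv 558 (both (five 0 523 559) (mv 461 (both (five 4 429 429) (mv 590 (both (five 4 461 557) (five 7 493 622))))))))))))))))))))))) (both (mv 527 (both (mv 492 (both (five 3 492 493) (mv 496 (both (five 1 493 497) (mv 524 (both (five 3 491 491) (five 1 492 495))))))) (both (mv 492 (both (five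 3 492 493) (mv 524 (both (five 3 491 491) (mv 556 (both (five 2 523 555) (five 2 524 557))))))) (both (mv 496 (both (five 1 493 497) (mv 524 (both (five 1 492 495) (mv 556 (both (five 2 523 555) (five 2 524 557))))))) (mv 557 (both (five 2 524 556) (mv 589 (both (mv 621 (both (five 5 493 494) (mv 652 (both (five 6 524 620) (mv 653 (both (five 6 556 684) (mv 654 (both (five 4 525 622) (five 4 557 686))))))))) (both (mv 493 (both (five 3 492 492) (mv 620 (both (five 6 492 588) (mv 621 (both (five 6 524 652) (mv 622 (both (five 4 493 590) (five 4 525 654))))))))) (mv 493 (both (five 3 492 492) (mv 462 (both (five 5 461 494) (mv 461 (both (five 5 429 430) (mv 428 (both (five 7 428 460) (mv 429 (both (five 7 396 396) (mv 426 (both (five 0 426 427) (mv 464 (both (five 3 428 463) (mv 496 (both (five 1 493 497) (mv 432 (both (five 6 431 559) (mv 399 (both (five 7 399 431) (mv 400 (both (five 7 367 367) (five 6 399 495)))))))))))))))))))))))))))))))) (both (mv 557 (both (mv 589 (both (mv 621 (both (five 5 493 494) (mv 653 (both (five 5 525 558) (mv 654 (both (five 4 525 622) (five 4 557 686))))))) (both (mv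 493 (both (mv 590 (both (five 4 493 622) (mv 461 (both (five 4 461 558) (mv 428 (both (five 7 428 460) (mv 429 (both (five 7 396 396) (mv 430 (both (five 5 397 398) (five 5 429 462))))))))))) (both (mv 460 (both (five 7 460 492) (mv 461 (both (five 7 428 428) (mv 429 (both (five 4 429 558) (mv 397 (both (five 4 397 494) (mv 398 (both (five 5 365 366) (five 5 397 430))))))))))) (both (mv 492 (both (five 7 460 460) (mv 491 (both (five 0 490 490) (mv 494 (both (five 5 461 462) (mv 459 (both (five 3 458 458) (mv 522 (both (five 2 490 523) (mv 588 (both (five 6 492 620) (mv 556 (both (five 7 459 524) (mv 554 (both (five 1 522 555) (mv 590 (both (five 4 493 622) (mv 591 (both (five 3 556 592) (mv 623 (both (five 4 494 558) (five 0 588 624))))))))))))))))))))))) (both (mv 460 (both (five 7 460 492) (mv 461 (both (five 7 428 428) (mv 462 (both (five 5 429 430) (five 5 461 494))))))) (mv 462 (both (five 5 461 494) (mv 461 (both (five 5 429 430) (mv 590 (both (five 4 461 558) (five 4 493 622)))))))))))) (both (mv 621 (both (mv 653 (both (five 5 525 558) (mv 654 (both (five 4 525 622) (five 4 557 686))))) (both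 (mv 492 (both (five 7 492 524) (mv 493 (both (five 7 460 460) (mv 622 (both (five 4 493 590) (five 4 525 654))))))) (mv 524 (both (five 7 492 492) (mv 652 (both (five 6 524 620) (mv 653 (both (five 7 524 556) (five 6 556 684)))))))))) (mv 621 (both (five 5 493 494) (mv 524 (both (five 7 492 492) (mv 652 (both (five 6 524 620) (mv 653 (both (five 7 524 556) (five 6 556 684))))))))))))) (both (mv 493 (both (mv 461 (both (mv 429 (both (five 4 429 558) (mv 396 (both (five 7 396 428) (mv 397 (both (five 7 364 364) (five 4 397 494))))))) (both (mv 428 (both (five 7 428 460) (mv 429 (both (five 7 396 396) (mv 430 (both (five 5 397 398) (five 5 429 462))))))) (both (mv 428 (both (five 7 428 460) (mv 462 (both (five 5 429 430) (mv 492 (both (five 3 492 527) (mv 463 (both (five 2 460 464) (mv 491 (both (five 0 490 490) (five 1 459 494))))))))))) (mv 429 (both (five 4 429 558) (mv 397 (both (five 4 397 494) (mv 398 (both (five 5 365 366) (five 5 397 430))))))))))) (both (mv 492 (both (five 3 492 527) (mv 460 (both (five 7 460 589) (mv 428 (both (five 4 396 396) (five 4 428 524))))))) (mv 589 (both (mv 620 (both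 (five 6 492 588) (mv 621 (both (five 6 524 652) (mv 622 (both (five 4 493 590) (five 4 525 654))))))) (both (mv 462 (both (five 5 461 494) (mv 461 (both (five 5 429 430) (mv 590 (both (five 4 461 558) (five 4 493 622))))))) (mv 620 (both (five 6 492 588) (mv 621 (both (five 5 493 494) (five 6 524 652))))))))))) (both (mv 556 (both (five 2 524 527) (mv 555 (both (five 1 522 554) (mv 558 (both (mv 523 (both (five 3 522 522) (mv 524 (both (five 0 523 559) (mv 490 (both (five 3 490 491) (mv 587 (both (five 2 554 586) (mv 619 (both (five 5 491 492) (five 5 523 651))))))))))) (both (mv 590 (both (five 0 555 591) (mv 622 (both (five 7 525 654) (mv 621 (both (five 6 525 653) (mv 589 (both (five 5 493 494) (mv 492 (both (five 7 492 524) (mv 620 (both (five 6 524 652) (mv 618 (both (five 1 586 619) (mv 623 (both (five 4 526 655) (mv 624 (both (five 3 588 588) (five 3 589 625))))))))))))))))))) (mv 522 (both (five 3 522 523) (mv 586 (both (five 2 554 587) (mv 590 (both (five 0 555 591) (mv 622 (both (five 7 525 654) (mv 621 (both (five 6 525 653) (mv 589 (both (five 5 493 494) (mv 623 (both (five 4 526 655) (mv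 624 (both (five 3 588 588) (five 3 589 625)))))))))))))))))))))))) (both (mv 556 (both (five 2 524 527) (mv 555 (both (five 1 522 554) (mv 558 (both (mv 523 (both (five 3 522 522) (mv 524 (both (five 0 523 559) (mv 490 (both (five 3 490 491) (mv 587 (both (five 2 554 586) (mv 619 (both (five 5 491 492) (five 5 523 651))))))))))) (mv 590 (both (five 0 555 591) (mv 493 (both (five 4 461 461) (five 7 493 622))))))))))) (both (mv 527 (both (five 2 524 556) (mv 589 (both (mv 621 (both (five 5 493 494) (mv 652 (both (five 6 524 620) (mv 653 (both (five 6 556 684) (mv 654 (both (five 4 525 622) (five 4 557 686))))))))) (both (mv 493 (both (five 3 492 492) (mv 462 (both (five 5 461 494) (mv 461 (both (five 5 429 430) (mv 428 (both (five 7 428 460) (mv 429 (both (five 7 396 396) (mv 464 (both (five 3 428 463) (mv 496 (both (five 1 493 497) (mv 432 (both (five 6 431 559) (mv 399 (both (five 7 399 431) (mv 400 (both (five 7 367 367) (mv 401 (both (five 5 368 369) (five 5 400 433))))))))))))))))))))))) (mv 493 (both (five 3 492 492) (mv 620 (both (five 6 492 588) (mv 621 (both (five 6 524 652) (mv 622 (both (five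 4 493 590) (five 4 525 654)))))))))))))) (both (mv 556 (both (five 2 524 527) (mv 555 (both (five 1 522 554) (mv 558 (both (mv 590 (both (five 0 555 591) (mv 493 (both (five 4 461 461) (five 7 493 622))))) (both (mv 522 (both (five 3 522 523) (mv 587 (both (five 2 554 586) (mv 588 (both (five 2 555 559) (mv 493 (both (five 6 460 461) (mv 620 (both (five 5 492 524) (five 6 492 589))))))))))) (mv 590 (both (five 0 555 591) (mv 622 (both (five 7 525 654) (mv 621 (both (five 6 525 653) (mv 589 (both (five 5 493 494) (mv 623 (both (five 4 526 655) (mv 624 (both (five 3 588 588) (five 3 589 625)))))))))))))))))))) (mv 589 (both (mv 527 (both (five 2 524 556) (mv 492 (both (five 3 492 493) (mv 524 (both (five 3 491 491) (five 7 492 621))))))) (both (mv 527 (both (five 2 524 556) (mv 493 (both (five 3 492 492) (mv 462 (both (five 5 461 494) (mv 461 (both (five 5 429 430) (mv 428 (both (five 7 428 460) (mv 429 (both (five 7 396 396) (mv 464 (both (five 3 428 463) (mv 496 (both (five 1 493 497) (mv 432 (both (five 6 431 559) (mv 399 (both (five 7 399 431) (mv 400 (both (five 7 367 367) (mv 401 (both (five 5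 368 369) (five 5 400 433))))))))))))))))))))))))) (both (mv 494 (both (five 5 493 621) (mv 462 (both (five 6 429 430) (five 5 461 493))))) (mv 621 (both (five 5 493 494) (mv 524 (both (five 7 492 492) (mv 652 (both (five 6 524 620) (mv 653 (both (five 7 524 556) (five 6 556 684)))))))))))))))))))) (both (mv 527 (both (mv 496 (both (five 1 493 497) (mv 524 (both (five 1 492 495) (mv 556 (both (five 2 523 555) (five 2 524 557))))))) (both (mv 493 (both (five 3 492 492) (mv 496 (both (five 1 493 497) (mv 524 (both (five 1 492 495) (mv 555 (both (five 2 523 556) (mv 523 (both (five 2 522 554) (mv 558 (both (five 0 523 559) (mv 461 (both (five 4 429 429) (mv 590 (both (five 7 461 494) (five 7 493 622))))))))))))))))) (both (mv 493 (both (five 3 492 492) (mv 557 (both (five 2 524 556) (mv 589 (both (mv 620 (both (five 6 492 588) (mv 621 (both (five 6 524 652) (mv 622 (both (five 4 493 590) (five 4 525 654))))))) (both (mv 620 (both (five 6 492 588) (mv 621 (both (five 6 524 652) (mv 653 (both (five 5 525 558) (mv 654 (both (five 4 525 622) (five 4 557 686))))))))) (both (mv 620 (both (five 6 492 588) (mv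 621 (both (five 6 524 652) (mv 558 (both (five 5 525 653) (mv 461 (both (five 4 429 429) (five 4 461 590))))))))) (mv 590 (both (five 4 493 622) (mv 461 (both (five 4 461 558) (mv 428 (both (five 7 428 460) (mv 429 (both (five 7 396 396) (mv 430 (both (five 5 397 398) (five 5 429 462))))))))))))))))))) (mv 558 (both (mv 496 (both (five 1 493 497) (mv 495 (both (five 1 492 524) (mv 463 (both (five 6 430 431) (mv 590 (both (five 5 462 494) (five 6 462 559))))))))) (both (mv 493 (both (five 3 492 492) (mv 461 (both (five 4 429 429) (mv 590 (both (five 7 461 494) (five 7 493 622))))))) (mv 492 (both (five 3 492 493) (mv 496 (both (five 1 493 497) (mv 524 (both (five 1 492 495) (mv 523 (both (five 0 523 559) (mv 522 (both (five 0 522 557) (mv 554 (both (five 2 521 553) (five 2 522 555)))))))))))))))))))) (both (mv 527 (both (mv 492 (both (five 3 492 493) (mv 496 (both (five 1 493 497) (mv 524 (both (five 3 491 491) (five 1 492 495))))))) (both (mv 496 (both (five 1 493 497) (mv 524 (both (five 1 492 495) (mv 491 (both (five 3 491 492) (mv 523 (both (five 3 490 490) (mv 557 (both (five 2 524 556) (mv 558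 (both (five 0 522 522) (five 0 523 559))))))))))))) (both (mv 493 (both (five 3 492 492) (mv 557 (both (five 2 524 556) (mv 589 (both (mv 620 (both (five 6 492 588) (mv 621 (both (five 6 524 652) (mv 622 (both (five 4 493 590) (five 4 525 654))))))) (both (mv 620 (both (five 6 492 588) (mv 621 (both (five 6 524 652) (mv 653 (both (five 5 525 558) (mv 654 (both (five 4 525 622) (five 4 557 686))))))))) (both (mv 620 (both (five 6 492 588) (mv 621 (both (five 6 524 652) (mv 558 (both (five 5 525 653) (mv 461 (both (five 4 429 429) (five 4 461 590))))))))) (mv 590 (both (five 4 493 622) (mv 461 (both (five 4 461 558) (mv 428 (both (five 7 428 460) (mv 429 (both (five 7 396 396) (mv 430 (both (five 5 397 398) (five 5 429 462))))))))))))))))))) (mv 494 (both (mv 559 (both (mv 496 (both (five 1 493 497) (mv 432 (both (five 6 431 464) (mv 524 (both (five 1 492 495) (mv 523 (both (five 0 523 558) (mv 490 (both (five 3 490 491) (mv 522 (both (five 3 489 489) (five 1 490 493))))))))))))) (both (mv 462 (both (five 4 430 430) (mv 591 (both (five 4 462 558) (five 7 494 623))))) (mv 430 (both (five 4 430 462) (mv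 496 (both (five 1 493 497) (mv 464 (both (five 6 431 432) (mv 495 (both (five 1 492 524) (five 5 463 591)))))))))))) (both (mv 557 (both (five 2 524 556) (mv 462 (both (five 6 429 430) (mv 589 (both (five 5 461 493) (five 5 493 621))))))) (both (mv 493 (both (mv 557 (both (five 2 524 556) (mv 589 (both (five 5 493 621) (mv 588 (both (five 6 492 620) (mv 590 (both (five 4 493 622) (mv 461 (both (five 7 461 558) (mv 428 (both (five 7 428 460) (mv 429 (both (five 7 396 396) (five 4 397 397))))))))))))))) (mv 496 (both (five 1 493 497) (mv 495 (both (five 2 492 524) (mv 464 (both (five 1 461 465) (mv 432 (both (five 6 431 559) (mv 399 (both (five 7 399 431) (mv 400 (both (five 7 367 367) (mv 401 (both (five 5 368 369) (five 5 400 433))))))))))))))))) (mv 496 (both (five 1 493 497) (mv 495 (both (five 1 492 524) (mv 557 (both (five 2 524 556) (mv 462 (both (five 6 429 430) (mv 589 (both (five 6 461 558) (five 5 493 621))))))))))))))))))) (both (mv 527 (both (mv 492 (both (five 3 492 493) (mv 496 (both (five 1 493 497) (mv 524 (both (five 3 491 491) (five 1 492 495))))))) (both (mv 492 (both (five 3 492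 493) (mv 524 (both (five 3 491 491) (mv 556 (both (five 2 523 555) (five 2 524 557))))))) (both (mv 496 (both (five 1 493 497) (mv 524 (both (five 1 492 495) (mv 556 (both (five 2 523 555) (five 2 524 557))))))) (mv 493 (both (five 3 492 492) (mv 461 (both (mv 429 (both (five 4 429 558) (mv 396 (both (five 7 396 428) (mv 397 (both (five 7 364 364) (five 4 397 494))))))) (both (mv 496 (both (five 1 493 497) (mv 557 (both (five 2 524 556) (mv 462 (both (five 5 429 430) (mv 589 (both (five 5 461 494) (mv 620 (both (five 6 492 588) (mv 621 (both (five 6 524 652) (mv 653 (both (five 5 525 558) (mv 654 (both (five 4 525 622) (five 4 557 686))))))))))))))))) (mv 557 (both (five 2 524 556) (mv 428 (both (five 7 428 460) (mv 429 (both (five 7 396 396) (mv 430 (both (five 5 397 398) (five 5 429 462)))))))))))))))))) (mv 527 (both (mv 492 (both (five 3 492 493) (mv 496 (both (five 1 493 497) (mv 524 (both (five 3 491 491) (five 1 492 495))))))) (both (mv 492 (both (five 3 492 493) (mv 524 (both (five 3 491 491) (mv 556 (both (five 2 523 555) (five 2 524 557))))))) (both (mv 496 (both (five 1 493 497) (mv 524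 (both (five 1 492 495) (mv 556 (both (five 2 523 555) (five 2 524 557))))))) (mv 493 (both (five 3 492 492) (mv 461 (both (mv 429 (both (five 4 429 558) (mv 396 (both (five 7 396 428) (mv 397 (both (five 7 364 364) (five 4 397 494))))))) (both (mv 496 (both (five 1 493 497) (mv 557 (both (five 2 524 556) (mv 428 (both (five 7 428 460) (mv 462 (both (five 5 429 430) (mv 494 (both (five 5 461 589) (mv 558 (both (five 7 461 590) (mv 463 (both (five 5 430 431) (mv 464 (both (five 2 461 465) (mv 432 (both (five 1 429 433) (five 6 431 559))))))))))))))))))) (both (mv 557 (both (five 2 524 556) (mv 428 (both (five 7 428 460) (mv 429 (both (five 7 396 396) (mv 430 (both (five 5 397 398) (five 5 429 462))))))))) (mv 429 (both (five 4 429 558) (mv 397 (both (five 4 397 494) (mv 398 (both (five 5 365 366) (five 5 397 430))))))))))))))))))))))))))))))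

theorem L74 : W (S 988530863058807798957393715067720623286798683220635978952802738122718218409262471505648588255249455916730668840373243557345566271959196709010660073920568229888) (S 401316521103381661836192468228594852703567743363496280398003745106674301244316043792529014679652860146732461346581992332534692510997226604077286361232289974247019049165147167660850658525247756453807120187392) :=
  check_sound (Env.cons L72 (Env.cons L73 Env.nil)) (x := 526) (t := tL74) (by decide +kernel)

def tL75 : T :=
  (both (mv 464 (both (mv 429 (both (five 3 428 428) (mv 433 (both (five 1 429 432) (mv 465 (both (five 3 429 430) (five 1 430 434))))))) (both (mv 428 (both (five 3 428 429) (mv 460 (both (five 3 427 427) (mv 496 (both (five 0 460 495) (five 0 461 497))))))) (mv 433 (both (five 1 429 432) (mv 465 (both (five 1 430 434) (mv 496 (both (five 0 461 497) (five 5 432 560)))))))))) (both (mv 464 (both (mv 432 (both (five 1 429 433) (mv 496 (both (five 0 461 497) (mv 431 (both (five 7 399 399) (five 7 431 560))))))) (both (mv 428 (both (five 3 428 429) (mv 496 (both (five 0 461 497) (mv 431 (both (five 7 431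 560) (mv 399 (both (five 4 367 367) (five 4 399 495))))))))) (mv 429 (both (five 3 428 428) (mv 433 (both (five 1 429 432) (mv 465 (both (five 3 429 430) (five 1 430 434)))))))))) (both (mv 460 (both (mv 427 (both (five 3 427 428) (mv 459 (both (five 3 426 426) (mv 491 (both (five 2 458 490) (five 2 459 492))))))) (mv 431 (both (five 1 428 432) (mv 494 (both (five 5 430 558) (mv 399 (both (five 6 366 367) (five 6 398 495))))))))) (both (mv 460 (both (mv 427 (both (five 3 427 428) (mv 431 (both (five 1 428 432) (mv 459 (both (five 3 426 426) (five 1 427 430))))))) (both (mv 427 (both (five 3 427 428) (mv 459 (both (five 3 426 426) (mv 491 (both (five 2 458 490) (five 2 459 492))))))) (both (mv 431 (both (five 1 428 432) (mv 459 (both (five 1 427 430) (mv 491 (both (five 2 458 490) (five 2 459 492))))))) (mv 427 (both (five 3 427 428) (mv 431 (both (five 1 428 432) (mv 491 (both (five 2 459 492) (mv 494 (both (five 5 430 558) (mv 399 (both (five 6 366 367) (five 5 398 430))))))))))))))) (both (mv 460 (both (mv 427 (both (five 3 427 428) (mv 459 (both (five 3 426 426) (mv 491 (both (five 2 458 490) (five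 2 459 492))))))) (both (mv 491 (both (five 2 459 492) (mv 459 (both (five 2 458 490) (mv 495 (both (five 0 459 494) (five 0 460 496))))))) (both (mv 427 (both (five 3 427 428) (mv 459 (both (five 3 426 426) (mv 495 (both (five 0 459 494) (five 0 460 496))))))) (mv 427 (both (five 3 427 428) (mv 491 (both (five 2 459 492) (mv 496 (both (five 0 460 495) (mv 464 (both (five 0 461 497) (mv 431 (both (five 7 431 560) (mv 494 (both (five 5 430 558) (mv 399 (both (five 6 366 367) (five 5 398 430))))))))))))))))))) (mv 460 (both (mv 431 (both (five 1 428 432) (mv 459 (both (five 1 427 430) (mv 491 (both (five 2 458 490) (five 2 459 492))))))) (both (mv 496 (both (five 0 460 495) (mv 464 (both (five 0 461 497) (mv 433 (both (five 1 429 432) (mv 465 (both (five 1 430 434) (five 5 432 560))))))))) (mv 491 (both (five 2 459 492) (mv 459 (both (five 2 458 490) (mv 430 (both (five 1 427 431) (mv 496 (both (five 0 460 495) (mv 464 (both (five 0 461 497) (mv 465 (both (five 3 429 429) (mv 433 (both (five 1 430 434) (five 5 432 560)))))))))))))))))))))))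

theorem L75 : W (S 1098367625620897554414966916341311749705249829925584464939389243549938437993102871474672933650507596160031881084978390673160817810950260598906390896203242930176) (S 4717453031026926691091520843740844453179689622877127895601551805017458385521440634697650031244729194057646792365645245061535257730432364527998322821398995411344753164288) :=
  check_sound Env.nil (x := 463) (t := tL75) (by decide +kernel)

def tL76 : T :=
  (both (mv 461 (both (mv 462 (both (mv 463 (both (mv 464 (both (mv 432 (both (five 1 429 433) (mv 496 (both (five 0 461 497) (mv 431 (both (five 7 399 399) (five 7 431 560))))))) (both (mv 428 (both (five 3 428 429) (mv 496 (both (five 0 461 497) (mv 431 (both (five 7 431 560) (mv 399 (both (five 4 367 367) (five 4 399 495))))))))) (mv 429 (both (five 3 428 428) (mv 433 (both (five 1 429 432) (mv 465 (both (five 3 429 430) (five 1 430 434)))))))))) (both (mv 460 (both (mv 427 (both (five 3 427 428) (mv 431 (both (five 1 428 432) (mv 459 (both (five 3 426 426) (five 1 427 430))))))) (both (mv 427 (both (five 3 427 428) (mv 459 (both (five 3 426 426) (mv 491 (both (five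 2 458 490) (five 2 459 492))))))) (both (mv 431 (both (five 1 428 432) (mv 459 (both (five 1 427 430) (mv 491 (both (five 2 458 490) (five 2 459 492))))))) (mv 428 (both (five 3 427 427) (mv 431 (both (five 1 428 432) (mv 492 (both (five 2 459 491) (mv 495 (both (five 0 460 496) (mv 524 (both (five 4 428 557) (mv 429 (both (five 5 396 397) (five 5 428 556))))))))))))))))) (both (mv 460 (both (mv 427 (both (five 3 427 428) (mv 431 (both (five 1 428 432) (mv 459 (both (five 3 426 426) (five 1 427 430))))))) (both (mv 431 (both (five 1 428 432) (mv 459 (both (five 1 427 430) (mv 491 (both (five 2 458 490) (five 2 459 492))))))) (both (mv 427 (both (five 3 427 428) (mv 459 (both (five 3 426 426) (mv 491 (both (five 2 458 490) (five 2 459 492))))))) (mv 428 (both (five 3 427 427) (mv 429 (both (five 3 428 464) (mv 431 (both (five 1 428 432) (mv 492 (both (five 2 459 491) (mv 397 (both (five 6 364 365) (five 5 396 524))))))))))))))) (both (mv 460 (both (mv 427 (both (five 3 427 428) (mv 459 (both (five 3 426 426) (mv 491 (both (five 2 458 490) (five 2 459 492))))))) (both (mv 491 (both (five 2 459 492) (mv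 459 (both (five 2 458 490) (mv 430 (both (five 1 427 431) (mv 496 (both (five 0 460 495) (mv 464 (both (five 0 461 497) (mv 465 (both (five 3 429 429) (mv 433 (both (five 1 430 434) (five 5 432 560))))))))))))))) (both (mv 427 (both (five 3 427 428) (mv 459 (both (five 3 426 426) (mv 430 (both (five 1 427 431) (mv 496 (both (five 0 460 495) (mv 464 (both (five 0 461 497) (mv 465 (both (five 3 429 429) (mv 433 (both (five 1 430 434) (five 5 432 560))))))))))))))) (mv 428 (both (five 3 427 427) (mv 492 (both (five 2 459 491) (mv 495 (both (five 0 460 496) (mv 524 (both (five 4 428 557) (mv 429 (both (five 5 396 397) (five 5 428 556))))))))))))))) (both (mv 460 (both (mv 431 (both (five 1 428 432) (mv 459 (both (five 1 427 430) (mv 491 (both (five 2 458 490) (five 2 459 492))))))) (both (mv 496 (both (five 0 460 495) (mv 464 (both (five 0 461 497) (mv 433 (both (five 1 429 432) (mv 465 (both (five 1 430 434) (five 5 432 560))))))))) (mv 491 (both (five 2 459 492) (mv 459 (both (five 2 458 490) (mv 430 (both (five 1 427 431) (mv 496 (both (five 0 460 495) (mv 464 (both (five 0 461 497) (mv 465 (both (five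 3 429 429) (mv 433 (both (five 1 430 434) (five 5 432 560)))))))))))))))))) (mv 460 (both (mv 427 (both (five 3 427 428) (mv 459 (both (five 3 426 426) (mv 491 (both (five 2 458 490) (five 2 459 492))))))) (mv 496 (both (five 0 460 495) (mv 464 (both (five 0 461 497) (mv 433 (both (five 1 429 432) (mv 465 (both (five 1 430 434) (five 5 432 560))))))))))))))))) (both (mv 494 (both (mv 429 (both (five 7 429 558) (mv 397 (both (five 4 365 365) (five 7 397 430))))) (both (mv 524 (both (mv 460 (both (mv 429 (both (five 7 429 558) (mv 492 (both (five 5 428 556) (mv 428 (both (five 4 428 557) (mv 427 (both (five 7 395 395) (five 0 426 426))))))))) (both (mv 459 (both (five 0 459 495) (mv 426 (both (five 3 426 427) (mv 458 (both (five 3 425 425) (mv 490 (both (five 2 457 489) (five 2 458 491))))))))) (mv 429 (both (five 7 429 558) (mv 365 (both (five 4 365 397) (mv 459 (both (five 0 459 495) (mv 490 (both (five 2 458 491) (mv 458 (both (five 2 457 489) (mv 428 (both (five 1 425 457) (mv 492 (both (five 5 428 556) (five 4 428 557)))))))))))))))))) (both (mv 558 (both (five 7 429 429) (mv 523 (both (five 0 523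 559) (mv 557 (both (five 0 522 522) (five 6 461 589))))))) (mv 523 (both (five 1 491 495) (mv 490 (both (five 3 490 491) (mv 522 (both (five 3 489 489) (mv 554 (both (five 2 521 553) (five 2 522 555)))))))))))) (both (mv 557 (both (five 6 429 430) (mv 589 (both (five 6 461 558) (five 5 493 621))))) (mv 430 (both (five 6 429 557) (mv 397 (both (five 7 397 429) (mv 398 (both (five 7 365 365) (mv 399 (both (five 5 366 367) (five 5 398 431))))))))))))) (both (mv 463 (both (mv 460 (both (mv 427 (both (five 3 427 428) (mv 459 (both (five 3 426 426) (mv 491 (both (five 2 458 490) (five 2 459 492))))))) (mv 496 (both (five 0 460 495) (mv 464 (both (five 0 461 497) (mv 433 (both (five 1 429 432) (mv 465 (both (five 1 430 434) (five 5 432 560))))))))))) (both (mv 464 (both (mv 429 (both (five 3 428 428) (mv 433 (both (five 1 429 432) (mv 465 (both (five 1 430 434) (mv 494 (both (five 7 429 558) (mv 365 (both (five 4 365 397) (mv 466 (both (five 2 462 495) (mv 498 (both (five 0 462 497) (five 0 463 499))))))))))))))) (both (mv 429 (both (five 3 428 428) (mv 433 (both (five 1 429 432) (mv 465 (both (five 1 430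 434) (mv 558 (both (five 7 429 494) (mv 560 (both (five 5 432 496) (mv 559 (both (five 3 525 561) (mv 524 (both (five 0 523 523) (five 3 524 557))))))))))))))) (mv 496 (both (five 0 461 497) (mv 431 (both (five 7 431 560) (mv 399 (both (five 4 367 367) (five 4 399 495)))))))))) (both (mv 460 (both (mv 427 (both (five 3 427 428) (mv 459 (both (five 3 426 426) (mv 491 (both (five 2 458 490) (five 2 459 492))))))) (mv 431 (both (five 1 428 432) (mv 494 (both (five 5 430 558) (mv 399 (both (five 6 366 367) (five 6 398 495))))))))) (both (mv 464 (both (mv 428 (both (five 3 428 429) (mv 432 (both (five 1 429 433) (mv 460 (both (five 3 427 427) (five 1 428 431))))))) (both (mv 428 (both (five 3 428 429) (mv 460 (both (five 3 427 427) (mv 492 (both (five 2 459 491) (mv 496 (both (five 0 461 497) (mv 431 (both (five 7 431 560) (mv 367 (both (five 4 367 399) (mv 524 (both (five 4 428 557) (mv 523 (both (five 6 427 555) (mv 558 (both (five 5 430 494) (five 0 523 559))))))))))))))))))) (mv 433 (both (five 1 429 432) (mv 465 (both (five 1 430 434) (mv 496 (both (five 0 461 497) (five 5 432 560)))))))))) (both (mv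 460 (both (mv 427 (both (five 3 427 428) (mv 459 (both (five 3 426 426) (mv 491 (both (five 2 458 490) (five 2 459 492))))))) (both (mv 491 (both (five 2 459 492) (mv 459 (both (five 2 458 490) (mv 495 (both (five 0 459 494) (five 0 460 496))))))) (both (mv 427 (both (five 3 427 428) (mv 459 (both (five 3 426 426) (mv 495 (both (five 0 459 494) (five 0 460 496))))))) (mv 428 (both (five 3 427 427) (mv 492 (both (five 2 459 491) (mv 495 (both (five 0 460 496) (mv 524 (both (five 4 428 557) (mv 429 (both (five 5 396 397) (five 5 428 556))))))))))))))) (mv 496 (both (mv 464 (both (five 0 461 497) (mv 433 (both (five 1 429 432) (mv 465 (both (five 1 430 434) (five 5 432 560))))))) (both (mv 495 (both (five 0 460 460) (mv 497 (both (five 2 493 494) (five 3 462 498))))) (mv 460 (both (five 0 460 495) (mv 431 (both (five 1 428 432) (mv 491 (both (five 2 459 492) (mv 459 (both (five 2 458 490) (mv 426 (both (five 3 426 427) (mv 425 (both (five 3 425 458) (mv 558 (both (five 5 430 494) (mv 560 (both (five 7 431 464) (mv 559 (both (five 3 525 561) (mv 524 (both (five 0 523 523) (five 3 524 557))))))))))))))))))))))))))))))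 (both (mv 463 (both (mv 494 (both (mv 557 (both (five 6 429 430) (mv 589 (both (five 6 461 558) (five 5 493 621))))) (both (mv 430 (both (five 6 429 557) (mv 399 (both (five 5 398 431) (mv 398 (both (five 5 366 367) (mv 365 (both (five 7 365 397) (mv 366 (both (five 7 333 333) (five 4 366 495))))))))))) (mv 431 (both (five 5 430 558) (mv 399 (both (five 6 366 367) (five 6 398 495)))))))) (both (mv 460 (both (mv 427 (both (five 3 427 428) (mv 459 (both (five 3 426 426) (mv 491 (both (five 2 458 490) (five 2 459 492))))))) (mv 496 (both (five 0 460 495) (mv 464 (both (five 0 461 497) (mv 433 (both (five 1 429 432) (mv 465 (both (five 1 430 434) (five 5 432 560))))))))))) (mv 460 (both (mv 427 (both (five 3 427 428) (mv 431 (both (five 1 428 432) (mv 459 (both (five 3 426 426) (five 1 427 430))))))) (both (mv 427 (both (five 3 427 428) (mv 459 (both (five 3 426 426) (mv 491 (both (five 2 458 490) (five 2 459 492))))))) (both (mv 431 (both (five 1 428 432) (mv 459 (both (five 1 427 430) (mv 491 (both (five 2 458 490) (five 2 459 492))))))) (mv 427 (both (five 3 427 428) (mv 431 (both (five 1 428 432) (mv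 491 (both (five 2 459 492) (mv 494 (both (five 5 430 558) (mv 399 (both (five 6 366 367) (five 5 398 430)))))))))))))))))) (both (mv 494 (both (mv 429 (both (five 7 429 558) (mv 397 (both (five 4 365 365) (five 7 397 430))))) (both (mv 558 (both (five 7 429 429) (mv 463 (both (five 5 430 431) (mv 495 (both (five 5 462 590) (mv 496 (both (five 3 461 497) (mv 523 (both (five 1 491 524) (mv 557 (both (five 6 461 589) (mv 560 (both (five 7 463 592) (mv 561 (both (five 3 525 559) (mv 464 (both (five 4 464 593) (mv 433 (both (five 1 429 432) (five 5 432 465))))))))))))))))))))) (both (mv 430 (both (five 6 429 557) (mv 397 (both (five 7 397 429) (mv 398 (both (five 7 365 365) (mv 399 (both (five 5 366 367) (five 5 398 431))))))))) (mv 557 (both (five 6 429 430) (mv 589 (both (five 6 461 558) (five 5 493 621))))))))) (both (ref 0) (both (mv 494 (both (mv 429 (both (five 7 429 558) (mv 397 (both (five 4 365 365) (five 7 397 430))))) (both (mv 557 (both (five 6 429 430) (mv 589 (both (five 6 461 558) (five 5 493 621))))) (both (mv 495 (both (mv 430 (both (five 6 429 557) (mv 397 (both (five 7 397 429) (mv 398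 (both (five 7 365 365) (mv 366 (both (five 4 366 463) (mv 367 (both (five 5 334 335) (five 5 366 399))))))))))) (both (mv 460 (both (five 0 459 459) (mv 496 (both (five 0 460 463) (five 3 461 497))))) (mv 460 (both (five 0 459 459) (mv 496 (both (five 3 461 497) (mv 524 (both (five 1 491 523) (mv 557 (both (five 6 429 430) (mv 492 (both (five 4 428 428) (mv 556 (both (five 5 428 429) (five 4 460 589)))))))))))))))) (mv 524 (both (mv 460 (both (mv 429 (both (five 7 429 558) (mv 492 (both (five 5 428 556) (mv 428 (both (five 4 428 557) (mv 427 (both (five 7 395 395) (five 0 426 426))))))))) (both (mv 459 (both (five 0 459 495) (mv 426 (both (five 3 426 427) (mv 458 (both (five 3 425 425) (mv 490 (both (five 2 457 489) (five 2 458 491))))))))) (mv 429 (both (five 7 429 558) (mv 365 (both (five 4 365 397) (mv 459 (both (five 0 459 495) (mv 490 (both (five 2 458 491) (mv 458 (both (five 2 457 489) (mv 428 (both (five 1 425 457) (mv 492 (both (five 5 428 556) (five 4 428 557)))))))))))))))))) (both (mv 558 (both (five 7 429 429) (mv 523 (both (five 0 523 559) (mv 557 (both (five 0 522 522) (five 6 461 589)))))))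 (mv 523 (both (five 1 491 495) (mv 490 (both (five 3 490 491) (mv 522 (both (five 3 489 489) (mv 554 (both (five 2 521 553) (five 2 522 555)))))))))))))))) (both (mv 463 (both (mv 460 (both (mv 427 (both (five 3 427 428) (mv 431 (both (five 1 428 432) (mv 459 (both (five 3 426 426) (five 1 427 430))))))) (both (mv 427 (both (five 3 427 428) (mv 459 (both (five 3 426 426) (mv 491 (both (five 2 458 490) (five 2 459 492))))))) (both (mv 431 (both (five 1 428 432) (mv 459 (both (five 1 427 430) (mv 491 (both (five 2 458 490) (five 2 459 492))))))) (mv 427 (both (five 3 427 428) (mv 431 (both (five 1 428 432) (mv 491 (both (five 2 459 492) (mv 494 (both (five 5 430 558) (mv 399 (both (five 6 366 367) (five 5 398 430))))))))))))))) (both (mv 460 (both (mv 427 (both (five 3 427 428) (mv 431 (both (five 1 428 432) (mv 459 (both (five 3 426 426) (five 1 427 430))))))) (both (mv 431 (both (five 1 428 432) (mv 459 (both (five 1 427 430) (mv 491 (both (five 2 458 490) (five 2 459 492))))))) (both (mv 427 (both (five 3 427 428) (mv 459 (both (five 3 426 426) (mv 491 (both (five 2 458 490) (five 2 459 492)))))))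 (mv 428 (both (five 3 427 427) (mv 429 (both (five 3 428 464) (mv 431 (both (five 1 428 432) (mv 492 (both (five 2 459 491) (mv 397 (both (five 6 364 365) (five 5 396 524))))))))))))))) (both (mv 464 (both (mv 429 (both (five 3 428 428) (mv 433 (both (five 1 429 432) (mv 465 (both (five 3 429 430) (five 1 430 434))))))) (both (mv 433 (both (five 1 429 432) (mv 465 (both (five 1 430 434) (mv 496 (both (five 0 461 497) (five 5 432 560))))))) (mv 428 (both (five 3 428 429) (mv 460 (both (five 3 427 427) (mv 492 (both (five 2 459 491) (mv 496 (both (five 0 461 497) (mv 557 (both (five 4 428 524) (mv 494 (both (five 6 429 430) (mv 589 (both (five 6 461 558) (five 5 493 621)))))))))))))))))) (both (mv 464 (both (mv 428 (both (five 3 428 429) (mv 432 (both (five 1 429 433) (mv 460 (both (five 3 427 427) (five 1 428 431))))))) (both (mv 428 (both (five 3 428 429) (mv 460 (both (five 3 427 427) (mv 492 (both (five 2 459 491) (mv 496 (both (five 0 461 497) (mv 431 (both (five 7 431 560) (mv 367 (both (five 4 367 399) (mv 524 (both (five 4 428 557) (mv 523 (both (five 6 427 555) (mv 558 (both (five 5 430 494)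 (five 0 523 559))))))))))))))))))) (mv 433 (both (five 1 429 432) (mv 465 (both (five 1 430 434) (mv 496 (both (five 0 461 497) (five 5 432 560)))))))))) (mv 494 (both (mv 430 (both (five 6 429 557) (mv 397 (both (five 7 397 429) (mv 398 (both (five 7 365 365) (mv 399 (both (five 5 366 367) (five 5 398 431))))))))) (both (mv 557 (both (five 6 429 430) (mv 589 (both (five 6 461 558) (five 5 493 621))))) (mv 558 (both (five 7 429 429) (five 5 430 431))))))))))) (mv 494 (both (mv 495 (both (mv 460 (both (five 0 459 459) (mv 496 (both (five 0 460 463) (five 3 461 497))))) (both (mv 430 (both (five 6 429 557) (mv 429 (both (five 7 397 397) (mv 460 (both (five 0 459 459) (mv 431 (both (five 2 428 432) (mv 524 (both (five 1 491 523) (mv 492 (both (five 5 428 556) (mv 463 (both (five 2 459 491) (mv 428 (both (five 3 427 427) (five 0 428 464))))))))))))))))) (both (mv 430 (both (five 6 429 557) (mv 397 (both (five 7 397 429) (mv 398 (both (five 7 365 365) (mv 463 (both (five 4 366 366) (mv 496 (both (five 3 461 497) (mv 523 (both (five 1 491 524) (mv 560 (both (five 7 463 592) (mv 464 (both (five 7 431 431)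 (mv 433 (both (five 1 429 432) (five 5 432 465))))))))))))))))))) (mv 460 (both (five 0 459 459) (mv 496 (both (five 3 461 497) (mv 524 (both (five 1 491 523) (mv 557 (both (five 6 429 430) (mv 492 (both (five 4 428 428) (mv 556 (both (five 5 428 429) (five 4 460 589))))))))))))))))) (both (mv 557 (both (five 6 429 430) (mv 589 (both (five 6 461 558) (five 5 493 621))))) (mv 558 (both (five 7 429 429) (mv 463 (both (five 5 430 431) (mv 495 (both (five 5 462 590) (mv 460 (both (five 0 459 459) (five 0 460 496))))))))))))))))))))) (both (mv 462 (both (mv 463 (both (mv 494 (both (mv 557 (both (five 6 429 430) (mv 589 (both (five 6 461 558) (five 5 493 621))))) (both (mv 430 (both (five 6 429 557) (mv 399 (both (five 5 398 431) (mv 398 (both (five 5 366 367) (mv 365 (both (five 7 365 397) (mv 366 (both (five 7 333 333) (five 4 366 495))))))))))) (mv 431 (both (five 5 430 558) (mv 399 (both (five 6 366 367) (five 6 398 495)))))))) (both (mv 460 (both (mv 427 (both (five 3 427 428) (mv 459 (both (five 3 426 426) (mv 491 (both (five 2 458 490) (five 2 459 492))))))) (mv 496 (both (five 0 460 495) (mv 464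 (both (five 0 461 497) (mv 433 (both (five 1 429 432) (mv 465 (both (five 1 430 434) (five 5 432 560))))))))))) (mv 460 (both (mv 427 (both (five 3 427 428) (mv 431 (both (five 1 428 432) (mv 459 (both (five 3 426 426) (five 1 427 430))))))) (both (mv 427 (both (five 3 427 428) (mv 459 (both (five 3 426 426) (mv 491 (both (five 2 458 490) (five 2 459 492))))))) (both (mv 431 (both (five 1 428 432) (mv 459 (both (five 1 427 430) (mv 491 (both (five 2 458 490) (five 2 459 492))))))) (mv 427 (both (five 3 427 428) (mv 431 (both (five 1 428 432) (mv 491 (both (five 2 459 492) (mv 494 (both (five 5 430 558) (mv 399 (both (five 6 366 367) (five 5 398 430)))))))))))))))))) (both (mv 463 (both (mv 464 (both (mv 432 (both (five 1 429 433) (mv 493 (both (five 2 460 492) (mv 557 (both (five 5 429 430) (mv 588 (both (five 6 460 556) (mv 589 (both (five 6 492 620) (mv 590 (both (five 4 461 558) (five 4 493 622))))))))))))) (mv 496 (both (five 0 461 497) (mv 431 (both (five 7 431 560) (mv 399 (both (five 4 367 367) (five 4 399 495))))))))) (both (mv 460 (both (mv 427 (both (five 3 427 428) (mv 431 (both (five 1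 428 432) (mv 459 (both (five 3 426 426) (five 1 427 430))))))) (both (mv 431 (both (five 1 428 432) (mv 459 (both (five 1 427 430) (mv 491 (both (five 2 458 490) (five 2 459 492))))))) (both (mv 427 (both (five 3 427 428) (mv 459 (both (five 3 426 426) (mv 491 (both (five 2 458 490) (five 2 459 492))))))) (mv 428 (both (five 3 427 427) (mv 431 (both (five 1 428 432) (mv 492 (both (five 2 459 491) (mv 493 (both (five 4 396 396) (five 7 428 557))))))))))))) (both (mv 460 (both (mv 427 (both (five 3 427 428) (mv 431 (both (five 1 428 432) (mv 459 (both (five 3 426 426) (five 1 427 430))))))) (both (mv 496 (both (five 0 460 495) (mv 464 (both (five 0 461 497) (mv 433 (both (five 1 429 432) (mv 465 (both (five 1 430 434) (five 5 432 560))))))))) (mv 427 (both (five 3 427 428) (mv 459 (both (five 3 426 426) (mv 431 (both (five 1 427 430) (mv 496 (both (five 0 460 495) (mv 464 (both (five 0 461 497) (five 7 431 560)))))))))))))) (both (mv 460 (both (mv 427 (both (five 3 427 428) (mv 459 (both (five 3 426 426) (mv 491 (both (five 2 458 490) (five 2 459 492))))))) (mv 496 (both (five 0 460 495) (mv 464 (both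 (five 0 461 497) (mv 433 (both (five 1 429 432) (mv 465 (both (five 1 430 434) (five 5 432 560))))))))))) (mv 460 (both (mv 427 (both (five 3 427 428) (mv 459 (both (five 3 426 426) (mv 491 (both (five 2 458 490) (five 2 459 492))))))) (both (mv 427 (both (five 3 427 428) (mv 459 (both (five 3 426 426) (mv 431 (both (five 1 427 430) (mv 496 (both (five 0 460 495) (mv 464 (both (five 0 461 497) (five 7 431 560))))))))))) (both (mv 491 (both (five 2 459 492) (mv 459 (both (five 2 458 490) (mv 431 (both (five 1 427 430) (mv 496 (both (five 0 460 495) (mv 464 (both (five 0 461 497) (five 7 431 560))))))))))) (mv 427 (both (five 3 427 428) (mv 492 (both (five 2 459 491) (mv 464 (both (five 2 460 493) (mv 496 (both (five 0 460 495) (five 0 461 497)))))))))))))))))) (both (mv 463 (both (mv 464 (both (mv 432 (both (five 1 429 433) (mv 493 (both (five 2 460 492) (mv 494 (both (five 2 461 465) (mv 431 (both (five 5 430 558) (mv 399 (both (five 6 366 367) (five 6 398 495))))))))))) (both (mv 496 (both (five 0 461 497) (mv 431 (both (five 7 431 560) (mv 399 (both (five 4 367 367) (five 4 399 495))))))) (mv 433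 (both (five 1 429 432) (mv 465 (both (five 1 430 434) (mv 496 (both (five 0 461 497) (five 5 432 560)))))))))) (both (mv 460 (both (mv 427 (both (five 3 427 428) (mv 459 (both (five 3 426 426) (mv 491 (both (five 2 458 490) (five 2 459 492))))))) (mv 496 (both (five 0 460 495) (mv 464 (both (five 0 461 497) (mv 433 (both (five 1 429 432) (mv 465 (both (five 1 430 434) (five 5 432 560))))))))))) (both (mv 460 (both (mv 427 (both (five 3 427 428) (mv 431 (both (five 1 428 432) (mv 459 (both (five 3 426 426) (five 1 427 430))))))) (both (mv 427 (both (five 3 427 428) (mv 459 (both (five 3 426 426) (mv 491 (both (five 2 458 490) (five 2 459 492))))))) (both (mv 431 (both (five 1 428 432) (mv 459 (both (five 1 427 430) (mv 491 (both (five 2 458 490) (five 2 459 492))))))) (mv 427 (both (five 3 427 428) (mv 431 (both (five 1 428 432) (mv 491 (both (five 2 459 492) (mv 494 (both (five 5 430 558) (mv 399 (both (five 6 366 367) (five 5 398 430))))))))))))))) (both (mv 460 (both (mv 427 (both (five 3 427 428) (mv 431 (both (five 1 428 432) (mv 459 (both (five 3 426 426) (five 1 427 430))))))) (both (mv 496 (both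 (five 0 460 495) (mv 464 (both (five 0 461 497) (mv 433 (both (five 1 429 432) (mv 465 (both (five 1 430 434) (five 5 432 560))))))))) (mv 427 (both (five 3 427 428) (mv 459 (both (five 3 426 426) (mv 431 (both (five 1 427 430) (mv 496 (both (five 0 460 495) (mv 464 (both (five 0 461 497) (five 7 431 560)))))))))))))) (mv 460 (both (mv 427 (both (five 3 427 428) (mv 459 (both (five 3 426 426) (mv 491 (both (five 2 458 490) (five 2 459 492))))))) (both (mv 427 (both (five 3 427 428) (mv 459 (both (five 3 426 426) (mv 431 (both (five 1 427 430) (mv 496 (both (five 0 460 495) (mv 464 (both (five 0 461 497) (five 7 431 560))))))))))) (both (mv 491 (both (five 2 459 492) (mv 459 (both (five 2 458 490) (mv 431 (both (five 1 427 430) (mv 496 (both (five 0 460 495) (mv 464 (both (five 0 461 497) (five 7 431 560))))))))))) (mv 427 (both (five 3 427 428) (mv 492 (both (five 2 459 491) (mv 464 (both (five 2 460 493) (mv 496 (both (five 0 460 495) (five 0 461 497)))))))))))))))))) (both (mv 463 (both (mv 460 (both (mv 427 (both (five 3 427 428) (mv 459 (both (five 3 426 426) (mv 491 (both (five 2 458 490) (five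 2 459 492))))))) (mv 431 (both (five 1 428 432) (mv 494 (both (five 5 430 558) (mv 399 (both (five 6 366 367) (five 6 398 495))))))))) (both (mv 464 (both (mv 432 (both (five 1 429 433) (mv 493 (both (five 2 460 492) (mv 494 (both (five 2 461 465) (mv 431 (both (five 5 430 558) (mv 399 (both (five 6 366 367) (five 6 398 495))))))))))) (both (mv 496 (both (five 0 461 497) (mv 431 (both (five 7 431 560) (mv 399 (both (five 4 367 367) (five 4 399 495))))))) (mv 433 (both (five 1 429 432) (mv 465 (both (five 1 430 434) (mv 496 (both (five 0 461 497) (five 5 432 560)))))))))) (both (mv 460 (both (mv 427 (both (five 3 427 428) (mv 459 (both (five 3 426 426) (mv 491 (both (five 2 458 490) (five 2 459 492))))))) (mv 496 (both (five 0 460 495) (mv 464 (both (five 0 461 497) (mv 433 (both (five 1 429 432) (mv 465 (both (five 1 430 434) (five 5 432 560))))))))))) (both (mv 464 (both (mv 432 (both (five 1 429 433) (mv 493 (both (five 2 460 492) (mv 465 (both (five 2 461 494) (mv 498 (both (five 0 462 497) (mv 466 (both (five 0 463 499) (mv 435 (both (five 1 431 434) (mv 467 (both (five 3 431 431) (five 1 432 436)))))))))))))))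 (both (mv 492 (both (five 2 460 493) (mv 460 (both (five 2 459 491) (mv 427 (both (five 3 427 428) (mv 459 (both (five 3 426 426) (mv 496 (both (five 0 461 497) (mv 431 (both (five 7 431 560) (mv 524 (both (five 7 427 556) (mv 558 (both (five 5 430 494) (mv 523 (both (five 0 523 559) (mv 522 (both (five 0 522 557) (mv 554 (both (five 2 521 553) (five 2 522 555))))))))))))))))))))))) (both (mv 432 (both (five 1 429 433) (mv 431 (both (five 1 428 460) (mv 496 (both (five 7 399 399) (five 7 431 560))))))) (mv 433 (both (five 1 429 432) (mv 465 (both (five 1 430 434) (mv 496 (both (five 0 461 497) (five 5 432 560))))))))))) (both (mv 460 (both (mv 427 (both (five 3 427 428) (mv 431 (both (five 1 428 432) (mv 459 (both (five 3 426 426) (mv 490 (both (five 2 458 491) (mv 458 (both (five 2 457 489) (mv 494 (both (five 0 458 493) (five 5 430 558))))))))))))) (both (mv 427 (both (five 3 427 428) (mv 459 (both (five 3 426 426) (mv 495 (both (five 0 459 494) (five 0 460 496))))))) (mv 496 (both (five 0 460 495) (mv 464 (both (five 0 461 497) (mv 433 (both (five 1 429 432) (mv 465 (both (five 1 430 434) (five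 5 432 560)))))))))))) (mv 460 (both (mv 427 (both (five 3 427 428) (mv 459 (both (five 3 426 426) (mv 491 (both (five 2 458 490) (five 2 459 492))))))) (both (mv 427 (both (five 3 427 428) (mv 459 (both (five 3 426 426) (mv 495 (both (five 0 459 494) (five 0 460 496))))))) (mv 492 (both (five 2 459 491) (mv 464 (both (five 2 460 493) (mv 496 (both (five 0 460 495) (five 0 461 497)))))))))))))))) (both (mv 557 (both (mv 494 (both (five 6 429 430) (mv 589 (both (five 6 461 558) (five 5 493 621))))) (both (mv 493 (both (mv 588 (both (five 6 460 556) (mv 589 (both (five 6 492 620) (mv 590 (both (five 4 461 558) (five 4 493 622))))))) (both (mv 556 (both (five 6 460 588) (mv 555 (both (five 1 522 554) (mv 558 (both (five 4 461 590) (mv 523 (both (five 3 522 522) (mv 524 (both (five 0 523 559) (mv 490 (both (five 3 490 491) (mv 494 (both (five 1 491 495) (mv 431 (both (five 5 430 463) (mv 587 (both (five 2 554 586) (mv 619 (both (five 5 491 492) (five 5 523 651))))))))))))))))))))) (both (mv 588 (both (five 6 460 556) (mv 589 (both (five 5 461 494) (five 6 492 620))))) (mv 494 (both (five 5 461 589) (mv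 558 (both (five 7 461 590) (mv 463 (both (five 5 430 431) (mv 464 (both (five 2 461 465) (five 2 460 492))))))))))))) (both (mv 493 (both (five 5 429 430) (mv 588 (both (five 6 460 556) (mv 589 (both (five 6 492 620) (mv 590 (both (five 4 461 558) (five 4 493 622))))))))) (mv 430 (both (five 5 429 493) (five 6 429 494))))))) (both (mv 557 (both (mv 430 (both (five 5 429 493) (five 6 429 494))) (both (mv 494 (both (five 6 429 430) (mv 589 (both (five 6 461 558) (five 5 493 621))))) (both (mv 493 (both (mv 588 (both (five 6 460 556) (mv 589 (both (five 5 461 494) (five 6 492 620))))) (both (mv 428 (both (five 7 428 460) (mv 556 (both (five 6 460 588) (mv 555 (both (five 1 522 554) (mv 558 (both (five 4 461 590) (mv 523 (both (five 3 522 522) (mv 524 (both (five 0 523 559) (mv 587 (both (five 2 554 586) (mv 619 (both (five 5 491 492) (five 5 523 651))))))))))))))))) (mv 428 (both (five 7 428 460) (mv 558 (both (five 4 461 590) (mv 589 (both (five 5 461 494) (mv 621 (both (five 5 525 653) (mv 524 (both (five 7 492 492) (mv 523 (both (five 0 522 522) (five 0 523 559)))))))))))))))) (mv 493 (both (five 5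 429 430) (mv 588 (both (five 6 460 556) (mv 589 (both (five 6 492 620) (mv 590 (both (five 4 461 558) (five 4 493 622))))))))))))) (both (mv 460 (both (mv 463 (both (mv 427 (both (five 3 427 428) (mv 431 (both (five 1 428 432) (mv 459 (both (five 3 426 426) (five 1 427 430))))))) (mv 492 (both (five 2 459 491) (mv 464 (both (five 2 460 493) (mv 496 (both (five 0 460 495) (five 0 461 497))))))))) (both (mv 459 (both (mv 426 (both (five 3 426 427) (mv 458 (both (five 3 425 425) (mv 490 (both (five 2 457 489) (five 2 458 491))))))) (mv 430 (both (five 1 427 431) (mv 494 (both (five 0 459 495) (five 6 429 557))))))) (both (mv 463 (both (mv 492 (both (five 2 459 491) (mv 464 (both (five 2 460 493) (mv 496 (both (five 0 460 495) (five 0 461 497))))))) (both (mv 496 (both (five 0 460 495) (mv 464 (both (five 0 461 497) (mv 433 (both (five 1 429 432) (mv 465 (both (five 1 430 434) (five 5 432 560))))))))) (mv 428 (both (five 3 427 427) (mv 431 (both (five 1 428 432) (mv 492 (both (five 2 459 491) (mv 493 (both (five 4 396 396) (five 7 428 557)))))))))))) (both (mv 557 (both (mv 430 (both (five 5 429 493) (five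 6 429 494))) (both (mv 430 (both (five 6 429 494) (mv 431 (both (five 1 427 459) (mv 432 (both (five 2 429 433) (five 1 428 463))))))) (mv 428 (both (five 7 428 493) (mv 427 (both (five 3 427 463) (mv 426 (both (five 0 425 425) (five 3 426 459)))))))))) (both (mv 557 (both (mv 430 (both (five 5 429 493) (five 6 429 494))) (both (mv 494 (both (five 6 429 430) (mv 459 (both (five 0 459 495) (mv 426 (both (five 3 426 427) (mv 458 (both (five 3 425 425) (mv 490 (both (five 2 457 489) (five 2 458 491))))))))))) (mv 428 (both (five 7 428 493) (mv 427 (both (five 3 427 463) (mv 426 (both (five 0 425 425) (five 3 426 459)))))))))) (mv 557 (both (mv 430 (both (five 5 429 493) (five 6 429 494))) (both (mv 430 (both (five 6 429 494) (mv 431 (both (five 1 427 459) (mv 432 (both (five 2 429 433) (five 1 428 463))))))) (mv 428 (both (five 7 428 493) (mv 492 (both (five 4 428 524) (mv 463 (both (five 2 459 491) (mv 496 (both (five 0 460 495) (mv 464 (both (five 0 461 497) (mv 433 (both (five 1 429 432) (mv 465 (both (five 1 430 434) (five 5 432 560)))))))))))))))))))))))) (mv 494 (both (mv 557 (both (five 6 429 430)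 (mv 589 (both (five 6 461 558) (five 5 493 621))))) (both (mv 430 (both (mv 431 (both (five 5 398 399) (mv 432 (both (five 2 429 433) (mv 460 (both (five 1 427 459) (five 1 428 463))))))) (both (mv 398 (both (five 6 397 493) (mv 365 (both (five 7 365 397) (mv 366 (both (five 7 333 333) (mv 367 (both (five 5 334 335) (five 5 366 399))))))))) (mv 398 (both (five 6 397 493) (mv 365 (both (five 7 365 397) (mv 366 (both (five 7 333 333) (mv 335 (both (five 5 334 367) (mv 303 (both (five 5 302 334) (mv 463 (both (five 4 366 495) (mv 431 (both (five 5 430 558) (mv 432 (both (five 2 429 433) (five 1 428 460)))))))))))))))))))) (both (mv 493 (both (mv 558 (both (five 7 461 590) (mv 463 (both (five 5 430 431) (mv 464 (both (five 2 461 465) (mv 432 (both (five 1 429 433) (mv 496 (both (five 0 461 497) (mv 495 (both (five 3 460 460) (five 2 492 524))))))))))))) (both (mv 557 (both (five 5 461 589) (mv 460 (both (five 7 428 428) (mv 459 (both (five 0 459 495) (mv 426 (both (five 3 426 427) (mv 458 (both (five 3 425 425) (mv 490 (both (five 2 457 489) (five 2 458 491))))))))))))) (both (mv 557 (both (five 5 461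 589) (mv 460 (both (five 7 428 428) (mv 459 (both (five 0 458 458) (mv 427 (both (five 3 426 426) (mv 491 (both (five 2 458 490) (mv 556 (both (five 6 460 588) (mv 523 (both (five 4 427 524) (mv 554 (both (five 6 426 522) (five 1 522 555))))))))))))))))) (mv 557 (both (five 5 461 589) (mv 558 (both (five 7 461 590) (mv 463 (both (five 5 430 431) (mv 464 (both (five 2 461 465) (mv 432 (both (five 1 429 433) (mv 496 (both (five 0 461 497) (mv 524 (both (five 2 492 495) (mv 523 (both (five 0 522 522) (five 0 523 559))))))))))))))))))))) (mv 430 (both (five 6 429 557) (mv 431 (both (five 5 398 399) (mv 432 (both (five 2 429 433) (mv 460 (both (five 1 427 459) (five 1 428 463))))))))))))))))))))) (both (mv 493 (both (mv 557 (both (mv 588 (both (five 6 460 556) (mv 589 (both (five 6 492 620) (mv 621 (both (five 5 493 494) (mv 622 (both (five 4 493 590) (five 4 525 654))))))))) (both (mv 492 (both (mv 462 (both (five 5 429 430) (mv 463 (both (five 2 460 464) (mv 491 (both (five 0 490 490) (five 1 459 494))))))) (both (mv 460 (both (five 7 428 428) (mv 490 (both (five 0 490 491) (mv 556 (both (five 6 460 588)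 (mv 555 (both (five 1 522 554) (mv 524 (both (five 6 459 587) (mv 459 (both (five 7 427 427) (mv 458 (both (five 0 457 457) (five 2 457 489))))))))))))))) (mv 430 (both (five 5 429 462) (mv 460 (both (five 7 428 428) (mv 556 (both (five 6 460 588) (mv 555 (both (five 1 522 554) (mv 524 (both (five 6 459 587) (mv 459 (both (five 7 427 427) (mv 458 (both (five 0 457 457) (five 0 458 494)))))))))))))))))) (both (mv 428 (both (five 7 428 460) (mv 462 (both (five 5 429 430) (mv 589 (both (five 5 461 494) (mv 620 (both (five 6 492 588) (mv 621 (both (five 6 524 652) (mv 622 (both (five 4 493 590) (five 4 525 654))))))))))))) (both (mv 428 (both (five 7 428 460) (mv 462 (both (five 5 429 430) (mv 589 (both (five 5 461 494) (mv 622 (both (five 4 493 590) (mv 621 (both (five 4 525 654) (mv 524 (both (five 7 492 492) (mv 652 (both (five 6 524 620) (mv 653 (both (five 7 524 556) (five 6 556 684))))))))))))))))) (mv 430 (both (five 5 429 462) (mv 460 (both (five 7 428 428) (mv 492 (both (five 7 460 589) (mv 490 (both (five 0 490 491) (mv 556 (both (five 6 460 588) (mv 555 (both (five 1 522 554) (mv 524 (both (five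 6 459 587) (mv 459 (both (five 7 427 427) (mv 458 (both (five 0 457 457) (five 2 457 489)))))))))))))))))))))))) (both (mv 429 (both (mv 396 (both (five 7 396 428) (mv 397 (both (five 7 364 364) (five 4 397 494))))) (both (mv 428 (both (five 7 396 396) (mv 427 (both (mv 426 (both (five 0 426 462) (mv 393 (both (five 3 393 394) (mv 425 (both (five 3 392 392) (five 0 425 460))))))) (both (mv 430 (both (five 5 397 398) (mv 459 (both (five 2 426 458) (mv 431 (both (five 2 427 460) (mv 399 (both (five 1 396 400) (mv 463 (both (five 0 428 464) (mv 495 (both (five 6 398 494) (five 4 399 496))))))))))))) (mv 398 (both (five 5 397 430) (mv 426 (both (five 0 426 462) (mv 393 (both (five 3 393 394) (mv 425 (both (five 3 392 392) (mv 457 (both (five 2 424 456) (five 2 425 458)))))))))))))))) (both (mv 396 (both (five 7 396 428) (mv 397 (both (five 7 364 364) (mv 398 (both (five 5 365 366) (five 5 397 430))))))) (mv 397 (both (five 4 397 494) (mv 398 (both (five 5 365 366) (five 5 397 430))))))))) (both (mv 557 (both (mv 460 (both (five 7 428 428) (mv 492 (both (five 7 460 589) (mv 490 (both (five 0 490 491) (mv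 556 (both (five 6 460 588) (mv 555 (both (five 1 522 554) (mv 524 (both (five 6 459 587) (mv 459 (both (five 7 427 427) (mv 458 (both (five 0 457 457) (five 2 457 489))))))))))))))))) (both (mv 428 (both (five 7 428 460) (mv 429 (both (five 7 396 396) (mv 430 (both (five 5 397 398) (five 5 429 462))))))) (mv 430 (both (five 5 429 462) (mv 429 (both (five 5 397 398) (mv 556 (both (five 6 428 524) (five 6 460 588)))))))))) (both (mv 429 (both (mv 396 (both (five 7 396 428) (mv 397 (both (five 7 364 364) (five 4 397 494))))) (both (mv 428 (both (five 7 396 396) (mv 556 (both (five 6 428 524) (mv 557 (both (five 7 428 460) (five 6 460 588))))))) (mv 397 (both (five 4 397 494) (mv 524 (both (five 6 396 492) (five 6 428 556)))))))) (mv 429 (both (mv 397 (both (five 4 397 494) (mv 398 (both (five 5 365 366) (five 5 397 430))))) (both (mv 430 (both (five 5 397 398) (mv 556 (both (five 6 428 524) (mv 557 (both (five 5 429 462) (five 6 460 588))))))) (mv 397 (both (five 4 397 494) (mv 524 (both (five 6 396 492) (five 6 428 556))))))))))))) (both (mv 493 (both (mv 557 (both (mv 460 (both (five 7 428 428) (mv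 492 (both (five 7 460 589) (mv 490 (both (five 0 490 491) (mv 556 (both (five 6 460 588) (mv 555 (both (five 1 522 554) (mv 524 (both (five 6 459 587) (mv 459 (both (five 7 427 427) (mv 458 (both (five 0 457 457) (five 2 457 489))))))))))))))))) (both (mv 428 (both (five 7 428 460) (mv 429 (both (five 7 396 396) (mv 430 (both (five 5 397 398) (five 5 429 462))))))) (mv 430 (both (five 5 429 462) (mv 429 (both (five 5 397 398) (mv 556 (both (five 6 428 524) (five 6 460 588)))))))))) (both (mv 557 (both (mv 588 (both (five 6 460 556) (mv 589 (both (five 6 492 620) (mv 590 (both (five 4 461 558) (five 4 493 622))))))) (both (mv 460 (both (five 7 428 428) (mv 492 (both (five 7 460 589) (mv 490 (both (five 0 490 491) (mv 556 (both (five 6 460 588) (mv 555 (both (five 1 522 554) (mv 524 (both (five 6 459 587) (mv 459 (both (five 7 427 427) (mv 458 (both (five 0 457 457) (five 2 457 489))))))))))))))))) (both (mv 430 (both (five 5 429 462) (mv 460 (both (five 7 428 428) (mv 589 (both (five 7 460 492) (mv 590 (both (five 4 461 558) (five 4 493 622))))))))) (mv 556 (both (five 6 460 588) (mv 555 (both (five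 1 522 554) (mv 558 (both (five 4 461 590) (mv 523 (both (five 3 522 522) (mv 524 (both (five 0 523 559) (mv 587 (both (five 2 554 586) (mv 619 (both (five 5 491 492) (five 5 523 651))))))))))))))))))) (both (mv 429 (both (five 4 429 558) (mv 396 (both (five 7 396 428) (mv 397 (both (five 7 364 364) (mv 398 (both (five 5 365 366) (five 5 397 430))))))))) (both (mv 429 (both (five 4 429 558) (mv 430 (both (five 5 397 398) (mv 556 (both (five 6 428 524) (mv 557 (both (five 5 429 462) (five 6 460 588))))))))) (mv 429 (both (five 4 429 558) (mv 428 (both (five 7 396 396) (mv 556 (both (five 6 428 524) (mv 557 (both (five 7 428 460) (five 6 460 588)))))))))))))) (both (mv 462 (both (ref 0) (both (mv 463 (both (mv 464 (both (mv 432 (both (five 1 429 433) (mv 493 (both (five 2 460 492) (mv 494 (both (five 2 461 465) (mv 431 (both (five 5 430 558) (mv 399 (both (five 6 366 367) (five 6 398 495))))))))))) (both (mv 496 (both (five 0 461 497) (mv 431 (both (five 7 431 560) (mv 399 (both (five 4 367 367) (five 4 399 495))))))) (mv 433 (both (five 1 429 432) (mv 465 (both (five 1 430 434) (mv 496 (both (five 0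 461 497) (five 5 432 560)))))))))) (both (mv 460 (both (mv 427 (both (five 3 427 428) (mv 459 (both (five 3 426 426) (mv 491 (both (five 2 458 490) (five 2 459 492))))))) (mv 496 (both (five 0 460 495) (mv 464 (both (five 0 461 497) (mv 433 (both (five 1 429 432) (mv 465 (both (five 1 430 434) (five 5 432 560))))))))))) (both (mv 460 (both (mv 427 (both (five 3 427 428) (mv 431 (both (five 1 428 432) (mv 459 (both (five 3 426 426) (five 1 427 430))))))) (both (mv 427 (both (five 3 427 428) (mv 459 (both (five 3 426 426) (mv 491 (both (five 2 458 490) (five 2 459 492))))))) (both (mv 431 (both (five 1 428 432) (mv 459 (both (five 1 427 430) (mv 491 (both (five 2 458 490) (five 2 459 492))))))) (mv 427 (both (five 3 427 428) (mv 431 (both (five 1 428 432) (mv 491 (both (five 2 459 492) (mv 494 (both (five 5 430 558) (mv 399 (both (five 6 366 367) (five 5 398 430))))))))))))))) (both (mv 460 (both (mv 427 (both (five 3 427 428) (mv 431 (both (five 1 428 432) (mv 459 (both (five 3 426 426) (five 1 427 430))))))) (both (mv 496 (both (five 0 460 495) (mv 464 (both (five 0 461 497) (mv 433 (both (five 1 429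 432) (mv 465 (both (five 1 430 434) (five 5 432 560))))))))) (mv 427 (both (five 3 427 428) (mv 459 (both (five 3 426 426) (mv 431 (both (five 1 427 430) (mv 496 (both (five 0 460 495) (mv 464 (both (five 0 461 497) (five 7 431 560)))))))))))))) (mv 460 (both (mv 427 (both (five 3 427 428) (mv 459 (both (five 3 426 426) (mv 491 (both (five 2 458 490) (five 2 459 492))))))) (both (mv 427 (both (five 3 427 428) (mv 459 (both (five 3 426 426) (mv 431 (both (five 1 427 430) (mv 496 (both (five 0 460 495) (mv 464 (both (five 0 461 497) (five 7 431 560))))))))))) (both (mv 491 (both (five 2 459 492) (mv 459 (both (five 2 458 490) (mv 431 (both (five 1 427 430) (mv 496 (both (five 0 460 495) (mv 464 (both (five 0 461 497) (five 7 431 560))))))))))) (mv 427 (both (five 3 427 428) (mv 492 (both (five 2 459 491) (mv 464 (both (five 2 460 493) (mv 496 (both (five 0 460 495) (five 0 461 497)))))))))))))))))) (both (mv 463 (both (mv 460 (both (mv 427 (both (five 3 427 428) (mv 431 (both (five 1 428 432) (mv 459 (both (five 3 426 426) (five 1 427 430))))))) (both (mv 427 (both (five 3 427 428) (mv 459 (both (five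 3 426 426) (mv 491 (both (five 2 458 490) (five 2 459 492))))))) (both (mv 431 (both (five 1 428 432) (mv 459 (both (five 1 427 430) (mv 491 (both (five 2 458 490) (five 2 459 492))))))) (mv 428 (both (five 3 427 427) (mv 431 (both (five 1 428 432) (mv 492 (both (five 2 459 491) (mv 396 (both (five 4 396 493) (mv 363 (both (five 7 363 395) (mv 364 (both (five 7 331 331) (mv 365 (both (five 5 332 333) (five 5 364 397))))))))))))))))))) (both (mv 464 (both (mv 432 (both (five 1 429 433) (mv 496 (both (five 0 461 497) (mv 431 (both (five 7 399 399) (five 7 431 560))))))) (both (mv 428 (both (five 3 428 429) (mv 496 (both (five 0 461 497) (mv 431 (both (five 7 431 560) (mv 399 (both (five 4 367 367) (five 4 399 495))))))))) (mv 429 (both (five 3 428 428) (mv 433 (both (five 1 429 432) (mv 465 (both (five 3 429 430) (five 1 430 434)))))))))) (both (mv 460 (both (mv 431 (both (five 1 428 432) (mv 459 (both (five 1 427 430) (mv 491 (both (five 2 458 490) (five 2 459 492))))))) (both (mv 496 (both (five 0 460 495) (mv 464 (both (five 0 461 497) (mv 433 (both (five 1 429 432) (mv 465 (both (five 1 430 434)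 (five 5 432 560))))))))) (mv 491 (both (five 2 459 492) (mv 459 (both (five 2 458 490) (mv 430 (both (five 1 427 431) (mv 496 (both (five 0 460 495) (mv 464 (both (five 0 461 497) (mv 465 (both (five 3 429 429) (mv 433 (both (five 1 430 434) (five 5 432 560)))))))))))))))))) (both (mv 460 (both (mv 427 (both (five 3 427 428) (mv 459 (both (five 3 426 426) (mv 491 (both (five 2 458 490) (five 2 459 492))))))) (both (mv 427 (both (five 3 427 428) (mv 459 (both (five 3 426 426) (mv 431 (both (five 1 427 430) (mv 496 (both (five 0 460 495) (mv 464 (both (five 0 461 497) (five 7 431 560))))))))))) (both (mv 491 (both (five 2 459 492) (mv 459 (both (five 2 458 490) (mv 431 (both (five 1 427 430) (mv 496 (both (five 0 460 495) (mv 464 (both (five 0 461 497) (five 7 431 560))))))))))) (mv 427 (both (five 3 427 428) (mv 492 (both (five 2 459 491) (mv 464 (both (five 2 460 493) (mv 496 (both (five 0 460 495) (five 0 461 497))))))))))))) (mv 460 (both (mv 427 (both (five 3 427 428) (mv 459 (both (five 3 426 426) (mv 491 (both (five 2 458 490) (five 2 459 492))))))) (mv 496 (both (five 0 460 495) (mv 464 (both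 (five 0 461 497) (mv 433 (both (five 1 429 432) (mv 465 (both (five 1 430 434) (five 5 432 560)))))))))))))))) (both (mv 429 (both (mv 558 (both (five 4 429 493) (five 7 429 494))) (both (mv 494 (both (five 7 429 558) (mv 397 (both (five 4 365 365) (five 7 397 430))))) (both (mv 493 (both (five 4 429 558) (mv 396 (both (five 7 396 428) (mv 397 (both (five 7 364 364) (mv 398 (both (five 5 365 366) (five 5 397 430))))))))) (mv 493 (both (mv 396 (both (five 7 396 428) (mv 397 (both (five 7 364 364) (five 4 397 494))))) (both (mv 428 (both (five 7 396 396) (mv 427 (both (five 0 426 426) (mv 430 (both (five 5 397 398) (mv 394 (both (five 3 394 395) (mv 459 (both (five 2 426 458) (mv 431 (both (five 2 427 460) (mv 399 (both (five 1 396 400) (five 5 398 494))))))))))))))) (both (mv 396 (both (five 7 396 428) (mv 397 (both (five 7 364 364) (mv 398 (both (five 5 365 366) (five 5 397 430))))))) (mv 397 (both (five 4 397 494) (mv 398 (both (five 5 365 366) (five 5 397 430))))))))))))) (both (mv 429 (both (mv 558 (both (five 4 429 493) (five 7 429 494))) (both (mv 494 (both (five 7 429 558) (mv 397 (both (five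 4 365 365) (five 7 397 430))))) (both (mv 493 (both (mv 396 (both (five 7 396 428) (mv 397 (both (five 7 364 364) (five 4 397 494))))) (both (mv 428 (both (five 7 396 396) (mv 427 (both (five 0 426 426) (mv 430 (both (five 5 397 398) (five 0 427 463))))))) (mv 397 (both (five 4 397 494) (mv 398 (both (five 5 365 366) (five 5 397 430)))))))) (mv 493 (both (five 4 429 558) (mv 396 (both (five 7 396 428) (mv 397 (both (five 7 364 364) (mv 398 (both (five 5 365 366) (five 5 397 430))))))))))))) (both (mv 463 (both (mv 460 (both (mv 427 (both (five 3 427 428) (mv 459 (both (five 3 426 426) (mv 491 (both (five 2 458 490) (five 2 459 492))))))) (both (mv 427 (both (five 3 427 428) (mv 459 (both (five 3 426 426) (mv 495 (both (five 0 459 494) (five 0 460 496))))))) (mv 492 (both (five 2 459 491) (mv 464 (both (five 2 460 493) (mv 496 (both (five 0 460 495) (five 0 461 497)))))))))) (both (mv 460 (both (mv 427 (both (five 3 427 428) (mv 459 (both (five 3 426 426) (mv 491 (both (five 2 458 490) (five 2 459 492))))))) (mv 431 (both (five 1 428 432) (mv 494 (both (five 5 430 558) (mv 399 (both (five 6 366 367)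 (five 6 398 495))))))))) (both (mv 460 (both (mv 427 (both (five 3 427 428) (mv 459 (both (five 3 426 426) (mv 491 (both (five 2 458 490) (five 2 459 492))))))) (mv 496 (both (five 0 460 495) (mv 464 (both (five 0 461 497) (mv 433 (both (five 1 429 432) (mv 465 (both (five 1 430 434) (five 5 432 560))))))))))) (both (mv 464 (both (mv 432 (both (five 1 429 433) (mv 493 (both (five 2 460 492) (mv 494 (both (five 2 461 465) (mv 431 (both (five 5 430 558) (mv 399 (both (five 6 366 367) (five 6 398 495))))))))))) (both (mv 496 (both (five 0 461 497) (mv 431 (both (five 7 431 560) (mv 399 (both (five 4 367 367) (five 4 399 495))))))) (mv 433 (both (five 1 429 432) (mv 465 (both (five 1 430 434) (mv 496 (both (five 0 461 497) (five 5 432 560)))))))))) (both (mv 464 (both (mv 432 (both (five 1 429 433) (mv 496 (both (five 0 461 497) (mv 431 (both (five 7 399 399) (five 7 431 560))))))) (both (mv 428 (both (five 3 428 429) (mv 432 (both (five 1 429 433) (mv 460 (both (five 3 427 427) (five 1 428 431))))))) (mv 428 (both (five 3 428 429) (mv 427 (both (five 3 427 460) (mv 493 (both (five 2 460 492) (mv 465 (both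 (five 2 461 494) (mv 497 (both (five 0 461 496) (five 0 462 498)))))))))))))) (mv 460 (both (mv 427 (both (five 3 427 428) (mv 431 (both (five 1 428 432) (mv 459 (both (five 3 426 426) (mv 490 (both (five 2 458 491) (mv 458 (both (five 2 457 489) (mv 494 (both (five 0 458 493) (five 5 430 558))))))))))))) (both (mv 427 (both (five 3 427 428) (mv 459 (both (five 3 426 426) (mv 495 (both (five 0 459 494) (five 0 460 496))))))) (mv 496 (both (five 0 460 495) (mv 464 (both (five 0 461 497) (mv 433 (both (five 1 429 432) (mv 465 (both (five 1 430 434) (five 5 432 560)))))))))))))))))) (mv 494 (both (mv 429 (both (five 7 429 558) (mv 397 (both (five 4 365 365) (five 7 397 430))))) (both (mv 430 (both (mv 431 (both (five 5 398 399) (mv 432 (both (five 2 429 433) (mv 460 (both (five 1 427 459) (five 1 428 463))))))) (both (mv 398 (both (five 6 397 493) (mv 365 (both (five 7 365 397) (mv 366 (both (five 7 333 333) (mv 367 (both (five 5 334 335) (five 5 366 399))))))))) (mv 398 (both (five 6 397 493) (mv 365 (both (five 7 365 397) (mv 366 (both (five 7 333 333) (mv 335 (both (five 5 334 367) (mv 303 (both (five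 5 302 334) (mv 463 (both (five 4 366 495) (mv 431 (both (five 5 430 558) (mv 432 (both (five 2 429 433) (five 1 428 460)))))))))))))))))))) (both (mv 493 (both (mv 429 (both (five 4 397 397) (mv 524 (both (five 6 428 556) (mv 523 (both (five 1 491 495) (mv 490 (both (five 3 490 491) (mv 522 (both (five 3 489 489) (mv 554 (both (five 2 521 553) (five 2 522 555))))))))))))) (mv 430 (both (five 6 397 398) (mv 431 (both (five 5 398 399) (mv 432 (both (five 2 429 433) (mv 460 (both (five 1 427 459) (five 1 428 463))))))))))) (mv 558 (both (five 7 429 429) (mv 463 (both (five 5 430 431) (mv 495 (both (five 5 462 590) (mv 460 (both (five 0 459 459) (five 0 460 496)))))))))))))))))))) (both (mv 493 (both (mv 429 (both (five 4 429 558) (mv 397 (both (five 4 397 494) (mv 398 (both (five 5 365 366) (five 5 397 430))))))) (both (mv 557 (both (mv 588 (both (five 6 460 556) (mv 589 (both (five 6 492 620) (mv 621 (both (five 5 493 494) (mv 622 (both (five 4 493 590) (five 4 525 654))))))))) (both (mv 428 (both (five 7 428 460) (mv 430 (both (five 5 429 462) (mv 588 (both (five 6 460 556) (mv 589 (both (five 6 492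 620) (mv 621 (both (five 5 493 494) (mv 653 (both (five 5 525 558) (mv 654 (both (five 4 525 622) (five 4 557 686))))))))))))))) (both (mv 430 (both (five 5 429 462) (mv 460 (both (five 7 428 428) (mv 556 (both (five 6 460 588) (mv 555 (both (five 1 522 554) (mv 558 (both (five 4 461 590) (mv 523 (both (five 3 522 522) (mv 587 (both (five 2 554 586) (mv 491 (both (five 5 459 492) (mv 458 (both (five 7 458 490) (mv 459 (both (five 7 426 426) (five 0 458 494))))))))))))))))))))) (mv 460 (both (five 7 428 428) (mv 589 (both (five 7 460 492) (mv 590 (both (five 4 461 558) (five 4 493 622))))))))))) (both (mv 429 (both (mv 396 (both (five 7 396 428) (mv 397 (both (five 7 364 364) (five 4 397 494))))) (both (mv 428 (both (five 7 396 396) (mv 427 (both (mv 426 (both (five 0 426 462) (mv 393 (both (five 3 393 394) (mv 425 (both (five 3 392 392) (five 0 425 460))))))) (both (mv 430 (both (five 5 397 398) (mv 459 (both (five 2 426 458) (mv 431 (both (five 2 427 460) (mv 399 (both (five 1 396 400) (mv 463 (both (five 0 428 464) (mv 495 (both (five 6 398 494) (five 4 399 496))))))))))))) (mv 398 (both (five 5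 397 430) (mv 426 (both (five 0 426 462) (mv 393 (both (five 3 393 394) (mv 425 (both (five 3 392 392) (mv 457 (both (five 2 424 456) (five 2 425 458)))))))))))))))) (both (mv 396 (both (five 7 396 428) (mv 397 (both (five 7 364 364) (mv 398 (both (five 5 365 366) (five 5 397 430))))))) (mv 397 (both (five 4 397 494) (mv 398 (both (five 5 365 366) (five 5 397 430))))))))) (both (mv 429 (both (five 4 429 558) (mv 396 (both (five 7 396 428) (mv 397 (both (five 7 364 364) (mv 398 (both (five 5 365 366) (five 5 397 430))))))))) (mv 429 (both (five 4 429 558) (mv 396 (both (five 7 396 428) (mv 397 (both (five 7 364 364) (five 4 397 494)))))))))))) (both (mv 493 (both (mv 429 (both (five 4 429 558) (mv 396 (both (five 7 396 428) (mv 397 (both (five 7 364 364) (five 4 397 494))))))) (both (mv 557 (both (mv 588 (both (five 6 460 556) (mv 589 (both (five 6 492 620) (mv 590 (both (five 4 461 558) (five 4 493 622))))))) (both (mv 460 (both (five 7 428 428) (mv 492 (both (five 7 460 589) (mv 490 (both (five 0 490 491) (mv 556 (both (five 6 460 588) (mv 555 (both (five 1 522 554) (mv 524 (both (five 6 459 587) (mv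 459 (both (five 7 427 427) (mv 458 (both (five 0 457 457) (five 2 457 489))))))))))))))))) (both (mv 460 (both (five 7 428 428) (mv 589 (both (five 7 460 492) (mv 590 (both (five 4 461 558) (five 4 493 622))))))) (mv 556 (both (five 6 460 588) (mv 555 (both (five 1 522 554) (mv 558 (both (five 4 461 590) (mv 523 (both (five 3 522 522) (mv 524 (both (five 0 523 559) (mv 587 (both (five 2 554 586) (mv 619 (both (five 5 491 492) (five 5 523 651))))))))))))))))))) (both (mv 429 (both (mv 396 (both (five 7 396 428) (mv 397 (both (five 7 364 364) (five 4 397 494))))) (both (mv 428 (both (five 7 396 396) (mv 556 (both (five 6 428 524) (mv 557 (both (five 7 428 460) (five 6 460 588))))))) (mv 397 (both (five 4 397 494) (mv 524 (both (five 6 396 492) (five 6 428 556)))))))) (mv 429 (both (five 4 429 558) (mv 397 (both (five 4 397 494) (mv 524 (both (five 6 396 492) (five 6 428 556))))))))))) (both (mv 493 (both (mv 429 (both (five 4 429 558) (mv 397 (both (five 4 397 494) (mv 398 (both (five 5 365 366) (five 5 397 430))))))) (both (mv 557 (both (mv 588 (both (five 6 460 556) (mv 589 (both (five 6 492 620) (mv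 621 (both (five 5 493 494) (mv 653 (both (five 5 525 558) (mv 654 (both (five 4 525 622) (five 4 557 686))))))))))) (both (mv 430 (both (five 5 429 462) (mv 460 (both (five 7 428 428) (mv 589 (both (five 7 460 492) (mv 621 (both (five 5 493 494) (mv 653 (both (five 5 525 558) (mv 654 (both (five 4 525 622) (five 4 557 686))))))))))))) (both (mv 460 (both (five 7 428 428) (mv 492 (both (five 7 460 589) (mv 490 (both (five 0 490 491) (mv 556 (both (five 6 460 588) (mv 555 (both (five 1 522 554) (mv 524 (both (five 6 459 587) (mv 459 (both (five 7 427 427) (mv 458 (both (five 0 457 457) (five 2 457 489))))))))))))))))) (mv 492 (both (mv 462 (both (five 5 429 430) (mv 463 (both (five 2 460 464) (mv 491 (both (five 0 490 490) (five 1 459 494))))))) (both (mv 460 (both (five 7 428 428) (mv 490 (both (five 0 490 491) (mv 556 (both (five 6 460 588) (mv 555 (both (five 1 522 554) (mv 524 (both (five 6 459 587) (mv 459 (both (five 7 427 427) (mv 458 (both (five 0 457 457) (five 2 457 489))))))))))))))) (mv 430 (both (five 5 429 462) (mv 460 (both (five 7 428 428) (mv 556 (both (five 6 460 588) (mv 555 (both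 (five 1 522 554) (mv 524 (both (five 6 459 587) (mv 459 (both (five 7 427 427) (mv 458 (both (five 0 457 457) (five 0 458 494)))))))))))))))))))))) (both (mv 429 (both (mv 396 (both (five 7 396 428) (mv 397 (both (five 7 364 364) (five 4 397 494))))) (both (mv 428 (both (five 7 396 396) (mv 556 (both (five 6 428 524) (mv 557 (both (five 7 428 460) (five 6 460 588))))))) (mv 397 (both (five 4 397 494) (mv 524 (both (five 6 396 492) (five 6 428 556)))))))) (mv 429 (both (five 4 429 558) (mv 396 (both (five 7 396 428) (mv 397 (both (five 7 364 364) (mv 398 (both (five 5 365 366) (five 5 397 430))))))))))))) (both (mv 493 (both (mv 429 (both (five 4 429 558) (mv 397 (both (five 4 397 494) (mv 398 (both (five 5 365 366) (five 5 397 430))))))) (both (mv 557 (both (mv 588 (both (five 6 460 556) (mv 589 (both (five 6 492 620) (mv 590 (both (five 4 461 558) (five 4 493 622))))))) (both (mv 588 (both (five 6 460 556) (mv 589 (both (five 6 492 620) (mv 621 (both (five 5 493 494) (mv 622 (both (five 4 493 590) (five 4 525 654))))))))) (both (mv 588 (both (five 6 460 556) (mv 589 (both (five 6 492 620) (mv 621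 (both (five 5 493 494) (mv 653 (both (five 5 525 558) (mv 654 (both (five 4 525 622) (five 4 557 686))))))))))) (both (mv 428 (both (five 7 428 460) (mv 462 (both (five 5 429 430) (mv 494 (both (five 5 461 589) (mv 558 (both (five 7 461 590) (mv 463 (both (five 5 430 431) (mv 464 (both (five 2 461 465) (mv 432 (both (five 1 429 433) (mv 496 (both (five 0 461 497) (mv 524 (both (five 2 492 495) (mv 523 (both (five 0 522 522) (five 0 523 559))))))))))))))))))))) (mv 430 (both (five 5 429 462) (mv 460 (both (five 7 428 428) (mv 556 (both (five 6 460 588) (mv 555 (both (five 1 522 554) (mv 558 (both (five 4 461 590) (mv 523 (both (five 3 522 522) (mv 524 (both (five 0 523 559) (mv 491 (both (five 3 490 490) (mv 459 (both (five 4 427 427) (mv 458 (both (five 7 426 426) (five 0 458 494)))))))))))))))))))))))))) (both (mv 429 (both (mv 396 (both (five 7 396 428) (mv 397 (both (five 7 364 364) (five 4 397 494))))) (mv 430 (both (five 5 397 398) (mv 556 (both (five 6 428 524) (mv 557 (both (five 5 429 462) (five 6 460 588))))))))) (both (mv 429 (both (five 4 429 558) (mv 396 (both (five 7 396 428) (mv 397 (both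 (five 7 364 364) (mv 398 (both (five 5 365 366) (five 5 397 430))))))))) (mv 429 (both (five 4 429 558) (mv 396 (both (five 7 396 428) (mv 397 (both (five 7 364 364) (five 4 397 494)))))))))))) (both (mv 493 (both (mv 429 (both (five 4 429 558) (mv 397 (both (five 4 397 494) (mv 398 (both (five 5 365 366) (five 5 397 430))))))) (both (mv 557 (both (mv 460 (both (five 7 428 428) (mv 589 (both (five 7 460 492) (mv 590 (both (five 4 461 558) (five 4 493 622))))))) (both (mv 462 (both (five 5 429 430) (mv 589 (both (five 5 461 494) (mv 620 (both (five 6 492 588) (mv 621 (both (five 6 524 652) (mv 622 (both (five 4 493 590) (five 4 525 654))))))))))) (both (mv 460 (both (five 7 428 428) (mv 589 (both (five 7 460 492) (mv 621 (both (five 5 493 494) (mv 653 (both (five 5 525 558) (mv 654 (both (five 4 525 622) (five 4 557 686))))))))))) (mv 494 (both (mv 460 (both (five 7 428 428) (mv 459 (both (five 0 458 458) (mv 495 (both (five 3 459 492) (five 3 460 496))))))) (both (mv 462 (both (five 5 429 430) (mv 558 (both (five 7 461 590) (mv 463 (both (five 5 430 431) (mv 464 (both (five 2 461 465) (five 2 460 492)))))))))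 (mv 428 (both (five 7 428 460) (mv 462 (both (five 5 429 430) (mv 558 (both (five 7 461 590) (mv 463 (both (five 5 430 431) (mv 464 (both (five 2 461 465) (mv 432 (both (five 1 429 433) (mv 496 (both (five 0 461 497) (mv 524 (both (five 2 492 495) (mv 523 (both (five 0 522 522) (five 0 523 559)))))))))))))))))))))))))) (both (mv 429 (both (mv 396 (both (five 7 396 428) (mv 397 (both (five 7 364 364) (five 4 397 494))))) (both (mv 428 (both (five 7 396 396) (mv 427 (both (mv 426 (both (five 0 426 462) (mv 393 (both (five 3 393 394) (mv 425 (both (five 3 392 392) (five 0 425 460))))))) (both (mv 430 (both (five 5 397 398) (mv 459 (both (five 2 426 458) (mv 431 (both (five 2 427 460) (mv 399 (both (five 1 396 400) (mv 463 (both (five 0 428 464) (mv 495 (both (five 6 398 494) (five 4 399 496))))))))))))) (mv 398 (both (five 5 397 430) (mv 426 (both (five 0 426 462) (mv 393 (both (five 3 393 394) (mv 425 (both (five 3 392 392) (mv 457 (both (five 2 424 456) (five 2 425 458)))))))))))))))) (both (mv 396 (both (five 7 396 428) (mv 397 (both (five 7 364 364) (mv 398 (both (five 5 365 366) (five 5 397 430)))))))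 (mv 397 (both (five 4 397 494) (mv 398 (both (five 5 365 366) (five 5 397 430))))))))) (both (mv 429 (both (five 4 429 558) (mv 396 (both (five 7 396 428) (mv 397 (both (five 7 364 364) (mv 398 (both (five 5 365 366) (five 5 397 430))))))))) (mv 429 (both (five 4 429 558) (mv 396 (both (five 7 396 428) (mv 397 (both (five 7 364 364) (five 4 397 494)))))))))))) (both (mv 493 (both (mv 429 (both (five 4 429 558) (mv 397 (both (five 4 397 494) (mv 398 (both (five 5 365 366) (five 5 397 430))))))) (both (mv 557 (both (mv 588 (both (five 6 460 556) (mv 589 (both (five 6 492 620) (mv 621 (both (five 5 493 494) (mv 653 (both (five 5 525 558) (mv 654 (both (five 4 525 622) (five 4 557 686))))))))))) (both (mv 462 (both (five 5 429 430) (mv 589 (both (five 5 461 494) (mv 620 (both (five 6 492 588) (mv 621 (both (five 6 524 652) (mv 622 (both (five 4 493 590) (five 4 525 654))))))))))) (both (mv 462 (both (five 5 429 430) (mv 589 (both (five 5 461 494) (mv 622 (both (five 4 493 590) (mv 621 (both (five 4 525 654) (mv 524 (both (five 7 492 492) (mv 652 (both (five 6 524 620) (mv 653 (both (five 7 524 556) (five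 6 556 684))))))))))))))) (mv 556 (both (five 6 460 588) (mv 555 (both (five 1 522 554) (mv 558 (both (five 4 461 590) (mv 523 (both (five 3 522 522) (mv 524 (both (five 0 523 559) (mv 587 (both (five 2 554 586) (mv 619 (both (five 5 491 492) (five 5 523 651))))))))))))))))))) (both (mv 429 (both (mv 397 (both (five 4 397 494) (mv 398 (both (five 5 365 366) (five 5 397 430))))) (both (mv 430 (both (five 5 397 398) (mv 556 (both (five 6 428 524) (mv 557 (both (five 5 429 462) (five 6 460 588))))))) (mv 397 (both (five 4 397 494) (mv 524 (both (five 6 396 492) (five 6 428 556)))))))) (both (mv 429 (both (five 4 429 558) (mv 430 (both (five 5 397 398) (mv 556 (both (five 6 428 524) (mv 557 (both (five 5 429 462) (five 6 460 588))))))))) (mv 429 (both (five 4 429 558) (mv 397 (both (five 4 397 494) (mv 524 (both (five 6 396 492) (five 6 428 556)))))))))))) (mv 493 (both (mv 429 (both (five 4 429 558) (mv 430 (both (five 5 397 398) (mv 556 (both (five 6 428 524) (mv 557 (both (five 5 429 462) (five 6 460 588))))))))) (both (mv 557 (both (mv 460 (both (five 7 428 428) (mv 492 (both (five 7 460 589) (mv 490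 (both (five 0 490 491) (mv 556 (both (five 6 460 588) (mv 555 (both (five 1 522 554) (mv 524 (both (five 6 459 587) (mv 459 (both (five 7 427 427) (mv 458 (both (five 0 457 457) (five 2 457 489))))))))))))))))) (both (mv 428 (both (five 7 428 460) (mv 429 (both (five 7 396 396) (mv 430 (both (five 5 397 398) (five 5 429 462))))))) (mv 430 (both (five 5 429 462) (mv 429 (both (five 5 397 398) (mv 556 (both (five 6 428 524) (five 6 460 588)))))))))) (both (mv 557 (both (mv 588 (both (five 6 460 556) (mv 589 (both (five 6 492 620) (mv 590 (both (five 4 461 558) (five 4 493 622))))))) (both (mv 460 (both (five 7 428 428) (mv 492 (both (five 7 460 589) (mv 490 (both (five 0 490 491) (mv 556 (both (five 6 460 588) (mv 555 (both (five 1 522 554) (mv 524 (both (five 6 459 587) (mv 459 (both (five 7 427 427) (mv 458 (both (five 0 457 457) (five 2 457 489))))))))))))))))) (both (mv 460 (both (five 7 428 428) (mv 589 (both (five 7 460 492) (mv 590 (both (five 4 461 558) (five 4 493 622))))))) (mv 556 (both (five 6 460 588) (mv 555 (both (five 1 522 554) (mv 558 (both (five 4 461 590) (mv 523 (both (five 3 522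 522) (mv 524 (both (five 0 523 559) (mv 587 (both (five 2 554 586) (mv 619 (both (five 5 491 492) (five 5 523 651))))))))))))))))))) (mv 429 (both (five 4 429 558) (mv 428 (both (five 7 396 396) (mv 427 (both (mv 426 (both (five 0 426 462) (mv 393 (both (five 3 393 394) (mv 425 (both (five 3 392 392) (five 0 425 460))))))) (both (mv 430 (both (five 5 397 398) (mv 459 (both (five 2 426 458) (mv 431 (both (five 2 427 460) (mv 399 (both (five 1 396 400) (mv 463 (both (five 0 428 464) (mv 495 (both (five 6 398 494) (five 4 399 496))))))))))))) (mv 398 (both (five 5 397 430) (mv 426 (both (five 0 426 462) (mv 393 (both (five 3 393 394) (mv 425 (both (five 3 392 392) (mv 457 (both (five 2 424 456) (five 2 425 458)))))))))))))))))))))))))))))))))) (both (mv 527 (both (mv 496 (both (five 1 493 497) (mv 524 (both (five 1 492 495) (mv 556 (both (five 2 523 555) (five 2 524 557))))))) (both (mv 556 (both (five 2 524 557) (mv 524 (both (five 2 523 555) (mv 560 (both (five 0 524 559) (five 0 525 561))))))) (both (mv 496 (both (five 1 493 497) (mv 495 (both (five 1 492 524) (mv 560 (both (five 0 525 561) (mv 463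 (both (five 4 431 431) (five 7 463 592))))))))) (mv 496 (both (five 1 493 497) (mv 464 (both (mv 432 (both (five 6 431 559) (mv 399 (both (five 7 399 431) (mv 400 (both (five 7 367 367) (five 6 399 495))))))) (both (mv 556 (both (five 2 524 557) (mv 560 (both (five 0 525 561) (mv 433 (both (five 5 432 465) (mv 463 (both (five 7 431 431) (mv 592 (both (five 7 463 495) (mv 625 (both (five 4 496 593) (mv 624 (both (five 4 528 657) (mv 655 (both (five 6 527 623) (mv 656 (both (five 7 527 559) (five 6 559 687))))))))))))))))))) (both (mv 556 (both (five 2 524 557) (mv 560 (both (five 0 525 561) (mv 431 (both (five 7 431 463) (mv 432 (both (five 7 399 399) (mv 433 (both (five 5 400 401) (five 5 432 465))))))))))) (mv 432 (both (five 6 431 559) (mv 400 (both (five 6 399 495) (mv 401 (both (five 5 368 369) (five 5 400 433))))))))))))))))) (both (mv 527 (both (mv 492 (both (five 3 492 493) (mv 496 (both (five 1 493 497) (mv 524 (both (five 3 491 491) (five 1 492 495))))))) (both (mv 492 (both (five 3 492 493) (mv 524 (both (five 3 491 491) (mv 560 (both (five 0 524 559) (five 0 525 561))))))) (mv 496 (both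 (five 1 493 497) (mv 464 (both (mv 432 (both (five 6 431 559) (mv 399 (both (five 7 399 431) (mv 400 (both (five 7 367 367) (five 6 399 495))))))) (both (mv 560 (both (five 0 525 561) (mv 433 (both (five 5 432 465) (mv 463 (both (five 7 431 431) (mv 592 (both (five 7 463 495) (mv 625 (both (five 4 496 593) (mv 624 (both (five 4 528 657) (mv 655 (both (five 6 527 623) (mv 656 (both (five 7 527 559) (five 6 559 687))))))))))))))))) (both (mv 560 (both (five 0 525 561) (mv 431 (both (five 7 431 463) (mv 432 (both (five 7 399 399) (mv 433 (both (five 5 400 401) (five 5 432 465))))))))) (mv 432 (both (five 6 431 559) (mv 400 (both (five 6 399 495) (mv 401 (both (five 5 368 369) (five 5 400 433)))))))))))))))) (both (mv 527 (both (mv 496 (both (five 1 493 497) (mv 464 (both (mv 432 (both (five 6 431 559) (mv 399 (both (five 7 399 431) (mv 400 (both (five 7 367 367) (five 6 399 495))))))) (both (mv 560 (both (five 0 525 561) (mv 433 (both (five 5 432 465) (mv 463 (both (five 7 431 431) (mv 592 (both (five 7 463 495) (mv 625 (both (five 4 496 593) (mv 624 (both (five 4 528 657) (mv 655 (both (five 6 527 623)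 (mv 656 (both (five 7 527 559) (five 6 559 687))))))))))))))))) (both (mv 560 (both (five 0 525 561) (mv 431 (both (five 7 431 463) (mv 432 (both (five 7 399 399) (mv 433 (both (five 5 400 401) (five 5 432 465))))))))) (mv 432 (both (five 6 431 559) (mv 400 (both (five 6 399 495) (mv 401 (both (five 5 368 369) (five 5 400 433))))))))))))) (mv 493 (both (five 3 492 492) (mv 461 (both (mv 557 (both (five 2 524 556) (mv 428 (both (five 7 428 460) (mv 429 (both (five 7 396 396) (mv 430 (both (five 5 397 398) (five 5 429 462))))))))) (both (mv 557 (both (five 2 524 556) (mv 462 (both (five 5 429 430) (mv 589 (both (five 5 461 494) (mv 620 (both (five 6 492 588) (mv 621 (both (five 6 524 652) (mv 622 (both (five 4 493 590) (five 4 525 654))))))))))))) (mv 429 (both (five 4 429 558) (mv 396 (both (five 7 396 428) (mv 397 (both (five 7 364 364) (five 4 397 494)))))))))))))) (both (mv 527 (both (mv 556 (both (five 2 524 557) (mv 524 (both (five 2 523 555) (mv 560 (both (five 0 524 559) (five 0 525 561))))))) (both (mv 493 (both (five 3 492 492) (mv 461 (both (mv 557 (both (five 2 524 556) (mv 428 (both (five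 7 428 460) (mv 429 (both (five 7 396 396) (mv 430 (both (five 5 397 398) (five 5 429 462))))))))) (both (mv 557 (both (five 2 524 556) (mv 462 (both (five 5 429 430) (mv 589 (both (five 5 461 494) (mv 620 (both (five 6 492 588) (mv 621 (both (five 6 524 652) (mv 622 (both (five 4 493 590) (five 4 525 654))))))))))))) (mv 429 (both (five 4 429 558) (mv 396 (both (five 7 396 428) (mv 397 (both (five 7 364 364) (five 4 397 494)))))))))))) (mv 492 (both (five 3 492 493) (mv 524 (both (five 3 491 491) (mv 560 (both (five 0 524 559) (five 0 525 561)))))))))) (mv 527 (both (mv 496 (both (five 1 493 497) (mv 524 (both (five 1 492 495) (mv 556 (both (five 2 523 555) (five 2 524 557))))))) (both (mv 492 (both (five 3 492 493) (mv 496 (both (five 1 493 497) (mv 524 (both (five 3 491 491) (five 1 492 495))))))) (mv 493 (both (five 3 492 492) (mv 461 (both (mv 557 (both (five 2 524 556) (mv 428 (both (five 7 428 460) (mv 429 (both (five 7 396 396) (mv 430 (both (five 5 397 398) (five 5 429 462))))))))) (both (mv 557 (both (five 2 524 556) (mv 462 (both (five 5 429 430) (mv 589 (both (five 5 461 494) (mv 620 (both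 (five 6 492 588) (mv 621 (both (five 6 524 652) (mv 622 (both (five 4 493 590) (five 4 525 654))))))))))))) (mv 429 (both (five 4 429 558) (mv 396 (both (five 7 396 428) (mv 397 (both (five 7 364 364) (five 4 397 494))))))))))))))))))))

theorem L76 : W (S 988530863058807798957393715067720623286798683220635978952802738122718218409262471505648588255249455916730668840373243557345566271959196709010660073920568229888) (S 1043422955290201235487752775098850295056409164806948643367101257417196922075605172709020759378714427981266937374512812676786693194506565971865733113804057842418239244298324930338953689393950850550754313240576) :=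
  check_sound (Env.cons L75 Env.nil) (x := 526) (t := tL76) (by decide +kernel)

end P062.Cert
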