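import Vale.Agent.P062.Check

/-! Snaky certificate, part 12 (machine generated, checked by the kernel) -/

set_option maxRecDepth 100000

namespace P062.Cert

open T

def tL77 : T :=
  (both (mv 526 (both (mv 527 (both (five 1 493 497) (mv 492 (both (five 3 492 493) (mv 524 (both (five 3 491 491) (five 1 492 495))))))) (both (mv 494 (both (mv 495 (both (five 2 493 497) (mv 524 (both (five 2 492 493) (five 1 491 523))))) (both (mv 462 (both (mv 430 (both (five 6 429 557) (mv 397 (both (five 7 397 429) (mv 398 (both (five 7 365 365) (five 6 397 493))))))) (both (mv 558 (both (mv 429 (both (five 7 429 461) (mv 431 (both (five 5 430 463) (mv 559 (both (five 4 462 591) (mv 524 (both (five 0 523 523) (mv 560 (both (five 3 524 557) (five 3 525 561))))))))))) (both (mv 429 (both (five 7 429 461) (mv 431 (both (five 5 430 463) (mv 591 (both (five 4 462 559) (mv 590 (both (five 4 494 623) (mv 621 (both (five 6 493 589) (mv 622 (both (five 7 493 493) (five 6 525 653))))))))))))) (both (mv 557 (both (five 6 461 589) (mv 559 (both (five 4 462 591) (mv 524 (both (five 0 523 523) (five 3 524 560))))))) (mv 431 (both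 (five 5 430 463) (mv 461 (both (five 7 429 429) (mv 589 (both (five 6 461 557) (mv 590 (both (five 7 461 493) (five 6 493 621))))))))))))) (both (mv 558 (both (mv 591 (both (five 4 462 559) (mv 590 (both (five 4 494 623) (mv 621 (both (five 6 493 589) (mv 622 (both (five 7 493 493) (five 6 525 653))))))))) (mv 429 (both (five 7 429 461) (mv 430 (both (five 7 397 397) (mv 431 (both (five 5 398 399) (five 5 430 463))))))))) (both (mv 430 (both (five 6 429 557) (mv 397 (both (five 7 397 429) (mv 398 (both (five 7 365 365) (mv 399 (both (five 5 366 367) (five 5 398 431))))))))) (mv 430 (both (five 6 429 557) (mv 398 (both (five 6 397 493) (mv 399 (both (five 5 366 367) (five 5 398 431)))))))))))) (both (mv 462 (both (mv 430 (both (five 6 429 557) (mv 397 (both (five 7 397 429) (mv 398 (both (five 7 365 365) (mv 399 (both (five 5 366 367) (five 5 398 431))))))))) (both (mv 558 (both (mv 557 (both (five 6 461 589) (mv 559 (both (five 4 462 591) (mv 524 (both (five 0 523 523) (five 3 524 560))))))) (mv 429 (both (five 7 429 461) (mv 463 (both (five 5 430 431) (mv 495 (both (five 2 493 497) (five 5 462 590)))))))))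 (both (mv 558 (both (mv 463 (both (five 5 430 431) (mv 495 (both (five 2 493 497) (five 5 462 590))))) (both (mv 429 (both (five 7 429 461) (mv 430 (both (five 7 397 397) (mv 431 (both (five 5 398 399) (five 5 430 463))))))) (both (mv 429 (both (five 7 429 461) (mv 430 (both (five 7 397 397) (mv 399 (both (five 5 398 431) (mv 398 (both (five 5 366 367) (mv 401 (both (five 2 397 400) (mv 427 (both (five 1 395 428) (mv 497 (both (five 2 493 495) (mv 465 (both (five 6 400 433) (mv 559 (both (five 4 462 591) (mv 560 (both (five 3 525 561) (five 5 464 592))))))))))))))))))))) (mv 429 (both (five 7 429 461) (mv 397 (both (five 7 397 430) (mv 495 (both (five 2 493 497) (mv 463 (both (five 5 462 590) (mv 523 (both (five 1 491 524) (mv 559 (both (five 4 462 591) (mv 560 (both (five 3 525 561) (five 7 463 592))))))))))))))))))) (both (mv 430 (both (five 6 429 557) (mv 397 (both (five 7 397 429) (mv 398 (both (five 7 365 365) (mv 367 (both (five 5 366 399) (mv 366 (both (five 5 334 335) (mv 495 (both (five 4 366 463) (five 2 493 497))))))))))))) (mv 430 (both (five 6 429 557) (mv 399 (both (five 5 398 431) (mv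 398 (both (five 5 366 367) (mv 365 (both (five 7 365 397) (mv 366 (both (five 7 333 333) (mv 495 (both (five 4 366 463) (five 2 493 497)))))))))))))))))) (mv 462 (both (mv 430 (both (five 6 429 557) (mv 397 (both (five 7 397 429) (mv 398 (both (five 7 365 365) (five 6 397 493))))))) (both (mv 558 (both (mv 463 (both (five 5 430 431) (mv 495 (both (five 2 493 497) (five 5 462 590))))) (both (mv 461 (both (five 7 429 429) (mv 589 (both (five 6 461 557) (mv 590 (both (five 7 461 493) (five 6 493 621))))))) (mv 429 (both (five 7 429 461) (mv 431 (both (five 5 430 463) (mv 497 (both (five 2 493 495) (mv 557 (both (five 6 461 589) (mv 559 (both (five 4 462 591) (mv 560 (both (five 3 525 561) (mv 592 (both (five 5 464 465) (five 0 557 593)))))))))))))))))) (both (mv 558 (both (mv 591 (both (five 4 462 559) (mv 590 (both (five 4 494 623) (mv 621 (both (five 6 493 589) (mv 622 (both (five 7 493 493) (five 6 525 653))))))))) (mv 429 (both (five 7 429 461) (mv 430 (both (five 7 397 397) (mv 431 (both (five 5 398 399) (five 5 430 463))))))))) (both (mv 430 (both (five 6 429 557) (mv 397 (both (five 7 397 429)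 (mv 398 (both (five 7 365 365) (mv 399 (both (five 5 366 367) (five 5 398 431))))))))) (mv 430 (both (five 6 429 557) (mv 398 (both (five 6 397 493) (mv 399 (both (five 5 366 367) (five 5 398 431)))))))))))))))) (both (mv 527 (both (mv 492 (both (five 3 492 493) (mv 524 (both (five 3 491 491) (five 1 492 495))))) (both (mv 492 (both (five 3 492 493) (mv 524 (both (five 3 491 491) (mv 560 (both (five 0 524 559) (five 0 525 561))))))) (both (mv 559 (both (mv 591 (both (five 5 495 623) (mv 495 (both (mv 462 (both (five 7 462 494) (mv 463 (both (five 7 430 430) (mv 431 (both (five 4 399 399) (five 6 430 558))))))) (both (mv 492 (both (five 3 492 493) (mv 590 (both (five 6 494 622) (mv 558 (both (five 6 462 463) (mv 592 (both (five 4 495 624) (mv 593 (both (five 3 557 557) (five 3 558 594))))))))))) (both (mv 462 (both (five 7 462 494) (mv 430 (both (five 7 430 463) (mv 493 (both (five 3 492 492) (mv 461 (both (five 5 429 557) (mv 398 (both (five 6 365 366) (five 5 397 429))))))))))) (mv 493 (both (five 3 492 492) (mv 494 (both (five 7 462 462) (mv 461 (both (five 3 460 460) (mv 429 (both (five 4 397 397)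 (five 4 429 558))))))))))))))) (both (mv 560 (both (five 0 525 561) (mv 592 (both (mv 495 (both (five 4 463 463) (five 7 495 624))) (both (mv 492 (both (five 3 492 493) (mv 624 (both (five 7 527 656) (mv 625 (both (five 4 496 593) (five 4 528 657))))))) (mv 463 (both (five 7 463 495) (mv 493 (both (five 3 492 492) (mv 593 (both (five 4 496 625) (mv 558 (both (five 0 557 557) (mv 461 (both (five 4 429 429) (mv 590 (both (five 7 461 494) (five 7 493 622)))))))))))))))))) (both (mv 495 (both (mv 560 (both (five 0 525 561) (mv 463 (both (five 4 431 431) (five 7 463 592))))) (both (mv 591 (both (five 5 495 623) (mv 462 (both (five 7 462 494) (mv 463 (both (five 7 430 430) (mv 431 (both (five 4 399 399) (five 6 430 558))))))))) (mv 560 (both (five 0 525 561) (mv 591 (both (five 5 495 623) (mv 462 (both (five 7 462 494) (mv 590 (both (five 6 494 622) (mv 588 (both (five 1 556 589) (mv 592 (both (five 7 495 624) (mv 593 (both (five 4 496 625) (mv 558 (both (five 3 557 557) (five 3 558 594)))))))))))))))))))) (both (mv 495 (both (mv 560 (both (five 0 525 561) (mv 463 (both (five 4 431 431) (five 7 463 592)))))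 (both (mv 492 (both (five 3 492 493) (mv 591 (both (five 5 495 623) (mv 590 (both (five 6 494 622) (mv 463 (both (five 6 462 558) (mv 430 (both (five 7 430 462) (mv 431 (both (five 7 398 398) (five 4 399 399))))))))))))) (mv 492 (both (five 3 492 493) (mv 560 (both (five 0 525 561) (mv 591 (both (five 5 495 623) (mv 590 (both (five 6 494 622) (mv 588 (both (five 1 556 589) (mv 592 (both (five 7 495 624) (mv 593 (both (five 4 496 625) (mv 558 (both (five 3 557 557) (five 3 558 594)))))))))))))))))))) (both (mv 495 (both (mv 560 (both (five 0 525 561) (mv 463 (both (five 4 431 431) (five 7 463 592))))) (both (mv 493 (both (five 3 492 492) (mv 591 (both (five 5 495 623) (mv 462 (both (five 7 462 494) (mv 430 (both (five 7 430 463) (mv 461 (both (five 5 429 557) (mv 398 (both (five 6 365 366) (five 5 397 429))))))))))))) (mv 492 (both (five 3 492 493) (mv 560 (both (five 0 525 561) (mv 591 (both (five 5 495 623) (mv 494 (both (five 7 462 462) (mv 590 (both (five 6 494 622) (mv 589 (both (five 1 556 588) (mv 592 (both (five 7 495 624) (mv 621 (both (five 5 493 557) (five 2 588 620)))))))))))))))))))) (both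 (mv 560 (both (five 0 525 561) (mv 592 (both (mv 624 (both (five 7 527 656) (mv 625 (both (five 4 496 593) (five 4 528 657))))) (both (mv 493 (both (five 3 492 492) (mv 593 (both (five 4 496 625) (mv 558 (both (five 0 557 557) (mv 461 (both (five 4 429 429) (mv 590 (both (five 7 461 494) (five 7 493 622))))))))))) (mv 492 (both (five 3 492 493) (mv 623 (both (five 5 495 591) (mv 624 (both (five 6 527 655) (five 7 527 656)))))))))))) (both (mv 495 (both (mv 591 (both (five 5 495 623) (mv 462 (both (five 7 462 494) (mv 463 (both (five 7 430 430) (mv 431 (both (five 4 399 399) (five 6 430 558))))))))) (both (mv 493 (both (five 3 492 492) (mv 560 (both (five 0 525 561) (mv 463 (both (five 4 431 431) (mv 462 (both (five 7 430 430) (mv 461 (both (five 0 460 460) (mv 558 (both (five 4 429 429) (five 6 462 590))))))))))))) (both (mv 492 (both (five 3 492 493) (mv 560 (both (five 0 525 561) (mv 591 (both (five 5 495 623) (mv 494 (both (five 7 462 462) (mv 590 (both (five 6 494 622) (mv 589 (both (five 1 556 588) (mv 621 (both (five 5 493 557) (five 6 493 558))))))))))))))) (both (mv 493 (both (five 3 492 492)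 (mv 591 (both (five 5 495 623) (mv 462 (both (five 7 462 494) (mv 430 (both (five 7 430 463) (mv 461 (both (five 5 429 557) (mv 398 (both (five 6 365 366) (five 5 397 429))))))))))))) (mv 492 (both (five 3 492 493) (mv 560 (both (five 0 525 561) (mv 463 (both (five 4 431 431) (mv 590 (both (five 6 462 558) (mv 591 (both (five 6 494 622) (five 5 495 623)))))))))))))))) (both (mv 495 (both (mv 560 (both (five 0 525 561) (mv 463 (both (five 4 431 431) (five 7 463 592))))) (both (mv 591 (both (five 5 495 623) (mv 462 (both (five 7 462 494) (mv 463 (both (five 7 430 430) (mv 431 (both (five 4 399 399) (five 6 430 558))))))))) (mv 492 (both (five 3 492 493) (mv 560 (both (five 0 525 561) (mv 591 (both (five 5 495 623) (mv 462 (both (five 7 462 494) (mv 592 (both (five 7 495 624) (mv 593 (both (five 4 496 625) (mv 558 (both (five 0 557 557) (five 3 558 594)))))))))))))))))) (mv 495 (both (mv 560 (both (five 0 525 561) (mv 463 (both (five 4 431 431) (five 7 463 592))))) (both (mv 591 (both (five 5 495 623) (mv 462 (both (five 7 462 494) (mv 463 (both (five 7 430 430) (mv 431 (both (five 4 399 399) (five 6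 430 558))))))))) (mv 492 (both (five 3 492 493) (mv 560 (both (five 0 525 561) (mv 591 (both (five 5 495 623) (mv 462 (both (five 7 462 494) (mv 590 (both (five 6 494 622) (mv 588 (both (five 1 556 589) (mv 592 (both (five 7 495 624) (mv 593 (both (five 4 496 625) (mv 594 (both (five 3 558 558) (five 3 559 595))))))))))))))))))))))))))))))) (mv 495 (both (five 1 492 524) (mv 560 (both (five 0 525 561) (mv 463 (both (five 4 431 431) (five 7 463 592))))))))))) (both (mv 527 (both (five 1 493 497) (mv 492 (both (five 3 492 493) (mv 524 (both (five 3 491 491) (mv 560 (both (five 0 524 559) (five 0 525 561))))))))) (mv 560 (both (mv 527 (both (five 1 493 497) (five 0 525 561))) (both (mv 592 (both (mv 495 (both (five 7 463 463) (mv 497 (both (five 5 464 465) (five 2 493 494))))) (mv 623 (both (five 6 495 591) (mv 624 (both (five 6 527 655) (mv 625 (both (five 4 496 593) (five 4 528 657))))))))) (mv 592 (both (mv 623 (both (five 6 495 591) (mv 624 (both (five 6 527 655) (mv 625 (both (five 4 496 593) (five 4 528 657))))))) (both (mv 495 (both (five 7 463 463) (mv 527 (both (five 0 525 561) (five 7 495 624)))))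 (mv 463 (both (five 7 463 495) (mv 561 (both (five 0 525 527) (mv 558 (both (five 3 525 559) (mv 591 (both (five 6 495 623) (mv 562 (both (five 2 559 563) (mv 590 (both (five 1 557 589) (five 1 558 593)))))))))))))))))))))))) (both (mv 495 (both (mv 526 (both (mv 497 (both (five 2 493 494) (five 1 493 527))) (both (mv 494 (both (five 2 493 497) (mv 524 (both (five 2 492 493) (five 1 491 523))))) (both (mv 524 (both (five 1 492 527) (mv 494 (both (five 2 492 493) (five 1 491 523))))) (mv 527 (both (five 1 493 497) (five 1 492 524))))))) (both (mv 494 (both (mv 497 (both (five 2 493 526) (mv 462 (both (five 3 461 461) (mv 463 (both (five 3 462 498) (mv 399 (both (five 4 399 431) (mv 465 (both (five 1 462 466) (mv 433 (both (five 6 400 401) (mv 464 (both (five 1 430 434) (mv 430 (both (five 3 429 429) (mv 398 (both (five 4 366 366) (five 5 366 367))))))))))))))))))) (both (mv 493 (both (five 2 492 524) (mv 460 (both (five 3 460 461) (mv 464 (both (five 1 461 465) (mv 492 (both (five 3 459 459) (five 1 460 463))))))))) (both (mv 493 (both (five 2 492 524) (mv 465 (both (five 1 461 464) (mv 497 (both (five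 1 462 466) (five 2 493 526))))))) (mv 493 (both (five 2 492 524) (mv 460 (both (five 3 460 461) (mv 492 (both (five 3 459 459) (mv 396 (both (five 4 396 428) (mv 526 (both (five 2 493 497) (mv 491 (both (five 0 490 490) (mv 462 (both (five 1 459 463) (mv 430 (both (five 6 429 557) (mv 397 (both (five 7 397 429) (mv 398 (both (five 7 365 365) (mv 399 (both (five 5 366 367) (five 5 398 431))))))))))))))))))))))))))) (both (mv 464 (both (mv 432 (both (mv 527 (both (five 6 399 400) (five 6 431 559))) (both (mv 399 (both (five 7 399 431) (mv 400 (both (five 7 367 367) (mv 401 (both (five 5 368 369) (five 5 400 433))))))) (mv 463 (both (mv 433 (both (five 5 400 401) (mv 434 (both (five 2 431 435) (mv 462 (both (five 1 429 461) (five 1 430 465))))))) (both (mv 431 (both (five 7 399 399) (mv 527 (both (five 5 431 559) (mv 430 (both (five 7 398 398) (mv 429 (both (five 0 428 428) (five 0 429 465))))))))) (mv 401 (both (five 5 400 433) (mv 431 (both (five 7 399 399) (mv 527 (both (five 5 431 559) (mv 430 (both (five 7 398 398) (mv 429 (both (five 0 428 428) (mv 396 (both (five 3 396 397) (mv 461 (both (five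 2 428 460) (mv 462 (both (five 0 461 497) (mv 493 (both (five 2 460 492) (five 5 429 557))))))))))))))))))))))))) (both (mv 432 (both (mv 527 (both (five 6 399 400) (five 6 431 559))) (both (mv 399 (both (five 7 399 431) (mv 400 (both (five 7 367 367) (mv 401 (both (five 5 368 369) (five 5 400 433))))))) (mv 465 (both (mv 466 (both (five 2 463 467) (mv 494 (both (five 1 461 493) (five 1 462 497))))) (both (mv 431 (both (five 7 399 399) (mv 430 (both (five 0 429 429) (mv 433 (both (five 5 400 401) (mv 398 (both (five 3 397 397) (mv 462 (both (five 2 429 461) (mv 494 (both (five 1 461 493) (five 4 398 527))))))))))))) (mv 431 (both (five 7 399 399) (mv 430 (both (five 0 429 429) (mv 433 (both (five 5 400 401) (five 0 430 466))))))))))))) (both (mv 465 (both (mv 466 (both (five 2 463 467) (mv 494 (both (five 1 461 493) (five 1 462 497))))) (both (mv 432 (both (mv 399 (both (five 7 399 431) (mv 400 (both (five 7 367 367) (mv 401 (both (five 5 368 369) (five 5 400 433))))))) (both (mv 399 (both (five 7 399 431) (mv 400 (both (five 7 367 367) (mv 368 (both (five 6 367 463) (five 4 368 497))))))) (both (mv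 401 (both (five 5 400 433) (mv 400 (both (five 5 368 369) (mv 368 (both (five 6 367 463) (five 4 368 497))))))) (mv 431 (both (five 7 399 399) (mv 430 (both (five 0 429 429) (mv 433 (both (five 5 400 401) (mv 397 (both (five 3 397 398) (mv 462 (both (five 2 429 461) (mv 434 (both (five 2 430 463) (mv 403 (both (five 1 399 402) (mv 435 (both (five 1 400 404) (five 2 432 436))))))))))))))))))))) (mv 466 (both (five 2 463 467) (mv 494 (both (five 2 462 463) (five 1 461 493)))))))) (both (mv 432 (both (mv 527 (both (five 6 399 400) (five 6 431 559))) (both (mv 399 (both (five 7 399 431) (mv 400 (both (five 7 367 367) (mv 401 (both (five 5 368 369) (five 5 400 433))))))) (mv 431 (both (five 7 399 399) (mv 430 (both (mv 527 (both (five 6 431 559) (mv 398 (both (five 7 398 463) (mv 494 (both (five 4 398 462) (mv 493 (both (five 0 492 492) (five 2 492 524))))))))) (both (mv 433 (both (five 5 400 401) (mv 397 (both (five 3 397 398) (mv 429 (both (five 3 396 396) (mv 461 (both (five 2 428 460) (five 2 429 462))))))))) (both (mv 433 (both (five 5 400 401) (mv 397 (both (five 3 397 398) (mv 429 (both (five 3 396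 396) (mv 428 (both (five 0 428 463) (mv 460 (both (five 2 427 459) (five 2 428 461))))))))))) (mv 433 (both (five 5 400 401) (mv 462 (both (five 2 429 461) (mv 434 (both (five 2 430 463) (mv 403 (both (five 1 399 402) (mv 435 (both (five 1 400 404) (mv 467 (both (five 0 431 466) (five 0 432 468)))))))))))))))))))))) (both (mv 494 (both (mv 493 (both (five 1 461 465) (five 2 492 524))) (both (mv 497 (both (mv 462 (both (five 3 461 461) (mv 498 (both (five 3 462 463) (mv 499 (both (five 2 495 527) (mv 531 (both (five 0 495 530) (five 0 496 532))))))))) (both (mv 462 (both (five 3 461 461) (mv 465 (both (five 1 462 466) (mv 433 (both (five 6 400 401) (mv 463 (both (five 1 430 434) (mv 430 (both (five 3 429 429) (mv 398 (both (five 4 366 366) (five 4 398 527))))))))))))) (both (mv 466 (both (five 1 462 465) (mv 498 (both (five 1 463 467) (mv 499 (both (five 2 495 527) (mv 531 (both (five 0 495 530) (five 0 496 532))))))))) (mv 461 (both (five 3 461 462) (mv 466 (both (five 1 462 465) (mv 498 (both (five 1 463 467) (mv 499 (both (five 3 463 463) (mv 531 (both (five 0 495 530) (five 0 496 532)))))))))))))))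 (mv 493 (both (five 2 492 524) (mv 492 (both (five 1 460 463) (five 0 492 527)))))))) (both (mv 432 (both (mv 527 (both (five 6 399 400) (five 6 431 559))) (both (mv 399 (both (five 7 399 431) (mv 400 (both (five 7 367 367) (mv 401 (both (five 5 368 369) (five 5 400 433))))))) (mv 465 (both (mv 466 (both (five 2 463 467) (mv 494 (both (five 1 461 493) (five 1 462 497))))) (mv 431 (both (five 7 399 399) (mv 430 (both (five 0 429 429) (mv 433 (both (five 5 400 401) (mv 398 (both (five 3 397 397) (mv 527 (both (five 7 398 463) (five 6 431 559)))))))))))))))) (both (mv 432 (both (mv 527 (both (five 6 399 400) (five 6 431 559))) (both (mv 399 (both (five 7 399 431) (mv 400 (both (five 7 367 367) (mv 368 (both (five 6 367 463) (mv 337 (both (five 5 336 369) (mv 336 (both (five 5 304 305) (mv 465 (both (five 4 336 433) (five 4 368 497))))))))))))) (mv 465 (both (mv 466 (both (five 2 463 467) (mv 494 (both (five 1 461 493) (five 1 462 497))))) (both (mv 431 (both (five 7 399 399) (mv 430 (both (five 0 429 429) (mv 527 (both (five 6 431 559) (mv 398 (both (five 7 398 463) (mv 494 (both (five 4 398 462) (mv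 493 (both (five 0 492 492) (five 2 492 524))))))))))))) (mv 431 (both (five 7 399 399) (mv 430 (both (five 0 429 429) (mv 466 (both (five 0 430 433) (five 3 430 463))))))))))))) (both (mv 432 (both (mv 527 (both (five 6 399 400) (five 6 431 559))) (both (mv 399 (both (five 7 399 431) (mv 400 (both (five 7 367 367) (mv 368 (both (five 6 367 463) (mv 369 (both (five 5 336 337) (five 5 368 401))))))))) (mv 465 (both (mv 466 (both (five 2 463 467) (mv 494 (both (five 1 461 493) (five 1 462 497))))) (both (mv 431 (both (five 7 399 399) (mv 430 (both (five 0 429 429) (mv 527 (both (five 6 431 559) (mv 398 (both (five 7 398 463) (mv 494 (both (five 4 398 462) (mv 493 (both (five 0 492 492) (five 2 492 524))))))))))))) (mv 431 (both (five 7 399 399) (mv 430 (both (five 0 429 429) (mv 466 (both (five 3 430 463) (five 3 431 467))))))))))))) (mv 432 (both (mv 527 (both (five 6 399 400) (five 6 431 559))) (mv 433 (both (five 5 400 401) (mv 434 (both (mv 431 (both (five 7 399 399) (mv 403 (both (five 1 399 402) (mv 435 (both (five 1 400 404) (mv 467 (both (five 0 431 466) (five 0 432 468))))))))) (both (mv 435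 (both (five 2 431 463) (mv 403 (both (five 1 400 404) (mv 436 (both (five 2 432 465) (mv 468 (both (five 0 432 467) (five 0 433 469))))))))) (both (mv 431 (both (five 7 399 399) (mv 402 (both (five 1 399 403) (mv 463 (both (five 2 430 462) (mv 466 (both (five 0 431 467) (mv 465 (both (five 2 462 494) (mv 370 (both (five 6 337 338) (five 6 369 497))))))))))))) (both (mv 399 (both (five 7 399 431) (mv 435 (both (five 2 431 463) (mv 403 (both (five 1 400 404) (mv 436 (both (five 2 432 465) (mv 469 (both (five 0 433 468) (mv 437 (both (five 0 434 470) (mv 406 (both (five 1 402 405) (mv 438 (both (five 3 402 402) (five 1 403 407))))))))))))))))) (mv 399 (both (five 7 399 431) (mv 435 (both (five 2 431 463) (mv 436 (both (five 2 432 465) (mv 468 (both (five 0 432 467) (five 0 433 469))))))))))))))))))))))))))) (both (mv 527 (both (mv 526 (both (five 1 493 497) (five 1 492 524))) (both (mv 559 (both (mv 591 (both (five 5 495 623) (mv 590 (both (five 6 494 622) (mv 463 (both (five 6 462 558) (mv 430 (both (five 7 430 462) (mv 431 (both (five 7 398 398) (five 4 399 399))))))))))) (both (mv 463 (both (mv 430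 (both (five 7 430 462) (mv 431 (both (five 7 398 398) (five 4 399 399))))) (both (mv 462 (both (five 7 430 430) (mv 461 (both (five 0 460 460) (mv 464 (both (five 6 431 432) (five 0 461 497))))))) (mv 431 (both (five 4 399 399) (mv 432 (both (five 5 399 400) (five 5 431 464)))))))) (mv 464 (both (five 6 431 432) (five 5 463 591)))))) (mv 526 (both (five 1 492 524) (mv 558 (both (mv 493 (both (five 3 492 492) (mv 461 (both (five 4 429 429) (mv 590 (both (five 4 461 557) (five 7 493 622))))))) (both (mv 463 (both (five 6 430 431) (mv 590 (both (five 6 462 559) (five 5 494 622))))) (mv 463 (both (five 6 430 431) (mv 493 (both (five 3 492 492) (mv 461 (both (five 4 429 429) (mv 462 (both (five 0 460 460) (mv 430 (both (five 5 429 557) (five 7 430 559))))))))))))))))))) (both (mv 527 (both (mv 526 (both (five 1 492 524) (mv 558 (both (mv 493 (both (five 3 492 492) (mv 461 (both (five 4 429 429) (mv 590 (both (five 4 461 557) (five 7 493 622))))))) (both (mv 463 (both (five 6 430 431) (mv 590 (both (five 6 462 559) (five 5 494 622))))) (mv 463 (both (five 6 430 431) (mv 493 (both (five 3 492 492) (mv 461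 (both (five 4 429 429) (mv 462 (both (five 0 460 460) (mv 430 (both (five 5 429 557) (five 7 430 559)))))))))))))))) (both (mv 559 (both (mv 464 (both (five 6 431 432) (five 5 463 591))) (both (mv 591 (both (five 5 495 623) (mv 590 (both (five 6 494 622) (mv 463 (both (five 6 462 558) (mv 430 (both (five 7 430 462) (mv 431 (both (five 7 398 398) (five 4 399 399))))))))))) (mv 463 (both (mv 430 (both (five 7 430 462) (mv 431 (both (five 7 398 398) (five 4 399 399))))) (both (mv 462 (both (five 7 430 430) (mv 461 (both (five 0 460 460) (mv 464 (both (five 5 431 432) (mv 428 (both (five 3 428 429) (mv 493 (both (five 2 460 492) (mv 494 (both (five 1 461 465) (five 2 492 524))))))))))))) (mv 431 (both (five 4 399 399) (mv 432 (both (five 5 399 400) (five 5 431 464))))))))))) (both (mv 464 (both (mv 432 (both (five 6 399 400) (five 6 431 559))) (both (mv 463 (both (mv 559 (both (five 5 463 591) (mv 462 (both (five 7 430 430) (mv 461 (both (five 0 460 460) (mv 428 (both (five 3 428 429) (mv 493 (both (five 2 460 492) (mv 465 (both (five 2 461 494) (mv 434 (both (five 1 430 433) (mv 466 (both (five 1 431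 435) (five 2 463 467))))))))))))))))) (both (mv 431 (both (five 4 399 399) (mv 398 (both (five 7 398 430) (mv 526 (both (five 6 430 558) (mv 493 (both (five 3 492 492) (mv 465 (both (five 1 461 494) (mv 466 (both (five 2 463 467) (mv 434 (both (five 1 431 435) (mv 433 (both (five 1 430 462) (mv 401 (both (five 6 368 369) (mv 498 (both (five 0 463 499) (five 7 401 530))))))))))))))))))))) (mv 431 (both (five 4 399 399) (mv 558 (both (five 6 430 526) (mv 559 (both (five 6 462 590) (five 5 463 591)))))))))) (mv 493 (both (mv 492 (both (five 0 492 494) (five 3 492 526))) (both (mv 432 (both (five 6 399 400) (mv 401 (both (five 5 400 433) (mv 431 (both (five 7 399 399) (mv 526 (both (five 3 492 492) (mv 463 (both (five 6 430 558) (mv 430 (both (five 7 398 398) (mv 429 (both (five 0 428 428) (five 0 429 465))))))))))))))) (mv 432 (both (five 6 399 400) (mv 399 (both (five 7 399 431) (mv 433 (both (five 5 400 401) (mv 494 (both (five 1 461 465) (mv 461 (both (five 3 460 460) (mv 462 (both (five 1 429 463) (mv 430 (both (five 4 398 398) (five 5 429 557))))))))))))))))))))) (both (mv 493 (both (mv 492 (both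 (five 0 492 494) (five 3 492 526))) (both (mv 526 (both (five 3 492 492) (five 1 492 524))) (both (mv 494 (both (five 0 492 492) (five 2 492 524))) (mv 524 (both (five 2 492 494) (five 1 492 526))))))) (mv 559 (both (mv 464 (both (five 6 431 432) (five 5 463 591))) (both (mv 591 (both (five 5 495 623) (mv 590 (both (five 6 494 622) (mv 463 (both (five 6 462 558) (mv 430 (both (five 7 430 462) (mv 431 (both (five 7 398 398) (five 4 399 399))))))))))) (mv 463 (both (mv 430 (both (five 7 430 462) (mv 431 (both (five 7 398 398) (five 4 399 399))))) (both (mv 462 (both (five 7 430 430) (mv 461 (both (five 0 460 460) (mv 464 (both (five 5 431 432) (mv 429 (both (five 3 428 428) (mv 526 (both (five 1 492 524) (mv 558 (both (five 7 429 494) (five 6 462 590))))))))))))) (mv 431 (both (five 4 399 399) (mv 432 (both (five 5 399 400) (five 5 431 464)))))))))))))))) (mv 497 (both (mv 526 (both (five 2 493 494) (five 1 493 527))) (both (mv 498 (both (mv 499 (both (five 2 495 527) (mv 531 (both (five 0 495 530) (five 0 496 532))))) (mv 462 (both (five 3 462 463) (mv 466 (both (five 1 463 467) (mv 494 (both (five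 3 461 461) (five 1 462 465))))))))) (both (mv 494 (both (five 2 493 526) (mv 462 (both (five 3 461 461) (mv 463 (both (five 3 462 498) (mv 399 (both (five 4 399 431) (mv 465 (both (five 1 462 466) (mv 433 (both (five 6 400 401) (mv 464 (both (five 1 430 434) (mv 430 (both (five 3 429 429) (mv 398 (both (five 4 366 366) (five 5 366 367))))))))))))))))))) (mv 527 (both (five 1 493 526) (mv 498 (both (five 2 495 499) (mv 463 (both (five 3 462 462) (mv 431 (both (five 4 399 399) (mv 398 (both (five 7 398 430) (mv 432 (both (five 5 399 400) (mv 466 (both (five 1 463 467) (mv 530 (both (five 0 495 531) (mv 559 (both (five 5 431 464) (mv 590 (both (five 6 462 558) (mv 591 (both (five 6 494 622) (five 5 495 623))))))))))))))))))))))))))))))))) (both (mv 560 (both (mv 592 (both (mv 623 (both (five 6 495 591) (mv 624 (both (five 6 527 655) (mv 625 (both (five 4 496 593) (five 4 528 657))))))) (mv 495 (both (five 7 463 463) (mv 497 (both (five 5 464 465) (mv 494 (both (five 2 493 526) (mv 461 (both (five 3 461 462) (mv 493 (both (five 3 460 460) (five 2 492 524))))))))))))) (both (mv 464 (both (mv 559 (both (five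 6 463 591) (mv 561 (both (five 4 464 593) (mv 558 (both (five 3 525 526) (mv 557 (both (five 3 524 524) (mv 589 (both (five 2 556 588) (five 2 557 590))))))))))) (mv 431 (both (five 7 431 463) (mv 432 (both (five 7 399 399) (mv 433 (both (five 5 400 401) (five 5 432 465))))))))) (both (mv 592 (both (mv 623 (both (five 6 495 591) (mv 624 (both (five 6 527 655) (mv 625 (both (five 4 496 593) (five 4 528 657))))))) (both (mv 465 (both (five 5 464 497) (mv 464 (both (five 5 432 433) (mv 593 (both (five 4 464 561) (five 4 496 625))))))) (mv 465 (both (five 5 464 497) (mv 464 (both (five 5 432 433) (mv 591 (both (five 6 463 559) (five 6 495 623)))))))))) (both (mv 592 (both (mv 623 (both (five 6 495 591) (mv 624 (both (five 6 527 655) (mv 625 (both (five 4 496 593) (five 4 528 657))))))) (both (mv 463 (both (five 7 463 495) (mv 464 (both (five 7 431 431) (mv 593 (both (five 4 464 561) (five 4 496 625))))))) (mv 463 (both (five 7 463 495) (mv 464 (both (five 7 431 431) (mv 591 (both (five 6 463 559) (five 6 495 623)))))))))) (both (mv 464 (both (mv 465 (both (five 5 432 433) (mv 592 (both (five 5 464 497)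 (mv 593 (both (five 4 464 561) (five 4 496 625))))))) (both (mv 463 (both (five 7 431 431) (mv 592 (both (five 7 463 495) (mv 593 (both (five 4 464 561) (five 4 496 625))))))) (mv 431 (both (five 7 431 463) (mv 432 (both (five 7 399 399) (mv 433 (both (five 5 400 401) (five 5 432 465)))))))))) (mv 464 (both (mv 465 (both (five 5 432 433) (mv 591 (both (five 6 463 559) (mv 592 (both (five 5 464 497) (five 6 495 623))))))) (both (mv 463 (both (five 7 431 431) (mv 591 (both (five 6 463 559) (mv 592 (both (five 7 463 495) (five 6 495 623))))))) (mv 431 (both (five 7 431 463) (mv 432 (both (five 7 399 399) (mv 433 (both (five 5 400 401) (five 5 432 465)))))))))))))))) (both (mv 560 (both (mv 592 (both (mv 623 (both (five 6 495 591) (mv 624 (both (five 6 527 655) (mv 625 (both (five 4 496 593) (five 4 528 657))))))) (both (mv 465 (both (five 5 464 497) (mv 464 (both (five 5 432 433) (mv 593 (both (five 4 464 561) (five 4 496 625))))))) (mv 465 (both (five 5 464 497) (mv 464 (both (five 5 432 433) (mv 591 (both (five 6 463 559) (five 6 495 623)))))))))) (both (mv 592 (both (mv 623 (both (five 6 495 591) (mv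 624 (both (five 6 527 655) (mv 625 (both (five 4 496 593) (five 4 528 657))))))) (both (mv 465 (both (five 5 464 497) (mv 495 (both (five 7 463 463) (mv 624 (both (five 7 495 527) (mv 625 (both (five 4 496 593) (five 4 528 657))))))))) (both (mv 465 (both (five 5 464 497) (mv 495 (both (five 7 463 463) (mv 623 (both (five 6 495 591) (mv 624 (both (five 7 495 527) (five 6 527 655))))))))) (mv 495 (both (five 7 463 463) (mv 494 (both (mv 497 (both (five 5 464 465) (mv 462 (both (five 3 461 461) (mv 591 (both (five 6 495 623) (mv 527 (both (five 7 462 559) (mv 398 (both (five 4 398 430) (mv 498 (both (five 2 495 499) (mv 466 (both (five 1 463 467) (mv 530 (both (five 0 495 531) (mv 593 (both (five 4 496 625) (mv 562 (both (five 6 465 561) (mv 563 (both (five 1 559 594) (five 4 466 595))))))))))))))))))))))) (both (mv 493 (both (five 2 492 524) (mv 460 (both (five 3 460 461) (mv 492 (both (five 3 459 459) (five 0 492 527))))))) (both (mv 465 (both (five 5 464 497) (mv 493 (both (five 2 492 524) (mv 492 (both (five 0 492 527) (mv 460 (both (five 3 459 459) (mv 396 (both (five 4 396 428) (mv 557 (both (five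 7 460 589) (mv 591 (both (five 6 495 623) (mv 593 (both (five 4 496 625) (mv 558 (both (five 0 557 559) (five 3 557 590))))))))))))))))))) (mv 465 (both (five 5 464 497) (mv 493 (both (five 2 492 524) (mv 460 (both (five 3 460 461) (mv 492 (both (five 3 459 459) (mv 557 (both (five 7 460 589) (mv 591 (both (five 6 495 623) (mv 593 (both (five 4 496 625) (mv 558 (both (five 0 557 559) (five 3 557 590))))))))))))))))))))))))))) (both (mv 464 (both (mv 433 (both (five 5 432 465) (mv 432 (both (five 5 400 401) (mv 559 (both (five 6 431 527) (five 6 463 591))))))) (both (mv 431 (both (five 7 431 463) (mv 432 (both (five 7 399 399) (mv 559 (both (five 6 431 527) (five 6 463 591))))))) (mv 463 (both (five 7 431 431) (mv 462 (both (mv 461 (both (five 0 461 497) (mv 428 (both (five 3 428 429) (mv 460 (both (five 3 427 427) (five 0 460 495))))))) (both (mv 465 (both (five 5 432 433) (mv 429 (both (five 3 429 430) (mv 493 (both (five 2 461 494) (mv 498 (both (five 0 462 497) (mv 466 (both (five 0 463 499) (mv 435 (both (five 1 431 434) (mv 467 (both (five 1 432 436) (five 2 463 495))))))))))))))) (both (mv 465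 (both (five 5 432 433) (mv 429 (both (five 3 429 430) (mv 428 (both (five 3 428 461) (mv 494 (both (five 2 461 493) (mv 466 (both (five 2 462 495) (mv 435 (both (five 1 431 434) (mv 467 (both (five 1 432 436) (mv 499 (both (five 0 463 498) (five 0 464 500))))))))))))))))) (mv 433 (both (five 5 432 465) (mv 461 (both (five 0 461 497) (mv 493 (both (five 2 460 492) (mv 430 (both (five 5 429 557) (mv 398 (both (five 6 365 366) (five 6 397 494)))))))))))))))))))) (both (mv 464 (both (mv 465 (both (five 5 432 433) (mv 592 (both (five 5 464 497) (mv 593 (both (five 4 464 561) (five 4 496 625))))))) (both (mv 463 (both (five 7 431 431) (mv 592 (both (five 7 463 495) (mv 593 (both (five 4 464 561) (five 4 496 625))))))) (mv 431 (both (five 7 431 463) (mv 432 (both (five 7 399 399) (mv 433 (both (five 5 400 401) (five 5 432 465)))))))))) (mv 592 (both (mv 623 (both (five 6 495 591) (mv 624 (both (five 6 527 655) (mv 625 (both (five 4 496 593) (five 4 528 657))))))) (both (mv 463 (both (five 7 463 495) (mv 464 (both (five 7 431 431) (mv 593 (both (five 4 464 561) (five 4 496 625))))))) (mv 463 (both (five 7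 463 495) (mv 464 (both (five 7 431 431) (mv 591 (both (five 6 463 559) (five 6 495 623))))))))))))))) (both (mv 560 (both (mv 592 (both (mv 623 (both (five 6 495 591) (mv 624 (both (five 6 527 655) (mv 625 (both (five 4 496 593) (five 4 528 657))))))) (both (mv 495 (both (five 7 463 463) (mv 624 (both (five 7 495 527) (mv 625 (both (five 4 496 593) (five 4 528 657))))))) (both (mv 495 (both (five 7 463 463) (mv 623 (both (five 6 495 591) (mv 624 (both (five 7 495 527) (five 6 527 655))))))) (mv 591 (both (five 6 495 623) (mv 590 (both (mv 463 (both (five 7 463 495) (mv 593 (both (five 4 496 625) (mv 557 (both (five 3 557 558) (mv 621 (both (five 2 589 622) (mv 589 (both (five 2 588 620) (mv 492 (both (five 7 492 524) (mv 493 (both (five 7 460 460) (mv 494 (both (five 5 461 462) (five 5 493 526))))))))))))))))) (both (mv 463 (both (five 7 463 495) (mv 593 (both (five 4 496 625) (mv 557 (both (five 3 557 558) (mv 562 (both (five 1 558 561) (mv 594 (both (five 1 559 563) (mv 595 (both (five 3 559 559) (mv 627 (both (five 0 591 626) (five 0 592 628))))))))))))))) (mv 561 (both (five 1 557 589) (mv 562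 (both (five 2 558 559) (five 2 559 563)))))))))))))) (both (mv 464 (both (mv 559 (both (five 6 463 591) (mv 561 (both (five 4 464 593) (mv 558 (both (five 3 525 526) (mv 557 (both (five 3 524 524) (mv 589 (both (five 2 556 588) (five 2 557 590))))))))))) (mv 431 (both (five 7 431 463) (mv 432 (both (five 7 399 399) (mv 433 (both (five 5 400 401) (five 5 432 465))))))))) (both (mv 592 (both (mv 623 (both (five 6 495 591) (mv 624 (both (five 6 527 655) (mv 625 (both (five 4 496 593) (five 4 528 657))))))) (both (mv 495 (both (five 7 463 463) (mv 623 (both (five 6 495 591) (mv 624 (both (five 7 495 527) (five 6 527 655))))))) (mv 463 (both (five 7 463 495) (mv 464 (both (five 7 431 431) (mv 593 (both (five 4 464 561) (five 4 496 625)))))))))) (both (mv 464 (both (mv 431 (both (five 7 431 463) (mv 432 (both (five 7 399 399) (mv 433 (both (five 5 400 401) (five 5 432 465))))))) (both (mv 433 (both (five 5 432 465) (mv 432 (both (five 5 400 401) (mv 559 (both (five 6 431 527) (five 6 463 591))))))) (mv 463 (both (five 7 431 431) (mv 591 (both (five 6 463 559) (mv 592 (both (five 7 463 495) (five 6 495 623))))))))))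 (both (mv 464 (both (mv 431 (both (five 7 431 463) (mv 432 (both (five 7 399 399) (mv 433 (both (five 5 400 401) (five 5 432 465))))))) (both (mv 433 (both (five 5 432 465) (mv 432 (both (five 5 400 401) (mv 527 (both (five 6 431 559) (mv 561 (both (five 0 525 526) (five 4 464 593))))))))) (mv 463 (both (five 7 431 431) (mv 592 (both (five 7 463 495) (mv 593 (both (five 4 464 561) (five 4 496 625)))))))))) (mv 464 (both (mv 433 (both (five 5 432 465) (mv 432 (both (five 5 400 401) (mv 559 (both (five 6 431 527) (five 6 463 591))))))) (both (mv 433 (both (five 5 432 465) (mv 432 (both (five 5 400 401) (mv 399 (both (five 7 399 431) (mv 400 (both (five 7 367 367) (mv 397 (both (five 0 397 398) (mv 434 (both (five 3 399 435) (mv 527 (both (five 6 399 495) (mv 561 (both (five 0 525 526) (five 4 464 593))))))))))))))))) (mv 559 (both (five 6 463 591) (mv 561 (both (five 4 464 593) (mv 558 (both (five 3 525 526) (mv 557 (both (five 3 524 524) (mv 589 (both (five 2 556 588) (five 2 557 590)))))))))))))))))))) (both (mv 464 (both (mv 432 (both (mv 399 (both (five 7 399 431) (mv 400 (both (five 7 367 367) (mv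 401 (both (five 5 368 369) (five 5 400 433))))))) (both (mv 400 (both (mv 399 (both (five 7 367 367) (five 7 399 431))) (both (mv 527 (both (five 6 431 559) (mv 497 (both (five 1 493 526) (mv 368 (both (five 4 368 465) (mv 335 (both (five 7 335 367) (mv 336 (both (five 7 303 303) (mv 337 (both (five 5 304 305) (five 5 336 369))))))))))))) (mv 431 (both (five 7 399 399) (mv 527 (both (five 6 431 559) (mv 497 (both (five 1 493 526) (mv 368 (both (five 4 368 465) (mv 336 (both (five 6 335 463) (mv 337 (both (five 5 304 305) (five 5 336 369)))))))))))))))) (both (mv 401 (both (five 5 400 433) (mv 400 (both (five 5 368 369) (mv 367 (both (five 7 367 399) (mv 368 (both (five 7 335 335) (mv 497 (both (five 4 368 465) (mv 527 (both (five 1 493 526) (five 6 431 559))))))))))))) (both (mv 463 (both (mv 527 (both (five 6 431 559) (mv 497 (both (five 1 493 526) (mv 462 (both (five 0 461 461) (mv 498 (both (five 0 462 465) (five 3 463 499))))))))) (both (mv 401 (both (five 5 400 433) (mv 400 (both (five 5 368 369) (mv 527 (both (five 6 431 559) (mv 497 (both (five 1 493 526) (mv 368 (both (five 4 368 465) (mv 335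 (both (five 7 335 367) (mv 336 (both (five 7 303 303) (five 6 335 431))))))))))))))) (mv 433 (both (five 5 400 401) (mv 434 (both (five 2 431 435) (mv 462 (both (five 2 430 431) (five 1 429 461)))))))))) (mv 463 (both (mv 527 (both (five 6 431 559) (mv 497 (both (five 1 493 526) (mv 462 (both (five 0 461 461) (mv 498 (both (five 0 462 465) (five 3 463 499))))))))) (both (mv 431 (both (five 7 399 399) (mv 433 (both (five 5 400 401) (mv 434 (both (five 2 431 435) (mv 402 (both (five 1 399 403) (mv 466 (both (five 0 431 467) (mv 430 (both (five 0 430 465) (mv 397 (both (five 3 397 398) (mv 429 (both (five 3 396 396) (five 0 428 428))))))))))))))))) (mv 433 (both (five 5 400 401) (mv 434 (both (five 2 431 435) (mv 462 (both (five 2 430 431) (five 1 429 461))))))))))))))) (both (mv 560 (both (mv 465 (both (five 5 432 433) (mv 592 (both (five 5 464 497) (mv 593 (both (five 4 464 561) (five 4 496 625))))))) (both (mv 465 (both (five 5 432 433) (mv 591 (both (five 6 463 559) (mv 592 (both (five 5 464 497) (five 6 495 623))))))) (mv 559 (both (five 6 463 591) (mv 561 (both (five 4 464 593) (mv 558 (both (five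 3 525 526) (mv 557 (both (five 3 524 524) (mv 589 (both (five 2 556 588) (five 2 557 590)))))))))))))) (both (mv 527 (both (mv 432 (both (five 6 431 559) (mv 399 (both (five 7 399 431) (mv 400 (both (five 7 367 367) (mv 369 (both (five 5 368 401) (mv 368 (both (five 5 336 337) (mv 497 (both (five 4 368 465) (five 1 493 526))))))))))))) (both (mv 559 (both (five 6 431 432) (mv 591 (both (five 6 463 560) (five 5 495 623))))) (both (mv 463 (both (mv 497 (both (five 1 493 526) (mv 462 (both (five 0 461 461) (mv 498 (both (five 0 462 465) (five 3 463 499))))))) (mv 431 (both (five 7 431 560) (mv 399 (both (five 4 367 367) (five 7 399 432))))))) (mv 526 (both (five 1 493 497) (mv 492 (both (five 3 492 493) (mv 524 (both (five 3 491 491) (mv 560 (both (five 0 524 559) (five 0 525 561))))))))))))) (both (mv 432 (both (mv 399 (both (five 7 399 431) (mv 400 (both (five 7 367 367) (mv 401 (both (five 5 368 369) (five 5 400 433))))))) (mv 559 (both (five 6 431 527) (mv 560 (both (five 6 463 591) (mv 561 (both (five 4 464 593) (mv 558 (both (five 3 525 526) (mv 557 (both (five 3 524 524) (mv 589 (both (five 2 556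 588) (five 2 557 590))))))))))))))) (mv 431 (both (mv 399 (both (five 7 399 432) (mv 463 (both (five 4 367 367) (five 7 431 560))))) (both (mv 560 (both (five 7 431 463) (mv 465 (both (five 5 432 433) (mv 592 (both (five 5 464 497) (mv 593 (both (five 4 464 561) (five 4 496 625))))))))) (both (mv 432 (both (five 7 399 399) (mv 465 (both (mv 430 (both (five 0 429 429) (mv 433 (both (five 5 400 401) (five 0 430 466))))) (both (mv 430 (both (five 0 429 429) (mv 466 (both (five 3 430 463) (five 3 431 467))))) (mv 401 (both (five 5 400 433) (mv 400 (both (five 5 368 369) (mv 368 (both (five 4 368 497) (mv 335 (both (five 7 335 367) (mv 336 (both (five 7 303 303) (five 6 335 463)))))))))))))))) (mv 432 (both (five 7 399 399) (mv 433 (both (five 5 400 401) (mv 465 (both (five 5 432 560) (mv 430 (both (five 0 429 429) (five 0 430 466)))))))))))))))))) (both (mv 560 (both (mv 592 (both (mv 623 (both (five 6 495 591) (mv 624 (both (five 6 527 655) (mv 625 (both (five 4 496 593) (five 4 528 657))))))) (both (mv 465 (both (five 5 464 497) (mv 464 (both (five 5 432 433) (mv 593 (both (five 4 464 561) (five 4 496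 625))))))) (mv 465 (both (five 5 464 497) (mv 464 (both (five 5 432 433) (mv 591 (both (five 6 463 559) (five 6 495 623)))))))))) (both (mv 464 (both (mv 559 (both (five 6 463 591) (mv 561 (both (five 4 464 593) (mv 558 (both (five 3 525 526) (mv 557 (both (five 3 524 524) (mv 589 (both (five 2 556 588) (five 2 557 590))))))))))) (mv 431 (both (five 7 431 463) (mv 432 (both (five 7 399 399) (mv 433 (both (five 5 400 401) (five 5 432 465))))))))) (both (mv 592 (both (mv 623 (both (five 6 495 591) (mv 624 (both (five 6 527 655) (mv 625 (both (five 4 496 593) (five 4 528 657))))))) (mv 495 (both (five 7 463 463) (mv 497 (both (five 5 464 465) (mv 526 (both (five 2 493 494) (five 1 493 527))))))))) (both (mv 464 (both (mv 465 (both (five 5 432 433) (mv 592 (both (five 5 464 497) (mv 593 (both (five 4 464 561) (five 4 496 625))))))) (both (mv 463 (both (five 7 431 431) (mv 592 (both (five 7 463 495) (mv 593 (both (five 4 464 561) (five 4 496 625))))))) (mv 431 (both (five 7 431 463) (mv 432 (both (five 7 399 399) (mv 433 (both (five 5 400 401) (five 5 432 465)))))))))) (both (mv 592 (both (mv 623 (both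 (five 6 495 591) (mv 624 (both (five 6 527 655) (mv 625 (both (five 4 496 593) (five 4 528 657))))))) (both (mv 463 (both (five 7 463 495) (mv 464 (both (five 7 431 431) (mv 593 (both (five 4 464 561) (five 4 496 625))))))) (mv 463 (both (five 7 463 495) (mv 464 (both (five 7 431 431) (mv 591 (both (five 6 463 559) (five 6 495 623)))))))))) (mv 464 (both (mv 465 (both (five 5 432 433) (mv 591 (both (five 6 463 559) (mv 592 (both (five 5 464 497) (five 6 495 623))))))) (both (mv 463 (both (five 7 431 431) (mv 591 (both (five 6 463 559) (mv 592 (both (five 7 463 495) (five 6 495 623))))))) (mv 431 (both (five 7 431 463) (mv 432 (both (five 7 399 399) (mv 433 (both (five 5 400 401) (five 5 432 465)))))))))))))))) (both (mv 560 (both (mv 592 (both (mv 623 (both (five 6 495 591) (mv 624 (both (five 6 527 655) (mv 625 (both (five 4 496 593) (five 4 528 657))))))) (both (mv 465 (both (five 5 464 497) (mv 464 (both (five 5 432 433) (mv 593 (both (five 4 464 561) (five 4 496 625))))))) (mv 465 (both (five 5 464 497) (mv 464 (both (five 5 432 433) (mv 591 (both (five 6 463 559) (five 6 495 623)))))))))) (both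 (mv 592 (both (mv 623 (both (five 6 495 591) (mv 624 (both (five 6 527 655) (mv 625 (both (five 4 496 593) (five 4 528 657))))))) (mv 495 (both (five 7 463 463) (mv 497 (both (five 5 464 465) (mv 526 (both (five 2 493 494) (five 1 493 527))))))))) (both (mv 464 (both (mv 433 (both (five 5 432 465) (mv 432 (both (five 5 400 401) (mv 559 (both (five 6 431 527) (five 6 463 591))))))) (both (mv 431 (both (five 7 431 463) (mv 432 (both (five 7 399 399) (mv 559 (both (five 6 431 527) (five 6 463 591))))))) (mv 463 (both (five 7 431 431) (mv 462 (both (mv 461 (both (five 0 461 497) (mv 428 (both (five 3 428 429) (mv 460 (both (five 3 427 427) (five 0 460 495))))))) (both (mv 465 (both (five 5 432 433) (mv 429 (both (five 3 429 430) (mv 493 (both (five 2 461 494) (mv 498 (both (five 0 462 497) (mv 466 (both (five 0 463 499) (mv 435 (both (five 1 431 434) (mv 467 (both (five 1 432 436) (five 2 463 495))))))))))))))) (both (mv 465 (both (five 5 432 433) (mv 429 (both (five 3 429 430) (mv 428 (both (five 3 428 461) (mv 494 (both (five 2 461 493) (mv 466 (both (five 2 462 495) (mv 435 (both (five 1 431 434) (mv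 467 (both (five 1 432 436) (mv 499 (both (five 0 463 498) (five 0 464 500))))))))))))))))) (mv 433 (both (five 5 432 465) (mv 461 (both (five 0 461 497) (mv 493 (both (five 2 460 492) (mv 430 (both (five 5 429 557) (mv 398 (both (five 6 365 366) (five 6 397 494)))))))))))))))))))) (both (mv 592 (both (mv 623 (both (five 6 495 591) (mv 624 (both (five 6 527 655) (mv 625 (both (five 4 496 593) (five 4 528 657))))))) (both (mv 463 (both (five 7 463 495) (mv 464 (both (five 7 431 431) (mv 593 (both (five 4 464 561) (five 4 496 625))))))) (mv 463 (both (five 7 463 495) (mv 464 (both (five 7 431 431) (mv 591 (both (five 6 463 559) (five 6 495 623)))))))))) (mv 464 (both (mv 465 (both (five 5 432 433) (mv 592 (both (five 5 464 497) (mv 593 (both (five 4 464 561) (five 4 496 625))))))) (both (mv 463 (both (five 7 431 431) (mv 592 (both (five 7 463 495) (mv 593 (both (five 4 464 561) (five 4 496 625))))))) (mv 431 (both (five 7 431 463) (mv 432 (both (five 7 399 399) (mv 433 (both (five 5 400 401) (five 5 432 465))))))))))))))) (both (mv 527 (both (mv 526 (both (five 1 493 497) (mv 492 (both (five 3 492 493)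 (mv 524 (both (five 3 491 491) (mv 560 (both (five 0 524 559) (five 0 525 561))))))))) (both (mv 464 (both (mv 559 (both (five 6 431 432) (mv 591 (both (five 6 463 560) (five 5 495 623))))) (both (mv 560 (both (mv 465 (both (five 5 432 433) (mv 592 (both (five 5 464 497) (mv 593 (both (five 4 464 561) (five 4 496 625))))))) (both (mv 559 (both (five 6 463 591) (mv 593 (both (five 4 464 561) (mv 592 (both (five 4 496 625) (mv 624 (both (five 7 495 495) (five 7 527 656))))))))) (both (mv 465 (both (five 5 432 433) (mv 591 (both (five 6 463 559) (mv 592 (both (five 5 464 497) (five 6 495 623))))))) (mv 465 (both (five 5 432 433) (mv 559 (both (five 6 463 591) (mv 561 (both (five 4 464 593) (mv 562 (both (five 3 527 563) (mv 530 (both (five 1 527 531) (mv 594 (both (five 0 559 595) (mv 498 (both (five 7 465 497) (mv 467 (both (five 5 466 499) (mv 466 (both (five 5 434 435) (five 2 463 495))))))))))))))))))))))) (both (mv 432 (both (mv 399 (both (five 7 399 431) (mv 400 (both (five 7 367 367) (mv 401 (both (five 5 368 369) (five 5 400 433))))))) (both (mv 399 (both (five 7 399 431) (mv 400 (both (five 7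 367 367) (five 6 399 495))))) (mv 433 (both (five 5 400 401) (mv 560 (both (five 5 432 465) (mv 593 (both (five 4 464 561) (mv 592 (both (five 4 496 625) (mv 623 (both (five 6 495 591) (mv 624 (both (five 7 495 495) (five 6 527 655)))))))))))))))) (mv 432 (both (five 6 431 559) (mv 399 (both (five 7 399 431) (mv 400 (both (five 7 367 367) (five 6 399 495))))))))))) (both (mv 526 (both (mv 492 (both (five 3 492 493) (mv 524 (both (five 3 491 491) (five 1 492 495))))) (both (mv 464 (both (mv 559 (both (five 6 431 432) (mv 591 (both (five 6 463 560) (five 5 495 623))))) (both (mv 432 (both (five 6 431 559) (mv 399 (both (five 7 399 431) (mv 400 (both (five 7 367 367) (five 6 399 495))))))) (both (mv 432 (both (mv 399 (both (five 7 399 431) (mv 400 (both (five 7 367 367) (mv 401 (both (five 5 368 369) (five 5 400 433))))))) (both (mv 399 (both (five 7 399 431) (mv 400 (both (five 7 367 367) (five 6 399 495))))) (mv 433 (both (five 5 400 401) (mv 560 (both (five 5 432 465) (mv 593 (both (five 4 464 561) (mv 592 (both (five 4 496 625) (mv 623 (both (five 6 495 591) (mv 624 (both (five 7 495 495) (five 6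 527 655)))))))))))))))) (mv 492 (both (five 3 492 493) (mv 560 (both (five 0 525 561) (mv 433 (both (five 5 432 465) (mv 591 (both (five 6 463 559) (mv 592 (both (five 6 495 623) (mv 624 (both (five 7 495 495) (mv 625 (both (five 4 496 593) (five 4 528 657))))))))))))))))))) (both (mv 495 (both (five 1 492 524) (mv 560 (both (five 0 525 561) (mv 592 (both (five 7 495 624) (mv 591 (both (five 6 495 623) (mv 464 (both (five 5 463 559) (mv 432 (both (five 6 399 400) (mv 433 (both (five 5 400 401) (five 5 432 465))))))))))))))) (mv 492 (both (five 3 492 493) (mv 524 (both (five 3 491 491) (mv 560 (both (five 0 524 559) (five 0 525 561))))))))))) (mv 526 (both (five 1 493 497) (mv 492 (both (five 3 492 493) (mv 524 (both (five 3 491 491) (five 1 492 495))))))))))) (both (mv 495 (both (mv 526 (both (mv 497 (both (five 2 493 494) (five 1 493 527))) (both (mv 494 (both (five 2 493 497) (mv 524 (both (five 2 492 493) (five 1 491 523))))) (both (mv 524 (both (five 1 492 527) (mv 494 (both (five 2 492 493) (five 1 491 523))))) (mv 527 (both (five 1 493 497) (five 1 492 524))))))) (both (mv 494 (both (mv 493 (both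 (five 2 492 524) (mv 460 (both (five 3 460 461) (mv 492 (both (five 3 459 459) (five 0 492 527))))))) (both (mv 497 (both (mv 462 (both (five 3 461 461) (mv 498 (both (five 3 462 463) (mv 499 (both (five 2 495 527) (mv 531 (both (five 0 495 530) (five 0 496 532))))))))) (both (mv 466 (both (five 1 462 465) (mv 498 (both (five 1 463 467) (mv 499 (both (five 2 495 527) (mv 531 (both (five 0 495 530) (five 0 496 532))))))))) (mv 461 (both (five 3 461 462) (mv 465 (both (five 1 462 466) (mv 433 (both (five 6 400 401) (mv 560 (both (five 5 432 464) (five 5 464 592)))))))))))) (both (mv 493 (both (five 2 492 524) (mv 464 (both (five 1 461 465) (mv 492 (both (five 1 460 463) (five 0 492 527))))))) (mv 493 (both (five 2 492 524) (mv 460 (both (five 3 460 461) (mv 464 (both (five 1 461 465) (mv 492 (both (five 3 459 459) (five 1 460 463))))))))))))) (both (mv 560 (both (mv 463 (both (five 7 463 592) (mv 431 (both (five 4 399 399) (five 7 431 464))))) (both (mv 592 (both (mv 624 (both (five 7 495 527) (mv 625 (both (five 4 496 593) (five 4 528 657))))) (both (mv 623 (both (five 6 495 591) (mv 624 (both (five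 6 527 655) (mv 625 (both (five 4 496 593) (five 4 528 657))))))) (both (mv 591 (both (five 6 495 623) (mv 593 (both (five 4 496 625) (mv 464 (both (five 4 464 561) (mv 433 (both (five 5 432 465) (mv 432 (both (five 5 400 401) (mv 399 (both (five 7 399 431) (mv 400 (both (five 7 367 367) (five 6 399 527))))))))))))))) (mv 623 (both (five 6 495 591) (mv 624 (both (five 7 495 527) (five 6 527 655))))))))) (both (mv 464 (both (mv 433 (both (five 5 432 465) (mv 432 (both (five 5 400 401) (mv 399 (both (five 7 399 431) (mv 400 (both (five 7 367 367) (five 6 399 527))))))))) (both (mv 433 (both (five 5 432 465) (mv 432 (both (five 5 400 401) (mv 400 (both (five 6 399 527) (mv 367 (both (five 7 367 399) (mv 368 (both (five 7 335 335) (five 6 367 463))))))))))) (both (mv 431 (both (five 7 431 463) (mv 432 (both (five 7 399 399) (mv 527 (both (five 6 399 400) (mv 561 (both (five 0 525 526) (five 4 464 593))))))))) (mv 463 (both (five 7 431 431) (mv 465 (both (five 5 432 433) (mv 466 (both (five 2 463 467) (five 2 462 494))))))))))) (mv 592 (both (five 7 463 463) (mv 624 (both (five 7 495 527) (mv 625 (both (five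 4 496 593) (five 4 528 657))))))))))) (both (mv 494 (both (mv 497 (both (five 2 493 526) (mv 462 (both (five 3 461 461) (mv 463 (both (five 3 462 498) (mv 399 (both (five 4 399 431) (mv 465 (both (five 1 462 466) (mv 433 (both (five 6 400 401) (mv 464 (both (five 1 430 434) (mv 430 (both (five 3 429 429) (mv 398 (both (five 4 366 366) (five 5 366 367))))))))))))))))))) (both (mv 493 (both (five 2 492 524) (mv 460 (both (five 3 460 461) (mv 464 (both (five 1 461 465) (mv 492 (both (five 3 459 459) (five 1 460 463))))))))) (both (mv 493 (both (five 2 492 524) (mv 465 (both (five 1 461 464) (mv 497 (both (five 1 462 466) (five 2 493 526))))))) (mv 493 (both (five 2 492 524) (mv 460 (both (five 3 460 461) (mv 492 (both (five 3 459 459) (mv 396 (both (five 4 396 428) (mv 526 (both (five 2 493 497) (mv 491 (both (five 0 490 490) (mv 462 (both (five 1 459 463) (mv 430 (both (five 6 429 557) (mv 397 (both (five 7 397 429) (mv 398 (both (five 7 365 365) (mv 399 (both (five 5 366 367) (five 5 398 431))))))))))))))))))))))))))) (mv 560 (both (mv 463 (both (five 7 463 592) (mv 431 (both (five 4 399 399) (five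 7 431 464))))) (both (mv 464 (both (mv 433 (both (five 5 432 465) (mv 432 (both (five 5 400 401) (mv 399 (both (five 7 399 431) (mv 400 (both (five 7 367 367) (five 6 399 527))))))))) (both (mv 433 (both (five 5 432 465) (mv 432 (both (five 5 400 401) (mv 400 (both (five 6 399 527) (mv 367 (both (five 7 367 399) (mv 368 (both (five 7 335 335) (five 6 367 463))))))))))) (both (mv 431 (both (five 7 431 463) (mv 432 (both (five 7 399 399) (mv 527 (both (five 6 399 400) (mv 561 (both (five 0 525 526) (five 4 464 593))))))))) (mv 463 (both (five 7 431 431) (mv 465 (both (five 5 432 433) (mv 466 (both (five 2 463 467) (mv 434 (both (five 1 431 435) (mv 498 (both (five 0 463 499) (mv 462 (both (five 0 462 497) (mv 429 (both (five 3 429 430) (mv 461 (both (five 3 428 428) (five 0 460 460))))))))))))))))))))) (both (mv 592 (both (mv 624 (both (five 7 495 527) (mv 625 (both (five 4 496 593) (five 4 528 657))))) (both (mv 623 (both (five 6 495 591) (mv 624 (both (five 6 527 655) (mv 625 (both (five 4 496 593) (five 4 528 657))))))) (both (mv 591 (both (five 6 495 623) (mv 593 (both (five 4 496 625) (mv 464 (both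 (five 4 464 561) (mv 433 (both (five 5 432 465) (mv 432 (both (five 5 400 401) (mv 399 (both (five 7 399 431) (mv 400 (both (five 7 367 367) (five 6 399 527))))))))))))))) (mv 623 (both (five 6 495 591) (mv 624 (both (five 7 495 527) (five 6 527 655))))))))) (mv 592 (both (five 7 463 463) (mv 624 (both (five 7 495 527) (mv 625 (both (five 4 496 593) (five 4 528 657)))))))))))))))) (both (mv 560 (both (mv 592 (both (mv 623 (both (five 6 495 591) (mv 624 (both (five 6 527 655) (mv 625 (both (five 4 496 593) (five 4 528 657))))))) (both (mv 463 (both (five 7 463 495) (mv 464 (both (five 7 431 431) (mv 593 (both (five 4 464 561) (five 4 496 625))))))) (mv 463 (both (five 7 463 495) (mv 464 (both (five 7 431 431) (mv 591 (both (five 6 463 559) (five 6 495 623)))))))))) (both (mv 464 (both (mv 431 (both (five 7 431 463) (mv 432 (both (five 7 399 399) (mv 559 (both (five 6 431 527) (five 6 463 591))))))) (both (mv 431 (both (five 7 431 463) (mv 432 (both (five 7 399 399) (mv 401 (both (five 5 400 433) (mv 400 (both (five 5 368 369) (mv 527 (both (five 6 399 495) (mv 561 (both (five 0 525 526) (five 4 464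 593))))))))))))) (mv 559 (both (five 6 463 591) (mv 561 (both (five 4 464 593) (mv 558 (both (five 3 525 526) (mv 557 (both (five 3 524 524) (mv 589 (both (five 2 556 588) (five 2 557 590)))))))))))))) (both (mv 592 (both (mv 623 (both (five 6 495 591) (mv 624 (both (five 6 527 655) (mv 625 (both (five 4 496 593) (five 4 528 657))))))) (both (mv 495 (both (five 7 463 463) (mv 624 (both (five 7 495 527) (mv 625 (both (five 4 496 593) (five 4 528 657))))))) (both (mv 495 (both (five 7 463 463) (mv 623 (both (five 6 495 591) (mv 624 (both (five 7 495 527) (five 6 527 655))))))) (mv 591 (both (five 6 495 623) (mv 590 (both (mv 463 (both (five 7 463 495) (mv 593 (both (five 4 496 625) (mv 557 (both (five 3 557 558) (mv 621 (both (five 2 589 622) (mv 589 (both (five 2 588 620) (mv 492 (both (five 7 492 524) (mv 493 (both (five 7 460 460) (mv 494 (both (five 5 461 462) (five 5 493 526))))))))))))))))) (both (mv 463 (both (five 7 463 495) (mv 593 (both (five 4 496 625) (mv 557 (both (five 3 557 558) (mv 562 (both (five 1 558 561) (mv 594 (both (five 1 559 563) (mv 595 (both (five 3 559 559) (mv 627 (both (five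 0 591 626) (five 0 592 628))))))))))))))) (mv 561 (both (five 1 557 589) (mv 562 (both (five 2 558 559) (five 2 559 563)))))))))))))) (both (mv 592 (both (mv 623 (both (five 6 495 591) (mv 624 (both (five 6 527 655) (mv 625 (both (five 4 496 593) (five 4 528 657))))))) (both (mv 495 (both (five 7 463 463) (mv 623 (both (five 6 495 591) (mv 624 (both (five 7 495 527) (five 6 527 655))))))) (mv 463 (both (five 7 463 495) (mv 464 (both (five 7 431 431) (mv 593 (both (five 4 464 561) (five 4 496 625)))))))))) (both (mv 592 (both (mv 623 (both (five 6 495 591) (mv 624 (both (five 6 527 655) (mv 625 (both (five 4 496 593) (five 4 528 657))))))) (both (mv 495 (both (five 7 463 463) (mv 624 (both (five 7 495 527) (mv 625 (both (five 4 496 593) (five 4 528 657))))))) (mv 463 (both (five 7 463 495) (mv 464 (both (five 7 431 431) (mv 591 (both (five 6 463 559) (five 6 495 623)))))))))) (both (mv 527 (both (mv 526 (both (five 1 493 497) (five 0 525 561))) (both (mv 593 (both (mv 464 (both (five 4 464 561) (mv 559 (both (five 6 431 432) (five 6 463 591))))) (both (mv 592 (both (five 4 496 625) (mv 623 (both (five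 6 495 591) (mv 624 (both (five 6 527 655) (mv 559 (both (five 7 527 656) (mv 558 (both (five 0 557 557) (mv 594 (both (five 0 558 561) (five 3 559 595))))))))))))) (both (mv 592 (both (five 4 496 625) (mv 591 (both (five 6 495 623) (mv 559 (both (five 6 463 464) (mv 558 (both (five 0 557 557) (five 3 558 594))))))))) (mv 561 (both (five 4 464 464) (mv 625 (both (five 4 496 592) (five 7 528 657))))))))) (mv 526 (both (five 1 493 497) (mv 492 (both (five 3 492 493) (mv 524 (both (five 3 491 491) (five 0 524 559)))))))))) (both (mv 592 (both (mv 463 (both (five 7 463 495) (mv 464 (both (five 7 431 431) (mv 593 (both (five 4 464 561) (five 4 496 625))))))) (both (mv 625 (both (five 4 496 593) (mv 624 (both (five 4 528 657) (mv 655 (both (five 6 527 623) (mv 656 (both (five 6 559 687) (mv 527 (both (five 7 527 559) (mv 526 (both (five 1 493 497) (five 0 525 561))))))))))))) (mv 495 (both (five 7 463 463) (mv 526 (both (mv 497 (both (five 2 493 494) (five 1 493 527))) (both (mv 494 (both (five 2 493 497) (mv 524 (both (five 2 492 493) (five 1 491 523))))) (both (mv 524 (both (five 1 492 527) (mv 494 (both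 (five 2 492 493) (five 1 491 523))))) (mv 527 (both (five 1 493 497) (five 1 492 524)))))))))))) (mv 464 (both (mv 463 (both (five 7 431 431) (mv 591 (both (five 6 463 559) (mv 592 (both (five 7 463 495) (five 6 495 623))))))) (both (mv 431 (both (five 7 431 463) (mv 432 (both (five 7 399 399) (mv 401 (both (five 5 400 433) (mv 400 (both (five 5 368 369) (mv 402 (both (five 2 399 403) (mv 429 (both (five 1 397 430) (mv 527 (both (five 6 399 495) (mv 526 (both (five 1 493 497) (five 0 525 561))))))))))))))))) (mv 559 (both (five 6 463 591) (mv 527 (both (five 6 431 432) (mv 526 (both (five 1 493 497) (five 0 525 561)))))))))))))))))) (both (mv 527 (both (mv 526 (both (five 1 493 497) (mv 492 (both (five 3 492 493) (mv 524 (both (five 3 491 491) (five 1 492 495))))))) (both (mv 559 (both (mv 464 (both (five 6 431 432) (mv 591 (both (five 6 463 560) (five 5 495 623))))) (both (mv 464 (both (five 6 431 432) (mv 560 (both (mv 465 (both (five 5 432 433) (mv 592 (both (five 5 464 497) (mv 593 (both (five 4 464 561) (five 4 496 625))))))) (both (mv 465 (both (five 5 432 433) (mv 561 (both (five 4 464 593)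 (mv 562 (both (five 3 527 563) (mv 530 (both (five 1 527 531) (mv 594 (both (five 0 559 595) (mv 498 (both (five 7 465 497) (mv 467 (both (five 5 466 499) (mv 466 (both (five 5 434 435) (five 2 463 495))))))))))))))))) (both (mv 593 (both (five 4 464 561) (mv 592 (both (five 4 496 625) (mv 624 (both (five 7 495 495) (five 7 527 656))))))) (mv 465 (both (five 5 432 433) (mv 592 (both (five 5 464 497) (mv 495 (both (five 4 463 463) (five 7 495 624))))))))))))) (mv 591 (both (five 5 495 623) (mv 495 (both (mv 590 (both (five 6 494 622) (mv 558 (both (five 6 462 463) (mv 592 (both (five 4 495 624) (mv 593 (both (five 3 557 557) (five 3 558 594))))))))) (mv 494 (both (five 7 462 462) (mv 493 (both (five 0 492 492) (five 2 492 524)))))))))))) (both (mv 526 (both (mv 492 (both (five 3 492 493) (mv 524 (both (five 3 491 491) (five 1 492 495))))) (both (mv 464 (both (mv 559 (both (five 6 431 432) (mv 591 (both (five 6 463 560) (five 5 495 623))))) (both (mv 432 (both (five 6 431 559) (mv 400 (both (five 6 399 495) (mv 401 (both (five 5 368 369) (five 5 400 433))))))) (both (mv 492 (both (five 3 492 493) (mv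 560 (both (five 0 525 561) (mv 433 (both (five 5 432 465) (mv 432 (both (five 5 400 401) (mv 495 (both (five 6 399 400) (mv 592 (both (five 7 463 463) (five 7 495 624))))))))))))) (mv 560 (both (five 0 525 561) (mv 433 (both (five 5 432 465) (mv 591 (both (five 6 463 559) (mv 592 (both (five 6 495 623) (mv 624 (both (five 7 495 495) (mv 625 (both (five 4 496 593) (five 4 528 657))))))))))))))))) (both (mv 492 (both (five 3 492 493) (mv 524 (both (five 3 491 491) (mv 560 (both (five 0 524 559) (five 0 525 561))))))) (mv 495 (both (five 1 492 524) (mv 560 (both (five 0 525 561) (mv 592 (both (five 7 495 624) (mv 591 (both (five 6 495 623) (mv 464 (both (five 5 463 559) (mv 432 (both (five 6 399 400) (mv 433 (both (five 5 400 401) (five 5 432 465))))))))))))))))))) (both (mv 526 (both (five 1 493 497) (mv 492 (both (five 3 492 493) (mv 524 (both (five 3 491 491) (mv 560 (both (five 0 524 559) (five 0 525 561))))))))) (mv 464 (both (mv 559 (both (five 6 431 432) (mv 591 (both (five 6 463 560) (five 5 495 623))))) (both (mv 526 (both (five 1 493 497) (mv 560 (both (five 0 525 561) (mv 433 (both (five 5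 432 465) (mv 432 (both (five 5 400 401) (mv 495 (both (five 6 399 400) (mv 592 (both (five 7 463 463) (five 7 495 624))))))))))))) (both (mv 560 (both (mv 465 (both (five 5 432 433) (mv 592 (both (five 5 464 497) (mv 593 (both (five 4 464 561) (five 4 496 625))))))) (both (mv 559 (both (five 6 463 591) (mv 593 (both (five 4 464 561) (mv 592 (both (five 4 496 625) (mv 624 (both (five 7 495 495) (five 7 527 656))))))))) (both (mv 465 (both (five 5 432 433) (mv 591 (both (five 6 463 559) (mv 592 (both (five 5 464 497) (five 6 495 623))))))) (mv 465 (both (five 5 432 433) (mv 559 (both (five 6 463 591) (mv 561 (both (five 4 464 593) (mv 562 (both (five 3 527 563) (mv 530 (both (five 1 527 531) (mv 594 (both (five 0 559 595) (mv 498 (both (five 7 465 497) (mv 467 (both (five 5 466 499) (mv 466 (both (five 5 434 435) (five 2 463 495))))))))))))))))))))))) (mv 432 (both (five 6 431 559) (mv 400 (both (five 6 399 495) (mv 401 (both (five 5 368 369) (five 5 400 433)))))))))))))))) (both (mv 497 (both (mv 526 (both (five 1 493 527) (mv 495 (both (five 2 493 494) (mv 463 (both (mv 431 (both (five 4 399 399) (mv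 560 (both (five 7 431 464) (five 7 463 592))))) (both (mv 462 (both (five 3 462 498) (mv 461 (both (five 0 460 460) (five 0 461 464))))) (mv 399 (both (five 4 399 431) (mv 498 (both (five 3 462 462) (mv 467 (both (five 1 463 466) (mv 499 (both (five 1 464 468) (mv 531 (both (five 0 495 530) (five 0 496 532)))))))))))))))))) (both (mv 498 (both (mv 495 (both (mv 462 (both (five 3 462 463) (mv 466 (both (five 1 463 467) (mv 494 (both (five 3 461 461) (five 1 462 465))))))) (both (mv 466 (both (five 1 463 467) (mv 465 (both (five 1 462 494) (mv 433 (both (five 6 400 401) (mv 560 (both (five 5 432 464) (five 5 464 592))))))))) (mv 463 (both (five 3 462 462) (mv 431 (both (five 4 399 399) (mv 560 (both (five 7 431 464) (five 7 463 592)))))))))) (both (mv 499 (both (five 2 495 527) (mv 468 (both (five 1 464 467) (mv 500 (both (five 1 465 469) (mv 532 (both (five 0 496 531) (five 0 497 533))))))))) (mv 499 (both (five 2 495 527) (mv 463 (both (five 3 463 464) (mv 495 (both (five 3 462 462) (mv 531 (both (five 0 495 530) (five 0 496 532)))))))))))) (both (mv 495 (both (mv 494 (both (five 2 493 526) (mv 461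 (both (five 3 461 462) (mv 493 (both (five 3 460 460) (five 2 492 524))))))) (both (mv 463 (both (mv 431 (both (five 4 399 399) (mv 560 (both (five 7 431 464) (five 7 463 592))))) (both (mv 462 (both (five 3 462 498) (mv 461 (both (five 0 460 460) (five 0 461 464))))) (mv 399 (both (five 4 399 431) (mv 498 (both (five 3 462 462) (mv 467 (both (five 1 463 466) (mv 499 (both (five 1 464 468) (mv 531 (both (five 0 495 530) (five 0 496 532)))))))))))))) (mv 494 (both (five 2 493 526) (mv 465 (both (five 1 462 466) (mv 433 (both (five 6 400 401) (mv 560 (both (five 5 432 464) (five 5 464 592)))))))))))) (both (mv 464 (both (mv 527 (both (five 1 493 526) (mv 432 (both (five 6 431 559) (mv 399 (both (five 7 399 431) (mv 400 (both (five 7 367 367) (mv 401 (both (five 5 368 369) (five 5 400 433))))))))))) (both (mv 463 (both (mv 462 (both (five 0 461 461) (mv 498 (both (five 0 462 465) (five 3 463 499))))) (mv 431 (both (five 7 431 560) (mv 399 (both (five 4 367 367) (five 7 399 432))))))) (both (mv 560 (both (mv 465 (both (five 5 432 433) (five 5 464 592))) (mv 463 (both (five 7 431 431) (mv 461 (both (five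 0 461 462) (mv 498 (both (five 3 463 499) (mv 526 (both (five 1 493 527) (mv 561 (both (five 4 464 593) (mv 558 (both (five 3 525 559) (mv 493 (both (five 4 429 429) (mv 590 (both (five 7 461 494) (five 7 493 622))))))))))))))))))) (mv 527 (both (five 1 493 526) (mv 432 (both (five 6 431 559) (mv 401 (both (five 5 400 433) (mv 400 (both (five 5 368 369) (mv 367 (both (five 7 367 399) (mv 368 (both (five 7 335 335) (five 4 368 465))))))))))))))))) (both (mv 560 (both (mv 465 (both (five 5 464 592) (mv 433 (both (five 6 400 401) (five 5 432 464))))) (both (mv 464 (both (mv 431 (both (five 7 431 463) (mv 432 (both (five 7 399 399) (mv 433 (both (five 5 400 401) (five 5 432 465))))))) (both (mv 431 (both (five 7 431 463) (mv 399 (both (five 7 399 432) (mv 526 (both (five 1 493 527) (mv 494 (both (five 2 493 495) (mv 462 (both (five 5 398 430) (mv 561 (both (five 4 464 593) (mv 558 (both (five 3 525 559) (mv 461 (both (five 7 429 429) (mv 589 (both (five 6 461 557) (mv 590 (both (five 7 461 493) (five 6 493 621))))))))))))))))))))) (both (mv 433 (both (five 5 432 465) (mv 432 (both (five 5 400 401) (mv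 527 (both (five 6 431 559) (mv 561 (both (five 0 525 526) (five 4 464 593))))))))) (mv 433 (both (five 5 432 465) (mv 463 (both (five 7 431 431) (mv 461 (both (five 0 461 462) (mv 526 (both (five 1 493 527) (mv 561 (both (five 4 464 593) (mv 558 (both (five 3 525 559) (mv 493 (both (five 4 429 429) (mv 590 (both (five 7 461 494) (five 7 493 622))))))))))))))))))))) (both (mv 526 (both (five 1 493 527) (mv 495 (both (five 2 493 494) (mv 463 (both (five 7 463 592) (mv 431 (both (five 4 399 399) (five 7 431 464))))))))) (mv 526 (both (five 1 493 527) (mv 495 (both (five 2 493 494) (mv 592 (both (five 7 463 463) (five 5 464 465))))))))))) (both (mv 527 (both (five 1 493 526) (mv 498 (both (five 2 495 499) (mv 495 (both (mv 466 (both (five 1 463 467) (mv 465 (both (five 1 462 494) (mv 433 (both (five 6 400 401) (mv 530 (both (five 0 495 531) (five 7 433 562))))))))) (both (mv 462 (both (five 3 462 463) (mv 494 (both (five 3 461 461) (mv 493 (both (five 0 492 492) (five 2 492 524))))))) (mv 463 (both (five 3 462 462) (mv 431 (both (five 4 399 399) (mv 398 (both (five 7 398 430) (mv 432 (both (five 5 399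 400) (mv 464 (both (five 5 431 559) (mv 433 (both (five 5 400 401) (mv 434 (both (five 2 431 435) (mv 402 (both (five 1 399 403) (mv 466 (both (five 0 431 467) (mv 465 (both (five 6 369 370) (mv 530 (both (five 0 495 531) (five 7 433 562)))))))))))))))))))))))))))))) (both (mv 527 (both (five 1 493 526) (mv 498 (both (five 2 495 499) (mv 495 (both (mv 466 (both (five 1 463 467) (mv 465 (both (five 1 462 494) (mv 433 (both (five 6 400 401) (mv 530 (both (five 0 495 531) (five 7 433 562))))))))) (mv 463 (both (five 3 462 462) (mv 431 (both (five 4 399 399) (five 4 431 560))))))))))) (both (mv 560 (both (mv 465 (both (five 5 464 592) (mv 433 (both (five 6 400 401) (five 5 432 464))))) (both (mv 464 (both (mv 431 (both (five 7 431 463) (mv 432 (both (five 7 399 399) (mv 433 (both (five 5 400 401) (five 5 432 465))))))) (both (mv 433 (both (five 5 432 465) (mv 432 (both (five 5 400 401) (mv 527 (both (five 6 431 559) (mv 561 (both (five 0 525 526) (five 4 464 593))))))))) (both (mv 431 (both (five 7 431 463) (mv 432 (both (five 7 399 399) (mv 527 (both (five 1 493 526) (five 6 431 559))))))) (mv 431 (both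 (five 7 431 463) (mv 465 (both (five 5 432 433) (mv 527 (both (five 1 493 526) (mv 498 (both (five 2 495 499) (mv 561 (both (five 4 464 593) (mv 562 (both (five 3 527 563) (mv 530 (both (five 7 465 594) (mv 531 (both (five 0 495 495) (five 1 527 559))))))))))))))))))))) (both (mv 464 (both (mv 463 (both (five 7 431 431) (mv 592 (both (five 7 463 495) (mv 593 (both (five 4 464 561) (five 4 496 625))))))) (both (mv 527 (both (five 1 493 526) (mv 432 (both (five 6 431 559) (mv 399 (both (five 7 399 431) (mv 400 (both (five 7 367 367) (mv 401 (both (five 5 368 369) (five 5 400 433))))))))))) (mv 527 (both (five 1 493 526) (mv 432 (both (five 6 431 559) (mv 400 (both (five 6 399 495) (mv 401 (both (five 5 368 369) (five 5 400 433)))))))))))) (mv 527 (both (five 1 493 526) (mv 498 (both (five 2 495 499) (mv 592 (both (five 5 464 465) (mv 624 (both (five 7 495 495) (mv 625 (both (five 4 496 593) (five 4 528 657))))))))))))))) (mv 465 (both (mv 433 (both (five 6 400 401) (mv 560 (both (five 5 432 464) (five 5 464 592))))) (both (mv 495 (both (mv 527 (both (five 1 493 526) (mv 498 (both (five 2 495 499) (mv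 466 (both (five 1 463 467) (mv 530 (both (five 0 495 531) (mv 560 (both (five 5 464 592) (mv 562 (both (five 7 465 594) (mv 561 (both (five 3 527 563) (five 6 465 593))))))))))))))) (both (mv 466 (both (five 1 462 494) (mv 498 (both (five 1 463 467) (mv 499 (both (five 2 495 527) (mv 531 (both (five 0 495 530) (five 0 496 532))))))))) (mv 494 (both (five 2 493 526) (mv 461 (both (five 3 461 462) (mv 493 (both (five 3 460 460) (five 2 492 524)))))))))) (mv 495 (both (mv 433 (both (five 6 400 401) (mv 527 (both (five 1 493 526) (mv 498 (both (five 2 495 499) (mv 466 (both (five 1 463 467) (mv 530 (both (five 0 495 531) (five 7 433 562))))))))))) (both (mv 466 (both (five 1 462 494) (mv 498 (both (five 1 463 467) (mv 499 (both (five 2 495 527) (mv 531 (both (five 0 495 530) (five 0 496 532))))))))) (mv 494 (both (five 2 493 526) (mv 461 (both (five 3 461 462) (mv 493 (both (five 3 460 460) (five 2 492 524)))))))))))))))))))))) (mv 560 (both (mv 592 (both (mv 623 (both (five 6 495 591) (mv 624 (both (five 6 527 655) (mv 625 (both (five 4 496 593) (five 4 528 657))))))) (both (mv 463 (both (five 7 463 495)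 (mv 464 (both (five 7 431 431) (mv 593 (both (five 4 464 561) (five 4 496 625))))))) (mv 463 (both (five 7 463 495) (mv 464 (both (five 7 431 431) (mv 591 (both (five 6 463 559) (five 6 495 623)))))))))) (both (mv 559 (both (mv 526 (both (mv 527 (both (five 1 493 497) (five 0 525 561))) (both (mv 558 (both (five 3 525 561) (mv 524 (both (five 0 523 523) (five 3 524 557))))) (mv 527 (both (five 1 493 497) (mv 492 (both (five 3 492 493) (mv 524 (both (five 3 491 491) (five 1 492 495)))))))))) (both (mv 464 (both (five 6 463 591) (mv 561 (both (five 4 464 593) (mv 558 (both (five 3 525 526) (mv 557 (both (five 3 524 524) (mv 589 (both (five 2 556 588) (five 2 557 590))))))))))) (mv 464 (both (five 6 463 591) (mv 431 (both (five 7 431 463) (mv 432 (both (five 7 399 399) (five 6 431 527)))))))))) (both (mv 592 (both (mv 623 (both (five 6 495 591) (mv 624 (both (five 6 527 655) (mv 625 (both (five 4 496 593) (five 4 528 657))))))) (mv 495 (both (five 7 463 463) (mv 497 (both (five 5 464 465) (mv 526 (both (five 2 493 494) (five 1 493 527))))))))) (both (mv 527 (both (mv 526 (both (five 1 493 497) (five 0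 525 561))) (both (mv 593 (both (mv 464 (both (five 4 464 561) (mv 559 (both (five 6 431 432) (five 6 463 591))))) (both (mv 592 (both (five 4 496 625) (mv 623 (both (five 6 495 591) (mv 624 (both (five 6 527 655) (mv 559 (both (five 7 527 656) (mv 558 (both (five 0 557 557) (mv 594 (both (five 0 558 561) (five 3 559 595))))))))))))) (both (mv 592 (both (five 4 496 625) (mv 591 (both (five 6 495 623) (mv 559 (both (five 6 463 464) (mv 558 (both (five 0 557 557) (five 3 558 594))))))))) (mv 561 (both (five 4 464 464) (mv 625 (both (five 4 496 592) (five 7 528 657))))))))) (mv 526 (both (five 1 493 497) (mv 492 (both (five 3 492 493) (mv 524 (both (five 3 491 491) (five 0 524 559)))))))))) (both (mv 592 (both (mv 463 (both (five 7 463 495) (mv 464 (both (five 7 431 431) (mv 593 (both (five 4 464 561) (five 4 496 625))))))) (both (mv 625 (both (five 4 496 593) (mv 624 (both (five 4 528 657) (mv 655 (both (five 6 527 623) (mv 656 (both (five 6 559 687) (mv 527 (both (five 7 527 559) (mv 526 (both (five 1 493 497) (five 0 525 561))))))))))))) (mv 495 (both (five 7 463 463) (mv 526 (both (mv 497 (both (five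 2 493 494) (five 1 493 527))) (both (mv 494 (both (five 2 493 497) (mv 524 (both (five 2 492 493) (five 1 491 523))))) (both (mv 524 (both (five 1 492 527) (mv 494 (both (five 2 492 493) (five 1 491 523))))) (mv 527 (both (five 1 493 497) (five 1 492 524)))))))))))) (mv 592 (both (mv 463 (both (five 7 463 495) (mv 464 (both (five 7 431 431) (mv 591 (both (five 6 463 559) (five 6 495 623))))))) (both (mv 497 (both (five 5 464 465) (mv 526 (both (five 1 493 527) (mv 591 (both (five 6 495 623) (mv 559 (both (five 6 463 464) (mv 558 (both (five 3 525 561) (mv 524 (both (five 0 523 523) (five 3 524 557))))))))))))) (mv 495 (both (five 7 463 463) (mv 497 (both (five 5 464 465) (mv 526 (both (five 2 493 494) (five 1 493 527)))))))))))))))))))))))))))))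

theorem L77 : W (S 988530863058807798957393715067720623286798683220635978952802738122718218409262471505648588255249455916730668840373243557345566271959196709010660073920568229888) (S 642106434378369082766301447159175773087154117474833962073826382905495249547224404133053149344605762952807055794048067177067460437263597487956964834825264816137237912493903789509620470882000837904810186375168) :=
  check_sound Env.nil (x := 496) (t := tL77) (by decide +kernel)

def tL78 : T :=
  (both (mv 461 (both (mv 462 (both (mv 463 (both (mv 464 (both (mv 428 (both (five 3 428 429) (mv 496 (both (five 0 461 497) (mv 431 (both (five 7 431 560) (mv 399 (both (five 4 367 367) (five 7 399 432))))))))) (both (mv 428 (both (five 3 428 429) (mv 496 (both (five 0 461 497) (mv 560 (both (five 7 431 431) (mv 433 (both (five 5 432 465) (mv 559 (both (five 6 463 591) (mv 561 (both (five 3 525 558) (five 4 464 593))))))))))))) (both (mv 432 (both (five 1 429 433) (mv 496 (both (five 0 461 497) (mv 431 (both (five 7 399 399) (five 7 431 560))))))) (mv 429 (both (five 3 428 428) (mv 433 (both (five 1 429 432) (mv 465 (both (five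 3 429 430) (five 1 430 434))))))))))) (both (mv 460 (both (mv 427 (both (five 3 427 428) (mv 431 (both (five 1 428 432) (mv 459 (both (five 3 426 426) (five 1 427 430))))))) (both (mv 427 (both (five 3 427 428) (mv 459 (both (five 3 426 426) (mv 491 (both (five 2 458 490) (five 2 459 492))))))) (both (mv 431 (both (five 1 428 432) (mv 459 (both (five 1 427 430) (mv 491 (both (five 2 458 490) (five 2 459 492))))))) (mv 428 (both (five 3 427 427) (mv 431 (both (five 1 428 432) (mv 492 (both (five 2 459 491) (mv 495 (both (five 0 460 496) (mv 524 (both (five 4 428 557) (mv 429 (both (five 5 396 397) (five 5 428 556))))))))))))))))) (both (mv 460 (both (mv 427 (both (five 3 427 428) (mv 431 (both (five 1 428 432) (mv 459 (both (five 3 426 426) (five 1 427 430))))))) (both (mv 431 (both (five 1 428 432) (mv 459 (both (five 1 427 430) (mv 491 (both (five 2 458 490) (five 2 459 492))))))) (both (mv 427 (both (five 3 427 428) (mv 459 (both (five 3 426 426) (mv 491 (both (five 2 458 490) (five 2 459 492))))))) (mv 428 (both (five 3 427 427) (mv 429 (both (five 3 428 464) (mv 431 (both (five 1 428 432) (mv 492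 (both (five 2 459 491) (mv 397 (both (five 6 364 365) (five 5 396 524))))))))))))))) (both (mv 464 (both (mv 429 (both (five 3 428 428) (mv 433 (both (five 1 429 432) (mv 465 (both (five 3 429 430) (five 1 430 434))))))) (both (mv 428 (both (five 3 428 429) (mv 460 (both (five 3 427 427) (mv 496 (both (five 0 460 495) (five 0 461 497))))))) (mv 432 (both (five 1 429 433) (mv 496 (both (five 0 461 497) (mv 495 (both (five 0 460 460) (mv 368 (both (five 6 367 400) (mv 560 (both (five 7 463 592) (mv 559 (both (five 6 463 591) (mv 561 (both (five 3 525 558) (five 4 464 593)))))))))))))))))) (both (mv 460 (both (mv 427 (both (five 3 427 428) (mv 459 (both (five 3 426 426) (mv 491 (both (five 2 458 490) (five 2 459 492))))))) (mv 496 (both (five 0 460 495) (mv 464 (both (five 0 461 497) (mv 560 (both (five 7 431 431) (mv 433 (both (five 5 432 465) (mv 559 (both (five 6 463 591) (mv 561 (both (five 3 525 558) (five 4 464 593))))))))))))))) (mv 460 (both (mv 431 (both (five 1 428 432) (mv 459 (both (five 1 427 430) (mv 491 (both (five 2 458 490) (five 2 459 492))))))) (both (mv 496 (both (five 0 460 495) (mv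 464 (both (five 0 461 497) (mv 433 (both (five 1 429 432) (mv 465 (both (five 1 430 434) (five 5 432 560))))))))) (mv 496 (both (five 0 460 495) (mv 464 (both (five 0 461 497) (mv 560 (both (five 7 431 431) (mv 433 (both (five 5 432 465) (mv 559 (both (five 6 463 591) (mv 561 (both (five 3 525 558) (five 4 464 593)))))))))))))))))))))) (both (mv 494 (both (mv 429 (both (five 7 429 558) (mv 397 (both (five 4 365 365) (five 7 397 430))))) (both (mv 558 (both (five 7 429 429) (mv 557 (both (five 6 461 589) (mv 559 (both (five 4 462 591) (mv 524 (both (five 0 523 523) (five 3 524 560))))))))) (both (mv 430 (both (five 6 429 557) (mv 397 (both (five 7 397 429) (mv 398 (both (five 7 365 365) (mv 399 (both (five 5 366 367) (five 5 398 431))))))))) (mv 557 (both (five 6 429 430) (mv 589 (both (five 6 461 558) (five 5 493 621))))))))) (both (mv 463 (both (mv 460 (both (mv 427 (both (five 3 427 428) (mv 459 (both (five 3 426 426) (mv 491 (both (five 2 458 490) (five 2 459 492))))))) (mv 496 (both (five 0 460 495) (mv 464 (both (five 0 461 497) (mv 560 (both (five 7 431 431) (mv 433 (both (five 5 432 465) (mv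 559 (both (five 6 463 591) (mv 561 (both (five 3 525 558) (five 4 464 593))))))))))))))) (both (mv 464 (both (mv 428 (both (five 3 428 429) (mv 433 (both (five 1 429 432) (mv 465 (both (five 1 430 434) (mv 498 (both (five 0 462 497) (mv 466 (both (five 0 463 499) (mv 369 (both (five 4 369 401) (mv 494 (both (five 2 462 495) (mv 558 (both (five 5 430 431) (mv 557 (both (five 6 461 589) (mv 559 (both (five 4 462 591) (mv 524 (both (five 0 523 523) (five 3 524 560))))))))))))))))))))))) (both (mv 496 (both (five 0 461 497) (mv 431 (both (five 7 431 560) (mv 399 (both (five 4 367 367) (five 7 399 432))))))) (both (mv 429 (both (five 3 428 428) (mv 433 (both (five 1 429 432) (mv 465 (both (five 1 430 434) (mv 558 (both (five 7 429 494) (mv 560 (both (five 5 432 496) (mv 559 (both (five 3 525 561) (mv 524 (both (five 0 523 523) (five 3 524 557))))))))))))))) (both (mv 496 (both (five 0 461 497) (mv 560 (both (five 7 431 431) (mv 433 (both (five 5 432 465) (mv 559 (both (five 6 463 591) (mv 561 (both (five 3 525 558) (five 4 464 593))))))))))) (mv 428 (both (five 3 428 429) (mv 432 (both (five 1 429 433)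 (mv 496 (both (five 0 461 497) (mv 399 (both (five 7 399 431) (mv 400 (both (five 7 367 367) (mv 368 (both (five 6 367 495) (mv 369 (both (five 5 336 337) (five 5 368 401)))))))))))))))))))) (both (mv 460 (both (mv 427 (both (five 3 427 428) (mv 459 (both (five 3 426 426) (mv 491 (both (five 2 458 490) (five 2 459 492))))))) (mv 431 (both (five 1 428 432) (mv 494 (both (five 5 430 558) (mv 399 (both (five 6 366 367) (five 6 398 495))))))))) (both (mv 460 (both (mv 427 (both (five 3 427 428) (mv 459 (both (five 3 426 426) (mv 491 (both (five 2 458 490) (five 2 459 492))))))) (mv 496 (both (five 0 460 495) (mv 464 (both (five 0 461 497) (mv 433 (both (five 1 429 432) (mv 465 (both (five 1 430 434) (five 5 432 560))))))))))) (both (mv 464 (both (mv 428 (both (five 3 428 429) (mv 432 (both (five 1 429 433) (mv 460 (both (five 3 427 427) (five 1 428 431))))))) (both (mv 496 (both (five 0 461 497) (mv 560 (both (five 7 431 431) (mv 433 (both (five 5 432 465) (mv 559 (both (five 6 463 591) (mv 561 (both (five 3 525 558) (five 4 464 593))))))))))) (both (mv 496 (both (five 0 461 497) (mv 431 (both (five 7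 431 560) (mv 399 (both (five 4 367 367) (five 7 399 432))))))) (mv 429 (both (five 3 428 428) (mv 433 (both (five 1 429 432) (mv 465 (both (five 1 430 434) (mv 558 (both (five 7 429 494) (mv 560 (both (five 5 432 496) (mv 559 (both (five 3 525 561) (mv 524 (both (five 0 523 523) (five 3 524 557))))))))))))))))))) (mv 496 (both (mv 464 (both (five 0 461 497) (mv 433 (both (five 1 429 432) (mv 465 (both (five 1 430 434) (five 5 432 560))))))) (both (mv 495 (both (five 0 460 460) (mv 497 (both (five 2 493 494) (five 3 462 498))))) (mv 460 (both (five 0 460 495) (mv 431 (both (five 1 428 432) (mv 491 (both (five 2 459 492) (mv 459 (both (five 2 458 490) (mv 426 (both (five 3 426 427) (mv 425 (both (five 3 425 458) (mv 558 (both (five 5 430 494) (mv 560 (both (five 7 431 464) (mv 559 (both (five 3 525 561) (mv 524 (both (five 0 523 523) (five 3 524 557)))))))))))))))))))))))))))))) (both (mv 460 (both (mv 459 (both (mv 426 (both (five 3 426 427) (mv 458 (both (five 3 425 425) (mv 490 (both (five 2 457 489) (five 2 458 491))))))) (mv 430 (both (five 1 427 431) (mv 494 (both (five 0 459 495) (five 6 429 557)))))))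 (both (mv 463 (both (mv 428 (both (five 3 427 427) (mv 429 (both (five 3 428 464) (mv 431 (both (five 1 428 432) (mv 492 (both (five 2 459 491) (mv 397 (both (five 6 364 365) (five 5 396 524))))))))))) (both (mv 496 (both (five 0 460 495) (mv 464 (both (five 0 461 497) (mv 433 (both (five 1 429 432) (mv 465 (both (five 1 430 434) (five 5 432 560))))))))) (both (mv 427 (both (five 3 427 428) (mv 491 (both (five 2 459 492) (mv 496 (both (five 0 460 495) (mv 464 (both (five 0 461 497) (mv 431 (both (five 7 431 560) (mv 399 (both (five 4 367 367) (mv 430 (both (five 5 398 494) (mv 465 (both (five 3 429 429) (five 3 430 466))))))))))))))))) (mv 428 (both (five 3 427 427) (mv 431 (both (five 1 428 432) (mv 492 (both (five 2 459 491) (mv 495 (both (five 0 460 496) (mv 524 (both (five 4 428 557) (mv 429 (both (five 5 396 397) (five 5 428 556))))))))))))))))) (both (mv 463 (both (mv 427 (both (five 3 427 428) (mv 459 (both (five 3 426 426) (mv 491 (both (five 2 458 490) (five 2 459 492))))))) (mv 496 (both (five 0 460 495) (mv 464 (both (five 0 461 497) (mv 433 (both (five 1 429 432) (mv 465 (both (five 1 430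 434) (five 5 432 560))))))))))) (both (mv 459 (both (mv 426 (both (five 3 426 427) (mv 458 (both (five 3 425 425) (mv 490 (both (five 2 457 489) (five 2 458 491))))))) (both (mv 430 (both (five 1 427 431) (mv 429 (both (five 1 426 458) (mv 494 (both (five 7 397 397) (five 6 429 557))))))) (mv 426 (both (five 3 426 427) (mv 430 (both (five 1 427 431) (mv 491 (both (five 2 458 490) (mv 463 (both (five 2 459 492) (mv 494 (both (five 6 429 557) (mv 429 (both (five 7 397 397) (mv 464 (both (five 3 428 428) (five 3 429 465)))))))))))))))))) (both (mv 463 (both (mv 431 (both (five 1 428 432) (mv 459 (both (five 1 427 430) (mv 491 (both (five 2 458 490) (five 2 459 492))))))) (both (mv 496 (both (five 0 460 495) (mv 464 (both (five 0 461 497) (mv 433 (both (five 1 429 432) (mv 465 (both (five 1 430 434) (five 5 432 560))))))))) (mv 496 (both (five 0 460 495) (mv 464 (both (five 0 461 497) (mv 431 (both (five 7 431 560) (mv 399 (both (five 4 367 367) (mv 430 (both (five 5 398 494) (mv 465 (both (five 3 429 429) (five 3 430 466)))))))))))))))) (mv 463 (both (mv 427 (both (five 3 427 428) (mv 431 (both (five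 1 428 432) (mv 459 (both (five 3 426 426) (five 1 427 430))))))) (both (mv 496 (both (five 0 460 495) (mv 464 (both (five 0 461 497) (mv 433 (both (five 1 429 432) (mv 465 (both (five 1 430 434) (five 5 432 560))))))))) (mv 496 (both (five 0 460 495) (mv 464 (both (five 0 461 497) (mv 431 (both (five 7 431 560) (mv 399 (both (five 4 367 367) (mv 430 (both (five 5 398 494) (mv 465 (both (five 3 429 429) (five 3 430 466)))))))))))))))))))))) (both (mv 463 (both (mv 494 (both (mv 557 (both (five 6 429 430) (mv 589 (both (five 6 461 558) (five 5 493 621))))) (both (mv 430 (both (five 6 429 557) (mv 399 (both (five 5 398 431) (mv 398 (both (five 5 366 367) (mv 365 (both (five 7 365 397) (mv 366 (both (five 7 333 333) (five 4 366 495))))))))))) (mv 431 (both (five 5 430 558) (mv 399 (both (five 6 366 367) (five 6 398 495)))))))) (both (mv 460 (both (mv 427 (both (five 3 427 428) (mv 459 (both (five 3 426 426) (mv 491 (both (five 2 458 490) (five 2 459 492))))))) (mv 496 (both (five 0 460 495) (mv 464 (both (five 0 461 497) (mv 433 (both (five 1 429 432) (mv 465 (both (five 1 430 434) (five 5 432 560)))))))))))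 (mv 460 (both (mv 427 (both (five 3 427 428) (mv 431 (both (five 1 428 432) (mv 459 (both (five 3 426 426) (five 1 427 430))))))) (both (mv 427 (both (five 3 427 428) (mv 459 (both (five 3 426 426) (mv 491 (both (five 2 458 490) (five 2 459 492))))))) (both (mv 431 (both (five 1 428 432) (mv 459 (both (five 1 427 430) (mv 491 (both (five 2 458 490) (five 2 459 492))))))) (mv 427 (both (five 3 427 428) (mv 431 (both (five 1 428 432) (mv 491 (both (five 2 459 492) (mv 494 (both (five 5 430 558) (mv 399 (both (five 6 366 367) (five 5 398 430)))))))))))))))))) (both (mv 463 (both (mv 460 (both (mv 427 (both (five 3 427 428) (mv 459 (both (five 3 426 426) (mv 491 (both (five 2 458 490) (five 2 459 492))))))) (mv 431 (both (five 1 428 432) (mv 494 (both (five 5 430 558) (mv 399 (both (five 6 366 367) (five 6 398 495))))))))) (both (mv 464 (both (mv 428 (both (five 3 428 429) (mv 496 (both (five 0 461 497) (mv 431 (both (five 7 431 560) (mv 399 (both (five 4 367 367) (five 7 399 432))))))))) (both (mv 428 (both (five 3 428 429) (mv 496 (both (five 0 461 497) (mv 560 (both (five 7 431 431) (mv 433 (both (five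 5 432 465) (mv 559 (both (five 6 463 591) (mv 561 (both (five 3 525 558) (five 4 464 593))))))))))))) (both (mv 432 (both (five 1 429 433) (mv 496 (both (five 0 461 497) (mv 431 (both (five 7 399 399) (five 7 431 560))))))) (mv 429 (both (five 3 428 428) (mv 433 (both (five 1 429 432) (mv 465 (both (five 3 429 430) (five 1 430 434))))))))))) (both (mv 460 (both (mv 427 (both (five 3 427 428) (mv 459 (both (five 3 426 426) (mv 491 (both (five 2 458 490) (five 2 459 492))))))) (mv 496 (both (five 0 460 495) (mv 464 (both (five 0 461 497) (mv 433 (both (five 1 429 432) (mv 465 (both (five 1 430 434) (five 5 432 560))))))))))) (both (mv 460 (both (mv 427 (both (five 3 427 428) (mv 459 (both (five 3 426 426) (mv 491 (both (five 2 458 490) (five 2 459 492))))))) (mv 496 (both (five 0 460 495) (mv 464 (both (five 0 461 497) (mv 560 (both (five 7 431 431) (mv 433 (both (five 5 432 465) (mv 559 (both (five 6 463 591) (mv 561 (both (five 3 525 558) (five 4 464 593))))))))))))))) (mv 460 (both (mv 431 (both (five 1 428 432) (mv 459 (both (five 1 427 430) (mv 491 (both (five 2 458 490) (five 2 459 492))))))) (both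 (mv 496 (both (five 0 460 495) (mv 464 (both (five 0 461 497) (mv 433 (both (five 1 429 432) (mv 465 (both (five 1 430 434) (five 5 432 560))))))))) (mv 496 (both (five 0 460 495) (mv 464 (both (five 0 461 497) (mv 560 (both (five 7 431 431) (mv 433 (both (five 5 432 465) (mv 559 (both (five 6 463 591) (mv 561 (both (five 3 525 558) (five 4 464 593))))))))))))))))))))) (both (mv 494 (both (mv 429 (both (five 7 429 558) (mv 397 (both (five 4 365 365) (five 7 397 430))))) (both (mv 495 (both (mv 430 (both (five 6 429 557) (mv 397 (both (five 7 397 429) (mv 398 (both (five 7 365 365) (mv 366 (both (five 4 366 463) (mv 367 (both (five 5 334 335) (five 5 366 399))))))))))) (both (mv 460 (both (five 0 459 459) (mv 496 (both (five 0 460 463) (five 3 461 497))))) (mv 460 (both (five 0 459 459) (mv 496 (both (five 3 461 497) (mv 524 (both (five 1 491 523) (mv 557 (both (five 6 429 430) (mv 492 (both (five 4 428 428) (mv 556 (both (five 5 428 429) (five 4 460 589)))))))))))))))) (both (mv 557 (both (five 6 429 430) (mv 589 (both (five 6 461 558) (five 5 493 621))))) (mv 558 (both (five 7 429 429) (mv 557 (both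 (five 6 461 589) (mv 559 (both (five 4 462 591) (mv 524 (both (five 0 523 523) (five 3 524 560))))))))))))) (both (mv 494 (both (mv 429 (both (five 7 429 558) (mv 397 (both (five 4 365 365) (five 7 397 430))))) (both (mv 430 (both (five 6 429 557) (mv 431 (both (five 5 398 399) (mv 432 (both (five 2 429 433) (mv 460 (both (five 1 427 459) (five 1 428 463))))))))) (mv 558 (both (five 7 429 429) (mv 431 (both (five 5 430 463) (mv 589 (both (five 6 461 557) (mv 590 (both (five 6 493 621) (mv 591 (both (five 4 462 559) (five 4 494 623)))))))))))))) (mv 494 (both (mv 429 (both (five 7 429 558) (mv 397 (both (five 4 365 365) (five 7 397 430))))) (both (mv 495 (both (mv 460 (both (five 0 459 459) (mv 496 (both (five 0 460 463) (five 3 461 497))))) (both (mv 430 (both (five 6 429 557) (mv 429 (both (five 7 397 397) (mv 460 (both (five 0 459 459) (mv 431 (both (five 2 428 432) (mv 524 (both (five 1 491 523) (mv 492 (both (five 5 428 556) (mv 463 (both (five 2 459 491) (mv 464 (both (five 3 428 428) (five 3 429 465))))))))))))))))) (both (mv 430 (both (five 6 429 557) (mv 397 (both (five 7 397 429) (mv 398 (both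 (five 7 365 365) (mv 463 (both (five 4 366 366) (mv 496 (both (five 3 461 497) (mv 523 (both (five 1 491 524) (mv 560 (both (five 7 463 592) (mv 464 (both (five 7 431 431) (mv 433 (both (five 1 429 432) (five 5 432 465))))))))))))))))))) (mv 460 (both (five 0 459 459) (mv 496 (both (five 3 461 497) (mv 524 (both (five 1 491 523) (mv 557 (both (five 6 429 430) (mv 492 (both (five 4 428 428) (mv 556 (both (five 5 428 429) (five 4 460 589))))))))))))))))) (both (mv 557 (both (five 6 429 430) (mv 589 (both (five 6 461 558) (five 5 493 621))))) (mv 558 (both (five 7 429 429) (mv 557 (both (five 6 461 589) (mv 559 (both (five 4 462 591) (mv 524 (both (five 0 523 523) (five 3 524 560)))))))))))))))))))))) (both (mv 462 (both (mv 463 (both (mv 494 (both (mv 557 (both (five 6 429 430) (mv 589 (both (five 6 461 558) (five 5 493 621))))) (both (mv 430 (both (five 6 429 557) (mv 399 (both (five 5 398 431) (mv 398 (both (five 5 366 367) (mv 365 (both (five 7 365 397) (mv 366 (both (five 7 333 333) (five 4 366 495))))))))))) (mv 431 (both (five 5 430 558) (mv 399 (both (five 6 366 367) (five 6 398 495)))))))) (both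 (mv 460 (both (mv 427 (both (five 3 427 428) (mv 459 (both (five 3 426 426) (mv 491 (both (five 2 458 490) (five 2 459 492))))))) (mv 496 (both (five 0 460 495) (mv 464 (both (five 0 461 497) (mv 433 (both (five 1 429 432) (mv 465 (both (five 1 430 434) (five 5 432 560))))))))))) (mv 460 (both (mv 427 (both (five 3 427 428) (mv 431 (both (five 1 428 432) (mv 459 (both (five 3 426 426) (five 1 427 430))))))) (both (mv 427 (both (five 3 427 428) (mv 459 (both (five 3 426 426) (mv 491 (both (five 2 458 490) (five 2 459 492))))))) (both (mv 431 (both (five 1 428 432) (mv 459 (both (five 1 427 430) (mv 491 (both (five 2 458 490) (five 2 459 492))))))) (mv 427 (both (five 3 427 428) (mv 431 (both (five 1 428 432) (mv 491 (both (five 2 459 492) (mv 494 (both (five 5 430 558) (mv 399 (both (five 6 366 367) (five 5 398 430)))))))))))))))))) (both (mv 463 (both (mv 460 (both (mv 427 (both (five 3 427 428) (mv 459 (both (five 3 426 426) (mv 491 (both (five 2 458 490) (five 2 459 492))))))) (mv 496 (both (five 0 460 495) (mv 464 (both (five 0 461 497) (mv 433 (both (five 1 429 432) (mv 465 (both (five 1 430 434)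 (five 5 432 560))))))))))) (both (mv 464 (both (mv 432 (both (five 1 429 433) (mv 493 (both (five 2 460 492) (mv 557 (both (five 5 429 430) (mv 556 (both (five 6 460 588) (mv 555 (both (five 1 522 554) (mv 558 (both (five 4 461 590) (mv 523 (both (five 3 522 522) (mv 559 (both (five 0 523 524) (mv 560 (both (five 3 525 561) (mv 592 (both (five 0 556 591) (five 0 557 593))))))))))))))))))))) (both (mv 496 (both (five 0 461 497) (mv 431 (both (five 7 431 560) (mv 399 (both (five 4 367 367) (five 7 399 432))))))) (both (mv 496 (both (five 0 461 497) (mv 560 (both (five 7 431 431) (mv 433 (both (five 5 432 465) (mv 559 (both (five 6 463 591) (mv 561 (both (five 3 525 558) (five 4 464 593))))))))))) (mv 432 (both (five 1 429 433) (mv 496 (both (five 0 461 497) (mv 399 (both (five 7 399 431) (mv 400 (both (five 7 367 367) (mv 368 (both (five 6 367 495) (mv 369 (both (five 5 336 337) (five 5 368 401))))))))))))))))) (both (mv 460 (both (mv 427 (both (five 3 427 428) (mv 431 (both (five 1 428 432) (mv 459 (both (five 3 426 426) (five 1 427 430))))))) (both (mv 431 (both (five 1 428 432) (mv 459 (both (five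 1 427 430) (mv 491 (both (five 2 458 490) (five 2 459 492))))))) (both (mv 427 (both (five 3 427 428) (mv 459 (both (five 3 426 426) (mv 491 (both (five 2 458 490) (five 2 459 492))))))) (mv 428 (both (five 3 427 427) (mv 431 (both (five 1 428 432) (mv 492 (both (five 2 459 491) (mv 493 (both (five 4 396 396) (five 7 428 557))))))))))))) (both (mv 460 (both (mv 427 (both (five 3 427 428) (mv 431 (both (five 1 428 432) (mv 459 (both (five 3 426 426) (five 1 427 430))))))) (both (mv 496 (both (five 0 460 495) (mv 464 (both (five 0 461 497) (mv 433 (both (five 1 429 432) (mv 465 (both (five 1 430 434) (five 5 432 560))))))))) (mv 496 (both (five 0 460 495) (mv 464 (both (five 0 461 497) (mv 560 (both (five 7 431 431) (mv 433 (both (five 5 432 465) (mv 559 (both (five 6 463 591) (mv 561 (both (five 3 525 558) (five 4 464 593)))))))))))))))) (mv 460 (both (mv 427 (both (five 3 427 428) (mv 459 (both (five 3 426 426) (mv 491 (both (five 2 458 490) (five 2 459 492))))))) (mv 496 (both (five 0 460 495) (mv 464 (both (five 0 461 497) (mv 560 (both (five 7 431 431) (mv 433 (both (five 5 432 465) (mv 559 (both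 (five 6 463 591) (mv 561 (both (five 3 525 558) (five 4 464 593)))))))))))))))))))) (both (mv 463 (both (mv 460 (both (mv 427 (both (five 3 427 428) (mv 459 (both (five 3 426 426) (mv 491 (both (five 2 458 490) (five 2 459 492))))))) (mv 431 (both (five 1 428 432) (mv 494 (both (five 5 430 558) (mv 399 (both (five 6 366 367) (five 6 398 495))))))))) (both (mv 464 (both (mv 496 (both (five 0 461 497) (mv 431 (both (five 7 431 560) (mv 399 (both (five 4 367 367) (five 7 399 432))))))) (both (mv 493 (both (five 2 460 492) (mv 494 (both (five 2 461 465) (mv 431 (both (five 5 430 558) (mv 399 (both (five 6 366 367) (five 6 398 495))))))))) (mv 432 (both (five 1 429 433) (mv 493 (both (five 2 460 492) (mv 465 (both (five 2 461 494) (mv 497 (both (five 0 461 496) (five 0 462 498)))))))))))) (both (mv 460 (both (mv 427 (both (five 3 427 428) (mv 459 (both (five 3 426 426) (mv 491 (both (five 2 458 490) (five 2 459 492))))))) (mv 496 (both (five 0 460 495) (mv 464 (both (five 0 461 497) (mv 433 (both (five 1 429 432) (mv 465 (both (five 1 430 434) (five 5 432 560))))))))))) (both (mv 464 (both (mv 432 (both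 (five 1 429 433) (mv 493 (both (five 2 460 492) (mv 465 (both (five 2 461 494) (mv 498 (both (five 0 462 497) (mv 466 (both (five 0 463 499) (mv 435 (both (five 1 431 434) (mv 467 (both (five 3 431 431) (five 1 432 436))))))))))))))) (both (mv 493 (both (five 2 460 492) (mv 465 (both (five 2 461 494) (mv 497 (both (five 0 461 496) (five 0 462 498))))))) (mv 432 (both (five 1 429 433) (mv 431 (both (five 1 428 460) (mv 496 (both (five 7 399 399) (five 7 431 560)))))))))) (both (mv 460 (both (mv 427 (both (five 3 427 428) (mv 431 (both (five 1 428 432) (mv 459 (both (five 3 426 426) (mv 490 (both (five 2 458 491) (mv 458 (both (five 2 457 489) (mv 494 (both (five 0 458 493) (five 5 430 558))))))))))))) (both (mv 496 (both (five 0 460 495) (mv 464 (both (five 0 461 497) (mv 433 (both (five 1 429 432) (mv 465 (both (five 1 430 434) (five 5 432 560))))))))) (mv 496 (both (five 0 460 495) (mv 464 (both (five 0 461 497) (mv 560 (both (five 7 431 431) (mv 433 (both (five 5 432 465) (mv 559 (both (five 6 463 591) (mv 561 (both (five 3 525 558) (five 4 464 593)))))))))))))))) (mv 460 (both (mv 427 (both (five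 3 427 428) (mv 459 (both (five 3 426 426) (mv 491 (both (five 2 458 490) (five 2 459 492))))))) (mv 496 (both (five 0 460 495) (mv 464 (both (five 0 461 497) (mv 560 (both (five 7 431 431) (mv 433 (both (five 5 432 465) (mv 559 (both (five 6 463 591) (mv 561 (both (five 3 525 558) (five 4 464 593))))))))))))))))))))) (both (mv 494 (both (mv 557 (both (five 6 429 430) (mv 589 (both (five 6 461 558) (five 5 493 621))))) (both (mv 558 (both (mv 463 (both (five 5 430 431) (mv 495 (both (five 5 462 590) (mv 496 (both (five 3 461 497) (mv 523 (both (five 1 491 524) (mv 559 (both (five 4 462 591) (mv 560 (both (five 3 525 561) (five 7 463 592))))))))))))) (both (mv 590 (both (five 7 461 493) (mv 591 (both (five 4 462 559) (five 4 494 623))))) (both (mv 431 (both (five 5 430 463) (mv 430 (both (five 5 398 399) (mv 433 (both (five 2 429 432) (mv 493 (both (five 6 397 398) (mv 559 (both (five 4 462 591) (mv 524 (both (five 0 523 523) (mv 496 (both (five 2 492 495) (mv 560 (both (five 3 525 561) (mv 465 (both (five 5 432 464) (mv 497 (both (five 6 400 401) (five 5 464 592))))))))))))))))))))) (mv 431 (both (five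 5 430 463) (mv 430 (both (five 5 398 399) (mv 493 (both (five 6 397 398) (five 7 461 590))))))))))) (both (mv 558 (both (mv 590 (both (five 7 461 493) (mv 591 (both (five 4 462 559) (five 4 494 623))))) (both (mv 557 (both (five 6 461 589) (mv 559 (both (five 4 462 591) (mv 524 (both (five 0 523 523) (five 3 524 560))))))) (mv 431 (both (five 5 430 463) (mv 493 (both (five 7 461 590) (mv 557 (both (five 5 461 589) (mv 556 (both (five 6 460 588) (mv 555 (both (five 1 522 554) (mv 523 (both (five 3 522 522) (mv 524 (both (five 1 491 495) (mv 587 (both (five 2 554 586) (mv 619 (both (five 5 491 492) (five 5 523 651)))))))))))))))))))))) (mv 430 (both (five 6 429 557) (mv 398 (both (five 6 397 493) (mv 399 (both (five 5 366 367) (five 5 398 431))))))))))) (both (mv 557 (both (mv 430 (both (five 5 429 493) (five 6 429 494))) (both (mv 494 (both (five 6 429 430) (mv 589 (both (five 6 461 558) (five 5 493 621))))) (both (mv 493 (both (mv 588 (both (five 6 460 556) (mv 589 (both (five 5 461 494) (five 6 492 620))))) (both (mv 556 (both (five 6 460 588) (mv 555 (both (five 1 522 554) (mv 558 (both (five 4 461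 590) (mv 523 (both (five 3 522 522) (mv 524 (both (five 0 523 559) (mv 587 (both (five 2 554 586) (mv 619 (both (five 5 491 492) (five 5 523 651))))))))))))))) (mv 428 (both (five 7 428 460) (mv 494 (both (five 5 461 589) (mv 558 (both (five 7 461 590) (mv 559 (both (five 4 462 591) (mv 524 (both (five 0 523 523) (five 3 524 560)))))))))))))) (mv 493 (both (five 5 429 430) (mv 556 (both (five 6 460 588) (mv 555 (both (five 1 522 554) (mv 558 (both (five 4 461 590) (mv 523 (both (five 3 522 522) (mv 524 (both (five 0 523 559) (mv 587 (both (five 2 554 586) (mv 619 (both (five 5 491 492) (five 5 523 651))))))))))))))))))))) (both (mv 460 (both (mv 459 (both (mv 426 (both (five 3 426 427) (mv 458 (both (five 3 425 425) (mv 490 (both (five 2 457 489) (five 2 458 491))))))) (mv 430 (both (five 1 427 431) (mv 494 (both (five 0 459 495) (five 6 429 557))))))) (both (mv 463 (both (mv 496 (both (five 0 460 495) (mv 464 (both (five 0 461 497) (mv 433 (both (five 1 429 432) (mv 465 (both (five 1 430 434) (five 5 432 560))))))))) (both (mv 428 (both (five 3 427 427) (mv 431 (both (five 1 428 432) (mv 492 (both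 (five 2 459 491) (mv 493 (both (five 4 396 396) (five 7 428 557))))))))) (mv 427 (both (five 3 427 428) (mv 491 (both (five 2 459 492) (mv 496 (both (five 0 460 495) (mv 464 (both (five 0 461 497) (mv 560 (both (five 7 431 431) (mv 433 (both (five 5 432 465) (mv 591 (both (five 6 463 559) (mv 592 (both (five 6 495 623) (mv 593 (both (five 4 464 561) (five 4 496 625)))))))))))))))))))))) (both (mv 557 (both (mv 430 (both (five 5 429 493) (five 6 429 494))) (both (mv 430 (both (five 6 429 494) (mv 431 (both (five 1 427 459) (mv 432 (both (five 2 429 433) (five 1 428 463))))))) (mv 428 (both (five 7 428 493) (mv 427 (both (five 3 427 463) (mv 426 (both (five 0 425 425) (five 3 426 459)))))))))) (both (mv 463 (both (mv 427 (both (five 3 427 428) (mv 459 (both (five 3 426 426) (mv 491 (both (five 2 458 490) (five 2 459 492))))))) (mv 496 (both (five 0 460 495) (mv 464 (both (five 0 461 497) (mv 433 (both (five 1 429 432) (mv 465 (both (five 1 430 434) (five 5 432 560))))))))))) (mv 494 (both (mv 430 (both (five 6 429 557) (mv 398 (both (five 6 397 493) (mv 399 (both (five 5 366 367) (five 5 398 431)))))))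 (both (mv 430 (both (five 6 429 557) (mv 431 (both (five 1 427 459) (mv 432 (both (five 2 429 433) (five 1 428 463))))))) (mv 459 (both (five 0 459 495) (mv 458 (both (five 0 458 493) (mv 490 (both (five 2 457 489) (five 2 458 491))))))))))))))) (both (mv 494 (both (mv 557 (both (five 6 429 430) (mv 589 (both (five 6 461 558) (five 5 493 621))))) (both (mv 558 (both (mv 463 (both (five 5 430 431) (mv 495 (both (five 5 462 590) (mv 496 (both (five 3 461 497) (mv 523 (both (five 1 491 524) (mv 559 (both (five 4 462 591) (mv 560 (both (five 3 525 561) (five 7 463 592))))))))))))) (both (mv 590 (both (five 7 461 493) (mv 591 (both (five 4 462 559) (five 4 494 623))))) (both (mv 431 (both (five 5 430 463) (mv 430 (both (five 5 398 399) (mv 433 (both (five 2 429 432) (mv 493 (both (five 6 397 398) (mv 559 (both (five 4 462 591) (mv 524 (both (five 0 523 523) (mv 496 (both (five 2 492 495) (mv 560 (both (five 3 525 561) (mv 465 (both (five 5 432 464) (mv 497 (both (five 6 400 401) (five 5 464 592))))))))))))))))))))) (mv 431 (both (five 5 430 463) (mv 430 (both (five 5 398 399) (mv 493 (both (five 6 397 398)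 (five 7 461 590))))))))))) (both (mv 558 (both (mv 590 (both (five 7 461 493) (mv 591 (both (five 4 462 559) (five 4 494 623))))) (both (mv 557 (both (five 6 461 589) (mv 559 (both (five 4 462 591) (mv 524 (both (five 0 523 523) (five 3 524 560))))))) (mv 431 (both (five 5 430 463) (mv 493 (both (five 7 461 590) (mv 557 (both (five 5 461 589) (mv 460 (both (five 7 428 428) (mv 459 (both (five 0 458 458) (five 0 459 495)))))))))))))) (mv 430 (both (five 6 429 557) (mv 398 (both (five 6 397 493) (mv 399 (both (five 5 366 367) (five 5 398 431))))))))))) (mv 494 (both (mv 557 (both (five 6 429 430) (mv 589 (both (five 6 461 558) (five 5 493 621))))) (both (mv 430 (both (mv 431 (both (five 5 398 399) (mv 432 (both (five 2 429 433) (mv 460 (both (five 1 427 459) (five 1 428 463))))))) (both (mv 398 (both (five 6 397 493) (mv 365 (both (five 7 365 397) (mv 366 (both (five 7 333 333) (mv 367 (both (five 5 334 335) (five 5 366 399))))))))) (mv 398 (both (five 6 397 493) (mv 365 (both (five 7 365 397) (mv 366 (both (five 7 333 333) (mv 335 (both (five 5 334 367) (mv 303 (both (five 5 302 334) (mv 463 (both (five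 4 366 495) (mv 431 (both (five 5 430 558) (mv 432 (both (five 2 429 433) (five 1 428 460)))))))))))))))))))) (both (mv 493 (both (mv 557 (both (five 5 461 589) (mv 460 (both (five 7 428 428) (mv 459 (both (five 0 458 458) (five 0 459 495))))))) (mv 558 (both (five 7 461 590) (mv 463 (both (five 5 430 431) (mv 464 (both (five 2 461 465) (five 2 460 492))))))))) (mv 430 (both (five 6 429 557) (mv 398 (both (five 6 397 493) (mv 399 (both (five 5 366 367) (five 5 398 431))))))))))))))))))) (both (mv 493 (both (mv 429 (both (five 4 429 558) (mv 430 (both (five 5 397 398) (mv 556 (both (five 6 428 524) (mv 557 (both (five 5 429 462) (five 6 460 588))))))))) (both (mv 557 (both (mv 460 (both (five 7 428 428) (mv 462 (both (five 5 429 430) (mv 492 (both (five 7 460 589) (mv 463 (both (five 2 460 464) (five 2 459 491))))))))) (mv 556 (both (five 6 460 588) (mv 555 (both (five 1 522 554) (mv 558 (both (five 4 461 590) (mv 523 (both (five 3 522 522) (mv 559 (both (five 0 523 524) (mv 560 (both (five 3 525 561) (mv 592 (both (five 0 556 591) (five 0 557 593))))))))))))))))) (both (mv 429 (both (mv 430 (both (five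 5 397 398) (mv 556 (both (five 6 428 524) (mv 557 (both (five 5 429 462) (five 6 460 588))))))) (both (mv 396 (both (five 7 396 428) (mv 397 (both (five 7 364 364) (mv 524 (both (five 6 396 492) (five 6 428 556))))))) (mv 396 (both (five 7 396 428) (mv 397 (both (five 7 364 364) (mv 398 (both (five 5 365 366) (five 5 397 430)))))))))) (both (mv 429 (both (five 4 429 558) (mv 396 (both (five 7 396 428) (mv 397 (both (five 7 364 364) (mv 524 (both (five 6 396 492) (five 6 428 556))))))))) (mv 429 (both (five 4 429 558) (mv 396 (both (five 7 396 428) (mv 397 (both (five 7 364 364) (mv 398 (both (five 5 365 366) (five 5 397 430)))))))))))))) (both (mv 493 (both (mv 557 (both (mv 462 (both (five 5 429 430) (mv 588 (both (five 6 460 556) (mv 589 (both (five 5 461 494) (five 6 492 620))))))) (both (mv 460 (both (five 7 428 428) (mv 492 (both (five 7 460 589) (mv 490 (both (five 0 490 491) (mv 556 (both (five 6 460 588) (mv 555 (both (five 1 522 554) (mv 524 (both (five 6 459 587) (mv 459 (both (five 7 427 427) (mv 458 (both (five 0 457 457) (five 2 457 489))))))))))))))))) (both (mv 460 (both (five 7 428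 428) (mv 462 (both (five 5 429 430) (mv 492 (both (five 7 460 589) (mv 463 (both (five 2 460 464) (five 2 459 491))))))))) (mv 492 (both (mv 462 (both (five 5 429 430) (mv 463 (both (five 2 460 464) (mv 491 (both (five 0 490 490) (five 1 459 494))))))) (both (mv 460 (both (five 7 428 428) (mv 490 (both (five 0 490 491) (mv 556 (both (five 6 460 588) (mv 555 (both (five 1 522 554) (mv 524 (both (five 6 459 587) (mv 459 (both (five 7 427 427) (mv 458 (both (five 0 457 457) (five 2 457 489))))))))))))))) (mv 430 (both (five 5 429 462) (mv 460 (both (five 7 428 428) (mv 556 (both (five 6 460 588) (mv 555 (both (five 1 522 554) (mv 524 (both (five 6 459 587) (mv 459 (both (five 7 427 427) (mv 458 (both (five 0 457 457) (five 0 458 494)))))))))))))))))))))) (both (mv 429 (both (mv 430 (both (five 5 397 398) (mv 556 (both (five 6 428 524) (mv 557 (both (five 5 429 462) (five 6 460 588))))))) (both (mv 396 (both (five 7 396 428) (mv 397 (both (five 7 364 364) (mv 524 (both (five 6 396 492) (five 6 428 556))))))) (mv 396 (both (five 7 396 428) (mv 397 (both (five 7 364 364) (mv 398 (both (five 5 365 366) (five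 5 397 430)))))))))) (both (mv 429 (both (mv 396 (both (five 7 396 428) (mv 397 (both (five 7 364 364) (five 4 397 494))))) (both (mv 428 (both (five 7 396 396) (mv 556 (both (five 6 428 524) (mv 557 (both (five 7 428 460) (five 6 460 588))))))) (mv 397 (both (five 4 397 494) (mv 524 (both (five 6 396 492) (five 6 428 556)))))))) (both (mv 429 (both (mv 396 (both (five 7 396 428) (mv 397 (both (five 7 364 364) (five 4 397 494))))) (both (mv 428 (both (five 7 396 396) (mv 427 (both (mv 426 (both (five 0 426 462) (mv 393 (both (five 3 393 394) (mv 425 (both (five 3 392 392) (five 0 425 460))))))) (both (mv 430 (both (five 5 397 398) (mv 459 (both (five 2 426 458) (mv 431 (both (five 2 427 460) (mv 399 (both (five 1 396 400) (mv 463 (both (five 0 428 464) (mv 495 (both (five 6 398 494) (five 4 399 496))))))))))))) (mv 398 (both (five 5 397 430) (mv 426 (both (five 0 426 462) (mv 393 (both (five 3 393 394) (mv 425 (both (five 3 392 392) (mv 457 (both (five 2 424 456) (five 2 425 458)))))))))))))))) (both (mv 396 (both (five 7 396 428) (mv 397 (both (five 7 364 364) (mv 398 (both (five 5 365 366) (five 5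 397 430))))))) (mv 397 (both (five 4 397 494) (mv 398 (both (five 5 365 366) (five 5 397 430))))))))) (mv 429 (both (mv 397 (both (five 4 397 494) (mv 524 (both (five 6 396 492) (five 6 428 556))))) (both (mv 430 (both (five 5 397 398) (mv 556 (both (five 6 428 524) (mv 557 (both (five 5 429 462) (five 6 460 588))))))) (mv 397 (both (five 4 397 494) (mv 398 (both (five 5 365 366) (five 5 397 430))))))))))))) (both (mv 462 (both (mv 463 (both (mv 460 (both (mv 427 (both (five 3 427 428) (mv 459 (both (five 3 426 426) (mv 491 (both (five 2 458 490) (five 2 459 492))))))) (mv 431 (both (five 1 428 432) (mv 494 (both (five 5 430 558) (mv 399 (both (five 6 366 367) (five 6 398 495))))))))) (both (mv 464 (both (mv 428 (both (five 3 428 429) (mv 496 (both (five 0 461 497) (mv 431 (both (five 7 431 560) (mv 399 (both (five 4 367 367) (five 7 399 432))))))))) (both (mv 428 (both (five 3 428 429) (mv 496 (both (five 0 461 497) (mv 560 (both (five 7 431 431) (mv 433 (both (five 5 432 465) (mv 559 (both (five 6 463 591) (mv 561 (both (five 3 525 558) (five 4 464 593))))))))))))) (both (mv 432 (both (five 1 429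 433) (mv 496 (both (five 0 461 497) (mv 431 (both (five 7 399 399) (five 7 431 560))))))) (mv 429 (both (five 3 428 428) (mv 433 (both (five 1 429 432) (mv 465 (both (five 3 429 430) (five 1 430 434))))))))))) (both (mv 460 (both (mv 427 (both (five 3 427 428) (mv 459 (both (five 3 426 426) (mv 491 (both (five 2 458 490) (five 2 459 492))))))) (mv 496 (both (five 0 460 495) (mv 464 (both (five 0 461 497) (mv 433 (both (five 1 429 432) (mv 465 (both (five 1 430 434) (five 5 432 560))))))))))) (both (mv 460 (both (mv 427 (both (five 3 427 428) (mv 459 (both (five 3 426 426) (mv 491 (both (five 2 458 490) (five 2 459 492))))))) (mv 496 (both (five 0 460 495) (mv 464 (both (five 0 461 497) (mv 560 (both (five 7 431 431) (mv 433 (both (five 5 432 465) (mv 559 (both (five 6 463 591) (mv 561 (both (five 3 525 558) (five 4 464 593))))))))))))))) (mv 460 (both (mv 431 (both (five 1 428 432) (mv 459 (both (five 1 427 430) (mv 491 (both (five 2 458 490) (five 2 459 492))))))) (both (mv 496 (both (five 0 460 495) (mv 464 (both (five 0 461 497) (mv 433 (both (five 1 429 432) (mv 465 (both (five 1 430 434) (five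 5 432 560))))))))) (mv 496 (both (five 0 460 495) (mv 464 (both (five 0 461 497) (mv 560 (both (five 7 431 431) (mv 433 (both (five 5 432 465) (mv 559 (both (five 6 463 591) (mv 561 (both (five 3 525 558) (five 4 464 593))))))))))))))))))))) (both (mv 463 (both (mv 460 (both (mv 427 (both (five 3 427 428) (mv 431 (both (five 1 428 432) (mv 459 (both (five 3 426 426) (five 1 427 430))))))) (both (mv 427 (both (five 3 427 428) (mv 459 (both (five 3 426 426) (mv 491 (both (five 2 458 490) (five 2 459 492))))))) (both (mv 431 (both (five 1 428 432) (mv 459 (both (five 1 427 430) (mv 491 (both (five 2 458 490) (five 2 459 492))))))) (mv 428 (both (five 3 427 427) (mv 431 (both (five 1 428 432) (mv 492 (both (five 2 459 491) (mv 396 (both (five 4 396 493) (mv 363 (both (five 7 363 395) (mv 364 (both (five 7 331 331) (mv 365 (both (five 5 332 333) (five 5 364 397))))))))))))))))))) (both (mv 464 (both (mv 428 (both (five 3 428 429) (mv 496 (both (five 0 461 497) (mv 431 (both (five 7 431 560) (mv 399 (both (five 4 367 367) (five 7 399 432))))))))) (both (mv 428 (both (five 3 428 429) (mv 496 (both (five 0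 461 497) (mv 560 (both (five 7 431 431) (mv 433 (both (five 5 432 465) (mv 559 (both (five 6 463 591) (mv 561 (both (five 3 525 558) (five 4 464 593))))))))))))) (both (mv 432 (both (five 1 429 433) (mv 496 (both (five 0 461 497) (mv 431 (both (five 7 399 399) (five 7 431 560))))))) (mv 429 (both (five 3 428 428) (mv 433 (both (five 1 429 432) (mv 465 (both (five 3 429 430) (five 1 430 434))))))))))) (both (mv 460 (both (mv 431 (both (five 1 428 432) (mv 459 (both (five 1 427 430) (mv 491 (both (five 2 458 490) (five 2 459 492))))))) (both (mv 496 (both (five 0 460 495) (mv 464 (both (five 0 461 497) (mv 433 (both (five 1 429 432) (mv 465 (both (five 1 430 434) (five 5 432 560))))))))) (mv 496 (both (five 0 460 495) (mv 464 (both (five 0 461 497) (mv 560 (both (five 7 431 431) (mv 433 (both (five 5 432 465) (mv 559 (both (five 6 463 591) (mv 561 (both (five 3 525 558) (five 4 464 593)))))))))))))))) (both (mv 460 (both (mv 427 (both (five 3 427 428) (mv 459 (both (five 3 426 426) (mv 491 (both (five 2 458 490) (five 2 459 492))))))) (mv 496 (both (five 0 460 495) (mv 464 (both (five 0 461 497) (mv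 433 (both (five 1 429 432) (mv 465 (both (five 1 430 434) (five 5 432 560))))))))))) (mv 460 (both (mv 427 (both (five 3 427 428) (mv 459 (both (five 3 426 426) (mv 491 (both (five 2 458 490) (five 2 459 492))))))) (mv 496 (both (five 0 460 495) (mv 464 (both (five 0 461 497) (mv 560 (both (five 7 431 431) (mv 433 (both (five 5 432 465) (mv 559 (both (five 6 463 591) (mv 561 (both (five 3 525 558) (five 4 464 593)))))))))))))))))))) (both (mv 463 (both (mv 460 (both (mv 427 (both (five 3 427 428) (mv 431 (both (five 1 428 432) (mv 459 (both (five 3 426 426) (five 1 427 430))))))) (both (mv 427 (both (five 3 427 428) (mv 459 (both (five 3 426 426) (mv 491 (both (five 2 458 490) (five 2 459 492))))))) (both (mv 431 (both (five 1 428 432) (mv 459 (both (five 1 427 430) (mv 491 (both (five 2 458 490) (five 2 459 492))))))) (mv 428 (both (five 3 427 427) (mv 431 (both (five 1 428 432) (mv 492 (both (five 2 459 491) (mv 396 (both (five 4 396 493) (mv 363 (both (five 7 363 395) (mv 364 (both (five 7 331 331) (mv 365 (both (five 5 332 333) (five 5 364 397))))))))))))))))))) (both (mv 464 (both (mv 429 (both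 (five 3 428 428) (mv 433 (both (five 1 429 432) (mv 465 (both (five 3 429 430) (five 1 430 434))))))) (both (mv 496 (both (five 0 461 497) (mv 431 (both (five 7 431 560) (mv 399 (both (five 4 367 367) (five 7 399 432))))))) (mv 493 (both (five 2 460 492) (mv 465 (both (five 2 461 494) (mv 497 (both (five 0 461 496) (five 0 462 498)))))))))) (both (mv 460 (both (mv 427 (both (five 3 427 428) (mv 459 (both (five 3 426 426) (mv 491 (both (five 2 458 490) (five 2 459 492))))))) (mv 496 (both (five 0 460 495) (mv 464 (both (five 0 461 497) (mv 433 (both (five 1 429 432) (mv 465 (both (five 1 430 434) (five 5 432 560))))))))))) (both (mv 464 (both (mv 432 (both (five 1 429 433) (mv 496 (both (five 0 461 497) (mv 431 (both (five 7 399 399) (five 7 431 560))))))) (both (mv 429 (both (five 3 428 428) (mv 433 (both (five 1 429 432) (mv 465 (both (five 3 429 430) (five 1 430 434))))))) (mv 428 (both (five 3 428 429) (mv 460 (both (five 3 427 427) (mv 496 (both (five 0 460 495) (five 0 461 497)))))))))) (both (mv 464 (both (mv 432 (both (five 1 429 433) (mv 493 (both (five 2 460 492) (mv 465 (both (five 2 461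 494) (mv 498 (both (five 0 462 497) (mv 466 (both (five 0 463 499) (mv 435 (both (five 1 431 434) (mv 467 (both (five 3 431 431) (five 1 432 436))))))))))))))) (both (mv 493 (both (five 2 460 492) (mv 465 (both (five 2 461 494) (mv 497 (both (five 0 461 496) (five 0 462 498))))))) (mv 432 (both (five 1 429 433) (mv 431 (both (five 1 428 460) (mv 496 (both (five 7 399 399) (five 7 431 560)))))))))) (mv 464 (both (mv 428 (both (five 3 428 429) (mv 460 (both (five 3 427 427) (mv 496 (both (five 0 460 495) (five 0 461 497))))))) (both (mv 428 (both (five 3 428 429) (mv 427 (both (five 3 427 460) (mv 493 (both (five 2 460 492) (mv 465 (both (five 2 461 494) (mv 434 (both (five 1 430 433) (mv 466 (both (five 1 431 435) (mv 498 (both (five 0 462 497) (five 0 463 499))))))))))))))) (both (mv 493 (both (five 2 460 492) (mv 465 (both (five 2 461 494) (mv 497 (both (five 0 461 496) (five 0 462 498))))))) (mv 428 (both (five 3 428 429) (mv 427 (both (five 3 427 460) (mv 493 (both (five 2 460 492) (mv 465 (both (five 2 461 494) (mv 434 (both (five 1 430 433) (mv 466 (both (five 1 431 435) (mv 431 (both (five 3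 430 430) (mv 496 (both (five 7 431 560) (mv 399 (both (five 4 367 367) (five 4 399 495))))))))))))))))))))))))))))) (both (mv 429 (both (mv 558 (both (five 4 429 493) (five 7 429 494))) (both (mv 494 (both (five 7 429 558) (mv 397 (both (five 4 365 365) (five 7 397 430))))) (both (mv 493 (both (five 4 429 558) (mv 396 (both (five 7 396 428) (mv 397 (both (five 7 364 364) (mv 524 (both (five 6 396 492) (five 6 428 556))))))))) (mv 493 (both (mv 428 (both (five 7 396 396) (mv 427 (both (five 0 426 426) (mv 430 (both (five 5 397 398) (mv 394 (both (five 3 394 395) (mv 459 (both (five 2 426 458) (mv 431 (both (five 2 427 460) (mv 399 (both (five 1 396 400) (five 5 398 494))))))))))))))) (both (mv 396 (both (five 7 396 428) (mv 397 (both (five 7 364 364) (mv 524 (both (five 6 396 492) (five 6 428 556))))))) (mv 397 (both (five 4 397 494) (mv 524 (both (five 6 396 492) (five 6 428 556)))))))))))) (both (mv 429 (both (mv 558 (both (five 4 429 493) (five 7 429 494))) (both (mv 494 (both (five 7 429 558) (mv 397 (both (five 4 365 365) (five 7 397 430))))) (both (mv 493 (both (five 4 429 558) (mv 396 (both (five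 7 396 428) (mv 397 (both (five 7 364 364) (mv 524 (both (five 6 396 492) (five 6 428 556))))))))) (mv 493 (both (mv 428 (both (five 7 396 396) (mv 427 (both (five 0 426 426) (mv 430 (both (five 5 397 398) (five 0 427 463))))))) (mv 397 (both (five 4 397 494) (mv 524 (both (five 6 396 492) (five 6 428 556))))))))))) (both (mv 463 (both (mv 460 (both (mv 427 (both (five 3 427 428) (mv 459 (both (five 3 426 426) (mv 491 (both (five 2 458 490) (five 2 459 492))))))) (mv 431 (both (five 1 428 432) (mv 494 (both (five 5 430 558) (mv 399 (both (five 6 366 367) (five 6 398 495))))))))) (both (mv 464 (both (mv 496 (both (five 0 461 497) (mv 431 (both (five 7 431 560) (mv 399 (both (five 4 367 367) (five 7 399 432))))))) (both (mv 493 (both (five 2 460 492) (mv 494 (both (five 2 461 465) (mv 431 (both (five 5 430 558) (mv 399 (both (five 6 366 367) (five 6 398 495))))))))) (mv 432 (both (five 1 429 433) (mv 493 (both (five 2 460 492) (mv 465 (both (five 2 461 494) (mv 497 (both (five 0 461 496) (five 0 462 498)))))))))))) (both (mv 460 (both (mv 427 (both (five 3 427 428) (mv 459 (both (five 3 426 426) (mv 491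 (both (five 2 458 490) (five 2 459 492))))))) (mv 496 (both (five 0 460 495) (mv 464 (both (five 0 461 497) (mv 433 (both (five 1 429 432) (mv 465 (both (five 1 430 434) (five 5 432 560))))))))))) (both (mv 464 (both (mv 432 (both (five 1 429 433) (mv 493 (both (five 2 460 492) (mv 465 (both (five 2 461 494) (mv 498 (both (five 0 462 497) (mv 466 (both (five 0 463 499) (mv 435 (both (five 1 431 434) (mv 467 (both (five 3 431 431) (five 1 432 436))))))))))))))) (both (mv 493 (both (five 2 460 492) (mv 465 (both (five 2 461 494) (mv 497 (both (five 0 461 496) (five 0 462 498))))))) (mv 432 (both (five 1 429 433) (mv 431 (both (five 1 428 460) (mv 496 (both (five 7 399 399) (five 7 431 560)))))))))) (both (mv 460 (both (mv 427 (both (five 3 427 428) (mv 431 (both (five 1 428 432) (mv 459 (both (five 3 426 426) (mv 490 (both (five 2 458 491) (mv 458 (both (five 2 457 489) (mv 494 (both (five 0 458 493) (five 5 430 558))))))))))))) (both (mv 496 (both (five 0 460 495) (mv 464 (both (five 0 461 497) (mv 433 (both (five 1 429 432) (mv 465 (both (five 1 430 434) (five 5 432 560))))))))) (mv 496 (both (five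 0 460 495) (mv 464 (both (five 0 461 497) (mv 560 (both (five 7 431 431) (mv 433 (both (five 5 432 465) (mv 559 (both (five 6 463 591) (mv 561 (both (five 3 525 558) (five 4 464 593)))))))))))))))) (mv 460 (both (mv 427 (both (five 3 427 428) (mv 459 (both (five 3 426 426) (mv 491 (both (five 2 458 490) (five 2 459 492))))))) (mv 496 (both (five 0 460 495) (mv 464 (both (five 0 461 497) (mv 560 (both (five 7 431 431) (mv 433 (both (five 5 432 465) (mv 559 (both (five 6 463 591) (mv 561 (both (five 3 525 558) (five 4 464 593))))))))))))))))))))) (mv 494 (both (mv 429 (both (five 7 429 558) (mv 397 (both (five 4 365 365) (five 7 397 430))))) (both (mv 430 (both (mv 431 (both (five 5 398 399) (mv 432 (both (five 2 429 433) (mv 460 (both (five 1 427 459) (five 1 428 463))))))) (mv 397 (both (five 7 397 429) (mv 398 (both (five 7 365 365) (five 6 397 493))))))) (both (mv 429 (both (five 7 429 558) (mv 397 (both (five 4 365 365) (five 4 397 493))))) (mv 558 (both (mv 463 (both (five 5 430 431) (mv 495 (both (five 5 462 590) (mv 496 (both (five 3 461 497) (mv 523 (both (five 1 491 524) (mv 559 (both (five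 4 462 591) (mv 560 (both (five 3 525 561) (five 7 463 592))))))))))))) (both (mv 590 (both (five 7 461 493) (mv 591 (both (five 4 462 559) (five 4 494 623))))) (both (mv 431 (both (five 5 430 463) (mv 430 (both (five 5 398 399) (mv 433 (both (five 2 429 432) (mv 493 (both (five 6 397 398) (mv 559 (both (five 4 462 591) (mv 524 (both (five 0 523 523) (mv 496 (both (five 2 492 495) (mv 560 (both (five 3 525 561) (mv 465 (both (five 5 432 464) (mv 497 (both (five 6 400 401) (five 5 464 592))))))))))))))))))))) (mv 431 (both (five 5 430 463) (mv 430 (both (five 5 398 399) (mv 493 (both (five 6 397 398) (five 7 461 590)))))))))))))))))))))) (both (mv 493 (both (mv 429 (both (five 4 429 558) (mv 396 (both (five 7 396 428) (mv 397 (both (five 7 364 364) (five 4 397 494))))))) (both (mv 557 (both (mv 460 (both (five 7 428 428) (mv 492 (both (five 7 460 589) (mv 490 (both (five 0 490 491) (mv 556 (both (five 6 460 588) (mv 555 (both (five 1 522 554) (mv 524 (both (five 6 459 587) (mv 459 (both (five 7 427 427) (mv 458 (both (five 0 457 457) (five 2 457 489))))))))))))))))) (both (mv 460 (both (five 7 428 428)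 (mv 558 (both (five 4 461 590) (mv 589 (both (five 7 460 492) (mv 621 (both (five 5 493 494) (five 5 525 653))))))))) (mv 556 (both (five 6 460 588) (mv 555 (both (five 1 522 554) (mv 558 (both (five 4 461 590) (mv 523 (both (five 3 522 522) (mv 559 (both (five 0 523 524) (mv 560 (both (five 3 525 561) (mv 592 (both (five 0 556 591) (five 0 557 593)))))))))))))))))) (both (mv 429 (both (mv 396 (both (five 7 396 428) (mv 397 (both (five 7 364 364) (five 4 397 494))))) (both (mv 428 (both (five 7 396 396) (mv 556 (both (five 6 428 524) (mv 557 (both (five 7 428 460) (five 6 460 588))))))) (mv 397 (both (five 4 397 494) (mv 524 (both (five 6 396 492) (five 6 428 556)))))))) (both (mv 429 (both (five 4 429 558) (mv 396 (both (five 7 396 428) (mv 397 (both (five 7 364 364) (mv 524 (both (five 6 396 492) (five 6 428 556))))))))) (mv 429 (both (five 4 429 558) (mv 397 (both (five 4 397 494) (mv 524 (both (five 6 396 492) (five 6 428 556)))))))))))) (both (mv 493 (both (mv 429 (both (five 4 429 558) (mv 396 (both (five 7 396 428) (mv 397 (both (five 7 364 364) (five 4 397 494))))))) (both (mv 557 (both (mv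 462 (both (five 5 429 430) (mv 588 (both (five 6 460 556) (mv 589 (both (five 5 461 494) (five 6 492 620))))))) (both (mv 460 (both (five 7 428 428) (mv 558 (both (five 4 461 590) (mv 589 (both (five 7 460 492) (mv 621 (both (five 5 493 494) (five 5 525 653))))))))) (both (mv 460 (both (five 7 428 428) (mv 462 (both (five 5 429 430) (mv 492 (both (five 7 460 589) (mv 463 (both (five 2 460 464) (five 2 459 491))))))))) (mv 430 (both (five 5 429 462) (mv 460 (both (five 7 428 428) (mv 556 (both (five 6 460 588) (mv 555 (both (five 1 522 554) (mv 558 (both (five 4 461 590) (mv 523 (both (five 3 522 522) (mv 587 (both (five 2 554 586) (mv 491 (both (five 5 459 492) (mv 458 (both (five 7 458 490) (mv 459 (both (five 7 426 426) (five 0 458 494))))))))))))))))))))))))) (both (mv 557 (both (mv 462 (both (five 5 429 430) (mv 588 (both (five 6 460 556) (mv 589 (both (five 5 461 494) (five 6 492 620))))))) (both (mv 428 (both (five 7 428 460) (mv 429 (both (five 7 396 396) (mv 397 (both (five 4 397 494) (mv 398 (both (five 5 365 366) (five 5 397 430))))))))) (both (mv 428 (both (five 7 428 460) (mv 396 (both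 (five 7 396 429) (mv 588 (both (five 6 460 556) (mv 589 (both (five 6 492 620) (mv 494 (both (five 5 461 462) (five 5 493 621))))))))))) (mv 460 (both (five 7 428 428) (mv 462 (both (five 5 429 430) (mv 492 (both (five 7 460 589) (mv 463 (both (five 2 460 464) (five 2 459 491))))))))))))) (both (mv 429 (both (five 4 429 558) (mv 396 (both (five 7 396 428) (mv 397 (both (five 7 364 364) (mv 398 (both (five 5 365 366) (five 5 397 430))))))))) (mv 429 (both (five 4 429 558) (mv 397 (both (five 4 397 494) (mv 398 (both (five 5 365 366) (five 5 397 430)))))))))))) (both (mv 493 (both (mv 429 (both (five 4 429 558) (mv 396 (both (five 7 396 428) (mv 397 (both (five 7 364 364) (five 4 397 494))))))) (both (mv 557 (both (mv 462 (both (five 5 429 430) (mv 588 (both (five 6 460 556) (mv 589 (both (five 5 461 494) (five 6 492 620))))))) (both (mv 556 (both (five 6 460 588) (mv 555 (both (five 1 522 554) (mv 558 (both (five 4 461 590) (mv 523 (both (five 3 522 522) (mv 559 (both (five 0 523 524) (mv 560 (both (five 3 525 561) (mv 592 (both (five 0 556 591) (five 0 557 593))))))))))))))) (mv 462 (both (five 5 429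 430) (mv 494 (both (five 5 461 589) (mv 558 (both (five 7 461 590) (mv 431 (both (five 5 430 463) (mv 559 (both (five 4 462 591) (mv 524 (both (five 0 523 523) (five 3 524 560)))))))))))))))) (both (mv 429 (both (mv 396 (both (five 7 396 428) (mv 397 (both (five 7 364 364) (five 4 397 494))))) (mv 430 (both (five 5 397 398) (mv 556 (both (five 6 428 524) (mv 557 (both (five 5 429 462) (five 6 460 588))))))))) (mv 429 (both (five 4 429 558) (mv 430 (both (five 5 397 398) (mv 556 (both (five 6 428 524) (mv 557 (both (five 5 429 462) (five 6 460 588))))))))))))) (both (mv 493 (both (mv 429 (both (five 4 429 558) (mv 396 (both (five 7 396 428) (mv 397 (both (five 7 364 364) (five 4 397 494))))))) (both (mv 557 (both (mv 460 (both (five 7 428 428) (mv 462 (both (five 5 429 430) (mv 492 (both (five 7 460 589) (mv 463 (both (five 2 460 464) (five 2 459 491))))))))) (both (mv 460 (both (five 7 428 428) (mv 558 (both (five 4 461 590) (mv 589 (both (five 7 460 492) (mv 621 (both (five 5 493 494) (five 5 525 653))))))))) (both (mv 462 (both (five 5 429 430) (mv 494 (both (five 5 461 589) (mv 558 (both (five 7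 461 590) (mv 431 (both (five 5 430 463) (mv 559 (both (five 4 462 591) (mv 524 (both (five 0 523 523) (five 3 524 560))))))))))))) (mv 494 (both (mv 460 (both (five 7 428 428) (mv 459 (both (five 0 458 458) (mv 495 (both (five 3 459 492) (five 3 460 496))))))) (mv 462 (both (five 5 429 430) (mv 558 (both (five 7 461 590) (mv 559 (both (five 4 462 591) (mv 524 (both (five 0 523 523) (five 3 524 560))))))))))))))) (both (mv 429 (both (mv 396 (both (five 7 396 428) (mv 397 (both (five 7 364 364) (five 4 397 494))))) (both (mv 428 (both (five 7 396 396) (mv 427 (both (mv 426 (both (five 0 426 462) (mv 393 (both (five 3 393 394) (mv 425 (both (five 3 392 392) (five 0 425 460))))))) (both (mv 430 (both (five 5 397 398) (mv 459 (both (five 2 426 458) (mv 431 (both (five 2 427 460) (mv 399 (both (five 1 396 400) (mv 463 (both (five 0 428 464) (mv 495 (both (five 6 398 494) (five 4 399 496))))))))))))) (mv 398 (both (five 5 397 430) (mv 426 (both (five 0 426 462) (mv 393 (both (five 3 393 394) (mv 425 (both (five 3 392 392) (mv 457 (both (five 2 424 456) (five 2 425 458)))))))))))))))) (both (mv 396 (both (five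 7 396 428) (mv 397 (both (five 7 364 364) (mv 398 (both (five 5 365 366) (five 5 397 430))))))) (mv 397 (both (five 4 397 494) (mv 398 (both (five 5 365 366) (five 5 397 430))))))))) (both (mv 429 (both (five 4 429 558) (mv 396 (both (five 7 396 428) (mv 397 (both (five 7 364 364) (mv 398 (both (five 5 365 366) (five 5 397 430))))))))) (mv 429 (both (five 4 429 558) (mv 397 (both (five 4 397 494) (mv 398 (both (five 5 365 366) (five 5 397 430)))))))))))) (both (mv 493 (both (mv 429 (both (five 4 429 558) (mv 397 (both (five 4 397 494) (mv 524 (both (five 6 396 492) (five 6 428 556))))))) (both (mv 557 (both (mv 462 (both (five 5 429 430) (mv 588 (both (five 6 460 556) (mv 589 (both (five 5 461 494) (five 6 492 620))))))) (both (mv 556 (both (five 6 460 588) (mv 555 (both (five 1 522 554) (mv 558 (both (five 4 461 590) (mv 523 (both (five 3 522 522) (mv 559 (both (five 0 523 524) (mv 560 (both (five 3 525 561) (mv 592 (both (five 0 556 591) (five 0 557 593))))))))))))))) (mv 462 (both (five 5 429 430) (mv 494 (both (five 5 461 589) (mv 558 (both (five 7 461 590) (mv 431 (both (five 5 430 463) (mv 559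 (both (five 4 462 591) (mv 524 (both (five 0 523 523) (five 3 524 560)))))))))))))))) (both (mv 429 (both (mv 397 (both (five 4 397 494) (mv 524 (both (five 6 396 492) (five 6 428 556))))) (both (mv 430 (both (five 5 397 398) (mv 556 (both (five 6 428 524) (mv 557 (both (five 5 429 462) (five 6 460 588))))))) (mv 397 (both (five 4 397 494) (mv 398 (both (five 5 365 366) (five 5 397 430)))))))) (both (mv 429 (both (five 4 429 558) (mv 430 (both (five 5 397 398) (mv 556 (both (five 6 428 524) (mv 557 (both (five 5 429 462) (five 6 460 588))))))))) (mv 429 (both (five 4 429 558) (mv 397 (both (five 4 397 494) (mv 398 (both (five 5 365 366) (five 5 397 430)))))))))))) (mv 493 (both (mv 429 (both (five 4 429 558) (mv 430 (both (five 5 397 398) (mv 556 (both (five 6 428 524) (mv 557 (both (five 5 429 462) (five 6 460 588))))))))) (both (mv 557 (both (mv 462 (both (five 5 429 430) (mv 588 (both (five 6 460 556) (mv 589 (both (five 5 461 494) (five 6 492 620))))))) (both (mv 460 (both (five 7 428 428) (mv 492 (both (five 7 460 589) (mv 490 (both (five 0 490 491) (mv 556 (both (five 6 460 588) (mv 555 (both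 (five 1 522 554) (mv 524 (both (five 6 459 587) (mv 459 (both (five 7 427 427) (mv 458 (both (five 0 457 457) (five 2 457 489))))))))))))))))) (both (mv 460 (both (five 7 428 428) (mv 462 (both (five 5 429 430) (mv 492 (both (five 7 460 589) (mv 463 (both (five 2 460 464) (five 2 459 491))))))))) (mv 492 (both (mv 462 (both (five 5 429 430) (mv 463 (both (five 2 460 464) (mv 491 (both (five 0 490 490) (five 1 459 494))))))) (both (mv 460 (both (five 7 428 428) (mv 490 (both (five 0 490 491) (mv 556 (both (five 6 460 588) (mv 555 (both (five 1 522 554) (mv 524 (both (five 6 459 587) (mv 459 (both (five 7 427 427) (mv 458 (both (five 0 457 457) (five 2 457 489))))))))))))))) (mv 430 (both (five 5 429 462) (mv 460 (both (five 7 428 428) (mv 556 (both (five 6 460 588) (mv 555 (both (five 1 522 554) (mv 524 (both (five 6 459 587) (mv 459 (both (five 7 427 427) (mv 458 (both (five 0 457 457) (five 0 458 494)))))))))))))))))))))) (both (mv 429 (both (five 4 429 558) (mv 428 (both (five 7 396 396) (mv 427 (both (mv 426 (both (five 0 426 462) (mv 393 (both (five 3 393 394) (mv 425 (both (five 3 392 392) (five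 0 425 460))))))) (both (mv 430 (both (five 5 397 398) (mv 459 (both (five 2 426 458) (mv 431 (both (five 2 427 460) (mv 399 (both (five 1 396 400) (mv 463 (both (five 0 428 464) (mv 495 (both (five 6 398 494) (five 4 399 496))))))))))))) (mv 398 (both (five 5 397 430) (mv 426 (both (five 0 426 462) (mv 393 (both (five 3 393 394) (mv 425 (both (five 3 392 392) (mv 457 (both (five 2 424 456) (five 2 425 458)))))))))))))))))) (mv 557 (both (mv 460 (both (five 7 428 428) (mv 492 (both (five 7 460 589) (mv 490 (both (five 0 490 491) (mv 556 (both (five 6 460 588) (mv 555 (both (five 1 522 554) (mv 524 (both (five 6 459 587) (mv 459 (both (five 7 427 427) (mv 458 (both (five 0 457 457) (five 2 457 489))))))))))))))))) (both (mv 460 (both (five 7 428 428) (mv 558 (both (five 4 461 590) (mv 589 (both (five 7 460 492) (mv 621 (both (five 5 493 494) (five 5 525 653))))))))) (mv 556 (both (five 6 460 588) (mv 555 (both (five 1 522 554) (mv 558 (both (five 4 461 590) (mv 523 (both (five 3 522 522) (mv 559 (both (five 0 523 524) (mv 560 (both (five 3 525 561) (mv 592 (both (five 0 556 591) (five 0 557 593)))))))))))))))))))))))))))))))))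 (both (mv 527 (both (mv 492 (both (five 3 492 493) (mv 496 (both (five 1 493 497) (mv 524 (both (five 3 491 491) (five 1 492 495))))))) (both (mv 492 (both (five 3 492 493) (mv 524 (both (five 3 491 491) (mv 560 (both (five 0 524 559) (five 0 525 561))))))) (both (mv 496 (both (five 1 493 497) (mv 495 (both (five 1 492 524) (mv 560 (both (five 0 525 561) (mv 463 (both (five 4 431 431) (five 7 463 592))))))))) (mv 496 (both (five 1 493 497) (mv 464 (both (mv 432 (both (five 6 431 559) (mv 399 (both (five 7 399 431) (mv 400 (both (five 7 367 367) (five 6 399 495))))))) (both (mv 492 (both (five 3 492 493) (mv 560 (both (five 0 525 561) (mv 431 (both (five 7 431 463) (mv 432 (both (five 7 399 399) (mv 433 (both (five 5 400 401) (five 5 432 465))))))))))) (both (mv 492 (both (five 3 492 493) (mv 560 (both (five 0 525 561) (mv 431 (both (five 7 431 463) (mv 433 (both (five 5 432 465) (mv 591 (both (five 6 463 559) (mv 592 (both (five 6 495 623) (mv 624 (both (five 7 495 495) (mv 625 (both (five 4 496 593) (five 4 528 657))))))))))))))))) (mv 432 (both (five 6 431 559) (mv 400 (both (five 6 399 495) (mv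 401 (both (five 5 368 369) (five 5 400 433))))))))))))))))) (both (mv 527 (both (mv 493 (both (five 3 492 492) (mv 461 (both (mv 429 (both (five 4 429 558) (mv 396 (both (five 7 396 428) (mv 397 (both (five 7 364 364) (five 4 397 494))))))) (both (mv 557 (both (five 2 524 556) (mv 428 (both (five 7 428 460) (mv 462 (both (five 5 429 430) (mv 494 (both (five 5 461 589) (mv 558 (both (five 7 461 590) (mv 431 (both (five 5 430 463) (mv 559 (both (five 4 462 591) (mv 560 (both (five 0 525 561) (mv 592 (both (five 0 557 593) (mv 624 (both (five 7 495 495) (five 7 527 656))))))))))))))))))))) (both (mv 557 (both (five 2 524 556) (mv 428 (both (five 7 428 460) (mv 429 (both (five 7 396 396) (mv 397 (both (five 4 397 494) (mv 398 (both (five 5 365 366) (five 5 397 430))))))))))) (both (mv 429 (both (five 4 429 558) (mv 396 (both (five 7 396 428) (mv 397 (both (five 7 364 364) (mv 398 (both (five 5 365 366) (five 5 397 430))))))))) (mv 429 (both (five 4 429 558) (mv 397 (both (five 4 397 494) (mv 398 (both (five 5 365 366) (five 5 397 430)))))))))))))) (both (mv 496 (both (five 1 493 497) (mv 464 (both (mv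 432 (both (five 6 431 559) (mv 399 (both (five 7 399 431) (mv 400 (both (five 7 367 367) (five 6 399 495))))))) (both (mv 560 (both (five 0 525 561) (mv 431 (both (five 7 431 463) (mv 432 (both (five 7 399 399) (mv 433 (both (five 5 400 401) (five 5 432 465))))))))) (both (mv 560 (both (five 0 525 561) (mv 431 (both (five 7 431 463) (mv 433 (both (five 5 432 465) (mv 591 (both (five 6 463 559) (mv 592 (both (five 6 495 623) (mv 624 (both (five 7 495 495) (mv 625 (both (five 4 496 593) (five 4 528 657))))))))))))))) (mv 432 (both (five 6 431 559) (mv 400 (both (five 6 399 495) (mv 401 (both (five 5 368 369) (five 5 400 433))))))))))))) (both (mv 493 (both (five 3 492 492) (mv 461 (both (mv 429 (both (five 4 429 558) (mv 396 (both (five 7 396 428) (mv 397 (both (five 7 364 364) (five 4 397 494))))))) (both (mv 496 (both (five 1 493 497) (mv 557 (both (five 2 524 556) (mv 428 (both (five 7 428 460) (mv 462 (both (five 5 429 430) (mv 494 (both (five 5 461 589) (mv 558 (both (five 7 461 590) (mv 463 (both (five 5 430 431) (mv 464 (both (five 2 461 465) (mv 432 (both (five 1 429 433) (five 6 431 559)))))))))))))))))))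 (both (mv 557 (both (five 2 524 556) (mv 428 (both (five 7 428 460) (mv 429 (both (five 7 396 396) (mv 397 (both (five 4 397 494) (mv 398 (both (five 5 365 366) (five 5 397 430))))))))))) (both (mv 429 (both (five 4 429 558) (mv 396 (both (five 7 396 428) (mv 397 (both (five 7 364 364) (mv 398 (both (five 5 365 366) (five 5 397 430))))))))) (mv 429 (both (five 4 429 558) (mv 397 (both (five 4 397 494) (mv 398 (both (five 5 365 366) (five 5 397 430)))))))))))))) (both (mv 493 (both (five 3 492 492) (mv 461 (both (mv 429 (both (five 4 429 558) (mv 396 (both (five 7 396 428) (mv 397 (both (five 7 364 364) (five 4 397 494))))))) (both (mv 496 (both (five 1 493 497) (mv 557 (both (five 2 524 556) (mv 428 (both (five 7 428 460) (mv 462 (both (five 5 429 430) (mv 494 (both (five 5 461 589) (mv 558 (both (five 7 461 590) (mv 463 (both (five 5 430 431) (mv 464 (both (five 2 461 465) (mv 432 (both (five 1 429 433) (mv 495 (both (five 6 399 400) (mv 560 (both (five 0 525 561) (five 7 463 592))))))))))))))))))))))) (both (mv 557 (both (five 2 524 556) (mv 428 (both (five 7 428 460) (mv 429 (both (five 7 396 396)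 (mv 397 (both (five 4 397 494) (mv 398 (both (five 5 365 366) (five 5 397 430))))))))))) (both (mv 429 (both (five 4 429 558) (mv 396 (both (five 7 396 428) (mv 397 (both (five 7 364 364) (mv 398 (both (five 5 365 366) (five 5 397 430))))))))) (mv 429 (both (five 4 429 558) (mv 397 (both (five 4 397 494) (mv 398 (both (five 5 365 366) (five 5 397 430)))))))))))))) (mv 493 (both (five 3 492 492) (mv 461 (both (mv 429 (both (five 4 429 558) (mv 396 (both (five 7 396 428) (mv 397 (both (five 7 364 364) (five 4 397 494))))))) (both (mv 496 (both (five 1 493 497) (mv 557 (both (five 2 524 556) (mv 428 (both (five 7 428 460) (mv 462 (both (five 5 429 430) (mv 494 (both (five 5 461 589) (mv 558 (both (five 7 461 590) (mv 559 (both (five 4 462 591) (mv 560 (both (five 0 525 561) (mv 592 (both (five 0 557 593) (mv 624 (both (five 7 495 495) (five 7 527 656))))))))))))))))))))) (both (mv 557 (both (five 2 524 556) (mv 428 (both (five 7 428 460) (mv 429 (both (five 7 396 396) (mv 397 (both (five 4 397 494) (mv 398 (both (five 5 365 366) (five 5 397 430))))))))))) (both (mv 429 (both (five 4 429 558) (mv 396 (both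 (five 7 396 428) (mv 397 (both (five 7 364 364) (mv 398 (both (five 5 365 366) (five 5 397 430))))))))) (mv 429 (both (five 4 429 558) (mv 397 (both (five 4 397 494) (mv 398 (both (five 5 365 366) (five 5 397 430))))))))))))))))))) (both (mv 527 (both (mv 556 (both (five 2 524 557) (mv 524 (both (five 2 523 555) (mv 560 (both (five 0 524 559) (five 0 525 561))))))) (both (mv 496 (both (five 1 493 497) (mv 524 (both (five 1 492 495) (mv 556 (both (five 2 523 555) (five 2 524 557))))))) (mv 496 (both (five 1 493 497) (mv 464 (both (mv 432 (both (five 6 431 559) (mv 399 (both (five 7 399 431) (mv 400 (both (five 7 367 367) (five 6 399 495))))))) (both (mv 560 (both (five 0 525 561) (mv 431 (both (five 7 431 463) (mv 432 (both (five 7 399 399) (mv 433 (both (five 5 400 401) (five 5 432 465))))))))) (both (mv 560 (both (five 0 525 561) (mv 431 (both (five 7 431 463) (mv 433 (both (five 5 432 465) (mv 591 (both (five 6 463 559) (mv 592 (both (five 6 495 623) (mv 624 (both (five 7 495 495) (mv 625 (both (five 4 496 593) (five 4 528 657))))))))))))))) (mv 432 (both (five 6 431 559) (mv 400 (both (five 6 399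 495) (mv 401 (both (five 5 368 369) (five 5 400 433)))))))))))))))) (both (mv 527 (both (mv 492 (both (five 3 492 493) (mv 524 (both (five 3 491 491) (mv 560 (both (five 0 524 559) (five 0 525 561))))))) (both (mv 492 (both (five 3 492 493) (mv 524 (both (five 3 491 491) (mv 556 (both (five 2 523 555) (five 2 524 557))))))) (both (mv 556 (both (five 2 524 557) (mv 524 (both (five 2 523 555) (mv 560 (both (five 0 524 559) (five 0 525 561))))))) (mv 493 (both (five 3 492 492) (mv 461 (both (mv 429 (both (five 4 429 558) (mv 396 (both (five 7 396 428) (mv 397 (both (five 7 364 364) (five 4 397 494))))))) (both (mv 557 (both (five 2 524 556) (mv 428 (both (five 7 428 460) (mv 462 (both (five 5 429 430) (mv 494 (both (five 5 461 589) (mv 558 (both (five 7 461 590) (mv 431 (both (five 5 430 463) (mv 559 (both (five 4 462 591) (mv 560 (both (five 0 525 561) (mv 592 (both (five 0 557 593) (mv 624 (both (five 7 495 495) (five 7 527 656))))))))))))))))))))) (both (mv 557 (both (five 2 524 556) (mv 428 (both (five 7 428 460) (mv 429 (both (five 7 396 396) (mv 397 (both (five 4 397 494) (mv 398 (both (five 5 365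 366) (five 5 397 430))))))))))) (both (mv 429 (both (five 4 429 558) (mv 396 (both (five 7 396 428) (mv 397 (both (five 7 364 364) (mv 398 (both (five 5 365 366) (five 5 397 430))))))))) (mv 429 (both (five 4 429 558) (mv 397 (both (five 4 397 494) (mv 398 (both (five 5 365 366) (five 5 397 430)))))))))))))))))) (both (mv 527 (both (mv 492 (both (five 3 492 493) (mv 496 (both (five 1 493 497) (mv 524 (both (five 3 491 491) (five 1 492 495))))))) (both (mv 492 (both (five 3 492 493) (mv 524 (both (five 3 491 491) (mv 556 (both (five 2 523 555) (five 2 524 557))))))) (both (mv 496 (both (five 1 493 497) (mv 524 (both (five 1 492 495) (mv 556 (both (five 2 523 555) (five 2 524 557))))))) (mv 493 (both (five 3 492 492) (mv 461 (both (mv 429 (both (five 4 429 558) (mv 396 (both (five 7 396 428) (mv 397 (both (five 7 364 364) (five 4 397 494))))))) (both (mv 496 (both (five 1 493 497) (mv 557 (both (five 2 524 556) (mv 428 (both (five 7 428 460) (mv 462 (both (five 5 429 430) (mv 494 (both (five 5 461 589) (mv 558 (both (five 7 461 590) (mv 463 (both (five 5 430 431) (mv 464 (both (five 2 461 465) (mv 432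 (both (five 1 429 433) (five 6 431 559))))))))))))))))))) (both (mv 557 (both (five 2 524 556) (mv 428 (both (five 7 428 460) (mv 429 (both (five 7 396 396) (mv 397 (both (five 4 397 494) (mv 398 (both (five 5 365 366) (five 5 397 430))))))))))) (both (mv 429 (both (five 4 429 558) (mv 396 (both (five 7 396 428) (mv 397 (both (five 7 364 364) (mv 398 (both (five 5 365 366) (five 5 397 430))))))))) (mv 429 (both (five 4 429 558) (mv 397 (both (five 4 397 494) (mv 398 (both (five 5 365 366) (five 5 397 430)))))))))))))))))) (both (mv 527 (both (mv 492 (both (five 3 492 493) (mv 496 (both (five 1 493 497) (mv 524 (both (five 3 491 491) (five 1 492 495))))))) (both (mv 492 (both (five 3 492 493) (mv 524 (both (five 3 491 491) (mv 556 (both (five 2 523 555) (five 2 524 557))))))) (both (mv 496 (both (five 1 493 497) (mv 524 (both (five 1 492 495) (mv 556 (both (five 2 523 555) (five 2 524 557))))))) (mv 493 (both (five 3 492 492) (mv 461 (both (mv 429 (both (five 4 429 558) (mv 396 (both (five 7 396 428) (mv 397 (both (five 7 364 364) (five 4 397 494))))))) (both (mv 496 (both (five 1 493 497) (mv 557 (both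 (five 2 524 556) (mv 428 (both (five 7 428 460) (mv 462 (both (five 5 429 430) (mv 494 (both (five 5 461 589) (mv 558 (both (five 7 461 590) (mv 463 (both (five 5 430 431) (mv 464 (both (five 2 461 465) (mv 432 (both (five 1 429 433) (mv 495 (both (five 6 399 400) (mv 560 (both (five 0 525 561) (five 7 463 592))))))))))))))))))))))) (both (mv 557 (both (five 2 524 556) (mv 428 (both (five 7 428 460) (mv 429 (both (five 7 396 396) (mv 397 (both (five 4 397 494) (mv 398 (both (five 5 365 366) (five 5 397 430))))))))))) (both (mv 429 (both (five 4 429 558) (mv 396 (both (five 7 396 428) (mv 397 (both (five 7 364 364) (mv 398 (both (five 5 365 366) (five 5 397 430))))))))) (mv 429 (both (five 4 429 558) (mv 397 (both (five 4 397 494) (mv 398 (both (five 5 365 366) (five 5 397 430)))))))))))))))))) (both (mv 527 (both (mv 492 (both (five 3 492 493) (mv 524 (both (five 3 491 491) (mv 560 (both (five 0 524 559) (five 0 525 561))))))) (both (mv 492 (both (five 3 492 493) (mv 524 (both (five 3 491 491) (mv 556 (both (five 2 523 555) (five 2 524 557))))))) (both (mv 556 (both (five 2 524 557) (mv 524 (both (five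 2 523 555) (mv 560 (both (five 0 524 559) (five 0 525 561))))))) (mv 493 (both (five 3 492 492) (mv 461 (both (mv 429 (both (five 4 429 558) (mv 396 (both (five 7 396 428) (mv 397 (both (five 7 364 364) (five 4 397 494))))))) (both (mv 496 (both (five 1 493 497) (mv 557 (both (five 2 524 556) (mv 428 (both (five 7 428 460) (mv 462 (both (five 5 429 430) (mv 494 (both (five 5 461 589) (mv 558 (both (five 7 461 590) (mv 463 (both (five 5 430 431) (mv 464 (both (five 2 461 465) (mv 432 (both (five 1 429 433) (five 6 431 559))))))))))))))))))) (both (mv 557 (both (five 2 524 556) (mv 428 (both (five 7 428 460) (mv 429 (both (five 7 396 396) (mv 397 (both (five 4 397 494) (mv 398 (both (five 5 365 366) (five 5 397 430))))))))))) (both (mv 429 (both (five 4 429 558) (mv 396 (both (five 7 396 428) (mv 397 (both (five 7 364 364) (mv 398 (both (five 5 365 366) (five 5 397 430))))))))) (mv 429 (both (five 4 429 558) (mv 397 (both (five 4 397 494) (mv 398 (both (five 5 365 366) (five 5 397 430)))))))))))))))))) (mv 527 (both (mv 492 (both (five 3 492 493) (mv 496 (both (five 1 493 497) (mv 524 (both (five 3 491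 491) (five 1 492 495))))))) (both (mv 556 (both (five 2 524 557) (mv 524 (both (five 2 523 555) (mv 560 (both (five 0 524 559) (five 0 525 561))))))) (mv 493 (both (five 3 492 492) (mv 461 (both (mv 429 (both (five 4 429 558) (mv 396 (both (five 7 396 428) (mv 397 (both (five 7 364 364) (five 4 397 494))))))) (both (mv 496 (both (five 1 493 497) (mv 557 (both (five 2 524 556) (mv 428 (both (five 7 428 460) (mv 462 (both (five 5 429 430) (mv 494 (both (five 5 461 589) (mv 558 (both (five 7 461 590) (mv 559 (both (five 4 462 591) (mv 560 (both (five 0 525 561) (mv 592 (both (five 0 557 593) (mv 624 (both (five 7 495 495) (five 7 527 656))))))))))))))))))))) (both (mv 557 (both (five 2 524 556) (mv 428 (both (five 7 428 460) (mv 429 (both (five 7 396 396) (mv 397 (both (five 4 397 494) (mv 398 (both (five 5 365 366) (five 5 397 430))))))))))) (both (mv 429 (both (five 4 429 558) (mv 396 (both (five 7 396 428) (mv 397 (both (five 7 364 364) (mv 398 (both (five 5 365 366) (five 5 397 430))))))))) (mv 429 (both (five 4 429 558) (mv 397 (both (five 4 397 494) (mv 398 (both (five 5 365 366) (five 5 397 430)))))))))))))))))))))))))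

theorem L78 : W (S 988530863058807798957393715067720623286798683220635978952802738122718218409262471505648588255249455916730668840373243557345566271959196709010660073920568229888) (S 943731717132805241660791865055261639433176873334723597973072602557248734294306996851911705096672473968206390631568618832466616676007202635497554054622608925261078765205669853474886592766584815616000) :=
  check_sound Env.nil (x := 526) (t := tL78) (by decide +kernel)

end P062.Cert
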