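import Vale.Agent.P062.Check

/-! Snaky certificate, part 13 (machine generated, checked by the kernel) -/

set_option maxRecDepth 100000

namespace P062.Cert

open T

def tL79 : T :=
  (both (mv 493 (both (mv 557 (both (mv 461 (both (mv 556 (both (five 6 460 588) (mv 558 (both (five 1 524 559) (five 4 461 590))))) (mv 428 (both (five 7 428 460) (mv 429 (both (five 7 396 396) (mv 430 (both (five 5 397 398) (five 5 429 462))))))))) (both (mv 589 (both (mv 620 (both (five 6 492 588) (mv 621 (both (five 6 524 652) (mv 622 (both (five 4 493 590) (five 4 525 654))))))) (both (mv 492 (both (five 7 460 460) (mv 621 (both (five 7 492 524) (mv 622 (both (five 4 493 590) (five 4 525 654))))))) (both (mv 492 (both (five 7 460 460) (mv 620 (both (five 6 492 588) (mv 621 (both (five 7 492 524) (five 6 524 652))))))) (mv 556 (both (mv 462 (both (five 5 461 494) (mv 492 (both (five 7 460 460) (mv 558 (both (five 1 524 559) (mv 588 (both (five 6 492 620) (mv 587 (both (five 1 554 586) (mv 524 (both (five 6 491 619) (mv 491 (both (five 7 459 459) (mv 490 (both (five 0 489 489) (mv 522 (both (five 2 489 521) (five 0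 522 523))))))))))))))))))) (both (mv 460 (both (five 7 460 492) (mv 462 (both (five 5 461 494) (mv 588 (both (five 6 492 620) (mv 590 (both (five 4 493 622) (mv 555 (both (five 0 554 554) (five 3 555 591))))))))))) (mv 558 (both (five 1 524 559) (mv 590 (both (five 4 493 622) (mv 555 (both (five 0 554 554) (five 0 555 591)))))))))))))) (both (mv 589 (both (mv 620 (both (five 6 492 588) (mv 621 (both (five 6 524 652) (mv 622 (both (five 4 493 590) (five 4 525 654))))))) (mv 460 (both (five 7 460 492) (mv 461 (both (five 7 428 428) (mv 462 (both (five 5 429 430) (five 5 461 494))))))))) (both (mv 461 (both (mv 428 (both (five 7 428 460) (mv 429 (both (five 7 396 396) (mv 430 (both (five 5 397 398) (five 5 429 462))))))) (both (mv 428 (both (five 7 428 460) (mv 429 (both (five 7 396 396) (mv 556 (both (five 6 428 524) (mv 558 (both (five 1 524 559) (five 4 461 590))))))))) (both (mv 430 (both (five 5 429 462) (mv 429 (both (five 5 397 398) (mv 556 (both (five 6 428 524) (mv 558 (both (five 1 524 559) (five 4 461 590))))))))) (mv 428 (both (five 7 428 460) (mv 462 (both (five 5 429 430) (mv 494 (both (five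 5 461 589) (mv 558 (both (five 4 461 590) (mv 559 (both (five 1 524 556) (mv 560 (both (five 3 524 524) (mv 593 (both (five 0 557 592) (mv 561 (both (five 0 558 594) (mv 464 (both (five 4 464 496) (mv 463 (both (five 2 461 465) (five 2 460 492))))))))))))))))))))))))) (both (mv 589 (both (mv 620 (both (five 6 492 588) (mv 621 (both (five 6 524 652) (mv 622 (both (five 4 493 590) (five 4 525 654))))))) (both (mv 462 (both (five 5 461 494) (mv 430 (both (five 5 429 461) (mv 622 (both (five 4 493 590) (mv 621 (both (five 4 525 654) (mv 524 (both (five 7 492 492) (mv 652 (both (five 6 524 620) (mv 653 (both (five 7 524 556) (five 6 556 684))))))))))))))) (both (mv 462 (both (five 5 461 494) (mv 430 (both (five 5 429 461) (mv 620 (both (five 6 492 588) (mv 621 (both (five 6 524 652) (mv 524 (both (five 7 492 492) (mv 653 (both (five 7 524 556) (mv 654 (both (five 4 525 622) (five 4 557 686))))))))))))))) (mv 462 (both (five 5 461 494) (mv 461 (both (five 5 429 430) (mv 556 (both (five 6 460 588) (mv 558 (both (five 1 524 559) (five 4 461 590))))))))))))) (both (mv 461 (both (mv 428 (both (five 7 428 460)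 (mv 429 (both (five 7 396 396) (mv 430 (both (five 5 397 398) (five 5 429 462))))))) (both (mv 430 (both (five 5 429 462) (mv 429 (both (five 5 397 398) (mv 556 (both (five 6 428 524) (five 6 460 588))))))) (both (mv 428 (both (five 7 428 460) (mv 429 (both (five 7 396 396) (mv 556 (both (five 6 428 524) (five 6 460 588))))))) (mv 428 (both (five 7 428 460) (mv 462 (both (five 5 429 430) (mv 588 (both (five 6 460 556) (mv 589 (both (five 5 461 494) (five 6 492 620))))))))))))) (mv 589 (both (mv 620 (both (five 6 492 588) (mv 621 (both (five 6 524 652) (mv 622 (both (five 4 493 590) (five 4 525 654))))))) (both (mv 492 (both (five 7 460 460) (mv 621 (both (five 7 492 524) (mv 622 (both (five 4 493 590) (five 4 525 654))))))) (both (mv 492 (both (five 7 460 460) (mv 620 (both (five 6 492 588) (mv 621 (both (five 7 492 524) (five 6 524 652))))))) (mv 460 (both (five 7 460 492) (mv 461 (both (five 7 428 428) (mv 556 (both (five 6 460 588) (mv 558 (both (five 1 524 559) (five 4 461 590)))))))))))))))))))) (both (mv 557 (both (mv 461 (both (mv 556 (both (five 6 460 588) (mv 558 (both (five 1 524 559) (five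 4 461 590))))) (mv 428 (both (five 7 428 460) (mv 429 (both (five 7 396 396) (mv 430 (both (five 5 397 398) (five 5 429 462))))))))) (both (mv 589 (both (mv 620 (both (five 6 492 588) (mv 621 (both (five 6 524 652) (mv 622 (both (five 4 493 590) (five 4 525 654))))))) (both (mv 492 (both (five 7 460 460) (mv 621 (both (five 7 492 524) (mv 622 (both (five 4 493 590) (five 4 525 654))))))) (both (mv 492 (both (five 7 460 460) (mv 620 (both (five 6 492 588) (mv 621 (both (five 7 492 524) (five 6 524 652))))))) (mv 556 (both (mv 558 (both (five 1 524 559) (mv 590 (both (five 4 493 622) (mv 555 (both (five 0 554 554) (five 0 555 591))))))) (both (mv 492 (both (five 7 460 460) (mv 558 (both (five 1 524 559) (mv 588 (both (five 6 492 620) (mv 587 (both (five 1 554 586) (mv 524 (both (five 6 491 619) (mv 491 (both (five 7 459 459) (mv 490 (both (five 0 489 489) (mv 522 (both (five 2 489 521) (five 0 522 523))))))))))))))))) (mv 588 (both (five 6 492 620) (mv 590 (both (five 4 493 622) (mv 555 (both (five 0 554 554) (five 3 555 591)))))))))))))) (both (mv 589 (both (mv 620 (both (five 6 492 588) (mv 621 (both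 (five 6 524 652) (mv 622 (both (five 4 493 590) (five 4 525 654))))))) (both (mv 492 (both (five 7 460 460) (mv 620 (both (five 6 492 588) (mv 621 (both (five 7 492 524) (five 6 524 652))))))) (mv 460 (both (five 7 460 492) (mv 461 (both (five 7 428 428) (mv 590 (both (five 4 461 558) (five 4 493 622)))))))))) (both (mv 461 (both (mv 428 (both (five 7 428 460) (mv 429 (both (five 7 396 396) (mv 430 (both (five 5 397 398) (five 5 429 462))))))) (both (mv 430 (both (five 5 429 462) (mv 429 (both (five 5 397 398) (mv 556 (both (five 6 428 524) (five 6 460 588))))))) (both (mv 428 (both (five 7 428 460) (mv 429 (both (five 7 396 396) (mv 556 (both (five 6 428 524) (five 6 460 588))))))) (mv 430 (both (five 5 429 462) (mv 460 (both (five 7 428 428) (mv 588 (both (five 6 460 556) (mv 589 (both (five 7 460 492) (five 6 492 620))))))))))))) (mv 558 (both (mv 559 (both (five 1 524 556) (mv 560 (both (five 3 524 524) (mv 592 (both (five 0 557 593) (mv 495 (both (five 4 463 463) (five 7 495 624))))))))) (mv 590 (both (five 4 461 461) (mv 622 (both (five 4 493 589) (five 7 525 654)))))))))))) (both (mv 495 (both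 (mv 494 (both (five 0 492 492) (mv 496 (both (five 2 492 524) (mv 460 (both (five 3 460 461) (mv 464 (both (five 1 461 465) (mv 432 (both (five 6 399 400) (five 6 431 559))))))))))) (both (mv 463 (both (mv 431 (both (five 4 431 560) (mv 398 (both (five 7 398 430) (mv 399 (both (five 7 366 366) (five 4 399 496))))))) (both (mv 559 (both (mv 590 (both (five 6 462 558) (mv 591 (both (five 6 494 622) (mv 592 (both (five 4 463 560) (five 4 495 624))))))) (mv 462 (both (five 7 430 430) (mv 464 (both (five 5 431 432) (mv 461 (both (five 2 460 492) (mv 496 (both (five 0 460 460) (five 0 461 497))))))))))) (both (mv 431 (both (mv 398 (both (five 7 398 430) (mv 399 (both (five 7 366 366) (five 4 399 496))))) (both (mv 430 (both (five 7 398 398) (mv 432 (both (five 5 399 400) (mv 559 (both (five 7 430 462) (five 5 431 464))))))) (mv 399 (both (five 4 399 496) (mv 400 (both (five 5 367 368) (five 5 399 432)))))))) (both (mv 431 (both (five 4 431 560) (mv 430 (both (five 7 398 398) (mv 432 (both (five 5 399 400) (mv 559 (both (five 7 430 462) (five 5 431 464))))))))) (mv 431 (both (five 4 431 560) (mv 399 (both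 (five 4 399 496) (mv 400 (both (five 5 367 368) (five 5 399 432)))))))))))) (both (mv 463 (both (mv 431 (both (five 4 431 560) (mv 398 (both (five 7 398 430) (mv 399 (both (five 7 366 366) (five 4 399 496))))))) (both (mv 559 (both (mv 590 (both (five 6 462 558) (mv 591 (both (five 6 494 622) (mv 592 (both (five 4 463 560) (five 4 495 624))))))) (both (mv 464 (both (five 5 431 432) (mv 590 (both (five 6 462 558) (mv 591 (both (five 5 463 496) (five 6 494 622))))))) (mv 462 (both (five 7 430 430) (mv 464 (both (five 5 431 432) (mv 465 (both (five 2 461 494) (mv 433 (both (five 1 430 434) (mv 560 (both (five 5 432 496) (five 4 463 592)))))))))))))) (both (mv 431 (both (mv 398 (both (five 7 398 430) (mv 399 (both (five 7 366 366) (five 4 399 496))))) (both (mv 430 (both (five 7 398 398) (mv 432 (both (five 5 399 400) (mv 559 (both (five 7 430 462) (five 5 431 464))))))) (mv 399 (both (five 4 399 496) (mv 400 (both (five 5 367 368) (five 5 399 432)))))))) (both (mv 431 (both (five 4 431 560) (mv 430 (both (five 7 398 398) (mv 432 (both (five 5 399 400) (mv 559 (both (five 7 430 462) (five 5 431 464)))))))))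 (mv 431 (both (five 4 431 560) (mv 399 (both (five 4 399 496) (mv 400 (both (five 5 367 368) (five 5 399 432)))))))))))) (both (mv 463 (both (mv 559 (both (mv 590 (both (five 6 462 558) (mv 591 (both (five 6 494 622) (mv 592 (both (five 4 463 560) (five 4 495 624))))))) (mv 462 (both (five 7 430 430) (mv 464 (both (five 5 431 432) (mv 492 (both (five 2 460 461) (five 1 460 494))))))))) (both (mv 462 (both (mv 430 (both (five 7 430 559) (mv 398 (both (five 4 366 366) (five 7 398 431))))) (mv 492 (both (five 0 492 494) (mv 461 (both (five 2 460 464) (mv 491 (both (five 2 459 460) (five 1 458 490))))))))) (both (mv 431 (both (five 4 431 560) (mv 398 (both (five 7 398 430) (mv 399 (both (five 7 366 366) (mv 400 (both (five 5 367 368) (five 5 399 432))))))))) (mv 431 (both (five 4 431 560) (mv 400 (both (five 5 399 432) (mv 399 (both (five 5 367 368) (mv 366 (both (five 7 366 398) (mv 367 (both (five 7 334 334) (mv 494 (both (five 6 366 462) (five 0 492 492))))))))))))))))) (both (mv 494 (both (five 0 492 492) (mv 496 (both (five 2 492 524) (mv 460 (both (five 3 460 461) (mv 464 (both (five 1 461 465) (mv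 432 (both (five 6 399 400) (mv 401 (both (five 5 400 433) (mv 431 (both (five 7 399 399) (mv 560 (both (five 7 431 463) (mv 592 (both (five 7 495 624) (mv 593 (both (five 4 464 561) (five 4 496 625))))))))))))))))))))) (mv 494 (both (five 0 492 492) (mv 496 (both (five 2 492 524) (mv 461 (both (five 3 460 460) (mv 462 (both (five 3 461 497) (mv 430 (both (five 6 397 398) (mv 559 (both (five 7 430 463) (five 7 462 591))))))))))))))))))) (both (mv 495 (both (mv 463 (both (mv 431 (both (five 4 431 560) (mv 398 (both (five 7 398 430) (mv 399 (both (five 7 366 366) (five 4 399 496))))))) (both (mv 559 (both (mv 590 (both (five 6 462 558) (mv 591 (both (five 6 494 622) (mv 592 (both (five 4 463 560) (five 4 495 624))))))) (both (mv 464 (both (five 5 431 432) (mv 590 (both (five 6 462 558) (mv 591 (both (five 5 463 496) (five 6 494 622))))))) (mv 462 (both (five 7 430 430) (mv 464 (both (five 5 431 432) (mv 465 (both (five 2 461 494) (mv 433 (both (five 1 430 434) (mv 560 (both (five 5 432 496) (five 4 463 592)))))))))))))) (both (mv 431 (both (mv 398 (both (five 7 398 430) (mv 399 (both (five 7 366 366)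 (five 4 399 496))))) (both (mv 430 (both (five 7 398 398) (mv 432 (both (five 5 399 400) (mv 559 (both (five 7 430 462) (five 5 431 464))))))) (mv 399 (both (five 4 399 496) (mv 400 (both (five 5 367 368) (five 5 399 432)))))))) (both (mv 431 (both (five 4 431 560) (mv 430 (both (five 7 398 398) (mv 432 (both (five 5 399 400) (mv 559 (both (five 7 430 462) (five 5 431 464))))))))) (mv 431 (both (five 4 431 560) (mv 399 (both (five 4 399 496) (mv 400 (both (five 5 367 368) (five 5 399 432)))))))))))) (both (mv 463 (both (mv 559 (both (mv 590 (both (five 6 462 558) (mv 591 (both (five 6 494 622) (mv 592 (both (five 4 463 560) (five 4 495 624))))))) (both (mv 432 (both (five 5 431 464) (mv 462 (both (five 7 430 430) (mv 494 (both (five 7 462 591) (mv 557 (both (five 5 461 589) (mv 558 (both (five 1 524 556) (five 6 462 590))))))))))) (both (mv 432 (both (five 5 431 464) (mv 462 (both (five 7 430 430) (mv 591 (both (five 7 462 494) (mv 592 (both (five 4 463 560) (five 4 495 624))))))))) (mv 430 (both (five 7 430 462) (mv 432 (both (five 5 431 464) (mv 558 (both (five 6 462 590) (mv 557 (both (five 1 524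 556) (mv 560 (both (five 3 524 524) (five 4 463 592))))))))))))))) (both (mv 430 (both (mv 398 (both (five 7 398 431) (mv 462 (both (five 4 366 366) (five 6 397 494))))) (both (mv 431 (both (five 7 398 398) (mv 432 (both (five 5 399 400) (mv 464 (both (five 5 431 559) (mv 429 (both (five 0 428 428) (five 0 429 465))))))))) (mv 462 (both (five 7 430 559) (mv 557 (both (five 5 429 461) (mv 589 (both (five 5 461 494) (mv 620 (both (five 6 492 588) (mv 621 (both (five 6 524 652) (mv 622 (both (five 4 493 590) (five 4 525 654)))))))))))))))) (both (mv 431 (both (five 4 431 560) (mv 398 (both (five 7 398 430) (mv 399 (both (five 7 366 366) (mv 400 (both (five 5 367 368) (five 5 399 432))))))))) (mv 560 (both (five 4 431 431) (mv 592 (both (five 4 463 559) (five 7 495 624))))))))) (both (mv 557 (both (mv 461 (both (mv 556 (both (five 6 460 588) (mv 558 (both (five 1 524 559) (five 4 461 590))))) (mv 428 (both (five 7 428 460) (mv 429 (both (five 7 396 396) (mv 430 (both (five 5 397 398) (five 5 429 462))))))))) (both (mv 589 (both (mv 620 (both (five 6 492 588) (mv 621 (both (five 6 524 652) (mv 622 (both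 (five 4 493 590) (five 4 525 654))))))) (mv 494 (both (five 5 461 462) (mv 496 (both (five 2 492 524) (mv 464 (both (five 1 461 465) (mv 432 (both (five 6 399 400) (five 6 431 559))))))))))) (both (mv 461 (both (mv 428 (both (five 7 428 460) (mv 429 (both (five 7 396 396) (mv 430 (both (five 5 397 398) (five 5 429 462))))))) (both (mv 430 (both (five 5 429 462) (mv 429 (both (five 5 397 398) (mv 556 (both (five 6 428 524) (five 6 460 588))))))) (both (mv 428 (both (five 7 428 460) (mv 429 (both (five 7 396 396) (mv 556 (both (five 6 428 524) (five 6 460 588))))))) (mv 428 (both (five 7 428 460) (mv 462 (both (five 5 429 430) (mv 588 (both (five 6 460 556) (mv 589 (both (five 5 461 494) (five 6 492 620))))))))))))) (both (mv 461 (both (mv 556 (both (five 6 460 588) (mv 558 (both (five 1 524 559) (five 4 461 590))))) (both (mv 460 (both (five 7 428 428) (mv 496 (both (five 3 460 494) (mv 590 (both (five 4 461 558) (mv 589 (both (five 4 493 622) (mv 620 (both (five 6 492 588) (mv 621 (both (five 6 524 652) (mv 592 (both (five 2 588 591) (mv 560 (both (five 7 495 624) (mv 465 (both (five 5 464 497) (mv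 464 (both (five 5 432 433) (mv 432 (both (five 6 399 400) (five 6 431 559))))))))))))))))))))))) (both (mv 428 (both (five 7 428 460) (mv 429 (both (five 7 396 396) (mv 556 (both (five 6 428 524) (five 6 460 588))))))) (mv 428 (both (five 7 428 460) (mv 429 (both (five 7 396 396) (mv 556 (both (five 6 428 524) (mv 558 (both (five 1 524 559) (five 4 461 590))))))))))))) (mv 461 (both (mv 428 (both (five 7 428 460) (mv 429 (both (five 7 396 396) (mv 430 (both (five 5 397 398) (five 5 429 462))))))) (both (mv 428 (both (five 7 428 460) (mv 429 (both (five 7 396 396) (mv 556 (both (five 6 428 524) (mv 558 (both (five 1 524 559) (five 4 461 590))))))))) (both (mv 430 (both (five 5 429 462) (mv 429 (both (five 5 397 398) (mv 556 (both (five 6 428 524) (mv 558 (both (five 1 524 559) (five 4 461 590))))))))) (mv 428 (both (five 7 428 460) (mv 430 (both (five 5 429 462) (mv 558 (both (five 4 461 590) (mv 559 (both (five 1 524 556) (mv 524 (both (five 3 524 560) (mv 496 (both (five 2 492 494) (mv 464 (both (five 6 431 432) (five 5 463 591)))))))))))))))))))))))) (both (mv 494 (both (mv 496 (both (five 2 492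 524) (mv 464 (both (five 1 461 465) (mv 432 (both (five 6 399 400) (five 6 431 559))))))) (both (mv 462 (both (mv 430 (both (five 6 397 398) (mv 559 (both (five 7 430 463) (five 7 462 591))))) (both (mv 557 (both (five 5 461 589) (mv 559 (both (five 7 462 591) (mv 556 (both (five 1 524 558) (mv 461 (both (five 6 460 588) (mv 460 (both (five 7 428 428) (five 0 459 459))))))))))) (mv 430 (both (five 6 397 398) (mv 557 (both (five 5 429 461) (five 5 461 589)))))))) (mv 496 (both (five 2 492 524) (mv 461 (both (five 3 460 460) (mv 462 (both (five 3 461 497) (mv 430 (both (five 4 398 398) (five 5 429 557)))))))))))) (both (mv 463 (both (mv 560 (both (five 4 431 431) (mv 592 (both (five 4 463 559) (five 7 495 624))))) (both (mv 559 (both (mv 464 (both (five 5 431 432) (mv 590 (both (five 6 462 558) (mv 591 (both (five 5 463 496) (five 6 494 622))))))) (both (mv 464 (both (five 5 431 432) (mv 496 (both (five 5 463 591) (mv 560 (both (five 7 463 592) (mv 465 (both (five 5 432 433) (mv 466 (both (five 2 463 467) (mv 498 (both (five 0 463 499) (mv 561 (both (five 4 464 593) (mv 562 (both (five 3 527 563) (mv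 530 (both (five 1 527 531) (mv 594 (both (five 7 465 497) (five 0 559 595))))))))))))))))))))) (mv 558 (both (five 6 462 590) (mv 557 (both (five 1 524 556) (mv 560 (both (five 3 524 524) (five 4 463 592)))))))))) (both (mv 431 (both (mv 398 (both (five 7 398 430) (mv 399 (both (five 7 366 366) (five 4 399 496))))) (both (mv 430 (both (five 7 398 398) (mv 432 (both (five 5 399 400) (mv 559 (both (five 7 430 462) (five 5 431 464))))))) (mv 399 (both (five 4 399 496) (mv 400 (both (five 5 367 368) (five 5 399 432)))))))) (mv 431 (both (five 4 431 560) (mv 398 (both (five 7 398 430) (mv 399 (both (five 7 366 366) (five 4 399 496))))))))))) (both (mv 557 (both (mv 461 (both (mv 428 (both (five 7 428 460) (mv 429 (both (five 7 396 396) (mv 430 (both (five 5 397 398) (five 5 429 462))))))) (both (mv 430 (both (five 5 429 462) (mv 429 (both (five 5 397 398) (mv 556 (both (five 6 428 524) (five 6 460 588))))))) (both (mv 428 (both (five 7 428 460) (mv 429 (both (five 7 396 396) (mv 556 (both (five 6 428 524) (five 6 460 588))))))) (mv 428 (both (five 7 428 460) (mv 462 (both (five 5 429 430) (mv 588 (both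 (five 6 460 556) (mv 589 (both (five 5 461 494) (five 6 492 620))))))))))))) (both (mv 589 (both (mv 620 (both (five 6 492 588) (mv 621 (both (five 6 524 652) (mv 622 (both (five 4 493 590) (five 4 525 654))))))) (mv 494 (both (five 5 461 462) (mv 496 (both (five 2 492 524) (mv 464 (both (five 1 461 465) (mv 432 (both (five 6 399 400) (mv 401 (both (five 5 400 433) (mv 431 (both (five 7 399 399) (mv 560 (both (five 7 431 463) (mv 592 (both (five 7 495 624) (mv 593 (both (five 4 464 561) (five 4 496 625))))))))))))))))))))) (both (mv 461 (both (mv 430 (both (five 5 429 462) (mv 429 (both (five 5 397 398) (mv 556 (both (five 6 428 524) (five 6 460 588))))))) (both (mv 428 (both (five 7 428 460) (mv 429 (both (five 7 396 396) (mv 556 (both (five 6 428 524) (five 6 460 588))))))) (mv 460 (both (five 7 428 428) (mv 462 (both (five 5 429 430) (mv 494 (both (five 0 459 459) (five 3 460 496)))))))))) (both (mv 461 (both (mv 428 (both (five 7 428 460) (mv 429 (both (five 7 396 396) (mv 556 (both (five 6 428 524) (five 6 460 588))))))) (both (mv 428 (both (five 7 428 460) (mv 396 (both (five 7 396 429) (mv 590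 (both (five 4 461 558) (mv 589 (both (five 4 493 622) (mv 620 (both (five 6 492 588) (mv 621 (both (five 6 524 652) (mv 592 (both (five 2 588 591) (mv 560 (both (five 7 495 624) (mv 463 (both (five 4 431 431) (five 7 463 496))))))))))))))))))) (both (mv 556 (both (five 6 460 588) (mv 590 (both (five 4 461 558) (mv 589 (both (five 4 493 622) (mv 554 (both (five 0 554 555) (mv 592 (both (five 3 556 591) (mv 560 (both (five 7 495 624) (mv 463 (both (five 4 431 431) (five 7 463 496))))))))))))))) (mv 428 (both (five 7 428 460) (mv 429 (both (five 7 396 396) (mv 398 (both (five 5 397 430) (mv 366 (both (five 5 365 397) (mv 556 (both (five 6 428 524) (mv 590 (both (five 4 461 558) (mv 589 (both (five 4 493 622) (mv 554 (both (five 0 554 555) (mv 592 (both (five 3 556 591) (mv 560 (both (five 7 495 624) (mv 463 (both (five 4 431 431) (five 7 463 496))))))))))))))))))))))))))) (both (mv 461 (both (mv 428 (both (five 7 428 460) (mv 429 (both (five 7 396 396) (mv 430 (both (five 5 397 398) (five 5 429 462))))))) (both (mv 430 (both (five 5 429 462) (mv 429 (both (five 5 397 398) (mv 556 (both (five 6 428 524)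 (mv 590 (both (five 4 461 558) (mv 589 (both (five 4 493 622) (mv 554 (both (five 0 554 555) (mv 592 (both (five 3 556 591) (mv 560 (both (five 7 495 624) (mv 463 (both (five 4 431 431) (five 7 463 496))))))))))))))))))) (both (mv 428 (both (five 7 428 460) (mv 429 (both (five 7 396 396) (mv 556 (both (five 6 428 524) (mv 590 (both (five 4 461 558) (mv 589 (both (five 4 493 622) (mv 554 (both (five 0 554 555) (mv 592 (both (five 3 556 591) (mv 560 (both (five 7 495 624) (mv 463 (both (five 4 431 431) (five 7 463 496))))))))))))))))))) (mv 460 (both (five 7 428 428) (mv 462 (both (five 5 429 430) (mv 494 (both (five 0 459 459) (five 3 460 496))))))))))) (mv 461 (both (mv 428 (both (five 7 428 460) (mv 429 (both (five 7 396 396) (mv 430 (both (five 5 397 398) (five 5 429 462))))))) (mv 556 (both (five 6 460 588) (mv 590 (both (five 4 461 558) (mv 589 (both (five 4 493 622) (mv 554 (both (five 0 554 555) (mv 592 (both (five 3 556 591) (mv 560 (both (five 7 495 624) (mv 463 (both (five 4 431 431) (five 7 463 496))))))))))))))))))))))) (both (mv 560 (both (mv 463 (both (five 4 431 431) (mv 592 (both (five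 4 463 559) (five 7 495 624))))) (both (mv 496 (both (mv 494 (both (five 2 492 524) (mv 464 (both (five 1 461 465) (mv 432 (both (five 6 399 400) (five 6 431 559))))))) (both (mv 592 (both (five 7 495 624) (mv 497 (both (five 5 464 465) (mv 498 (both (five 2 495 499) (mv 466 (both (five 1 463 467) (mv 530 (both (five 0 495 531) (mv 593 (both (five 4 496 625) (mv 562 (both (five 6 465 561) (mv 595 (both (five 4 466 563) (mv 594 (both (five 3 559 559) (five 4 498 627))))))))))))))))))) (both (mv 494 (both (five 2 492 524) (mv 460 (both (five 3 460 461) (mv 464 (both (five 1 461 465) (mv 592 (both (five 7 495 624) (mv 593 (both (five 4 464 561) (five 4 496 625))))))))))) (mv 494 (both (five 2 492 524) (mv 460 (both (five 3 460 461) (mv 592 (both (five 7 495 624) (mv 593 (both (five 4 496 625) (mv 464 (both (five 4 464 561) (mv 432 (both (five 6 399 400) (five 6 431 559))))))))))))))))) (both (mv 463 (both (five 4 431 431) (mv 559 (both (mv 558 (both (five 6 462 590) (mv 557 (both (five 3 524 524) (five 1 524 556))))) (mv 464 (both (five 5 431 432) (mv 496 (both (five 5 463 591) (mv 465 (both (five 5 432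 433) (mv 466 (both (five 2 463 467) (mv 498 (both (five 0 463 499) (mv 561 (both (five 4 464 593) (mv 562 (both (five 3 527 563) (mv 530 (both (five 1 527 531) (mv 594 (both (five 7 465 497) (five 0 559 595))))))))))))))))))))))) (mv 463 (both (five 4 431 431) (mv 592 (both (five 7 463 496) (five 7 495 624))))))))) (both (mv 463 (both (mv 560 (both (five 4 431 431) (mv 592 (both (five 4 463 559) (five 7 495 624))))) (both (mv 559 (both (mv 462 (both (five 7 430 430) (mv 494 (both (five 7 462 591) (mv 557 (both (five 5 461 589) (mv 558 (both (five 1 524 556) (five 6 462 590))))))))) (both (mv 462 (both (five 7 430 430) (mv 591 (both (five 7 462 494) (mv 592 (both (five 4 463 560) (five 4 495 624))))))) (mv 558 (both (five 6 462 590) (mv 557 (both (five 1 524 556) (mv 560 (both (five 3 524 524) (five 4 463 592)))))))))) (both (mv 431 (both (mv 398 (both (five 7 398 430) (mv 399 (both (five 7 366 366) (five 4 399 496))))) (both (mv 399 (both (five 4 399 496) (mv 400 (both (five 5 367 368) (five 5 399 432))))) (mv 400 (both (five 5 399 432) (mv 430 (both (five 7 398 398) (mv 462 (both (five 7 430 559)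 (mv 557 (both (five 5 429 461) (mv 589 (both (five 5 461 494) (mv 620 (both (five 6 492 588) (mv 621 (both (five 6 524 652) (mv 622 (both (five 4 493 590) (five 4 525 654)))))))))))))))))))) (mv 431 (both (five 4 431 560) (mv 398 (both (five 7 398 430) (mv 399 (both (five 7 366 366) (five 4 399 496))))))))))) (both (mv 560 (both (mv 463 (both (five 4 431 431) (mv 592 (both (five 4 463 559) (five 7 495 624))))) (both (mv 496 (both (mv 494 (both (five 2 492 524) (mv 460 (both (five 3 460 461) (mv 464 (both (five 1 461 465) (mv 592 (both (five 7 495 624) (mv 593 (both (five 4 464 561) (five 4 496 625))))))))))) (both (mv 592 (both (five 7 495 624) (mv 497 (both (five 5 464 465) (mv 498 (both (five 2 495 499) (mv 466 (both (five 1 463 467) (mv 530 (both (five 0 495 531) (mv 593 (both (five 4 496 625) (mv 562 (both (five 6 465 561) (mv 595 (both (five 4 466 563) (mv 594 (both (five 3 559 559) (five 4 498 627))))))))))))))))))) (mv 494 (both (five 2 492 524) (mv 461 (both (five 3 460 460) (mv 462 (both (five 3 461 497) (mv 430 (both (five 4 398 398) (five 5 429 557)))))))))))) (both (mv 463 (both (five 4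 431 431) (mv 559 (both (mv 558 (both (five 6 462 590) (mv 557 (both (five 3 524 524) (five 1 524 556))))) (both (mv 462 (both (five 7 430 430) (mv 494 (both (five 7 462 591) (mv 464 (both (five 2 461 465) (mv 496 (both (five 2 492 524) (mv 461 (both (five 3 460 460) (five 0 461 497))))))))))) (mv 462 (both (five 7 430 430) (mv 494 (both (five 7 462 591) (mv 557 (both (five 5 461 589) (mv 558 (both (five 1 524 556) (five 6 462 590)))))))))))))) (mv 463 (both (five 4 431 431) (mv 592 (both (five 7 463 496) (five 7 495 624))))))))) (both (mv 463 (both (mv 560 (both (five 4 431 431) (mv 592 (both (five 4 463 559) (five 7 495 624))))) (both (mv 559 (both (mv 558 (both (five 6 462 590) (mv 557 (both (five 1 524 556) (mv 560 (both (five 3 524 524) (five 4 463 592))))))) (both (mv 432 (both (five 5 431 464) (mv 462 (both (five 7 430 430) (mv 558 (both (five 6 462 590) (mv 557 (both (five 1 524 556) (mv 494 (both (five 5 461 589) (mv 496 (both (five 2 492 524) (mv 461 (both (five 3 460 460) (five 3 461 497))))))))))))))) (mv 462 (both (five 7 430 430) (mv 464 (both (five 5 431 432) (mv 465 (both (five 2 461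 494) (mv 433 (both (five 1 430 434) (mv 560 (both (five 5 432 496) (five 4 463 592)))))))))))))) (both (mv 431 (both (mv 398 (both (five 7 398 430) (mv 399 (both (five 7 366 366) (five 4 399 496))))) (both (mv 430 (both (five 7 398 398) (mv 432 (both (five 5 399 400) (mv 559 (both (five 7 430 462) (five 5 431 464))))))) (mv 399 (both (five 4 399 496) (mv 400 (both (five 5 367 368) (five 5 399 432)))))))) (mv 431 (both (five 4 431 560) (mv 398 (both (five 7 398 430) (mv 399 (both (five 7 366 366) (five 4 399 496))))))))))) (mv 463 (both (mv 560 (both (five 4 431 431) (mv 592 (both (five 4 463 559) (five 7 495 624))))) (both (mv 559 (both (mv 462 (both (five 7 430 430) (mv 591 (both (five 7 462 494) (mv 592 (both (five 4 463 560) (five 4 495 624))))))) (both (mv 464 (both (five 5 431 432) (mv 496 (both (five 5 463 591) (mv 560 (both (five 7 463 592) (mv 465 (both (five 5 432 433) (mv 466 (both (five 2 463 467) (mv 498 (both (five 0 463 499) (mv 561 (both (five 4 464 593) (mv 562 (both (five 3 527 563) (mv 530 (both (five 1 527 531) (mv 594 (both (five 7 465 497) (five 0 559 595))))))))))))))))))))) (both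 (mv 462 (both (five 7 430 430) (mv 494 (both (five 7 462 591) (mv 464 (both (five 2 461 465) (mv 496 (both (five 2 492 524) (mv 461 (both (five 3 460 460) (five 0 461 497))))))))))) (mv 462 (both (five 7 430 430) (mv 464 (both (five 5 431 432) (mv 465 (both (five 2 461 494) (mv 433 (both (five 1 430 434) (mv 560 (both (five 5 432 496) (five 4 463 592))))))))))))))) (both (mv 431 (both (mv 398 (both (five 7 398 430) (mv 399 (both (five 7 366 366) (five 4 399 496))))) (both (mv 430 (both (five 7 398 398) (mv 432 (both (five 5 399 400) (mv 559 (both (five 7 430 462) (five 5 431 464))))))) (mv 399 (both (five 4 399 496) (mv 400 (both (five 5 367 368) (five 5 399 432)))))))) (mv 431 (both (five 4 431 560) (mv 398 (both (five 7 398 430) (mv 399 (both (five 7 366 366) (five 4 399 496)))))))))))))))))))))) (both (mv 495 (both (mv 463 (both (mv 431 (both (five 4 431 560) (mv 398 (both (five 7 398 430) (mv 399 (both (five 7 366 366) (five 4 399 496))))))) (both (mv 559 (both (mv 590 (both (five 6 462 558) (mv 591 (both (five 6 494 622) (mv 592 (both (five 4 463 560) (five 4 495 624))))))) (both (mv 464 (both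 (five 5 431 432) (mv 590 (both (five 6 462 558) (mv 591 (both (five 5 463 496) (five 6 494 622))))))) (mv 462 (both (five 7 430 430) (mv 464 (both (five 5 431 432) (mv 465 (both (five 2 461 494) (mv 433 (both (five 1 430 434) (mv 560 (both (five 5 432 496) (five 4 463 592)))))))))))))) (both (mv 431 (both (mv 398 (both (five 7 398 430) (mv 399 (both (five 7 366 366) (five 4 399 496))))) (both (mv 430 (both (five 7 398 398) (mv 432 (both (five 5 399 400) (mv 559 (both (five 7 430 462) (five 5 431 464))))))) (mv 399 (both (five 4 399 496) (mv 400 (both (five 5 367 368) (five 5 399 432)))))))) (both (mv 431 (both (five 4 431 560) (mv 430 (both (five 7 398 398) (mv 432 (both (five 5 399 400) (mv 559 (both (five 7 430 462) (five 5 431 464))))))))) (mv 431 (both (five 4 431 560) (mv 399 (both (five 4 399 496) (mv 400 (both (five 5 367 368) (five 5 399 432)))))))))))) (both (mv 463 (both (mv 560 (both (five 4 431 431) (mv 592 (both (five 4 463 559) (five 7 495 624))))) (both (mv 559 (both (mv 464 (both (five 5 431 432) (mv 590 (both (five 6 462 558) (mv 591 (both (five 5 463 496) (five 6 494 622))))))) (both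 (mv 464 (both (five 5 431 432) (mv 496 (both (five 5 463 591) (mv 560 (both (five 7 463 592) (mv 465 (both (five 5 432 433) (mv 466 (both (five 2 463 467) (mv 498 (both (five 0 463 499) (mv 561 (both (five 4 464 593) (mv 562 (both (five 3 527 563) (mv 530 (both (five 1 527 531) (mv 594 (both (five 7 465 497) (five 0 559 595))))))))))))))))))))) (mv 558 (both (five 6 462 590) (mv 557 (both (five 1 524 556) (mv 560 (both (five 3 524 524) (five 4 463 592)))))))))) (both (mv 431 (both (mv 398 (both (five 7 398 430) (mv 399 (both (five 7 366 366) (five 4 399 496))))) (both (mv 430 (both (five 7 398 398) (mv 432 (both (five 5 399 400) (mv 559 (both (five 7 430 462) (five 5 431 464))))))) (mv 399 (both (five 4 399 496) (mv 400 (both (five 5 367 368) (five 5 399 432)))))))) (mv 431 (both (five 4 431 560) (mv 398 (both (five 7 398 430) (mv 399 (both (five 7 366 366) (five 4 399 496))))))))))) (both (mv 494 (both (five 0 492 492) (mv 496 (both (five 2 492 524) (mv 464 (both (five 1 461 465) (mv 432 (both (five 6 399 400) (five 6 431 559))))))))) (both (mv 463 (both (mv 560 (both (five 4 431 431) (mv 592 (both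 (five 4 463 559) (five 7 495 624))))) (both (mv 559 (both (mv 462 (both (five 7 430 430) (mv 494 (both (five 7 462 591) (mv 557 (both (five 5 461 589) (mv 558 (both (five 1 524 556) (five 6 462 590))))))))) (both (mv 462 (both (five 7 430 430) (mv 591 (both (five 7 462 494) (mv 592 (both (five 4 463 560) (five 4 495 624))))))) (mv 558 (both (five 6 462 590) (mv 557 (both (five 1 524 556) (mv 560 (both (five 3 524 524) (five 4 463 592)))))))))) (both (mv 559 (both (mv 462 (both (five 7 430 430) (mv 494 (both (five 0 492 492) (five 7 462 591))))) (both (mv 430 (both (five 7 430 462) (mv 431 (both (five 7 398 398) (mv 432 (both (five 5 399 400) (five 5 431 464))))))) (mv 432 (both (five 5 431 464) (mv 400 (both (five 5 399 431) (mv 492 (both (five 0 492 494) (mv 558 (both (five 6 462 590) (mv 557 (both (five 1 524 556) (mv 460 (both (five 7 460 589) (mv 428 (both (five 4 396 396) (five 4 428 524)))))))))))))))))) (mv 431 (both (five 4 431 560) (mv 398 (both (five 7 398 430) (mv 399 (both (five 7 366 366) (mv 400 (both (five 5 367 368) (five 5 399 432))))))))))))) (both (mv 494 (both (five 0 492 492) (mv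 496 (both (five 2 492 524) (mv 464 (both (five 1 461 465) (mv 432 (both (five 6 399 400) (mv 401 (both (five 5 400 433) (mv 431 (both (five 7 399 399) (mv 560 (both (five 7 431 463) (mv 592 (both (five 7 495 624) (mv 593 (both (five 4 464 561) (five 4 496 625))))))))))))))))))) (both (mv 463 (both (mv 560 (both (five 4 431 431) (mv 592 (both (five 4 463 559) (five 7 495 624))))) (both (mv 559 (both (mv 462 (both (five 7 430 430) (mv 494 (both (five 7 462 591) (mv 557 (both (five 5 461 589) (mv 558 (both (five 1 524 556) (five 6 462 590))))))))) (both (mv 462 (both (five 7 430 430) (mv 591 (both (five 7 462 494) (mv 592 (both (five 4 463 560) (five 4 495 624))))))) (mv 558 (both (five 6 462 590) (mv 557 (both (five 1 524 556) (mv 560 (both (five 3 524 524) (five 4 463 592)))))))))) (both (mv 494 (both (five 0 492 492) (mv 496 (both (five 2 492 524) (mv 431 (both (five 4 399 399) (mv 430 (both (five 7 398 398) (mv 432 (both (five 5 399 400) (mv 462 (both (five 7 430 559) (mv 433 (both (five 2 430 434) (mv 465 (both (five 0 430 466) (mv 497 (both (five 6 400 401) (five 3 462 498))))))))))))))))))) (mv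 431 (both (five 4 431 560) (mv 398 (both (five 7 398 430) (mv 399 (both (five 7 366 366) (five 4 399 496))))))))))) (mv 494 (both (five 0 492 492) (mv 496 (both (five 2 492 524) (mv 465 (both (five 1 461 464) (mv 497 (both (five 1 462 466) (mv 401 (both (five 6 400 433) (mv 498 (both (five 2 495 499) (mv 463 (both (five 3 462 462) (mv 560 (both (five 4 431 431) (mv 592 (both (five 4 463 559) (five 7 495 624)))))))))))))))))))))))))) (both (mv 557 (both (mv 589 (both (mv 620 (both (five 6 492 588) (mv 621 (both (five 6 524 652) (mv 622 (both (five 4 493 590) (five 4 525 654))))))) (mv 492 (both (five 7 460 460) (mv 494 (both (five 5 461 462) (five 0 492 495))))))) (both (mv 461 (both (mv 556 (both (five 6 460 588) (mv 558 (both (five 1 524 559) (five 4 461 590))))) (mv 428 (both (five 7 428 460) (mv 429 (both (five 7 396 396) (mv 430 (both (five 5 397 398) (five 5 429 462))))))))) (both (mv 589 (both (mv 620 (both (five 6 492 588) (mv 621 (both (five 6 524 652) (mv 622 (both (five 4 493 590) (five 4 525 654))))))) (both (mv 460 (both (five 7 460 492) (mv 461 (both (five 7 428 428) (mv 588 (both (five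 6 460 556) (five 6 492 620))))))) (mv 460 (both (five 7 460 492) (mv 461 (both (five 7 428 428) (mv 590 (both (five 4 461 558) (five 4 493 622)))))))))) (both (mv 461 (both (mv 428 (both (five 7 428 460) (mv 429 (both (five 7 396 396) (mv 430 (both (five 5 397 398) (five 5 429 462))))))) (both (mv 460 (both (five 7 428 428) (mv 588 (both (five 6 460 556) (mv 589 (both (five 7 460 492) (five 6 492 620))))))) (mv 462 (both (five 5 429 430) (mv 588 (both (five 6 460 556) (mv 589 (both (five 5 461 494) (five 6 492 620)))))))))) (both (mv 589 (both (mv 620 (both (five 6 492 588) (mv 621 (both (five 6 524 652) (mv 622 (both (five 4 493 590) (five 4 525 654))))))) (both (mv 462 (both (five 5 461 494) (mv 461 (both (five 5 429 430) (mv 588 (both (five 6 460 556) (five 6 492 620))))))) (mv 462 (both (five 5 461 494) (mv 461 (both (five 5 429 430) (mv 590 (both (five 4 461 558) (five 4 493 622)))))))))) (mv 461 (both (mv 428 (both (five 7 428 460) (mv 429 (both (five 7 396 396) (mv 430 (both (five 5 397 398) (five 5 429 462))))))) (both (mv 460 (both (five 7 428 428) (mv 589 (both (five 7 460 492) (mv 590 (both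 (five 4 461 558) (five 4 493 622))))))) (mv 462 (both (five 5 429 430) (mv 494 (both (five 5 461 589) (mv 492 (both (five 0 492 495) (mv 463 (both (five 2 460 464) (five 1 459 491)))))))))))))))))) (both (mv 495 (both (mv 494 (both (five 0 492 492) (mv 496 (both (five 2 492 524) (mv 464 (both (five 1 461 465) (mv 432 (both (five 6 399 400) (five 6 431 559))))))))) (both (mv 560 (both (mv 463 (both (five 4 431 431) (mv 592 (both (five 4 463 559) (five 7 495 624))))) (both (mv 592 (both (five 7 495 624) (mv 496 (both (mv 465 (both (five 5 464 497) (mv 464 (both (five 5 432 433) (mv 432 (both (five 6 399 400) (five 6 431 559))))))) (both (mv 497 (both (five 5 464 465) (mv 498 (both (five 2 495 499) (mv 466 (both (five 1 463 467) (mv 530 (both (five 0 495 531) (mv 593 (both (five 4 496 625) (mv 562 (both (five 6 465 561) (mv 595 (both (five 4 466 563) (mv 594 (both (five 3 559 559) (five 4 498 627))))))))))))))))) (both (mv 593 (both (five 4 496 625) (mv 464 (both (five 4 464 561) (mv 432 (both (five 6 399 400) (five 6 431 559))))))) (mv 465 (both (five 5 464 497) (mv 464 (both (five 5 432 433) (mv 593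 (both (five 4 464 561) (five 4 496 625))))))))))))) (both (mv 463 (both (five 4 431 431) (mv 559 (both (mv 558 (both (five 6 462 590) (mv 557 (both (five 3 524 524) (five 1 524 556))))) (mv 464 (both (five 5 431 432) (mv 496 (both (five 5 463 591) (mv 465 (both (five 5 432 433) (mv 466 (both (five 2 463 467) (mv 498 (both (five 0 463 499) (mv 561 (both (five 4 464 593) (mv 562 (both (five 3 527 563) (mv 530 (both (five 1 527 531) (mv 594 (both (five 7 465 497) (five 0 559 595))))))))))))))))))))))) (mv 463 (both (five 4 431 431) (mv 592 (both (five 7 463 496) (five 7 495 624))))))))) (both (mv 557 (both (mv 461 (both (mv 556 (both (five 6 460 588) (mv 558 (both (five 1 524 559) (five 4 461 590))))) (both (mv 428 (both (five 7 428 460) (mv 396 (both (five 7 396 429) (mv 590 (both (five 4 461 558) (mv 589 (both (five 4 493 622) (mv 620 (both (five 6 492 588) (mv 621 (both (five 6 524 652) (mv 592 (both (five 2 588 591) (mv 560 (both (five 7 495 624) (mv 463 (both (five 4 431 431) (five 4 463 559))))))))))))))))))) (both (mv 428 (both (five 7 428 460) (mv 429 (both (five 7 396 396) (mv 556 (both (five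 6 428 524) (five 6 460 588))))))) (mv 428 (both (five 7 428 460) (mv 429 (both (five 7 396 396) (mv 556 (both (five 6 428 524) (mv 558 (both (five 1 524 559) (five 4 461 590))))))))))))) (both (mv 461 (both (mv 556 (both (five 6 460 588) (mv 558 (both (five 1 524 559) (five 4 461 590))))) (mv 428 (both (five 7 428 460) (mv 429 (both (five 7 396 396) (mv 398 (both (five 5 397 430) (mv 397 (both (five 5 365 366) (mv 492 (both (five 0 492 494) (five 6 396 524))))))))))))) (both (mv 589 (both (mv 620 (both (five 6 492 588) (mv 621 (both (five 6 524 652) (mv 622 (both (five 4 493 590) (five 4 525 654))))))) (both (mv 492 (both (five 7 460 460) (mv 621 (both (five 7 492 524) (mv 622 (both (five 4 493 590) (five 4 525 654))))))) (both (mv 492 (both (five 7 460 460) (mv 620 (both (five 6 492 588) (mv 621 (both (five 7 492 524) (five 6 524 652))))))) (mv 556 (both (mv 558 (both (five 1 524 559) (mv 590 (both (five 4 493 622) (mv 555 (both (five 0 554 554) (five 0 555 591))))))) (both (mv 492 (both (five 7 460 460) (mv 558 (both (five 1 524 559) (mv 588 (both (five 6 492 620) (mv 587 (both (five 1 554 586) (mv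 524 (both (five 6 491 619) (mv 491 (both (five 7 459 459) (mv 490 (both (five 0 489 489) (mv 522 (both (five 2 489 521) (five 0 522 523))))))))))))))))) (mv 588 (both (five 6 492 620) (mv 590 (both (five 4 493 622) (mv 555 (both (five 0 554 554) (five 3 555 591)))))))))))))) (both (mv 492 (both (five 0 492 494) (mv 460 (both (five 7 460 589) (mv 428 (both (five 4 396 396) (five 4 428 524))))))) (both (mv 558 (both (mv 590 (both (five 4 461 461) (mv 622 (both (five 4 493 589) (five 7 525 654))))) (both (mv 492 (both (five 0 492 494) (mv 556 (both (five 1 524 559) (mv 461 (both (five 6 460 588) (mv 429 (both (five 6 428 524) (mv 396 (both (five 7 396 428) (mv 397 (both (five 7 364 364) (mv 398 (both (five 5 365 366) (five 5 397 430))))))))))))))) (mv 492 (both (five 0 492 494) (mv 559 (both (five 1 524 556) (mv 463 (both (five 6 462 590) (mv 560 (both (five 3 524 524) (five 4 463 592)))))))))))) (mv 589 (both (mv 620 (both (five 6 492 588) (mv 621 (both (five 6 524 652) (mv 622 (both (five 4 493 590) (five 4 525 654))))))) (both (mv 460 (both (five 7 460 492) (mv 461 (both (five 7 428 428) (mv 588 (both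 (five 6 460 556) (five 6 492 620))))))) (mv 460 (both (five 7 460 492) (mv 461 (both (five 7 428 428) (mv 590 (both (five 4 461 558) (five 4 493 622)))))))))))))))) (both (mv 463 (both (mv 560 (both (five 4 431 431) (mv 592 (both (five 4 463 559) (five 7 495 624))))) (both (mv 559 (both (mv 590 (both (five 6 462 558) (mv 591 (both (five 6 494 622) (mv 592 (both (five 4 463 560) (five 4 495 624))))))) (both (mv 464 (both (five 5 431 432) (mv 496 (both (five 5 463 591) (mv 560 (both (five 7 463 592) (mv 465 (both (five 5 432 433) (mv 466 (both (five 2 463 467) (mv 498 (both (five 0 463 499) (mv 561 (both (five 4 464 593) (mv 562 (both (five 3 527 563) (mv 530 (both (five 1 527 531) (mv 594 (both (five 7 465 497) (five 0 559 595))))))))))))))))))))) (mv 432 (both (five 5 431 464) (mv 492 (both (five 0 492 494) (mv 558 (both (five 6 462 590) (mv 557 (both (five 1 524 556) (mv 460 (both (five 7 460 589) (mv 428 (both (five 4 396 396) (five 7 428 461)))))))))))))))) (both (mv 464 (both (mv 432 (both (five 5 431 559) (mv 400 (both (five 6 367 368) (five 5 399 431))))) (mv 494 (both (five 1 460 492) (mv 465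 (both (five 2 462 466) (five 1 461 496))))))) (mv 431 (both (five 4 431 560) (mv 398 (both (five 7 398 430) (mv 399 (both (five 7 366 366) (five 4 399 496))))))))))) (mv 494 (both (five 0 492 492) (mv 496 (both (five 2 492 524) (mv 464 (both (five 1 461 465) (mv 432 (both (five 6 399 400) (mv 401 (both (five 5 400 433) (mv 431 (both (five 7 399 399) (mv 560 (both (five 7 431 463) (mv 592 (both (five 7 495 624) (mv 593 (both (five 4 464 561) (five 4 496 625)))))))))))))))))))))))) (both (mv 495 (both (mv 494 (both (five 0 492 492) (mv 496 (both (five 2 492 524) (mv 464 (both (five 1 461 465) (mv 432 (both (five 6 399 400) (five 6 431 559))))))))) (both (mv 560 (both (mv 463 (both (five 4 431 431) (mv 592 (both (five 4 463 559) (five 7 495 624))))) (both (mv 592 (both (five 7 495 624) (mv 496 (both (mv 465 (both (five 5 464 497) (mv 464 (both (five 5 432 433) (mv 432 (both (five 6 399 400) (five 6 431 559))))))) (both (mv 497 (both (five 5 464 465) (mv 498 (both (five 2 495 499) (mv 466 (both (five 1 463 467) (mv 530 (both (five 0 495 531) (mv 593 (both (five 4 496 625) (mv 562 (both (five 6 465 561)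 (mv 595 (both (five 4 466 563) (mv 594 (both (five 3 559 559) (five 4 498 627))))))))))))))))) (both (mv 593 (both (five 4 496 625) (mv 464 (both (five 4 464 561) (mv 432 (both (five 6 399 400) (five 6 431 559))))))) (mv 465 (both (five 5 464 497) (mv 464 (both (five 5 432 433) (mv 593 (both (five 4 464 561) (five 4 496 625))))))))))))) (both (mv 463 (both (five 4 431 431) (mv 559 (both (mv 558 (both (five 6 462 590) (mv 557 (both (five 3 524 524) (five 1 524 556))))) (mv 464 (both (five 5 431 432) (mv 496 (both (five 5 463 591) (mv 465 (both (five 5 432 433) (mv 466 (both (five 2 463 467) (mv 498 (both (five 0 463 499) (mv 561 (both (five 4 464 593) (mv 562 (both (five 3 527 563) (mv 530 (both (five 1 527 531) (mv 594 (both (five 7 465 497) (five 0 559 595))))))))))))))))))))))) (mv 463 (both (five 4 431 431) (mv 592 (both (five 7 463 496) (five 7 495 624))))))))) (both (mv 463 (both (mv 559 (both (mv 590 (both (five 6 462 558) (mv 591 (both (five 6 494 622) (mv 592 (both (five 4 463 560) (five 4 495 624))))))) (both (mv 432 (both (five 5 431 464) (mv 462 (both (five 7 430 430) (mv 494 (both (five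 7 462 591) (mv 557 (both (five 5 461 589) (mv 558 (both (five 1 524 556) (five 6 462 590))))))))))) (both (mv 432 (both (five 5 431 464) (mv 462 (both (five 7 430 430) (mv 591 (both (five 7 462 494) (mv 592 (both (five 4 463 560) (five 4 495 624))))))))) (mv 430 (both (five 7 430 462) (mv 432 (both (five 5 431 464) (mv 558 (both (five 6 462 590) (mv 557 (both (five 1 524 556) (mv 560 (both (five 3 524 524) (five 4 463 592))))))))))))))) (both (mv 430 (both (mv 398 (both (five 7 398 431) (mv 462 (both (five 4 366 366) (five 6 397 494))))) (both (mv 431 (both (five 7 398 398) (mv 432 (both (five 5 399 400) (mv 464 (both (five 5 431 559) (mv 429 (both (five 0 428 428) (five 0 429 465))))))))) (mv 462 (both (five 7 430 559) (mv 557 (both (five 5 429 461) (mv 589 (both (five 5 461 494) (mv 620 (both (five 6 492 588) (mv 621 (both (five 6 524 652) (mv 622 (both (five 4 493 590) (five 4 525 654)))))))))))))))) (both (mv 431 (both (five 4 431 560) (mv 398 (both (five 7 398 430) (mv 399 (both (five 7 366 366) (mv 400 (both (five 5 367 368) (five 5 399 432))))))))) (mv 560 (both (five 4 431 431) (mv 592 (both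 (five 4 463 559) (five 7 495 624))))))))) (both (mv 494 (both (five 0 492 492) (mv 496 (both (five 2 492 524) (mv 464 (both (five 1 461 465) (mv 432 (both (five 6 399 400) (mv 401 (both (five 5 400 433) (mv 431 (both (five 7 399 399) (mv 560 (both (five 7 431 463) (mv 592 (both (five 7 495 624) (mv 593 (both (five 4 464 561) (five 4 496 625))))))))))))))))))) (both (mv 463 (both (mv 431 (both (five 4 431 560) (mv 398 (both (five 7 398 430) (mv 399 (both (five 7 366 366) (five 4 399 496))))))) (both (mv 559 (both (mv 590 (both (five 6 462 558) (mv 591 (both (five 6 494 622) (mv 592 (both (five 4 463 560) (five 4 495 624))))))) (both (mv 464 (both (five 5 431 432) (mv 590 (both (five 6 462 558) (mv 591 (both (five 5 463 496) (five 6 494 622))))))) (mv 462 (both (five 7 430 430) (mv 464 (both (five 5 431 432) (mv 465 (both (five 2 461 494) (mv 433 (both (five 1 430 434) (mv 560 (both (five 5 432 496) (five 4 463 592)))))))))))))) (both (mv 431 (both (mv 398 (both (five 7 398 430) (mv 399 (both (five 7 366 366) (five 4 399 496))))) (both (mv 430 (both (five 7 398 398) (mv 432 (both (five 5 399 400) (mv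 559 (both (five 7 430 462) (five 5 431 464))))))) (mv 399 (both (five 4 399 496) (mv 400 (both (five 5 367 368) (five 5 399 432)))))))) (both (mv 431 (both (five 4 431 560) (mv 430 (both (five 7 398 398) (mv 432 (both (five 5 399 400) (mv 559 (both (five 7 430 462) (five 5 431 464))))))))) (mv 431 (both (five 4 431 560) (mv 399 (both (five 4 399 496) (mv 400 (both (five 5 367 368) (five 5 399 432)))))))))))) (both (mv 463 (both (mv 560 (both (five 4 431 431) (mv 592 (both (five 4 463 559) (five 7 495 624))))) (both (mv 559 (both (mv 462 (both (five 7 430 430) (mv 494 (both (five 7 462 591) (mv 557 (both (five 5 461 589) (mv 558 (both (five 1 524 556) (five 6 462 590))))))))) (both (mv 462 (both (five 7 430 430) (mv 591 (both (five 7 462 494) (mv 592 (both (five 4 463 560) (five 4 495 624))))))) (mv 558 (both (five 6 462 590) (mv 557 (both (five 1 524 556) (mv 560 (both (five 3 524 524) (five 4 463 592)))))))))) (both (mv 431 (both (mv 398 (both (five 7 398 430) (mv 399 (both (five 7 366 366) (five 4 399 496))))) (both (mv 399 (both (five 4 399 496) (mv 400 (both (five 5 367 368) (five 5 399 432)))))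 (mv 400 (both (five 5 399 432) (mv 430 (both (five 7 398 398) (mv 462 (both (five 7 430 559) (mv 557 (both (five 5 429 461) (mv 589 (both (five 5 461 494) (mv 620 (both (five 6 492 588) (mv 621 (both (five 6 524 652) (mv 622 (both (five 4 493 590) (five 4 525 654)))))))))))))))))))) (mv 431 (both (five 4 431 560) (mv 398 (both (five 7 398 430) (mv 399 (both (five 7 366 366) (five 4 399 496))))))))))) (mv 494 (both (five 0 492 492) (mv 496 (both (five 2 492 524) (mv 465 (both (five 1 461 464) (mv 497 (both (five 1 462 466) (mv 401 (both (five 6 400 433) (mv 498 (both (five 2 495 499) (mv 463 (both (five 3 462 462) (mv 560 (both (five 4 431 431) (mv 592 (both (five 4 463 559) (five 7 495 624)))))))))))))))))))))))))) (both (mv 557 (both (mv 589 (both (mv 620 (both (five 6 492 588) (mv 621 (both (five 6 524 652) (mv 622 (both (five 4 493 590) (five 4 525 654))))))) (mv 492 (both (five 7 460 460) (mv 494 (both (five 5 461 462) (five 0 492 495))))))) (both (mv 461 (both (mv 556 (both (five 6 460 588) (mv 558 (both (five 1 524 559) (five 4 461 590))))) (mv 428 (both (five 7 428 460) (mv 429 (both (five 7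 396 396) (mv 430 (both (five 5 397 398) (five 5 429 462))))))))) (both (mv 589 (both (mv 620 (both (five 6 492 588) (mv 621 (both (five 6 524 652) (mv 622 (both (five 4 493 590) (five 4 525 654))))))) (both (mv 462 (both (five 5 461 494) (mv 461 (both (five 5 429 430) (mv 588 (both (five 6 460 556) (five 6 492 620))))))) (mv 462 (both (five 5 461 494) (mv 461 (both (five 5 429 430) (mv 590 (both (five 4 461 558) (five 4 493 622)))))))))) (both (mv 461 (both (mv 428 (both (five 7 428 460) (mv 429 (both (five 7 396 396) (mv 430 (both (five 5 397 398) (five 5 429 462))))))) (both (mv 430 (both (five 5 429 462) (mv 429 (both (five 5 397 398) (mv 556 (both (five 6 428 524) (mv 558 (both (five 1 524 559) (five 4 461 590))))))))) (mv 460 (both (five 7 428 428) (mv 589 (both (five 7 460 492) (mv 590 (both (five 4 461 558) (five 4 493 622)))))))))) (both (mv 461 (both (mv 428 (both (five 7 428 460) (mv 429 (both (five 7 396 396) (mv 430 (both (five 5 397 398) (five 5 429 462))))))) (both (mv 430 (both (five 5 429 462) (mv 429 (both (five 5 397 398) (mv 556 (both (five 6 428 524) (five 6 460 588))))))) (both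 (mv 428 (both (five 7 428 460) (mv 429 (both (five 7 396 396) (mv 556 (both (five 6 428 524) (five 6 460 588))))))) (mv 428 (both (five 7 428 460) (mv 462 (both (five 5 429 430) (mv 588 (both (five 6 460 556) (mv 589 (both (five 5 461 494) (five 6 492 620))))))))))))) (mv 589 (both (mv 620 (both (five 6 492 588) (mv 621 (both (five 6 524 652) (mv 622 (both (five 4 493 590) (five 4 525 654))))))) (both (mv 492 (both (five 7 460 460) (mv 620 (both (five 6 492 588) (mv 621 (both (five 7 492 524) (five 6 524 652))))))) (mv 460 (both (five 7 460 492) (mv 461 (both (five 7 428 428) (mv 590 (both (five 4 461 558) (five 4 493 622)))))))))))))))) (both (mv 495 (both (mv 560 (both (mv 463 (both (five 4 431 431) (mv 592 (both (five 4 463 559) (five 7 495 624))))) (both (mv 592 (both (five 7 495 624) (mv 496 (both (mv 465 (both (five 5 464 497) (mv 464 (both (five 5 432 433) (mv 432 (both (five 6 399 400) (five 6 431 559))))))) (both (mv 497 (both (five 5 464 465) (mv 498 (both (five 2 495 499) (mv 466 (both (five 1 463 467) (mv 530 (both (five 0 495 531) (mv 593 (both (five 4 496 625) (mv 562 (both (five 6 465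 561) (mv 595 (both (five 4 466 563) (mv 594 (both (five 3 559 559) (five 4 498 627))))))))))))))))) (both (mv 593 (both (five 4 496 625) (mv 464 (both (five 4 464 561) (mv 432 (both (five 6 399 400) (five 6 431 559))))))) (mv 465 (both (five 5 464 497) (mv 464 (both (five 5 432 433) (mv 593 (both (five 4 464 561) (five 4 496 625))))))))))))) (both (mv 463 (both (five 4 431 431) (mv 559 (both (mv 558 (both (five 6 462 590) (mv 557 (both (five 3 524 524) (five 1 524 556))))) (mv 464 (both (five 5 431 432) (mv 496 (both (five 5 463 591) (mv 465 (both (five 5 432 433) (mv 466 (both (five 2 463 467) (mv 498 (both (five 0 463 499) (mv 561 (both (five 4 464 593) (mv 562 (both (five 3 527 563) (mv 530 (both (five 1 527 531) (mv 594 (both (five 7 465 497) (five 0 559 595))))))))))))))))))))))) (mv 463 (both (five 4 431 431) (mv 592 (both (five 7 463 496) (five 7 495 624))))))))) (both (mv 463 (both (mv 560 (both (five 4 431 431) (mv 592 (both (five 4 463 559) (five 7 495 624))))) (both (mv 464 (both (mv 432 (both (five 5 431 559) (mv 400 (both (five 6 367 368) (five 5 399 431))))) (mv 494 (both (five 1 460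 492) (mv 465 (both (five 2 461 462) (five 2 462 466))))))) (both (mv 559 (both (mv 590 (both (five 6 462 558) (mv 591 (both (five 6 494 622) (mv 592 (both (five 4 463 560) (five 4 495 624))))))) (both (mv 492 (both (five 0 492 494) (mv 558 (both (five 6 462 590) (mv 557 (both (five 1 524 556) (mv 460 (both (five 7 460 589) (mv 428 (both (five 4 396 396) (five 4 428 524))))))))))) (mv 432 (both (five 5 431 464) (mv 494 (both (five 0 492 492) (mv 591 (both (five 7 462 462) (mv 592 (both (five 4 463 560) (five 4 495 624)))))))))))) (mv 431 (both (five 4 431 560) (mv 400 (both (five 5 399 432) (mv 399 (both (five 5 367 368) (mv 366 (both (five 7 366 398) (mv 367 (both (five 7 334 334) (mv 494 (both (five 6 366 462) (five 0 492 492))))))))))))))))) (both (mv 494 (both (five 0 492 492) (mv 496 (both (mv 461 (both (five 3 460 460) (mv 462 (both (five 3 461 497) (mv 557 (both (five 5 461 589) (mv 556 (both (five 6 460 588) (mv 558 (both (five 1 524 559) (five 4 461 590))))))))))) (mv 464 (both (five 1 461 465) (mv 432 (both (five 6 399 400) (mv 401 (both (five 5 400 433) (mv 431 (both (five 7 399 399) (mv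 560 (both (five 7 431 463) (mv 592 (both (five 7 495 624) (mv 593 (both (five 4 464 561) (five 4 496 625))))))))))))))))))) (both (mv 494 (both (five 0 492 492) (mv 496 (both (five 2 492 524) (mv 464 (both (five 1 461 465) (mv 432 (both (five 6 399 400) (mv 401 (both (five 5 400 433) (mv 431 (both (five 7 399 399) (mv 560 (both (five 7 431 463) (mv 592 (both (five 7 495 624) (mv 593 (both (five 4 464 561) (five 4 496 625))))))))))))))))))) (mv 494 (both (five 0 492 492) (mv 496 (both (five 2 492 524) (mv 461 (both (five 3 460 460) (mv 462 (both (five 3 461 497) (mv 557 (both (five 5 461 589) (mv 556 (both (five 6 460 588) (mv 558 (both (five 1 524 559) (five 4 461 590)))))))))))))))))))) (both (mv 492 (both (mv 494 (both (five 0 492 495) (mv 491 (both (mv 458 (both (five 3 458 459) (mv 490 (both (five 3 457 457) (mv 522 (both (five 2 489 521) (five 2 490 523))))))) (mv 462 (both (five 1 459 463) (mv 430 (both (five 6 397 398) (mv 557 (both (five 5 429 461) (five 5 461 589))))))))))) (both (mv 460 (both (mv 557 (both (five 7 460 589) (mv 461 (both (mv 462 (both (five 5 429 430) (mv 463 (both (five 2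 460 464) (five 2 459 491))))) (both (mv 556 (both (five 6 460 588) (mv 429 (both (five 5 428 524) (mv 397 (both (five 6 364 365) (mv 398 (both (five 5 365 366) (five 5 397 430))))))))) (mv 556 (both (five 6 460 588) (mv 524 (both (five 5 428 429) (mv 459 (both (five 7 427 427) (mv 457 (both (five 0 457 458) (mv 555 (both (five 6 459 587) (mv 554 (both (five 1 521 553) (mv 521 (both (five 3 521 522) (mv 586 (both (five 2 553 585) (mv 491 (both (five 6 458 523) (mv 462 (both (five 2 459 463) (five 2 458 490)))))))))))))))))))))))))) (both (mv 428 (both (five 4 396 396) (mv 524 (both (mv 555 (both (five 6 427 523) (mv 556 (both (five 6 459 587) (mv 588 (both (five 5 460 461) (five 5 492 620))))))) (both (mv 397 (both (five 5 396 429) (mv 427 (both (five 7 395 395) (mv 523 (both (five 6 427 555) (mv 522 (both (five 1 489 521) (mv 490 (both (five 3 489 489) (mv 554 (both (five 2 521 553) (mv 459 (both (five 5 426 458) (five 6 426 491))))))))))))))) (mv 395 (both (five 7 395 427) (mv 429 (both (five 5 396 397) (mv 461 (both (five 5 428 556) (mv 430 (both (five 5 397 398) (mv 431 (both (five 2 428 432) (five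 2 427 459)))))))))))))))) (both (mv 428 (both (five 4 396 396) (mv 557 (both (five 4 428 524) (five 7 460 589))))) (mv 428 (both (five 4 396 396) (mv 557 (both (five 7 428 461) (five 7 460 589))))))))) (both (mv 460 (both (mv 428 (both (five 4 396 396) (mv 524 (both (mv 555 (both (five 6 427 523) (mv 556 (both (five 6 459 587) (mv 588 (both (five 5 460 461) (five 5 492 620))))))) (both (mv 397 (both (five 5 396 429) (mv 427 (both (five 7 395 395) (mv 523 (both (five 6 427 555) (mv 522 (both (five 1 489 521) (mv 490 (both (five 3 489 489) (mv 554 (both (five 2 521 553) (mv 459 (both (five 5 426 458) (five 6 426 491))))))))))))))) (mv 395 (both (five 7 395 427) (mv 429 (both (five 5 396 397) (mv 461 (both (five 5 428 556) (mv 430 (both (five 5 397 398) (mv 431 (both (five 2 428 432) (five 2 427 459)))))))))))))))) (both (mv 494 (both (five 0 492 495) (mv 491 (both (mv 458 (both (five 3 458 459) (mv 490 (both (five 3 457 457) (mv 522 (both (five 2 489 521) (five 2 490 523))))))) (both (mv 462 (both (five 1 459 463) (mv 398 (both (five 6 397 430) (mv 490 (both (five 1 458 461) (mv 522 (both (five 2 489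 521) (five 2 490 523))))))))) (both (mv 458 (both (five 3 458 459) (mv 462 (both (five 1 459 463) (mv 490 (both (five 3 457 457) (five 1 458 461))))))) (mv 459 (both (five 3 458 458) (mv 462 (both (five 1 459 463) (mv 398 (both (five 6 397 430) (mv 523 (both (five 2 490 522) (mv 555 (both (five 5 459 587) (mv 554 (both (five 6 458 586) (mv 556 (both (five 4 459 588) (mv 524 (both (five 4 427 427) (five 1 521 553))))))))))))))))))))))) (both (mv 523 (both (mv 428 (both (five 4 396 396) (mv 524 (both (five 6 427 555) (mv 397 (both (five 5 396 429) (mv 427 (both (five 7 395 395) (mv 522 (both (five 1 489 521) (mv 490 (both (five 3 489 489) (mv 554 (both (five 2 521 553) (mv 459 (both (five 5 426 458) (five 6 426 491))))))))))))))))) (both (mv 494 (both (five 0 492 495) (mv 522 (both (five 2 490 491) (five 1 490 524))))) (both (mv 428 (both (five 4 396 396) (mv 494 (both (five 0 492 495) (mv 491 (both (five 2 490 522) (mv 459 (both (five 3 458 458) (five 5 427 555))))))))) (both (mv 428 (both (five 4 396 396) (mv 494 (both (five 0 492 495) (mv 524 (both (five 1 490 522) (five 6 427 555))))))) (mv 428 (both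 (five 4 396 396) (mv 494 (both (five 0 492 495) (mv 524 (both (five 6 427 555) (mv 397 (both (five 5 396 429) (mv 427 (both (five 7 395 395) (mv 459 (both (five 7 427 556) (mv 458 (both (five 0 457 457) (five 3 458 491)))))))))))))))))))) (both (mv 494 (both (five 0 492 495) (mv 491 (both (mv 458 (both (five 3 458 459) (mv 490 (both (five 3 457 457) (mv 522 (both (five 2 489 521) (five 2 490 523))))))) (both (mv 462 (both (five 1 459 463) (mv 398 (both (five 6 397 430) (mv 490 (both (five 1 458 461) (mv 522 (both (five 2 489 521) (five 2 490 523))))))))) (mv 396 (both (five 4 396 428) (mv 459 (both (five 3 458 458) (mv 462 (both (five 1 459 463) (mv 430 (both (five 6 397 398) (mv 461 (both (five 1 427 431) (mv 427 (both (five 3 426 426) (mv 395 (both (five 4 363 363) (five 5 363 364)))))))))))))))))))) (both (mv 428 (both (five 4 396 396) (mv 524 (both (mv 555 (both (five 6 427 523) (mv 556 (both (five 6 459 587) (mv 588 (both (five 5 460 461) (five 5 492 620))))))) (both (mv 395 (both (five 7 395 427) (mv 429 (both (five 5 396 397) (mv 461 (both (five 5 428 556) (mv 430 (both (five 5 397 398) (mv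 431 (both (five 2 428 432) (mv 399 (both (five 1 396 400) (mv 463 (both (five 0 428 464) (mv 495 (both (five 0 492 494) (five 4 399 496))))))))))))))))) (mv 395 (both (five 7 395 427) (mv 397 (both (five 5 396 429) (mv 494 (both (five 0 492 495) (mv 523 (both (five 1 490 522) (five 6 427 555)))))))))))))) (both (mv 494 (both (five 0 492 495) (mv 491 (both (mv 458 (both (five 3 458 459) (mv 462 (both (five 1 459 463) (mv 490 (both (five 3 457 457) (five 1 458 461))))))) (both (mv 396 (both (five 4 396 428) (mv 458 (both (five 3 458 459) (mv 490 (both (five 3 457 457) (mv 489 (both (five 1 457 461) (five 0 489 524))))))))) (both (mv 396 (both (five 4 396 428) (mv 462 (both (five 1 459 463) (mv 398 (both (five 6 397 430) (mv 490 (both (five 1 458 461) (mv 489 (both (five 0 489 524) (mv 521 (both (five 2 488 520) (five 2 489 522))))))))))))) (both (mv 396 (both (five 4 396 428) (mv 458 (both (five 3 458 459) (mv 462 (both (five 1 459 463) (mv 398 (both (five 6 397 430) (mv 490 (both (five 3 457 457) (mv 489 (both (five 0 489 524) (mv 521 (both (five 2 488 520) (five 2 489 522))))))))))))))) (mv 396 (both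 (five 4 396 428) (mv 459 (both (five 3 458 458) (mv 462 (both (five 1 459 463) (mv 430 (both (five 6 397 398) (mv 461 (both (five 1 427 431) (mv 427 (both (five 3 426 426) (mv 395 (both (five 4 363 363) (five 5 363 364)))))))))))))))))))))) (both (mv 494 (both (five 0 492 495) (mv 491 (both (mv 458 (both (five 3 458 459) (mv 462 (both (five 1 459 463) (mv 490 (both (five 3 457 457) (five 1 458 461))))))) (both (mv 462 (both (five 1 459 463) (mv 398 (both (five 6 397 430) (mv 490 (both (five 1 458 461) (mv 457 (both (five 3 457 458) (mv 489 (both (five 3 456 456) (five 0 489 524))))))))))) (both (mv 458 (both (five 3 458 459) (mv 490 (both (five 3 457 457) (mv 489 (both (five 1 457 461) (five 0 489 524))))))) (both (mv 396 (both (five 4 396 428) (mv 462 (both (five 1 459 463) (mv 398 (both (five 6 397 430) (mv 490 (both (five 1 458 461) (mv 489 (both (five 0 489 524) (mv 456 (both (five 3 456 457) (mv 488 (both (five 3 455 455) (five 1 456 459))))))))))))))) (mv 428 (both (five 4 396 396) (mv 459 (both (five 3 458 458) (mv 462 (both (five 1 459 463) (mv 430 (both (five 6 397 398) (mv 429 (both (five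 2 427 431) (mv 523 (both (five 5 427 555) (mv 524 (both (five 5 396 397) (mv 427 (both (five 4 395 395) (five 7 427 556)))))))))))))))))))))))) (mv 523 (both (mv 494 (both (five 0 492 495) (mv 522 (both (five 2 490 491) (five 1 490 524))))) (both (mv 428 (both (five 4 396 396) (mv 524 (both (five 6 427 555) (mv 429 (both (five 5 396 397) (mv 461 (both (five 5 428 556) (mv 430 (both (five 5 397 398) (mv 431 (both (five 2 428 432) (five 2 427 459))))))))))))) (mv 428 (both (five 4 396 396) (mv 494 (both (five 0 492 495) (mv 491 (both (five 2 490 522) (mv 459 (both (five 3 458 458) (five 5 427 555)))))))))))))))))))) (both (mv 494 (both (five 0 492 495) (mv 491 (both (mv 458 (both (five 3 458 459) (mv 490 (both (five 3 457 457) (mv 522 (both (five 2 489 521) (five 2 490 523))))))) (both (mv 490 (both (mv 462 (both (five 1 459 463) (mv 398 (both (five 6 397 430) (mv 489 (both (five 0 489 524) (mv 456 (both (five 3 456 457) (mv 488 (both (five 3 455 455) (mv 520 (both (five 2 487 519) (five 2 488 521))))))))))))) (both (mv 458 (both (five 3 457 457) (five 3 458 459))) (mv 459 (both (five 3 458 458) (mv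 462 (both (five 1 459 463) (mv 398 (both (five 6 397 430) (mv 489 (both (five 0 489 524) (mv 488 (both (five 1 456 460) (mv 520 (both (five 2 487 519) (five 2 488 521)))))))))))))))) (both (mv 462 (both (five 1 459 463) (mv 398 (both (five 6 397 430) (mv 522 (both (five 2 490 523) (mv 490 (both (five 2 489 521) (mv 457 (both (five 3 457 458) (mv 489 (both (five 3 456 456) (five 0 489 524))))))))))))) (both (mv 460 (both (mv 428 (both (five 4 396 396) (mv 557 (both (five 4 428 524) (five 7 460 589))))) (both (mv 462 (both (five 1 459 463) (mv 398 (both (five 6 397 430) (mv 522 (both (five 2 490 523) (mv 490 (both (five 2 489 521) (mv 489 (both (five 0 489 524) (mv 456 (both (five 3 456 457) (mv 488 (both (five 3 455 455) (five 1 456 459))))))))))))))) (mv 428 (both (five 4 396 396) (mv 462 (both (five 1 459 463) (mv 398 (both (five 6 397 430) (mv 523 (both (five 2 490 522) (mv 555 (both (five 5 427 459) (five 5 459 587)))))))))))))) (mv 460 (both (mv 428 (both (five 4 396 396) (mv 557 (both (five 4 428 524) (five 7 460 589))))) (both (mv 459 (both (five 3 458 458) (mv 462 (both (five 1 459 463) (mv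 398 (both (five 6 397 430) (mv 523 (both (five 2 490 522) (mv 555 (both (five 5 459 587) (mv 554 (both (five 6 458 586) (mv 556 (both (five 4 459 588) (mv 524 (both (five 4 427 427) (five 1 521 553))))))))))))))))) (mv 428 (both (five 4 396 396) (mv 462 (both (five 1 459 463) (mv 398 (both (five 6 397 430) (mv 523 (both (five 2 490 522) (mv 555 (both (five 5 427 459) (five 5 459 587))))))))))))))))))))) (both (mv 460 (both (mv 557 (both (five 7 460 589) (mv 461 (both (mv 430 (both (five 5 429 462) (mv 429 (both (five 5 397 398) (mv 397 (both (five 6 364 365) (five 6 396 524))))))) (both (mv 494 (both (five 0 492 495) (mv 459 (both (five 0 458 458) (mv 556 (both (five 6 460 588) (mv 524 (both (five 7 427 427) (five 5 428 429))))))))) (mv 462 (both (five 5 429 430) (mv 463 (both (five 2 460 464) (mv 495 (both (five 0 492 494) (five 0 460 496)))))))))))) (both (mv 428 (both (five 4 396 396) (mv 524 (both (mv 555 (both (five 6 427 523) (mv 556 (both (five 6 459 587) (mv 588 (both (five 5 460 461) (five 5 492 620))))))) (both (mv 395 (both (five 7 395 427) (mv 429 (both (five 5 396 397) (mv 461 (both (five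 5 428 556) (mv 430 (both (five 5 397 398) (mv 431 (both (five 2 428 432) (mv 399 (both (five 1 396 400) (mv 463 (both (five 0 428 464) (mv 495 (both (five 0 492 494) (five 4 399 496))))))))))))))))) (mv 395 (both (five 7 395 427) (mv 397 (both (five 5 396 429) (mv 494 (both (five 0 492 495) (mv 523 (both (five 1 490 522) (five 6 427 555)))))))))))))) (both (mv 428 (both (five 4 396 396) (mv 557 (both (five 7 428 461) (five 7 460 589))))) (mv 428 (both (five 4 396 396) (mv 557 (both (five 4 428 524) (five 7 460 589))))))))) (both (mv 460 (both (mv 494 (both (five 0 492 495) (mv 491 (both (mv 458 (both (five 3 458 459) (mv 490 (both (five 3 457 457) (mv 522 (both (five 2 489 521) (five 2 490 523))))))) (both (mv 522 (both (five 2 490 523) (mv 490 (both (five 2 489 521) (mv 457 (both (five 3 457 458) (mv 489 (both (five 3 456 456) (five 0 489 524))))))))) (both (mv 522 (both (five 2 490 523) (mv 490 (both (five 2 489 521) (mv 489 (both (five 0 489 524) (mv 456 (both (five 3 456 457) (mv 488 (both (five 3 455 455) (five 1 456 459))))))))))) (both (mv 458 (both (five 3 458 459) (mv 490 (both (five 3 457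 457) (mv 489 (both (five 1 457 461) (five 0 489 524))))))) (mv 459 (both (five 3 458 458) (mv 523 (both (five 2 490 522) (mv 555 (both (five 5 459 587) (mv 554 (both (five 6 458 586) (mv 556 (both (five 4 459 588) (mv 524 (both (five 4 427 427) (five 1 521 553)))))))))))))))))))) (both (mv 428 (both (five 4 396 396) (mv 557 (both (five 7 428 461) (five 7 460 589))))) (mv 428 (both (five 4 396 396) (mv 557 (both (five 4 428 524) (five 7 460 589)))))))) (both (mv 494 (both (five 0 492 495) (mv 462 (both (mv 430 (both (five 6 397 398) (mv 557 (both (five 5 429 461) (five 5 461 589))))) (both (mv 398 (both (five 6 397 430) (mv 491 (both (five 1 459 463) (mv 458 (both (five 3 458 459) (mv 490 (both (five 3 457 457) (mv 489 (both (five 0 489 524) (mv 521 (both (five 2 488 520) (five 2 489 522))))))))))))) (mv 463 (both (five 1 459 491) (mv 464 (both (five 2 460 461) (five 2 461 465)))))))))) (both (mv 460 (both (mv 557 (both (five 7 460 589) (mv 461 (both (mv 462 (both (five 5 429 430) (mv 463 (both (five 2 460 464) (five 2 459 491))))) (mv 494 (both (five 0 492 495) (mv 459 (both (five 0 458 458) (mv 556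 (both (five 6 460 588) (mv 524 (both (five 7 427 427) (five 5 428 429))))))))))))) (both (mv 494 (both (five 0 492 495) (mv 491 (both (mv 458 (both (five 3 458 459) (mv 462 (both (five 1 459 463) (mv 490 (both (five 3 457 457) (five 1 458 461))))))) (both (mv 462 (both (five 1 459 463) (mv 398 (both (five 6 397 430) (mv 490 (both (five 1 458 461) (mv 457 (both (five 3 457 458) (mv 489 (both (five 3 456 456) (five 0 489 524))))))))))) (both (mv 458 (both (five 3 458 459) (mv 490 (both (five 3 457 457) (mv 489 (both (five 1 457 461) (five 0 489 524))))))) (both (mv 396 (both (five 4 396 428) (mv 462 (both (five 1 459 463) (mv 398 (both (five 6 397 430) (mv 490 (both (five 1 458 461) (mv 489 (both (five 0 489 524) (mv 456 (both (five 3 456 457) (mv 488 (both (five 3 455 455) (five 1 456 459))))))))))))))) (mv 428 (both (five 4 396 396) (mv 459 (both (five 3 458 458) (mv 462 (both (five 1 459 463) (mv 430 (both (five 6 397 398) (mv 429 (both (five 2 427 431) (mv 523 (both (five 5 427 555) (mv 524 (both (five 5 396 397) (mv 427 (both (five 4 395 395) (five 7 427 556)))))))))))))))))))))))) (both (mv 428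 (both (five 4 396 396) (mv 557 (both (five 4 428 524) (five 7 460 589))))) (mv 428 (both (five 4 396 396) (mv 557 (both (five 7 428 461) (five 7 460 589))))))))) (both (mv 494 (both (five 0 492 495) (mv 462 (both (mv 430 (both (five 6 397 398) (mv 557 (both (five 5 429 461) (five 5 461 589))))) (both (mv 463 (both (five 1 459 491) (mv 464 (both (five 2 460 461) (five 2 461 465))))) (mv 398 (both (five 6 397 430) (mv 491 (both (five 1 459 463) (mv 522 (both (five 2 490 523) (mv 490 (both (five 2 489 521) (mv 457 (both (five 3 457 458) (mv 489 (both (five 3 456 456) (five 0 489 524)))))))))))))))))) (mv 460 (both (mv 462 (both (mv 494 (both (five 0 492 495) (mv 430 (both (five 6 397 398) (mv 557 (both (five 5 429 461) (five 5 461 589))))))) (both (mv 557 (both (five 7 460 589) (mv 461 (both (five 5 429 430) (mv 463 (both (five 2 460 464) (five 2 459 491))))))) (both (mv 494 (both (five 0 492 495) (mv 398 (both (five 6 397 430) (mv 491 (both (five 1 459 463) (mv 522 (both (five 2 490 523) (mv 490 (both (five 2 489 521) (mv 489 (both (five 0 489 524) (mv 456 (both (five 3 456 457) (mv 488 (both (five 3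 455 455) (five 1 456 459))))))))))))))))) (mv 494 (both (five 0 492 495) (mv 463 (both (five 1 459 491) (mv 464 (both (five 2 460 461) (five 2 461 465))))))))))) (both (mv 428 (both (five 4 396 396) (mv 524 (both (mv 555 (both (five 6 427 523) (mv 556 (both (five 6 459 587) (mv 588 (both (five 5 460 461) (five 5 492 620))))))) (both (mv 395 (both (five 7 395 427) (mv 429 (both (five 5 396 397) (mv 461 (both (five 5 428 556) (mv 430 (both (five 5 397 398) (mv 431 (both (five 2 428 432) (mv 399 (both (five 1 396 400) (mv 463 (both (five 0 428 464) (mv 495 (both (five 0 492 494) (five 4 399 496))))))))))))))))) (mv 395 (both (five 7 395 427) (mv 397 (both (five 5 396 429) (mv 494 (both (five 0 492 495) (mv 523 (both (five 1 490 522) (five 6 427 555)))))))))))))) (both (mv 428 (both (five 4 396 396) (mv 557 (both (five 7 428 461) (five 7 460 589))))) (mv 428 (both (five 4 396 396) (mv 557 (both (five 4 428 524) (five 7 460 589))))))))))))))))))) (mv 495 (both (mv 560 (both (mv 463 (both (five 4 431 431) (mv 592 (both (five 4 463 559) (five 7 495 624))))) (both (mv 592 (both (five 7 495 624) (mv 496 (both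 (mv 465 (both (five 5 464 497) (mv 464 (both (five 5 432 433) (mv 432 (both (five 6 399 400) (five 6 431 559))))))) (both (mv 497 (both (five 5 464 465) (mv 498 (both (five 2 495 499) (mv 466 (both (five 1 463 467) (mv 530 (both (five 0 495 531) (mv 593 (both (five 4 496 625) (mv 562 (both (five 6 465 561) (mv 595 (both (five 4 466 563) (mv 594 (both (five 3 559 559) (five 4 498 627))))))))))))))))) (both (mv 593 (both (five 4 496 625) (mv 464 (both (five 4 464 561) (mv 432 (both (five 6 399 400) (five 6 431 559))))))) (mv 465 (both (five 5 464 497) (mv 464 (both (five 5 432 433) (mv 593 (both (five 4 464 561) (five 4 496 625))))))))))))) (both (mv 463 (both (five 4 431 431) (mv 559 (both (mv 558 (both (five 6 462 590) (mv 557 (both (five 3 524 524) (five 1 524 556))))) (mv 464 (both (five 5 431 432) (mv 496 (both (five 5 463 591) (mv 465 (both (five 5 432 433) (mv 466 (both (five 2 463 467) (mv 498 (both (five 0 463 499) (mv 561 (both (five 4 464 593) (mv 562 (both (five 3 527 563) (mv 530 (both (five 1 527 531) (mv 594 (both (five 7 465 497) (five 0 559 595))))))))))))))))))))))) (mv 463 (both (five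 4 431 431) (mv 592 (both (five 7 463 496) (five 7 495 624))))))))) (both (mv 494 (both (five 0 492 492) (mv 462 (both (mv 557 (both (five 5 461 589) (mv 559 (both (five 7 462 591) (mv 556 (both (five 1 524 558) (mv 461 (both (five 6 460 588) (mv 460 (both (five 7 428 428) (five 0 459 459))))))))))) (both (mv 559 (both (five 7 462 591) (mv 463 (both (five 7 430 430) (mv 464 (both (five 5 431 432) (five 2 461 465))))))) (mv 557 (both (five 5 461 589) (mv 461 (both (five 5 429 430) (mv 460 (both (five 7 428 428) (five 0 459 459)))))))))))) (both (mv 494 (both (five 0 492 492) (mv 496 (both (five 2 492 524) (mv 464 (both (five 1 461 465) (mv 432 (both (five 6 399 400) (mv 401 (both (five 5 400 433) (mv 431 (both (five 7 399 399) (mv 560 (both (five 7 431 463) (mv 592 (both (five 7 495 624) (mv 593 (both (five 4 464 561) (five 4 496 625))))))))))))))))))) (mv 494 (both (five 0 492 492) (mv 496 (both (five 2 492 524) (mv 461 (both (five 3 460 460) (mv 462 (both (five 3 461 497) (mv 557 (both (five 5 461 589) (mv 556 (both (five 6 460 588) (mv 558 (both (five 1 524 559) (five 4 461 590)))))))))))))))))))))))))))))))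 (both (mv 526 (both (mv 492 (both (five 3 492 493) (mv 496 (both (five 1 493 497) (mv 524 (both (five 3 491 491) (five 1 492 495))))))) (both (mv 496 (both (five 1 493 497) (mv 524 (both (five 1 492 495) (mv 556 (both (five 2 523 555) (five 2 524 557))))))) (both (mv 492 (both (five 3 492 493) (mv 524 (both (five 3 491 491) (mv 556 (both (five 2 523 555) (five 2 524 557))))))) (mv 493 (both (five 3 492 492) (mv 461 (both (mv 496 (both (five 1 493 497) (mv 557 (both (five 2 524 556) (mv 428 (both (five 7 428 460) (mv 429 (both (five 7 396 396) (mv 430 (both (five 5 397 398) (five 5 429 462))))))))))) (both (mv 496 (both (five 1 493 497) (mv 557 (both (five 2 524 556) (mv 428 (both (five 7 428 460) (mv 430 (both (five 5 429 462) (mv 590 (both (five 4 461 558) (mv 589 (both (five 4 493 622) (mv 620 (both (five 6 492 588) (mv 621 (both (five 5 493 494) (five 6 524 652))))))))))))))))) (both (mv 429 (both (five 4 429 558) (mv 396 (both (five 7 396 428) (mv 397 (both (five 7 364 364) (five 4 397 494))))))) (mv 429 (both (five 4 429 558) (mv 397 (both (five 4 397 494) (mv 398 (both (five 5 365 366) (five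 5 397 430))))))))))))))))) (both (mv 526 (both (mv 556 (both (five 2 524 557) (mv 524 (both (five 2 523 555) (mv 560 (both (five 0 524 559) (five 0 525 561))))))) (both (mv 492 (both (five 3 492 493) (mv 524 (both (five 3 491 491) (mv 560 (both (five 0 524 559) (five 0 525 561))))))) (mv 493 (both (five 3 492 492) (mv 461 (both (mv 429 (both (five 4 429 558) (mv 396 (both (five 7 396 428) (mv 397 (both (five 7 364 364) (five 4 397 494))))))) (both (mv 557 (both (five 2 524 556) (mv 428 (both (five 7 428 460) (mv 429 (both (five 7 396 396) (mv 430 (both (five 5 397 398) (five 5 429 462))))))))) (both (mv 557 (both (five 2 524 556) (mv 428 (both (five 7 428 460) (mv 430 (both (five 5 429 462) (mv 590 (both (five 4 461 558) (mv 589 (both (five 4 493 622) (mv 620 (both (five 6 492 588) (mv 621 (both (five 5 493 494) (five 6 524 652))))))))))))))) (mv 429 (both (five 4 429 558) (mv 397 (both (five 4 397 494) (mv 398 (both (five 5 365 366) (five 5 397 430)))))))))))))))) (both (mv 526 (both (mv 496 (both (five 1 493 497) (mv 524 (both (five 1 492 495) (mv 556 (both (five 2 523 555) (five 2 524 557)))))))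 (both (mv 556 (both (five 2 524 557) (mv 524 (both (five 2 523 555) (mv 560 (both (five 0 524 559) (five 0 525 561))))))) (both (mv 496 (both (five 1 493 497) (mv 495 (both (five 1 492 524) (mv 560 (both (five 0 525 561) (mv 463 (both (five 4 431 431) (mv 592 (both (five 4 463 559) (five 7 495 624))))))))))) (mv 496 (both (five 1 493 497) (mv 464 (both (mv 432 (both (five 6 431 559) (mv 399 (both (five 7 399 431) (mv 400 (both (five 7 367 367) (five 6 399 495))))))) (both (mv 556 (both (five 2 524 557) (mv 560 (both (five 0 525 561) (mv 433 (both (five 5 432 465) (mv 463 (both (five 7 431 431) (mv 495 (both (five 7 463 592) (mv 559 (both (five 5 463 591) (mv 462 (both (five 7 430 430) (mv 461 (both (five 0 460 460) (mv 429 (both (five 3 428 428) (mv 558 (both (five 7 429 494) (five 6 462 590))))))))))))))))))))) (both (mv 556 (both (five 2 524 557) (mv 560 (both (five 0 525 561) (mv 431 (both (five 7 431 463) (mv 432 (both (five 7 399 399) (mv 433 (both (five 5 400 401) (five 5 432 465))))))))))) (mv 432 (both (five 6 431 559) (mv 400 (both (five 6 399 495) (mv 401 (both (five 5 368 369) (five 5 400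 433))))))))))))))))) (both (mv 526 (both (mv 492 (both (five 3 492 493) (mv 496 (both (five 1 493 497) (mv 524 (both (five 3 491 491) (five 1 492 495))))))) (both (mv 492 (both (five 3 492 493) (mv 524 (both (five 3 491 491) (mv 560 (both (five 0 524 559) (five 0 525 561))))))) (mv 496 (both (five 1 493 497) (mv 464 (both (mv 432 (both (five 6 431 559) (mv 399 (both (five 7 399 431) (mv 400 (both (five 7 367 367) (five 6 399 495))))))) (both (mv 560 (both (five 0 525 561) (mv 433 (both (five 5 432 465) (mv 463 (both (five 7 431 431) (mv 495 (both (five 7 463 592) (mv 559 (both (five 5 463 591) (mv 462 (both (five 7 430 430) (mv 461 (both (five 0 460 460) (mv 429 (both (five 3 428 428) (mv 558 (both (five 7 429 494) (five 6 462 590))))))))))))))))))) (both (mv 560 (both (five 0 525 561) (mv 431 (both (five 7 431 463) (mv 432 (both (five 7 399 399) (mv 433 (both (five 5 400 401) (five 5 432 465))))))))) (mv 432 (both (five 6 431 559) (mv 400 (both (five 6 399 495) (mv 401 (both (five 5 368 369) (five 5 400 433)))))))))))))))) (both (mv 526 (both (mv 493 (both (five 3 492 492) (mv 461 (both (mv 429 (both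 (five 4 429 558) (mv 396 (both (five 7 396 428) (mv 397 (both (five 7 364 364) (five 4 397 494))))))) (both (mv 557 (both (five 2 524 556) (mv 428 (both (five 7 428 460) (mv 429 (both (five 7 396 396) (mv 430 (both (five 5 397 398) (five 5 429 462))))))))) (both (mv 557 (both (five 2 524 556) (mv 428 (both (five 7 428 460) (mv 430 (both (five 5 429 462) (mv 590 (both (five 4 461 558) (mv 589 (both (five 4 493 622) (mv 620 (both (five 6 492 588) (mv 621 (both (five 5 493 494) (five 6 524 652))))))))))))))) (mv 429 (both (five 4 429 558) (mv 397 (both (five 4 397 494) (mv 398 (both (five 5 365 366) (five 5 397 430))))))))))))) (both (mv 496 (both (five 1 493 497) (mv 464 (both (mv 432 (both (five 6 431 559) (mv 399 (both (five 7 399 431) (mv 400 (both (five 7 367 367) (five 6 399 495))))))) (both (mv 560 (both (five 0 525 561) (mv 433 (both (five 5 432 465) (mv 463 (both (five 7 431 431) (mv 495 (both (five 7 463 592) (mv 559 (both (five 5 463 591) (mv 462 (both (five 7 430 430) (mv 461 (both (five 0 460 460) (mv 429 (both (five 3 428 428) (mv 558 (both (five 7 429 494) (five 6 462 590)))))))))))))))))))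 (both (mv 560 (both (five 0 525 561) (mv 431 (both (five 7 431 463) (mv 432 (both (five 7 399 399) (mv 433 (both (five 5 400 401) (five 5 432 465))))))))) (mv 432 (both (five 6 431 559) (mv 400 (both (five 6 399 495) (mv 401 (both (five 5 368 369) (five 5 400 433))))))))))))) (mv 496 (both (five 1 493 497) (mv 464 (both (mv 432 (both (five 6 431 559) (mv 399 (both (five 7 399 431) (mv 400 (both (five 7 367 367) (five 6 399 495))))))) (both (mv 492 (both (five 3 492 493) (mv 556 (both (five 2 524 557) (mv 560 (both (five 0 525 561) (mv 433 (both (five 5 432 465) (mv 463 (both (five 7 431 431) (mv 559 (both (five 6 463 591) (mv 592 (both (five 7 463 495) (mv 624 (both (five 7 527 656) (mv 625 (both (five 4 496 593) (five 4 528 657))))))))))))))))))) (both (mv 560 (both (five 0 525 561) (mv 431 (both (five 7 431 463) (mv 432 (both (five 7 399 399) (mv 433 (both (five 5 400 401) (five 5 432 465))))))))) (mv 432 (both (five 6 431 559) (mv 400 (both (five 6 399 495) (mv 401 (both (five 5 368 369) (five 5 400 433)))))))))))))))) (mv 526 (both (mv 492 (both (five 3 492 493) (mv 496 (both (five 1 493 497) (mv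 524 (both (five 3 491 491) (five 1 492 495))))))) (both (mv 492 (both (five 3 492 493) (mv 524 (both (five 3 491 491) (mv 556 (both (five 2 523 555) (five 2 524 557))))))) (both (mv 496 (both (five 1 493 497) (mv 524 (both (five 1 492 495) (mv 556 (both (five 2 523 555) (five 2 524 557))))))) (mv 496 (both (five 1 493 497) (mv 464 (both (mv 432 (both (five 6 431 559) (mv 399 (both (five 7 399 431) (mv 400 (both (five 7 367 367) (five 6 399 495))))))) (both (mv 492 (both (five 3 492 493) (mv 556 (both (five 2 524 557) (mv 560 (both (five 0 525 561) (mv 433 (both (five 5 432 465) (mv 463 (both (five 7 431 431) (mv 559 (both (five 6 463 591) (mv 592 (both (five 7 463 495) (mv 624 (both (five 7 527 656) (mv 625 (both (five 4 496 593) (five 4 528 657))))))))))))))))))) (both (mv 560 (both (five 0 525 561) (mv 431 (both (five 7 431 463) (mv 432 (both (five 7 399 399) (mv 433 (both (five 5 400 401) (five 5 432 465))))))))) (mv 432 (both (five 6 431 559) (mv 400 (both (five 6 399 495) (mv 401 (both (five 5 368 369) (five 5 400 433)))))))))))))))))))))))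

theorem L79 : W (S 988530863058807798957393715067720623286798683220635978952802738122718218409262471505648588255249455916730668840373243557345566271959196709010660073920568229888) (S 401316521836876115571119671215457984981831661329209025136854706940930081108907407685335000734513049946426376365711090060599905832011630281880192411706405015386646991233512179085180281413759259238678858301440) :=
  check_sound Env.nil (x := 527) (t := tL79) (by decide +kernel)

def tL80 : T :=
  (both (mv 462 (both (mv 463 (both (mv 464 (both (mv 496 (both (five 0 461 497) (mv 560 (both (five 7 431 431) (mv 559 (both (five 6 463 591) (mv 561 (both (five 3 525 558) (five 4 464 593))))))))) (mv 429 (both (five 3 428 428) (mv 433 (both (five 1 429 432) (mv 465 (both (five 3 429 430) (five 1 430 434))))))))) (both (mv 460 (both (mv 427 (both (five 3 427 428) (mv 431 (both (five 1 428 432) (mv 459 (both (five 3 426 426) (five 1 427 430))))))) (both (mv 427 (both (five 3 427 428) (mv 459 (both (five 3 426 426) (mv 491 (both (five 2 458 490) (five 2 459 492))))))) (both (mv 431 (both (five 1 428 432) (mv 459 (both (five 1 427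 430) (mv 491 (both (five 2 458 490) (five 2 459 492))))))) (mv 431 (both (five 1 428 432) (mv 495 (both (five 0 460 496) (mv 399 (both (mv 366 (both (five 7 366 398) (mv 367 (both (five 7 334 334) (mv 368 (both (five 5 335 336) (five 5 367 400))))))) (both (mv 400 (both (five 5 367 368) (mv 428 (both (five 3 427 427) (mv 429 (both (five 1 396 430) (mv 397 (both (five 2 396 398) (mv 365 (both (five 6 332 333) (five 6 364 492))))))))))) (both (mv 368 (both (five 5 367 400) (mv 367 (both (five 5 335 336) (mv 334 (both (five 7 334 366) (mv 335 (both (five 7 302 302) (five 6 334 430))))))))) (mv 366 (both (five 7 366 398) (mv 367 (both (five 7 334 334) (mv 335 (both (five 6 334 430) (mv 336 (both (five 5 303 304) (mv 337 (both (five 2 334 338) (mv 365 (both (five 1 332 364) (mv 428 (both (five 3 427 427) (mv 492 (both (five 2 459 491) (mv 397 (both (five 5 364 396) (five 6 364 429))))))))))))))))))))))))))))))) (both (mv 460 (both (mv 427 (both (five 3 427 428) (mv 459 (both (five 3 426 426) (mv 491 (both (five 2 458 490) (five 2 459 492))))))) (both (mv 431 (both (five 1 428 432) (mv 459 (both (five 1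 427 430) (mv 491 (both (five 2 458 490) (five 2 459 492))))))) (mv 428 (both (five 3 427 427) (mv 432 (both (five 1 428 431) (mv 464 (both (five 3 428 429) (five 1 429 433)))))))))) (both (mv 464 (both (mv 429 (both (five 3 428 428) (mv 433 (both (five 1 429 432) (mv 465 (both (five 3 429 430) (five 1 430 434))))))) (both (mv 432 (both (five 1 429 433) (mv 496 (both (five 0 461 497) (mv 495 (both (five 0 460 460) (mv 368 (both (five 6 367 400) (mv 560 (both (five 7 463 592) (mv 559 (both (five 6 463 591) (mv 561 (both (five 3 525 558) (five 4 464 593))))))))))))))) (mv 496 (both (five 0 461 497) (mv 460 (both (five 0 460 495) (mv 427 (both (five 3 427 428) (mv 459 (both (five 3 426 426) (mv 491 (both (five 2 458 490) (five 2 459 492)))))))))))))) (both (mv 460 (both (mv 427 (both (five 3 427 428) (mv 459 (both (five 3 426 426) (mv 491 (both (five 2 458 490) (five 2 459 492))))))) (mv 496 (both (five 0 460 495) (mv 464 (both (five 0 461 497) (mv 560 (both (five 7 431 431) (mv 559 (both (five 6 463 591) (mv 561 (both (five 3 525 558) (five 4 464 593))))))))))))) (mv 460 (both (mv 431 (both (five 1 428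 432) (mv 459 (both (five 1 427 430) (mv 491 (both (five 2 458 490) (five 2 459 492))))))) (both (mv 496 (both (five 0 460 495) (mv 464 (both (five 0 461 497) (mv 433 (both (five 1 429 432) (mv 465 (both (five 1 430 434) (five 5 432 560))))))))) (mv 496 (both (five 0 460 495) (mv 464 (both (five 0 461 497) (mv 560 (both (five 7 431 431) (mv 559 (both (five 6 463 591) (mv 561 (both (five 3 525 558) (five 4 464 593)))))))))))))))))))) (both (mv 463 (both (mv 460 (both (mv 427 (both (five 3 427 428) (mv 459 (both (five 3 426 426) (mv 491 (both (five 2 458 490) (five 2 459 492))))))) (mv 496 (both (five 0 460 495) (mv 464 (both (five 0 461 497) (mv 560 (both (five 7 431 431) (mv 559 (both (five 6 463 591) (mv 561 (both (five 3 525 558) (five 4 464 593))))))))))))) (both (mv 464 (both (mv 496 (both (five 0 461 497) (mv 560 (both (five 7 431 431) (mv 559 (both (five 6 463 591) (mv 561 (both (five 3 525 558) (five 4 464 593))))))))) (both (mv 428 (both (five 3 428 429) (mv 433 (both (five 1 429 432) (mv 465 (both (five 1 430 434) (mv 498 (both (five 0 462 497) (mv 466 (both (five 0 463 499) (mv 369 (both (five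 4 369 401) (mv 494 (both (five 2 462 495) (mv 558 (both (five 5 430 431) (mv 589 (both (five 6 461 557) (mv 590 (both (five 6 493 621) (mv 591 (both (five 4 462 559) (five 4 494 623))))))))))))))))))))))) (both (mv 496 (both (mv 433 (both (five 1 429 432) (mv 465 (both (five 1 430 434) (five 5 432 560))))) (both (mv 428 (both (five 3 428 429) (mv 432 (both (five 1 429 433) (mv 399 (both (five 7 399 431) (mv 400 (both (five 7 367 367) (mv 368 (both (five 6 367 495) (mv 369 (both (five 5 336 337) (five 5 368 401))))))))))))) (mv 560 (both (five 7 431 431) (mv 559 (both (five 6 463 591) (mv 561 (both (five 3 525 558) (five 4 464 593)))))))))) (mv 428 (both (five 3 428 429) (mv 433 (both (five 1 429 432) (mv 465 (both (five 1 430 434) (mv 496 (both (five 0 461 497) (five 5 432 560))))))))))))) (both (mv 460 (both (mv 427 (both (five 3 427 428) (mv 459 (both (five 3 426 426) (mv 491 (both (five 2 458 490) (five 2 459 492))))))) (mv 431 (both (five 1 428 432) (mv 494 (both (five 5 430 558) (mv 399 (both (five 6 366 367) (five 6 398 495))))))))) (both (mv 464 (both (mv 433 (both (five 1 429 432) (mv 465 (both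 (five 1 430 434) (mv 496 (both (five 0 461 497) (five 5 432 560))))))) (both (mv 429 (both (five 3 428 428) (mv 433 (both (five 1 429 432) (mv 465 (both (five 1 430 434) (mv 494 (both (five 7 429 558) (mv 365 (both (five 4 365 397) (mv 466 (both (five 2 462 495) (mv 498 (both (five 0 462 497) (five 0 463 499))))))))))))))) (both (mv 428 (both (five 3 428 429) (mv 432 (both (five 1 429 433) (mv 460 (both (five 3 427 427) (mv 491 (both (five 2 459 492) (mv 459 (both (five 2 458 490) (mv 495 (both (five 0 459 494) (five 0 460 496))))))))))))) (mv 496 (both (five 0 461 497) (mv 460 (both (five 0 460 495) (mv 427 (both (five 3 427 428) (mv 459 (both (five 3 426 426) (mv 491 (both (five 2 458 490) (five 2 459 492))))))))))))))) (both (mv 464 (both (mv 433 (both (five 1 429 432) (mv 465 (both (five 1 430 434) (mv 496 (both (five 0 461 497) (five 5 432 560))))))) (both (mv 428 (both (five 3 428 429) (mv 432 (both (five 1 429 433) (mv 460 (both (five 3 427 427) (five 1 428 431))))))) (mv 496 (both (five 0 461 497) (mv 560 (both (five 7 431 431) (mv 559 (both (five 6 463 591) (mv 561 (both (five 3 525 558) (five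 4 464 593)))))))))))) (mv 496 (both (mv 464 (both (five 0 461 497) (mv 433 (both (five 1 429 432) (mv 465 (both (five 1 430 434) (five 5 432 560))))))) (both (mv 495 (both (five 0 460 460) (mv 497 (both (five 2 493 494) (five 3 462 498))))) (mv 495 (both (five 0 460 460) (mv 431 (both (five 4 399 399) (mv 560 (both (five 7 431 464) (five 7 463 592)))))))))))))))) (both (mv 463 (both (mv 494 (both (mv 431 (both (five 5 430 558) (mv 399 (both (five 6 366 367) (five 5 398 430))))) (both (mv 557 (both (five 6 429 430) (mv 589 (both (five 6 461 558) (five 5 493 621))))) (both (mv 430 (both (five 6 429 557) (mv 399 (both (five 5 398 431) (mv 398 (both (five 5 366 367) (mv 365 (both (five 7 365 397) (mv 366 (both (five 7 333 333) (five 4 366 495))))))))))) (mv 558 (both (five 5 430 431) (mv 589 (both (five 6 461 557) (mv 590 (both (five 6 493 621) (mv 591 (both (five 4 462 559) (five 4 494 623))))))))))))) (both (mv 460 (both (mv 427 (both (five 3 427 428) (mv 459 (both (five 3 426 426) (mv 491 (both (five 2 458 490) (five 2 459 492))))))) (mv 496 (both (five 0 460 495) (mv 464 (both (five 0 461 497) (mv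 433 (both (five 1 429 432) (mv 465 (both (five 1 430 434) (five 5 432 560))))))))))) (mv 431 (both (mv 494 (both (five 5 430 558) (mv 399 (both (five 6 366 367) (five 5 398 430))))) (mv 432 (both (five 1 428 460) (mv 433 (both (five 2 430 434) (five 1 429 464)))))))))) (both (mv 463 (both (mv 460 (both (mv 427 (both (five 3 427 428) (mv 459 (both (five 3 426 426) (mv 491 (both (five 2 458 490) (five 2 459 492))))))) (both (mv 431 (both (five 1 428 432) (mv 459 (both (five 1 427 430) (mv 491 (both (five 2 458 490) (five 2 459 492))))))) (mv 428 (both (five 3 427 427) (mv 432 (both (five 1 428 431) (mv 464 (both (five 3 428 429) (five 1 429 433)))))))))) (both (mv 464 (both (mv 429 (both (five 3 428 428) (mv 433 (both (five 1 429 432) (mv 465 (both (five 3 429 430) (five 1 430 434))))))) (both (mv 433 (both (five 1 429 432) (mv 465 (both (five 1 430 434) (mv 496 (both (five 0 461 497) (five 5 432 560))))))) (mv 428 (both (five 3 428 429) (mv 496 (both (five 0 461 497) (mv 431 (both (five 7 431 560) (mv 399 (both (five 4 367 367) (five 4 399 495)))))))))))) (both (mv 460 (both (mv 427 (both (five 3 427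 428) (mv 431 (both (five 1 428 432) (mv 459 (both (five 3 426 426) (five 1 427 430))))))) (both (mv 427 (both (five 3 427 428) (mv 459 (both (five 3 426 426) (mv 491 (both (five 2 458 490) (five 2 459 492))))))) (both (mv 431 (both (five 1 428 432) (mv 459 (both (five 1 427 430) (mv 491 (both (five 2 458 490) (five 2 459 492))))))) (mv 427 (both (five 3 427 428) (mv 431 (both (five 1 428 432) (mv 491 (both (five 2 459 492) (mv 495 (both (five 0 460 496) (mv 399 (both (five 6 398 494) (mv 366 (both (five 7 366 398) (mv 367 (both (five 7 334 334) (mv 368 (both (five 5 335 336) (five 5 367 400))))))))))))))))))))) (both (mv 460 (both (mv 427 (both (five 3 427 428) (mv 459 (both (five 3 426 426) (mv 491 (both (five 2 458 490) (five 2 459 492))))))) (mv 496 (both (five 0 460 495) (mv 464 (both (five 0 461 497) (mv 433 (both (five 1 429 432) (mv 465 (both (five 1 430 434) (five 5 432 560))))))))))) (both (mv 460 (both (mv 427 (both (five 3 427 428) (mv 459 (both (five 3 426 426) (mv 491 (both (five 2 458 490) (five 2 459 492))))))) (mv 496 (both (five 0 460 495) (mv 464 (both (five 0 461 497) (mv 431 (both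 (five 7 431 560) (mv 399 (both (five 4 367 367) (mv 430 (both (five 5 398 494) (mv 465 (both (five 3 429 429) (five 3 430 466))))))))))))))) (mv 496 (both (mv 464 (both (five 0 461 497) (mv 433 (both (five 1 429 432) (mv 465 (both (five 1 430 434) (five 5 432 560))))))) (both (mv 495 (both (five 0 460 460) (mv 497 (both (five 2 493 494) (five 3 462 498))))) (mv 495 (both (five 0 460 460) (mv 431 (both (five 4 399 399) (mv 560 (both (five 7 431 464) (five 7 463 592)))))))))))))))) (both (mv 494 (both (mv 429 (both (five 7 429 558) (mv 397 (both (five 4 365 365) (five 7 397 430))))) (both (mv 557 (both (five 6 429 430) (mv 589 (both (five 6 461 558) (five 5 493 621))))) (both (mv 430 (both (five 6 429 557) (mv 398 (both (mv 397 (both (five 7 365 365) (five 7 397 429))) (both (mv 367 (both (five 5 366 399) (mv 366 (both (five 5 334 335) (mv 333 (both (five 7 333 365) (mv 334 (both (five 7 301 301) (five 6 333 429))))))))) (both (mv 365 (both (five 7 365 397) (mv 366 (both (five 7 333 333) (mv 367 (both (five 5 334 335) (five 5 366 399))))))) (mv 367 (both (five 5 366 399) (mv 366 (both (five 5 334 335)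 (mv 429 (both (five 6 333 334) (five 7 397 397))))))))))))) (mv 558 (both (five 7 429 429) (mv 589 (both (five 6 461 557) (mv 590 (both (five 6 493 621) (mv 591 (both (five 4 462 559) (five 4 494 623))))))))))))) (both (mv 463 (both (mv 464 (both (mv 496 (both (five 0 461 497) (mv 560 (both (five 7 431 431) (mv 559 (both (five 6 463 591) (mv 561 (both (five 3 525 558) (five 4 464 593))))))))) (mv 429 (both (five 3 428 428) (mv 433 (both (five 1 429 432) (mv 465 (both (five 3 429 430) (five 1 430 434))))))))) (both (mv 494 (both (mv 429 (both (five 7 429 558) (mv 397 (both (five 4 365 365) (five 7 397 430))))) (both (mv 430 (both (five 6 429 557) (mv 397 (both (five 7 397 429) (mv 398 (both (five 7 365 365) (mv 366 (both (five 4 366 495) (mv 334 (both (five 4 334 431) (mv 335 (both (five 5 302 303) (five 5 334 367))))))))))))) (both (mv 557 (both (five 6 429 430) (mv 589 (both (five 6 461 558) (five 5 493 621))))) (mv 558 (both (five 7 429 429) (mv 589 (both (five 6 461 557) (mv 590 (both (five 6 493 621) (mv 591 (both (five 4 462 559) (five 4 494 623))))))))))))) (mv 460 (both (mv 427 (both (five 3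 427 428) (mv 459 (both (five 3 426 426) (mv 491 (both (five 2 458 490) (five 2 459 492))))))) (mv 496 (both (five 0 460 495) (mv 464 (both (five 0 461 497) (mv 433 (both (five 1 429 432) (mv 465 (both (five 1 430 434) (five 5 432 560)))))))))))))) (mv 494 (both (mv 429 (both (five 7 429 558) (mv 397 (both (five 4 365 365) (five 7 397 430))))) (both (mv 430 (both (five 6 429 557) (mv 397 (both (five 7 397 429) (mv 365 (both (five 7 365 398) (mv 431 (both (five 5 398 399) (mv 432 (both (five 2 429 433) (mv 460 (both (five 1 427 459) (five 1 428 463))))))))))))) (both (mv 558 (both (five 7 429 429) (mv 589 (both (five 6 461 557) (mv 590 (both (five 6 493 621) (mv 591 (both (five 4 462 559) (five 4 494 623))))))))) (mv 557 (both (five 6 429 430) (mv 589 (both (five 6 461 558) (five 5 493 621)))))))))))))))) (both (mv 462 (both (mv 463 (both (mv 460 (both (mv 427 (both (five 3 427 428) (mv 459 (both (five 3 426 426) (mv 491 (both (five 2 458 490) (five 2 459 492))))))) (both (mv 431 (both (five 1 428 432) (mv 459 (both (five 1 427 430) (mv 491 (both (five 2 458 490) (five 2 459 492))))))) (mv 428 (both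 (five 3 427 427) (mv 432 (both (five 1 428 431) (mv 464 (both (five 3 428 429) (five 1 429 433)))))))))) (both (mv 464 (both (mv 429 (both (five 3 428 428) (mv 433 (both (five 1 429 432) (mv 465 (both (five 3 429 430) (five 1 430 434))))))) (both (mv 433 (both (five 1 429 432) (mv 465 (both (five 1 430 434) (mv 496 (both (five 0 461 497) (five 5 432 560))))))) (mv 428 (both (five 3 428 429) (mv 496 (both (five 0 461 497) (mv 431 (both (five 7 431 560) (mv 399 (both (five 4 367 367) (five 4 399 495)))))))))))) (both (mv 460 (both (mv 427 (both (five 3 427 428) (mv 431 (both (five 1 428 432) (mv 459 (both (five 3 426 426) (five 1 427 430))))))) (both (mv 427 (both (five 3 427 428) (mv 459 (both (five 3 426 426) (mv 491 (both (five 2 458 490) (five 2 459 492))))))) (both (mv 431 (both (five 1 428 432) (mv 459 (both (five 1 427 430) (mv 491 (both (five 2 458 490) (five 2 459 492))))))) (mv 427 (both (five 3 427 428) (mv 431 (both (five 1 428 432) (mv 491 (both (five 2 459 492) (mv 495 (both (five 0 460 496) (mv 399 (both (five 6 398 494) (mv 366 (both (five 7 366 398) (mv 367 (both (five 7 334 334) (mv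 368 (both (five 5 335 336) (five 5 367 400))))))))))))))))))))) (both (mv 460 (both (mv 427 (both (five 3 427 428) (mv 459 (both (five 3 426 426) (mv 491 (both (five 2 458 490) (five 2 459 492))))))) (mv 496 (both (five 0 460 495) (mv 464 (both (five 0 461 497) (mv 433 (both (five 1 429 432) (mv 465 (both (five 1 430 434) (five 5 432 560))))))))))) (both (mv 460 (both (mv 427 (both (five 3 427 428) (mv 459 (both (five 3 426 426) (mv 491 (both (five 2 458 490) (five 2 459 492))))))) (mv 496 (both (five 0 460 495) (mv 464 (both (five 0 461 497) (mv 431 (both (five 7 431 560) (mv 399 (both (five 4 367 367) (mv 430 (both (five 5 398 494) (mv 465 (both (five 3 429 429) (five 3 430 466))))))))))))))) (mv 496 (both (mv 464 (both (five 0 461 497) (mv 433 (both (five 1 429 432) (mv 465 (both (five 1 430 434) (five 5 432 560))))))) (both (mv 495 (both (five 0 460 460) (mv 497 (both (five 2 493 494) (five 3 462 498))))) (mv 495 (both (five 0 460 460) (mv 431 (both (five 4 399 399) (mv 560 (both (five 7 431 464) (five 7 463 592)))))))))))))))) (both (mv 463 (both (mv 460 (both (mv 427 (both (five 3 427 428) (mv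 459 (both (five 3 426 426) (mv 491 (both (five 2 458 490) (five 2 459 492))))))) (mv 431 (both (five 1 428 432) (mv 495 (both (five 0 460 496) (mv 399 (both (five 6 398 494) (mv 366 (both (five 7 366 398) (mv 367 (both (five 7 334 334) (mv 368 (both (five 5 335 336) (five 5 367 400))))))))))))))) (both (mv 464 (both (mv 428 (both (five 3 428 429) (mv 433 (both (five 1 429 432) (mv 465 (both (five 1 430 434) (mv 493 (both (five 2 460 492) (five 2 461 494))))))))) (mv 496 (both (five 0 461 497) (mv 431 (both (five 7 431 560) (mv 399 (both (five 4 367 367) (five 4 399 495))))))))) (both (mv 460 (both (mv 427 (both (five 3 427 428) (mv 459 (both (five 3 426 426) (mv 491 (both (five 2 458 490) (five 2 459 492))))))) (both (mv 431 (both (five 1 428 432) (mv 491 (both (five 2 459 492) (mv 459 (both (five 2 458 490) (mv 426 (both (five 3 426 427) (mv 458 (both (five 3 425 425) (mv 494 (both (five 0 458 493) (five 0 459 495))))))))))))) (both (mv 428 (both (five 3 427 427) (mv 432 (both (five 1 428 431) (mv 464 (both (five 3 428 429) (five 1 429 433))))))) (mv 431 (both (five 1 428 432) (mv 491 (both (five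 2 459 492) (mv 459 (both (five 2 458 490) (mv 494 (both (five 0 459 495) (mv 367 (both (five 6 366 399) (mv 493 (both (five 0 458 458) (mv 557 (both (five 7 428 428) (five 5 461 589))))))))))))))))))) (both (mv 464 (both (mv 433 (both (five 1 429 432) (mv 465 (both (five 1 430 434) (mv 496 (both (five 0 461 497) (five 5 432 560))))))) (both (mv 428 (both (five 3 428 429) (mv 432 (both (five 1 429 433) (mv 460 (both (five 3 427 427) (five 1 428 431))))))) (both (mv 428 (both (five 3 428 429) (mv 427 (both (five 3 427 460) (mv 492 (both (five 2 460 493) (mv 496 (both (five 0 461 497) (mv 560 (both (five 7 431 431) (mv 433 (both (five 5 432 465) (mv 591 (both (five 6 463 559) (mv 592 (both (five 6 495 623) (mv 593 (both (five 4 464 561) (five 4 496 625))))))))))))))))))) (mv 496 (both (five 0 461 497) (mv 431 (both (five 7 431 560) (mv 399 (both (five 4 367 367) (five 7 399 432))))))))))) (both (mv 496 (both (mv 464 (both (five 0 461 497) (mv 433 (both (five 1 429 432) (mv 465 (both (five 1 430 434) (five 5 432 560))))))) (both (mv 495 (both (five 0 460 460) (mv 497 (both (five 2 493 494) (five 3 462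 498))))) (mv 495 (both (five 0 460 460) (mv 431 (both (five 4 399 399) (mv 560 (both (five 7 431 464) (five 7 463 592)))))))))) (both (mv 460 (both (mv 427 (both (five 3 427 428) (mv 459 (both (five 3 426 426) (mv 491 (both (five 2 458 490) (five 2 459 492))))))) (mv 496 (both (five 0 460 495) (mv 464 (both (five 0 461 497) (mv 433 (both (five 1 429 432) (mv 465 (both (five 1 430 434) (five 5 432 560))))))))))) (mv 460 (both (mv 427 (both (five 3 427 428) (mv 459 (both (five 3 426 426) (mv 491 (both (five 2 458 490) (five 2 459 492))))))) (mv 496 (both (five 0 460 495) (mv 464 (both (five 0 461 497) (mv 560 (both (five 7 431 431) (mv 433 (both (five 5 432 465) (mv 591 (both (five 6 463 559) (mv 592 (both (five 6 495 623) (mv 593 (both (five 4 464 561) (five 4 496 625)))))))))))))))))))))))) (both (mv 460 (both (mv 459 (both (mv 426 (both (five 3 426 427) (mv 458 (both (five 3 425 425) (mv 490 (both (five 2 457 489) (five 2 458 491))))))) (mv 430 (both (five 1 427 431) (mv 493 (both (five 5 429 557) (mv 398 (both (five 6 365 366) (five 5 397 429))))))))) (both (mv 463 (both (mv 496 (both (five 0 460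 495) (mv 464 (both (five 0 461 497) (mv 560 (both (five 7 431 431) (mv 433 (both (five 5 432 465) (mv 591 (both (five 6 463 559) (mv 592 (both (five 6 495 623) (mv 593 (both (five 4 464 561) (five 4 496 625))))))))))))))) (both (mv 496 (both (five 0 460 495) (mv 464 (both (five 0 461 497) (mv 433 (both (five 1 429 432) (mv 465 (both (five 1 430 434) (five 5 432 560))))))))) (mv 428 (both (five 3 427 427) (mv 431 (both (five 1 428 432) (mv 491 (both (five 2 459 492) (mv 493 (both (five 7 428 557) (mv 396 (both (five 4 364 364) (five 7 396 429)))))))))))))) (both (mv 463 (both (mv 427 (both (five 3 427 428) (mv 431 (both (five 1 428 432) (mv 459 (both (five 3 426 426) (five 1 427 430))))))) (both (mv 496 (both (five 0 460 495) (mv 464 (both (five 0 461 497) (mv 433 (both (five 1 429 432) (mv 465 (both (five 1 430 434) (five 5 432 560))))))))) (mv 496 (both (five 0 460 495) (mv 464 (both (five 0 461 497) (mv 560 (both (five 7 431 431) (mv 433 (both (five 5 432 465) (mv 591 (both (five 6 463 559) (mv 592 (both (five 6 495 623) (mv 593 (both (five 4 464 561) (five 4 496 625)))))))))))))))))) (both (mv 463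 (both (mv 427 (both (five 3 427 428) (mv 459 (both (five 3 426 426) (mv 491 (both (five 2 458 490) (five 2 459 492))))))) (mv 496 (both (five 0 460 495) (mv 464 (both (five 0 461 497) (mv 433 (both (five 1 429 432) (mv 465 (both (five 1 430 434) (five 5 432 560))))))))))) (mv 463 (both (mv 431 (both (five 1 428 432) (mv 459 (both (five 1 427 430) (mv 491 (both (five 2 458 490) (five 2 459 492))))))) (both (mv 496 (both (five 0 460 495) (mv 464 (both (five 0 461 497) (mv 433 (both (five 1 429 432) (mv 465 (both (five 1 430 434) (five 5 432 560))))))))) (mv 496 (both (five 0 460 495) (mv 464 (both (five 0 461 497) (mv 560 (both (five 7 431 431) (mv 433 (both (five 5 432 465) (mv 591 (both (five 6 463 559) (mv 592 (both (five 6 495 623) (mv 593 (both (five 4 464 561) (five 4 496 625))))))))))))))))))))))) (both (mv 430 (both (mv 493 (both (five 5 429 557) (mv 398 (both (five 6 365 366) (five 5 397 429))))) (both (mv 429 (both (mv 397 (both (five 7 397 494) (mv 365 (both (five 4 333 333) (mv 334 (both (five 5 333 366) (mv 364 (both (five 7 332 332) (mv 396 (both (five 7 364 493) (mv 395 (both (five 0 394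 394) (mv 431 (both (five 3 395 428) (five 3 396 432))))))))))))))) (both (mv 494 (both (five 7 397 397) (mv 399 (both (five 5 398 431) (mv 398 (both (five 5 366 367) (mv 366 (both (five 6 333 334) (mv 463 (both (five 4 366 495) (mv 428 (both (five 0 427 427) (five 3 428 464))))))))))))) (both (mv 398 (both (five 5 397 493) (mv 366 (both (five 6 333 334) (mv 335 (both (five 5 334 367) (mv 463 (both (five 4 366 495) (mv 428 (both (five 0 427 427) (five 3 428 464))))))))))) (both (mv 397 (both (five 7 397 494) (mv 333 (both (five 4 333 365) (mv 398 (both (five 5 397 493) (mv 366 (both (five 6 333 334) (mv 335 (both (five 5 334 367) (mv 463 (both (five 4 366 495) (mv 464 (both (five 3 429 465) (mv 432 (both (five 1 429 433) (mv 431 (both (five 3 396 396) (mv 496 (both (five 7 399 399) (five 0 461 497))))))))))))))))))))) (mv 397 (both (five 7 397 494) (mv 333 (both (five 4 333 365) (mv 493 (both (five 5 397 398) (mv 396 (both (five 7 364 364) (five 7 396 428)))))))))))))) (both (mv 494 (both (five 6 429 557) (mv 397 (both (five 7 397 429) (mv 398 (both (five 7 365 365) (mv 399 (both (five 5 366 367) (five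 5 398 431))))))))) (mv 557 (both (five 5 429 493) (five 6 429 494))))))) (both (mv 430 (both (mv 557 (both (five 5 429 493) (five 6 429 494))) (both (mv 429 (both (mv 398 (both (five 5 397 493) (mv 366 (both (five 6 333 334) (mv 333 (both (five 7 333 365) (mv 367 (both (five 5 334 335) (mv 399 (both (five 5 366 494) (mv 400 (both (five 2 397 401) (mv 428 (both (five 1 395 427) (five 1 396 431))))))))))))))) (both (mv 493 (both (five 5 397 398) (mv 396 (both (five 7 396 428) (mv 397 (both (five 7 364 364) (mv 365 (both (five 4 333 333) (mv 334 (both (five 5 333 366) (mv 394 (both (five 0 394 395) (mv 431 (both (five 3 396 432) (mv 460 (both (five 1 427 459) (five 6 364 492))))))))))))))))) (both (mv 397 (both (five 7 397 494) (mv 365 (both (five 4 333 333) (mv 332 (both (five 7 332 364) (mv 334 (both (five 5 333 366) (mv 460 (both (five 6 364 492) (mv 431 (both (five 2 428 432) (five 1 427 459))))))))))))) (mv 397 (both (five 7 397 494) (mv 493 (both (five 5 397 398) (mv 396 (both (five 7 364 364) (five 7 396 428))))))))))) (both (mv 493 (both (five 5 429 557) (mv 398 (both (five 6 365 366) (five 5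 397 429))))) (mv 494 (both (five 6 429 557) (mv 397 (both (five 7 397 429) (mv 398 (both (five 7 365 365) (mv 399 (both (five 5 366 367) (five 5 398 431))))))))))))) (both (mv 460 (both (mv 463 (both (mv 427 (both (five 3 427 428) (mv 459 (both (five 3 426 426) (mv 491 (both (five 2 458 490) (five 2 459 492))))))) (mv 496 (both (five 0 460 495) (mv 464 (both (five 0 461 497) (mv 433 (both (five 1 429 432) (mv 465 (both (five 1 430 434) (five 5 432 560))))))))))) (both (mv 459 (both (mv 426 (both (five 3 426 427) (mv 458 (both (five 3 425 425) (mv 490 (both (five 2 457 489) (five 2 458 491))))))) (mv 430 (both (five 1 427 431) (mv 557 (both (five 5 429 493) (five 6 429 494))))))) (both (mv 463 (both (mv 496 (both (five 0 460 495) (mv 464 (both (five 0 461 497) (mv 433 (both (five 1 429 432) (mv 465 (both (five 1 430 434) (five 5 432 560))))))))) (both (mv 492 (both (five 2 459 491) (mv 493 (both (five 2 460 464) (mv 430 (both (five 5 429 557) (mv 398 (both (five 6 365 366) (five 6 397 494))))))))) (mv 431 (both (five 1 428 432) (mv 495 (both (five 0 460 496) (mv 399 (both (five 6 398 494) (mv 366 (both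 (five 7 366 398) (mv 367 (both (five 7 334 334) (mv 368 (both (five 5 335 336) (five 5 367 400)))))))))))))))) (mv 463 (both (mv 427 (both (five 3 427 428) (mv 431 (both (five 1 428 432) (mv 459 (both (five 3 426 426) (five 1 427 430))))))) (both (mv 496 (both (five 0 460 495) (mv 464 (both (five 0 461 497) (mv 433 (both (five 1 429 432) (mv 465 (both (five 1 430 434) (five 5 432 560))))))))) (mv 496 (both (five 0 460 495) (mv 464 (both (five 0 461 497) (mv 560 (both (five 7 431 431) (mv 433 (both (five 5 432 465) (mv 591 (both (five 6 463 559) (mv 592 (both (five 6 495 623) (mv 593 (both (five 4 464 561) (five 4 496 625)))))))))))))))))))))) (both (mv 430 (both (mv 557 (both (five 5 429 493) (five 6 429 494))) (both (mv 493 (both (five 5 429 557) (mv 398 (both (five 6 365 366) (five 5 397 429))))) (both (mv 494 (both (mv 431 (both (five 5 398 399) (mv 432 (both (five 2 429 433) (mv 460 (both (five 1 427 459) (five 1 428 463))))))) (mv 397 (both (five 7 397 429) (mv 398 (both (five 7 365 365) (five 6 397 493))))))) (mv 494 (both (five 6 429 557) (mv 397 (both (five 7 397 429) (mv 398 (both (five 7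 365 365) (mv 399 (both (five 5 366 367) (five 5 398 431))))))))))))) (both (mv 493 (both (mv 430 (both (five 5 429 557) (mv 398 (both (five 6 365 366) (five 6 397 494))))) (both (mv 429 (both (mv 396 (both (five 7 396 428) (mv 397 (both (five 7 364 364) (five 4 397 494))))) (both (mv 398 (both (five 5 397 430) (mv 428 (both (five 7 396 396) (mv 427 (both (five 0 426 426) (mv 463 (both (five 3 427 460) (five 3 428 464))))))))) (mv 397 (both (five 4 397 494) (mv 398 (both (five 5 365 366) (five 5 397 430)))))))) (both (mv 429 (both (mv 397 (both (five 4 397 494) (mv 364 (both (five 7 364 396) (mv 365 (both (five 7 332 332) (mv 366 (both (five 5 333 334) (five 5 365 398))))))))) (both (mv 428 (both (five 7 396 396) (mv 427 (both (five 0 426 426) (mv 463 (both (five 3 427 460) (five 3 428 464))))))) (mv 397 (both (five 4 397 494) (mv 366 (both (five 5 365 398) (mv 365 (both (five 5 333 334) (mv 332 (both (five 7 332 364) (mv 300 (both (five 7 300 333) (mv 460 (both (five 6 364 492) (mv 428 (both (five 7 428 557) (mv 427 (both (five 0 426 426) (five 3 427 463)))))))))))))))))))) (mv 557 (both (five 5 429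 430) (mv 460 (both (five 7 428 428) (mv 492 (both (five 7 460 589) (mv 463 (both (five 2 460 464) (five 2 459 491))))))))))))) (mv 460 (both (mv 459 (both (mv 426 (both (five 3 426 427) (mv 458 (both (five 3 425 425) (mv 490 (both (five 2 457 489) (five 2 458 491))))))) (mv 430 (both (five 1 427 431) (mv 557 (both (five 5 429 493) (five 6 429 494))))))) (both (mv 463 (both (mv 496 (both (five 0 460 495) (mv 464 (both (five 0 461 497) (mv 560 (both (five 7 431 431) (mv 433 (both (five 5 432 465) (mv 591 (both (five 6 463 559) (mv 592 (both (five 6 495 623) (mv 593 (both (five 4 464 561) (five 4 496 625))))))))))))))) (both (mv 496 (both (five 0 460 495) (mv 464 (both (five 0 461 497) (mv 433 (both (five 1 429 432) (mv 465 (both (five 1 430 434) (five 5 432 560))))))))) (mv 428 (both (five 3 427 427) (mv 431 (both (five 1 428 432) (mv 491 (both (five 2 459 492) (mv 493 (both (five 7 428 557) (mv 396 (both (five 4 364 364) (five 7 396 429)))))))))))))) (both (mv 463 (both (mv 427 (both (five 3 427 428) (mv 459 (both (five 3 426 426) (mv 491 (both (five 2 458 490) (five 2 459 492))))))) (mv 496 (both (five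 0 460 495) (mv 464 (both (five 0 461 497) (mv 433 (both (five 1 429 432) (mv 465 (both (five 1 430 434) (five 5 432 560))))))))))) (both (mv 463 (both (mv 427 (both (five 3 427 428) (mv 431 (both (five 1 428 432) (mv 459 (both (five 3 426 426) (five 1 427 430))))))) (both (mv 496 (both (five 0 460 495) (mv 464 (both (five 0 461 497) (mv 433 (both (five 1 429 432) (mv 465 (both (five 1 430 434) (five 5 432 560))))))))) (mv 496 (both (five 0 460 495) (mv 464 (both (five 0 461 497) (mv 560 (both (five 7 431 431) (mv 433 (both (five 5 432 465) (mv 591 (both (five 6 463 559) (mv 592 (both (five 6 495 623) (mv 593 (both (five 4 464 561) (five 4 496 625)))))))))))))))))) (mv 463 (both (mv 431 (both (five 1 428 432) (mv 459 (both (five 1 427 430) (mv 491 (both (five 2 458 490) (five 2 459 492))))))) (both (mv 496 (both (five 0 460 495) (mv 464 (both (five 0 461 497) (mv 433 (both (five 1 429 432) (mv 465 (both (five 1 430 434) (five 5 432 560))))))))) (mv 496 (both (five 0 460 495) (mv 464 (both (five 0 461 497) (mv 560 (both (five 7 431 431) (mv 433 (both (five 5 432 465) (mv 591 (both (five 6 463 559) (mv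 592 (both (five 6 495 623) (mv 593 (both (five 4 464 561) (five 4 496 625)))))))))))))))))))))))))))))))) (both (mv 462 (both (mv 463 (both (mv 494 (both (mv 431 (both (five 5 430 558) (mv 399 (both (five 6 366 367) (five 5 398 430))))) (both (mv 557 (both (five 6 429 430) (mv 589 (both (five 6 461 558) (five 5 493 621))))) (both (mv 430 (both (five 6 429 557) (mv 399 (both (five 5 398 431) (mv 398 (both (five 5 366 367) (mv 365 (both (five 7 365 397) (mv 366 (both (five 7 333 333) (five 4 366 495))))))))))) (mv 558 (both (five 5 430 431) (mv 589 (both (five 6 461 557) (mv 590 (both (five 6 493 621) (mv 591 (both (five 4 462 559) (five 4 494 623))))))))))))) (both (mv 460 (both (mv 427 (both (five 3 427 428) (mv 459 (both (five 3 426 426) (mv 491 (both (five 2 458 490) (five 2 459 492))))))) (mv 496 (both (five 0 460 495) (mv 464 (both (five 0 461 497) (mv 433 (both (five 1 429 432) (mv 465 (both (five 1 430 434) (five 5 432 560))))))))))) (mv 431 (both (mv 494 (both (five 5 430 558) (mv 399 (both (five 6 366 367) (five 5 398 430))))) (mv 432 (both (five 1 428 460) (mv 433 (both (five 2 430 434) (five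 1 429 464)))))))))) (both (mv 463 (both (mv 460 (both (mv 427 (both (five 3 427 428) (mv 459 (both (five 3 426 426) (mv 491 (both (five 2 458 490) (five 2 459 492))))))) (mv 496 (both (five 0 460 495) (mv 464 (both (five 0 461 497) (mv 433 (both (five 1 429 432) (mv 465 (both (five 1 430 434) (five 5 432 560))))))))))) (both (mv 464 (both (mv 432 (both (five 1 429 433) (mv 493 (both (five 2 460 492) (mv 557 (both (five 5 429 430) (mv 588 (both (five 6 460 556) (mv 589 (both (five 6 492 620) (mv 590 (both (five 4 461 558) (five 4 493 622))))))))))))) (mv 496 (both (five 0 461 497) (mv 431 (both (five 7 431 560) (mv 399 (both (five 4 367 367) (five 4 399 495))))))))) (both (mv 460 (both (mv 427 (both (five 3 427 428) (mv 431 (both (five 1 428 432) (mv 459 (both (five 3 426 426) (five 1 427 430))))))) (both (mv 431 (both (five 1 428 432) (mv 459 (both (five 1 427 430) (mv 491 (both (five 2 458 490) (five 2 459 492))))))) (both (mv 427 (both (five 3 427 428) (mv 459 (both (five 3 426 426) (mv 491 (both (five 2 458 490) (five 2 459 492))))))) (mv 428 (both (five 3 427 427) (mv 431 (both (five 1 428 432)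 (mv 492 (both (five 2 459 491) (mv 493 (both (five 4 396 396) (five 7 428 557))))))))))))) (both (mv 460 (both (mv 427 (both (five 3 427 428) (mv 459 (both (five 3 426 426) (mv 491 (both (five 2 458 490) (five 2 459 492))))))) (mv 496 (both (five 0 460 495) (mv 464 (both (five 0 461 497) (mv 560 (both (five 7 431 431) (mv 559 (both (five 6 463 591) (mv 561 (both (five 3 525 558) (five 4 464 593))))))))))))) (mv 460 (both (mv 427 (both (five 3 427 428) (mv 431 (both (five 1 428 432) (mv 459 (both (five 3 426 426) (five 1 427 430))))))) (both (mv 496 (both (five 0 460 495) (mv 464 (both (five 0 461 497) (mv 433 (both (five 1 429 432) (mv 465 (both (five 1 430 434) (five 5 432 560))))))))) (mv 496 (both (five 0 460 495) (mv 464 (both (five 0 461 497) (mv 560 (both (five 7 431 431) (mv 559 (both (five 6 463 591) (mv 561 (both (five 3 525 558) (five 4 464 593))))))))))))))))))) (both (mv 463 (both (mv 460 (both (mv 427 (both (five 3 427 428) (mv 459 (both (five 3 426 426) (mv 491 (both (five 2 458 490) (five 2 459 492))))))) (mv 431 (both (five 1 428 432) (mv 494 (both (five 5 430 558) (mv 399 (both (five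 6 366 367) (five 6 398 495))))))))) (both (mv 460 (both (mv 427 (both (five 3 427 428) (mv 459 (both (five 3 426 426) (mv 491 (both (five 2 458 490) (five 2 459 492))))))) (mv 496 (both (five 0 460 495) (mv 464 (both (five 0 461 497) (mv 433 (both (five 1 429 432) (mv 465 (both (five 1 430 434) (five 5 432 560))))))))))) (both (mv 464 (both (mv 433 (both (five 1 429 432) (mv 465 (both (five 1 430 434) (mv 493 (both (five 2 460 492) (five 2 461 494))))))) (mv 496 (both (five 0 461 497) (mv 560 (both (five 7 431 431) (mv 559 (both (five 6 463 591) (mv 561 (both (five 3 525 558) (five 4 464 593))))))))))) (both (mv 496 (both (mv 464 (both (five 0 461 497) (mv 433 (both (five 1 429 432) (mv 465 (both (five 1 430 434) (five 5 432 560))))))) (both (mv 495 (both (five 0 460 460) (mv 497 (both (five 2 493 494) (five 3 462 498))))) (mv 495 (both (five 0 460 460) (mv 431 (both (five 4 399 399) (mv 560 (both (five 7 431 464) (five 7 463 592)))))))))) (mv 460 (both (mv 427 (both (five 3 427 428) (mv 459 (both (five 3 426 426) (mv 491 (both (five 2 458 490) (five 2 459 492))))))) (mv 496 (both (five 0 460 495)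 (mv 464 (both (five 0 461 497) (mv 560 (both (five 7 431 431) (mv 559 (both (five 6 463 591) (mv 561 (both (five 3 525 558) (five 4 464 593)))))))))))))))))) (both (mv 463 (both (mv 464 (both (mv 433 (both (five 1 429 432) (mv 465 (both (five 1 430 434) (mv 493 (both (five 2 460 492) (five 2 461 494))))))) (mv 496 (both (five 0 461 497) (mv 431 (both (five 7 431 560) (mv 399 (both (five 4 367 367) (five 4 399 495))))))))) (both (mv 464 (both (mv 432 (both (five 1 429 433) (mv 493 (both (five 2 460 492) (mv 557 (both (five 5 429 430) (mv 588 (both (five 6 460 556) (mv 589 (both (five 6 492 620) (mv 590 (both (five 4 461 558) (five 4 493 622))))))))))))) (mv 496 (both (five 0 461 497) (mv 431 (both (five 7 431 560) (mv 399 (both (five 4 367 367) (five 4 399 495))))))))) (both (mv 494 (both (mv 431 (both (five 5 430 558) (mv 399 (both (five 6 366 367) (five 5 398 430))))) (both (mv 557 (both (five 6 429 430) (mv 589 (both (five 6 461 558) (five 5 493 621))))) (both (mv 430 (both (five 6 429 557) (mv 399 (both (five 5 398 431) (mv 398 (both (five 5 366 367) (mv 365 (both (five 7 365 397) (mv 366 (both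 (five 7 333 333) (five 4 366 495))))))))))) (mv 558 (both (five 5 430 431) (mv 589 (both (five 6 461 557) (mv 590 (both (five 6 493 621) (mv 591 (both (five 4 462 559) (five 4 494 623))))))))))))) (mv 493 (both (mv 430 (both (five 5 429 557) (mv 398 (both (five 6 365 366) (five 6 397 494))))) (mv 464 (both (five 2 460 492) (mv 433 (both (five 1 429 432) (mv 465 (both (five 1 430 434) (mv 496 (both (five 0 461 497) (five 5 432 560))))))))))))))) (both (mv 557 (both (mv 494 (both (five 6 429 430) (mv 589 (both (five 6 461 558) (five 5 493 621))))) (both (mv 493 (both (mv 460 (both (five 7 428 428) (mv 556 (both (five 6 460 588) (mv 555 (both (five 1 522 554) (mv 558 (both (five 4 461 590) (mv 523 (both (five 3 522 522) (mv 587 (both (five 2 554 586) (mv 491 (both (five 5 459 492) (mv 490 (both (five 7 458 458) (five 2 458 459))))))))))))))))) (both (mv 589 (both (five 5 461 494) (mv 620 (both (five 6 492 588) (mv 621 (both (five 6 524 652) (mv 622 (both (five 4 493 590) (five 4 525 654))))))))) (both (mv 589 (both (five 5 461 494) (mv 620 (both (five 6 492 588) (mv 621 (both (five 6 524 652) (mv 653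 (both (five 5 525 558) (mv 654 (both (five 4 525 622) (five 4 557 686))))))))))) (mv 428 (both (five 7 428 460) (mv 589 (both (five 5 461 494) (mv 590 (both (five 4 461 558) (five 4 493 622))))))))))) (both (mv 493 (both (five 5 429 430) (mv 588 (both (five 6 460 556) (mv 589 (both (five 6 492 620) (mv 590 (both (five 4 461 558) (five 4 493 622))))))))) (mv 430 (both (five 5 429 493) (five 6 429 494))))))) (both (mv 460 (both (mv 463 (both (mv 427 (both (five 3 427 428) (mv 459 (both (five 3 426 426) (mv 491 (both (five 2 458 490) (five 2 459 492))))))) (mv 496 (both (five 0 460 495) (mv 464 (both (five 0 461 497) (mv 433 (both (five 1 429 432) (mv 465 (both (five 1 430 434) (five 5 432 560))))))))))) (both (mv 459 (both (mv 426 (both (five 3 426 427) (mv 458 (both (five 3 425 425) (mv 490 (both (five 2 457 489) (five 2 458 491))))))) (mv 430 (both (five 1 427 431) (mv 557 (both (five 5 429 493) (five 6 429 494))))))) (both (mv 463 (both (mv 496 (both (five 0 460 495) (mv 464 (both (five 0 461 497) (mv 433 (both (five 1 429 432) (mv 465 (both (five 1 430 434) (five 5 432 560))))))))) (both (mv 492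 (both (five 2 459 491) (mv 493 (both (five 2 460 464) (mv 430 (both (five 5 429 557) (mv 398 (both (five 6 365 366) (five 6 397 494))))))))) (mv 431 (both (five 1 428 432) (mv 495 (both (five 0 460 496) (mv 399 (both (five 6 398 494) (mv 366 (both (five 7 366 398) (mv 367 (both (five 7 334 334) (mv 368 (both (five 5 335 336) (five 5 367 400)))))))))))))))) (mv 463 (both (mv 427 (both (five 3 427 428) (mv 431 (both (five 1 428 432) (mv 459 (both (five 3 426 426) (five 1 427 430))))))) (both (mv 496 (both (five 0 460 495) (mv 464 (both (five 0 461 497) (mv 433 (both (five 1 429 432) (mv 465 (both (five 1 430 434) (five 5 432 560))))))))) (mv 496 (both (five 0 460 495) (mv 464 (both (five 0 461 497) (mv 560 (both (five 7 431 431) (mv 433 (both (five 5 432 465) (mv 591 (both (five 6 463 559) (mv 592 (both (five 6 495 623) (mv 593 (both (five 4 464 561) (five 4 496 625)))))))))))))))))))))) (mv 494 (both (mv 557 (both (five 6 429 430) (mv 589 (both (five 6 461 558) (five 5 493 621))))) (both (mv 558 (both (mv 591 (both (five 4 462 559) (mv 590 (both (five 4 494 623) (mv 463 (both (five 5 462 495) (five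 5 430 431))))))) (both (mv 431 (both (five 5 430 463) (mv 430 (both (five 5 398 399) (mv 433 (both (five 2 429 432) (mv 460 (both (five 1 427 459) (mv 493 (both (five 6 397 398) (mv 496 (both (five 3 460 495) (mv 559 (both (five 4 462 591) (mv 560 (both (five 3 525 561) (mv 465 (both (five 5 432 464) (mv 497 (both (five 6 400 401) (five 5 464 592))))))))))))))))))))) (both (mv 590 (both (five 7 461 493) (mv 591 (both (five 4 462 559) (five 4 494 623))))) (mv 431 (both (five 5 430 463) (mv 430 (both (five 5 398 399) (mv 493 (both (five 6 397 398) (five 7 461 590))))))))))) (both (mv 558 (both (mv 590 (both (five 7 461 493) (mv 591 (both (five 4 462 559) (five 4 494 623))))) (both (mv 463 (both (five 5 430 431) (mv 557 (both (five 6 461 589) (mv 559 (both (five 4 462 591) (mv 560 (both (five 3 525 561) (mv 592 (both (five 0 557 593) (mv 495 (both (five 7 463 496) (mv 460 (both (five 0 459 459) (mv 428 (both (five 7 428 493) (five 3 427 427))))))))))))))))) (both (mv 589 (both (five 6 461 557) (mv 590 (both (five 6 493 621) (mv 591 (both (five 4 462 559) (five 4 494 623))))))) (mv 431 (both (five 5 430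 463) (mv 493 (both (five 7 461 590) (mv 557 (both (five 5 461 589) (mv 460 (both (five 7 428 428) (mv 459 (both (five 0 458 458) (five 0 459 495))))))))))))))) (mv 430 (both (five 6 429 557) (mv 431 (both (five 5 398 399) (mv 432 (both (five 2 429 433) (mv 460 (both (five 1 427 459) (five 1 428 463)))))))))))))))))))) (both (mv 493 (both (mv 429 (both (five 4 429 558) (mv 396 (both (five 7 396 428) (mv 397 (both (five 7 364 364) (mv 398 (both (five 5 365 366) (five 5 397 430))))))))) (both (mv 557 (both (mv 588 (both (five 6 460 556) (mv 589 (both (five 6 492 620) (mv 590 (both (five 4 461 558) (five 4 493 622))))))) (both (mv 430 (both (five 5 429 462) (mv 460 (both (five 7 428 428) (mv 588 (both (five 6 460 556) (mv 589 (both (five 7 460 492) (five 6 492 620))))))))) (both (mv 430 (both (five 5 429 462) (mv 460 (both (five 7 428 428) (mv 589 (both (five 7 460 492) (mv 590 (both (five 4 461 558) (five 4 493 622))))))))) (mv 460 (both (five 7 428 428) (mv 462 (both (five 5 429 430) (mv 556 (both (five 6 460 588) (mv 555 (both (five 1 522 554) (mv 558 (both (five 4 461 590) (mv 523 (both (five 3 522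 522) (mv 587 (both (five 2 554 586) (mv 491 (both (five 5 459 492) (mv 490 (both (five 7 458 458) (five 2 458 459))))))))))))))))))))))) (both (mv 430 (both (mv 398 (both (five 5 397 429) (mv 462 (both (five 6 365 366) (five 5 429 557))))) (both (mv 557 (both (five 5 429 462) (mv 460 (both (five 7 428 428) (mv 588 (both (five 6 460 556) (mv 589 (both (five 7 460 492) (five 6 492 620))))))))) (both (mv 429 (both (five 5 397 398) (mv 460 (both (mv 431 (both (five 2 428 432) (mv 459 (both (five 1 426 458) (five 1 427 462))))) (both (mv 396 (both (five 7 396 428) (mv 397 (both (five 7 364 364) (mv 365 (both (five 6 364 492) (mv 333 (both (five 4 333 462) (mv 334 (both (five 5 301 302) (five 5 333 366))))))))))) (mv 428 (both (five 7 396 396) (mv 431 (both (five 2 428 432) (five 2 427 459)))))))))) (mv 429 (both (five 5 397 398) (mv 428 (both (five 7 396 396) (mv 460 (both (five 7 428 557) (mv 431 (both (five 2 428 432) (five 2 427 459))))))))))))) (mv 558 (both (five 4 429 429) (mv 590 (both (five 4 461 557) (five 7 493 622))))))))) (both (mv 462 (both (mv 463 (both (mv 460 (both (mv 427 (both (five 3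 427 428) (mv 431 (both (five 1 428 432) (mv 459 (both (five 3 426 426) (five 1 427 430))))))) (both (mv 427 (both (five 3 427 428) (mv 459 (both (five 3 426 426) (mv 491 (both (five 2 458 490) (five 2 459 492))))))) (both (mv 431 (both (five 1 428 432) (mv 459 (both (five 1 427 430) (mv 491 (both (five 2 458 490) (five 2 459 492))))))) (mv 428 (both (five 3 427 427) (mv 431 (both (five 1 428 432) (mv 492 (both (five 2 459 491) (mv 396 (both (five 4 396 493) (mv 363 (both (five 7 363 395) (mv 364 (both (five 7 331 331) (mv 365 (both (five 5 332 333) (five 5 364 397))))))))))))))))))) (both (mv 464 (both (mv 429 (both (five 3 428 428) (mv 433 (both (five 1 429 432) (mv 465 (both (five 3 429 430) (five 1 430 434))))))) (both (mv 433 (both (five 1 429 432) (mv 465 (both (five 1 430 434) (mv 496 (both (five 0 461 497) (five 5 432 560))))))) (mv 428 (both (five 3 428 429) (mv 496 (both (five 0 461 497) (mv 431 (both (five 7 431 560) (mv 399 (both (five 4 367 367) (five 4 399 495)))))))))))) (both (mv 460 (both (mv 431 (both (five 1 428 432) (mv 459 (both (five 1 427 430) (mv 491 (both (five 2 458 490) (five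 2 459 492))))))) (both (mv 496 (both (five 0 460 495) (mv 464 (both (five 0 461 497) (mv 433 (both (five 1 429 432) (mv 465 (both (five 1 430 434) (five 5 432 560))))))))) (mv 496 (both (five 0 460 495) (mv 464 (both (five 0 461 497) (mv 560 (both (five 7 431 431) (mv 559 (both (five 6 463 591) (mv 561 (both (five 3 525 558) (five 4 464 593)))))))))))))) (both (mv 460 (both (mv 427 (both (five 3 427 428) (mv 459 (both (five 3 426 426) (mv 491 (both (five 2 458 490) (five 2 459 492))))))) (mv 496 (both (five 0 460 495) (mv 464 (both (five 0 461 497) (mv 433 (both (five 1 429 432) (mv 465 (both (five 1 430 434) (five 5 432 560))))))))))) (mv 460 (both (mv 427 (both (five 3 427 428) (mv 459 (both (five 3 426 426) (mv 491 (both (five 2 458 490) (five 2 459 492))))))) (mv 496 (both (five 0 460 495) (mv 464 (both (five 0 461 497) (mv 560 (both (five 7 431 431) (mv 559 (both (five 6 463 591) (mv 561 (both (five 3 525 558) (five 4 464 593)))))))))))))))))) (both (mv 463 (both (mv 460 (both (mv 427 (both (five 3 427 428) (mv 459 (both (five 3 426 426) (mv 491 (both (five 2 458 490) (five 2 459 492))))))) (both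 (mv 431 (both (five 1 428 432) (mv 459 (both (five 1 427 430) (mv 491 (both (five 2 458 490) (five 2 459 492))))))) (mv 428 (both (five 3 427 427) (mv 432 (both (five 1 428 431) (mv 464 (both (five 3 428 429) (five 1 429 433)))))))))) (both (mv 464 (both (mv 429 (both (five 3 428 428) (mv 433 (both (five 1 429 432) (mv 465 (both (five 3 429 430) (five 1 430 434))))))) (both (mv 433 (both (five 1 429 432) (mv 465 (both (five 1 430 434) (mv 496 (both (five 0 461 497) (five 5 432 560))))))) (mv 428 (both (five 3 428 429) (mv 496 (both (five 0 461 497) (mv 431 (both (five 7 431 560) (mv 399 (both (five 4 367 367) (five 4 399 495)))))))))))) (both (mv 460 (both (mv 427 (both (five 3 427 428) (mv 431 (both (five 1 428 432) (mv 459 (both (five 3 426 426) (five 1 427 430))))))) (both (mv 427 (both (five 3 427 428) (mv 459 (both (five 3 426 426) (mv 491 (both (five 2 458 490) (five 2 459 492))))))) (both (mv 431 (both (five 1 428 432) (mv 459 (both (five 1 427 430) (mv 491 (both (five 2 458 490) (five 2 459 492))))))) (mv 427 (both (five 3 427 428) (mv 431 (both (five 1 428 432) (mv 491 (both (five 2 459 492)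 (mv 495 (both (five 0 460 496) (mv 399 (both (five 6 398 494) (mv 366 (both (five 7 366 398) (mv 367 (both (five 7 334 334) (mv 368 (both (five 5 335 336) (five 5 367 400))))))))))))))))))))) (both (mv 460 (both (mv 427 (both (five 3 427 428) (mv 459 (both (five 3 426 426) (mv 491 (both (five 2 458 490) (five 2 459 492))))))) (mv 496 (both (five 0 460 495) (mv 464 (both (five 0 461 497) (mv 433 (both (five 1 429 432) (mv 465 (both (five 1 430 434) (five 5 432 560))))))))))) (both (mv 460 (both (mv 427 (both (five 3 427 428) (mv 459 (both (five 3 426 426) (mv 491 (both (five 2 458 490) (five 2 459 492))))))) (mv 496 (both (five 0 460 495) (mv 464 (both (five 0 461 497) (mv 431 (both (five 7 431 560) (mv 399 (both (five 4 367 367) (mv 430 (both (five 5 398 494) (mv 465 (both (five 3 429 429) (five 3 430 466))))))))))))))) (mv 496 (both (mv 464 (both (five 0 461 497) (mv 433 (both (five 1 429 432) (mv 465 (both (five 1 430 434) (five 5 432 560))))))) (both (mv 495 (both (five 0 460 460) (mv 497 (both (five 2 493 494) (five 3 462 498))))) (mv 495 (both (five 0 460 460) (mv 431 (both (five 4 399 399) (mv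 560 (both (five 7 431 464) (five 7 463 592)))))))))))))))) (both (mv 429 (both (mv 558 (both (five 4 429 493) (five 7 429 494))) (both (mv 430 (both (mv 397 (both (five 7 397 494) (mv 493 (both (five 5 397 398) (mv 396 (both (five 7 364 364) (five 7 396 428))))))) (both (mv 398 (both (five 5 397 493) (mv 366 (both (five 6 333 334) (mv 333 (both (five 7 333 365) (mv 367 (both (five 5 334 335) (mv 399 (both (five 5 366 494) (mv 400 (both (five 2 397 401) (mv 428 (both (five 1 395 427) (five 1 396 431))))))))))))))) (both (mv 493 (both (five 5 397 398) (mv 396 (both (five 7 396 428) (mv 397 (both (five 7 364 364) (mv 365 (both (five 4 333 333) (mv 334 (both (five 5 333 366) (mv 394 (both (five 0 394 395) (mv 431 (both (five 3 396 432) (mv 460 (both (five 1 427 459) (five 6 364 492))))))))))))))))) (mv 397 (both (five 7 397 494) (mv 365 (both (five 4 333 333) (mv 332 (both (five 7 332 364) (mv 334 (both (five 5 333 366) (mv 460 (both (five 6 364 492) (mv 431 (both (five 2 428 432) (five 1 427 459))))))))))))))))) (both (mv 494 (both (five 7 429 558) (mv 397 (both (five 4 365 365) (five 7 397 430))))) (mv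 493 (both (five 4 429 558) (mv 396 (both (five 7 396 428) (mv 397 (both (five 7 364 364) (mv 398 (both (five 5 365 366) (five 5 397 430))))))))))))) (both (mv 429 (both (mv 558 (both (five 4 429 493) (five 7 429 494))) (both (mv 430 (both (mv 397 (both (five 7 397 494) (mv 493 (both (five 5 397 398) (mv 396 (both (five 7 364 364) (five 7 396 428))))))) (both (mv 397 (both (five 7 397 494) (mv 365 (both (five 4 333 333) (mv 334 (both (five 5 333 366) (mv 364 (both (five 7 332 332) (mv 396 (both (five 7 364 493) (mv 395 (both (five 0 394 394) (mv 431 (both (five 3 395 428) (five 3 396 432))))))))))))))) (both (mv 494 (both (five 7 397 397) (mv 399 (both (five 5 398 431) (mv 398 (both (five 5 366 367) (mv 366 (both (five 6 333 334) (mv 463 (both (five 4 366 495) (mv 428 (both (five 0 427 427) (five 3 428 464))))))))))))) (both (mv 398 (both (five 5 397 493) (mv 366 (both (five 6 333 334) (mv 335 (both (five 5 334 367) (mv 463 (both (five 4 366 495) (mv 428 (both (five 0 427 427) (five 3 428 464))))))))))) (mv 397 (both (five 7 397 494) (mv 333 (both (five 4 333 365) (mv 398 (both (five 5 397 493) (mv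 366 (both (five 6 333 334) (mv 335 (both (five 5 334 367) (mv 463 (both (five 4 366 495) (mv 464 (both (five 3 429 465) (mv 432 (both (five 1 429 433) (mv 431 (both (five 3 396 396) (mv 496 (both (five 7 399 399) (five 0 461 497)))))))))))))))))))))))))) (both (mv 494 (both (five 7 429 558) (mv 397 (both (five 4 365 365) (five 7 397 430))))) (mv 493 (both (five 4 429 558) (mv 396 (both (five 7 396 428) (mv 397 (both (five 7 364 364) (mv 398 (both (five 5 365 366) (five 5 397 430))))))))))))) (both (mv 463 (both (mv 460 (both (mv 427 (both (five 3 427 428) (mv 459 (both (five 3 426 426) (mv 491 (both (five 2 458 490) (five 2 459 492))))))) (mv 431 (both (five 1 428 432) (mv 494 (both (five 5 430 558) (mv 399 (both (five 6 366 367) (five 6 398 495))))))))) (both (mv 460 (both (mv 427 (both (five 3 427 428) (mv 459 (both (five 3 426 426) (mv 491 (both (five 2 458 490) (five 2 459 492))))))) (mv 496 (both (five 0 460 495) (mv 464 (both (five 0 461 497) (mv 433 (both (five 1 429 432) (mv 465 (both (five 1 430 434) (five 5 432 560))))))))))) (both (mv 464 (both (mv 433 (both (five 1 429 432) (mv 465 (both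 (five 1 430 434) (mv 493 (both (five 2 460 492) (five 2 461 494))))))) (mv 496 (both (five 0 461 497) (mv 560 (both (five 7 431 431) (mv 559 (both (five 6 463 591) (mv 561 (both (five 3 525 558) (five 4 464 593))))))))))) (both (mv 496 (both (mv 464 (both (five 0 461 497) (mv 433 (both (five 1 429 432) (mv 465 (both (five 1 430 434) (five 5 432 560))))))) (both (mv 495 (both (five 0 460 460) (mv 497 (both (five 2 493 494) (five 3 462 498))))) (mv 495 (both (five 0 460 460) (mv 431 (both (five 4 399 399) (mv 560 (both (five 7 431 464) (five 7 463 592)))))))))) (mv 460 (both (mv 427 (both (five 3 427 428) (mv 459 (both (five 3 426 426) (mv 491 (both (five 2 458 490) (five 2 459 492))))))) (mv 496 (both (five 0 460 495) (mv 464 (both (five 0 461 497) (mv 560 (both (five 7 431 431) (mv 559 (both (five 6 463 591) (mv 561 (both (five 3 525 558) (five 4 464 593)))))))))))))))))) (both (mv 429 (both (mv 558 (both (five 4 429 493) (five 7 429 494))) (both (mv 494 (both (five 7 429 558) (mv 397 (both (five 4 365 365) (five 7 397 430))))) (both (mv 493 (both (mv 428 (both (five 7 396 396) (mv 427 (both (five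 0 426 426) (mv 463 (both (five 3 427 460) (five 3 428 464))))))) (mv 397 (both (five 4 397 494) (mv 398 (both (five 5 365 366) (five 5 397 430))))))) (mv 493 (both (five 4 429 558) (mv 396 (both (five 7 396 428) (mv 397 (both (five 7 364 364) (mv 398 (both (five 5 365 366) (five 5 397 430))))))))))))) (mv 494 (both (mv 429 (both (five 7 429 558) (mv 397 (both (five 4 365 365) (five 7 397 430))))) (both (mv 430 (both (mv 397 (both (five 7 397 429) (mv 398 (both (five 7 365 365) (five 6 397 493))))) (mv 431 (both (five 5 398 399) (mv 432 (both (five 2 429 433) (mv 460 (both (five 1 427 459) (five 1 428 463))))))))) (both (mv 558 (both (mv 591 (both (five 4 462 559) (mv 590 (both (five 4 494 623) (mv 463 (both (five 5 462 495) (five 5 430 431))))))) (both (mv 431 (both (five 5 430 463) (mv 430 (both (five 5 398 399) (mv 433 (both (five 2 429 432) (mv 460 (both (five 1 427 459) (mv 493 (both (five 6 397 398) (mv 496 (both (five 3 460 495) (mv 559 (both (five 4 462 591) (mv 560 (both (five 3 525 561) (mv 465 (both (five 5 432 464) (mv 497 (both (five 6 400 401) (five 5 464 592))))))))))))))))))))) (both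 (mv 590 (both (five 7 461 493) (mv 591 (both (five 4 462 559) (five 4 494 623))))) (mv 431 (both (five 5 430 463) (mv 430 (both (five 5 398 399) (mv 493 (both (five 6 397 398) (five 7 461 590))))))))))) (mv 429 (both (five 7 429 558) (mv 397 (both (five 4 365 365) (five 4 397 493)))))))))))))))) (both (mv 462 (both (mv 494 (both (mv 429 (both (five 7 429 558) (mv 397 (both (five 4 365 365) (five 7 397 430))))) (both (mv 558 (both (five 7 429 429) (mv 589 (both (five 6 461 557) (mv 590 (both (five 6 493 621) (mv 591 (both (five 4 462 559) (five 4 494 623))))))))) (both (mv 557 (both (five 6 429 430) (mv 589 (both (five 6 461 558) (five 5 493 621))))) (mv 430 (both (five 6 429 557) (mv 397 (both (five 7 397 429) (mv 398 (both (five 7 365 365) (mv 399 (both (five 5 366 367) (five 5 398 431))))))))))))) (both (mv 493 (both (mv 558 (both (five 4 429 429) (mv 590 (both (five 4 461 557) (five 7 493 622))))) (both (mv 557 (both (five 5 429 430) (mv 588 (both (five 6 460 556) (mv 589 (both (five 6 492 620) (mv 590 (both (five 4 461 558) (five 4 493 622))))))))) (both (mv 429 (both (five 4 429 558) (mv 396 (both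 (five 7 396 428) (mv 397 (both (five 7 364 364) (mv 398 (both (five 5 365 366) (five 5 397 430))))))))) (mv 430 (both (five 5 429 557) (mv 398 (both (five 6 365 366) (five 5 397 429))))))))) (both (mv 463 (both (mv 464 (both (mv 433 (both (five 1 429 432) (mv 465 (both (five 1 430 434) (mv 493 (both (five 2 460 492) (five 2 461 494))))))) (mv 496 (both (five 0 461 497) (mv 431 (both (five 7 431 560) (mv 399 (both (five 4 367 367) (five 4 399 495))))))))) (both (mv 464 (both (mv 432 (both (five 1 429 433) (mv 493 (both (five 2 460 492) (mv 557 (both (five 5 429 430) (mv 588 (both (five 6 460 556) (mv 589 (both (five 6 492 620) (mv 590 (both (five 4 461 558) (five 4 493 622))))))))))))) (mv 496 (both (five 0 461 497) (mv 431 (both (five 7 431 560) (mv 399 (both (five 4 367 367) (five 4 399 495))))))))) (both (mv 494 (both (mv 431 (both (five 5 430 558) (mv 399 (both (five 6 366 367) (five 5 398 430))))) (both (mv 557 (both (five 6 429 430) (mv 589 (both (five 6 461 558) (five 5 493 621))))) (both (mv 430 (both (five 6 429 557) (mv 399 (both (five 5 398 431) (mv 398 (both (five 5 366 367) (mv 365 (both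 (five 7 365 397) (mv 366 (both (five 7 333 333) (five 4 366 495))))))))))) (mv 558 (both (five 5 430 431) (mv 589 (both (five 6 461 557) (mv 590 (both (five 6 493 621) (mv 591 (both (five 4 462 559) (five 4 494 623))))))))))))) (mv 493 (both (mv 430 (both (five 5 429 557) (mv 398 (both (five 6 365 366) (five 6 397 494))))) (mv 464 (both (five 2 460 492) (mv 433 (both (five 1 429 432) (mv 465 (both (five 1 430 434) (mv 496 (both (five 0 461 497) (five 5 432 560))))))))))))))) (both (mv 430 (both (mv 493 (both (five 5 429 557) (mv 398 (both (five 6 365 366) (five 5 397 429))))) (both (mv 429 (both (mv 397 (both (five 7 397 494) (mv 365 (both (five 4 333 333) (mv 334 (both (five 5 333 366) (mv 364 (both (five 7 332 332) (mv 396 (both (five 7 364 493) (mv 395 (both (five 0 394 394) (mv 431 (both (five 3 395 428) (five 3 396 432))))))))))))))) (both (mv 494 (both (five 7 397 397) (mv 399 (both (five 5 398 431) (mv 398 (both (five 5 366 367) (mv 366 (both (five 6 333 334) (mv 463 (both (five 4 366 495) (mv 428 (both (five 0 427 427) (five 3 428 464))))))))))))) (both (mv 398 (both (five 5 397 493) (mv 366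 (both (five 6 333 334) (mv 335 (both (five 5 334 367) (mv 463 (both (five 4 366 495) (mv 428 (both (five 0 427 427) (five 3 428 464))))))))))) (both (mv 397 (both (five 7 397 494) (mv 333 (both (five 4 333 365) (mv 398 (both (five 5 397 493) (mv 366 (both (five 6 333 334) (mv 335 (both (five 5 334 367) (mv 463 (both (five 4 366 495) (mv 464 (both (five 3 429 465) (mv 432 (both (five 1 429 433) (mv 431 (both (five 3 396 396) (mv 496 (both (five 7 399 399) (five 0 461 497))))))))))))))))))))) (mv 397 (both (five 7 397 494) (mv 333 (both (five 4 333 365) (mv 493 (both (five 5 397 398) (mv 396 (both (five 7 364 364) (five 7 396 428)))))))))))))) (both (mv 494 (both (five 6 429 557) (mv 397 (both (five 7 397 429) (mv 398 (both (five 7 365 365) (mv 399 (both (five 5 366 367) (five 5 398 431))))))))) (mv 557 (both (five 5 429 493) (five 6 429 494))))))) (both (mv 558 (both (mv 429 (both (five 4 429 493) (five 7 429 494))) (both (mv 493 (both (five 4 429 429) (mv 590 (both (five 4 461 557) (five 7 493 622))))) (both (mv 494 (both (mv 590 (both (five 7 461 493) (mv 591 (both (five 4 462 559) (five 4 494 623)))))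 (both (mv 463 (both (five 5 430 431) (mv 557 (both (five 6 461 589) (mv 559 (both (five 4 462 591) (mv 560 (both (five 3 525 561) (mv 592 (both (five 0 557 593) (mv 496 (both (five 7 463 495) (mv 497 (both (five 0 461 464) (five 5 464 465))))))))))))))) (mv 431 (both (five 5 430 463) (mv 589 (both (five 6 461 557) (mv 590 (both (five 7 461 493) (five 6 493 621)))))))))) (mv 494 (both (five 7 429 429) (mv 589 (both (five 6 461 557) (mv 590 (both (five 6 493 621) (mv 591 (both (five 4 462 559) (five 4 494 623))))))))))))) (mv 429 (both (mv 558 (both (five 4 429 493) (five 7 429 494))) (both (mv 430 (both (mv 397 (both (five 7 397 494) (mv 493 (both (five 5 397 398) (mv 396 (both (five 7 364 364) (five 7 396 428))))))) (both (mv 397 (both (five 7 397 494) (mv 365 (both (five 4 333 333) (mv 334 (both (five 5 333 366) (mv 364 (both (five 7 332 332) (mv 396 (both (five 7 364 493) (mv 395 (both (five 0 394 394) (mv 431 (both (five 3 395 428) (five 3 396 432))))))))))))))) (both (mv 494 (both (five 7 397 397) (mv 399 (both (five 5 398 431) (mv 398 (both (five 5 366 367) (mv 366 (both (five 6 333 334) (mv 463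 (both (five 4 366 495) (mv 428 (both (five 0 427 427) (five 3 428 464))))))))))))) (both (mv 398 (both (five 5 397 493) (mv 366 (both (five 6 333 334) (mv 335 (both (five 5 334 367) (mv 463 (both (five 4 366 495) (mv 428 (both (five 0 427 427) (five 3 428 464))))))))))) (mv 397 (both (five 7 397 494) (mv 333 (both (five 4 333 365) (mv 398 (both (five 5 397 493) (mv 366 (both (five 6 333 334) (mv 335 (both (five 5 334 367) (mv 463 (both (five 4 366 495) (mv 464 (both (five 3 429 465) (mv 432 (both (five 1 429 433) (mv 431 (both (five 3 396 396) (mv 496 (both (five 7 399 399) (five 0 461 497)))))))))))))))))))))))))) (both (mv 494 (both (five 7 429 558) (mv 397 (both (five 4 365 365) (five 7 397 430))))) (mv 493 (both (five 4 429 558) (mv 396 (both (five 7 396 428) (mv 397 (both (five 7 364 364) (mv 398 (both (five 5 365 366) (five 5 397 430))))))))))))))))))) (both (mv 493 (both (mv 558 (both (five 4 429 429) (mv 590 (both (five 4 461 557) (five 7 493 622))))) (both (mv 557 (both (mv 460 (both (five 7 428 428) (mv 588 (both (five 6 460 556) (mv 589 (both (five 7 460 492) (five 6 492 620))))))) (both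 (mv 588 (both (five 6 460 556) (mv 589 (both (five 6 492 620) (mv 621 (both (five 5 493 494) (mv 622 (both (five 4 493 590) (five 4 525 654))))))))) (mv 429 (both (mv 397 (both (five 4 397 494) (mv 364 (both (five 7 364 396) (mv 365 (both (five 7 332 332) (mv 366 (both (five 5 333 334) (five 5 365 398))))))))) (both (mv 428 (both (five 7 396 396) (five 7 428 460))) (mv 397 (both (five 4 397 494) (mv 366 (both (five 5 365 398) (mv 365 (both (five 5 333 334) (mv 460 (both (five 7 428 428) (five 6 364 492))))))))))))))) (both (mv 557 (both (mv 588 (both (five 6 460 556) (mv 589 (both (five 6 492 620) (mv 590 (both (five 4 461 558) (five 4 493 622))))))) (both (mv 460 (both (five 7 428 428) (mv 588 (both (five 6 460 556) (mv 589 (both (five 7 460 492) (five 6 492 620))))))) (both (mv 460 (both (five 7 428 428) (mv 589 (both (five 7 460 492) (mv 590 (both (five 4 461 558) (five 4 493 622))))))) (mv 460 (both (five 7 428 428) (mv 556 (both (five 6 460 588) (mv 555 (both (five 1 522 554) (mv 558 (both (five 4 461 590) (mv 523 (both (five 3 522 522) (mv 587 (both (five 2 554 586) (mv 491 (both (five 5 459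 492) (mv 458 (both (five 7 458 490) (mv 459 (both (five 7 426 426) (five 0 458 494))))))))))))))))))))))) (mv 429 (both (five 4 429 558) (mv 396 (both (five 7 396 428) (mv 397 (both (five 7 364 364) (five 4 397 494))))))))))) (both (mv 462 (both (mv 494 (both (mv 429 (both (five 7 429 558) (mv 397 (both (five 4 365 365) (five 7 397 430))))) (both (mv 558 (both (five 7 429 429) (mv 589 (both (five 6 461 557) (mv 590 (both (five 6 493 621) (mv 591 (both (five 4 462 559) (five 4 494 623))))))))) (both (mv 557 (both (five 6 429 430) (mv 589 (both (five 6 461 558) (five 5 493 621))))) (mv 430 (both (five 6 429 557) (mv 397 (both (five 7 397 429) (mv 398 (both (five 7 365 365) (mv 399 (both (five 5 366 367) (five 5 398 431))))))))))))) (both (mv 493 (both (mv 558 (both (five 4 429 429) (mv 590 (both (five 4 461 557) (five 7 493 622))))) (both (mv 429 (both (five 4 429 558) (mv 397 (both (mv 398 (both (five 5 365 366) (five 5 397 430))) (both (mv 364 (both (five 7 364 396) (mv 365 (both (five 7 332 332) (mv 333 (both (five 4 333 430) (mv 334 (both (five 5 301 302) (five 5 333 366))))))))) (both (mv 364 (both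 (five 7 364 396) (mv 365 (both (five 7 332 332) (mv 366 (both (five 5 333 334) (five 5 365 398))))))) (mv 364 (both (five 7 364 396) (mv 365 (both (five 7 332 332) (mv 430 (both (five 4 333 333) (five 5 397 398))))))))))))) (both (mv 430 (both (five 5 429 557) (mv 398 (both (five 6 365 366) (five 5 397 429))))) (mv 557 (both (five 5 429 430) (mv 588 (both (five 6 460 556) (mv 589 (both (five 6 492 620) (mv 590 (both (five 4 461 558) (five 4 493 622))))))))))))) (both (mv 558 (both (mv 429 (both (five 4 429 493) (five 7 429 494))) (both (mv 493 (both (five 4 429 429) (mv 590 (both (five 4 461 557) (five 7 493 622))))) (both (mv 494 (both (mv 590 (both (five 7 461 493) (mv 591 (both (five 4 462 559) (five 4 494 623))))) (both (mv 463 (both (five 5 430 431) (mv 557 (both (five 6 461 589) (mv 559 (both (five 4 462 591) (mv 560 (both (five 3 525 561) (mv 592 (both (five 0 557 593) (mv 496 (both (five 7 463 495) (mv 497 (both (five 0 461 464) (five 5 464 465))))))))))))))) (mv 431 (both (five 5 430 463) (mv 589 (both (five 6 461 557) (mv 590 (both (five 7 461 493) (five 6 493 621)))))))))) (mv 494 (both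 (five 7 429 429) (mv 589 (both (five 6 461 557) (mv 590 (both (five 6 493 621) (mv 591 (both (five 4 462 559) (five 4 494 623))))))))))))) (both (mv 430 (both (mv 557 (both (five 5 429 493) (five 6 429 494))) (both (mv 493 (both (five 5 429 557) (mv 398 (both (five 6 365 366) (five 5 397 429))))) (both (mv 494 (both (mv 431 (both (five 5 398 399) (mv 432 (both (five 2 429 433) (mv 460 (both (five 1 427 459) (five 1 428 463))))))) (mv 397 (both (five 7 397 429) (mv 398 (both (five 7 365 365) (five 6 397 493))))))) (mv 494 (both (five 6 429 557) (mv 397 (both (five 7 397 429) (mv 398 (both (five 7 365 365) (mv 399 (both (five 5 366 367) (five 5 398 431))))))))))))) (both (mv 494 (both (mv 429 (both (five 7 429 558) (mv 397 (both (five 4 365 365) (five 7 397 430))))) (both (mv 430 (both (mv 397 (both (five 7 397 429) (mv 398 (both (five 7 365 365) (five 6 397 493))))) (mv 431 (both (five 5 398 399) (mv 432 (both (five 2 429 433) (mv 460 (both (five 1 427 459) (five 1 428 463))))))))) (both (mv 558 (both (mv 591 (both (five 4 462 559) (mv 590 (both (five 4 494 623) (mv 463 (both (five 5 462 495) (five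 5 430 431))))))) (both (mv 431 (both (five 5 430 463) (mv 430 (both (five 5 398 399) (mv 433 (both (five 2 429 432) (mv 460 (both (five 1 427 459) (mv 493 (both (five 6 397 398) (mv 496 (both (five 3 460 495) (mv 559 (both (five 4 462 591) (mv 560 (both (five 3 525 561) (mv 465 (both (five 5 432 464) (mv 497 (both (five 6 400 401) (five 5 464 592))))))))))))))))))))) (both (mv 590 (both (five 7 461 493) (mv 591 (both (five 4 462 559) (five 4 494 623))))) (mv 431 (both (five 5 430 463) (mv 430 (both (five 5 398 399) (mv 493 (both (five 6 397 398) (five 7 461 590))))))))))) (mv 429 (both (five 7 429 558) (mv 397 (both (five 4 365 365) (five 4 397 493))))))))) (mv 463 (both (mv 464 (both (mv 433 (both (five 1 429 432) (mv 465 (both (five 1 430 434) (mv 493 (both (five 2 460 492) (five 2 461 494))))))) (mv 496 (both (five 0 461 497) (mv 431 (both (five 7 431 560) (mv 399 (both (five 4 367 367) (five 4 399 495))))))))) (both (mv 464 (both (mv 432 (both (five 1 429 433) (mv 493 (both (five 2 460 492) (mv 557 (both (five 5 429 430) (mv 588 (both (five 6 460 556) (mv 589 (both (five 6 492 620) (mv 590 (both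 (five 4 461 558) (five 4 493 622))))))))))))) (mv 496 (both (five 0 461 497) (mv 431 (both (five 7 431 560) (mv 399 (both (five 4 367 367) (five 4 399 495))))))))) (both (mv 494 (both (mv 431 (both (five 5 430 558) (mv 399 (both (five 6 366 367) (five 5 398 430))))) (both (mv 557 (both (five 6 429 430) (mv 589 (both (five 6 461 558) (five 5 493 621))))) (both (mv 430 (both (five 6 429 557) (mv 399 (both (five 5 398 431) (mv 398 (both (five 5 366 367) (mv 365 (both (five 7 365 397) (mv 366 (both (five 7 333 333) (five 4 366 495))))))))))) (mv 558 (both (five 5 430 431) (mv 589 (both (five 6 461 557) (mv 590 (both (five 6 493 621) (mv 591 (both (five 4 462 559) (five 4 494 623))))))))))))) (mv 493 (both (mv 430 (both (five 5 429 557) (mv 398 (both (five 6 365 366) (five 6 397 494))))) (mv 464 (both (five 2 460 492) (mv 433 (both (five 1 429 432) (mv 465 (both (five 1 430 434) (mv 496 (both (five 0 461 497) (five 5 432 560))))))))))))))))))))) (both (mv 493 (both (mv 557 (both (mv 428 (both (five 7 428 460) (mv 429 (both (five 7 396 396) (mv 430 (both (five 5 429 462) (five 5 397 398))))))) (mv 588 (both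 (five 6 460 556) (mv 589 (both (five 6 492 620) (mv 621 (both (five 5 493 494) (mv 622 (both (five 4 493 590) (five 4 525 654))))))))))) (both (mv 557 (both (mv 588 (both (five 6 460 556) (mv 589 (both (five 6 492 620) (mv 590 (both (five 4 461 558) (five 4 493 622))))))) (both (mv 430 (both (five 5 429 462) (mv 460 (both (five 7 428 428) (mv 588 (both (five 6 460 556) (mv 589 (both (five 7 460 492) (five 6 492 620))))))))) (both (mv 430 (both (five 5 429 462) (mv 460 (both (five 7 428 428) (mv 589 (both (five 7 460 492) (mv 590 (both (five 4 461 558) (five 4 493 622))))))))) (mv 460 (both (five 7 428 428) (mv 462 (both (five 5 429 430) (mv 556 (both (five 6 460 588) (mv 555 (both (five 1 522 554) (mv 558 (both (five 4 461 590) (mv 523 (both (five 3 522 522) (mv 587 (both (five 2 554 586) (mv 491 (both (five 5 459 492) (mv 490 (both (five 7 458 458) (five 2 458 459))))))))))))))))))))))) (both (mv 558 (both (five 4 429 429) (mv 590 (both (five 7 461 494) (five 7 493 622))))) (mv 429 (both (five 4 429 558) (mv 428 (both (five 7 396 396) (mv 430 (both (five 5 397 398) (mv 557 (both (five 7 428 460) (five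 5 429 462))))))))))))) (both (mv 493 (both (mv 558 (both (five 4 429 429) (mv 590 (both (five 4 461 557) (five 7 493 622))))) (both (mv 557 (both (mv 588 (both (five 6 460 556) (mv 589 (both (five 6 492 620) (mv 590 (both (five 4 461 558) (five 4 493 622))))))) (both (mv 588 (both (five 6 460 556) (mv 589 (both (five 6 492 620) (mv 621 (both (five 5 493 494) (mv 622 (both (five 4 493 590) (five 4 525 654))))))))) (both (mv 462 (both (five 5 429 430) (mv 589 (both (five 5 461 494) (mv 620 (both (five 6 492 588) (mv 621 (both (five 6 524 652) (mv 653 (both (five 5 525 558) (mv 654 (both (five 4 525 622) (five 4 557 686))))))))))))) (both (mv 428 (both (five 7 428 460) (mv 462 (both (five 5 429 430) (mv 589 (both (five 5 461 494) (mv 590 (both (five 4 461 558) (five 4 493 622))))))))) (mv 462 (both (five 5 429 430) (mv 463 (both (mv 556 (both (five 6 460 588) (mv 554 (both (five 1 522 555) (mv 558 (both (five 4 461 590) (mv 494 (both (five 5 430 431) (mv 559 (both (five 4 462 591) (mv 560 (both (five 3 525 561) (mv 592 (both (five 0 557 593) (mv 496 (both (five 7 463 495) (mv 497 (both (five 0 461 464)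 (five 5 464 465))))))))))))))))))) (both (mv 460 (both (five 7 428 428) (mv 496 (both (five 0 460 495) (mv 464 (both (five 0 461 497) (mv 433 (both (five 1 429 432) (mv 465 (both (five 1 430 434) (five 5 432 560))))))))))) (mv 460 (both (five 7 428 428) (mv 431 (both (five 1 428 432) (mv 558 (both (five 5 430 494) (five 4 461 590))))))))))))))))) (both (mv 429 (both (mv 396 (both (five 7 396 428) (mv 397 (both (five 7 364 364) (five 4 397 494))))) (both (mv 428 (both (five 7 396 396) (mv 430 (both (five 5 397 398) (mv 557 (both (five 7 428 460) (five 5 429 462))))))) (mv 397 (both (five 4 397 494) (mv 398 (both (five 5 365 366) (five 5 397 430)))))))) (mv 558 (both (five 4 429 429) (mv 590 (both (five 7 461 494) (five 7 493 622))))))))) (both (mv 493 (both (mv 557 (both (mv 460 (both (five 7 428 428) (mv 588 (both (five 6 460 556) (mv 589 (both (five 7 460 492) (five 6 492 620))))))) (both (mv 588 (both (five 6 460 556) (mv 589 (both (five 6 492 620) (mv 621 (both (five 5 493 494) (mv 622 (both (five 4 493 590) (five 4 525 654))))))))) (mv 430 (both (five 5 429 462) (mv 429 (both (five 5 397 398) (mv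 397 (both (five 4 397 494) (mv 460 (both (five 7 428 428) (mv 365 (both (five 6 364 492) (mv 332 (both (five 7 332 364) (mv 333 (both (five 7 300 300) (mv 334 (both (five 5 301 302) (five 5 333 366)))))))))))))))))))) (both (mv 557 (both (mv 588 (both (five 6 460 556) (mv 589 (both (five 6 492 620) (mv 590 (both (five 4 461 558) (five 4 493 622))))))) (both (mv 430 (both (five 5 429 462) (mv 460 (both (five 7 428 428) (mv 588 (both (five 6 460 556) (mv 589 (both (five 7 460 492) (five 6 492 620))))))))) (both (mv 430 (both (five 5 429 462) (mv 460 (both (five 7 428 428) (mv 589 (both (five 7 460 492) (mv 590 (both (five 4 461 558) (five 4 493 622))))))))) (mv 460 (both (five 7 428 428) (mv 462 (both (five 5 429 430) (mv 556 (both (five 6 460 588) (mv 555 (both (five 1 522 554) (mv 558 (both (five 4 461 590) (mv 523 (both (five 3 522 522) (mv 587 (both (five 2 554 586) (mv 491 (both (five 5 459 492) (mv 490 (both (five 7 458 458) (five 2 458 459))))))))))))))))))))))) (both (mv 558 (both (five 4 429 429) (mv 590 (both (five 7 461 494) (five 7 493 622))))) (mv 429 (both (five 4 429 558) (mv 397 (both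 (five 4 397 494) (mv 398 (both (five 5 365 366) (five 5 397 430))))))))))) (mv 493 (both (mv 557 (both (mv 460 (both (five 7 428 428) (mv 588 (both (five 6 460 556) (mv 589 (both (five 7 460 492) (five 6 492 620))))))) (both (mv 588 (both (five 6 460 556) (mv 589 (both (five 6 492 620) (mv 621 (both (five 5 493 494) (mv 622 (both (five 4 493 590) (five 4 525 654))))))))) (both (mv 492 (both (mv 460 (both (five 7 428 428) (mv 491 (both (five 0 490 490) (mv 556 (both (five 6 460 588) (mv 555 (both (five 1 522 554) (mv 523 (both (five 5 459 587) (mv 494 (both (five 2 490 522) (mv 459 (both (five 3 458 458) (five 3 459 495))))))))))))))) (both (mv 462 (both (five 5 429 430) (mv 463 (both (five 2 460 464) (mv 491 (both (five 0 490 490) (five 1 459 494))))))) (both (mv 460 (both (five 7 428 428) (mv 462 (both (five 5 429 430) (mv 463 (both (five 2 460 464) (mv 431 (both (five 1 428 432) (mv 495 (both (five 0 460 496) (mv 494 (both (five 6 398 399) (five 0 459 459))))))))))))) (mv 460 (both (five 7 428 428) (mv 462 (both (five 5 429 430) (mv 463 (both (five 2 460 464) (five 2 459 491))))))))))) (mv 428 (both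 (five 7 428 460) (mv 429 (both (five 7 396 396) (mv 462 (both (five 5 429 430) (mv 494 (both (five 4 397 397) (five 5 461 589))))))))))))) (both (mv 557 (both (mv 588 (both (five 6 460 556) (mv 589 (both (five 6 492 620) (mv 590 (both (five 4 461 558) (five 4 493 622))))))) (both (mv 430 (both (five 5 429 462) (mv 460 (both (five 7 428 428) (mv 588 (both (five 6 460 556) (mv 589 (both (five 7 460 492) (five 6 492 620))))))))) (both (mv 430 (both (five 5 429 462) (mv 460 (both (five 7 428 428) (mv 589 (both (five 7 460 492) (mv 590 (both (five 4 461 558) (five 4 493 622))))))))) (mv 460 (both (five 7 428 428) (mv 462 (both (five 5 429 430) (mv 556 (both (five 6 460 588) (mv 555 (both (five 1 522 554) (mv 558 (both (five 4 461 590) (mv 523 (both (five 3 522 522) (mv 587 (both (five 2 554 586) (mv 491 (both (five 5 459 492) (mv 490 (both (five 7 458 458) (five 2 458 459))))))))))))))))))))))) (both (mv 558 (both (five 4 429 429) (mv 590 (both (five 7 461 494) (five 7 493 622))))) (mv 429 (both (five 4 429 558) (mv 396 (both (five 7 396 428) (mv 397 (both (five 7 364 364) (five 4 397 494))))))))))))))))))))))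

theorem L80 : W (S 1208204388182987309836814540638325206239420612825221752053425568816655600277987465173570496756416001676004150804900631014533469887950129311013028979236250058752) (S 321053216778053891540778779826003375254161682083220872067393386641397750362731443889842547086432184400729004814883105640077210426765670461287986337800089791405667087951978124189675843929242391426812688203776) :=
  check_sound Env.nil (x := 461) (t := tL80) (by decide +kernel)

end P062.Cert
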