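import Vale.Agent.P062.Check
import Vale.Agent.P062.Cert.C13

/-! Snaky certificate, part 14 (machine generated, checked by the kernel) -/

set_option maxRecDepth 100000

namespace P062.Cert

open T

def tL81 : T :=
  (both (mv 496 (both (mv 560 (both (mv 464 (both (mv 431 (both (five 7 431 463) (mv 432 (both (five 7 399 399) (mv 433 (both (five 5 400 401) (five 5 432 465))))))) (mv 559 (both (five 6 463 591) (mv 561 (both (five 3 525 558) (five 4 464 593))))))) (both (mv 592 (both (mv 495 (both (five 7 463 463) (mv 497 (both (five 5 464 465) (five 2 493 494))))) (mv 623 (both (five 6 495 591) (mv 624 (both (five 6 527 655) (mv 625 (both (five 4 496 593) (five 4 528 657))))))))) (both (mv 592 (both (mv 623 (both (five 6 495 591) (mv 624 (both (five 6 527 655) (mv 625 (both (five 4 496 593) (five 4 528 657))))))) (both (mv 465 (both (five 5 464 497) (mv 464 (both (five 5 432 433) (mv 593 (both (five 4 464 561) (five 4 496 625))))))) (mv 465 (both (five 5 464 497) (mv 464 (both (five 5 432 433) (mv 591 (both (five 6 463 559) (five 6 495 623)))))))))) (both (mv 464 (both (mv 431 (both (five 7 431 463)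 (mv 432 (both (five 7 399 399) (mv 433 (both (five 5 400 401) (five 5 432 465))))))) (both (mv 465 (both (five 5 432 433) (mv 592 (both (five 5 464 497) (mv 593 (both (five 4 464 561) (five 4 496 625))))))) (mv 463 (both (five 7 431 431) (mv 495 (both (five 7 463 592) (mv 494 (both (five 2 493 497) (mv 558 (both (five 5 462 590) (mv 561 (both (five 3 525 559) (five 4 464 593)))))))))))))) (both (mv 464 (both (mv 431 (both (five 7 431 463) (mv 432 (both (five 7 399 399) (mv 433 (both (five 5 400 401) (five 5 432 465))))))) (both (mv 465 (both (five 5 432 433) (mv 591 (both (five 6 463 559) (mv 592 (both (five 5 464 497) (five 6 495 623))))))) (mv 463 (both (five 7 431 431) (mv 495 (both (five 7 463 592) (mv 494 (both (five 2 493 497) (mv 558 (both (five 5 462 590) (mv 559 (both (five 3 525 561) (five 6 463 591)))))))))))))) (mv 592 (both (mv 623 (both (five 6 495 591) (mv 624 (both (five 6 527 655) (mv 625 (both (five 4 496 593) (five 4 528 657))))))) (both (mv 463 (both (five 7 463 495) (mv 464 (both (five 7 431 431) (mv 593 (both (five 4 464 561) (five 4 496 625))))))) (mv 463 (both (five 7 463 495)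 (mv 464 (both (five 7 431 431) (mv 591 (both (five 6 463 559) (five 6 495 623)))))))))))))))) (both (mv 560 (both (mv 464 (both (mv 431 (both (five 7 431 463) (mv 432 (both (five 7 399 399) (mv 433 (both (five 5 400 401) (five 5 432 465))))))) (mv 559 (both (five 6 463 591) (mv 561 (both (five 3 525 558) (five 4 464 593))))))) (both (mv 592 (both (mv 623 (both (five 6 495 591) (mv 624 (both (five 6 527 655) (mv 625 (both (five 4 496 593) (five 4 528 657))))))) (mv 463 (both (five 7 463 495) (mv 464 (both (five 7 431 431) (mv 433 (both (five 5 432 465) (mv 432 (both (five 5 400 401) (mv 434 (both (five 2 431 435) (mv 462 (both (five 1 429 461) (mv 527 (both (five 6 431 559) (mv 557 (both (five 2 524 556) (mv 494 (both (five 6 429 430) (mv 589 (both (five 6 461 558) (five 5 493 621))))))))))))))))))))))) (both (mv 592 (both (mv 623 (both (five 6 495 591) (mv 624 (both (five 6 527 655) (mv 625 (both (five 4 496 593) (five 4 528 657))))))) (both (mv 463 (both (five 7 463 495) (mv 527 (both (five 0 525 561) (mv 557 (both (five 2 524 556) (mv 593 (both (five 4 496 625) (mv 558 (both (five 0 557 559) (mv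 590 (both (five 3 557 591) (mv 622 (both (five 7 525 654) (mv 621 (both (five 6 525 653) (mv 494 (both (five 5 493 589) (mv 462 (both (five 6 429 430) (five 5 430 431))))))))))))))))))))) (both (mv 463 (both (five 7 463 495) (mv 527 (both (five 0 525 561) (mv 556 (both (five 2 524 557) (mv 625 (both (five 4 496 593) (mv 624 (both (five 4 528 657) (mv 655 (both (five 6 527 623) (mv 656 (both (five 7 527 559) (five 6 559 687))))))))))))))) (both (mv 463 (both (five 7 463 495) (mv 527 (both (five 0 525 561) (mv 557 (both (five 2 524 556) (mv 623 (both (five 6 495 591) (mv 624 (both (five 6 527 655) (mv 559 (both (five 7 527 656) (mv 558 (both (five 0 557 593) (mv 589 (both (five 2 556 588) (mv 494 (both (five 6 461 462) (five 5 493 621))))))))))))))))))) (mv 463 (both (five 7 463 495) (mv 527 (both (five 0 525 561) (mv 556 (both (five 2 524 557) (mv 623 (both (five 6 495 591) (mv 624 (both (five 6 527 655) (mv 656 (both (five 7 527 559) (mv 657 (both (five 4 528 625) (five 4 560 689)))))))))))))))))))) (both (mv 561 (both (five 0 525 527) (mv 464 (both (five 4 464 593) (mv 431 (both (five 7 431 463) (mv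 432 (both (five 7 399 399) (mv 433 (both (five 5 400 401) (five 5 432 465))))))))))) (both (mv 561 (both (five 0 525 527) (mv 464 (both (five 4 464 593) (mv 559 (both (five 3 525 558) (five 6 463 591))))))) (mv 561 (both (five 0 525 527) (mv 559 (both (five 3 525 558) (mv 464 (both (five 6 463 591) (mv 431 (both (five 7 431 463) (mv 432 (both (five 7 399 399) (mv 433 (both (five 5 400 401) (five 5 432 465))))))))))))))))))) (both (mv 497 (both (five 1 493 527) (mv 494 (both (five 2 493 495) (mv 462 (both (mv 558 (both (mv 461 (both (five 7 429 429) (mv 463 (both (five 5 430 431) (five 0 461 464))))) (mv 589 (both (five 6 461 557) (mv 590 (both (five 6 493 621) (mv 591 (both (five 4 462 559) (five 4 494 623))))))))) (both (mv 463 (both (mv 431 (both (five 5 430 558) (mv 399 (both (five 6 366 367) (five 5 398 430))))) (mv 464 (both (five 0 461 461) (mv 498 (both (five 0 462 465) (five 3 463 499))))))) (both (mv 430 (both (five 6 429 557) (mv 397 (both (five 7 397 429) (mv 398 (both (five 7 365 365) (mv 399 (both (five 5 366 367) (five 5 398 431))))))))) (mv 557 (both (five 6 429 430) (mv 589 (both (five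 6 461 558) (five 5 493 621))))))))))))) (both (mv 527 (both (five 1 493 497) (mv 464 (both (mv 560 (both (five 0 525 561) (mv 431 (both (five 7 431 463) (mv 432 (both (five 7 399 399) (mv 433 (both (five 5 400 401) (five 5 432 465))))))))) (both (mv 432 (both (five 6 431 559) (mv 399 (both (five 7 399 431) (mv 400 (both (five 7 367 367) (mv 401 (both (five 5 368 369) (five 5 400 433))))))))) (both (mv 557 (both (five 2 524 556) (mv 560 (both (five 0 525 561) (mv 431 (both (five 7 431 463) (mv 433 (both (five 5 432 465) (mv 591 (both (five 6 463 559) (mv 592 (both (five 6 495 623) (mv 593 (both (five 4 496 625) (mv 590 (both (five 3 557 558) (mv 621 (both (five 2 589 622) (mv 589 (both (five 5 493 494) (five 2 588 620))))))))))))))))))))) (both (mv 432 (both (five 6 431 559) (mv 433 (both (five 5 400 401) (mv 560 (both (five 5 432 465) (five 0 525 561))))))) (mv 432 (both (five 6 431 559) (mv 431 (both (five 7 399 399) (mv 560 (both (five 7 431 463) (five 0 525 561)))))))))))))) (both (mv 527 (both (five 1 493 497) (mv 560 (both (five 0 525 561) (mv 592 (both (mv 624 (both (five 7 495 495) (mv 625 (both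 (five 4 496 593) (five 4 528 657))))) (both (mv 463 (both (five 7 463 495) (mv 557 (both (five 2 524 556) (mv 593 (both (five 4 496 625) (mv 558 (both (five 0 557 559) (mv 590 (both (five 3 557 591) (mv 622 (both (five 7 525 654) (mv 621 (both (five 6 525 653) (mv 494 (both (five 5 493 589) (mv 462 (both (five 6 429 430) (five 5 430 431))))))))))))))))))) (both (mv 557 (both (five 2 524 556) (mv 623 (both (five 6 495 591) (mv 624 (both (five 6 527 655) (mv 559 (both (five 7 527 656) (mv 558 (both (five 0 557 593) (mv 589 (both (five 2 556 588) (mv 494 (both (five 6 461 462) (five 5 493 621))))))))))))))) (mv 623 (both (five 6 495 591) (mv 624 (both (five 6 527 655) (mv 656 (both (five 7 527 559) (mv 657 (both (five 4 528 625) (five 4 560 689))))))))))))))))) (both (mv 527 (both (five 1 493 497) (mv 560 (both (five 0 525 561) (mv 592 (both (mv 623 (both (five 6 495 591) (mv 624 (both (five 6 527 655) (mv 625 (both (five 4 496 593) (five 4 528 657))))))) (both (mv 463 (both (five 7 463 495) (mv 431 (both (five 7 431 464) (mv 557 (both (five 2 524 556) (mv 591 (both (five 6 495 623) (mv 593 (both (five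 4 496 625) (mv 590 (both (five 3 557 558) (mv 621 (both (five 2 589 622) (mv 589 (both (five 5 493 494) (five 2 588 620))))))))))))))))) (mv 495 (both (five 7 463 463) (five 7 495 624)))))))))) (both (mv 527 (both (five 1 493 497) (mv 464 (both (mv 432 (both (five 6 431 559) (mv 399 (both (five 7 399 431) (mv 400 (both (five 7 367 367) (five 6 399 495))))))) (both (mv 556 (both (five 2 524 557) (mv 560 (both (five 0 525 561) (mv 433 (both (five 5 432 465) (mv 432 (both (five 5 400 401) (mv 399 (both (five 7 399 431) (mv 400 (both (five 7 367 367) (five 6 399 495))))))))))))) (both (mv 556 (both (five 2 524 557) (mv 560 (both (five 0 525 561) (mv 591 (both (five 6 463 559) (mv 592 (both (five 6 495 623) (mv 624 (both (five 7 495 495) (mv 625 (both (five 4 496 593) (five 4 528 657))))))))))))) (mv 432 (both (five 6 431 559) (mv 433 (both (five 5 400 401) (mv 560 (both (five 5 432 465) (five 0 525 561))))))))))))) (both (mv 527 (both (five 1 493 497) (mv 464 (both (mv 432 (both (five 6 431 559) (mv 400 (both (five 6 399 495) (mv 401 (both (five 5 368 369) (five 5 400 433))))))) (both (mv 556 (both (five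 2 524 557) (mv 560 (both (five 0 525 561) (mv 433 (both (five 5 432 465) (mv 432 (both (five 5 400 401) (mv 495 (both (five 6 399 400) (mv 592 (both (five 7 463 463) (five 7 495 624))))))))))))) (both (mv 560 (both (five 0 525 561) (mv 591 (both (five 6 463 559) (mv 592 (both (five 6 495 623) (mv 624 (both (five 7 495 495) (mv 625 (both (five 4 496 593) (five 4 528 657))))))))))) (mv 432 (both (five 6 431 559) (mv 433 (both (five 5 400 401) (mv 560 (both (five 5 432 465) (five 0 525 561))))))))))))) (both (mv 527 (both (five 1 493 497) (mv 464 (both (mv 432 (both (five 6 431 559) (mv 399 (both (five 7 399 431) (mv 400 (both (five 7 367 367) (five 6 399 495))))))) (both (mv 556 (both (five 2 524 557) (mv 560 (both (five 0 525 561) (mv 433 (both (five 5 432 465) (mv 463 (both (five 7 431 431) (mv 592 (both (five 7 463 495) (mv 625 (both (five 4 496 593) (mv 624 (both (five 4 528 657) (mv 655 (both (five 6 527 623) (mv 656 (both (five 7 527 559) (five 6 559 687))))))))))))))))))) (both (mv 560 (both (five 0 525 561) (mv 431 (both (five 7 431 463) (mv 432 (both (five 7 399 399) (mv 433 (both (five 5 400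 401) (five 5 432 465))))))))) (mv 432 (both (five 6 431 559) (mv 400 (both (five 6 399 495) (mv 401 (both (five 5 368 369) (five 5 400 433))))))))))))) (mv 527 (both (five 1 493 497) (mv 464 (both (mv 432 (both (five 6 431 559) (mv 399 (both (five 7 399 431) (mv 400 (both (five 7 367 367) (five 6 399 495))))))) (both (mv 556 (both (five 2 524 557) (mv 560 (both (five 0 525 561) (mv 433 (both (five 5 432 465) (mv 463 (both (five 7 431 431) (mv 495 (both (five 7 463 592) (mv 559 (both (five 5 463 591) (mv 462 (both (five 7 430 430) (mv 461 (both (five 0 460 460) (mv 429 (both (five 3 428 428) (mv 558 (both (five 7 429 494) (five 6 462 590))))))))))))))))))))) (both (mv 560 (both (five 0 525 561) (mv 431 (both (five 7 431 463) (mv 432 (both (five 7 399 399) (mv 433 (both (five 5 400 401) (five 5 432 465))))))))) (mv 432 (both (five 6 431 559) (mv 400 (both (five 6 399 495) (mv 401 (both (five 5 368 369) (five 5 400 433))))))))))))))))))))))) (both (mv 560 (both (mv 496 (both (mv 592 (both (mv 623 (both (five 6 495 591) (mv 624 (both (five 6 527 655) (mv 625 (both (five 4 528 657) (five 4 496 593)))))))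 (mv 495 (both (five 7 463 463) (mv 497 (both (five 2 493 494) (five 5 464 465))))))) (both (mv 464 (both (mv 559 (both (five 6 463 591) (mv 561 (both (five 4 464 593) (five 3 525 558))))) (mv 431 (both (five 7 431 463) (mv 432 (both (five 7 399 399) (mv 433 (both (five 5 432 465) (five 5 400 401))))))))) (both (mv 464 (both (mv 431 (both (five 7 431 463) (mv 432 (both (five 7 399 399) (mv 433 (both (five 5 432 465) (five 5 400 401))))))) (both (mv 593 (both (five 4 464 561) (mv 592 (both (five 4 496 625) (mv 465 (both (five 5 464 497) (five 5 432 433))))))) (mv 593 (both (five 4 464 561) (mv 592 (both (five 4 496 625) (mv 463 (both (five 7 463 495) (five 7 431 431)))))))))) (both (mv 592 (both (mv 623 (both (five 6 495 591) (mv 624 (both (five 6 527 655) (mv 625 (both (five 4 528 657) (five 4 496 593))))))) (both (mv 593 (both (five 4 496 625) (mv 464 (both (five 4 464 561) (mv 465 (both (five 5 464 497) (five 5 432 433))))))) (mv 591 (both (five 6 495 623) (mv 559 (both (five 6 463 464) (mv 558 (both (five 3 525 561) (mv 494 (both (five 4 462 462) (mv 497 (both (five 2 493 495) (five 5 464 465))))))))))))))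 (both (mv 592 (both (mv 623 (both (five 6 495 591) (mv 624 (both (five 6 527 655) (mv 625 (both (five 4 528 657) (five 4 496 593))))))) (both (mv 593 (both (five 4 496 625) (mv 463 (both (five 7 463 495) (mv 464 (both (five 4 464 561) (five 7 431 431))))))) (mv 591 (both (five 6 495 623) (mv 559 (both (five 6 463 464) (mv 558 (both (five 3 525 561) (mv 494 (both (five 4 462 462) (mv 495 (both (five 2 493 497) (five 7 463 463)))))))))))))) (mv 464 (both (mv 431 (both (five 7 431 463) (mv 432 (both (five 7 399 399) (mv 433 (both (five 5 432 465) (five 5 400 401))))))) (both (mv 591 (both (five 6 463 559) (mv 592 (both (five 6 495 623) (mv 465 (both (five 5 464 497) (five 5 432 433))))))) (mv 591 (both (five 6 463 559) (mv 592 (both (five 6 495 623) (mv 463 (both (five 7 463 495) (five 7 431 431)))))))))))))))) (both (mv 496 (both (mv 592 (both (mv 623 (both (five 6 495 591) (mv 624 (both (five 6 527 655) (mv 625 (both (five 4 528 657) (five 4 496 593))))))) (mv 495 (both (five 7 463 463) (mv 497 (both (five 2 493 494) (five 5 464 465))))))) (both (mv 464 (both (mv 431 (both (five 7 431 463) (mv 432 (both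 (five 7 399 399) (mv 433 (both (five 5 432 465) (five 5 400 401))))))) (mv 591 (both (five 6 463 559) (mv 592 (both (five 6 495 623) (mv 625 (both (five 4 496 593) (mv 624 (both (five 4 528 657) (mv 626 (both (five 3 591 627) (mv 590 (both (five 0 589 589) (mv 527 (both (five 7 495 495) (mv 493 (both (five 3 492 492) (mv 558 (both (five 7 493 622) (mv 461 (both (five 7 461 494) (five 4 429 429))))))))))))))))))))))) (both (mv 464 (both (mv 431 (both (five 7 431 463) (mv 432 (both (five 7 399 399) (mv 433 (both (five 5 432 465) (five 5 400 401))))))) (both (mv 591 (both (five 6 463 559) (mv 527 (both (five 1 493 497) (mv 493 (both (five 3 492 492) (mv 465 (both (five 5 432 433) (mv 494 (both (five 1 461 495) (mv 462 (both (five 2 461 463) (mv 430 (both (five 6 397 398) (mv 429 (both (five 7 397 397) (mv 558 (both (five 4 429 461) (mv 590 (both (five 7 493 622) (five 4 494 623))))))))))))))))))))) (both (mv 591 (both (five 6 463 559) (mv 527 (both (five 1 493 497) (mv 492 (both (five 3 492 493) (mv 433 (both (five 5 432 465) (mv 432 (both (five 5 400 401) (mv 399 (both (five 7 399 431) (mv 400 (both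 (five 6 399 495) (five 7 367 367))))))))))))))) (both (mv 591 (both (five 6 463 559) (mv 527 (both (five 1 493 497) (mv 493 (both (five 3 492 492) (mv 431 (both (five 7 431 463) (mv 432 (both (five 7 399 399) (mv 495 (both (five 6 399 400) (mv 494 (both (five 1 461 465) (mv 461 (both (five 3 460 460) (mv 558 (both (five 7 461 590) (five 4 429 429))))))))))))))))))) (mv 591 (both (five 6 463 559) (mv 527 (both (five 1 493 497) (mv 492 (both (five 3 492 493) (mv 431 (both (five 7 431 463) (mv 432 (both (five 7 399 399) (mv 400 (both (five 6 399 495) (mv 401 (both (five 5 400 433) (five 5 368 369)))))))))))))))))))) (both (mv 497 (both (five 1 493 527) (mv 592 (both (five 5 464 465) (mv 623 (both (five 6 495 591) (mv 624 (both (five 6 527 655) (mv 625 (both (five 4 528 657) (five 4 496 593))))))))))) (both (mv 497 (both (five 1 493 527) (mv 592 (both (five 5 464 465) (mv 495 (both (five 2 493 494) (five 7 463 463))))))) (mv 497 (both (five 1 493 527) (mv 495 (both (five 2 493 494) (mv 592 (both (five 7 463 463) (mv 623 (both (five 6 495 591) (mv 624 (both (five 6 527 655) (mv 625 (both (five 4 528 657)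 (five 4 496 593))))))))))))))))))) (both (mv 561 (both (five 0 525 527) (mv 558 (both (five 3 525 559) (mv 590 (both (mv 494 (both (mv 589 (both (five 6 493 621) (mv 591 (both (five 4 494 623) (five 1 557 592))))) (mv 461 (both (five 7 461 493) (mv 462 (both (five 7 429 429) (mv 463 (both (five 5 462 495) (five 5 430 431))))))))) (both (mv 591 (both (mv 623 (both (five 4 494 494) (mv 655 (both (five 7 558 687) (five 4 526 622))))) (mv 592 (both (five 1 557 589) (mv 562 (both (five 1 558 593) (five 2 559 563))))))) (both (mv 622 (both (five 7 493 493) (mv 653 (both (five 6 525 621) (mv 654 (both (five 6 557 685) (mv 655 (both (five 4 558 687) (five 4 526 623))))))))) (mv 493 (both (five 7 493 622) (mv 461 (both (five 7 461 494) (five 4 429 429))))))))))))) (both (mv 527 (both (five 0 525 561) (mv 592 (both (mv 496 (both (five 1 493 497) (mv 623 (both (five 6 495 591) (mv 624 (both (five 6 527 655) (mv 625 (both (five 4 528 657) (five 4 496 593))))))))) (both (mv 624 (both (five 7 495 495) (mv 655 (both (five 6 527 623) (mv 656 (both (five 6 559 687) (mv 657 (both (five 4 560 689) (five 4 528 625)))))))))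 (both (mv 493 (both (five 3 492 492) (mv 496 (both (five 1 493 497) (mv 623 (both (five 6 495 591) (mv 625 (both (five 4 496 593) (mv 463 (both (five 7 463 495) (mv 464 (both (five 7 431 431) (mv 465 (both (five 5 432 433) (mv 462 (both (five 2 461 494) (mv 429 (both (five 3 429 430) (mv 461 (both (five 4 429 558) (five 3 428 428))))))))))))))))))))) (both (mv 624 (both (five 7 495 495) (mv 625 (both (five 4 528 657) (mv 496 (both (five 4 496 593) (five 1 493 497))))))) (mv 624 (both (five 7 495 495) (mv 623 (both (five 6 527 655) (mv 496 (both (five 6 495 591) (five 1 493 497)))))))))))))) (both (mv 527 (both (five 0 525 561) (mv 496 (both (five 1 493 497) (mv 464 (both (mv 432 (both (five 6 431 559) (mv 433 (both (five 5 432 465) (five 5 400 401))))) (both (mv 591 (both (five 6 463 559) (mv 493 (both (five 3 492 492) (mv 465 (both (five 5 432 433) (mv 494 (both (five 1 461 495) (mv 462 (both (five 2 461 463) (mv 430 (both (five 6 397 398) (mv 429 (both (five 7 397 397) (mv 558 (both (five 4 429 461) (mv 590 (both (five 7 493 622) (five 4 494 623))))))))))))))))))) (both (mv 493 (both (five 3 492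 492) (mv 431 (both (five 7 431 463) (mv 432 (both (five 7 399 399) (mv 495 (both (five 6 399 400) (mv 494 (both (five 1 461 465) (mv 461 (both (five 3 460 460) (mv 558 (both (five 7 461 590) (five 4 429 429))))))))))))))) (mv 431 (both (five 7 431 463) (mv 432 (both (five 7 399 399) (mv 400 (both (five 6 399 495) (mv 401 (both (five 5 400 433) (five 5 368 369))))))))))))))))) (both (mv 527 (both (five 0 525 561) (mv 496 (both (five 1 493 497) (mv 464 (both (mv 431 (both (five 7 431 463) (mv 432 (both (five 7 399 399) (mv 433 (both (five 5 432 465) (five 5 400 401))))))) (both (mv 591 (both (five 6 463 559) (mv 623 (both (five 6 495 592) (mv 493 (both (five 3 492 492) (mv 463 (both (five 7 431 431) (mv 465 (both (five 5 432 433) (mv 462 (both (five 2 461 494) (mv 429 (both (five 3 429 430) (mv 461 (both (five 4 429 558) (five 3 428 428))))))))))))))))) (mv 559 (both (five 6 463 591) (five 6 431 432)))))))))) (both (mv 527 (both (five 0 525 561) (mv 592 (both (mv 624 (both (five 7 495 495) (mv 655 (both (five 6 527 623) (mv 656 (both (five 6 559 687) (five 7 527 559))))))) (both (mv 492 (both (five 3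 492 493) (mv 496 (both (five 1 493 497) (mv 625 (both (five 4 496 593) (mv 624 (both (five 4 528 657) (mv 655 (both (five 6 527 623) (mv 656 (both (five 6 559 687) (five 7 527 559))))))))))))) (both (mv 492 (both (five 3 492 493) (mv 496 (both (five 1 493 497) (mv 463 (both (five 7 463 495) (mv 464 (both (five 7 431 431) (mv 432 (both (five 6 431 559) (mv 433 (both (five 5 432 465) (five 5 400 401))))))))))))) (mv 624 (both (five 7 495 495) (mv 625 (both (five 4 528 657) (mv 496 (both (five 4 496 593) (five 1 493 497))))))))))))) (both (mv 527 (both (five 0 525 561) (mv 592 (both (mv 624 (both (five 7 495 495) (mv 656 (both (five 7 527 559) (mv 657 (both (five 4 560 689) (five 4 528 625))))))) (both (mv 492 (both (five 3 492 493) (mv 496 (both (five 1 493 497) (mv 625 (both (five 4 496 593) (mv 624 (both (five 4 528 657) (mv 559 (both (five 7 527 656) (mv 464 (both (five 6 463 591) (five 6 431 432))))))))))))) (both (mv 496 (both (five 1 493 497) (mv 463 (both (five 7 463 495) (mv 464 (both (five 7 431 431) (mv 432 (both (five 6 431 559) (mv 433 (both (five 5 432 465) (five 5 400 401))))))))))) (mv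 624 (both (five 7 495 495) (mv 625 (both (five 4 528 657) (mv 496 (both (five 4 496 593) (five 1 493 497))))))))))))) (both (mv 527 (both (five 0 525 561) (mv 592 (both (mv 624 (both (five 7 495 495) (mv 655 (both (five 6 527 623) (mv 656 (both (five 6 559 687) (five 7 527 559))))))) (both (mv 492 (both (five 3 492 493) (mv 496 (both (five 1 493 497) (mv 625 (both (five 4 496 593) (mv 591 (both (five 6 495 623) (mv 464 (both (five 6 463 559) (mv 433 (both (five 5 432 465) (mv 432 (both (five 5 400 401) (mv 399 (both (five 7 399 431) (mv 400 (both (five 6 399 495) (five 7 367 367))))))))))))))))))) (both (mv 496 (both (five 1 493 497) (mv 623 (both (five 6 495 591) (mv 624 (both (five 6 527 655) (mv 625 (both (five 4 528 657) (five 4 496 593))))))))) (mv 624 (both (five 7 495 495) (mv 656 (both (five 7 527 559) (mv 657 (both (five 4 560 689) (five 4 528 625))))))))))))) (mv 527 (both (five 0 525 561) (mv 592 (both (mv 624 (both (five 7 495 495) (mv 655 (both (five 6 527 623) (mv 656 (both (five 6 559 687) (five 7 527 559))))))) (both (mv 492 (both (five 3 492 493) (mv 496 (both (five 1 493 497) (mv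 625 (both (five 4 496 593) (mv 591 (both (five 6 495 623) (mv 559 (both (five 6 463 464) (mv 495 (both (five 4 463 463) (mv 590 (both (five 6 494 622) (mv 589 (both (five 1 556 588) (mv 621 (both (five 2 588 620) (mv 494 (both (five 6 493 558) (five 7 462 462))))))))))))))))))))) (both (mv 496 (both (five 1 493 497) (mv 623 (both (five 6 495 591) (mv 624 (both (five 6 527 655) (mv 625 (both (five 4 528 657) (five 4 496 593))))))))) (mv 624 (both (five 7 495 495) (mv 656 (both (five 7 527 559) (mv 657 (both (five 4 560 689) (five 4 528 625))))))))))))))))))))))) (both (ref 0) (both (mv 493 (both (mv 492 (both (five 3 492 527) (mv 491 (both (five 0 490 490) (mv 494 (both (mv 459 (both (five 3 458 458) (mv 460 (both (five 3 459 495) (mv 428 (both (five 4 396 396) (mv 523 (both (five 2 490 522) (five 5 427 555))))))))) (mv 462 (both (five 1 459 463) (mv 430 (both (five 6 397 398) (five 6 429 557))))))))))) (both (mv 557 (both (mv 556 (both (five 2 524 527) (mv 461 (both (five 6 460 588) (mv 428 (both (five 7 428 460) (mv 429 (both (five 4 429 558) (five 7 396 396))))))))) (both (mv 589 (both (mv 620 (both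 (five 6 492 588) (mv 621 (both (five 6 524 652) (mv 622 (both (five 4 493 590) (five 4 525 654))))))) (mv 462 (both (five 5 461 494) (mv 461 (both (five 5 429 430) (mv 428 (both (five 7 428 460) (mv 429 (both (five 4 429 558) (five 7 396 396))))))))))) (both (mv 589 (both (mv 620 (both (five 6 492 588) (mv 621 (both (five 5 493 494) (five 6 524 652))))) (both (mv 620 (both (five 6 492 588) (mv 621 (both (five 6 524 652) (mv 622 (both (five 4 493 590) (five 4 525 654))))))) (both (mv 462 (both (five 5 461 494) (mv 527 (both (five 2 524 556) (mv 560 (both (five 0 525 561) (mv 588 (both (five 6 492 620) (mv 590 (both (five 4 493 622) (mv 559 (both (five 1 556 591) (five 2 556 558))))))))))))) (mv 621 (both (five 5 493 494) (mv 622 (both (five 4 493 590) (five 4 525 654))))))))) (both (mv 556 (both (five 2 524 527) (mv 461 (both (five 6 460 588) (mv 428 (both (five 7 428 460) (mv 429 (both (five 7 396 396) (mv 430 (both (five 5 429 462) (five 5 397 398))))))))))) (mv 558 (both (mv 461 (both (five 4 429 429) (mv 590 (both (five 7 461 494) (five 7 493 622))))) (both (mv 461 (both (five 4 429 429) (mv 428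 (both (five 7 428 460) (mv 462 (both (five 5 429 430) (mv 494 (both (five 5 461 589) (mv 431 (both (five 5 430 463) (mv 527 (both (five 2 524 556) (mv 559 (both (five 4 462 591) (mv 560 (both (five 0 525 561) (mv 592 (both (five 0 557 593) (mv 624 (both (five 7 495 495) (mv 655 (both (five 6 527 623) (mv 656 (both (five 6 559 687) (mv 657 (both (five 4 560 689) (five 4 528 625))))))))))))))))))))))))))) (mv 556 (both (five 2 524 527) (mv 555 (both (five 1 522 554) (mv 590 (both (five 0 555 591) (five 7 493 622))))))))))))))) (both (mv 492 (both (five 3 492 527) (mv 491 (both (five 0 490 490) (mv 494 (both (mv 459 (both (five 3 458 458) (mv 460 (both (five 3 459 495) (mv 428 (both (five 4 396 396) (mv 523 (both (five 2 490 522) (five 5 427 555))))))))) (both (mv 462 (both (five 1 459 463) (mv 430 (both (five 6 397 398) (mv 399 (both (five 5 398 431) (mv 429 (both (five 7 397 397) (mv 522 (both (five 2 490 523) (mv 558 (both (five 7 429 461) (mv 590 (both (five 7 493 622) (mv 591 (both (five 4 462 559) (five 4 494 623))))))))))))))))) (mv 458 (both (five 3 458 459) (mv 462 (both (five 1 459 463) (mv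 430 (both (five 6 397 398) (mv 399 (both (five 5 398 431) (mv 429 (both (five 7 397 397) (mv 558 (both (five 7 429 461) (mv 590 (both (five 7 493 622) (mv 591 (both (five 4 462 559) (five 4 494 623)))))))))))))))))))))))) (both (mv 461 (both (mv 558 (both (five 4 429 429) (mv 590 (both (five 4 461 557) (five 7 493 622))))) (both (mv 557 (both (mv 588 (both (five 6 460 556) (mv 589 (both (five 6 492 620) (mv 590 (both (five 4 461 558) (five 4 493 622))))))) (both (mv 430 (both (five 5 429 462) (mv 460 (both (five 7 428 428) (mv 588 (both (five 6 460 556) (mv 589 (both (five 7 460 492) (five 6 492 620))))))))) (both (mv 430 (both (five 5 429 462) (mv 460 (both (five 7 428 428) (mv 589 (both (five 7 460 492) (mv 590 (both (five 4 461 558) (five 4 493 622))))))))) (mv 460 (both (five 7 428 428) (mv 462 (both (five 5 429 430) (mv 556 (both (five 6 460 588) (mv 555 (both (five 1 522 554) (mv 558 (both (five 4 461 590) (mv 523 (both (five 3 522 522) (mv 587 (both (five 2 554 586) (mv 491 (both (five 5 459 492) (mv 490 (both (five 7 458 458) (five 2 458 459))))))))))))))))))))))) (both (mv 527 (both (five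 3 492 492) (mv 557 (both (five 2 524 556) (mv 428 (both (five 7 428 460) (mv 429 (both (five 7 396 396) (mv 430 (both (five 5 429 462) (five 5 397 398))))))))))) (mv 429 (both (five 4 429 558) (mv 396 (both (five 7 396 428) (mv 397 (both (five 7 364 364) (mv 398 (both (five 5 365 366) (five 5 397 430))))))))))))) (both (mv 461 (both (mv 558 (both (five 4 429 429) (mv 590 (both (five 4 461 557) (five 7 493 622))))) (both (mv 557 (both (mv 460 (both (five 7 428 428) (mv 588 (both (five 6 460 556) (mv 589 (both (five 7 460 492) (five 6 492 620))))))) (both (mv 588 (both (five 6 460 556) (mv 589 (both (five 6 492 620) (mv 621 (both (five 5 493 494) (mv 622 (both (five 4 493 590) (five 4 525 654))))))))) (mv 429 (both (mv 397 (both (five 4 397 494) (mv 364 (both (five 7 364 396) (mv 365 (both (five 7 332 332) (mv 366 (both (five 5 333 334) (five 5 365 398))))))))) (both (mv 428 (both (five 7 396 396) (five 7 428 460))) (mv 397 (both (five 4 397 494) (mv 366 (both (five 5 365 398) (mv 365 (both (five 5 333 334) (mv 460 (both (five 7 428 428) (five 6 364 492))))))))))))))) (both (mv 557 (both (mv 588 (both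 (five 6 460 556) (mv 589 (both (five 6 492 620) (mv 590 (both (five 4 461 558) (five 4 493 622))))))) (both (mv 460 (both (five 7 428 428) (mv 588 (both (five 6 460 556) (mv 589 (both (five 7 460 492) (five 6 492 620))))))) (both (mv 460 (both (five 7 428 428) (mv 589 (both (five 7 460 492) (mv 590 (both (five 4 461 558) (five 4 493 622))))))) (mv 460 (both (five 7 428 428) (mv 556 (both (five 6 460 588) (mv 555 (both (five 1 522 554) (mv 558 (both (five 4 461 590) (mv 523 (both (five 3 522 522) (mv 587 (both (five 2 554 586) (mv 491 (both (five 5 459 492) (mv 458 (both (five 7 458 490) (mv 459 (both (five 7 426 426) (five 0 458 494))))))))))))))))))))))) (mv 429 (both (five 4 429 558) (mv 396 (both (five 7 396 428) (mv 397 (both (five 7 364 364) (five 4 397 494))))))))))) (both (mv 461 (both (mv 558 (both (five 4 429 429) (mv 590 (both (five 4 461 557) (five 7 493 622))))) (both (mv 527 (both (five 3 492 492) (mv 557 (both (five 2 524 556) (mv 462 (both (five 5 429 430) (mv 589 (both (five 5 461 494) (mv 620 (both (five 6 492 588) (mv 621 (both (five 6 524 652) (mv 622 (both (five 4 493 590) (five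 4 525 654))))))))))))))) (mv 429 (both (five 4 429 558) (mv 396 (both (five 7 396 428) (mv 397 (both (five 7 364 364) (five 4 397 494)))))))))) (mv 461 (both (mv 558 (both (five 4 429 429) (mv 590 (both (five 4 461 557) (five 7 493 622))))) (both (mv 527 (both (five 3 492 492) (mv 557 (both (five 2 524 556) (mv 462 (both (five 5 429 430) (mv 589 (both (five 5 461 494) (mv 620 (both (five 6 492 588) (mv 621 (both (five 6 524 652) (mv 622 (both (five 4 493 590) (five 4 525 654))))))))))))))) (mv 429 (both (five 4 429 558) (mv 397 (both (five 4 397 494) (mv 398 (both (five 5 365 366) (five 5 397 430))))))))))))))))) (both (mv 493 (both (mv 492 (both (five 3 492 527) (mv 491 (both (five 0 490 490) (mv 494 (both (mv 459 (both (five 3 458 458) (mv 460 (both (five 3 459 495) (mv 428 (both (five 4 396 396) (mv 523 (both (five 2 490 522) (five 5 427 555))))))))) (mv 462 (both (five 1 459 463) (mv 430 (both (five 6 397 398) (five 6 429 557))))))))))) (both (mv 557 (both (mv 556 (both (five 2 524 527) (mv 461 (both (five 6 460 588) (mv 428 (both (five 7 428 460) (mv 429 (both (five 4 429 558) (five 7 396 396)))))))))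 (both (mv 589 (both (mv 620 (both (five 6 492 588) (mv 621 (both (five 6 524 652) (mv 622 (both (five 4 493 590) (five 4 525 654))))))) (mv 462 (both (five 5 461 494) (mv 461 (both (five 5 429 430) (mv 428 (both (five 7 428 460) (mv 429 (both (five 4 429 558) (five 7 396 396))))))))))) (both (mv 589 (both (mv 620 (both (five 6 492 588) (mv 621 (both (five 5 493 494) (five 6 524 652))))) (both (mv 620 (both (five 6 492 588) (mv 621 (both (five 6 524 652) (mv 622 (both (five 4 493 590) (five 4 525 654))))))) (both (mv 462 (both (five 5 461 494) (mv 556 (both (five 2 524 527) (mv 555 (both (five 1 522 554) (mv 588 (both (five 6 492 620) (mv 590 (both (five 3 555 591) (five 4 493 622))))))))))) (mv 621 (both (five 5 493 494) (mv 622 (both (five 4 493 590) (five 4 525 654))))))))) (mv 558 (both (mv 461 (both (five 4 429 429) (mv 590 (both (five 7 461 494) (five 7 493 622))))) (both (mv 461 (both (five 4 429 429) (mv 428 (both (five 7 428 460) (mv 462 (both (five 5 429 430) (mv 494 (both (five 5 461 589) (mv 463 (both (five 5 430 431) (mv 464 (both (five 2 461 465) (mv 432 (both (five 1 429 433) (mv 496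 (both (five 0 461 497) (mv 527 (both (five 2 524 556) (five 6 431 559))))))))))))))))))) (mv 556 (both (five 2 524 527) (mv 555 (both (five 1 522 554) (mv 590 (both (five 0 555 591) (five 7 493 622)))))))))))))) (both (mv 492 (both (five 3 492 527) (mv 491 (both (five 0 490 490) (mv 494 (both (mv 459 (both (five 3 458 458) (mv 460 (both (five 3 459 495) (mv 428 (both (five 4 396 396) (mv 523 (both (five 2 490 522) (five 5 427 555))))))))) (both (mv 462 (both (five 1 459 463) (mv 430 (both (five 6 397 398) (mv 399 (both (five 5 398 431) (mv 429 (both (five 7 397 397) (mv 522 (both (five 2 490 523) (mv 558 (both (five 7 429 461) (mv 590 (both (five 7 493 622) (mv 591 (both (five 4 462 559) (five 4 494 623))))))))))))))))) (mv 458 (both (five 3 458 459) (mv 462 (both (five 1 459 463) (mv 430 (both (five 6 397 398) (mv 399 (both (five 5 398 431) (mv 429 (both (five 7 397 397) (mv 558 (both (five 7 429 461) (mv 590 (both (five 7 493 622) (mv 591 (both (five 4 462 559) (five 4 494 623)))))))))))))))))))))))) (both (mv 461 (both (mv 558 (both (five 4 429 429) (mv 590 (both (five 4 461 557) (five 7 493 622)))))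 (both (mv 557 (both (mv 588 (both (five 6 460 556) (mv 589 (both (five 6 492 620) (mv 590 (both (five 4 461 558) (five 4 493 622))))))) (both (mv 430 (both (five 5 429 462) (mv 460 (both (five 7 428 428) (mv 588 (both (five 6 460 556) (mv 589 (both (five 7 460 492) (five 6 492 620))))))))) (both (mv 430 (both (five 5 429 462) (mv 460 (both (five 7 428 428) (mv 589 (both (five 7 460 492) (mv 590 (both (five 4 461 558) (five 4 493 622))))))))) (mv 460 (both (five 7 428 428) (mv 462 (both (five 5 429 430) (mv 556 (both (five 6 460 588) (mv 555 (both (five 1 522 554) (mv 558 (both (five 4 461 590) (mv 523 (both (five 3 522 522) (mv 587 (both (five 2 554 586) (mv 491 (both (five 5 459 492) (mv 490 (both (five 7 458 458) (five 2 458 459))))))))))))))))))))))) (both (mv 527 (both (five 3 492 492) (mv 557 (both (five 2 524 556) (mv 428 (both (five 7 428 460) (mv 429 (both (five 7 396 396) (mv 430 (both (five 5 429 462) (five 5 397 398))))))))))) (mv 429 (both (five 4 429 558) (mv 396 (both (five 7 396 428) (mv 397 (both (five 7 364 364) (mv 398 (both (five 5 365 366) (five 5 397 430))))))))))))) (both (mv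 461 (both (mv 558 (both (five 4 429 429) (mv 590 (both (five 4 461 557) (five 7 493 622))))) (both (mv 557 (both (mv 460 (both (five 7 428 428) (mv 588 (both (five 6 460 556) (mv 589 (both (five 7 460 492) (five 6 492 620))))))) (both (mv 588 (both (five 6 460 556) (mv 589 (both (five 6 492 620) (mv 621 (both (five 5 493 494) (mv 622 (both (five 4 493 590) (five 4 525 654))))))))) (mv 429 (both (mv 397 (both (five 4 397 494) (mv 364 (both (five 7 364 396) (mv 365 (both (five 7 332 332) (mv 366 (both (five 5 333 334) (five 5 365 398))))))))) (both (mv 428 (both (five 7 396 396) (five 7 428 460))) (mv 397 (both (five 4 397 494) (mv 366 (both (five 5 365 398) (mv 365 (both (five 5 333 334) (mv 460 (both (five 7 428 428) (five 6 364 492))))))))))))))) (both (mv 557 (both (mv 588 (both (five 6 460 556) (mv 589 (both (five 6 492 620) (mv 590 (both (five 4 461 558) (five 4 493 622))))))) (both (mv 460 (both (five 7 428 428) (mv 588 (both (five 6 460 556) (mv 589 (both (five 7 460 492) (five 6 492 620))))))) (both (mv 460 (both (five 7 428 428) (mv 589 (both (five 7 460 492) (mv 590 (both (five 4 461 558)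 (five 4 493 622))))))) (mv 460 (both (five 7 428 428) (mv 556 (both (five 6 460 588) (mv 555 (both (five 1 522 554) (mv 558 (both (five 4 461 590) (mv 523 (both (five 3 522 522) (mv 587 (both (five 2 554 586) (mv 491 (both (five 5 459 492) (mv 458 (both (five 7 458 490) (mv 459 (both (five 7 426 426) (five 0 458 494))))))))))))))))))))))) (mv 429 (both (five 4 429 558) (mv 396 (both (five 7 396 428) (mv 397 (both (five 7 364 364) (five 4 397 494))))))))))) (mv 461 (both (mv 558 (both (five 4 429 429) (mv 590 (both (five 4 461 557) (five 7 493 622))))) (both (mv 527 (both (five 3 492 492) (mv 557 (both (five 2 524 556) (mv 462 (both (five 5 429 430) (mv 589 (both (five 5 461 494) (mv 620 (both (five 6 492 588) (mv 621 (both (five 6 524 652) (mv 622 (both (five 4 493 590) (five 4 525 654))))))))))))))) (mv 429 (both (five 4 429 558) (mv 397 (both (five 4 397 494) (mv 398 (both (five 5 365 366) (five 5 397 430)))))))))))))))) (both (mv 527 (both (mv 496 (both (five 1 493 497) (mv 464 (both (mv 432 (both (five 6 431 559) (mv 399 (both (five 7 399 431) (mv 400 (both (five 7 367 367) (five 6 399 495)))))))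 (both (mv 560 (both (five 0 525 561) (mv 433 (both (five 5 432 465) (mv 432 (both (five 5 400 401) (mv 399 (both (five 7 399 431) (mv 400 (both (five 7 367 367) (five 6 399 495))))))))))) (both (mv 560 (both (five 0 525 561) (mv 591 (both (five 6 463 559) (mv 592 (both (five 6 495 623) (mv 624 (both (five 7 495 495) (mv 625 (both (five 4 496 593) (five 4 528 657))))))))))) (mv 432 (both (five 6 431 559) (mv 433 (both (five 5 400 401) (mv 560 (both (five 5 432 465) (five 0 525 561))))))))))))) (mv 493 (both (five 3 492 492) (mv 461 (both (mv 558 (both (five 4 429 429) (mv 590 (both (five 4 461 557) (five 7 493 622))))) (both (mv 429 (both (five 4 429 558) (mv 396 (both (five 7 396 428) (mv 397 (both (five 7 364 364) (mv 398 (both (five 5 365 366) (five 5 397 430))))))))) (both (mv 557 (both (five 2 524 556) (mv 428 (both (five 7 428 460) (mv 429 (both (five 7 396 396) (mv 430 (both (five 5 429 462) (five 5 397 398))))))))) (mv 557 (both (five 2 524 556) (mv 589 (both (mv 620 (both (five 6 492 588) (mv 621 (both (five 6 524 652) (mv 622 (both (five 4 493 590) (five 4 525 654))))))) (both (mv 620 (both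 (five 6 492 588) (mv 621 (both (five 6 524 652) (mv 653 (both (five 5 525 558) (mv 654 (both (five 4 525 622) (five 4 557 686))))))))) (both (mv 428 (both (five 7 428 460) (mv 430 (both (five 5 429 462) (mv 558 (both (five 4 461 590) (mv 620 (both (five 6 492 588) (mv 621 (both (five 6 524 652) (five 5 525 653))))))))))) (mv 590 (both (five 4 461 558) (five 4 493 622))))))))))))))))) (both (mv 527 (both (mv 496 (both (five 1 493 497) (mv 464 (both (mv 432 (both (five 6 431 559) (mv 399 (both (five 7 399 431) (mv 400 (both (five 7 367 367) (five 6 399 495))))))) (both (mv 560 (both (five 0 525 561) (mv 433 (both (five 5 432 465) (mv 432 (both (five 5 400 401) (mv 399 (both (five 7 399 431) (mv 400 (both (five 7 367 367) (five 6 399 495))))))))))) (both (mv 560 (both (five 0 525 561) (mv 591 (both (five 6 463 559) (mv 592 (both (five 6 495 623) (mv 624 (both (five 7 495 495) (mv 625 (both (five 4 496 593) (five 4 528 657))))))))))) (mv 432 (both (five 6 431 559) (mv 433 (both (five 5 400 401) (mv 560 (both (five 5 432 465) (five 0 525 561))))))))))))) (mv 557 (both (five 2 524 556) (mv 589 (both (mv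 621 (both (five 5 493 494) (mv 652 (both (five 6 524 620) (mv 653 (both (five 6 556 684) (mv 654 (both (five 4 557 686) (five 4 525 622))))))))) (both (mv 493 (both (five 3 492 492) (mv 620 (both (five 6 492 588) (mv 621 (both (five 6 524 652) (mv 622 (both (five 4 493 590) (five 4 525 654))))))))) (both (mv 493 (both (five 3 492 492) (mv 461 (both (mv 428 (both (five 7 428 460) (mv 429 (both (five 7 396 396) (mv 430 (both (five 5 429 462) (five 5 397 398))))))) (both (mv 428 (both (five 7 428 460) (mv 429 (both (five 7 396 396) (mv 397 (both (five 4 397 494) (mv 398 (both (five 5 397 430) (five 5 365 366))))))))) (both (mv 620 (both (five 6 492 588) (mv 622 (both (five 4 493 590) (mv 494 (both (five 5 461 462) (mv 428 (both (five 7 428 460) (mv 429 (both (five 7 396 396) (five 4 397 397))))))))))) (mv 462 (both (five 5 461 494) (five 5 429 430))))))))) (both (mv 493 (both (five 3 492 492) (mv 620 (both (five 6 492 588) (mv 621 (both (five 5 493 494) (five 6 524 652))))))) (mv 493 (both (five 3 492 492) (mv 621 (both (five 5 493 494) (mv 622 (both (five 4 493 590) (five 4 525 654)))))))))))))))) (both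 (mv 527 (both (mv 496 (both (five 1 493 497) (mv 464 (both (mv 432 (both (five 6 431 559) (mv 433 (both (five 5 400 401) (mv 560 (both (five 5 432 465) (five 0 525 561))))))) (both (mv 432 (both (five 6 431 559) (mv 399 (both (five 7 399 431) (mv 400 (both (five 7 367 367) (mv 401 (both (five 5 368 369) (five 5 400 433))))))))) (both (mv 560 (both (five 0 525 561) (mv 431 (both (five 7 431 463) (mv 432 (both (five 7 399 399) (mv 433 (both (five 5 400 401) (five 5 432 465))))))))) (both (mv 493 (both (five 3 492 492) (mv 560 (both (five 0 525 561) (mv 431 (both (five 7 431 463) (mv 433 (both (five 5 432 465) (mv 591 (both (five 6 463 559) (mv 592 (both (five 6 495 623) (mv 625 (both (five 4 496 593) (mv 624 (both (five 4 528 657) (mv 590 (both (five 0 589 589) (mv 558 (both (five 7 493 622) (mv 461 (both (five 4 429 429) (five 7 461 494))))))))))))))))))))))) (mv 432 (both (five 6 431 559) (mv 431 (both (five 7 399 399) (mv 560 (both (five 7 431 463) (five 0 525 561)))))))))))))) (both (mv 496 (both (five 1 493 497) (mv 464 (both (mv 560 (both (five 0 525 561) (mv 431 (both (five 7 431 463) (mv 432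 (both (five 7 399 399) (mv 433 (both (five 5 400 401) (five 5 432 465))))))))) (both (mv 432 (both (five 6 431 559) (mv 399 (both (five 7 399 431) (mv 400 (both (five 7 367 367) (mv 401 (both (five 5 368 369) (five 5 400 433))))))))) (both (mv 557 (both (five 2 524 556) (mv 560 (both (five 0 525 561) (mv 431 (both (five 7 431 463) (mv 433 (both (five 5 432 465) (mv 591 (both (five 6 463 559) (mv 592 (both (five 6 495 623) (mv 593 (both (five 4 496 625) (mv 590 (both (five 3 557 558) (mv 621 (both (five 2 589 622) (mv 589 (both (five 5 493 494) (five 2 588 620))))))))))))))))))))) (both (mv 432 (both (five 6 431 559) (mv 433 (both (five 5 400 401) (mv 560 (both (five 5 432 465) (five 0 525 561))))))) (mv 432 (both (five 6 431 559) (mv 431 (both (five 7 399 399) (mv 560 (both (five 7 431 463) (five 0 525 561)))))))))))))) (both (mv 557 (both (five 2 524 556) (mv 589 (both (mv 621 (both (five 5 493 494) (mv 652 (both (five 6 524 620) (mv 653 (both (five 6 556 684) (mv 654 (both (five 4 557 686) (five 4 525 622))))))))) (both (mv 493 (both (five 3 492 492) (mv 620 (both (five 6 492 588) (mv 621 (both (five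 6 524 652) (mv 622 (both (five 4 493 590) (five 4 525 654))))))))) (both (mv 493 (both (five 3 492 492) (mv 461 (both (mv 428 (both (five 7 428 460) (mv 429 (both (five 7 396 396) (mv 430 (both (five 5 429 462) (five 5 397 398))))))) (both (mv 428 (both (five 7 428 460) (mv 429 (both (five 7 396 396) (mv 397 (both (five 4 397 494) (mv 398 (both (five 5 397 430) (five 5 365 366))))))))) (both (mv 620 (both (five 6 492 588) (mv 622 (both (five 4 493 590) (mv 494 (both (five 5 461 462) (mv 428 (both (five 7 428 460) (mv 429 (both (five 7 396 396) (five 4 397 397))))))))))) (mv 462 (both (five 5 461 494) (five 5 429 430))))))))) (both (mv 493 (both (five 3 492 492) (mv 620 (both (five 6 492 588) (mv 621 (both (five 5 493 494) (five 6 524 652))))))) (mv 493 (both (five 3 492 492) (mv 621 (both (five 5 493 494) (mv 622 (both (five 4 493 590) (five 4 525 654)))))))))))))) (both (mv 493 (both (five 3 492 492) (mv 461 (both (mv 558 (both (five 4 429 429) (mv 590 (both (five 4 461 557) (five 7 493 622))))) (both (mv 429 (both (five 4 429 558) (mv 396 (both (five 7 396 428) (mv 397 (both (five 7 364 364) (mv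 398 (both (five 5 365 366) (five 5 397 430))))))))) (both (mv 557 (both (five 2 524 556) (mv 428 (both (five 7 428 460) (mv 429 (both (five 7 396 396) (mv 430 (both (five 5 429 462) (five 5 397 398))))))))) (mv 557 (both (five 2 524 556) (mv 589 (both (mv 620 (both (five 6 492 588) (mv 621 (both (five 6 524 652) (mv 622 (both (five 4 493 590) (five 4 525 654))))))) (both (mv 620 (both (five 6 492 588) (mv 621 (both (five 6 524 652) (mv 653 (both (five 5 525 558) (mv 654 (both (five 4 525 622) (five 4 557 686))))))))) (both (mv 428 (both (five 7 428 460) (mv 430 (both (five 5 429 462) (mv 558 (both (five 4 461 590) (mv 620 (both (five 6 492 588) (mv 621 (both (five 6 524 652) (five 5 525 653))))))))))) (mv 590 (both (five 4 461 558) (five 4 493 622))))))))))))))) (mv 496 (both (five 1 493 497) (mv 464 (both (mv 432 (both (five 6 431 559) (mv 433 (both (five 5 400 401) (mv 560 (both (five 5 432 465) (five 0 525 561))))))) (both (mv 432 (both (five 6 431 559) (mv 399 (both (five 7 399 431) (mv 400 (both (five 7 367 367) (mv 401 (both (five 5 368 369) (five 5 400 433))))))))) (both (mv 493 (both (five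 3 492 492) (mv 556 (both (five 2 524 557) (mv 560 (both (five 0 525 561) (mv 463 (both (five 7 431 431) (mv 465 (both (five 5 432 433) (mv 462 (both (five 2 461 494) (mv 429 (both (five 3 429 430) (mv 461 (both (five 4 429 558) (five 3 428 428))))))))))))))))) (mv 432 (both (five 6 431 559) (mv 431 (both (five 7 399 399) (mv 560 (both (five 7 431 463) (five 0 525 561)))))))))))))))))) (both (mv 527 (both (mv 560 (both (five 0 525 561) (mv 592 (both (mv 624 (both (five 7 495 495) (mv 625 (both (five 4 528 657) (mv 496 (both (five 4 496 593) (five 1 493 497))))))) (both (mv 624 (both (five 7 495 495) (mv 655 (both (five 6 527 623) (mv 656 (both (five 6 559 687) (mv 657 (both (five 4 560 689) (five 4 528 625))))))))) (both (mv 496 (both (five 1 493 497) (mv 557 (both (five 2 524 556) (mv 591 (both (five 6 495 623) (mv 593 (both (five 4 496 625) (mv 590 (both (five 3 557 558) (mv 621 (both (five 2 589 622) (mv 589 (both (five 5 493 494) (five 2 588 620))))))))))))))) (mv 624 (both (five 7 495 495) (mv 623 (both (five 6 527 655) (mv 496 (both (five 6 495 591) (five 1 493 497))))))))))))) (both (mv 560 (both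 (five 0 525 561) (mv 592 (both (mv 496 (both (five 1 493 497) (mv 623 (both (five 6 495 591) (mv 624 (both (five 6 527 655) (mv 625 (both (five 4 528 657) (five 4 496 593))))))))) (both (mv 624 (both (five 7 495 495) (mv 655 (both (five 6 527 623) (mv 656 (both (five 6 559 687) (mv 657 (both (five 4 560 689) (five 4 528 625))))))))) (both (mv 493 (both (five 3 492 492) (mv 496 (both (five 1 493 497) (mv 623 (both (five 6 495 591) (mv 625 (both (five 4 496 593) (mv 463 (both (five 7 463 495) (mv 464 (both (five 7 431 431) (mv 465 (both (five 5 432 433) (mv 462 (both (five 2 461 494) (mv 429 (both (five 3 429 430) (mv 461 (both (five 4 429 558) (five 3 428 428))))))))))))))))))))) (both (mv 624 (both (five 7 495 495) (mv 625 (both (five 4 528 657) (mv 496 (both (five 4 496 593) (five 1 493 497))))))) (mv 624 (both (five 7 495 495) (mv 623 (both (five 6 527 655) (mv 496 (both (five 6 495 591) (five 1 493 497)))))))))))))) (both (mv 493 (both (five 3 492 492) (mv 461 (both (mv 558 (both (five 4 429 429) (mv 590 (both (five 4 461 557) (five 7 493 622))))) (both (mv 429 (both (five 4 429 558) (mv 396 (both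 (five 7 396 428) (mv 397 (both (five 7 364 364) (mv 398 (both (five 5 365 366) (five 5 397 430))))))))) (both (mv 557 (both (five 2 524 556) (mv 428 (both (five 7 428 460) (mv 429 (both (five 7 396 396) (mv 430 (both (five 5 429 462) (five 5 397 398))))))))) (mv 557 (both (five 2 524 556) (mv 589 (both (mv 620 (both (five 6 492 588) (mv 621 (both (five 6 524 652) (mv 622 (both (five 4 493 590) (five 4 525 654))))))) (both (mv 620 (both (five 6 492 588) (mv 621 (both (five 6 524 652) (mv 653 (both (five 5 525 558) (mv 654 (both (five 4 525 622) (five 4 557 686))))))))) (both (mv 428 (both (five 7 428 460) (mv 430 (both (five 5 429 462) (mv 558 (both (five 4 461 590) (mv 620 (both (five 6 492 588) (mv 621 (both (five 6 524 652) (five 5 525 653))))))))))) (mv 590 (both (five 4 461 558) (five 4 493 622))))))))))))))) (mv 557 (both (five 2 524 556) (mv 589 (both (mv 621 (both (five 5 493 494) (mv 652 (both (five 6 524 620) (mv 653 (both (five 6 556 684) (mv 654 (both (five 4 557 686) (five 4 525 622))))))))) (both (mv 493 (both (five 3 492 492) (mv 620 (both (five 6 492 588) (mv 621 (both (five 6 524 652)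 (mv 622 (both (five 4 493 590) (five 4 525 654))))))))) (both (mv 493 (both (five 3 492 492) (mv 461 (both (mv 428 (both (five 7 428 460) (mv 429 (both (five 7 396 396) (mv 430 (both (five 5 429 462) (five 5 397 398))))))) (both (mv 428 (both (five 7 428 460) (mv 429 (both (five 7 396 396) (mv 397 (both (five 4 397 494) (mv 398 (both (five 5 397 430) (five 5 365 366))))))))) (both (mv 620 (both (five 6 492 588) (mv 622 (both (five 4 493 590) (mv 494 (both (five 5 461 462) (mv 428 (both (five 7 428 460) (mv 429 (both (five 7 396 396) (five 4 397 397))))))))))) (mv 462 (both (five 5 461 494) (five 5 429 430))))))))) (both (mv 493 (both (five 3 492 492) (mv 620 (both (five 6 492 588) (mv 621 (both (five 5 493 494) (five 6 524 652))))))) (mv 493 (both (five 3 492 492) (mv 621 (both (five 5 493 494) (mv 622 (both (five 4 493 590) (five 4 525 654)))))))))))))))))) (both (mv 527 (both (mv 496 (both (five 1 493 497) (mv 464 (both (mv 432 (both (five 6 431 559) (mv 399 (both (five 7 399 431) (mv 400 (both (five 7 367 367) (five 6 399 495))))))) (both (mv 560 (both (five 0 525 561) (mv 433 (both (five 5 432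 465) (mv 432 (both (five 5 400 401) (mv 399 (both (five 7 399 431) (mv 400 (both (five 7 367 367) (five 6 399 495))))))))))) (both (mv 560 (both (five 0 525 561) (mv 591 (both (five 6 463 559) (mv 592 (both (five 6 495 623) (mv 624 (both (five 7 495 495) (mv 625 (both (five 4 496 593) (five 4 528 657))))))))))) (mv 432 (both (five 6 431 559) (mv 433 (both (five 5 400 401) (mv 560 (both (five 5 432 465) (five 0 525 561))))))))))))) (mv 493 (both (five 3 492 492) (mv 461 (both (mv 429 (both (five 4 429 558) (mv 396 (both (five 7 396 428) (mv 397 (both (five 7 364 364) (five 4 397 494))))))) (both (mv 557 (both (five 2 524 556) (mv 462 (both (five 5 429 430) (mv 589 (both (five 5 461 494) (mv 620 (both (five 6 492 588) (mv 621 (both (five 6 524 652) (mv 653 (both (five 5 525 558) (mv 654 (both (five 4 525 622) (five 4 557 686))))))))))))))) (mv 557 (both (five 2 524 556) (mv 428 (both (five 7 428 460) (mv 429 (both (five 7 396 396) (mv 430 (both (five 5 429 462) (five 5 397 398)))))))))))))))) (both (mv 527 (both (mv 557 (both (five 2 524 556) (mv 589 (both (mv 621 (both (five 5 493 494) (mv 652 (both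 (five 6 524 620) (mv 653 (both (five 6 556 684) (five 5 525 558))))))) (both (mv 493 (both (five 3 492 492) (mv 620 (both (five 6 492 588) (mv 621 (both (five 6 524 652) (mv 622 (both (five 4 493 590) (five 4 525 654))))))))) (both (mv 493 (both (five 3 492 492) (mv 560 (both (five 0 525 561) (mv 588 (both (five 6 492 620) (mv 590 (both (five 4 493 622) (mv 559 (both (five 1 556 591) (five 2 556 558))))))))))) (mv 621 (both (five 5 493 494) (mv 653 (both (five 5 525 558) (mv 654 (both (five 4 557 686) (five 4 525 622))))))))))))) (both (mv 494 (both (mv 559 (both (mv 462 (both (five 4 430 430) (mv 493 (both (five 3 492 492) (mv 496 (both (five 1 493 497) (mv 464 (both (five 6 431 432) (mv 465 (both (five 2 461 463) (five 1 461 495))))))))))) (both (mv 496 (both (five 1 493 497) (mv 464 (both (five 6 431 432) (mv 591 (both (five 5 463 495) (five 7 494 623))))))) (mv 462 (both (five 4 430 430) (mv 591 (both (five 4 462 558) (five 7 494 623)))))))) (both (mv 557 (both (five 2 524 556) (mv 589 (both (five 5 493 621) (mv 462 (both (five 6 461 558) (five 6 429 430))))))) (both (mv 559 (both (mv 496 (both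 (five 1 493 497) (mv 464 (both (five 6 431 432) (mv 591 (both (five 5 463 495) (five 7 494 623))))))) (both (mv 493 (both (five 3 492 492) (mv 557 (both (five 2 524 556) (mv 589 (both (five 5 493 621) (mv 588 (both (five 6 492 620) (mv 590 (both (five 4 493 622) (mv 558 (both (five 1 555 587) (mv 495 (both (five 5 462 463) (mv 591 (both (five 7 494 623) (mv 592 (both (five 3 557 593) (five 4 495 624))))))))))))))))))) (mv 493 (both (five 3 492 492) (mv 496 (both (five 1 493 497) (mv 432 (both (five 6 431 464) (mv 557 (both (five 2 524 556) (mv 589 (both (five 5 493 621) (mv 588 (both (five 6 492 620) (mv 590 (both (five 4 493 622) (mv 587 (both (five 1 555 558) (mv 554 (both (five 3 554 555) (mv 586 (both (five 3 553 553) (mv 618 (both (five 2 585 617) (five 2 586 619)))))))))))))))))))))))))) (mv 493 (both (five 3 492 492) (mv 496 (both (five 1 493 497) (mv 557 (both (five 2 524 556) (mv 462 (both (five 6 429 430) (five 5 461 589))))))))))))) (both (mv 560 (both (five 0 525 561) (mv 592 (both (mv 624 (both (five 7 495 495) (mv 625 (both (five 4 528 657) (mv 496 (both (five 4 496 593) (five 1 493 497)))))))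 (both (mv 624 (both (five 7 495 495) (mv 655 (both (five 6 527 623) (mv 656 (both (five 6 559 687) (mv 657 (both (five 4 560 689) (five 4 528 625))))))))) (both (mv 496 (both (five 1 493 497) (mv 557 (both (five 2 524 556) (mv 591 (both (five 6 495 623) (mv 593 (both (five 4 496 625) (mv 590 (both (five 3 557 558) (mv 621 (both (five 2 589 622) (mv 589 (both (five 5 493 494) (five 2 588 620))))))))))))))) (mv 624 (both (five 7 495 495) (mv 623 (both (five 6 527 655) (mv 496 (both (five 6 495 591) (five 1 493 497))))))))))))) (mv 560 (both (five 0 525 561) (mv 592 (both (mv 624 (both (five 7 495 495) (mv 655 (both (five 6 527 623) (mv 656 (both (five 6 559 687) (five 7 527 559))))))) (both (mv 496 (both (five 1 493 497) (mv 625 (both (five 4 496 593) (mv 624 (both (five 4 528 657) (mv 655 (both (five 6 527 623) (mv 656 (both (five 6 559 687) (five 7 527 559))))))))))) (both (mv 496 (both (five 1 493 497) (mv 463 (both (five 7 463 495) (mv 464 (both (five 7 431 431) (mv 432 (both (five 6 431 559) (mv 433 (both (five 5 432 465) (five 5 400 401))))))))))) (mv 624 (both (five 7 495 495) (mv 625 (both (five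 4 528 657) (mv 496 (both (five 4 496 593) (five 1 493 497))))))))))))))))) (both (mv 527 (both (mv 496 (both (five 1 493 497) (mv 464 (both (mv 432 (both (five 6 431 559) (mv 399 (both (five 7 399 431) (mv 400 (both (five 7 367 367) (five 6 399 495))))))) (both (mv 560 (both (five 0 525 561) (mv 433 (both (five 5 432 465) (mv 432 (both (five 5 400 401) (mv 399 (both (five 7 399 431) (mv 400 (both (five 7 367 367) (five 6 399 495))))))))))) (both (mv 560 (both (five 0 525 561) (mv 591 (both (five 6 463 559) (mv 592 (both (five 6 495 623) (mv 624 (both (five 7 495 495) (mv 625 (both (five 4 496 593) (five 4 528 657))))))))))) (mv 432 (both (five 6 431 559) (mv 433 (both (five 5 400 401) (mv 560 (both (five 5 432 465) (five 0 525 561))))))))))))) (both (mv 558 (both (mv 495 (both (mv 557 (both (five 2 524 556) (mv 560 (both (five 0 525 561) (mv 590 (both (five 5 494 622) (mv 592 (both (five 7 495 624) (mv 593 (both (five 0 557 559) (five 3 557 591))))))))))) (both (mv 463 (both (five 6 430 431) (mv 556 (both (five 2 524 557) (mv 560 (both (five 0 525 561) (mv 592 (both (five 4 463 559) (five 7 495 624)))))))))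 (mv 463 (both (five 6 430 431) (mv 590 (both (five 5 462 494) (five 5 494 622)))))))) (both (mv 493 (both (five 3 492 492) (mv 461 (both (five 4 429 429) (mv 590 (both (five 7 461 494) (five 7 493 622))))))) (both (mv 495 (both (mv 493 (both (five 3 492 492) (mv 461 (both (five 4 429 429) (mv 557 (both (five 2 524 556) (mv 460 (both (five 7 428 428) (mv 462 (both (five 5 429 430) (mv 459 (both (five 0 459 494) (mv 426 (both (five 3 426 427) (mv 458 (both (five 3 425 425) (mv 490 (both (five 2 457 489) (five 2 458 491))))))))))))))))))) (mv 463 (both (five 6 430 431) (mv 560 (both (five 0 525 561) (mv 592 (both (five 4 463 559) (five 7 495 624))))))))) (mv 493 (both (five 3 492 492) (mv 461 (both (five 4 429 429) (mv 590 (both (five 4 461 557) (five 7 493 622))))))))))) (both (mv 493 (both (five 3 492 492) (mv 461 (both (mv 558 (both (five 4 429 429) (mv 590 (both (five 4 461 557) (five 7 493 622))))) (both (mv 558 (both (five 4 429 429) (mv 590 (both (five 7 461 494) (five 7 493 622))))) (mv 496 (both (five 1 493 497) (mv 557 (both (five 2 524 556) (mv 460 (both (five 7 428 428) (mv 462 (both (five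 5 429 430) (mv 495 (both (five 0 460 463) (five 3 460 494)))))))))))))))) (mv 496 (both (five 1 493 497) (mv 464 (both (mv 432 (both (five 6 431 559) (mv 433 (both (five 5 400 401) (mv 560 (both (five 5 432 465) (five 0 525 561))))))) (both (mv 432 (both (five 6 431 559) (mv 399 (both (five 7 399 431) (mv 400 (both (five 7 367 367) (mv 401 (both (five 5 368 369) (five 5 400 433))))))))) (both (mv 493 (both (five 3 492 492) (mv 556 (both (five 2 524 557) (mv 560 (both (five 0 525 561) (mv 463 (both (five 7 431 431) (mv 465 (both (five 5 432 433) (mv 462 (both (five 2 461 494) (mv 429 (both (five 3 429 430) (mv 461 (both (five 4 429 558) (five 3 428 428))))))))))))))))) (mv 432 (both (five 6 431 559) (mv 431 (both (five 7 399 399) (mv 560 (both (five 7 431 463) (five 0 525 561))))))))))))))))) (both (mv 527 (both (mv 557 (both (five 2 524 556) (mv 589 (both (mv 621 (both (five 5 493 494) (mv 652 (both (five 6 524 620) (mv 653 (both (five 6 556 684) (five 5 525 558))))))) (both (mv 493 (both (five 3 492 492) (mv 620 (both (five 6 492 588) (mv 621 (both (five 6 524 652) (mv 622 (both (five 4 493 590) (five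 4 525 654))))))))) (both (mv 493 (both (five 3 492 492) (mv 560 (both (five 0 525 561) (mv 588 (both (five 6 492 620) (mv 590 (both (five 4 493 622) (mv 559 (both (five 1 556 591) (five 2 556 558))))))))))) (mv 621 (both (five 5 493 494) (mv 653 (both (five 5 525 558) (mv 654 (both (five 4 557 686) (five 4 525 622))))))))))))) (both (mv 493 (both (five 3 492 492) (mv 461 (both (mv 558 (both (five 4 429 429) (mv 590 (both (five 4 461 557) (five 7 493 622))))) (both (mv 558 (both (five 4 429 429) (mv 590 (both (five 7 461 494) (five 7 493 622))))) (both (mv 496 (both (five 1 493 497) (mv 557 (both (five 2 524 556) (mv 428 (both (five 7 428 460) (mv 429 (both (five 7 396 396) (mv 494 (both (five 4 397 397) (mv 589 (both (five 5 461 462) (five 5 493 621))))))))))))) (mv 557 (both (five 2 524 556) (mv 590 (both (five 4 461 558) (mv 589 (both (five 4 493 622) (mv 620 (both (five 6 492 588) (mv 621 (both (five 5 493 494) (five 6 524 652))))))))))))))))) (mv 496 (both (five 1 493 497) (mv 464 (both (mv 432 (both (five 6 431 559) (mv 399 (both (five 7 399 431) (mv 400 (both (five 7 367 367) (five 6 399 495)))))))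 (both (mv 560 (both (five 0 525 561) (mv 433 (both (five 5 432 465) (mv 432 (both (five 5 400 401) (mv 399 (both (five 7 399 431) (mv 400 (both (five 7 367 367) (five 6 399 495))))))))))) (both (mv 560 (both (five 0 525 561) (mv 591 (both (five 6 463 559) (mv 592 (both (five 6 495 623) (mv 624 (both (five 7 495 495) (mv 625 (both (five 4 496 593) (five 4 528 657))))))))))) (mv 432 (both (five 6 431 559) (mv 433 (both (five 5 400 401) (mv 560 (both (five 5 432 465) (five 0 525 561)))))))))))))))) (both (mv 527 (both (mv 496 (both (five 1 493 497) (mv 464 (both (mv 432 (both (five 6 431 559) (mv 399 (both (five 7 399 431) (mv 400 (both (five 7 367 367) (five 6 399 495))))))) (both (mv 560 (both (five 0 525 561) (mv 433 (both (five 5 432 465) (mv 432 (both (five 5 400 401) (mv 399 (both (five 7 399 431) (mv 400 (both (five 7 367 367) (five 6 399 495))))))))))) (both (mv 560 (both (five 0 525 561) (mv 591 (both (five 6 463 559) (mv 592 (both (five 6 495 623) (mv 624 (both (five 7 495 495) (mv 625 (both (five 4 496 593) (five 4 528 657))))))))))) (mv 432 (both (five 6 431 559) (mv 433 (both (five 5 400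 401) (mv 560 (both (five 5 432 465) (five 0 525 561))))))))))))) (both (mv 493 (both (five 3 492 492) (mv 461 (both (mv 429 (both (five 4 429 558) (mv 396 (both (five 7 396 428) (mv 397 (both (five 7 364 364) (five 4 397 494))))))) (both (mv 557 (both (five 2 524 556) (mv 428 (both (five 7 428 460) (mv 462 (both (five 5 429 430) (mv 494 (both (five 5 461 589) (mv 558 (both (five 7 461 590) (mv 559 (both (five 4 462 591) (mv 560 (both (five 0 525 561) (mv 592 (both (five 0 557 593) (mv 624 (both (five 7 495 495) (mv 655 (both (five 6 527 623) (mv 656 (both (five 6 559 687) (mv 657 (both (five 4 560 689) (five 4 528 625))))))))))))))))))))))))) (both (mv 557 (both (five 2 524 556) (mv 428 (both (five 7 428 460) (mv 429 (both (five 7 396 396) (mv 430 (both (five 5 429 462) (five 5 397 398))))))))) (mv 429 (both (five 4 429 558) (mv 397 (both (five 4 397 494) (mv 398 (both (five 5 365 366) (five 5 397 430))))))))))))) (both (mv 493 (both (five 3 492 492) (mv 461 (both (mv 429 (both (five 4 429 558) (mv 396 (both (five 7 396 428) (mv 397 (both (five 7 364 364) (five 4 397 494))))))) (both (mv 496 (both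 (five 1 493 497) (mv 557 (both (five 2 524 556) (mv 460 (both (five 7 428 428) (mv 462 (both (five 5 429 430) (mv 495 (both (five 0 460 463) (five 3 460 494))))))))))) (both (mv 429 (both (five 4 429 558) (mv 396 (both (five 7 396 428) (mv 397 (both (five 7 364 364) (mv 398 (both (five 5 365 366) (five 5 397 430))))))))) (mv 429 (both (five 4 429 558) (mv 397 (both (five 4 397 494) (mv 398 (both (five 5 365 366) (five 5 397 430))))))))))))) (mv 496 (both (five 1 493 497) (mv 464 (both (mv 432 (both (five 6 431 559) (mv 433 (both (five 5 400 401) (mv 560 (both (five 5 432 465) (five 0 525 561))))))) (both (mv 432 (both (five 6 431 559) (mv 399 (both (five 7 399 431) (mv 400 (both (five 7 367 367) (mv 401 (both (five 5 368 369) (five 5 400 433))))))))) (both (mv 493 (both (five 3 492 492) (mv 556 (both (five 2 524 557) (mv 560 (both (five 0 525 561) (mv 463 (both (five 7 431 431) (mv 465 (both (five 5 432 433) (mv 462 (both (five 2 461 494) (mv 429 (both (five 3 429 430) (mv 461 (both (five 4 429 558) (five 3 428 428))))))))))))))))) (mv 432 (both (five 6 431 559) (mv 431 (both (five 7 399 399) (mv 560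 (both (five 7 431 463) (five 0 525 561))))))))))))))))) (both (mv 527 (both (mv 493 (both (five 3 492 492) (mv 461 (both (mv 558 (both (five 4 429 429) (mv 590 (both (five 4 461 557) (five 7 493 622))))) (both (mv 558 (both (five 4 429 429) (mv 590 (both (five 7 461 494) (five 7 493 622))))) (mv 496 (both (five 1 493 497) (mv 557 (both (five 2 524 556) (mv 460 (both (five 7 428 428) (mv 462 (both (five 5 429 430) (mv 495 (both (five 0 460 463) (five 3 460 494)))))))))))))))) (both (mv 496 (both (five 1 493 497) (mv 464 (both (mv 432 (both (five 6 431 559) (mv 400 (both (five 6 399 495) (mv 401 (both (five 5 368 369) (five 5 400 433))))))) (both (mv 560 (both (five 0 525 561) (mv 433 (both (five 5 432 465) (mv 432 (both (five 5 400 401) (mv 495 (both (five 6 399 400) (mv 592 (both (five 7 463 463) (five 7 495 624))))))))))) (both (mv 560 (both (five 0 525 561) (mv 591 (both (five 6 463 559) (mv 592 (both (five 6 495 623) (mv 624 (both (five 7 495 495) (mv 625 (both (five 4 496 593) (five 4 528 657))))))))))) (mv 432 (both (five 6 431 559) (mv 433 (both (five 5 400 401) (mv 560 (both (five 5 432 465)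 (five 0 525 561))))))))))))) (mv 557 (both (five 2 524 556) (mv 589 (both (mv 621 (both (five 5 493 494) (mv 652 (both (five 6 524 620) (mv 653 (both (five 6 556 684) (five 5 525 558))))))) (both (mv 493 (both (five 3 492 492) (mv 620 (both (five 6 492 588) (mv 621 (both (five 6 524 652) (mv 622 (both (five 4 493 590) (five 4 525 654))))))))) (both (mv 493 (both (five 3 492 492) (mv 560 (both (five 0 525 561) (mv 588 (both (five 6 492 620) (mv 590 (both (five 4 493 622) (mv 559 (both (five 1 556 591) (five 2 556 558))))))))))) (mv 621 (both (five 5 493 494) (mv 653 (both (five 5 525 558) (mv 654 (both (five 4 557 686) (five 4 525 622)))))))))))))))) (both (mv 527 (both (mv 560 (both (five 0 525 561) (mv 592 (both (mv 624 (both (five 7 495 495) (mv 655 (both (five 6 527 623) (mv 656 (both (five 6 559 687) (five 7 527 559))))))) (both (mv 496 (both (five 1 493 497) (mv 625 (both (five 4 496 593) (mv 624 (both (five 4 528 657) (mv 655 (both (five 6 527 623) (mv 656 (both (five 6 559 687) (five 7 527 559))))))))))) (both (mv 496 (both (five 1 493 497) (mv 463 (both (five 7 463 495) (mv 464 (both (five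 7 431 431) (mv 432 (both (five 6 431 559) (mv 433 (both (five 5 432 465) (five 5 400 401))))))))))) (mv 624 (both (five 7 495 495) (mv 625 (both (five 4 528 657) (mv 496 (both (five 4 496 593) (five 1 493 497))))))))))))) (mv 493 (both (five 3 492 492) (mv 461 (both (mv 558 (both (five 4 429 429) (mv 590 (both (five 4 461 557) (five 7 493 622))))) (both (mv 429 (both (mv 396 (both (five 7 396 428) (mv 397 (both (five 7 364 364) (five 4 397 494))))) (both (mv 398 (both (five 5 397 430) (mv 428 (both (five 7 396 396) (mv 557 (both (five 7 428 460) (mv 588 (both (five 6 460 556) (mv 589 (both (five 6 492 620) (mv 621 (both (five 5 493 494) (mv 622 (both (five 4 493 590) (five 4 525 654))))))))))))))) (both (mv 397 (both (five 4 397 494) (mv 398 (both (five 5 365 366) (five 5 397 430))))) (mv 396 (both (five 7 396 428) (mv 397 (both (five 7 364 364) (mv 398 (both (five 5 365 366) (five 5 397 430))))))))))) (both (mv 557 (both (five 2 524 556) (mv 590 (both (five 4 461 558) (mv 589 (both (five 4 493 622) (mv 620 (both (five 6 492 588) (mv 621 (both (five 5 493 494) (five 6 524 652))))))))))) (mv 429 (both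 (five 4 429 558) (mv 396 (both (five 7 396 428) (mv 397 (both (five 7 364 364) (five 4 397 494))))))))))))))) (mv 527 (both (mv 496 (both (five 1 493 497) (mv 464 (both (mv 432 (both (five 6 431 559) (mv 399 (both (five 7 399 431) (mv 400 (both (five 7 367 367) (five 6 399 495))))))) (both (mv 560 (both (five 0 525 561) (mv 433 (both (five 5 432 465) (mv 463 (both (five 7 431 431) (mv 495 (both (five 7 463 592) (mv 559 (both (five 5 463 591) (mv 462 (both (five 7 430 430) (mv 461 (both (five 0 460 460) (mv 429 (both (five 3 428 428) (mv 558 (both (five 7 429 494) (five 6 462 590))))))))))))))))))) (both (mv 560 (both (five 0 525 561) (mv 431 (both (five 7 431 463) (mv 432 (both (five 7 399 399) (mv 433 (both (five 5 400 401) (five 5 432 465))))))))) (mv 432 (both (five 6 431 559) (mv 400 (both (five 6 399 495) (mv 401 (both (five 5 368 369) (five 5 400 433))))))))))))) (both (mv 557 (both (five 2 524 556) (mv 589 (both (mv 621 (both (five 5 493 494) (mv 652 (both (five 6 524 620) (mv 653 (both (five 6 556 684) (five 5 525 558))))))) (both (mv 493 (both (five 3 492 492) (mv 620 (both (five 6 492 588)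 (mv 621 (both (five 6 524 652) (mv 622 (both (five 4 493 590) (five 4 525 654))))))))) (both (mv 493 (both (five 3 492 492) (mv 560 (both (five 0 525 561) (mv 588 (both (five 6 492 620) (mv 590 (both (five 4 493 622) (mv 559 (both (five 1 556 591) (five 2 556 558))))))))))) (mv 621 (both (five 5 493 494) (mv 653 (both (five 5 525 558) (mv 654 (both (five 4 557 686) (five 4 525 622))))))))))))) (both (mv 557 (both (five 2 524 556) (mv 589 (both (mv 621 (both (five 5 493 494) (mv 652 (both (five 6 524 620) (mv 653 (both (five 6 556 684) (mv 654 (both (five 4 557 686) (five 4 525 622))))))))) (both (mv 493 (both (five 3 492 492) (mv 620 (both (five 6 492 588) (mv 621 (both (five 6 524 652) (mv 622 (both (five 4 493 590) (five 4 525 654))))))))) (both (mv 493 (both (five 3 492 492) (mv 461 (both (mv 428 (both (five 7 428 460) (mv 429 (both (five 7 396 396) (mv 430 (both (five 5 429 462) (five 5 397 398))))))) (both (mv 428 (both (five 7 428 460) (mv 429 (both (five 7 396 396) (mv 397 (both (five 4 397 494) (mv 398 (both (five 5 397 430) (five 5 365 366))))))))) (both (mv 620 (both (five 6 492 588) (mv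 622 (both (five 4 493 590) (mv 494 (both (five 5 461 462) (mv 428 (both (five 7 428 460) (mv 429 (both (five 7 396 396) (five 4 397 397))))))))))) (mv 462 (both (five 5 461 494) (five 5 429 430))))))))) (both (mv 493 (both (five 3 492 492) (mv 620 (both (five 6 492 588) (mv 621 (both (five 5 493 494) (five 6 524 652))))))) (mv 493 (both (five 3 492 492) (mv 621 (both (five 5 493 494) (mv 622 (both (five 4 493 590) (five 4 525 654)))))))))))))) (both (mv 493 (both (five 3 492 492) (mv 461 (both (mv 558 (both (five 4 429 429) (mv 590 (both (five 4 461 557) (five 7 493 622))))) (both (mv 429 (both (five 4 429 558) (mv 396 (both (five 7 396 428) (mv 397 (both (five 7 364 364) (mv 398 (both (five 5 365 366) (five 5 397 430))))))))) (both (mv 557 (both (five 2 524 556) (mv 428 (both (five 7 428 460) (mv 429 (both (five 7 396 396) (mv 430 (both (five 5 429 462) (five 5 397 398))))))))) (mv 557 (both (five 2 524 556) (mv 589 (both (mv 620 (both (five 6 492 588) (mv 621 (both (five 6 524 652) (mv 622 (both (five 4 493 590) (five 4 525 654))))))) (both (mv 620 (both (five 6 492 588) (mv 621 (both (five 6 524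 652) (mv 653 (both (five 5 525 558) (mv 654 (both (five 4 525 622) (five 4 557 686))))))))) (both (mv 428 (both (five 7 428 460) (mv 430 (both (five 5 429 462) (mv 558 (both (five 4 461 590) (mv 620 (both (five 6 492 588) (mv 621 (both (five 6 524 652) (five 5 525 653))))))))))) (mv 590 (both (five 4 461 558) (five 4 493 622))))))))))))))) (mv 493 (both (five 3 492 492) (mv 461 (both (mv 429 (both (five 4 429 558) (mv 396 (both (five 7 396 428) (mv 397 (both (five 7 364 364) (five 4 397 494))))))) (both (mv 496 (both (five 1 493 497) (mv 557 (both (five 2 524 556) (mv 460 (both (five 7 428 428) (mv 462 (both (five 5 429 430) (mv 495 (both (five 0 460 463) (five 3 460 494))))))))))) (both (mv 429 (both (five 4 429 558) (mv 396 (both (five 7 396 428) (mv 397 (both (five 7 364 364) (mv 398 (both (five 5 365 366) (five 5 397 430))))))))) (mv 429 (both (five 4 429 558) (mv 397 (both (five 4 397 494) (mv 398 (both (five 5 365 366) (five 5 397 430))))))))))))))))))))))))))))))))))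

theorem L81 : W (S 988530863058807798957393715067720623286798683220635978952802738122718218409262471505648588255249455916730668840373243557345566271959196709010660073920568229888) (S 3772375296782393906496323756350054124225904434425142799418776808438592399195576576204165476879000811965996811837044612617544934214647881180581615559902685866486293514375805036360041001531797031878081816559616) :=
  check_sound (Env.cons L80 Env.nil) (x := 526) (t := tL81) (by decide +kernel)

def tL82 : T :=
  (both (mv 464 (both (mv 432 (both (five 6 431 559) (mv 399 (both (five 7 399 431) (mv 400 (both (five 7 367 367) (mv 401 (both (five 5 368 369) (five 5 400 433))))))))) (both (mv 560 (both (mv 591 (both (five 6 463 559) (mv 592 (both (five 6 495 623) (mv 593 (both (five 4 464 561) (five 4 496 625))))))) (mv 463 (both (five 7 431 431) (mv 465 (both (five 5 432 433) (mv 462 (both (five 2 461 494) (mv 497 (both (five 0 461 461) (five 0 462 498))))))))))) (both (mv 432 (both (mv 399 (both (five 7 399 431) (mv 400 (both (five 7 367 367) (mv 401 (both (five 5 368 369) (five 5 400 433))))))) (both (mv 400 (both (mv 401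 (both (five 5 368 369) (five 5 400 433))) (both (mv 367 (both (five 7 367 399) (mv 368 (both (five 7 335 335) (mv 337 (both (five 5 336 369) (mv 336 (both (five 5 304 305) (mv 465 (both (five 4 336 433) (five 4 368 497))))))))))) (both (mv 367 (both (five 7 367 399) (mv 368 (both (five 7 335 335) (mv 369 (both (five 5 336 337) (five 5 368 401))))))) (mv 367 (both (five 7 367 399) (mv 368 (both (five 7 335 335) (mv 433 (both (five 5 400 401) (mv 465 (both (five 4 336 336) (five 4 368 497))))))))))))) (both (mv 431 (both (five 7 399 399) (mv 430 (both (mv 429 (both (five 0 429 465) (mv 461 (both (five 5 397 398) (five 2 428 460))))) (both (mv 463 (both (five 7 431 560) (mv 465 (both (five 3 430 466) (mv 462 (both (five 2 461 494) (mv 497 (both (five 0 461 461) (five 0 462 498))))))))) (both (mv 463 (both (five 7 431 560) (mv 429 (both (five 0 428 428) (mv 461 (both (five 5 397 398) (five 2 428 460))))))) (mv 429 (both (five 0 429 465) (mv 463 (both (five 0 428 428) (five 7 431 560))))))))))) (mv 463 (both (mv 560 (both (five 7 431 431) (mv 593 (both (five 4 464 561) (mv 592 (both (five 4 496 625) (mv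 465 (both (five 5 464 497) (mv 462 (both (five 2 461 494) (mv 430 (both (five 3 429 429) (mv 557 (both (five 5 429 461) (mv 591 (both (five 6 495 623) (mv 590 (both (five 3 557 558) (mv 589 (both (five 3 556 556) (five 4 493 622))))))))))))))))))))) (both (mv 433 (both (five 5 400 401) (mv 434 (both (five 2 431 435) (mv 462 (both (five 2 430 431) (five 1 429 461))))))) (both (mv 433 (both (five 5 400 401) (mv 434 (both (five 2 431 435) (mv 462 (both (five 1 429 461) (five 1 430 465))))))) (mv 401 (both (five 5 400 433) (mv 400 (both (five 5 368 369) (mv 431 (both (five 7 431 560) (mv 368 (both (five 6 335 336) (mv 335 (both (five 7 335 367) (mv 402 (both (five 2 399 403) (mv 430 (both (five 1 397 429) (mv 465 (both (five 3 430 466) (five 4 368 497))))))))))))))))))))))))) (both (mv 432 (both (five 6 431 559) (mv 431 (both (five 7 399 399) (mv 430 (both (mv 429 (both (five 0 429 465) (mv 461 (both (five 5 397 398) (five 2 428 460))))) (both (mv 463 (both (five 7 431 560) (mv 465 (both (five 3 430 466) (mv 462 (both (five 2 461 494) (mv 497 (both (five 0 461 461) (five 0 462 498))))))))) (both (mv 463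 (both (five 7 431 560) (mv 429 (both (five 0 428 428) (mv 461 (both (five 5 397 398) (five 2 428 460))))))) (mv 429 (both (five 0 429 465) (mv 463 (both (five 0 428 428) (five 7 431 560))))))))))))) (mv 432 (both (five 6 431 559) (mv 400 (both (mv 401 (both (five 5 368 369) (five 5 400 433))) (both (mv 367 (both (five 7 367 399) (mv 368 (both (five 7 335 335) (mv 337 (both (five 5 336 369) (mv 336 (both (five 5 304 305) (mv 465 (both (five 4 336 433) (five 4 368 497))))))))))) (both (mv 367 (both (five 7 367 399) (mv 368 (both (five 7 335 335) (mv 369 (both (five 5 336 337) (five 5 368 401))))))) (mv 367 (both (five 7 367 399) (mv 368 (both (five 7 335 335) (mv 433 (both (five 5 400 401) (mv 465 (both (five 4 336 336) (five 4 368 497)))))))))))))))))))) (both (mv 495 (both (mv 494 (both (five 2 492 524) (mv 461 (both (five 3 460 460) (mv 462 (both (five 3 461 497) (mv 430 (both (five 4 398 398) (five 5 429 557))))))))) (both (mv 463 (both (mv 431 (both (five 4 399 399) (five 4 431 560))) (both (mv 431 (both (five 4 399 399) (mv 400 (both (five 5 399 432) (mv 430 (both (five 7 398 398) (mv 462 (both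 (five 7 430 559) (mv 461 (both (five 0 460 460) (five 5 429 557))))))))))) (mv 559 (both (mv 430 (both (five 7 430 462) (mv 590 (both (five 6 462 558) (mv 591 (both (five 6 494 622) (five 5 495 623))))))) (both (mv 430 (both (five 7 430 462) (mv 558 (both (five 6 462 590) (mv 557 (both (five 1 524 556) (mv 560 (both (five 3 524 524) (five 7 463 592))))))))) (mv 591 (both (five 5 495 623) (mv 592 (both (five 4 463 560) (five 4 495 624))))))))))) (both (mv 463 (both (mv 431 (both (five 4 399 399) (five 4 431 560))) (mv 559 (both (mv 590 (both (five 6 462 558) (mv 591 (both (five 6 494 622) (five 5 495 623))))) (mv 462 (both (five 7 430 430) (mv 461 (both (five 0 460 460) (mv 497 (both (five 3 461 494) (five 3 462 498))))))))))) (both (mv 463 (both (mv 431 (both (five 4 399 399) (five 4 431 560))) (both (mv 431 (both (five 4 399 399) (mv 400 (both (five 5 399 432) (mv 430 (both (five 7 398 398) (mv 494 (both (five 2 492 524) (mv 559 (both (five 7 430 462) (mv 590 (both (five 6 462 558) (mv 591 (both (five 6 494 622) (five 5 495 623))))))))))))))) (mv 559 (both (mv 430 (both (five 7 430 462) (mv 590 (both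 (five 6 462 558) (mv 591 (both (five 6 494 622) (five 5 495 623))))))) (both (mv 430 (both (five 7 430 462) (mv 558 (both (five 6 462 590) (mv 557 (both (five 1 524 556) (mv 560 (both (five 3 524 524) (five 7 463 592))))))))) (mv 591 (both (five 5 495 623) (mv 592 (both (five 4 463 560) (five 4 495 624))))))))))) (both (mv 463 (both (mv 431 (both (five 4 399 399) (five 4 431 560))) (both (mv 461 (both (mv 494 (both (five 3 460 460) (five 2 492 524))) (both (mv 431 (both (five 4 399 399) (mv 430 (both (five 7 398 398) (mv 432 (both (five 5 399 400) (mv 429 (both (five 2 428 460) (mv 396 (both (five 3 396 397) (five 7 396 428))))))))))) (mv 399 (both (five 4 399 431) (mv 524 (both (five 2 492 494) (mv 429 (both (five 6 428 556) (mv 396 (both (five 7 396 428) (mv 397 (both (five 7 364 364) (mv 398 (both (five 5 365 366) (five 5 397 430)))))))))))))))) (mv 559 (both (mv 591 (both (five 5 495 623) (mv 592 (both (five 4 463 560) (five 4 495 624))))) (both (mv 590 (both (five 6 462 558) (mv 591 (both (five 6 494 622) (five 5 495 623))))) (mv 558 (both (five 6 462 590) (mv 557 (both (five 1 524 556) (mv 560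 (both (five 3 524 524) (five 7 463 592))))))))))))) (mv 494 (both (five 2 492 524) (mv 461 (both (five 3 460 460) (mv 462 (both (five 3 461 497) (mv 557 (both (five 5 461 589) (mv 558 (both (five 4 461 590) (mv 559 (both (five 1 524 556) (five 7 462 591))))))))))))))))))) (both (mv 560 (both (mv 464 (both (mv 463 (both (five 7 431 431) (mv 465 (both (five 5 432 433) (mv 462 (both (five 2 461 494) (mv 497 (both (five 0 461 461) (five 0 462 498))))))))) (both (mv 433 (both (five 5 432 465) (mv 432 (both (five 5 400 401) (mv 495 (both (five 6 399 400) (mv 494 (both (five 2 492 524) (mv 461 (both (five 3 460 460) (mv 462 (both (five 3 461 497) (mv 430 (both (five 4 398 398) (five 5 429 557))))))))))))))) (both (mv 431 (both (five 7 431 463) (mv 432 (both (five 7 399 399) (mv 400 (both (five 6 399 495) (mv 401 (both (five 5 368 369) (five 5 400 433))))))))) (mv 431 (both (five 7 431 463) (mv 432 (both (five 7 399 399) (mv 495 (both (five 6 399 400) (mv 494 (both (five 2 492 524) (mv 461 (both (five 3 460 460) (mv 462 (both (five 3 461 497) (mv 430 (both (five 4 398 398) (five 5 429 557)))))))))))))))))))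 (both (mv 465 (both (mv 592 (both (five 5 464 497) (mv 623 (both (five 6 495 591) (mv 624 (both (five 6 527 655) (mv 625 (both (five 4 496 593) (five 4 528 657))))))))) (both (mv 464 (both (five 5 432 433) (mv 463 (both (five 7 431 431) (mv 462 (both (five 2 461 494) (mv 497 (both (five 0 461 461) (five 0 462 498))))))))) (mv 464 (both (five 5 432 433) (mv 463 (both (five 7 431 431) (mv 462 (both (five 2 461 494) (mv 430 (both (five 3 429 429) (mv 557 (both (five 5 429 461) (mv 593 (both (five 4 464 561) (mv 592 (both (five 4 496 625) (mv 591 (both (five 6 495 623) (mv 590 (both (five 3 557 558) (mv 589 (both (five 3 556 556) (five 4 493 622)))))))))))))))))))))))) (both (mv 592 (both (mv 623 (both (five 6 495 591) (mv 624 (both (five 6 527 655) (mv 625 (both (five 4 496 593) (five 4 528 657))))))) (mv 495 (both (five 7 463 463) (mv 494 (both (five 2 492 524) (mv 461 (both (five 3 460 460) (mv 462 (both (five 3 461 497) (mv 430 (both (five 4 398 398) (five 5 429 557))))))))))))) (both (mv 592 (both (mv 623 (both (five 6 495 591) (mv 624 (both (five 6 527 655) (mv 625 (both (five 4 496 593) (five 4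 528 657))))))) (both (mv 465 (both (five 5 464 497) (mv 464 (both (five 5 432 433) (mv 593 (both (five 4 464 561) (five 4 496 625))))))) (mv 495 (both (five 7 495 624) (mv 494 (both (five 2 492 524) (mv 461 (both (five 3 460 460) (mv 462 (both (five 3 461 497) (mv 430 (both (five 4 398 398) (five 5 429 557)))))))))))))) (mv 592 (both (mv 623 (both (five 6 495 591) (mv 624 (both (five 6 527 655) (mv 625 (both (five 4 496 593) (five 4 528 657))))))) (both (mv 463 (both (five 7 463 495) (mv 464 (both (five 7 431 431) (mv 593 (both (five 4 464 561) (five 4 496 625))))))) (mv 495 (both (five 7 463 463) (five 7 495 624))))))))))) (both (mv 495 (both (mv 494 (both (five 2 492 524) (mv 461 (both (five 3 460 460) (mv 462 (both (five 3 461 497) (mv 430 (both (five 4 398 398) (five 5 429 557))))))))) (both (mv 559 (both (mv 464 (both (five 6 431 432) (five 5 463 591))) (both (mv 591 (both (five 5 495 623) (mv 590 (both (five 6 494 622) (mv 463 (both (five 6 462 558) (mv 430 (both (five 7 430 462) (mv 431 (both (five 7 398 398) (five 4 399 399))))))))))) (mv 463 (both (mv 430 (both (five 7 430 462) (mv 431 (both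 (five 7 398 398) (five 4 399 399))))) (both (mv 462 (both (five 7 430 430) (mv 461 (both (five 0 460 460) (mv 464 (both (five 6 431 432) (five 0 461 497))))))) (mv 431 (both (five 4 399 399) (mv 432 (both (five 5 399 400) (five 5 431 464))))))))))) (mv 494 (both (five 2 492 524) (mv 464 (both (five 1 461 465) (mv 432 (both (five 6 431 559) (mv 399 (both (five 7 399 431) (mv 400 (both (five 7 367 367) (mv 401 (both (five 5 368 369) (five 5 400 433)))))))))))))))) (both (mv 464 (both (mv 432 (both (five 6 431 559) (mv 399 (both (five 7 399 431) (mv 400 (both (five 7 367 367) (five 6 399 495))))))) (both (mv 560 (both (mv 591 (both (five 6 463 559) (mv 592 (both (five 6 495 623) (mv 593 (both (five 4 464 561) (five 4 496 625))))))) (both (mv 465 (both (five 5 432 433) (mv 592 (both (five 5 464 497) (mv 593 (both (five 4 464 561) (five 4 496 625))))))) (both (mv 431 (both (five 7 431 463) (mv 465 (both (five 5 432 433) (mv 559 (both (five 6 463 591) (mv 561 (both (five 4 464 593) (mv 562 (both (five 3 527 563) (mv 530 (both (five 1 527 531) (mv 594 (both (five 0 559 595) (mv 498 (both (five 7 465 497)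 (mv 467 (both (five 5 466 499) (mv 466 (both (five 5 434 435) (five 2 463 495))))))))))))))))))))) (mv 465 (both (five 5 432 433) (mv 591 (both (five 6 463 559) (mv 592 (both (five 5 464 497) (five 6 495 623))))))))))) (both (mv 560 (both (mv 465 (both (five 5 432 433) (mv 592 (both (five 5 464 497) (mv 593 (both (five 4 464 561) (five 4 496 625))))))) (both (mv 431 (both (five 7 431 463) (mv 432 (both (five 7 399 399) (mv 400 (both (five 6 399 495) (mv 401 (both (five 5 368 369) (five 5 400 433))))))))) (mv 431 (both (five 7 431 463) (mv 399 (both (five 7 399 432) (mv 593 (both (five 4 464 561) (mv 592 (both (five 4 496 625) (mv 465 (both (five 5 464 497) (mv 623 (both (five 6 495 591) (mv 624 (both (five 7 495 495) (five 6 527 655)))))))))))))))))) (both (mv 432 (both (five 6 431 559) (mv 399 (both (five 7 399 431) (mv 400 (both (five 7 367 367) (mv 401 (both (five 5 368 369) (five 5 400 433))))))))) (mv 432 (both (five 6 431 559) (mv 400 (both (five 6 399 495) (mv 401 (both (five 5 368 369) (five 5 400 433)))))))))))) (both (mv 464 (both (mv 432 (both (five 6 431 559) (mv 399 (both (five 7 399 431)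 (mv 400 (both (five 7 367 367) (five 6 399 495))))))) (both (mv 560 (both (mv 591 (both (five 6 463 559) (mv 592 (both (five 6 495 623) (mv 593 (both (five 4 464 561) (five 4 496 625))))))) (mv 463 (both (five 7 431 431) (mv 465 (both (five 5 432 433) (mv 494 (both (five 2 461 462) (five 1 461 495))))))))) (both (mv 495 (both (mv 432 (both (five 6 399 400) (mv 399 (both (five 7 399 431) (mv 433 (both (five 5 400 401) (mv 560 (both (five 5 432 465) (mv 592 (both (five 7 463 463) (five 7 495 624))))))))))) (both (mv 494 (both (five 1 461 465) (five 2 492 524))) (mv 432 (both (five 6 399 400) (mv 399 (both (five 7 399 431) (mv 433 (both (five 5 400 401) (mv 494 (both (five 2 492 524) (mv 461 (both (five 3 460 460) (mv 462 (both (five 1 429 463) (mv 430 (both (five 4 398 398) (five 5 429 557)))))))))))))))))) (both (mv 432 (both (five 6 431 559) (mv 399 (both (five 7 399 431) (mv 400 (both (five 7 367 367) (mv 401 (both (five 5 368 369) (five 5 400 433))))))))) (mv 432 (both (five 6 431 559) (mv 400 (both (five 6 399 495) (mv 401 (both (five 5 368 369) (five 5 400 433)))))))))))) (both (mv 464 (both (mv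 432 (both (five 6 431 559) (mv 399 (both (five 7 399 431) (mv 400 (both (five 7 367 367) (five 6 399 495))))))) (both (mv 560 (both (mv 465 (both (five 5 432 433) (mv 592 (both (five 5 464 497) (mv 593 (both (five 4 464 561) (five 4 496 625))))))) (both (mv 593 (both (five 4 464 561) (mv 592 (both (five 4 496 625) (mv 624 (both (five 7 495 495) (mv 655 (both (five 6 527 623) (mv 656 (both (five 7 527 559) (five 6 559 687))))))))))) (mv 463 (both (five 7 431 431) (mv 465 (both (five 5 432 433) (mv 494 (both (five 2 461 462) (five 1 461 495)))))))))) (both (mv 432 (both (five 6 431 559) (mv 399 (both (five 7 399 431) (mv 400 (both (five 7 367 367) (mv 401 (both (five 5 368 369) (five 5 400 433))))))))) (both (mv 495 (both (mv 432 (both (five 6 399 400) (mv 399 (both (five 7 399 431) (mv 433 (both (five 5 400 401) (mv 560 (both (five 5 432 465) (mv 592 (both (five 7 463 463) (five 7 495 624))))))))))) (both (mv 494 (both (five 1 461 465) (five 2 492 524))) (mv 432 (both (five 6 399 400) (mv 399 (both (five 7 399 431) (mv 433 (both (five 5 400 401) (mv 494 (both (five 2 492 524) (mv 461 (both (five 3 460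 460) (mv 462 (both (five 1 429 463) (mv 430 (both (five 4 398 398) (five 5 429 557)))))))))))))))))) (mv 432 (both (five 6 431 559) (mv 400 (both (five 6 399 495) (mv 401 (both (five 5 368 369) (five 5 400 433)))))))))))) (both (mv 557 (both (mv 559 (both (mv 591 (both (five 5 495 623) (mv 464 (both (five 5 463 495) (five 6 463 560))))) (both (mv 558 (both (five 1 524 556) (mv 524 (both (five 3 524 560) (mv 495 (both (five 2 492 494) (mv 463 (both (five 6 462 590) (mv 430 (both (five 7 430 462) (mv 431 (both (five 7 398 398) (five 4 399 399))))))))))))) (both (mv 556 (both (five 1 524 558) (mv 591 (both (five 5 495 623) (mv 495 (both (five 5 463 464) (mv 494 (both (five 7 462 462) (five 2 492 524))))))))) (mv 558 (both (five 1 524 556) (mv 560 (both (five 3 524 524) (mv 591 (both (five 6 463 464) (five 5 495 623))))))))))) (both (mv 461 (both (mv 558 (both (five 4 461 590) (mv 559 (both (five 1 524 556) (mv 560 (both (five 3 524 524) (mv 591 (both (five 6 463 464) (five 5 495 623))))))))) (mv 428 (both (five 7 428 460) (mv 429 (both (five 7 396 396) (mv 430 (both (five 5 397 398) (five 5 429 462)))))))))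 (both (mv 462 (both (mv 430 (both (five 5 429 461) (mv 494 (both (five 6 397 398) (five 5 461 589))))) (both (mv 461 (both (five 5 429 430) (mv 460 (both (five 7 428 428) (mv 463 (both (five 0 460 495) (mv 464 (both (five 0 461 497) (mv 560 (both (five 7 431 431) (mv 593 (both (five 4 464 561) (mv 592 (both (five 4 496 625) (mv 591 (both (five 6 495 623) (mv 590 (both (five 3 557 558) (mv 589 (both (five 3 556 556) (five 4 493 622))))))))))))))))))))) (both (mv 494 (both (five 5 461 589) (mv 495 (both (five 2 492 524) (mv 465 (both (five 1 461 464) (mv 497 (both (five 1 462 466) (mv 498 (both (five 3 462 463) (five 2 495 499))))))))))) (mv 430 (both (five 5 429 461) (mv 494 (both (five 6 397 398) (mv 495 (both (five 2 492 524) (mv 465 (both (five 1 461 464) (mv 497 (both (five 1 462 466) (mv 498 (both (five 3 462 463) (five 2 495 499))))))))))))))))) (both (mv 461 (both (mv 462 (both (five 5 429 430) (mv 494 (both (five 5 461 589) (mv 495 (both (five 3 461 497) (five 2 492 524))))))) (both (mv 428 (both (five 7 428 460) (mv 429 (both (five 7 396 396) (mv 398 (both (five 5 397 430) (mv 366 (both (five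 5 365 397) (mv 556 (both (five 6 428 524) (mv 558 (both (five 1 524 559) (five 4 461 590))))))))))))) (both (mv 428 (both (five 7 428 460) (mv 396 (both (five 7 396 429) (mv 558 (both (five 4 461 590) (mv 559 (both (five 1 524 556) (mv 591 (both (five 5 495 623) (mv 495 (both (five 5 463 464) (mv 494 (both (five 7 462 462) (five 2 492 524))))))))))))))) (mv 428 (both (five 7 428 460) (mv 429 (both (five 7 396 396) (mv 430 (both (five 5 397 398) (five 5 429 462))))))))))) (both (mv 559 (both (mv 591 (both (five 5 495 623) (mv 464 (both (five 5 463 495) (five 6 463 560))))) (both (mv 558 (both (five 1 524 556) (mv 461 (both (five 4 461 590) (mv 428 (both (five 7 428 460) (mv 396 (both (five 7 396 429) (mv 560 (both (five 3 524 524) (mv 592 (both (five 0 557 593) (mv 624 (both (five 7 495 495) (five 7 527 656))))))))))))))) (both (mv 556 (both (five 1 524 558) (mv 591 (both (five 5 495 623) (mv 495 (both (five 5 463 464) (mv 494 (both (five 2 492 524) (mv 460 (both (five 3 460 461) (mv 590 (both (five 6 494 622) (mv 592 (both (five 3 556 589) (five 4 495 624))))))))))))))) (mv 558 (both (five 1 524 556)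 (mv 560 (both (five 3 524 524) (mv 591 (both (five 6 463 464) (five 5 495 623))))))))))) (both (mv 462 (both (mv 430 (both (five 5 429 461) (mv 494 (both (five 6 397 398) (five 5 461 589))))) (both (mv 461 (both (five 5 429 430) (mv 460 (both (five 7 428 428) (mv 463 (both (five 0 460 495) (mv 464 (both (five 0 461 497) (mv 560 (both (five 7 431 431) (mv 591 (both (five 6 463 559) (mv 592 (both (five 6 495 623) (mv 593 (both (five 4 464 561) (five 4 496 625))))))))))))))))) (mv 494 (both (five 5 461 589) (mv 495 (both (five 2 492 524) (mv 465 (both (five 1 461 464) (mv 497 (both (five 1 462 466) (mv 498 (both (five 3 462 463) (five 2 495 499)))))))))))))) (both (mv 461 (both (mv 462 (both (five 5 429 430) (mv 494 (both (five 5 461 589) (mv 495 (both (five 3 461 497) (five 2 492 524))))))) (both (mv 428 (both (five 7 428 460) (mv 396 (both (five 7 396 429) (mv 558 (both (five 4 461 590) (mv 559 (both (five 1 524 556) (mv 560 (both (five 3 524 524) (mv 592 (both (five 0 557 593) (mv 624 (both (five 7 495 495) (five 7 527 656))))))))))))))) (mv 428 (both (five 7 428 460) (mv 429 (both (five 7 396 396)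 (mv 430 (both (five 5 397 398) (five 5 429 462)))))))))) (mv 461 (both (mv 428 (both (five 7 428 460) (mv 429 (both (five 7 396 396) (mv 430 (both (five 5 397 398) (five 5 429 462))))))) (mv 558 (both (five 4 461 590) (mv 559 (both (five 1 524 556) (mv 591 (both (five 5 495 623) (mv 464 (both (five 5 463 495) (five 6 463 560))))))))))))))))))) (both (mv 464 (both (mv 432 (both (five 6 431 559) (mv 399 (both (five 7 399 431) (mv 400 (both (five 7 367 367) (five 6 399 495))))))) (both (mv 560 (both (mv 591 (both (five 6 463 559) (mv 592 (both (five 6 495 623) (mv 593 (both (five 4 464 561) (five 4 496 625))))))) (both (mv 465 (both (five 5 432 433) (mv 592 (both (five 5 464 497) (mv 593 (both (five 4 464 561) (five 4 496 625))))))) (both (mv 465 (both (five 5 432 433) (mv 591 (both (five 6 463 559) (mv 592 (both (five 5 464 497) (five 6 495 623))))))) (mv 465 (both (five 5 432 433) (mv 495 (both (five 1 461 494) (mv 467 (both (five 2 463 466) (mv 559 (both (five 5 463 591) (mv 561 (both (five 4 464 593) (mv 562 (both (five 3 527 563) (mv 530 (both (five 1 527 531) (mv 594 (both (five 0 559 595) (mv 498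 (both (five 7 465 497) (five 5 466 499))))))))))))))))))))))) (both (mv 495 (both (mv 432 (both (five 6 399 400) (mv 399 (both (five 7 399 431) (mv 433 (both (five 5 400 401) (mv 560 (both (five 5 432 465) (mv 592 (both (five 7 495 624) (mv 593 (both (five 4 464 561) (five 4 496 625))))))))))))) (mv 494 (both (five 2 492 524) (mv 461 (both (five 3 460 460) (mv 462 (both (five 3 461 497) (mv 430 (both (five 4 398 398) (five 5 429 557))))))))))) (mv 432 (both (five 6 431 559) (mv 399 (both (five 7 399 431) (mv 400 (both (five 7 367 367) (mv 401 (both (five 5 368 369) (five 5 400 433))))))))))))) (both (mv 464 (both (mv 432 (both (five 6 431 559) (mv 399 (both (five 7 399 431) (mv 400 (both (five 7 367 367) (five 6 399 495))))))) (both (mv 560 (both (mv 465 (both (five 5 432 433) (mv 592 (both (five 5 464 497) (mv 593 (both (five 4 464 561) (five 4 496 625))))))) (both (mv 559 (both (five 6 463 591) (mv 593 (both (five 4 464 561) (mv 592 (both (five 4 496 625) (mv 624 (both (five 7 495 495) (five 7 527 656))))))))) (mv 463 (both (five 7 431 431) (mv 465 (both (five 5 432 433) (mv 494 (both (five 2 461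 462) (five 1 461 495)))))))))) (both (mv 495 (both (mv 432 (both (five 6 399 400) (mv 399 (both (five 7 399 431) (mv 433 (both (five 5 400 401) (mv 560 (both (five 5 432 465) (mv 592 (both (five 7 463 463) (five 7 495 624))))))))))) (both (mv 494 (both (five 1 461 465) (five 2 492 524))) (mv 432 (both (five 6 399 400) (mv 399 (both (five 7 399 431) (mv 433 (both (five 5 400 401) (mv 494 (both (five 2 492 524) (mv 461 (both (five 3 460 460) (mv 462 (both (five 1 429 463) (mv 430 (both (five 4 398 398) (five 5 429 557)))))))))))))))))) (both (mv 432 (both (five 6 431 559) (mv 399 (both (five 7 399 431) (mv 400 (both (five 7 367 367) (mv 401 (both (five 5 368 369) (five 5 400 433))))))))) (mv 432 (both (five 6 431 559) (mv 400 (both (five 6 399 495) (mv 401 (both (five 5 368 369) (five 5 400 433)))))))))))) (mv 559 (both (mv 495 (both (mv 494 (both (five 2 492 524) (mv 461 (both (five 3 460 460) (mv 462 (both (five 3 461 497) (mv 430 (both (five 4 398 398) (five 5 429 557))))))))) (mv 591 (both (five 5 495 623) (mv 590 (both (five 6 494 622) (mv 463 (both (five 6 462 558) (mv 592 (both (five 4 463 560)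 (five 4 495 624))))))))))) (both (mv 464 (both (five 6 431 432) (mv 560 (both (mv 593 (both (five 4 464 561) (mv 592 (both (five 4 496 625) (mv 624 (both (five 7 495 495) (five 7 527 656))))))) (both (mv 465 (both (five 5 432 433) (mv 561 (both (five 4 464 593) (mv 562 (both (five 3 527 563) (mv 530 (both (five 1 527 531) (mv 594 (both (five 0 559 595) (mv 498 (both (five 7 465 497) (mv 467 (both (five 5 466 499) (mv 466 (both (five 5 434 435) (five 2 463 495))))))))))))))))) (both (mv 465 (both (five 5 432 433) (mv 592 (both (five 5 464 497) (mv 593 (both (five 4 464 561) (five 4 496 625))))))) (mv 465 (both (five 5 432 433) (mv 494 (both (five 1 461 495) (mv 462 (both (five 2 461 463) (mv 398 (both (five 6 397 430) (mv 497 (both (five 5 464 592) (mv 498 (both (five 2 495 499) (mv 557 (both (five 5 461 589) (mv 558 (both (five 3 524 524) (five 1 524 556))))))))))))))))))))))) (both (mv 464 (both (five 6 431 432) (mv 591 (both (five 6 463 560) (five 5 495 623))))) (mv 591 (both (five 5 495 623) (mv 495 (both (five 5 463 464) (mv 494 (both (five 7 462 462) (five 2 492 524)))))))))))))))))))))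

theorem L82 : W (S 1427877913332740184840423974568407833698508160806500041138759843178431195959963504125903925217608095031573758997169320691467936558700571729780127517781061009408) (S 642106434340993567264402244770169041287296296155386194774791838484455553880806346075992714736062544632622464746561621577895050277991413180229320221399338052836884556487396374671866378748150718583432672182272) :=
  check_sound Env.nil (x := 496) (t := tL82) (by decide +kernel)

def tL83 : T :=
  (both (mv 494 (both (five 0 492 495) (mv 491 (both (mv 458 (both (five 3 458 459) (mv 490 (both (five 3 457 457) (mv 522 (both (five 2 489 521) (five 2 490 523))))))) (mv 462 (both (five 1 459 463) (mv 430 (both (five 6 397 398) (mv 557 (both (five 5 429 461) (five 5 461 589))))))))))) (both (mv 460 (both (mv 557 (both (five 7 460 589) (mv 461 (both (mv 462 (both (five 5 429 430) (mv 463 (both (five 2 460 464) (five 2 459 491))))) (mv 558 (both (five 4 461 590) (mv 559 (both (five 1 524 556) (mv 560 (both (five 3 524 524) (mv 592 (both (five 0 557 593) (mv 624 (both (five 7 495 495) (five 7 527 656))))))))))))))) (both (mv 428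 (both (five 4 396 396) (mv 524 (both (mv 427 (both (five 7 395 395) (mv 459 (both (five 7 427 556) (mv 457 (both (five 0 457 458) (mv 523 (both (five 6 427 555) (mv 522 (both (five 1 489 521) (mv 554 (both (five 6 426 491) (five 2 521 553))))))))))))) (both (mv 429 (both (five 5 396 397) (mv 461 (both (five 5 428 556) (mv 398 (both (five 5 397 430) (mv 523 (both (five 6 427 555) (mv 522 (both (five 1 489 521) (mv 490 (both (five 3 489 489) (mv 491 (both (five 1 458 462) (mv 457 (both (five 3 457 458) (mv 554 (both (five 2 521 553) (mv 586 (both (five 5 458 459) (five 5 490 618))))))))))))))))))))) (both (mv 395 (both (five 7 395 427) (mv 429 (both (five 5 396 397) (mv 461 (both (five 5 428 556) (mv 430 (both (five 5 397 398) (mv 431 (both (five 2 428 432) (five 2 427 459))))))))))) (both (mv 397 (both (five 5 396 429) (mv 427 (both (five 7 395 395) (mv 523 (both (five 6 427 555) (mv 522 (both (five 1 489 521) (mv 490 (both (five 3 489 489) (mv 554 (both (five 2 521 553) (mv 459 (both (five 5 426 458) (five 6 426 491))))))))))))))) (mv 395 (both (five 7 395 427) (mv 429 (both (five 5 396 397) (mv 461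 (both (five 5 428 556) (mv 430 (both (five 5 397 398) (mv 431 (both (five 2 428 432) (mv 399 (both (five 1 396 400) (mv 463 (both (five 0 428 464) (mv 462 (both (five 2 459 491) (mv 495 (both (five 7 430 559) (five 4 431 560)))))))))))))))))))))))))) (both (mv 428 (both (five 4 396 396) (mv 557 (both (five 4 428 524) (five 7 460 589))))) (mv 428 (both (five 4 396 396) (mv 557 (both (five 7 428 461) (five 7 460 589))))))))) (both (mv 460 (both (mv 557 (both (five 7 460 589) (mv 461 (both (mv 462 (both (five 5 429 430) (mv 463 (both (five 2 460 464) (five 2 459 491))))) (mv 558 (both (five 4 461 590) (mv 556 (both (five 1 524 559) (mv 524 (both (five 5 428 429) (mv 427 (both (five 7 427 459) (mv 522 (both (five 0 522 523) (mv 555 (both (five 6 459 587) (mv 554 (both (five 3 521 521) (five 1 521 553))))))))))))))))))) (both (mv 428 (both (five 4 396 396) (mv 524 (both (mv 429 (both (five 5 396 397) (mv 461 (both (five 5 428 556) (mv 430 (both (five 5 397 398) (mv 431 (both (five 2 428 432) (five 2 427 459))))))))) (both (mv 427 (both (five 7 395 395) (mv 459 (both (five 7 427 556) (mv 457 (both (five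 0 457 458) (mv 523 (both (five 6 427 555) (mv 522 (both (five 1 489 521) (mv 554 (both (five 6 426 491) (five 2 521 553))))))))))))) (mv 395 (both (five 7 395 427) (mv 397 (both (five 5 396 429) (mv 523 (both (five 6 427 555) (mv 522 (both (five 1 490 494) (five 1 489 521)))))))))))))) (both (mv 428 (both (five 4 396 396) (mv 557 (both (five 4 428 524) (five 7 460 589))))) (mv 428 (both (five 4 396 396) (mv 557 (both (five 7 428 461) (five 7 460 589))))))))) (both (mv 460 (both (mv 428 (both (five 4 396 396) (mv 524 (both (mv 427 (both (five 7 395 395) (mv 459 (both (five 7 427 556) (mv 457 (both (five 0 457 458) (mv 523 (both (five 6 427 555) (mv 522 (both (five 1 489 521) (mv 554 (both (five 6 426 491) (five 2 521 553))))))))))))) (both (mv 429 (both (five 5 396 397) (mv 461 (both (five 5 428 556) (mv 398 (both (five 5 397 430) (mv 523 (both (five 6 427 555) (mv 522 (both (five 1 489 521) (mv 490 (both (five 3 489 489) (mv 491 (both (five 1 458 462) (mv 457 (both (five 3 457 458) (mv 554 (both (five 2 521 553) (mv 586 (both (five 5 458 459) (five 5 490 618))))))))))))))))))))) (both (mv 395 (both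 (five 7 395 427) (mv 429 (both (five 5 396 397) (mv 461 (both (five 5 428 556) (mv 430 (both (five 5 397 398) (mv 431 (both (five 2 428 432) (five 2 427 459))))))))))) (both (mv 397 (both (five 5 396 429) (mv 427 (both (five 7 395 395) (mv 523 (both (five 6 427 555) (mv 522 (both (five 1 489 521) (mv 490 (both (five 3 489 489) (mv 554 (both (five 2 521 553) (mv 459 (both (five 5 426 458) (five 6 426 491))))))))))))))) (mv 395 (both (five 7 395 427) (mv 429 (both (five 5 396 397) (mv 461 (both (five 5 428 556) (mv 430 (both (five 5 397 398) (mv 431 (both (five 2 428 432) (mv 399 (both (five 1 396 400) (mv 463 (both (five 0 428 464) (mv 462 (both (five 2 459 491) (mv 495 (both (five 7 430 559) (five 4 431 560)))))))))))))))))))))))))) (both (mv 494 (both (five 0 492 495) (mv 491 (both (mv 458 (both (five 3 458 459) (mv 490 (both (five 3 457 457) (mv 522 (both (five 2 489 521) (five 2 490 523))))))) (both (mv 462 (both (five 1 459 463) (mv 398 (both (five 6 397 430) (mv 490 (both (five 1 458 461) (mv 522 (both (five 2 489 521) (five 2 490 523))))))))) (mv 459 (both (five 3 458 458) (mv 462 (both (five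 1 459 463) (mv 430 (both (five 6 397 398) (mv 461 (both (five 1 427 431) (mv 427 (both (five 3 426 426) (mv 395 (both (five 4 363 363) (five 4 395 524)))))))))))))))))) (both (mv 428 (both (five 4 396 396) (mv 524 (both (mv 523 (both (five 6 427 555) (mv 522 (both (five 1 490 494) (five 1 489 521))))) (mv 429 (both (five 5 396 397) (mv 461 (both (five 5 428 556) (mv 430 (both (five 5 397 398) (mv 431 (both (five 2 428 432) (mv 399 (both (five 1 396 400) (mv 463 (both (five 0 428 464) (mv 462 (both (five 2 459 491) (mv 495 (both (five 7 430 559) (five 4 431 560))))))))))))))))))))) (both (mv 523 (both (mv 428 (both (five 4 396 396) (mv 524 (both (five 6 427 555) (mv 397 (both (five 5 396 429) (mv 427 (both (five 7 395 395) (mv 522 (both (five 1 489 521) (mv 490 (both (five 3 489 489) (mv 554 (both (five 2 521 553) (mv 459 (both (five 5 426 458) (five 6 426 491))))))))))))))))) (both (mv 494 (both (five 0 492 495) (mv 522 (both (five 2 490 491) (five 1 490 524))))) (both (mv 428 (both (five 4 396 396) (mv 494 (both (five 0 492 495) (mv 491 (both (five 2 490 522) (mv 459 (both (five 3 458 458) (five 5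 427 555))))))))) (both (mv 428 (both (five 4 396 396) (mv 494 (both (five 0 492 495) (mv 524 (both (five 1 490 522) (five 6 427 555))))))) (mv 428 (both (five 4 396 396) (mv 494 (both (five 0 492 495) (mv 524 (both (five 6 427 555) (mv 397 (both (five 5 396 429) (mv 427 (both (five 7 395 395) (mv 459 (both (five 7 427 556) (mv 458 (both (five 0 457 457) (five 3 458 491)))))))))))))))))))) (both (mv 428 (both (five 4 396 396) (mv 524 (both (mv 523 (both (five 6 427 555) (mv 522 (both (five 1 490 494) (five 1 489 521))))) (mv 429 (both (five 5 396 397) (mv 461 (both (five 5 428 556) (mv 430 (both (five 5 397 398) (mv 431 (both (five 2 428 432) (five 2 427 459))))))))))))) (both (mv 494 (both (five 0 492 495) (mv 491 (both (mv 458 (both (five 3 458 459) (mv 490 (both (five 3 457 457) (mv 522 (both (five 2 489 521) (five 2 490 523))))))) (both (mv 462 (both (five 1 459 463) (mv 398 (both (five 6 397 430) (mv 490 (both (five 1 458 461) (mv 522 (both (five 2 489 521) (five 2 490 523))))))))) (mv 396 (both (five 4 396 428) (mv 459 (both (five 3 458 458) (mv 462 (both (five 1 459 463) (mv 430 (both (five 6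 397 398) (mv 461 (both (five 1 427 431) (mv 427 (both (five 3 426 426) (mv 395 (both (five 4 363 363) (five 5 363 364)))))))))))))))))))) (both (mv 494 (both (five 0 492 495) (mv 491 (both (mv 458 (both (five 3 458 459) (mv 462 (both (five 1 459 463) (mv 490 (both (five 3 457 457) (five 1 458 461))))))) (both (mv 396 (both (five 4 396 428) (mv 458 (both (five 3 458 459) (mv 490 (both (five 3 457 457) (mv 489 (both (five 1 457 461) (five 0 489 524))))))))) (both (mv 396 (both (five 4 396 428) (mv 462 (both (five 1 459 463) (mv 398 (both (five 6 397 430) (mv 490 (both (five 1 458 461) (mv 489 (both (five 0 489 524) (mv 521 (both (five 2 488 520) (five 2 489 522))))))))))))) (both (mv 396 (both (five 4 396 428) (mv 458 (both (five 3 458 459) (mv 462 (both (five 1 459 463) (mv 398 (both (five 6 397 430) (mv 490 (both (five 3 457 457) (mv 489 (both (five 0 489 524) (mv 521 (both (five 2 488 520) (five 2 489 522))))))))))))))) (mv 459 (both (five 3 458 458) (mv 462 (both (five 1 459 463) (mv 430 (both (five 6 397 398) (mv 461 (both (five 1 427 431) (mv 427 (both (five 3 426 426) (mv 395 (both (five 4 363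 363) (five 4 395 524)))))))))))))))))))) (mv 494 (both (five 0 492 495) (mv 491 (both (mv 458 (both (five 3 458 459) (mv 462 (both (five 1 459 463) (mv 490 (both (five 3 457 457) (five 1 458 461))))))) (both (mv 462 (both (five 1 459 463) (mv 398 (both (five 6 397 430) (mv 490 (both (five 1 458 461) (mv 457 (both (five 3 457 458) (mv 489 (both (five 3 456 456) (five 0 489 524))))))))))) (both (mv 458 (both (five 3 458 459) (mv 490 (both (five 3 457 457) (mv 489 (both (five 1 457 461) (five 0 489 524))))))) (both (mv 396 (both (five 4 396 428) (mv 462 (both (five 1 459 463) (mv 398 (both (five 6 397 430) (mv 490 (both (five 1 458 461) (mv 489 (both (five 0 489 524) (mv 456 (both (five 3 456 457) (mv 488 (both (five 3 455 455) (five 1 456 459))))))))))))))) (mv 428 (both (five 4 396 396) (mv 459 (both (five 3 458 458) (mv 462 (both (five 1 459 463) (mv 430 (both (five 6 397 398) (mv 429 (both (five 2 427 431) (mv 523 (both (five 5 427 555) (mv 524 (both (five 5 396 397) (mv 427 (both (five 4 395 395) (five 7 427 556)))))))))))))))))))))))))))))))) (both (mv 494 (both (five 0 492 495) (mv 491 (both (mv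 458 (both (five 3 458 459) (mv 490 (both (five 3 457 457) (mv 522 (both (five 2 489 521) (five 2 490 523))))))) (both (mv 490 (both (mv 462 (both (five 1 459 463) (mv 398 (both (five 6 397 430) (mv 489 (both (five 0 489 524) (mv 456 (both (five 3 456 457) (mv 488 (both (five 3 455 455) (mv 520 (both (five 2 487 519) (five 2 488 521))))))))))))) (both (mv 458 (both (five 3 457 457) (five 3 458 459))) (mv 459 (both (five 3 458 458) (mv 462 (both (five 1 459 463) (mv 398 (both (five 6 397 430) (mv 489 (both (five 0 489 524) (mv 488 (both (five 1 456 460) (mv 520 (both (five 2 487 519) (five 2 488 521)))))))))))))))) (both (mv 460 (both (mv 428 (both (five 4 396 396) (mv 557 (both (five 4 428 524) (five 7 460 589))))) (both (mv 462 (both (five 1 459 463) (mv 398 (both (five 6 397 430) (mv 522 (both (five 2 490 523) (mv 490 (both (five 2 489 521) (mv 489 (both (five 0 489 524) (mv 456 (both (five 3 456 457) (mv 488 (both (five 3 455 455) (five 1 456 459))))))))))))))) (mv 428 (both (five 4 396 396) (mv 462 (both (five 1 459 463) (mv 398 (both (five 6 397 430) (mv 523 (both (five 2 490 522) (mv 555 (both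 (five 5 427 459) (five 5 459 587)))))))))))))) (both (mv 462 (both (five 1 459 463) (mv 398 (both (five 6 397 430) (mv 522 (both (five 2 490 523) (mv 490 (both (five 2 489 521) (mv 457 (both (five 3 457 458) (mv 489 (both (five 3 456 456) (five 0 489 524))))))))))))) (mv 428 (both (mv 396 (both (five 4 396 460) (mv 459 (both (five 3 458 458) (mv 523 (both (five 5 395 427) (five 2 490 522))))))) (both (mv 459 (both (five 3 458 458) (mv 462 (both (five 1 459 463) (mv 398 (both (five 6 397 430) (mv 523 (both (five 2 490 522) (mv 427 (both (five 5 395 396) (mv 524 (both (five 4 395 395) (five 4 427 556))))))))))))) (both (mv 459 (both (five 3 458 458) (mv 462 (both (five 1 459 463) (mv 398 (both (five 6 397 430) (mv 523 (both (five 2 490 522) (mv 460 (both (five 5 427 555) (mv 557 (both (five 4 428 524) (five 7 460 589))))))))))))) (mv 460 (both (five 4 396 396) (mv 557 (both (five 4 428 524) (five 7 460 589)))))))))))))))) (both (mv 557 (both (mv 460 (both (five 7 460 589) (mv 428 (both (five 4 396 396) (five 4 428 524))))) (both (mv 558 (both (mv 559 (both (five 1 524 556) (mv 560 (both (five 3 524 524)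 (mv 592 (both (five 0 557 593) (mv 624 (both (five 7 495 495) (five 7 527 656))))))))) (mv 590 (both (five 4 461 461) (mv 622 (both (five 4 493 589) (five 7 525 654))))))) (both (mv 558 (both (mv 559 (both (five 1 524 556) (mv 560 (both (five 3 524 524) (mv 592 (both (five 0 557 593) (mv 624 (both (five 7 495 495) (five 7 527 656))))))))) (both (mv 461 (both (five 4 461 590) (mv 428 (both (five 7 428 460) (mv 429 (both (five 7 396 396) (mv 397 (both (five 6 396 524) (mv 398 (both (five 5 365 366) (five 5 397 430))))))))))) (mv 494 (both (five 0 492 495) (mv 556 (both (five 1 524 559) (mv 590 (both (five 4 461 461) (mv 555 (both (five 0 555 591) (mv 522 (both (five 3 522 523) (mv 554 (both (five 3 521 521) (mv 586 (both (five 2 553 585) (five 2 554 587)))))))))))))))))) (mv 460 (both (five 7 460 589) (mv 428 (both (five 4 396 396) (five 7 428 461))))))))) (both (mv 494 (both (five 0 492 495) (mv 462 (both (mv 430 (both (five 6 397 398) (mv 557 (both (five 5 429 461) (five 5 461 589))))) (both (mv 463 (both (five 1 459 491) (mv 464 (both (five 2 460 461) (five 2 461 465))))) (mv 398 (both (five 6 397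 430) (mv 491 (both (five 1 459 463) (mv 458 (both (five 3 458 459) (mv 490 (both (five 3 457 457) (mv 489 (both (five 0 489 524) (mv 521 (both (five 2 488 520) (five 2 489 522)))))))))))))))))) (both (mv 460 (both (mv 557 (both (five 7 460 589) (mv 461 (both (mv 462 (both (five 5 429 430) (mv 463 (both (five 2 460 464) (five 2 459 491))))) (mv 558 (both (five 4 461 590) (mv 559 (both (five 1 524 556) (mv 560 (both (five 3 524 524) (mv 592 (both (five 0 557 593) (mv 624 (both (five 7 495 495) (five 7 527 656))))))))))))))) (both (mv 494 (both (five 0 492 495) (mv 491 (both (mv 458 (both (five 3 458 459) (mv 462 (both (five 1 459 463) (mv 490 (both (five 3 457 457) (five 1 458 461))))))) (both (mv 462 (both (five 1 459 463) (mv 398 (both (five 6 397 430) (mv 490 (both (five 1 458 461) (mv 457 (both (five 3 457 458) (mv 489 (both (five 3 456 456) (five 0 489 524))))))))))) (both (mv 458 (both (five 3 458 459) (mv 490 (both (five 3 457 457) (mv 489 (both (five 1 457 461) (five 0 489 524))))))) (both (mv 396 (both (five 4 396 428) (mv 462 (both (five 1 459 463) (mv 398 (both (five 6 397 430) (mv 490 (both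 (five 1 458 461) (mv 489 (both (five 0 489 524) (mv 456 (both (five 3 456 457) (mv 488 (both (five 3 455 455) (five 1 456 459))))))))))))))) (mv 428 (both (five 4 396 396) (mv 459 (both (five 3 458 458) (mv 462 (both (five 1 459 463) (mv 430 (both (five 6 397 398) (mv 429 (both (five 2 427 431) (mv 523 (both (five 5 427 555) (mv 524 (both (five 5 396 397) (mv 427 (both (five 4 395 395) (five 7 427 556)))))))))))))))))))))))) (both (mv 428 (both (five 4 396 396) (mv 557 (both (five 4 428 524) (five 7 460 589))))) (mv 428 (both (five 4 396 396) (mv 557 (both (five 7 428 461) (five 7 460 589))))))))) (both (mv 557 (both (mv 460 (both (five 7 460 589) (mv 428 (both (five 4 396 396) (five 4 428 524))))) (both (mv 558 (both (mv 559 (both (five 1 524 556) (mv 560 (both (five 3 524 524) (mv 592 (both (five 0 557 593) (mv 624 (both (five 7 495 495) (five 7 527 656))))))))) (mv 590 (both (five 4 461 461) (mv 622 (both (five 4 493 589) (five 7 525 654))))))) (both (mv 558 (both (mv 559 (both (five 1 524 556) (mv 560 (both (five 3 524 524) (mv 592 (both (five 0 557 593) (mv 624 (both (five 7 495 495) (five 7 527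 656))))))))) (both (mv 461 (both (five 4 461 590) (mv 428 (both (five 7 428 460) (mv 429 (both (five 7 396 396) (mv 397 (both (five 6 396 524) (mv 366 (both (five 5 365 398) (mv 365 (both (five 5 333 334) (mv 494 (both (five 4 365 462) (five 0 492 495))))))))))))))) (mv 556 (both (five 1 524 559) (mv 590 (both (five 4 461 461) (mv 555 (both (five 0 555 591) (mv 522 (both (five 3 522 523) (mv 554 (both (five 3 521 521) (mv 586 (both (five 2 553 585) (five 2 554 587)))))))))))))))) (mv 460 (both (five 7 460 589) (mv 428 (both (five 4 396 396) (five 7 428 461))))))))) (mv 494 (both (five 0 492 495) (mv 491 (both (mv 458 (both (five 3 458 459) (mv 490 (both (five 3 457 457) (mv 522 (both (five 2 489 521) (five 2 490 523))))))) (both (mv 458 (both (five 3 458 459) (mv 462 (both (five 1 459 463) (mv 490 (both (five 3 457 457) (five 1 458 461))))))) (both (mv 462 (both (five 1 459 463) (mv 490 (both (five 1 458 461) (mv 522 (both (five 2 489 521) (five 2 490 523))))))) (mv 458 (both (five 3 458 459) (mv 462 (both (five 1 459 463) (mv 522 (both (five 2 490 523) (mv 557 (both (five 5 461 589) (mv 461 (both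 (five 5 429 430) (mv 428 (both (five 7 428 460) (mv 429 (both (five 7 396 396) (mv 524 (both (five 6 396 397) (five 6 428 556))))))))))))))))))))))))))))))))

theorem L83 : W (S 1427877913332740184840423974568407833698508160806500041138759843178431195959963504125903925217608095031573758997169320691467936558700571729780127517781061009408) (S 373755135483719651727169120687682163795942057193563424860691324472568947659992683153890623116461737616300066547591294429961125892626795303927275347181393055831872630697512785797761656403005940957184) :=
  check_sound Env.nil (x := 492) (t := tL83) (by decide +kernel)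

def tL84 : T :=
  (both (ref 0) (both (mv 461 (both (mv 557 (both (mv 558 (both (five 4 461 590) (mv 559 (both (five 1 524 556) (mv 560 (both (five 3 524 524) (mv 592 (both (five 0 557 593) (mv 624 (both (five 7 527 656) (mv 623 (both (five 6 527 655) (mv 496 (both (five 5 495 591) (mv 464 (both (five 6 431 432) (mv 465 (both (five 5 432 433) (five 5 464 497))))))))))))))))))) (mv 460 (both (five 7 428 428) (mv 462 (both (five 5 429 430) (mv 589 (both (five 7 460 492) (five 5 461 494))))))))) (both (mv 429 (both (mv 398 (both (five 5 397 430) (mv 397 (both (five 5 365 366) (mv 524 (both (five 6 396 492) (five 6 428 556))))))) (both (mv 396 (both (five 7 396 428) (mv 397 (both (five 7 364 364) (mv 524 (both (five 6 396 492) (five 6 428 556))))))) (mv 428 (both (five 7 396 396) (mv 427 (both (mv 426 (both (five 0 426 462) (mv 393 (both (five 3 393 394) (mv 425 (both (five 3 392 392) (five 0 425 460))))))) (both (mv 430 (both (five 5 397 398) (mv 459 (both (five 2 426 458) (mv 431 (both (five 2 427 460) (mv 399 (both (five 1 396 400) (mv 464 (both (five 0 428 463) (mv 432 (both (five 0 429 465) (five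 7 399 496))))))))))))) (mv 398 (both (five 5 397 430) (mv 426 (both (five 0 426 462) (mv 393 (both (five 3 393 394) (mv 425 (both (five 3 392 392) (mv 457 (both (five 2 424 456) (five 2 425 458))))))))))))))))))) (both (mv 429 (both (mv 396 (both (five 7 396 428) (mv 397 (both (five 7 364 364) (mv 398 (both (five 5 365 366) (five 5 397 430))))))) (both (mv 396 (both (five 7 396 428) (mv 397 (both (five 7 364 364) (mv 524 (both (five 6 396 492) (five 6 428 556))))))) (both (mv 398 (both (five 5 397 430) (mv 397 (both (five 5 365 366) (mv 524 (both (five 6 396 492) (five 6 428 556))))))) (mv 396 (both (five 7 396 428) (mv 430 (both (five 5 397 398) (mv 556 (both (five 6 428 524) (mv 557 (both (five 5 429 462) (mv 558 (both (five 1 524 559) (five 4 461 590))))))))))))))) (both (mv 557 (both (mv 558 (both (five 4 461 590) (mv 559 (both (five 1 524 556) (mv 560 (both (five 3 524 524) (mv 592 (both (five 0 557 593) (mv 624 (both (five 7 527 656) (mv 623 (both (five 6 527 655) (mv 496 (both (five 5 495 591) (mv 464 (both (five 6 431 432) (mv 465 (both (five 5 432 433) (five 5 464 497))))))))))))))))))) (both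 (mv 430 (both (five 5 429 462) (mv 429 (both (five 5 397 398) (mv 524 (both (five 6 428 556) (mv 492 (both (five 6 396 397) (mv 589 (both (five 7 460 460) (five 7 492 621))))))))))) (both (mv 462 (both (five 5 429 430) (mv 558 (both (five 4 461 590) (mv 559 (both (five 1 524 556) (mv 589 (both (five 5 461 494) (mv 492 (both (five 7 460 460) (mv 464 (both (five 2 460 463) (mv 490 (both (five 1 458 491) (mv 496 (both (five 6 431 432) (mv 591 (both (five 6 463 560) (five 5 495 623))))))))))))))))))) (mv 430 (both (five 5 429 462) (mv 429 (both (five 5 397 398) (mv 590 (both (five 4 461 558) (mv 589 (both (five 4 493 622) (mv 492 (both (five 7 460 460) (mv 524 (both (five 6 396 397) (five 7 492 621))))))))))))))))) (both (mv 557 (both (mv 558 (both (five 4 461 590) (mv 559 (both (five 1 524 556) (mv 560 (both (five 3 524 524) (mv 592 (both (five 0 557 593) (mv 624 (both (five 7 527 656) (mv 623 (both (five 6 527 655) (mv 496 (both (five 5 495 591) (mv 464 (both (five 6 431 432) (mv 465 (both (five 5 432 433) (five 5 464 497))))))))))))))))))) (both (mv 429 (both (mv 396 (both (five 7 396 428) (mv 397 (both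 (five 7 364 364) (mv 524 (both (five 6 396 492) (five 6 428 556))))))) (both (mv 524 (both (five 6 428 556) (mv 492 (both (five 6 396 397) (mv 589 (both (five 7 460 460) (five 7 492 621))))))) (mv 428 (both (five 7 396 396) (five 7 428 460)))))) (mv 460 (both (five 7 428 428) (mv 589 (both (five 7 460 492) (mv 590 (both (five 4 461 558) (five 4 493 622)))))))))) (both (mv 429 (both (mv 396 (both (five 7 396 428) (mv 397 (both (five 7 364 364) (mv 398 (both (five 5 365 366) (five 5 397 430))))))) (both (mv 428 (both (five 7 396 396) (mv 556 (both (five 6 428 524) (mv 557 (both (five 7 428 460) (mv 558 (both (five 1 524 559) (five 4 461 590))))))))) (mv 430 (both (five 5 397 398) (mv 556 (both (five 6 428 524) (mv 557 (both (five 5 429 462) (mv 558 (both (five 1 524 559) (five 4 461 590)))))))))))) (mv 557 (both (mv 428 (both (five 7 428 460) (mv 429 (both (five 7 396 396) (mv 430 (both (five 5 397 398) (five 5 429 462))))))) (both (mv 460 (both (five 7 428 428) (mv 589 (both (five 7 460 492) (mv 590 (both (five 4 461 558) (five 4 493 622))))))) (mv 462 (both (five 5 429 430) (mv 589 (both (five 5 461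 494) (mv 590 (both (five 4 461 558) (five 4 493 622))))))))))))))))) (both (mv 461 (both (mv 557 (both (mv 558 (both (five 4 461 590) (mv 559 (both (five 1 524 556) (mv 560 (both (five 3 524 524) (mv 592 (both (five 0 557 593) (mv 624 (both (five 7 495 495) (five 7 527 656))))))))))) (mv 460 (both (five 7 428 428) (mv 462 (both (five 5 429 430) (mv 492 (both (five 7 460 589) (mv 463 (both (five 2 460 464) (five 2 459 491))))))))))) (both (mv 429 (both (mv 398 (both (five 5 397 430) (mv 397 (both (five 5 365 366) (mv 524 (both (five 6 396 492) (five 6 428 556))))))) (both (mv 396 (both (five 7 396 428) (mv 397 (both (five 7 364 364) (mv 524 (both (five 6 396 492) (five 6 428 556))))))) (mv 428 (both (five 7 396 396) (mv 427 (both (mv 426 (both (five 0 426 462) (mv 393 (both (five 3 393 394) (mv 425 (both (five 3 392 392) (five 0 425 460))))))) (both (mv 430 (both (five 5 397 398) (mv 459 (both (five 2 426 458) (mv 431 (both (five 2 427 460) (mv 399 (both (five 1 396 400) (mv 464 (both (five 0 428 463) (mv 432 (both (five 0 429 465) (five 7 399 496))))))))))))) (mv 398 (both (five 5 397 430) (mv 426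 (both (five 0 426 462) (mv 393 (both (five 3 393 394) (mv 425 (both (five 3 392 392) (mv 457 (both (five 2 424 456) (five 2 425 458))))))))))))))))))) (both (mv 557 (both (mv 558 (both (five 4 461 590) (mv 559 (both (five 1 524 556) (mv 560 (both (five 3 524 524) (mv 592 (both (five 0 557 593) (mv 624 (both (five 7 495 495) (five 7 527 656))))))))))) (both (mv 430 (both (five 5 429 462) (mv 429 (both (five 5 397 398) (mv 524 (both (five 6 428 556) (mv 492 (both (five 6 396 397) (mv 589 (both (five 7 460 460) (five 7 492 621))))))))))) (both (mv 430 (both (five 5 429 462) (mv 429 (both (five 5 397 398) (mv 590 (both (five 4 461 558) (mv 589 (both (five 4 493 622) (mv 492 (both (five 7 460 460) (mv 524 (both (five 6 396 397) (five 7 492 621))))))))))))) (mv 492 (both (mv 589 (both (five 7 460 460) (mv 590 (both (five 4 461 558) (five 4 493 622))))) (both (mv 462 (both (five 5 429 430) (mv 463 (both (five 2 460 464) (mv 491 (both (five 2 459 460) (five 1 458 490))))))) (mv 462 (both (five 5 429 430) (mv 464 (both (five 2 460 463) (mv 490 (both (five 1 458 491) (mv 558 (both (five 4 461 590) (mv 559 (both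 (five 1 524 556) (mv 496 (both (five 6 431 432) (mv 591 (both (five 6 463 560) (five 5 495 623)))))))))))))))))))))) (both (mv 429 (both (mv 396 (both (five 7 396 428) (mv 397 (both (five 7 364 364) (mv 398 (both (five 5 365 366) (five 5 397 430))))))) (both (mv 396 (both (five 7 396 428) (mv 397 (both (five 7 364 364) (mv 524 (both (five 6 396 492) (five 6 428 556))))))) (both (mv 398 (both (five 5 397 430) (mv 397 (both (five 5 365 366) (mv 524 (both (five 6 396 492) (five 6 428 556))))))) (mv 396 (both (five 7 396 428) (mv 430 (both (five 5 397 398) (mv 556 (both (five 6 428 524) (mv 557 (both (five 5 429 462) (mv 558 (both (five 1 524 559) (five 4 461 590))))))))))))))) (both (mv 557 (both (mv 558 (both (five 4 461 590) (mv 559 (both (five 1 524 556) (mv 560 (both (five 3 524 524) (mv 592 (both (five 0 557 593) (mv 624 (both (five 7 527 656) (mv 623 (both (five 6 527 655) (mv 496 (both (five 5 495 591) (mv 464 (both (five 6 431 432) (mv 465 (both (five 5 432 433) (five 5 464 497))))))))))))))))))) (both (mv 429 (both (mv 396 (both (five 7 396 428) (mv 397 (both (five 7 364 364) (mv 524 (both (five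 6 396 492) (five 6 428 556))))))) (both (mv 524 (both (five 6 428 556) (mv 492 (both (five 6 396 397) (mv 589 (both (five 7 460 460) (five 7 492 621))))))) (mv 428 (both (five 7 396 396) (five 7 428 460)))))) (mv 460 (both (five 7 428 428) (mv 589 (both (five 7 460 492) (mv 590 (both (five 4 461 558) (five 4 493 622)))))))))) (both (mv 429 (both (mv 396 (both (five 7 396 428) (mv 397 (both (five 7 364 364) (mv 398 (both (five 5 365 366) (five 5 397 430))))))) (both (mv 428 (both (five 7 396 396) (mv 556 (both (five 6 428 524) (mv 557 (both (five 7 428 460) (mv 558 (both (five 1 524 559) (five 4 461 590))))))))) (mv 430 (both (five 5 397 398) (mv 556 (both (five 6 428 524) (mv 557 (both (five 5 429 462) (mv 558 (both (five 1 524 559) (five 4 461 590)))))))))))) (both (mv 557 (both (mv 428 (both (five 7 428 460) (mv 429 (both (five 7 396 396) (mv 430 (both (five 5 397 398) (five 5 429 462))))))) (both (mv 464 (both (mv 558 (both (five 4 461 590) (mv 559 (both (five 1 524 556) (mv 496 (both (five 6 431 432) (mv 591 (both (five 6 463 560) (five 5 495 623))))))))) (both (mv 430 (both (five 5 429 462) (mv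 429 (both (five 5 397 398) (mv 428 (both (five 7 396 396) (mv 431 (both (five 0 428 463) (mv 400 (both (five 1 396 399) (mv 432 (both (five 1 397 401) (five 0 429 465))))))))))))) (mv 462 (both (five 5 429 430) (mv 463 (both (five 2 460 492) (mv 428 (both (five 3 428 429) (mv 496 (both (five 0 461 497) (mv 560 (both (five 7 431 431) (mv 591 (both (five 6 463 559) (mv 592 (both (five 6 495 623) (mv 593 (both (five 4 464 561) (five 4 496 625)))))))))))))))))))) (both (mv 492 (both (mv 589 (both (five 7 460 460) (mv 590 (both (five 4 461 558) (five 4 493 622))))) (both (mv 462 (both (five 5 429 430) (mv 463 (both (five 2 460 464) (mv 491 (both (five 2 459 460) (five 1 458 490))))))) (mv 462 (both (five 5 429 430) (mv 464 (both (five 2 460 463) (mv 490 (both (five 1 458 491) (mv 558 (both (five 4 461 590) (mv 559 (both (five 1 524 556) (mv 496 (both (five 6 431 432) (mv 591 (both (five 6 463 560) (five 5 495 623)))))))))))))))))) (mv 460 (both (five 7 428 428) (mv 589 (both (five 7 460 492) (mv 590 (both (five 4 461 558) (five 4 493 622))))))))))) (mv 429 (both (mv 396 (both (five 7 396 428) (mv 397 (both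 (five 7 364 364) (mv 398 (both (five 5 365 366) (five 5 397 430))))))) (both (mv 398 (both (five 5 397 430) (mv 397 (both (five 5 365 366) (mv 364 (both (five 7 364 396) (mv 365 (both (five 7 332 332) (mv 492 (both (five 6 364 460) (five 6 396 524))))))))))) (both (mv 396 (both (five 7 396 428) (mv 397 (both (five 7 364 364) (mv 366 (both (five 5 365 398) (mv 365 (both (five 5 333 334) (mv 492 (both (five 6 364 460) (five 6 396 524))))))))))) (both (mv 398 (both (five 5 397 430) (mv 397 (both (five 5 365 366) (mv 492 (both (five 6 396 524) (mv 460 (both (five 6 364 365) (mv 557 (both (five 7 428 428) (five 7 460 589))))))))))) (both (mv 396 (both (five 7 396 428) (mv 397 (both (five 7 364 364) (mv 492 (both (five 6 396 524) (mv 460 (both (five 6 364 365) (mv 557 (both (five 7 460 589) (mv 462 (both (five 5 429 430) (mv 463 (both (five 2 460 464) (five 2 459 491))))))))))))))) (mv 428 (both (five 7 396 396) (mv 427 (both (mv 426 (both (five 0 426 462) (mv 393 (both (five 3 393 394) (mv 425 (both (five 3 392 392) (five 0 425 460))))))) (both (mv 430 (both (five 5 397 398) (mv 459 (both (five 2 426 458)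 (mv 431 (both (five 2 427 460) (mv 399 (both (five 1 396 400) (mv 464 (both (five 0 428 463) (mv 432 (both (five 0 429 465) (five 7 399 496))))))))))))) (mv 398 (both (five 5 397 430) (mv 426 (both (five 0 426 462) (mv 393 (both (five 3 393 394) (mv 425 (both (five 3 392 392) (mv 457 (both (five 2 424 456) (five 2 425 458)))))))))))))))))))))))))))))) (both (mv 495 (both (mv 494 (both (five 0 492 492) (mv 496 (both (five 2 492 524) (mv 464 (both (five 1 461 465) (mv 432 (both (five 6 431 559) (mv 399 (both (five 7 399 431) (mv 400 (both (five 7 367 367) (mv 401 (both (five 5 368 369) (five 5 400 433))))))))))))))) (both (mv 463 (both (mv 431 (both (five 4 431 560) (mv 398 (both (five 7 398 430) (mv 399 (both (five 7 366 366) (five 4 399 496))))))) (both (mv 559 (both (mv 560 (both (five 4 463 592) (mv 590 (both (five 6 462 558) (mv 591 (both (five 6 494 622) (mv 623 (both (five 5 495 496) (five 5 527 655))))))))) (both (mv 430 (both (five 7 430 462) (mv 432 (both (five 5 431 464) (mv 590 (both (five 6 462 558) (mv 591 (both (five 6 494 622) (mv 592 (both (five 4 463 560) (five 4 495 624)))))))))))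 (mv 462 (both (five 7 430 430) (mv 464 (both (five 5 431 432) (mv 461 (both (five 2 460 492) (mv 496 (both (five 0 460 460) (five 0 461 497)))))))))))) (both (mv 559 (both (mv 590 (both (five 6 462 558) (mv 591 (both (five 6 494 622) (mv 623 (both (five 5 495 496) (mv 624 (both (five 4 495 592) (five 4 527 656))))))))) (mv 430 (both (five 7 430 462) (mv 431 (both (five 7 398 398) (mv 432 (both (five 5 399 400) (five 5 431 464))))))))) (both (mv 431 (both (five 4 431 560) (mv 398 (both (five 7 398 430) (mv 399 (both (five 7 366 366) (mv 400 (both (five 5 367 368) (five 5 399 432))))))))) (mv 431 (both (five 4 431 560) (mv 399 (both (five 4 399 496) (mv 400 (both (five 5 367 368) (five 5 399 432)))))))))))) (both (mv 463 (both (mv 431 (both (five 4 431 560) (mv 398 (both (five 7 398 430) (mv 399 (both (five 7 366 366) (five 4 399 496))))))) (both (mv 559 (both (mv 590 (both (five 6 462 558) (mv 591 (both (five 6 494 622) (mv 592 (both (five 4 463 560) (five 4 495 624))))))) (both (mv 590 (both (five 6 462 558) (mv 591 (both (five 6 494 622) (mv 623 (both (five 5 495 496) (mv 624 (both (five 4 495 592)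 (five 4 527 656))))))))) (both (mv 590 (both (five 6 462 558) (mv 591 (both (five 6 494 622) (mv 623 (both (five 5 495 496) (mv 655 (both (five 5 527 560) (mv 656 (both (five 4 527 624) (five 4 559 688))))))))))) (mv 462 (both (five 7 430 430) (mv 464 (both (five 5 431 432) (mv 465 (both (five 2 461 494) (mv 433 (both (five 1 430 434) (mv 560 (both (five 5 432 496) (five 4 463 592))))))))))))))) (both (mv 559 (both (mv 590 (both (five 6 462 558) (mv 591 (both (five 6 494 622) (mv 623 (both (five 5 495 496) (mv 624 (both (five 4 495 592) (five 4 527 656))))))))) (mv 430 (both (five 7 430 462) (mv 431 (both (five 7 398 398) (mv 432 (both (five 5 399 400) (five 5 431 464))))))))) (both (mv 431 (both (five 4 431 560) (mv 398 (both (five 7 398 430) (mv 399 (both (five 7 366 366) (mv 400 (both (five 5 367 368) (five 5 399 432))))))))) (mv 431 (both (five 4 431 560) (mv 399 (both (five 4 399 496) (mv 400 (both (five 5 367 368) (five 5 399 432)))))))))))) (both (mv 463 (both (mv 431 (both (five 4 431 560) (mv 398 (both (five 7 398 430) (mv 399 (both (five 7 366 366) (mv 400 (both (five 5 367 368) (five 5 399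 432))))))))) (both (mv 559 (both (mv 590 (both (five 6 462 558) (mv 591 (both (five 6 494 622) (mv 592 (both (five 4 463 560) (five 4 495 624))))))) (mv 462 (both (five 7 430 430) (mv 464 (both (five 5 431 432) (mv 492 (both (five 2 460 461) (five 1 460 494))))))))) (both (mv 462 (both (mv 430 (both (five 7 430 559) (mv 398 (both (five 4 366 366) (five 7 398 431))))) (mv 492 (both (five 0 492 494) (mv 461 (both (five 2 460 464) (mv 491 (both (five 2 459 460) (five 1 458 490))))))))) (mv 431 (both (five 4 431 560) (mv 400 (both (five 5 399 432) (mv 399 (both (five 5 367 368) (mv 366 (both (five 7 366 398) (mv 367 (both (five 7 334 334) (mv 494 (both (five 6 366 462) (five 0 492 492))))))))))))))))) (both (mv 494 (both (five 0 492 492) (mv 496 (both (five 2 492 524) (mv 460 (both (five 3 460 461) (mv 464 (both (five 1 461 465) (mv 432 (both (five 6 399 400) (mv 401 (both (five 5 400 433) (mv 431 (both (five 7 399 399) (mv 560 (both (five 7 431 463) (mv 592 (both (five 7 495 624) (mv 593 (both (five 4 464 561) (five 4 496 625))))))))))))))))))))) (mv 494 (both (five 0 492 492) (mv 496 (both (five 2 492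 524) (mv 461 (both (five 3 460 460) (mv 462 (both (five 3 461 497) (mv 430 (both (five 6 397 398) (mv 559 (both (five 7 430 463) (five 7 462 591))))))))))))))))))) (both (mv 495 (both (mv 560 (both (mv 592 (both (five 7 495 624) (mv 496 (both (mv 465 (both (five 5 464 497) (mv 464 (both (five 5 432 433) (mv 593 (both (five 4 464 561) (five 4 496 625))))))) (both (mv 497 (both (five 5 464 465) (mv 498 (both (five 2 495 499) (mv 466 (both (five 1 463 467) (mv 530 (both (five 0 495 531) (mv 591 (both (five 6 495 623) (mv 593 (both (five 4 496 625) (mv 561 (both (five 6 465 562) (mv 590 (both (five 1 557 589) (mv 622 (both (five 6 494 559) (five 2 589 621))))))))))))))))))) (both (mv 465 (both (five 5 464 497) (mv 464 (both (five 5 432 433) (mv 432 (both (five 6 399 400) (five 6 431 559))))))) (mv 591 (both (five 6 495 623) (mv 464 (both (five 5 463 559) (mv 593 (both (five 4 464 561) (five 4 496 625))))))))))))) (both (mv 463 (both (five 4 431 431) (mv 559 (both (mv 590 (both (five 6 462 558) (mv 591 (both (five 6 494 622) (mv 623 (both (five 5 495 496) (five 5 527 655))))))) (both (mv 430 (both (five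 7 430 462) (mv 464 (both (five 5 431 432) (mv 496 (both (five 5 463 591) (mv 465 (both (five 5 432 433) (mv 466 (both (five 2 463 467) (mv 498 (both (five 0 463 499) (mv 561 (both (five 4 464 593) (mv 562 (both (five 3 527 563) (mv 530 (both (five 1 527 531) (mv 594 (both (five 7 465 497) (five 0 559 595))))))))))))))))))))) (mv 430 (both (five 7 430 462) (mv 432 (both (five 5 431 464) (mv 558 (both (five 6 462 590) (mv 557 (both (five 3 524 524) (five 1 524 556)))))))))))))) (both (mv 463 (both (five 4 431 431) (mv 592 (both (five 7 463 496) (five 7 495 624))))) (mv 463 (both (five 4 431 431) (mv 592 (both (five 4 463 559) (five 7 495 624))))))))) (both (mv 463 (both (mv 431 (both (five 4 431 560) (mv 398 (both (five 7 398 430) (mv 399 (both (five 7 366 366) (mv 400 (both (five 5 367 368) (five 5 399 432))))))))) (both (mv 559 (both (mv 462 (both (five 7 430 430) (mv 494 (both (five 0 492 492) (five 7 462 591))))) (both (mv 590 (both (five 6 462 558) (mv 591 (both (five 6 494 622) (mv 592 (both (five 4 463 560) (five 4 495 624))))))) (mv 430 (both (five 7 430 462) (mv 432 (both (five 5 431 464) (mv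 492 (both (five 0 492 494) (mv 558 (both (five 6 462 590) (mv 557 (both (five 1 524 556) (mv 560 (both (five 3 524 524) (five 4 463 592)))))))))))))))) (both (mv 559 (both (mv 462 (both (five 7 430 430) (mv 494 (both (five 0 492 492) (five 7 462 591))))) (both (mv 430 (both (five 7 430 462) (mv 431 (both (five 7 398 398) (mv 432 (both (five 5 399 400) (five 5 431 464))))))) (mv 432 (both (five 5 431 464) (mv 400 (both (five 5 399 431) (mv 492 (both (five 0 492 494) (mv 558 (both (five 6 462 590) (mv 557 (both (five 1 524 556) (mv 460 (both (five 7 460 589) (mv 428 (both (five 4 396 396) (five 4 428 524)))))))))))))))))) (both (mv 431 (both (five 4 431 560) (mv 400 (both (five 5 399 432) (mv 399 (both (five 5 367 368) (mv 366 (both (five 7 366 398) (mv 367 (both (five 7 334 334) (mv 494 (both (five 6 366 462) (five 0 492 492))))))))))))) (mv 431 (both (five 4 431 560) (mv 398 (both (five 7 398 430) (mv 399 (both (five 7 366 366) (mv 368 (both (five 5 367 400) (mv 367 (both (five 5 335 336) (mv 494 (both (five 6 366 462) (five 0 492 492)))))))))))))))))) (both (mv 494 (both (five 0 492 492) (mv 496 (both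 (five 2 492 524) (mv 464 (both (five 1 461 465) (mv 432 (both (five 6 399 400) (mv 401 (both (five 5 400 433) (mv 431 (both (five 7 399 399) (mv 560 (both (five 7 431 463) (mv 592 (both (five 7 495 624) (mv 593 (both (five 4 464 561) (five 4 496 625))))))))))))))))))) (both (mv 560 (both (mv 559 (both (mv 463 (both (five 4 431 431) (mv 558 (both (five 6 462 590) (mv 557 (both (five 3 524 524) (five 1 524 556))))))) (both (mv 494 (both (five 0 492 492) (mv 462 (both (five 7 462 591) (mv 557 (both (five 5 461 589) (mv 558 (both (five 3 524 524) (five 1 524 556))))))))) (mv 431 (both (five 4 431 463) (mv 494 (both (five 0 492 492) (mv 591 (both (five 7 462 462) (mv 623 (both (five 5 495 496) (five 5 527 655)))))))))))) (both (mv 494 (both (five 0 492 492) (mv 496 (both (five 2 492 524) (mv 592 (both (five 7 495 624) (mv 497 (both (five 5 464 465) (mv 498 (both (five 2 495 499) (mv 466 (both (five 1 463 467) (mv 530 (both (five 0 495 531) (mv 591 (both (five 6 495 623) (mv 593 (both (five 4 496 625) (mv 561 (both (five 6 465 562) (mv 590 (both (five 1 557 589) (mv 622 (both (five 6 494 559) (five 2 589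 621))))))))))))))))))))))))) (both (mv 463 (both (five 4 431 431) (mv 592 (both (five 7 463 496) (five 7 495 624))))) (mv 463 (both (five 4 431 431) (mv 592 (both (five 4 463 559) (five 7 495 624))))))))) (both (mv 463 (both (mv 431 (both (five 4 431 560) (mv 398 (both (five 7 398 430) (mv 399 (both (five 7 366 366) (five 4 399 496))))))) (both (mv 559 (both (mv 590 (both (five 6 462 558) (mv 591 (both (five 6 494 622) (mv 592 (both (five 4 463 560) (five 4 495 624))))))) (both (mv 590 (both (five 6 462 558) (mv 591 (both (five 6 494 622) (mv 623 (both (five 5 495 496) (mv 624 (both (five 4 495 592) (five 4 527 656))))))))) (both (mv 590 (both (five 6 462 558) (mv 591 (both (five 6 494 622) (mv 623 (both (five 5 495 496) (mv 655 (both (five 5 527 560) (mv 656 (both (five 4 527 624) (five 4 559 688))))))))))) (mv 462 (both (five 7 430 430) (mv 464 (both (five 5 431 432) (mv 465 (both (five 2 461 494) (mv 433 (both (five 1 430 434) (mv 560 (both (five 5 432 496) (five 4 463 592))))))))))))))) (both (mv 559 (both (mv 590 (both (five 6 462 558) (mv 591 (both (five 6 494 622) (mv 623 (both (five 5 495 496)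 (mv 624 (both (five 4 495 592) (five 4 527 656))))))))) (mv 430 (both (five 7 430 462) (mv 431 (both (five 7 398 398) (mv 432 (both (five 5 399 400) (five 5 431 464))))))))) (both (mv 431 (both (five 4 431 560) (mv 398 (both (five 7 398 430) (mv 399 (both (five 7 366 366) (mv 400 (both (five 5 367 368) (five 5 399 432))))))))) (mv 431 (both (five 4 431 560) (mv 399 (both (five 4 399 496) (mv 400 (both (five 5 367 368) (five 5 399 432)))))))))))) (mv 494 (both (five 0 492 492) (mv 496 (both (five 2 492 524) (mv 464 (both (five 1 461 465) (mv 432 (both (five 6 399 400) (five 6 431 559))))))))))))))) (both (ref 1) (both (mv 461 (both (mv 557 (both (mv 462 (both (five 5 429 430) (mv 589 (both (five 5 461 494) (mv 590 (both (five 4 461 558) (five 4 493 622))))))) (both (mv 460 (both (five 7 428 428) (mv 589 (both (five 7 460 492) (mv 590 (both (five 4 461 558) (five 4 493 622))))))) (mv 494 (both (mv 460 (both (five 7 428 428) (mv 459 (both (five 0 458 458) (mv 462 (both (five 5 429 430) (mv 426 (both (five 3 426 427) (mv 491 (both (five 2 458 490) (mv 463 (both (five 2 459 492) (mv 431 (both (five 1 428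 432) (mv 367 (both (five 6 366 399) (mv 464 (both (five 2 461 465) (mv 496 (both (five 0 461 497) (five 7 431 560))))))))))))))))))))) (both (mv 495 (both (five 0 492 492) (mv 496 (both (five 2 492 524) (mv 464 (both (five 1 461 465) (mv 432 (both (five 6 399 400) (mv 401 (both (five 5 400 433) (mv 431 (both (five 7 399 399) (mv 560 (both (five 7 431 463) (mv 592 (both (five 7 495 624) (mv 593 (both (five 4 464 561) (five 4 496 625))))))))))))))))))) (mv 460 (both (five 7 428 428) (mv 459 (both (five 0 458 458) (mv 462 (both (five 5 429 430) (five 0 459 495))))))))))))) (both (mv 429 (both (mv 398 (both (five 5 397 430) (mv 397 (both (five 5 365 366) (mv 524 (both (five 6 396 492) (five 6 428 556))))))) (both (mv 396 (both (five 7 396 428) (mv 397 (both (five 7 364 364) (mv 524 (both (five 6 396 492) (five 6 428 556))))))) (mv 428 (both (five 7 396 396) (mv 427 (both (mv 426 (both (five 0 426 462) (mv 393 (both (five 3 393 394) (mv 425 (both (five 3 392 392) (five 0 425 460))))))) (both (mv 430 (both (five 5 397 398) (mv 459 (both (five 2 426 458) (mv 431 (both (five 2 427 460) (mv 399 (both (five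 1 396 400) (mv 464 (both (five 0 428 463) (mv 432 (both (five 0 429 465) (five 7 399 496))))))))))))) (mv 398 (both (five 5 397 430) (mv 426 (both (five 0 426 462) (mv 393 (both (five 3 393 394) (mv 425 (both (five 3 392 392) (mv 457 (both (five 2 424 456) (five 2 425 458))))))))))))))))))) (both (mv 429 (both (mv 396 (both (five 7 396 428) (mv 397 (both (five 7 364 364) (mv 524 (both (five 6 396 492) (five 6 428 556))))))) (both (mv 398 (both (five 5 397 430) (mv 397 (both (five 5 365 366) (mv 524 (both (five 6 396 492) (five 6 428 556))))))) (mv 428 (both (five 7 396 396) (mv 430 (both (five 5 397 398) (mv 462 (both (five 5 429 557) (mv 427 (both (five 0 426 426) (five 0 427 463)))))))))))) (both (mv 429 (both (mv 398 (both (five 5 397 430) (mv 397 (both (five 5 365 366) (mv 524 (both (five 6 396 492) (five 6 428 556))))))) (both (mv 396 (both (five 7 396 428) (mv 397 (both (five 7 364 364) (mv 524 (both (five 6 396 492) (five 6 428 556))))))) (mv 428 (both (five 7 396 396) (mv 430 (both (five 5 397 398) (mv 460 (both (five 7 428 557) (mv 431 (both (five 2 428 432) (five 2 427 459)))))))))))) (both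 (mv 428 (both (mv 396 (both (five 7 396 429) (mv 460 (both (five 4 364 364) (five 7 428 557))))) (both (mv 557 (both (five 7 428 460) (mv 462 (both (five 5 429 430) (mv 589 (both (five 5 461 494) (mv 590 (both (five 4 461 558) (five 4 493 622))))))))) (both (mv 429 (both (five 7 396 396) (mv 430 (both (five 5 397 398) (mv 462 (both (five 5 429 557) (mv 427 (both (five 0 426 426) (five 0 427 463))))))))) (mv 429 (both (five 7 396 396) (mv 427 (both (mv 426 (both (five 0 426 462) (mv 393 (both (five 3 393 394) (mv 425 (both (five 3 392 392) (five 0 425 460))))))) (both (mv 430 (both (five 5 397 398) (mv 459 (both (five 2 426 458) (mv 431 (both (five 2 427 460) (mv 399 (both (five 1 396 400) (mv 464 (both (five 0 428 463) (mv 432 (both (five 0 429 465) (five 7 399 496))))))))))))) (mv 398 (both (five 5 397 430) (mv 426 (both (five 0 426 462) (mv 393 (both (five 3 393 394) (mv 425 (both (five 3 392 392) (mv 457 (both (five 2 424 456) (five 2 425 458)))))))))))))))))))) (both (mv 557 (both (mv 460 (both (five 7 428 428) (mv 589 (both (five 7 460 492) (mv 590 (both (five 4 461 558) (five 4 493 622)))))))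 (both (mv 590 (both (five 4 461 558) (mv 589 (both (five 4 493 622) (mv 494 (both (five 5 461 462) (mv 495 (both (five 0 492 492) (mv 496 (both (five 2 492 524) (mv 464 (both (five 1 461 465) (mv 432 (both (five 6 399 400) (mv 401 (both (five 5 400 433) (mv 431 (both (five 7 399 399) (mv 560 (both (five 7 431 463) (mv 592 (both (five 7 495 624) (mv 593 (both (five 4 464 561) (five 4 496 625))))))))))))))))))))))))) (both (mv 495 (both (mv 590 (both (five 4 461 558) (mv 589 (both (five 4 493 622) (mv 494 (both (five 5 461 462) (mv 496 (both (five 2 492 524) (mv 464 (both (five 1 461 465) (mv 432 (both (five 6 399 400) (mv 401 (both (five 5 400 433) (mv 431 (both (five 7 399 399) (mv 560 (both (five 7 431 463) (mv 592 (both (five 7 495 624) (mv 593 (both (five 4 464 561) (five 4 496 625))))))))))))))))))))))) (both (mv 428 (both (five 7 428 460) (mv 429 (both (five 7 396 396) (mv 524 (both (five 6 428 556) (mv 590 (both (five 4 461 558) (mv 589 (both (five 4 493 622) (mv 462 (both (five 5 461 494) (mv 463 (both (five 3 428 464) (mv 431 (both (five 4 431 560) (mv 400 (both (five 5 399 432) (mv 399 (both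 (five 5 367 368) (mv 398 (both (five 7 366 366) (five 2 396 397))))))))))))))))))))))) (both (mv 428 (both (five 7 428 460) (mv 429 (both (five 7 396 396) (mv 556 (both (five 6 428 524) (mv 590 (both (five 4 461 558) (mv 589 (both (five 4 493 622) (mv 554 (both (five 0 554 555) (mv 592 (both (five 3 556 591) (mv 560 (both (five 7 495 624) (mv 463 (both (five 4 431 431) (five 7 463 496))))))))))))))))))) (mv 460 (both (five 7 428 428) (mv 494 (both (five 3 460 496) (mv 459 (both (five 0 458 458) (five 0 459 462))))))))))) (mv 494 (both (mv 495 (both (five 0 492 492) (mv 496 (both (five 2 492 524) (mv 464 (both (five 1 461 465) (mv 432 (both (five 6 399 400) (mv 401 (both (five 5 400 433) (mv 431 (both (five 7 399 399) (mv 560 (both (five 7 431 463) (mv 592 (both (five 7 495 624) (mv 593 (both (five 4 464 561) (five 4 496 625))))))))))))))))))) (both (mv 428 (both (five 7 428 460) (mv 429 (both (five 7 396 396) (mv 524 (both (five 6 428 556) (mv 397 (both (five 6 396 492) (mv 365 (both (five 4 365 462) (mv 366 (both (five 5 333 334) (five 5 365 398))))))))))))) (mv 460 (both (five 7 428 428) (mv 459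 (both (five 0 458 458) (mv 495 (both (five 0 459 462) (five 3 460 496)))))))))))))) (mv 429 (both (mv 524 (both (five 6 428 556) (mv 397 (both (five 6 396 492) (mv 364 (both (five 7 364 396) (mv 365 (both (five 7 332 332) (mv 366 (both (five 5 333 334) (five 5 365 398))))))))))) (both (mv 524 (both (five 6 428 556) (mv 397 (both (five 6 396 492) (mv 364 (both (five 7 364 396) (mv 365 (both (five 7 332 332) (mv 334 (both (five 5 333 366) (mv 333 (both (five 5 301 302) (mv 462 (both (five 4 333 430) (five 4 365 494))))))))))))))) (both (mv 430 (both (five 5 397 398) (mv 524 (both (five 6 428 556) (mv 557 (both (five 5 429 462) (mv 590 (both (five 4 461 558) (mv 589 (both (five 4 493 622) (mv 492 (both (five 7 460 460) (five 7 492 621))))))))))))) (mv 397 (both (mv 398 (both (five 5 365 366) (five 5 397 430))) (both (mv 364 (both (five 7 364 396) (mv 365 (both (five 7 332 332) (mv 334 (both (five 5 333 366) (mv 333 (both (five 5 301 302) (mv 462 (both (five 4 333 430) (five 4 365 494))))))))))) (both (mv 364 (both (five 7 364 396) (mv 365 (both (five 7 332 332) (mv 366 (both (five 5 333 334) (five 5 365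 398))))))) (mv 364 (both (five 7 364 396) (mv 365 (both (five 7 332 332) (mv 430 (both (five 5 397 398) (mv 462 (both (five 4 333 333) (five 4 365 494)))))))))))))))))))))))) (both (mv 494 (both (mv 495 (both (five 0 492 492) (mv 496 (both (five 2 492 524) (mv 464 (both (five 1 461 465) (mv 432 (both (five 6 399 400) (five 6 431 559))))))))) (both (mv 557 (both (mv 462 (both (five 5 461 589) (mv 430 (both (five 6 397 398) (five 5 429 461))))) (both (mv 461 (both (mv 428 (both (five 7 428 460) (mv 429 (both (five 7 396 396) (mv 398 (both (five 5 397 430) (mv 366 (both (five 5 365 397) (mv 556 (both (five 6 428 524) (mv 558 (both (five 1 524 559) (five 4 461 590))))))))))))) (both (mv 428 (both (five 7 428 460) (mv 429 (both (five 7 396 396) (mv 524 (both (five 6 428 556) (mv 397 (both (five 6 396 492) (mv 365 (both (five 4 365 462) (mv 366 (both (five 5 333 334) (five 5 365 398))))))))))))) (both (mv 430 (both (five 5 429 462) (mv 429 (both (five 5 397 398) (mv 556 (both (five 6 428 524) (mv 558 (both (five 1 524 559) (five 4 461 590))))))))) (mv 460 (both (five 7 428 428) (mv 459 (both (five 0 458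 458) (mv 462 (both (five 5 429 430) (mv 426 (both (five 3 426 427) (mv 491 (both (five 2 458 490) (mv 463 (both (five 2 459 492) (mv 432 (both (five 1 428 431) (mv 464 (both (five 1 429 433) (five 2 461 465))))))))))))))))))))) (both (mv 461 (both (mv 460 (both (five 7 428 428) (mv 589 (both (five 7 460 492) (mv 590 (both (five 4 461 558) (five 4 493 622))))))) (both (mv 558 (both (five 4 461 590) (mv 556 (both (five 1 524 559) (mv 429 (both (five 6 428 524) (mv 396 (both (five 7 396 428) (mv 397 (both (five 7 364 364) (mv 398 (both (five 5 365 366) (five 5 397 430))))))))))))) (both (mv 429 (both (mv 396 (both (five 7 396 428) (mv 397 (both (five 7 364 364) (mv 524 (both (five 6 396 492) (five 6 428 556))))))) (both (mv 524 (both (five 6 428 556) (mv 492 (both (five 6 396 397) (mv 589 (both (five 7 460 460) (five 7 492 621))))))) (mv 428 (both (five 7 396 396) (five 7 428 460)))))) (mv 590 (both (five 4 461 558) (mv 589 (both (five 4 493 622) (mv 492 (both (five 7 460 460) (mv 524 (both (five 7 492 621) (mv 429 (both (five 6 396 397) (five 6 428 556))))))))))))))) (mv 589 (both (five 5 461 462) (mv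 622 (both (five 4 493 590) (mv 621 (both (five 4 525 654) (mv 524 (both (five 7 492 492) (mv 652 (both (five 6 524 620) (mv 653 (both (five 7 524 556) (five 6 556 684))))))))))))))))) (both (mv 462 (both (mv 430 (both (five 6 397 398) (mv 557 (both (five 5 429 461) (five 5 461 589))))) (both (mv 495 (both (mv 496 (both (five 2 492 524) (mv 464 (both (five 1 461 465) (mv 432 (both (five 6 399 400) (five 6 431 559))))))) (both (mv 557 (both (five 5 461 589) (mv 559 (both (five 7 462 591) (mv 558 (both (five 1 524 556) (mv 590 (both (five 4 461 461) (five 6 462 463))))))))) (mv 496 (both (five 2 492 524) (mv 465 (both (five 1 461 464) (mv 497 (both (five 1 462 466) (mv 498 (both (five 3 462 463) (five 2 495 499)))))))))))) (mv 495 (both (mv 430 (both (five 6 397 398) (mv 559 (both (five 7 430 463) (five 7 462 591))))) (both (mv 496 (both (five 2 492 524) (mv 464 (both (five 1 461 465) (mv 432 (both (five 6 399 400) (five 6 431 559))))))) (mv 496 (both (five 2 492 524) (mv 465 (both (five 1 461 464) (mv 497 (both (five 1 462 466) (mv 498 (both (five 3 462 463) (five 2 495 499))))))))))))))) (both (mv 462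 (both (mv 430 (both (five 6 397 398) (mv 557 (both (five 5 429 461) (five 5 461 589))))) (both (mv 492 (both (five 0 492 495) (mv 463 (both (five 1 459 491) (mv 464 (both (five 2 460 461) (five 2 461 465))))))) (mv 398 (both (five 6 397 430) (mv 492 (both (five 0 492 495) (mv 491 (both (five 1 459 463) (mv 458 (both (five 3 458 459) (mv 490 (both (five 3 457 457) (mv 522 (both (five 2 489 521) (five 2 490 523)))))))))))))))) (mv 495 (both (five 0 492 492) (mv 496 (both (five 2 492 524) (mv 461 (both (five 3 460 460) (mv 462 (both (five 3 461 497) (mv 430 (both (five 6 397 398) (mv 559 (both (five 7 430 463) (five 7 462 591)))))))))))))))))) (both (mv 495 (both (mv 463 (both (mv 431 (both (five 4 431 560) (mv 398 (both (five 7 398 430) (mv 399 (both (five 7 366 366) (five 4 399 496))))))) (both (mv 559 (both (mv 560 (both (five 4 463 592) (mv 590 (both (five 6 462 558) (mv 591 (both (five 6 494 622) (mv 623 (both (five 5 495 496) (five 5 527 655))))))))) (both (mv 430 (both (five 7 430 462) (mv 432 (both (five 5 431 464) (mv 590 (both (five 6 462 558) (mv 591 (both (five 6 494 622) (mv 592 (both (five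 4 463 560) (five 4 495 624))))))))))) (mv 462 (both (five 7 430 430) (mv 464 (both (five 5 431 432) (mv 461 (both (five 2 460 492) (mv 496 (both (five 0 460 460) (five 0 461 497)))))))))))) (both (mv 559 (both (mv 590 (both (five 6 462 558) (mv 591 (both (five 6 494 622) (mv 623 (both (five 5 495 496) (mv 624 (both (five 4 495 592) (five 4 527 656))))))))) (mv 430 (both (five 7 430 462) (mv 431 (both (five 7 398 398) (mv 432 (both (five 5 399 400) (five 5 431 464))))))))) (both (mv 431 (both (five 4 431 560) (mv 398 (both (five 7 398 430) (mv 399 (both (five 7 366 366) (mv 400 (both (five 5 367 368) (five 5 399 432))))))))) (mv 431 (both (five 4 431 560) (mv 399 (both (five 4 399 496) (mv 400 (both (five 5 367 368) (five 5 399 432)))))))))))) (both (mv 463 (both (mv 431 (both (five 4 431 560) (mv 398 (both (five 7 398 430) (mv 399 (both (five 7 366 366) (five 4 399 496))))))) (both (mv 559 (both (mv 590 (both (five 6 462 558) (mv 591 (both (five 6 494 622) (mv 592 (both (five 4 463 560) (five 4 495 624))))))) (both (mv 590 (both (five 6 462 558) (mv 591 (both (five 6 494 622) (mv 623 (both (five 5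 495 496) (mv 624 (both (five 4 495 592) (five 4 527 656))))))))) (both (mv 590 (both (five 6 462 558) (mv 591 (both (five 6 494 622) (mv 623 (both (five 5 495 496) (mv 655 (both (five 5 527 560) (mv 656 (both (five 4 527 624) (five 4 559 688))))))))))) (mv 462 (both (five 7 430 430) (mv 464 (both (five 5 431 432) (mv 465 (both (five 2 461 494) (mv 433 (both (five 1 430 434) (mv 560 (both (five 5 432 496) (five 4 463 592))))))))))))))) (both (mv 559 (both (mv 590 (both (five 6 462 558) (mv 591 (both (five 6 494 622) (mv 623 (both (five 5 495 496) (mv 624 (both (five 4 495 592) (five 4 527 656))))))))) (mv 430 (both (five 7 430 462) (mv 431 (both (five 7 398 398) (mv 432 (both (five 5 399 400) (five 5 431 464))))))))) (both (mv 431 (both (five 4 431 560) (mv 398 (both (five 7 398 430) (mv 399 (both (five 7 366 366) (mv 400 (both (five 5 367 368) (five 5 399 432))))))))) (mv 431 (both (five 4 431 560) (mv 399 (both (five 4 399 496) (mv 400 (both (five 5 367 368) (five 5 399 432)))))))))))) (both (mv 494 (both (five 0 492 492) (mv 496 (both (mv 464 (both (five 1 461 465) (mv 432 (both (five 6 399 400)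 (five 6 431 559))))) (mv 461 (both (five 3 460 460) (mv 462 (both (five 3 461 497) (mv 430 (both (five 4 398 398) (five 5 429 557))))))))))) (both (mv 494 (both (five 0 492 492) (mv 496 (both (mv 461 (both (five 3 460 460) (mv 462 (both (five 3 461 497) (mv 430 (both (five 4 398 398) (five 5 429 557))))))) (mv 464 (both (five 1 461 465) (mv 432 (both (five 6 399 400) (mv 401 (both (five 5 400 433) (mv 431 (both (five 7 399 399) (mv 560 (both (five 7 431 463) (mv 592 (both (five 7 495 624) (mv 593 (both (five 4 464 561) (five 4 496 625))))))))))))))))))) (both (mv 494 (both (five 0 492 492) (mv 462 (both (mv 430 (both (five 6 397 398) (mv 559 (both (five 7 430 463) (five 7 462 591))))) (both (mv 557 (both (five 5 461 589) (mv 559 (both (five 7 462 591) (mv 558 (both (five 1 524 556) (mv 590 (both (five 4 461 461) (five 6 462 463))))))))) (mv 430 (both (five 6 397 398) (mv 557 (both (five 5 429 461) (five 5 461 589)))))))))) (mv 560 (both (mv 592 (both (five 7 495 624) (mv 496 (both (mv 465 (both (five 5 464 497) (mv 464 (both (five 5 432 433) (mv 593 (both (five 4 464 561) (five 4 496 625))))))) (both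 (mv 497 (both (five 5 464 465) (mv 498 (both (five 2 495 499) (mv 466 (both (five 1 463 467) (mv 530 (both (five 0 495 531) (mv 591 (both (five 6 495 623) (mv 593 (both (five 4 496 625) (mv 561 (both (five 6 465 562) (mv 590 (both (five 1 557 589) (mv 622 (both (five 6 494 559) (five 2 589 621))))))))))))))))))) (both (mv 465 (both (five 5 464 497) (mv 464 (both (five 5 432 433) (mv 432 (both (five 6 399 400) (five 6 431 559))))))) (mv 591 (both (five 6 495 623) (mv 464 (both (five 5 463 559) (mv 593 (both (five 4 464 561) (five 4 496 625))))))))))))) (both (mv 464 (both (mv 463 (both (five 4 431 431) (mv 492 (both (five 1 460 494) (mv 559 (both (five 5 431 432) (mv 558 (both (five 6 462 590) (mv 557 (both (five 1 524 556) (mv 460 (both (five 7 460 589) (mv 428 (both (five 4 396 396) (five 7 428 461))))))))))))))) (both (mv 494 (both (five 0 492 492) (mv 496 (both (five 1 461 465) (mv 432 (both (five 6 399 400) (five 6 431 559))))))) (both (mv 463 (both (five 4 431 431) (mv 432 (both (five 5 431 559) (mv 400 (both (five 6 367 368) (five 6 399 496))))))) (mv 463 (both (five 4 431 431) (mv 494 (both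 (five 1 460 492) (mv 465 (both (five 2 462 466) (five 1 461 496))))))))))) (both (mv 463 (both (five 4 431 431) (mv 592 (both (five 4 463 559) (five 7 495 624))))) (mv 463 (both (five 4 431 431) (mv 592 (both (five 7 463 496) (five 7 495 624))))))))))))))) (both (mv 495 (both (mv 494 (both (five 0 492 492) (mv 496 (both (five 2 492 524) (mv 464 (both (five 1 461 465) (mv 432 (both (five 6 399 400) (five 6 431 559))))))))) (both (mv 560 (both (mv 463 (both (five 4 431 431) (mv 559 (both (mv 558 (both (five 6 462 590) (mv 557 (both (five 3 524 524) (five 1 524 556))))) (mv 464 (both (five 5 431 432) (mv 496 (both (five 5 463 591) (mv 465 (both (five 5 432 433) (mv 466 (both (five 2 463 467) (mv 498 (both (five 0 463 499) (mv 561 (both (five 4 464 593) (mv 562 (both (five 3 527 563) (mv 530 (both (five 1 527 531) (mv 594 (both (five 7 465 497) (five 0 559 595))))))))))))))))))))))) (both (mv 592 (both (five 7 495 624) (mv 496 (both (mv 465 (both (five 5 464 497) (mv 464 (both (five 5 432 433) (mv 593 (both (five 4 464 561) (five 4 496 625))))))) (both (mv 497 (both (five 5 464 465) (mv 498 (both (five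 2 495 499) (mv 466 (both (five 1 463 467) (mv 530 (both (five 0 495 531) (mv 591 (both (five 6 495 623) (mv 593 (both (five 4 496 625) (mv 561 (both (five 6 465 562) (mv 590 (both (five 1 557 589) (mv 622 (both (five 6 494 559) (five 2 589 621))))))))))))))))))) (both (mv 465 (both (five 5 464 497) (mv 464 (both (five 5 432 433) (mv 432 (both (five 6 399 400) (five 6 431 559))))))) (mv 591 (both (five 6 495 623) (mv 464 (both (five 5 463 559) (mv 593 (both (five 4 464 561) (five 4 496 625))))))))))))) (both (mv 463 (both (five 4 431 431) (mv 592 (both (five 4 463 559) (five 7 495 624))))) (mv 463 (both (five 4 431 431) (mv 592 (both (five 7 463 496) (five 7 495 624))))))))) (both (mv 557 (both (mv 558 (both (mv 590 (both (five 4 461 461) (mv 622 (both (five 4 493 589) (five 7 525 654))))) (mv 559 (both (five 1 524 556) (mv 560 (both (five 3 524 524) (mv 592 (both (five 0 557 593) (five 7 495 624))))))))) (both (mv 492 (both (five 0 492 494) (mv 460 (both (five 7 460 589) (mv 428 (both (five 4 396 396) (five 4 428 524))))))) (both (mv 558 (both (mv 559 (both (five 1 524 556) (mv 560 (both (five 3 524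 524) (mv 592 (both (five 0 557 593) (five 7 495 624))))))) (both (mv 461 (both (five 4 461 590) (mv 428 (both (five 7 428 460) (mv 429 (both (five 7 396 396) (mv 398 (both (five 5 397 430) (mv 397 (both (five 5 365 366) (mv 492 (both (five 0 492 494) (five 6 396 524))))))))))))) (mv 556 (both (five 1 524 559) (mv 590 (both (five 4 461 461) (mv 555 (both (five 0 555 591) (mv 522 (both (five 3 522 523) (mv 554 (both (five 3 521 521) (mv 586 (both (five 2 553 585) (five 2 554 587)))))))))))))))) (mv 492 (both (five 0 492 494) (mv 460 (both (five 7 460 589) (mv 428 (both (five 4 396 396) (five 7 428 461))))))))))) (both (mv 494 (both (five 0 492 492) (mv 496 (both (five 2 492 524) (mv 464 (both (five 1 461 465) (mv 432 (both (five 6 399 400) (mv 401 (both (five 5 400 433) (mv 431 (both (five 7 399 399) (mv 560 (both (five 7 431 463) (mv 592 (both (five 7 495 624) (mv 593 (both (five 4 464 561) (five 4 496 625))))))))))))))))))) (mv 560 (both (mv 592 (both (five 7 495 624) (mv 496 (both (mv 465 (both (five 5 464 497) (mv 464 (both (five 5 432 433) (mv 593 (both (five 4 464 561) (five 4 496 625))))))) (both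 (mv 497 (both (five 5 464 465) (mv 498 (both (five 2 495 499) (mv 466 (both (five 1 463 467) (mv 530 (both (five 0 495 531) (mv 591 (both (five 6 495 623) (mv 593 (both (five 4 496 625) (mv 561 (both (five 6 465 562) (mv 590 (both (five 1 557 589) (mv 622 (both (five 6 494 559) (five 2 589 621))))))))))))))))))) (both (mv 465 (both (five 5 464 497) (mv 464 (both (five 5 432 433) (mv 432 (both (five 6 399 400) (five 6 431 559))))))) (mv 591 (both (five 6 495 623) (mv 464 (both (five 5 463 559) (mv 593 (both (five 4 464 561) (five 4 496 625))))))))))))) (both (mv 464 (both (mv 463 (both (five 4 431 431) (mv 492 (both (five 1 460 494) (mv 559 (both (five 5 431 432) (mv 558 (both (five 6 462 590) (mv 557 (both (five 1 524 556) (mv 460 (both (five 7 460 589) (mv 428 (both (five 4 396 396) (five 7 428 461))))))))))))))) (both (mv 494 (both (five 0 492 492) (mv 496 (both (five 1 461 465) (mv 432 (both (five 6 399 400) (five 6 431 559))))))) (both (mv 463 (both (five 4 431 431) (mv 432 (both (five 5 431 559) (mv 400 (both (five 6 367 368) (five 6 399 496))))))) (mv 463 (both (five 4 431 431) (mv 494 (both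 (five 1 460 492) (mv 465 (both (five 2 462 466) (five 1 461 496))))))))))) (both (mv 463 (both (five 4 431 431) (mv 592 (both (five 4 463 559) (five 7 495 624))))) (mv 463 (both (five 4 431 431) (mv 592 (both (five 7 463 496) (five 7 495 624)))))))))))))) (both (mv 495 (both (mv 494 (both (five 0 492 492) (mv 496 (both (five 2 492 524) (mv 464 (both (five 1 461 465) (mv 432 (both (five 6 399 400) (five 6 431 559))))))))) (both (mv 560 (both (mv 463 (both (five 4 431 431) (mv 559 (both (mv 558 (both (five 6 462 590) (mv 557 (both (five 3 524 524) (five 1 524 556))))) (mv 464 (both (five 5 431 432) (mv 496 (both (five 5 463 591) (mv 465 (both (five 5 432 433) (mv 466 (both (five 2 463 467) (mv 498 (both (five 0 463 499) (mv 561 (both (five 4 464 593) (mv 562 (both (five 3 527 563) (mv 530 (both (five 1 527 531) (mv 594 (both (five 7 465 497) (five 0 559 595))))))))))))))))))))))) (both (mv 592 (both (five 7 495 624) (mv 496 (both (mv 465 (both (five 5 464 497) (mv 464 (both (five 5 432 433) (mv 593 (both (five 4 464 561) (five 4 496 625))))))) (both (mv 497 (both (five 5 464 465) (mv 498 (both (five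 2 495 499) (mv 466 (both (five 1 463 467) (mv 530 (both (five 0 495 531) (mv 591 (both (five 6 495 623) (mv 593 (both (five 4 496 625) (mv 561 (both (five 6 465 562) (mv 590 (both (five 1 557 589) (mv 622 (both (five 6 494 559) (five 2 589 621))))))))))))))))))) (both (mv 465 (both (five 5 464 497) (mv 464 (both (five 5 432 433) (mv 432 (both (five 6 399 400) (five 6 431 559))))))) (mv 591 (both (five 6 495 623) (mv 464 (both (five 5 463 559) (mv 593 (both (five 4 464 561) (five 4 496 625))))))))))))) (both (mv 463 (both (five 4 431 431) (mv 592 (both (five 4 463 559) (five 7 495 624))))) (mv 463 (both (five 4 431 431) (mv 592 (both (five 7 463 496) (five 7 495 624))))))))) (both (mv 494 (both (five 0 492 492) (mv 462 (both (mv 430 (both (five 6 397 398) (mv 559 (both (five 7 430 463) (five 7 462 591))))) (both (mv 557 (both (five 5 461 589) (mv 559 (both (five 7 462 591) (mv 558 (both (five 1 524 556) (mv 590 (both (five 4 461 461) (five 6 462 463))))))))) (mv 430 (both (five 6 397 398) (mv 557 (both (five 5 429 461) (five 5 461 589)))))))))) (mv 494 (both (five 0 492 492) (mv 496 (both (five 2 492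 524) (mv 464 (both (five 1 461 465) (mv 432 (both (five 6 399 400) (mv 401 (both (five 5 400 433) (mv 431 (both (five 7 399 399) (mv 560 (both (five 7 431 463) (mv 592 (both (five 7 495 624) (mv 593 (both (five 4 464 561) (five 4 496 625))))))))))))))))))))))) (both (mv 494 (both (mv 495 (both (five 0 492 492) (mv 496 (both (five 2 492 524) (mv 464 (both (five 1 461 465) (mv 432 (both (five 6 399 400) (five 6 431 559))))))))) (both (mv 557 (both (mv 462 (both (five 5 461 589) (mv 430 (both (five 6 397 398) (five 5 429 461))))) (both (mv 461 (both (mv 428 (both (five 7 428 460) (mv 429 (both (five 7 396 396) (mv 430 (both (five 5 397 398) (five 5 429 462))))))) (mv 558 (both (five 4 461 590) (mv 559 (both (five 1 524 556) (mv 560 (both (five 3 524 524) (mv 592 (both (five 0 557 593) (mv 624 (both (five 7 527 656) (mv 623 (both (five 6 527 655) (mv 496 (both (five 5 495 591) (mv 464 (both (five 6 431 432) (mv 465 (both (five 5 432 433) (five 5 464 497))))))))))))))))))))) (both (mv 461 (both (mv 460 (both (five 7 428 428) (mv 589 (both (five 7 460 492) (mv 590 (both (five 4 461 558) (five 4 493 622)))))))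 (both (mv 558 (both (five 4 461 590) (mv 556 (both (five 1 524 559) (mv 429 (both (five 6 428 524) (mv 396 (both (five 7 396 428) (mv 397 (both (five 7 364 364) (mv 398 (both (five 5 365 366) (five 5 397 430))))))))))))) (both (mv 429 (both (mv 396 (both (five 7 396 428) (mv 397 (both (five 7 364 364) (mv 524 (both (five 6 396 492) (five 6 428 556))))))) (both (mv 524 (both (five 6 428 556) (mv 492 (both (five 6 396 397) (mv 589 (both (five 7 460 460) (five 7 492 621))))))) (mv 428 (both (five 7 396 396) (five 7 428 460)))))) (mv 590 (both (five 4 461 558) (mv 589 (both (five 4 493 622) (mv 492 (both (five 7 460 460) (mv 524 (both (five 7 492 621) (mv 429 (both (five 6 396 397) (five 6 428 556))))))))))))))) (mv 589 (both (five 5 461 462) (mv 622 (both (five 4 493 590) (mv 621 (both (five 4 525 654) (mv 524 (both (five 7 492 492) (mv 652 (both (five 6 524 620) (mv 653 (both (five 7 524 556) (five 6 556 684))))))))))))))))) (both (mv 557 (both (mv 462 (both (five 5 461 589) (mv 430 (both (five 6 397 398) (five 5 429 461))))) (both (mv 558 (both (mv 559 (both (five 1 524 556) (mv 560 (both (five 3 524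 524) (mv 592 (both (five 0 557 593) (mv 624 (both (five 7 495 495) (five 7 527 656))))))))) (mv 590 (both (five 4 461 461) (mv 622 (both (five 4 493 589) (five 7 525 654))))))) (both (mv 461 (both (mv 428 (both (five 7 428 460) (mv 429 (both (five 7 396 396) (mv 430 (both (five 5 397 398) (five 5 429 462))))))) (mv 558 (both (five 4 461 590) (mv 559 (both (five 1 524 556) (mv 560 (both (five 3 524 524) (mv 592 (both (five 0 557 593) (mv 624 (both (five 7 527 656) (mv 623 (both (five 6 527 655) (mv 496 (both (five 5 495 591) (mv 464 (both (five 6 431 432) (mv 465 (both (five 5 432 433) (five 5 464 497))))))))))))))))))))) (mv 496 (both (mv 589 (both (five 5 461 462) (mv 622 (both (five 4 493 590) (mv 621 (both (five 4 525 654) (mv 652 (both (five 6 524 620) (mv 653 (both (five 6 556 684) (mv 556 (both (five 7 524 524) (mv 559 (both (five 1 524 558) (mv 464 (both (five 6 431 432) (mv 591 (both (five 6 463 560) (five 5 495 623))))))))))))))))))) (both (mv 589 (both (five 5 461 462) (mv 622 (both (five 4 493 590) (mv 621 (both (five 4 525 654) (mv 652 (both (five 6 524 620) (mv 653 (both (five 6 556 684)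 (mv 623 (both (five 2 620 624) (mv 559 (both (five 5 495 591) (mv 464 (both (five 6 431 432) (mv 465 (both (five 1 461 495) (mv 433 (both (five 5 432 560) (mv 401 (both (five 6 368 369) (five 6 400 497))))))))))))))))))))))) (both (mv 495 (both (five 2 492 524) (mv 464 (both (five 1 461 465) (mv 432 (both (five 6 399 400) (five 6 431 559))))))) (mv 524 (both (five 2 492 495) (mv 522 (both (five 1 490 523) (mv 589 (both (five 5 461 462) (mv 622 (both (five 4 493 590) (mv 621 (both (five 4 525 654) (mv 652 (both (five 6 524 620) (mv 653 (both (five 7 524 556) (five 6 556 684))))))))))))))))))))))) (both (mv 495 (both (five 0 492 492) (mv 496 (both (mv 464 (both (five 1 461 465) (mv 432 (both (five 6 399 400) (five 6 431 559))))) (mv 461 (both (five 3 460 460) (mv 462 (both (five 3 461 497) (mv 430 (both (five 4 398 398) (five 5 429 557))))))))))) (both (mv 557 (both (mv 462 (both (five 5 461 589) (mv 430 (both (five 6 397 398) (five 5 429 461))))) (both (mv 461 (both (mv 428 (both (five 7 428 460) (mv 429 (both (five 7 396 396) (mv 430 (both (five 5 397 398) (five 5 429 462))))))) (mv 558 (both (five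 4 461 590) (mv 559 (both (five 1 524 556) (mv 560 (both (five 3 524 524) (mv 592 (both (five 0 557 593) (mv 624 (both (five 7 495 495) (five 7 527 656))))))))))))) (both (mv 558 (both (mv 559 (both (five 1 524 556) (mv 560 (both (five 3 524 524) (mv 592 (both (five 0 557 593) (mv 624 (both (five 7 495 495) (five 7 527 656))))))))) (mv 590 (both (five 4 461 461) (mv 622 (both (five 4 493 589) (five 7 525 654))))))) (mv 589 (both (five 5 461 462) (mv 622 (both (five 4 493 590) (mv 621 (both (five 4 525 654) (mv 524 (both (five 7 492 492) (mv 652 (both (five 6 524 620) (mv 653 (both (five 7 524 556) (five 6 556 684))))))))))))))))) (mv 495 (both (five 0 492 492) (mv 496 (both (five 2 492 524) (mv 461 (both (five 3 460 460) (mv 462 (both (five 3 461 497) (mv 430 (both (five 4 398 398) (five 5 429 557))))))))))))))))) (both (mv 494 (both (mv 557 (both (mv 462 (both (five 5 461 589) (mv 430 (both (five 6 397 398) (five 5 429 461))))) (both (mv 461 (both (mv 428 (both (five 7 428 460) (mv 429 (both (five 7 396 396) (mv 430 (both (five 5 397 398) (five 5 429 462))))))) (both (mv 428 (both (five 7 428 460)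 (mv 429 (both (five 7 396 396) (mv 524 (both (five 6 428 556) (mv 397 (both (five 6 396 492) (mv 365 (both (five 4 365 462) (mv 366 (both (five 5 333 334) (five 5 365 398))))))))))))) (both (mv 430 (both (five 5 429 462) (mv 429 (both (five 5 397 398) (mv 556 (both (five 6 428 524) (mv 558 (both (five 1 524 559) (five 4 461 590))))))))) (both (mv 428 (both (five 7 428 460) (mv 429 (both (five 7 396 396) (mv 398 (both (five 5 397 430) (mv 397 (both (five 5 365 366) (mv 524 (both (five 6 396 492) (five 6 428 556))))))))))) (mv 460 (both (five 7 428 428) (mv 459 (both (five 0 458 458) (mv 462 (both (five 5 429 430) (mv 427 (both (five 3 426 426) (mv 491 (both (five 2 458 490) (mv 463 (both (five 2 459 492) (mv 431 (both (five 1 428 432) (mv 558 (both (five 4 461 590) (mv 556 (both (five 1 524 559) (mv 523 (both (five 4 427 524) (mv 522 (both (five 6 426 554) (five 3 522 555)))))))))))))))))))))))))))) (both (mv 461 (both (mv 460 (both (five 7 428 428) (mv 589 (both (five 7 460 492) (mv 590 (both (five 4 461 558) (five 4 493 622))))))) (both (mv 558 (both (five 4 461 590) (mv 556 (both (five 1 524 559)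 (mv 429 (both (five 6 428 524) (mv 396 (both (five 7 396 428) (mv 397 (both (five 7 364 364) (mv 398 (both (five 5 365 366) (five 5 397 430))))))))))))) (both (mv 429 (both (mv 396 (both (five 7 396 428) (mv 397 (both (five 7 364 364) (mv 524 (both (five 6 396 492) (five 6 428 556))))))) (both (mv 524 (both (five 6 428 556) (mv 492 (both (five 6 396 397) (mv 589 (both (five 7 460 460) (five 7 492 621))))))) (mv 428 (both (five 7 396 396) (five 7 428 460)))))) (mv 590 (both (five 4 461 558) (mv 589 (both (five 4 493 622) (mv 492 (both (five 7 460 460) (mv 524 (both (five 7 492 621) (mv 429 (both (five 6 396 397) (five 6 428 556))))))))))))))) (mv 589 (both (five 5 461 462) (mv 622 (both (five 4 493 590) (mv 621 (both (five 4 525 654) (mv 524 (both (five 7 492 492) (mv 652 (both (five 6 524 620) (mv 653 (both (five 7 524 556) (five 6 556 684))))))))))))))))) (both (mv 462 (both (mv 430 (both (five 6 397 398) (mv 557 (both (five 5 429 461) (five 5 461 589))))) (both (mv 495 (both (mv 557 (both (five 5 461 589) (mv 559 (both (five 7 462 591) (mv 558 (both (five 1 524 556) (mv 590 (both (five 4 461 461)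 (five 6 462 463))))))))) (both (mv 496 (both (five 2 492 524) (mv 461 (both (five 3 460 460) (five 3 461 497))))) (mv 496 (both (five 2 492 524) (mv 557 (both (five 5 461 589) (mv 559 (both (five 7 462 591) (mv 558 (both (five 1 524 556) (mv 463 (both (five 6 462 590) (mv 431 (both (five 4 399 399) (five 4 431 560)))))))))))))))) (both (mv 495 (both (mv 430 (both (five 6 397 398) (mv 559 (both (five 7 430 463) (five 7 462 591))))) (mv 496 (both (five 2 492 524) (mv 461 (both (five 3 460 460) (five 3 461 497))))))) (mv 559 (both (mv 398 (both (five 6 397 430) (mv 557 (both (five 5 461 589) (mv 558 (both (five 1 524 556) (mv 560 (both (five 3 524 524) (mv 592 (both (five 0 557 593) (mv 624 (both (five 7 527 656) (mv 623 (both (five 6 527 655) (mv 591 (both (five 5 495 496) (mv 622 (both (five 6 526 654) (mv 625 (both (five 4 528 657) (mv 626 (both (five 3 590 590) (five 3 591 627))))))))))))))))))))))) (both (mv 495 (both (five 7 462 591) (mv 496 (both (five 2 492 524) (mv 557 (both (five 5 461 589) (mv 558 (both (five 1 524 556) (mv 463 (both (five 6 462 590) (mv 431 (both (five 4 399 399) (five 4 431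 560))))))))))))) (both (mv 398 (both (five 6 397 430) (mv 557 (both (five 5 461 589) (mv 558 (both (five 1 524 556) (mv 560 (both (five 3 524 524) (mv 592 (both (five 0 557 593) (mv 624 (both (five 7 495 495) (five 7 527 656))))))))))))) (both (mv 398 (both (five 6 397 430) (mv 591 (both (five 7 462 495) (mv 623 (both (five 5 495 496) (mv 655 (both (five 5 527 560) (mv 656 (both (five 4 527 624) (five 4 559 688))))))))))) (mv 398 (both (five 6 397 430) (mv 495 (both (five 7 462 591) (mv 496 (both (five 2 492 524) (mv 557 (both (five 5 461 589) (mv 558 (both (five 1 524 556) (mv 463 (both (five 6 462 590) (mv 431 (both (five 4 399 399) (mv 432 (both (five 5 399 400) (mv 433 (both (five 2 430 434) (mv 497 (both (five 3 462 498) (mv 465 (both (five 6 400 401) (five 1 462 466)))))))))))))))))))))))))))))))) (both (mv 557 (both (mv 558 (both (mv 559 (both (five 1 524 556) (mv 560 (both (five 3 524 524) (mv 592 (both (five 0 557 593) (mv 624 (both (five 7 495 495) (five 7 527 656))))))))) (mv 590 (both (five 4 461 461) (mv 622 (both (five 4 493 589) (five 7 525 654))))))) (both (mv 461 (both (mv 460 (both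 (five 7 428 428) (mv 589 (both (five 7 460 492) (mv 590 (both (five 4 461 558) (five 4 493 622))))))) (both (mv 558 (both (five 4 461 590) (mv 556 (both (five 1 524 559) (mv 429 (both (five 6 428 524) (mv 396 (both (five 7 396 428) (mv 397 (both (five 7 364 364) (mv 398 (both (five 5 365 366) (five 5 397 430))))))))))))) (both (mv 429 (both (mv 396 (both (five 7 396 428) (mv 397 (both (five 7 364 364) (mv 524 (both (five 6 396 492) (five 6 428 556))))))) (both (mv 524 (both (five 6 428 556) (mv 492 (both (five 6 396 397) (mv 589 (both (five 7 460 460) (five 7 492 621))))))) (mv 428 (both (five 7 396 396) (five 7 428 460)))))) (mv 590 (both (five 4 461 558) (mv 589 (both (five 4 493 622) (mv 492 (both (five 7 460 460) (mv 524 (both (five 7 492 621) (mv 429 (both (five 6 396 397) (five 6 428 556))))))))))))))) (both (mv 492 (both (five 0 492 495) (mv 460 (both (five 7 460 589) (mv 428 (both (five 4 396 396) (five 7 428 461))))))) (both (mv 492 (both (five 0 492 495) (mv 460 (both (five 7 460 589) (mv 428 (both (five 4 396 396) (five 4 428 524))))))) (mv 495 (both (five 0 492 492) (mv 496 (both (five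 2 492 524) (mv 461 (both (five 3 460 460) (mv 558 (both (five 4 461 590) (mv 559 (both (five 1 524 556) (mv 591 (both (five 5 495 623) (mv 592 (both (five 4 495 624) (mv 560 (both (five 4 463 463) (five 0 557 593)))))))))))))))))))))) (both (mv 462 (both (mv 430 (both (five 6 397 398) (mv 557 (both (five 5 429 461) (five 5 461 589))))) (mv 492 (both (five 0 492 495) (mv 491 (both (five 1 459 463) (mv 458 (both (five 3 458 459) (mv 490 (both (five 3 457 457) (mv 522 (both (five 2 489 521) (five 2 490 523))))))))))))) (both (mv 495 (both (five 0 492 492) (mv 496 (both (five 2 492 524) (mv 461 (both (five 3 460 460) (mv 462 (both (five 3 461 497) (mv 430 (both (five 6 397 398) (mv 559 (both (five 7 430 463) (five 7 462 591))))))))))))) (both (mv 557 (both (mv 492 (both (five 0 492 495) (mv 460 (both (five 7 460 589) (mv 428 (both (five 4 396 396) (five 4 428 524))))))) (both (mv 559 (both (mv 558 (both (five 1 524 556) (mv 560 (both (five 3 524 524) (mv 592 (both (five 0 557 593) (mv 624 (both (five 7 495 495) (five 7 527 656))))))))) (both (mv 462 (both (five 5 461 589) (mv 591 (both (five 7 462 495)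 (mv 623 (both (five 5 495 496) (mv 655 (both (five 5 527 560) (mv 656 (both (five 4 527 624) (five 4 559 688))))))))))) (both (mv 558 (both (five 1 524 556) (mv 560 (both (five 3 524 524) (mv 592 (both (five 0 557 593) (mv 624 (both (five 7 527 656) (mv 623 (both (five 6 527 655) (mv 591 (both (five 5 495 496) (mv 622 (both (five 6 526 654) (mv 625 (both (five 4 528 657) (mv 626 (both (five 3 590 590) (five 3 591 627))))))))))))))))))) (mv 462 (both (five 5 461 589) (mv 398 (both (five 6 397 430) (mv 495 (both (five 7 462 591) (mv 496 (both (five 2 492 524) (mv 558 (both (five 1 524 556) (mv 463 (both (five 6 462 590) (mv 431 (both (five 4 399 399) (mv 432 (both (five 5 399 400) (mv 433 (both (five 2 430 434) (mv 497 (both (five 3 462 498) (mv 465 (both (five 6 400 401) (five 1 462 466))))))))))))))))))))))))))) (both (mv 559 (both (mv 558 (both (five 1 524 556) (mv 560 (both (five 3 524 524) (mv 592 (both (five 0 557 593) (mv 624 (both (five 7 495 495) (five 7 527 656))))))))) (both (mv 558 (both (five 1 524 556) (mv 560 (both (five 3 524 524) (mv 592 (both (five 0 557 593) (mv 624 (both (five 7 527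 656) (mv 623 (both (five 6 527 655) (mv 591 (both (five 5 495 496) (mv 622 (both (five 6 526 654) (mv 625 (both (five 4 528 657) (mv 626 (both (five 3 590 590) (five 3 591 627))))))))))))))))))) (mv 495 (both (five 0 492 492) (mv 462 (both (five 7 462 591) (mv 430 (both (five 4 398 398) (five 7 430 463)))))))))) (both (mv 589 (both (five 5 461 462) (mv 622 (both (five 4 493 590) (mv 621 (both (five 4 525 654) (mv 524 (both (five 7 492 492) (mv 652 (both (five 6 524 620) (mv 653 (both (five 7 524 556) (five 6 556 684))))))))))))) (mv 462 (both (five 5 461 589) (mv 492 (both (five 0 492 495) (mv 491 (both (five 1 459 463) (mv 458 (both (five 3 458 459) (mv 490 (both (five 3 457 457) (mv 522 (both (five 2 489 521) (five 2 490 523)))))))))))))))))) (mv 495 (both (five 0 492 492) (mv 496 (both (five 2 492 524) (mv 461 (both (five 3 460 460) (mv 462 (both (five 3 461 497) (mv 557 (both (five 5 461 589) (mv 558 (both (five 4 461 590) (mv 559 (both (five 1 524 556) (five 7 462 591)))))))))))))))))))))) (both (mv 495 (both (mv 560 (both (mv 463 (both (five 4 431 431) (mv 559 (both (mv 558 (both (five 6 462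 590) (mv 557 (both (five 3 524 524) (five 1 524 556))))) (mv 464 (both (five 5 431 432) (mv 496 (both (five 5 463 591) (mv 465 (both (five 5 432 433) (mv 466 (both (five 2 463 467) (mv 498 (both (five 0 463 499) (mv 561 (both (five 4 464 593) (mv 562 (both (five 3 527 563) (mv 530 (both (five 1 527 531) (mv 594 (both (five 7 465 497) (five 0 559 595))))))))))))))))))))))) (both (mv 592 (both (five 7 495 624) (mv 496 (both (mv 465 (both (five 5 464 497) (mv 464 (both (five 5 432 433) (mv 593 (both (five 4 464 561) (five 4 496 625))))))) (both (mv 497 (both (five 5 464 465) (mv 498 (both (five 2 495 499) (mv 466 (both (five 1 463 467) (mv 530 (both (five 0 495 531) (mv 591 (both (five 6 495 623) (mv 593 (both (five 4 496 625) (mv 561 (both (five 6 465 562) (mv 590 (both (five 1 557 589) (mv 622 (both (five 6 494 559) (five 2 589 621))))))))))))))))))) (both (mv 465 (both (five 5 464 497) (mv 464 (both (five 5 432 433) (mv 432 (both (five 6 399 400) (five 6 431 559))))))) (mv 591 (both (five 6 495 623) (mv 464 (both (five 5 463 559) (mv 593 (both (five 4 464 561) (five 4 496 625))))))))))))) (both (mv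 463 (both (five 4 431 431) (mv 592 (both (five 4 463 559) (five 7 495 624))))) (mv 463 (both (five 4 431 431) (mv 592 (both (five 7 463 496) (five 7 495 624))))))))) (both (mv 463 (both (mv 431 (both (five 4 431 560) (mv 400 (both (five 5 399 432) (mv 399 (both (five 5 367 368) (mv 366 (both (five 7 366 398) (mv 367 (both (five 7 334 334) (mv 494 (both (five 6 366 462) (five 0 492 492))))))))))))) (both (mv 560 (both (five 4 431 431) (mv 592 (both (five 4 463 559) (five 7 495 624))))) (both (mv 464 (both (mv 432 (both (five 5 431 559) (mv 400 (both (five 6 367 368) (five 5 399 431))))) (mv 494 (both (five 1 460 492) (mv 465 (both (five 2 461 462) (five 2 462 466))))))) (mv 559 (both (mv 590 (both (five 6 462 558) (mv 591 (both (five 6 494 622) (mv 592 (both (five 4 463 560) (five 4 495 624))))))) (both (mv 492 (both (five 0 492 494) (mv 558 (both (five 6 462 590) (mv 557 (both (five 1 524 556) (mv 460 (both (five 7 460 589) (mv 428 (both (five 4 396 396) (five 4 428 524))))))))))) (both (mv 432 (both (five 5 431 464) (mv 494 (both (five 0 492 492) (mv 560 (both (five 4 463 592) (mv 591 (both (five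 7 462 462) (mv 622 (both (five 6 494 590) (mv 623 (both (five 6 526 654) (five 5 527 655))))))))))))) (mv 432 (both (five 5 431 464) (mv 494 (both (five 0 492 492) (mv 462 (both (five 7 462 591) (mv 557 (both (five 5 461 589) (mv 558 (both (five 1 524 556) (mv 560 (both (five 3 524 524) (five 4 463 592))))))))))))))))))))) (both (mv 494 (both (five 0 492 492) (mv 496 (both (five 2 492 524) (mv 464 (both (five 1 461 465) (mv 432 (both (five 6 399 400) (mv 401 (both (five 5 400 433) (mv 431 (both (five 7 399 399) (mv 560 (both (five 7 431 463) (mv 592 (both (five 7 495 624) (mv 593 (both (five 4 464 561) (five 4 496 625))))))))))))))))))) (both (mv 560 (both (mv 592 (both (five 7 495 624) (mv 496 (both (mv 465 (both (five 5 464 497) (mv 464 (both (five 5 432 433) (mv 593 (both (five 4 464 561) (five 4 496 625))))))) (both (mv 497 (both (five 5 464 465) (mv 498 (both (five 2 495 499) (mv 466 (both (five 1 463 467) (mv 530 (both (five 0 495 531) (mv 591 (both (five 6 495 623) (mv 593 (both (five 4 496 625) (mv 561 (both (five 6 465 562) (mv 590 (both (five 1 557 589) (mv 622 (both (five 6 494 559) (five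 2 589 621))))))))))))))))))) (both (mv 465 (both (five 5 464 497) (mv 464 (both (five 5 432 433) (mv 432 (both (five 6 399 400) (five 6 431 559))))))) (mv 591 (both (five 6 495 623) (mv 464 (both (five 5 463 559) (mv 593 (both (five 4 464 561) (five 4 496 625))))))))))))) (both (mv 464 (both (mv 463 (both (five 4 431 431) (mv 492 (both (five 1 460 494) (mv 559 (both (five 5 431 432) (mv 558 (both (five 6 462 590) (mv 557 (both (five 1 524 556) (mv 460 (both (five 7 460 589) (mv 428 (both (five 4 396 396) (five 7 428 461))))))))))))))) (both (mv 494 (both (five 0 492 492) (mv 496 (both (five 1 461 465) (mv 432 (both (five 6 399 400) (five 6 431 559))))))) (both (mv 463 (both (five 4 431 431) (mv 432 (both (five 5 431 559) (mv 400 (both (five 6 367 368) (five 6 399 496))))))) (mv 463 (both (five 4 431 431) (mv 494 (both (five 1 460 492) (mv 465 (both (five 2 462 466) (five 1 461 496))))))))))) (both (mv 463 (both (five 4 431 431) (mv 592 (both (five 4 463 559) (five 7 495 624))))) (mv 463 (both (five 4 431 431) (mv 592 (both (five 7 463 496) (five 7 495 624))))))))) (mv 494 (both (five 0 492 492) (mv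 496 (both (five 2 492 524) (mv 461 (both (five 3 460 460) (mv 462 (both (five 3 461 497) (mv 557 (both (five 5 461 589) (mv 558 (both (five 4 461 590) (mv 559 (both (five 1 524 556) (five 7 462 591)))))))))))))))))))) (both (mv 495 (both (mv 494 (both (five 0 492 492) (mv 496 (both (five 2 492 524) (mv 464 (both (five 1 461 465) (mv 432 (both (five 6 399 400) (five 6 431 559))))))))) (both (mv 463 (both (mv 560 (both (five 4 431 431) (mv 592 (both (five 4 463 559) (five 7 495 624))))) (both (mv 559 (both (mv 462 (both (five 7 430 430) (mv 464 (both (five 5 431 432) (mv 461 (both (five 2 460 492) (mv 428 (both (five 3 428 429) (mv 460 (both (five 3 427 427) (five 7 428 557))))))))))) (mv 592 (both (five 4 463 560) (mv 591 (both (five 4 495 624) (mv 622 (both (five 6 494 590) (mv 623 (both (five 5 495 496) (five 6 526 654))))))))))) (both (mv 431 (both (mv 398 (both (five 7 398 430) (mv 399 (both (five 7 366 366) (five 4 399 496))))) (both (mv 400 (both (five 5 399 432) (mv 430 (both (five 7 398 398) (mv 462 (both (five 7 430 559) (mv 461 (both (five 5 429 557) (mv 460 (both (five 1 427 459) (five 0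 460 496))))))))))) (both (mv 399 (both (five 4 399 496) (mv 400 (both (five 5 367 368) (five 5 399 432))))) (mv 398 (both (five 7 398 430) (mv 399 (both (five 7 366 366) (mv 400 (both (five 5 367 368) (five 5 399 432))))))))))) (mv 431 (both (five 4 431 560) (mv 398 (both (five 7 398 430) (mv 399 (both (five 7 366 366) (five 4 399 496))))))))))) (both (mv 560 (both (mv 592 (both (five 7 495 624) (mv 496 (both (mv 465 (both (five 5 464 497) (mv 464 (both (five 5 432 433) (mv 593 (both (five 4 464 561) (five 4 496 625))))))) (both (mv 497 (both (five 5 464 465) (mv 498 (both (five 2 495 499) (mv 466 (both (five 1 463 467) (mv 530 (both (five 0 495 531) (mv 591 (both (five 6 495 623) (mv 593 (both (five 4 496 625) (mv 561 (both (five 6 465 562) (mv 590 (both (five 1 557 589) (mv 622 (both (five 6 494 559) (five 2 589 621))))))))))))))))))) (both (mv 465 (both (five 5 464 497) (mv 464 (both (five 5 432 433) (mv 432 (both (five 6 399 400) (five 6 431 559))))))) (mv 591 (both (five 6 495 623) (mv 464 (both (five 5 463 559) (mv 593 (both (five 4 464 561) (five 4 496 625))))))))))))) (both (mv 463 (both (five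 4 431 431) (mv 559 (both (mv 464 (both (five 5 431 432) (mv 496 (both (five 5 463 591) (mv 465 (both (five 5 432 433) (mv 466 (both (five 2 463 467) (mv 498 (both (five 0 463 499) (mv 561 (both (five 4 464 593) (mv 562 (both (five 3 527 563) (mv 530 (both (five 1 527 531) (mv 594 (both (five 7 465 497) (five 0 559 595))))))))))))))))))) (both (mv 462 (both (five 7 430 430) (mv 494 (both (five 7 462 591) (mv 496 (both (five 2 492 524) (mv 461 (both (five 3 460 460) (five 3 461 497))))))))) (both (mv 432 (both (five 5 431 464) (mv 462 (both (five 7 430 430) (mv 591 (both (five 7 462 494) (mv 622 (both (five 6 494 590) (mv 623 (both (five 6 526 654) (five 5 527 655))))))))))) (mv 462 (both (five 7 430 430) (mv 464 (both (five 5 431 432) (mv 465 (both (five 2 461 494) (mv 433 (both (five 1 430 434) (five 5 432 496))))))))))))))) (both (mv 463 (both (five 4 431 431) (mv 592 (both (five 4 463 559) (five 7 495 624))))) (mv 463 (both (five 4 431 431) (mv 592 (both (five 7 463 496) (five 7 495 624))))))))) (both (mv 463 (both (mv 560 (both (five 4 431 431) (mv 592 (both (five 4 463 559) (five 7 495 624)))))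 (both (mv 462 (both (mv 492 (both (five 0 492 494) (mv 461 (both (five 2 460 464) (mv 491 (both (five 2 459 460) (five 1 458 490))))))) (both (mv 430 (both (five 7 430 559) (mv 366 (both (five 4 366 398) (mv 461 (both (five 5 429 557) (mv 464 (both (five 2 460 492) (mv 429 (both (five 3 428 428) (five 3 429 465))))))))))) (mv 430 (both (five 7 430 559) (mv 398 (both (five 4 366 366) (five 6 397 494)))))))) (mv 431 (both (five 4 431 560) (mv 398 (both (five 7 398 430) (mv 399 (both (five 7 366 366) (mv 400 (both (five 5 367 368) (five 5 399 432)))))))))))) (both (mv 494 (both (five 0 492 492) (mv 496 (both (five 2 492 524) (mv 464 (both (five 1 461 465) (mv 432 (both (five 6 399 400) (mv 401 (both (five 5 400 433) (mv 431 (both (five 7 399 399) (mv 560 (both (five 7 431 463) (mv 592 (both (five 7 495 624) (mv 593 (both (five 4 464 561) (five 4 496 625))))))))))))))))))) (mv 494 (both (five 0 492 492) (mv 496 (both (five 2 492 524) (mv 461 (both (five 3 460 460) (mv 462 (both (five 3 461 497) (mv 430 (both (five 6 397 398) (mv 559 (both (five 7 430 463) (five 7 462 591))))))))))))))))))) (both (mv 494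 (both (mv 495 (both (five 0 492 492) (mv 496 (both (five 2 492 524) (mv 464 (both (five 1 461 465) (mv 432 (both (five 6 399 400) (five 6 431 559))))))))) (both (mv 557 (both (mv 462 (both (five 5 461 589) (mv 430 (both (five 6 397 398) (five 5 429 461))))) (both (mv 461 (both (mv 428 (both (five 7 428 460) (mv 429 (both (five 7 396 396) (mv 398 (both (five 5 397 430) (mv 366 (both (five 5 365 397) (mv 556 (both (five 6 428 524) (mv 558 (both (five 1 524 559) (five 4 461 590))))))))))))) (both (mv 428 (both (five 7 428 460) (mv 429 (both (five 7 396 396) (mv 524 (both (five 6 428 556) (mv 397 (both (five 6 396 492) (mv 365 (both (five 4 365 462) (mv 366 (both (five 5 333 334) (five 5 365 398))))))))))))) (both (mv 430 (both (five 5 429 462) (mv 429 (both (five 5 397 398) (mv 556 (both (five 6 428 524) (mv 558 (both (five 1 524 559) (five 4 461 590))))))))) (mv 460 (both (five 7 428 428) (mv 459 (both (five 0 458 458) (mv 462 (both (five 5 429 430) (mv 426 (both (five 3 426 427) (mv 491 (both (five 2 458 490) (mv 463 (both (five 2 459 492) (mv 432 (both (five 1 428 431) (mv 464 (both (five 1 429 433)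 (five 2 461 465))))))))))))))))))))) (both (mv 461 (both (mv 460 (both (five 7 428 428) (mv 589 (both (five 7 460 492) (mv 590 (both (five 4 461 558) (five 4 493 622))))))) (both (mv 558 (both (five 4 461 590) (mv 556 (both (five 1 524 559) (mv 429 (both (five 6 428 524) (mv 396 (both (five 7 396 428) (mv 397 (both (five 7 364 364) (mv 398 (both (five 5 365 366) (five 5 397 430))))))))))))) (both (mv 429 (both (mv 396 (both (five 7 396 428) (mv 397 (both (five 7 364 364) (mv 524 (both (five 6 396 492) (five 6 428 556))))))) (both (mv 524 (both (five 6 428 556) (mv 492 (both (five 6 396 397) (mv 589 (both (five 7 460 460) (five 7 492 621))))))) (mv 428 (both (five 7 396 396) (five 7 428 460)))))) (mv 590 (both (five 4 461 558) (mv 589 (both (five 4 493 622) (mv 492 (both (five 7 460 460) (mv 524 (both (five 7 492 621) (mv 429 (both (five 6 396 397) (five 6 428 556))))))))))))))) (mv 589 (both (five 5 461 462) (mv 622 (both (five 4 493 590) (mv 621 (both (five 4 525 654) (mv 524 (both (five 7 492 492) (mv 652 (both (five 6 524 620) (mv 653 (both (five 7 524 556) (five 6 556 684))))))))))))))))) (both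 (mv 462 (both (mv 430 (both (five 6 397 398) (mv 557 (both (five 5 429 461) (five 5 461 589))))) (both (mv 557 (both (five 5 461 589) (mv 461 (both (mv 558 (both (five 4 461 590) (mv 559 (both (five 1 524 556) (mv 560 (both (five 3 524 524) (mv 592 (both (five 0 557 593) (mv 624 (both (five 7 495 495) (five 7 527 656))))))))))) (both (mv 428 (both (five 7 428 460) (mv 429 (both (five 7 396 396) (mv 556 (both (five 6 428 524) (mv 558 (both (five 1 524 559) (five 4 461 590))))))))) (mv 428 (both (five 7 428 460) (mv 429 (both (five 7 396 396) (mv 397 (both (five 4 365 365) (mv 398 (both (five 5 365 366) (mv 399 (both (five 2 396 400) (mv 426 (both (five 1 394 427) (mv 463 (both (five 3 428 464) (mv 431 (both (five 6 366 367) (mv 495 (both (five 4 399 496) (five 4 431 560)))))))))))))))))))))))) (both (mv 557 (both (five 5 461 589) (mv 461 (both (five 5 429 430) (mv 428 (both (five 7 428 460) (mv 429 (both (five 7 396 396) (mv 556 (both (five 6 428 524) (mv 558 (both (five 1 524 559) (five 4 461 590))))))))))))) (mv 495 (both (mv 496 (both (five 2 492 524) (mv 464 (both (five 1 461 465) (mv 432 (both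 (five 6 399 400) (five 6 431 559))))))) (both (mv 430 (both (five 6 397 398) (mv 463 (both (five 7 430 559) (mv 431 (both (five 4 431 560) (mv 399 (both (five 6 366 367) (mv 400 (both (five 5 367 368) (five 5 399 432))))))))))) (mv 496 (both (five 2 492 524) (mv 465 (both (five 1 461 464) (mv 497 (both (five 1 462 466) (mv 498 (both (five 3 462 463) (five 2 495 499)))))))))))))))) (both (mv 495 (both (five 0 492 492) (mv 496 (both (mv 464 (both (five 1 461 465) (mv 432 (both (five 6 399 400) (five 6 431 559))))) (mv 461 (both (five 3 460 460) (mv 462 (both (five 3 461 497) (mv 430 (both (five 4 398 398) (five 5 429 557))))))))))) (mv 495 (both (five 0 492 492) (mv 496 (both (five 2 492 524) (mv 461 (both (five 3 460 460) (mv 462 (both (five 3 461 497) (mv 430 (both (five 4 398 398) (five 5 429 557)))))))))))))))) (both (mv 495 (both (mv 560 (both (mv 463 (both (five 4 431 431) (mv 559 (both (mv 558 (both (five 6 462 590) (mv 557 (both (five 3 524 524) (five 1 524 556))))) (mv 464 (both (five 5 431 432) (mv 496 (both (five 5 463 591) (mv 465 (both (five 5 432 433) (mv 466 (both (five 2 463 467) (mv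 498 (both (five 0 463 499) (mv 561 (both (five 4 464 593) (mv 562 (both (five 3 527 563) (mv 530 (both (five 1 527 531) (mv 594 (both (five 7 465 497) (five 0 559 595))))))))))))))))))))))) (both (mv 592 (both (five 7 495 624) (mv 496 (both (mv 465 (both (five 5 464 497) (mv 464 (both (five 5 432 433) (mv 593 (both (five 4 464 561) (five 4 496 625))))))) (both (mv 497 (both (five 5 464 465) (mv 498 (both (five 2 495 499) (mv 466 (both (five 1 463 467) (mv 530 (both (five 0 495 531) (mv 591 (both (five 6 495 623) (mv 593 (both (five 4 496 625) (mv 561 (both (five 6 465 562) (mv 590 (both (five 1 557 589) (mv 622 (both (five 6 494 559) (five 2 589 621))))))))))))))))))) (both (mv 465 (both (five 5 464 497) (mv 464 (both (five 5 432 433) (mv 432 (both (five 6 399 400) (five 6 431 559))))))) (mv 591 (both (five 6 495 623) (mv 464 (both (five 5 463 559) (mv 593 (both (five 4 464 561) (five 4 496 625))))))))))))) (both (mv 463 (both (five 4 431 431) (mv 592 (both (five 4 463 559) (five 7 495 624))))) (mv 463 (both (five 4 431 431) (mv 592 (both (five 7 463 496) (five 7 495 624))))))))) (both (mv 494 (both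 (five 0 492 492) (mv 462 (both (mv 557 (both (five 5 461 589) (mv 559 (both (five 7 462 591) (mv 558 (both (five 1 524 556) (mv 590 (both (five 4 461 461) (five 6 462 463))))))))) (both (mv 557 (both (five 5 461 589) (mv 461 (both (five 5 429 430) (mv 460 (both (five 7 428 428) (five 0 459 459))))))) (mv 559 (both (five 7 462 591) (mv 463 (both (five 7 430 430) (mv 431 (both (five 4 431 560) (mv 399 (both (five 6 366 367) (mv 400 (both (five 5 367 368) (five 5 399 432)))))))))))))))) (both (mv 494 (both (five 0 492 492) (mv 496 (both (five 2 492 524) (mv 464 (both (five 1 461 465) (mv 432 (both (five 6 399 400) (mv 401 (both (five 5 400 433) (mv 431 (both (five 7 399 399) (mv 560 (both (five 7 431 463) (mv 592 (both (five 7 495 624) (mv 593 (both (five 4 464 561) (five 4 496 625))))))))))))))))))) (mv 494 (both (five 0 492 492) (mv 496 (both (five 2 492 524) (mv 461 (both (five 3 460 460) (mv 462 (both (five 3 461 497) (mv 557 (both (five 5 461 589) (mv 558 (both (five 4 461 590) (mv 559 (both (five 1 524 556) (five 7 462 591))))))))))))))))))) (both (mv 461 (both (mv 429 (both (mv 396 (both (five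 7 396 428) (mv 397 (both (five 7 364 364) (mv 524 (both (five 6 396 492) (five 6 428 556))))))) (both (mv 398 (both (five 5 397 430) (mv 397 (both (five 5 365 366) (mv 524 (both (five 6 396 492) (five 6 428 556))))))) (mv 428 (both (five 7 396 396) (mv 430 (both (five 5 397 398) (mv 462 (both (five 5 429 557) (mv 427 (both (five 0 426 426) (five 0 427 463)))))))))))) (both (mv 462 (both (mv 430 (both (five 5 429 557) (mv 398 (both (five 6 365 366) (five 6 397 494))))) (both (mv 492 (both (mv 463 (both (five 2 460 464) (mv 491 (both (five 2 459 460) (five 1 458 490))))) (both (mv 491 (both (five 1 458 490) (mv 494 (both (five 0 492 495) (mv 459 (both (five 3 458 458) (mv 522 (both (five 2 490 523) (mv 557 (both (five 5 461 589) (mv 460 (both (five 7 428 428) (mv 427 (both (five 3 426 426) (mv 395 (both (five 4 363 363) (five 4 395 524))))))))))))))))) (mv 463 (both (five 2 460 464) (mv 495 (both (five 0 492 494) (mv 560 (both (five 4 431 431) (mv 592 (both (five 4 463 559) (five 7 495 624)))))))))))) (both (mv 492 (both (mv 463 (both (five 2 460 464) (mv 491 (both (five 2 459 460) (five 1 458 490)))))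 (both (mv 491 (both (five 1 458 490) (mv 494 (both (five 0 492 495) (mv 430 (both (five 6 397 398) (mv 459 (both (five 3 458 458) (mv 460 (both (five 1 427 431) (mv 427 (both (five 3 426 426) (mv 395 (both (five 4 363 363) (five 4 395 524))))))))))))))) (mv 463 (both (five 2 460 464) (mv 495 (both (five 0 492 494) (mv 560 (both (five 4 431 431) (mv 592 (both (five 4 463 559) (five 7 495 624)))))))))))) (mv 557 (both (five 5 429 430) (mv 460 (both (five 7 428 428) (mv 492 (both (five 7 460 589) (mv 463 (both (five 2 460 464) (five 2 459 491))))))))))))) (both (mv 429 (both (mv 398 (both (five 5 397 430) (mv 397 (both (five 5 365 366) (mv 524 (both (five 6 396 492) (five 6 428 556))))))) (both (mv 396 (both (five 7 396 428) (mv 397 (both (five 7 364 364) (mv 524 (both (five 6 396 492) (five 6 428 556))))))) (mv 428 (both (five 7 396 396) (mv 430 (both (five 5 397 398) (mv 460 (both (five 7 428 557) (mv 431 (both (five 2 428 432) (five 2 427 459)))))))))))) (both (mv 428 (both (mv 396 (both (five 7 396 429) (mv 460 (both (five 4 364 364) (five 7 428 557))))) (both (mv 557 (both (five 7 428 460) (mv 559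 (both (mv 558 (both (five 1 524 556) (mv 560 (both (five 3 524 524) (mv 592 (both (five 0 557 593) (mv 624 (both (five 7 495 495) (five 7 527 656))))))))) (both (mv 462 (both (five 5 429 430) (mv 494 (both (five 5 461 589) (mv 591 (both (five 7 462 495) (mv 623 (both (five 5 495 496) (mv 655 (both (five 5 527 560) (mv 656 (both (five 4 527 624) (five 4 559 688))))))))))))) (both (mv 462 (both (five 5 429 430) (mv 494 (both (five 5 461 589) (mv 495 (both (five 7 462 591) (mv 496 (both (five 2 492 524) (mv 465 (both (five 1 461 464) (mv 497 (both (five 1 462 466) (mv 498 (both (five 3 462 463) (five 2 495 499))))))))))))))) (mv 430 (both (five 5 429 462) (mv 558 (both (five 1 524 556) (mv 560 (both (five 3 524 524) (mv 592 (both (five 0 557 593) (mv 624 (both (five 7 527 656) (mv 623 (both (five 6 527 655) (mv 496 (both (five 5 495 591) (mv 464 (both (five 6 431 432) (mv 465 (both (five 5 432 433) (five 5 464 497))))))))))))))))))))))))) (both (mv 429 (both (five 7 396 396) (mv 430 (both (five 5 397 398) (mv 462 (both (five 5 429 557) (mv 427 (both (five 0 426 426) (five 0 427 463))))))))) (mv 429 (both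 (five 7 396 396) (mv 427 (both (mv 426 (both (five 0 426 462) (mv 393 (both (five 3 393 394) (mv 425 (both (five 3 392 392) (five 0 425 460))))))) (both (mv 430 (both (five 5 397 398) (mv 459 (both (five 2 426 458) (mv 431 (both (five 2 427 460) (mv 399 (both (five 1 396 400) (mv 464 (both (five 0 428 463) (mv 432 (both (five 0 429 465) (five 7 399 496))))))))))))) (mv 398 (both (five 5 397 430) (mv 426 (both (five 0 426 462) (mv 393 (both (five 3 393 394) (mv 425 (both (five 3 392 392) (mv 457 (both (five 2 424 456) (five 2 425 458)))))))))))))))))))) (both (mv 429 (both (mv 398 (both (five 5 397 430) (mv 397 (both (five 5 365 366) (mv 524 (both (five 6 396 492) (five 6 428 556))))))) (both (mv 396 (both (five 7 396 428) (mv 397 (both (five 7 364 364) (mv 524 (both (five 6 396 492) (five 6 428 556))))))) (mv 428 (both (five 7 396 396) (mv 427 (both (mv 426 (both (five 0 426 462) (mv 393 (both (five 3 393 394) (mv 425 (both (five 3 392 392) (five 0 425 460))))))) (both (mv 430 (both (five 5 397 398) (mv 459 (both (five 2 426 458) (mv 431 (both (five 2 427 460) (mv 399 (both (five 1 396 400) (mv 464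 (both (five 0 428 463) (mv 432 (both (five 0 429 465) (five 7 399 496))))))))))))) (mv 398 (both (five 5 397 430) (mv 426 (both (five 0 426 462) (mv 393 (both (five 3 393 394) (mv 425 (both (five 3 392 392) (mv 457 (both (five 2 424 456) (five 2 425 458))))))))))))))))))) (both (mv 492 (both (mv 429 (both (mv 524 (both (five 6 396 397) (five 6 428 556))) (both (mv 396 (both (five 7 396 428) (mv 397 (both (five 7 364 364) (mv 365 (both (five 6 364 460) (mv 366 (both (five 5 333 334) (five 5 365 398))))))))) (mv 428 (both (five 7 396 396) (mv 460 (both (five 7 428 557) (mv 524 (both (five 5 428 556) (mv 427 (both (five 7 395 395) (mv 523 (both (five 6 427 555) (mv 522 (both (five 1 489 521) (mv 490 (both (five 3 489 489) (mv 554 (both (five 2 521 553) (mv 459 (both (five 5 426 458) (five 6 426 491)))))))))))))))))))))) (mv 495 (both (five 0 492 494) (mv 463 (both (mv 560 (both (five 4 431 431) (mv 592 (both (five 4 463 559) (five 7 495 624))))) (both (mv 464 (both (five 2 460 462) (mv 432 (both (five 5 431 559) (mv 400 (both (five 6 367 368) (five 6 399 496))))))) (mv 431 (both (five 4 431 560) (mv 399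 (both (five 4 399 496) (mv 400 (both (five 5 367 368) (five 5 399 432)))))))))))))) (both (mv 429 (both (mv 524 (both (five 6 428 556) (mv 397 (both (five 6 396 492) (mv 364 (both (five 7 364 396) (mv 365 (both (five 7 332 332) (mv 366 (both (five 5 333 334) (five 5 365 398))))))))))) (both (mv 397 (both (mv 398 (both (five 5 365 366) (five 5 397 430))) (both (mv 364 (both (five 7 364 396) (mv 365 (both (five 7 332 332) (mv 334 (both (five 5 333 366) (mv 333 (both (five 5 301 302) (mv 462 (both (five 4 333 430) (five 4 365 494))))))))))) (both (mv 364 (both (five 7 364 396) (mv 365 (both (five 7 332 332) (mv 366 (both (five 5 333 334) (five 5 365 398))))))) (mv 364 (both (five 7 364 396) (mv 365 (both (five 7 332 332) (mv 430 (both (five 5 397 398) (mv 462 (both (five 4 333 333) (five 4 365 494))))))))))))) (both (mv 524 (both (five 6 428 556) (mv 397 (both (five 6 396 492) (mv 364 (both (five 7 364 396) (mv 365 (both (five 7 332 332) (mv 334 (both (five 5 333 366) (mv 333 (both (five 5 301 302) (mv 462 (both (five 4 333 430) (five 4 365 494))))))))))))))) (mv 495 (both (mv 494 (both (five 0 492 492)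 (mv 496 (both (five 2 492 524) (mv 464 (both (five 1 461 465) (mv 432 (both (five 6 399 400) (five 6 431 559))))))))) (both (mv 430 (both (five 5 397 398) (mv 462 (both (five 5 429 557) (mv 463 (both (five 7 430 559) (mv 431 (both (five 4 431 560) (mv 399 (both (five 4 399 496) (mv 400 (both (five 5 367 368) (five 5 399 432))))))))))))) (both (mv 430 (both (five 5 397 398) (mv 462 (both (five 5 429 557) (mv 463 (both (five 7 430 559) (mv 464 (both (five 3 429 465) (five 2 460 492))))))))) (mv 494 (both (five 0 492 492) (mv 496 (both (five 2 492 524) (mv 464 (both (five 1 461 465) (mv 432 (both (five 6 399 400) (mv 401 (both (five 5 400 433) (mv 431 (both (five 7 399 399) (mv 560 (both (five 7 431 463) (mv 592 (both (five 7 495 624) (mv 593 (both (five 4 464 561) (five 4 496 625))))))))))))))))))))))))))) (both (mv 428 (both (mv 429 (both (five 7 396 396) (mv 430 (both (five 5 397 398) (mv 462 (both (five 5 429 557) (mv 427 (both (five 0 426 426) (five 0 427 463))))))))) (both (mv 460 (both (five 7 428 557) (mv 396 (both (five 4 364 364) (five 4 396 492))))) (both (mv 557 (both (five 7 428 460) (mv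 462 (both (five 5 429 430) (mv 494 (both (five 5 461 589) (mv 492 (both (five 0 492 495) (mv 491 (both (five 1 459 463) (mv 458 (both (five 3 458 459) (mv 490 (both (five 3 457 457) (mv 522 (both (five 2 489 521) (five 2 490 523))))))))))))))))) (mv 429 (both (five 7 396 396) (mv 427 (both (mv 426 (both (five 0 426 462) (mv 393 (both (five 3 393 394) (mv 425 (both (five 3 392 392) (five 0 425 460))))))) (both (mv 430 (both (five 5 397 398) (mv 459 (both (five 2 426 458) (mv 431 (both (five 2 427 460) (mv 399 (both (five 1 396 400) (mv 464 (both (five 0 428 463) (mv 432 (both (five 0 429 465) (five 7 399 496))))))))))))) (mv 398 (both (five 5 397 430) (mv 426 (both (five 0 426 462) (mv 393 (both (five 3 393 394) (mv 425 (both (five 3 392 392) (mv 457 (both (five 2 424 456) (five 2 425 458)))))))))))))))))))) (mv 429 (both (mv 396 (both (five 7 396 428) (mv 397 (both (five 7 364 364) (mv 524 (both (five 6 396 492) (five 6 428 556))))))) (both (mv 524 (both (five 6 428 556) (mv 397 (both (five 6 396 492) (mv 364 (both (five 7 364 396) (mv 365 (both (five 7 332 332) (mv 334 (both (five 5 333 366) (mv 333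 (both (five 5 301 302) (mv 462 (both (five 4 333 430) (five 4 365 494))))))))))))))) (both (mv 428 (both (five 7 396 396) (mv 557 (both (five 7 428 460) (mv 462 (both (five 5 429 430) (mv 494 (both (five 5 461 589) (mv 492 (both (five 0 492 495) (mv 491 (both (five 1 459 463) (mv 458 (both (five 3 458 459) (mv 490 (both (five 3 457 457) (mv 522 (both (five 2 489 521) (five 2 490 523))))))))))))))))))) (both (mv 460 (both (mv 557 (both (five 7 428 428) (mv 462 (both (five 5 429 430) (mv 494 (both (five 5 461 589) (mv 459 (both (five 0 458 458) (five 0 459 495))))))))) (both (mv 524 (both (five 6 428 556) (mv 492 (both (five 6 396 397) (mv 495 (both (five 0 492 494) (mv 463 (both (mv 560 (both (five 4 431 431) (mv 592 (both (five 4 463 559) (five 7 495 624))))) (both (mv 464 (both (five 2 460 462) (mv 432 (both (five 5 431 559) (mv 400 (both (five 6 367 368) (five 6 399 496))))))) (mv 431 (both (five 4 431 560) (mv 399 (both (five 4 399 496) (mv 400 (both (five 5 367 368) (five 5 399 432)))))))))))))))) (mv 428 (both (five 7 428 557) (mv 524 (both (five 6 428 556) (mv 492 (both (five 5 396 397) (mv 427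 (both (five 7 395 395) (mv 523 (both (five 6 427 555) (mv 522 (both (five 1 489 521) (mv 490 (both (five 3 489 489) (mv 554 (both (five 2 521 553) (mv 459 (both (five 5 426 458) (five 6 426 491)))))))))))))))))))))) (mv 428 (both (five 7 396 396) (mv 557 (both (five 7 428 460) (mv 559 (both (mv 558 (both (five 1 524 556) (mv 560 (both (five 3 524 524) (mv 592 (both (five 0 557 593) (mv 624 (both (five 7 495 495) (five 7 527 656))))))))) (both (mv 462 (both (five 5 429 430) (mv 494 (both (five 5 461 589) (mv 591 (both (five 7 462 495) (mv 623 (both (five 5 495 496) (mv 655 (both (five 5 527 560) (mv 656 (both (five 4 527 624) (five 4 559 688))))))))))))) (both (mv 462 (both (five 5 429 430) (mv 494 (both (five 5 461 589) (mv 495 (both (five 7 462 591) (mv 496 (both (five 2 492 524) (mv 465 (both (five 1 461 464) (mv 497 (both (five 1 462 466) (mv 498 (both (five 3 462 463) (five 2 495 499))))))))))))))) (mv 430 (both (five 5 429 462) (mv 558 (both (five 1 524 556) (mv 560 (both (five 3 524 524) (mv 592 (both (five 0 557 593) (mv 624 (both (five 7 527 656) (mv 623 (both (five 6 527 655) (mv 496 (both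 (five 5 495 591) (mv 464 (both (five 6 431 432) (mv 465 (both (five 5 432 433) (five 5 464 497))))))))))))))))))))))))))))))))))))))))) (both (mv 494 (both (mv 495 (both (five 0 492 492) (mv 496 (both (five 2 492 524) (mv 461 (both (five 3 460 460) (mv 462 (both (five 3 461 497) (mv 430 (both (five 4 398 398) (five 5 429 557))))))))))) (both (mv 557 (both (mv 462 (both (five 5 461 589) (mv 430 (both (five 6 397 398) (five 5 429 461))))) (both (mv 461 (both (mv 428 (both (five 7 428 460) (mv 429 (both (five 7 396 396) (mv 430 (both (five 5 397 398) (five 5 429 462))))))) (both (mv 428 (both (five 7 428 460) (mv 429 (both (five 7 396 396) (mv 556 (both (five 6 428 524) (mv 558 (both (five 1 524 559) (five 4 461 590))))))))) (both (mv 430 (both (five 5 429 462) (mv 429 (both (five 5 397 398) (mv 556 (both (five 6 428 524) (mv 558 (both (five 1 524 559) (five 4 461 590))))))))) (mv 428 (both (five 7 428 460) (mv 462 (both (five 5 429 430) (mv 558 (both (five 4 461 590) (mv 559 (both (five 1 524 556) (mv 560 (both (five 3 524 524) (mv 592 (both (five 0 557 593) (mv 624 (both (five 7 527 656) (mv 623 (both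 (five 6 527 655) (mv 496 (both (five 5 495 591) (mv 465 (both (five 5 464 497) (mv 464 (both (five 5 432 433) (five 2 461 463))))))))))))))))))))))))))) (both (mv 461 (both (mv 460 (both (five 7 428 428) (mv 589 (both (five 7 460 492) (mv 590 (both (five 4 461 558) (five 4 493 622))))))) (both (mv 558 (both (five 4 461 590) (mv 556 (both (five 1 524 559) (mv 429 (both (five 6 428 524) (mv 396 (both (five 7 396 428) (mv 397 (both (five 7 364 364) (mv 398 (both (five 5 365 366) (five 5 397 430))))))))))))) (both (mv 429 (both (mv 396 (both (five 7 396 428) (mv 397 (both (five 7 364 364) (mv 524 (both (five 6 396 492) (five 6 428 556))))))) (both (mv 524 (both (five 6 428 556) (mv 492 (both (five 6 396 397) (mv 589 (both (five 7 460 460) (five 7 492 621))))))) (mv 428 (both (five 7 396 396) (five 7 428 460)))))) (mv 590 (both (five 4 461 558) (mv 589 (both (five 4 493 622) (mv 492 (both (five 7 460 460) (mv 524 (both (five 7 492 621) (mv 429 (both (five 6 396 397) (five 6 428 556))))))))))))))) (mv 589 (both (five 5 461 462) (mv 622 (both (five 4 493 590) (mv 621 (both (five 4 525 654) (mv 524 (both (five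 7 492 492) (mv 652 (both (five 6 524 620) (mv 653 (both (five 7 524 556) (five 6 556 684))))))))))))))))) (both (mv 462 (both (mv 430 (both (five 6 397 398) (mv 557 (both (five 5 429 461) (five 5 461 589))))) (both (mv 495 (both (mv 557 (both (five 5 461 589) (mv 559 (both (five 7 462 591) (mv 558 (both (five 1 524 556) (mv 590 (both (five 4 461 461) (five 6 462 463))))))))) (both (mv 496 (both (five 2 492 524) (mv 461 (both (five 3 460 460) (five 3 461 497))))) (mv 496 (both (five 2 492 524) (mv 557 (both (five 5 461 589) (mv 559 (both (five 7 462 591) (mv 558 (both (five 1 524 556) (mv 463 (both (five 6 462 590) (mv 431 (both (five 4 399 399) (five 4 431 560)))))))))))))))) (both (mv 495 (both (mv 430 (both (five 6 397 398) (mv 559 (both (five 7 430 463) (five 7 462 591))))) (mv 496 (both (five 2 492 524) (mv 461 (both (five 3 460 460) (five 3 461 497))))))) (mv 495 (both (mv 430 (both (five 6 397 398) (mv 559 (both (five 7 430 463) (five 7 462 591))))) (both (mv 496 (both (five 2 492 524) (mv 465 (both (five 1 461 464) (mv 497 (both (five 1 462 466) (mv 498 (both (five 3 462 463) (five 2 495 499)))))))))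 (mv 398 (both (five 6 397 430) (mv 524 (both (five 2 492 496) (mv 522 (both (five 1 490 523) (mv 557 (both (five 5 461 589) (mv 559 (both (five 7 462 591) (mv 558 (both (five 1 524 556) (five 3 524 560)))))))))))))))))))) (both (mv 557 (both (mv 558 (both (mv 559 (both (five 1 524 556) (mv 560 (both (five 3 524 524) (mv 592 (both (five 0 557 593) (mv 624 (both (five 7 495 495) (five 7 527 656))))))))) (mv 590 (both (five 4 461 461) (mv 622 (both (five 4 493 589) (five 7 525 654))))))) (both (mv 461 (both (mv 460 (both (five 7 428 428) (mv 589 (both (five 7 460 492) (mv 590 (both (five 4 461 558) (five 4 493 622))))))) (both (mv 558 (both (five 4 461 590) (mv 556 (both (five 1 524 559) (mv 429 (both (five 6 428 524) (mv 396 (both (five 7 396 428) (mv 397 (both (five 7 364 364) (mv 398 (both (five 5 365 366) (five 5 397 430))))))))))))) (both (mv 429 (both (mv 396 (both (five 7 396 428) (mv 397 (both (five 7 364 364) (mv 524 (both (five 6 396 492) (five 6 428 556))))))) (both (mv 524 (both (five 6 428 556) (mv 492 (both (five 6 396 397) (mv 589 (both (five 7 460 460) (five 7 492 621))))))) (mv 428 (both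 (five 7 396 396) (five 7 428 460)))))) (mv 590 (both (five 4 461 558) (mv 589 (both (five 4 493 622) (mv 492 (both (five 7 460 460) (mv 524 (both (five 7 492 621) (mv 429 (both (five 6 396 397) (five 6 428 556))))))))))))))) (both (mv 492 (both (five 0 492 495) (mv 460 (both (five 7 460 589) (mv 428 (both (five 4 396 396) (five 7 428 461))))))) (both (mv 492 (both (five 0 492 495) (mv 460 (both (five 7 460 589) (mv 428 (both (five 4 396 396) (five 4 428 524))))))) (mv 495 (both (five 0 492 492) (mv 496 (both (five 2 492 524) (mv 461 (both (five 3 460 460) (mv 558 (both (five 4 461 590) (mv 559 (both (five 1 524 556) (mv 591 (both (five 5 495 623) (mv 592 (both (five 4 495 624) (mv 560 (both (five 4 463 463) (five 0 557 593)))))))))))))))))))))) (both (mv 462 (both (mv 430 (both (five 6 397 398) (mv 557 (both (five 5 429 461) (five 5 461 589))))) (mv 492 (both (five 0 492 495) (mv 491 (both (five 1 459 463) (mv 458 (both (five 3 458 459) (mv 490 (both (five 3 457 457) (mv 522 (both (five 2 489 521) (five 2 490 523))))))))))))) (mv 495 (both (five 0 492 492) (mv 496 (both (five 2 492 524) (mv 465 (both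 (five 1 461 464) (mv 497 (both (five 1 462 466) (mv 401 (both (five 6 400 433) (mv 498 (both (five 2 495 499) (mv 463 (both (five 3 462 462) (mv 431 (both (five 4 399 399) (five 4 431 560))))))))))))))))))))))) (mv 495 (both (mv 463 (both (mv 431 (both (five 4 431 560) (mv 398 (both (five 7 398 430) (mv 399 (both (five 7 366 366) (five 4 399 496))))))) (both (mv 559 (both (mv 560 (both (five 4 463 592) (mv 590 (both (five 6 462 558) (mv 591 (both (five 6 494 622) (mv 623 (both (five 5 495 496) (five 5 527 655))))))))) (both (mv 430 (both (five 7 430 462) (mv 432 (both (five 5 431 464) (mv 590 (both (five 6 462 558) (mv 591 (both (five 6 494 622) (mv 592 (both (five 4 463 560) (five 4 495 624))))))))))) (mv 462 (both (five 7 430 430) (mv 464 (both (five 5 431 432) (mv 461 (both (five 2 460 492) (mv 496 (both (five 0 460 460) (five 0 461 497)))))))))))) (both (mv 559 (both (mv 590 (both (five 6 462 558) (mv 591 (both (five 6 494 622) (mv 623 (both (five 5 495 496) (mv 624 (both (five 4 495 592) (five 4 527 656))))))))) (mv 430 (both (five 7 430 462) (mv 431 (both (five 7 398 398) (mv 432 (both (five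 5 399 400) (five 5 431 464))))))))) (both (mv 431 (both (five 4 431 560) (mv 398 (both (five 7 398 430) (mv 399 (both (five 7 366 366) (mv 400 (both (five 5 367 368) (five 5 399 432))))))))) (mv 431 (both (five 4 431 560) (mv 399 (both (five 4 399 496) (mv 400 (both (five 5 367 368) (five 5 399 432)))))))))))) (both (mv 463 (both (mv 560 (both (five 4 431 431) (mv 592 (both (five 4 463 559) (five 7 495 624))))) (both (mv 559 (both (mv 590 (both (five 6 462 558) (mv 591 (both (five 6 494 622) (mv 592 (both (five 4 463 560) (five 4 495 624))))))) (both (mv 462 (both (five 7 430 430) (mv 494 (both (five 7 462 591) (mv 496 (both (five 2 492 524) (mv 461 (both (five 3 460 460) (five 3 461 497))))))))) (mv 558 (both (five 6 462 590) (mv 557 (both (five 1 524 556) (mv 560 (both (five 3 524 524) (five 4 463 592)))))))))) (both (mv 431 (both (mv 398 (both (five 7 398 430) (mv 399 (both (five 7 366 366) (five 4 399 496))))) (both (mv 400 (both (five 5 399 432) (mv 430 (both (five 7 398 398) (mv 462 (both (five 7 430 559) (mv 461 (both (five 5 429 557) (mv 460 (both (five 1 427 459) (five 0 460 496)))))))))))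 (both (mv 399 (both (five 4 399 496) (mv 400 (both (five 5 367 368) (five 5 399 432))))) (mv 398 (both (five 7 398 430) (mv 399 (both (five 7 366 366) (mv 400 (both (five 5 367 368) (five 5 399 432))))))))))) (mv 431 (both (five 4 431 560) (mv 398 (both (five 7 398 430) (mv 399 (both (five 7 366 366) (five 4 399 496))))))))))) (both (mv 494 (both (five 0 492 492) (mv 496 (both (five 2 492 524) (mv 461 (both (five 3 460 460) (mv 462 (both (five 3 461 497) (mv 557 (both (five 5 461 589) (mv 558 (both (five 4 461 590) (mv 559 (both (five 1 524 556) (five 7 462 591))))))))))))))) (both (mv 494 (both (five 0 492 492) (mv 462 (both (mv 430 (both (five 6 397 398) (mv 559 (both (five 7 430 463) (five 7 462 591))))) (both (mv 557 (both (five 5 461 589) (mv 559 (both (five 7 462 591) (mv 558 (both (five 1 524 556) (mv 590 (both (five 4 461 461) (five 6 462 463))))))))) (mv 430 (both (five 6 397 398) (mv 557 (both (five 5 429 461) (five 5 461 589)))))))))) (both (mv 494 (both (five 0 492 492) (mv 496 (both (five 2 492 524) (mv 461 (both (five 3 460 460) (mv 462 (both (five 3 461 497) (mv 430 (both (five 4 398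 398) (five 5 429 557))))))))))) (both (mv 463 (both (mv 431 (both (five 4 431 560) (mv 398 (both (five 7 398 430) (mv 399 (both (five 7 366 366) (mv 400 (both (five 5 367 368) (five 5 399 432))))))))) (both (mv 559 (both (mv 462 (both (five 7 430 430) (mv 494 (both (five 0 492 492) (five 7 462 591))))) (both (mv 590 (both (five 6 462 558) (mv 591 (both (five 6 494 622) (mv 592 (both (five 4 463 560) (five 4 495 624))))))) (mv 430 (both (five 7 430 462) (mv 432 (both (five 5 431 464) (mv 492 (both (five 0 492 494) (mv 558 (both (five 6 462 590) (mv 557 (both (five 1 524 556) (mv 560 (both (five 3 524 524) (five 4 463 592)))))))))))))))) (both (mv 559 (both (mv 462 (both (five 7 430 430) (mv 494 (both (five 0 492 492) (five 7 462 591))))) (both (mv 430 (both (five 7 430 462) (mv 431 (both (five 7 398 398) (mv 432 (both (five 5 399 400) (five 5 431 464))))))) (mv 432 (both (five 5 431 464) (mv 400 (both (five 5 399 431) (mv 492 (both (five 0 492 494) (mv 558 (both (five 6 462 590) (mv 557 (both (five 1 524 556) (mv 460 (both (five 7 460 589) (mv 428 (both (five 4 396 396) (five 4 428 524))))))))))))))))))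 (both (mv 431 (both (five 4 431 560) (mv 400 (both (five 5 399 432) (mv 399 (both (five 5 367 368) (mv 366 (both (five 7 366 398) (mv 367 (both (five 7 334 334) (mv 494 (both (five 6 366 462) (five 0 492 492))))))))))))) (mv 431 (both (five 4 431 560) (mv 398 (both (five 7 398 430) (mv 399 (both (five 7 366 366) (mv 368 (both (five 5 367 400) (mv 367 (both (five 5 335 336) (mv 494 (both (five 6 366 462) (five 0 492 492)))))))))))))))))) (mv 557 (both (mv 558 (both (mv 590 (both (five 4 461 461) (mv 622 (both (five 4 493 589) (five 7 525 654))))) (mv 559 (both (five 1 524 556) (mv 560 (both (five 3 524 524) (mv 592 (both (five 0 557 593) (five 7 495 624))))))))) (both (mv 492 (both (five 0 492 494) (mv 460 (both (five 7 460 589) (mv 428 (both (five 4 396 396) (five 4 428 524))))))) (both (mv 558 (both (mv 559 (both (five 1 524 556) (mv 560 (both (five 3 524 524) (mv 592 (both (five 0 557 593) (five 7 495 624))))))) (both (mv 461 (both (five 4 461 590) (mv 428 (both (five 7 428 460) (mv 429 (both (five 7 396 396) (mv 398 (both (five 5 397 430) (mv 397 (both (five 5 365 366) (mv 492 (both (five 0 492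 494) (five 6 396 524))))))))))))) (mv 556 (both (five 1 524 559) (mv 590 (both (five 4 461 461) (mv 555 (both (five 0 555 591) (mv 522 (both (five 3 522 523) (mv 554 (both (five 3 521 521) (mv 586 (both (five 2 553 585) (five 2 554 587)))))))))))))))) (mv 492 (both (five 0 492 494) (mv 460 (both (five 7 460 589) (mv 428 (both (five 4 396 396) (five 7 428 461)))))))))))))))))))))))))))))))))))))

theorem L84 : W (S 1427877913307166820716235366208929789192042542429807525154048399510592982146712458841492405257582547435277632769428018471721373503941061913015397884551931887616) (S 2006582605222576139780625548536036194642201279515256336035151037314206674377972953253264802538138364813080775681372944328502635688081289354336876028013885321488155569921818826831378265089323320727908743380992) :=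
  check_sound (Env.cons L82 (Env.cons L83 Env.nil)) (x := 493) (t := tL84) (by decide +kernel)

end P062.Cert
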