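import Vale.Agent.P062.Check
import Vale.Agent.P062.Cert.C14

/-! Snaky certificate, part 15 (machine generated, checked by the kernel) -/

set_option maxRecDepth 100000

namespace P062.Cert

open T

def tL85 : T :=
  (both (ref 0) (both (mv 526 (both (mv 556 (both (five 2 524 557) (mv 524 (both (five 2 523 555) (mv 560 (both (five 0 524 559) (five 0 525 561))))))) (both (mv 492 (both (five 3 492 493) (mv 524 (both (five 3 491 491) (mv 560 (both (five 0 524 559) (five 0 525 561))))))) (mv 493 (both (five 3 492 492) (mv 461 (both (mv 557 (both (five 2 524 556) (mv 428 (both (five 7 428 460) (mv 429 (both (five 7 396 396) (mv 430 (both (five 5 397 398) (five 5 429 462))))))))) (both (mv 557 (both (five 2 524 556) (mv 462 (both (five 5 429 430) (mv 589 (both (five 5 461 494) (mv 590 (both (five 4 461 558) (five 4 493 622))))))))) (mv 429 (both (five 4 429 558) (mv 396 (both (five 7 396 428) (mv 397 (both (five 7 364 364) (five 4 397 494))))))))))))))) (both (mv 526 (both (mv 496 (both (five 1 493 497) (mv 524 (both (five 1 492 495) (mv 556 (both (five 2 523 555) (five 2 524 557))))))) (both (mv 492 (both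 (five 3 492 493) (mv 496 (both (five 1 493 497) (mv 524 (both (five 3 491 491) (five 1 492 495))))))) (mv 493 (both (five 3 492 492) (mv 461 (both (mv 557 (both (five 2 524 556) (mv 428 (both (five 7 428 460) (mv 429 (both (five 7 396 396) (mv 430 (both (five 5 397 398) (five 5 429 462))))))))) (both (mv 557 (both (five 2 524 556) (mv 462 (both (five 5 429 430) (mv 589 (both (five 5 461 494) (mv 590 (both (five 4 461 558) (five 4 493 622))))))))) (mv 429 (both (five 4 429 558) (mv 396 (both (five 7 396 428) (mv 397 (both (five 7 364 364) (five 4 397 494))))))))))))))) (both (mv 526 (both (mv 556 (both (five 2 524 557) (mv 524 (both (five 2 523 555) (mv 560 (both (five 0 524 559) (five 0 525 561))))))) (both (mv 496 (both (five 1 493 497) (mv 524 (both (five 1 492 495) (mv 556 (both (five 2 523 555) (five 2 524 557))))))) (both (mv 496 (both (five 1 493 497) (mv 495 (both (five 1 492 524) (mv 560 (both (five 0 525 561) (mv 592 (both (five 7 463 463) (five 7 495 624))))))))) (mv 496 (both (five 1 493 497) (mv 464 (both (mv 556 (both (five 2 524 557) (mv 560 (both (five 0 525 561) (mv 433 (both (five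 5 432 465) (mv 432 (both (five 5 400 401) (mv 399 (both (five 7 399 431) (mv 400 (both (five 7 367 367) (five 6 399 495))))))))))))) (both (mv 556 (both (five 2 524 557) (mv 560 (both (five 0 525 561) (mv 591 (both (five 6 463 559) (mv 592 (both (five 6 495 623) (mv 624 (both (five 7 495 495) (mv 625 (both (five 4 496 593) (five 4 528 657))))))))))))) (mv 432 (both (five 6 431 559) (mv 399 (both (five 7 399 431) (mv 400 (both (five 7 367 367) (mv 401 (both (five 5 368 369) (five 5 400 433)))))))))))))))))) (both (mv 526 (both (mv 492 (both (five 3 492 493) (mv 524 (both (five 3 491 491) (mv 560 (both (five 0 524 559) (five 0 525 561))))))) (both (mv 492 (both (five 3 492 493) (mv 496 (both (five 1 493 497) (mv 524 (both (five 3 491 491) (five 1 492 495))))))) (mv 496 (both (five 1 493 497) (mv 464 (both (mv 560 (both (five 0 525 561) (mv 433 (both (five 5 432 465) (mv 432 (both (five 5 400 401) (mv 399 (both (five 7 399 431) (mv 400 (both (five 7 367 367) (five 6 399 495))))))))))) (both (mv 560 (both (five 0 525 561) (mv 591 (both (five 6 463 559) (mv 592 (both (five 6 495 623) (mv 624 (both (five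 7 495 495) (mv 625 (both (five 4 496 593) (five 4 528 657))))))))))) (mv 432 (both (five 6 431 559) (mv 399 (both (five 7 399 431) (mv 400 (both (five 7 367 367) (mv 401 (both (five 5 368 369) (five 5 400 433))))))))))))))))) (mv 526 (both (mv 493 (both (five 3 492 492) (mv 461 (both (mv 557 (both (five 2 524 556) (mv 428 (both (five 7 428 460) (mv 429 (both (five 7 396 396) (mv 430 (both (five 5 397 398) (five 5 429 462))))))))) (both (mv 557 (both (five 2 524 556) (mv 462 (both (five 5 429 430) (mv 589 (both (five 5 461 494) (mv 590 (both (five 4 461 558) (five 4 493 622))))))))) (mv 429 (both (five 4 429 558) (mv 396 (both (five 7 396 428) (mv 397 (both (five 7 364 364) (five 4 397 494)))))))))))) (mv 496 (both (five 1 493 497) (mv 464 (both (mv 560 (both (five 0 525 561) (mv 433 (both (five 5 432 465) (mv 432 (both (five 5 400 401) (mv 399 (both (five 7 399 431) (mv 400 (both (five 7 367 367) (five 6 399 495))))))))))) (both (mv 560 (both (five 0 525 561) (mv 591 (both (five 6 463 559) (mv 592 (both (five 6 495 623) (mv 624 (both (five 7 495 495) (mv 625 (both (five 4 496 593) (five 4 528 657)))))))))))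 (mv 432 (both (five 6 431 559) (mv 399 (both (five 7 399 431) (mv 400 (both (five 7 367 367) (mv 401 (both (five 5 368 369) (five 5 400 433)))))))))))))))))))))

theorem L85 : W (S 988530863058807798957393715067720623286798683220635978952802738122718218409262471505648588255249455916730668840373243557345566271959196709010660073920568229888) (S 2006582605222576139780625548536036194642201279515915356610523575846844936854684767002122668326952122132382644173454756474108810669085055079840375665291705767381737732293382537679351062895330427443855788867584) :=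
  check_sound (Env.cons L84 Env.nil) (x := 527) (t := tL85) (by decide +kernel)

def tL86 : T :=
  (both (mv 556 (both (mv 461 (both (five 6 428 429) (five 5 460 588))) (both (mv 588 (both (five 5 492 620) (mv 459 (both (five 7 459 491) (mv 460 (both (five 7 427 427) (mv 587 (both (five 6 459 555) (five 6 491 619))))))))) (mv 460 (both (mv 427 (both (five 7 427 459) (mv 428 (both (five 7 395 395) (five 4 396 396))))) (both (mv 459 (both (five 7 427 427) (mv 458 (both (five 0 457 457) (mv 461 (both (five 5 428 429) (mv 425 (both (five 3 425 426) (mv 490 (both (five 2 457 489) (mv 462 (both (five 2 458 491) (mv 431 (both (five 1 427 430) (mv 463 (both (five 1 428 432) (five 2 460 464))))))))))))))))) (mv 428 (both (five 4 396 396) (mv 429 (both (five 5 396 397) (five 5 428 461))))))))))) (both (mv 556 (both (mv 461 (both (five 6 428 429) (five 5 460 588))) (both (mv 526 (both (five 3 492 527) (mv 588 (both (five 5 492 620) (mv 587 (both (five 6 491 619) (mv 460 (both (five 6 459 555) (mv 427 (both (five 7 427 459) (mv 428 (both (five 7 395 395) (five 4 396 396))))))))))))) (mv 460 (both (mv 427 (both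 (five 7 427 459) (mv 428 (both (five 7 395 395) (five 4 396 396))))) (both (mv 427 (both (five 7 427 459) (mv 429 (both (five 5 428 461) (mv 526 (both (five 3 492 527) (mv 555 (both (five 6 459 587) (mv 554 (both (five 2 522 523) (five 1 521 553))))))))))) (mv 428 (both (five 4 396 396) (mv 429 (both (five 5 396 397) (five 5 428 461))))))))))) (both (mv 526 (both (five 3 492 527) (mv 523 (both (mv 490 (both (five 0 490 491) (mv 522 (both (five 3 489 489) (five 1 489 521))))) (both (mv 522 (both (five 1 489 521) (mv 554 (both (five 2 521 553) (five 2 522 555))))) (mv 491 (both (five 0 490 490) (mv 555 (both (five 2 522 554) (mv 460 (both (five 6 427 428) (five 5 459 587)))))))))))) (both (mv 526 (both (five 3 492 527) (mv 523 (both (mv 490 (both (five 0 490 491) (mv 522 (both (five 3 489 489) (five 1 489 521))))) (both (mv 522 (both (five 1 489 521) (mv 554 (both (five 2 521 553) (five 2 522 555))))) (mv 491 (both (five 0 490 490) (mv 555 (both (five 2 522 554) (mv 587 (both (five 5 491 619) (mv 586 (both (five 6 490 618) (mv 588 (both (five 4 491 620) (mv 556 (both (five 4 459 459) (five 5 460 461))))))))))))))))))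 (mv 556 (both (mv 461 (both (five 6 428 429) (five 5 460 588))) (both (mv 526 (both (five 3 492 527) (mv 491 (both (five 0 490 490) (mv 588 (both (five 7 459 459) (five 5 492 620))))))) (mv 460 (both (mv 427 (both (five 7 427 459) (mv 428 (both (five 7 395 395) (five 4 396 396))))) (both (mv 459 (both (five 7 427 427) (mv 458 (both (five 0 457 457) (mv 461 (both (five 5 428 429) (mv 425 (both (five 3 425 426) (mv 490 (both (five 2 457 489) (mv 462 (both (five 2 458 491) (mv 431 (both (five 1 427 430) (mv 463 (both (five 1 428 432) (five 2 460 464))))))))))))))))) (mv 428 (both (five 4 396 396) (mv 429 (both (five 5 396 397) (five 5 428 461)))))))))))))))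

theorem L86 : W (S 988530863097167845143676627606937690046497110785674752929869903624475539129139039432265868195287777311174858181985196886965410854098461434157754523764261912576) (S 7614394266794037445015411051702639229567371196628333490720479778106736886226066484757473685087730470402729725585152411512430409194123728845473682617804892763198989964670056073780514521088) :=
  check_sound Env.nil (x := 524) (t := tL86) (by decide +kernel)

def tL87 : T :=
  (both (mv 492 (both (mv 494 (both (mv 495 (both (five 0 492 527) (mv 524 (both (five 2 492 496) (five 2 491 523))))) (both (mv 491 (both (mv 458 (both (five 3 458 459) (mv 462 (both (five 1 459 463) (mv 490 (both (five 3 457 457) (five 1 458 461))))))) (both (mv 458 (both (five 3 458 459) (mv 490 (both (five 3 457 457) (mv 522 (both (five 2 489 521) (five 2 490 523))))))) (both (mv 462 (both (five 1 459 463) (mv 398 (both (five 6 397 430) (mv 490 (both (five 1 458 461) (mv 522 (both (five 2 489 521) (five 2 490 523))))))))) (mv 460 (both (mv 428 (both (five 4 396 396) (mv 462 (both (five 1 459 463) (mv 398 (both (five 6 397 430) (mv 523 (both (five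 2 490 522) (mv 555 (both (five 6 427 524) (five 5 459 587))))))))))) (both (mv 396 (both (five 4 396 428) (mv 459 (both (five 3 458 458) (mv 462 (both (five 1 459 463) (mv 430 (both (five 6 397 398) (mv 461 (both (five 1 427 431) (mv 427 (both (five 3 426 426) (mv 395 (both (five 4 363 363) (five 5 363 364))))))))))))))) (both (mv 459 (both (five 3 458 458) (mv 462 (both (five 1 459 463) (mv 398 (both (five 6 397 430) (mv 523 (both (five 2 490 522) (mv 555 (both (five 5 459 587) (mv 554 (both (five 6 458 586) (mv 556 (both (five 4 459 588) (mv 524 (both (five 4 427 427) (five 1 521 553))))))))))))))))) (mv 396 (both (five 4 396 428) (mv 459 (both (five 3 458 458) (mv 523 (both (five 2 490 522) (mv 555 (both (five 5 459 587) (mv 554 (both (five 6 458 586) (mv 556 (both (five 4 459 588) (mv 524 (both (five 4 427 427) (five 1 521 553))))))))))))))))))))))) (mv 495 (both (five 0 492 527) (mv 459 (both (five 3 459 460) (mv 463 (both (five 1 460 464) (mv 491 (both (five 3 458 458) (five 1 459 462)))))))))))) (both (mv 491 (both (mv 490 (both (five 0 490 526) (mv 457 (both (five 3 457 458) (mv 489 (both (five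 3 456 456) (five 0 489 524))))))) (both (mv 494 (both (mv 460 (both (mv 428 (both (five 4 396 396) (mv 462 (both (five 1 459 463) (mv 398 (both (five 6 397 430) (mv 523 (both (five 2 490 522) (mv 555 (both (five 6 427 524) (five 5 459 587))))))))))) (both (mv 396 (both (five 4 396 428) (mv 459 (both (five 3 458 458) (mv 462 (both (five 1 459 463) (mv 430 (both (five 6 397 398) (mv 461 (both (five 1 427 431) (mv 427 (both (five 3 426 426) (mv 395 (both (five 4 363 363) (five 5 363 364))))))))))))))) (both (mv 459 (both (five 3 458 458) (mv 462 (both (five 1 459 463) (mv 398 (both (five 6 397 430) (mv 523 (both (five 2 490 522) (mv 555 (both (five 5 459 587) (mv 554 (both (five 6 458 586) (mv 556 (both (five 4 459 588) (mv 524 (both (five 4 427 427) (five 1 521 553))))))))))))))))) (mv 396 (both (five 4 396 428) (mv 459 (both (five 3 458 458) (mv 523 (both (five 2 490 522) (mv 555 (both (five 5 459 587) (mv 554 (both (five 6 458 586) (mv 556 (both (five 4 459 588) (mv 524 (both (five 4 427 427) (five 1 521 553))))))))))))))))))) (both (mv 463 (both (five 1 459 462) (mv 495 (both (five 1 460 464) (mv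 496 (both (five 2 492 524) (mv 399 (both (five 4 399 431) (mv 461 (both (five 3 460 460) (mv 526 (both (five 2 493 497) (mv 429 (both (five 4 397 397) (five 4 429 558))))))))))))))) (both (mv 459 (both (five 3 458 458) (mv 460 (both (five 3 459 495) (mv 523 (both (five 2 490 522) (mv 555 (both (five 5 459 587) (mv 554 (both (five 6 458 586) (mv 556 (both (five 4 459 588) (mv 524 (both (five 4 427 427) (five 1 521 553))))))))))))))) (both (mv 459 (both (five 3 458 458) (mv 460 (both (five 3 459 495) (mv 396 (both (five 4 396 428) (mv 462 (both (five 1 459 463) (mv 430 (both (five 6 397 398) (mv 461 (both (five 1 427 431) (mv 427 (both (five 3 426 426) (mv 395 (both (five 4 363 363) (five 5 363 364))))))))))))))))) (mv 458 (both (five 3 458 459) (mv 463 (both (five 1 459 462) (mv 495 (both (five 1 460 464) (mv 524 (both (five 2 492 496) (five 2 491 523)))))))))))))) (both (mv 490 (both (mv 457 (both (five 3 457 458) (mv 489 (both (five 3 456 456) (five 0 489 524))))) (mv 462 (both (five 1 458 461) (mv 494 (both (five 1 459 463) (mv 522 (both (five 2 489 521) (five 2 490 523))))))))) (mv 490 (both (five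 0 490 526) (mv 462 (both (five 1 458 461) (mv 494 (both (five 1 459 463) (mv 522 (both (five 2 489 521) (five 2 490 523))))))))))))) (both (ref 0) (both (mv 494 (both (mv 495 (both (five 0 492 527) (mv 524 (both (five 2 492 496) (five 2 491 523))))) (both (mv 526 (both (five 3 492 527) (mv 462 (both (mv 430 (both (five 6 397 398) (mv 429 (both (five 7 397 397) (mv 431 (both (five 5 398 399) (mv 463 (both (five 5 430 558) (mv 428 (both (five 0 427 427) (five 0 428 464))))))))))) (both (mv 461 (both (mv 429 (both (five 4 397 397) (five 7 429 558))) (both (mv 463 (both (five 2 460 464) (mv 558 (both (five 5 430 431) (five 7 461 590))))) (mv 429 (both (five 4 397 397) (mv 428 (both (five 7 396 396) (mv 426 (both (five 0 426 427) (mv 463 (both (five 3 428 464) (mv 524 (both (five 6 428 556) (mv 523 (both (five 1 490 522) (mv 555 (both (five 6 427 460) (five 2 522 554)))))))))))))))))) (both (mv 430 (both (five 6 397 398) (mv 431 (both (five 5 398 399) (mv 463 (both (five 5 430 558) (mv 464 (both (five 2 460 461) (five 2 461 465))))))))) (both (mv 461 (both (mv 429 (both (five 4 397 397) (mv 428 (both (five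 7 396 396) (mv 426 (both (five 0 426 427) (mv 463 (both (five 3 428 464) (mv 524 (both (five 6 428 556) (mv 523 (both (five 1 490 522) (mv 555 (both (five 6 427 460) (five 2 522 554))))))))))))))) (both (mv 430 (both (five 6 397 398) (mv 431 (both (five 5 398 399) (mv 432 (both (five 2 429 433) (mv 460 (both (five 1 427 459) (five 1 428 463))))))))) (both (mv 398 (both (five 6 397 430) (mv 429 (both (five 4 397 397) (mv 428 (both (five 7 396 396) (mv 524 (both (five 6 428 556) (mv 523 (both (five 1 490 522) (mv 555 (both (five 6 427 460) (five 2 522 554))))))))))))) (mv 429 (both (five 4 397 397) (mv 396 (both (five 7 396 428) (mv 430 (both (five 5 397 398) (mv 431 (both (five 5 398 399) (mv 432 (both (five 2 429 433) (mv 464 (both (five 2 460 463) (five 0 429 465))))))))))))))))) (mv 430 (both (five 6 397 398) (mv 429 (both (five 7 397 397) (mv 461 (both (five 7 429 558) (mv 428 (both (five 7 396 396) (mv 427 (both (five 0 426 426) (mv 395 (both (five 3 394 394) (mv 524 (both (five 7 395 460) (five 6 428 556)))))))))))))))))))))) (both (mv 495 (both (mv 524 (both (five 2 492 496) (five 2 491 523)))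 (both (mv 464 (both (five 1 460 463) (mv 496 (both (five 1 461 465) (mv 461 (both (five 3 460 460) (mv 526 (both (five 2 493 497) (mv 429 (both (five 4 397 397) (five 4 429 558))))))))))) (mv 460 (both (five 3 459 459) (mv 428 (both (five 4 396 396) (mv 463 (both (five 1 460 464) (mv 524 (both (five 2 491 523) (mv 395 (both (five 7 395 427) (mv 429 (both (five 5 396 397) (mv 461 (both (five 5 428 556) (mv 430 (both (five 5 397 398) (mv 431 (both (five 2 428 432) (mv 399 (both (five 1 396 400) (five 6 398 526)))))))))))))))))))))))) (mv 527 (both (five 0 492 495) (five 3 492 526))))))) (both (mv 494 (both (mv 527 (both (five 0 492 495) (five 3 492 526))) (both (mv 491 (both (mv 459 (both (five 3 458 458) (mv 460 (both (five 3 459 495) (mv 396 (both (five 4 396 428) (mv 462 (both (five 1 459 463) (mv 430 (both (five 6 397 398) (mv 461 (both (five 1 427 431) (mv 427 (both (five 3 426 426) (mv 395 (both (five 4 363 363) (five 5 363 364))))))))))))))))) (both (mv 458 (both (five 3 458 459) (mv 490 (both (five 3 457 457) (mv 522 (both (five 2 489 521) (five 2 490 523))))))) (mv 462 (both (five 1 459 463)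 (mv 398 (both (five 6 397 430) (mv 490 (both (five 1 458 461) (mv 522 (both (five 2 489 521) (five 2 490 523)))))))))))) (mv 526 (both (five 3 492 527) (mv 491 (both (five 0 490 490) (mv 462 (both (five 1 459 463) (mv 430 (both (five 6 397 398) (mv 429 (both (five 7 397 397) (mv 431 (both (five 5 398 399) (mv 461 (both (five 7 429 558) (mv 432 (both (five 2 429 433) (five 2 428 460)))))))))))))))))))) (both (mv 526 (both (five 3 492 527) (mv 491 (both (five 0 490 490) (mv 494 (both (mv 463 (both (five 1 459 462) (mv 495 (both (five 1 460 464) (mv 524 (both (five 2 492 496) (five 2 491 523))))))) (both (mv 459 (both (five 3 458 458) (mv 462 (both (five 1 459 463) (mv 430 (both (five 6 397 398) (mv 429 (both (five 7 397 397) (mv 431 (both (five 5 398 399) (mv 428 (both (five 2 427 460) (mv 395 (both (five 3 395 396) (mv 427 (both (five 3 394 394) (five 4 395 524))))))))))))))))) (mv 459 (both (five 3 458 458) (mv 460 (both (five 3 459 495) (mv 428 (both (five 4 396 396) (mv 523 (both (five 2 490 522) (five 5 427 555)))))))))))))))) (both (mv 494 (both (mv 527 (both (five 0 492 495) (five 3 492 526)))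 (both (mv 491 (both (mv 458 (both (five 3 458 459) (mv 462 (both (five 1 459 463) (mv 490 (both (five 3 457 457) (five 1 458 461))))))) (both (mv 463 (both (five 1 459 462) (mv 495 (both (five 1 460 464) (mv 524 (both (five 2 492 496) (five 2 491 523))))))) (mv 458 (both (five 3 458 459) (mv 490 (both (five 3 457 457) (mv 522 (both (five 2 489 521) (five 2 490 523)))))))))) (mv 526 (both (five 3 492 527) (mv 491 (both (five 0 490 490) (mv 459 (both (five 3 458 458) (mv 462 (both (five 1 459 463) (mv 430 (both (five 6 397 398) (mv 399 (both (five 5 398 431) (mv 429 (both (five 7 397 397) (mv 461 (both (five 7 429 558) (mv 428 (both (five 7 396 396) (mv 427 (both (five 0 426 426) (mv 395 (both (five 3 394 394) (five 4 395 524)))))))))))))))))))))))))) (both (mv 526 (both (five 3 492 527) (mv 491 (both (five 0 490 490) (mv 494 (both (mv 463 (both (five 1 459 462) (mv 495 (both (five 1 460 464) (mv 496 (both (five 2 493 497) (five 2 492 524))))))) (both (mv 462 (both (five 1 459 463) (mv 430 (both (five 6 397 398) (mv 429 (both (five 7 397 397) (mv 431 (both (five 5 398 399) (mv 461 (both (five 7 429 558)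 (mv 432 (both (five 2 429 433) (five 2 428 460))))))))))))) (mv 523 (both (five 2 490 522) (mv 495 (both (five 2 491 524) (mv 496 (both (five 2 493 497) (mv 461 (both (five 3 460 460) (mv 429 (both (five 4 397 397) (five 4 429 558)))))))))))))))))) (both (mv 526 (both (five 3 492 527) (mv 491 (both (five 0 490 490) (mv 494 (both (mv 463 (both (five 1 459 462) (mv 495 (both (five 1 460 464) (mv 496 (both (five 2 493 497) (five 2 492 524))))))) (both (mv 459 (both (five 3 458 458) (mv 495 (both (five 3 459 460) (mv 496 (both (five 2 493 497) (five 2 492 524))))))) (mv 462 (both (five 1 459 463) (mv 430 (both (five 6 397 398) (mv 429 (both (five 7 397 397) (mv 431 (both (five 5 398 399) (mv 461 (both (five 7 429 558) (mv 432 (both (five 2 429 433) (five 2 428 460)))))))))))))))))))) (mv 494 (both (mv 527 (both (five 0 492 495) (five 3 492 526))) (both (mv 491 (both (mv 459 (both (five 3 458 458) (mv 460 (both (five 3 459 495) (mv 428 (both (five 4 396 396) (mv 523 (both (five 2 490 522) (five 5 427 555))))))))) (both (mv 490 (both (five 0 490 526) (mv 457 (both (five 3 457 458) (mv 489 (both (five 3 456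 456) (five 0 489 524))))))) (mv 490 (both (five 0 490 526) (mv 522 (both (five 2 489 521) (five 2 490 523)))))))) (both (mv 526 (both (five 3 492 527) (mv 524 (both (mv 523 (both (mv 490 (both (five 0 490 491) (mv 522 (both (five 3 489 489) (five 1 489 521))))) (both (mv 522 (both (five 1 489 521) (mv 554 (both (five 2 521 553) (five 2 522 555))))) (mv 491 (both (five 0 490 490) (mv 555 (both (five 2 522 554) (mv 460 (both (five 6 427 428) (five 5 459 587)))))))))) (both (mv 523 (both (five 1 490 522) (mv 555 (both (five 2 522 554) (mv 460 (both (five 6 427 428) (mv 587 (both (five 6 459 556) (five 5 491 619))))))))) (both (mv 491 (both (five 0 490 490) (mv 459 (both (five 3 458 458) (mv 427 (both (five 4 395 395) (mv 556 (both (five 7 427 460) (five 7 459 588))))))))) (mv 523 (both (mv 490 (both (five 0 490 491) (mv 522 (both (five 3 489 489) (five 1 489 521))))) (both (mv 522 (both (five 1 489 521) (mv 554 (both (five 2 521 553) (five 2 522 555))))) (mv 491 (both (five 0 490 490) (mv 555 (both (five 2 522 554) (mv 587 (both (five 5 491 619) (mv 586 (both (five 6 490 618) (mv 588 (both (five 4 491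 620) (mv 556 (both (five 4 459 459) (five 5 460 461)))))))))))))))))))))) (mv 495 (both (five 0 492 527) (mv 524 (both (five 2 492 496) (five 2 491 523))))))))))))))))))) (both (mv 526 (both (mv 491 (both (mv 523 (both (mv 524 (both (five 3 490 490) (mv 494 (both (five 1 491 495) (five 1 490 522))))) (both (mv 555 (both (mv 459 (both (mv 426 (both (five 7 426 458) (mv 427 (both (five 7 394 394) (mv 428 (both (five 5 395 396) (five 5 427 460))))))) (mv 554 (both (five 6 458 586) (mv 556 (both (five 1 522 557) (five 4 459 588))))))) (both (mv 587 (both (mv 490 (both (five 7 458 458) (mv 618 (both (five 6 490 586) (mv 619 (both (five 7 490 522) (five 6 522 650))))))) (both (mv 620 (both (five 4 491 588) (mv 619 (both (five 4 523 652) (mv 650 (both (five 6 522 618) (mv 651 (both (five 6 554 682) (mv 554 (both (five 7 522 522) (mv 557 (both (five 1 522 556) (mv 622 (both (five 2 618 621) (mv 590 (both (five 7 493 558) (five 4 493 589))))))))))))))))) (both (mv 490 (both (five 7 458 458) (mv 619 (both (five 7 490 522) (mv 620 (both (five 4 491 588) (five 4 523 652))))))) (both (mv 557 (both (mv 458 (both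 (five 7 458 490) (mv 586 (both (five 6 490 618) (mv 588 (both (five 4 491 620) (mv 589 (both (five 1 554 558) (mv 494 (both (five 5 461 462) (five 5 493 621))))))))))) (both (mv 458 (both (five 7 458 490) (mv 554 (both (five 1 522 556) (mv 588 (both (five 4 491 620) (mv 552 (both (five 0 552 553) (mv 589 (both (five 3 554 590) (mv 494 (both (five 5 461 462) (five 5 493 621))))))))))))) (mv 556 (both (five 1 522 554) (mv 558 (both (five 3 522 522) (five 2 554 586)))))))) (mv 458 (both (five 7 458 490) (mv 618 (both (five 6 490 586) (mv 619 (both (five 6 522 650) (mv 620 (both (five 4 491 588) (five 4 523 652)))))))))))))) (both (mv 587 (both (mv 490 (both (five 7 458 458) (mv 618 (both (five 6 490 586) (mv 619 (both (five 7 490 522) (five 6 522 650))))))) (both (mv 618 (both (five 6 490 586) (mv 619 (both (five 6 522 650) (mv 620 (both (five 4 491 588) (five 4 523 652))))))) (mv 458 (both (five 7 458 490) (mv 459 (both (five 7 426 426) (mv 588 (both (five 4 459 556) (five 4 491 620)))))))))) (both (mv 459 (both (mv 426 (both (five 7 426 458) (mv 427 (both (five 7 394 394) (mv 428 (both (five 5 395 396)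 (five 5 427 460))))))) (both (mv 428 (both (five 5 427 460) (mv 427 (both (five 5 395 396) (mv 554 (both (five 6 426 522) (five 6 458 586))))))) (both (mv 426 (both (five 7 426 458) (mv 427 (both (five 7 394 394) (mv 554 (both (five 6 426 522) (five 6 458 586))))))) (mv 428 (both (five 5 427 460) (mv 458 (both (five 7 426 426) (mv 586 (both (five 6 458 554) (mv 587 (both (five 7 458 490) (five 6 490 618))))))))))))) (mv 556 (both (mv 557 (both (five 1 522 554) (mv 558 (both (five 3 522 522) (mv 590 (both (five 0 555 591) (five 7 493 622))))))) (mv 588 (both (five 4 459 459) (mv 620 (both (five 4 491 587) (five 7 523 652)))))))))))) (both (mv 524 (both (mv 494 (both (five 1 491 495) (five 1 490 522))) (both (mv 522 (both (mv 554 (both (five 2 521 553) (five 2 522 555))) (both (mv 557 (both (five 0 522 558) (mv 521 (both (five 0 521 556) (mv 488 (both (five 3 488 489) (mv 520 (both (five 3 487 487) (mv 552 (both (five 2 519 551) (five 2 520 553))))))))))) (mv 555 (both (five 2 522 554) (mv 557 (both (five 0 522 558) (mv 556 (both (five 0 521 521) (mv 588 (both (five 4 459 459) (mv 620 (both (five 4 491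 587) (five 7 523 652)))))))))))))) (mv 459 (both (mv 427 (both (five 4 427 556) (mv 394 (both (five 7 394 426) (mv 395 (both (five 7 362 362) (mv 396 (both (five 5 363 364) (five 5 395 428))))))))) (both (mv 494 (both (five 1 491 495) (mv 555 (both (five 2 522 554) (mv 426 (both (five 7 426 458) (mv 427 (both (five 7 394 394) (mv 428 (both (five 5 395 396) (five 5 427 460))))))))))) (both (mv 494 (both (five 1 491 495) (mv 555 (both (five 2 522 554) (mv 426 (both (five 7 426 458) (mv 428 (both (five 5 427 460) (mv 588 (both (five 4 459 556) (mv 587 (both (five 4 491 620) (mv 618 (both (five 6 490 586) (mv 619 (both (five 6 522 650) (mv 589 (both (five 2 586 590) (mv 557 (both (five 5 461 462) (five 5 493 621))))))))))))))))))))) (both (mv 427 (both (five 4 427 556) (mv 428 (both (five 5 395 396) (mv 555 (both (five 5 427 460) (five 2 522 554))))))) (mv 427 (both (five 4 427 556) (mv 426 (both (five 7 394 394) (mv 555 (both (five 7 426 458) (five 2 522 554))))))))))))))) (both (mv 524 (both (five 3 490 490) (mv 522 (both (mv 554 (both (five 2 521 553) (five 2 522 555))) (both (mv 557 (both (five 0 522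 558) (mv 521 (both (five 0 521 556) (mv 488 (both (five 3 488 489) (mv 520 (both (five 3 487 487) (mv 552 (both (five 2 519 551) (five 2 520 553))))))))))) (mv 555 (both (five 2 522 554) (mv 557 (both (five 0 522 558) (mv 556 (both (five 0 521 521) (mv 588 (both (five 4 459 459) (mv 620 (both (five 4 491 587) (five 7 523 652)))))))))))))))) (mv 524 (both (five 3 490 490) (mv 459 (both (mv 427 (both (five 4 427 556) (mv 394 (both (five 7 394 426) (mv 395 (both (five 7 362 362) (mv 396 (both (five 5 363 364) (five 5 395 428))))))))) (both (mv 494 (both (five 1 491 495) (mv 555 (both (five 2 522 554) (mv 426 (both (five 7 426 458) (mv 427 (both (five 7 394 394) (mv 428 (both (five 5 395 396) (five 5 427 460))))))))))) (both (mv 494 (both (five 1 491 495) (mv 555 (both (five 2 522 554) (mv 426 (both (five 7 426 458) (mv 428 (both (five 5 427 460) (mv 588 (both (five 4 459 556) (mv 587 (both (five 4 491 620) (mv 618 (both (five 6 490 586) (mv 619 (both (five 6 522 650) (mv 589 (both (five 2 586 590) (mv 557 (both (five 5 461 462) (five 5 493 621))))))))))))))))))))) (both (mv 427 (both (five 4 427 556)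 (mv 428 (both (five 5 395 396) (mv 555 (both (five 5 427 460) (five 2 522 554))))))) (mv 427 (both (five 4 427 556) (mv 426 (both (five 7 394 394) (mv 555 (both (five 7 426 458) (five 2 522 554))))))))))))))))))) (both (mv 523 (both (mv 524 (both (mv 494 (both (five 1 491 495) (five 1 490 522))) (both (mv 522 (both (mv 554 (both (five 2 521 553) (five 2 522 555))) (both (mv 557 (both (five 0 522 558) (mv 521 (both (five 0 521 556) (mv 488 (both (five 3 488 489) (mv 520 (both (five 3 487 487) (mv 552 (both (five 2 519 551) (five 2 520 553))))))))))) (mv 555 (both (five 2 522 554) (mv 557 (both (five 0 522 558) (mv 556 (both (five 0 521 521) (mv 588 (both (five 4 459 459) (mv 620 (both (five 4 491 587) (five 7 523 652)))))))))))))) (mv 459 (both (mv 427 (both (five 4 427 556) (mv 394 (both (five 7 394 426) (mv 395 (both (five 7 362 362) (mv 396 (both (five 5 363 364) (five 5 395 428))))))))) (both (mv 494 (both (five 1 491 495) (mv 555 (both (five 2 522 554) (mv 426 (both (five 7 426 458) (mv 427 (both (five 7 394 394) (mv 428 (both (five 5 395 396) (five 5 427 460))))))))))) (both (mv 494 (both (five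 1 491 495) (mv 555 (both (five 2 522 554) (mv 426 (both (five 7 426 458) (mv 428 (both (five 5 427 460) (mv 588 (both (five 4 459 556) (mv 587 (both (five 4 491 620) (mv 618 (both (five 6 490 586) (mv 619 (both (five 6 522 650) (mv 589 (both (five 2 586 590) (mv 557 (both (five 5 461 462) (five 5 493 621))))))))))))))))))))) (both (mv 427 (both (five 4 427 556) (mv 428 (both (five 5 395 396) (mv 555 (both (five 5 427 460) (five 2 522 554))))))) (mv 427 (both (five 4 427 556) (mv 426 (both (five 7 394 394) (mv 555 (both (five 7 426 458) (five 2 522 554))))))))))))))) (both (mv 555 (both (mv 459 (both (mv 426 (both (five 7 426 458) (mv 427 (both (five 7 394 394) (mv 428 (both (five 5 395 396) (five 5 427 460))))))) (both (mv 426 (both (five 7 426 458) (mv 427 (both (five 7 394 394) (mv 556 (both (five 4 427 524) (five 4 459 588))))))) (both (mv 428 (both (five 5 427 460) (mv 427 (both (five 5 395 396) (mv 556 (both (five 4 427 524) (five 4 459 588))))))) (mv 426 (both (five 7 426 458) (mv 460 (both (five 5 427 428) (mv 492 (both (five 5 459 587) (mv 556 (both (five 4 459 588) (mv 557 (both (five 7 460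 589) (mv 558 (both (five 3 522 522) (mv 590 (both (five 0 555 591) (five 7 493 622))))))))))))))))))) (both (mv 587 (both (mv 618 (both (five 6 490 586) (mv 619 (both (five 6 522 650) (mv 620 (both (five 4 491 588) (five 4 523 652))))))) (both (mv 460 (both (five 5 459 492) (mv 554 (both (five 2 522 524) (mv 556 (both (five 1 522 557) (mv 618 (both (five 6 490 586) (mv 619 (both (five 6 522 650) (mv 651 (both (five 7 522 522) (mv 588 (both (five 5 555 683) (mv 553 (both (five 0 552 552) (five 0 553 589))))))))))))))))) (both (mv 460 (both (five 5 459 492) (mv 524 (both (five 2 522 554) (mv 618 (both (five 6 490 586) (mv 619 (both (five 6 522 650) (mv 651 (both (five 5 523 556) (mv 652 (both (five 4 523 620) (five 4 555 684))))))))))))) (mv 460 (both (five 5 459 492) (mv 554 (both (five 2 522 524) (mv 556 (both (five 1 522 557) (mv 588 (both (five 4 491 620) (mv 553 (both (five 0 552 552) (five 0 553 589))))))))))))))) (both (mv 554 (both (five 2 522 524) (mv 459 (both (five 6 458 586) (mv 426 (both (five 7 426 458) (mv 427 (both (five 7 394 394) (mv 428 (both (five 5 395 396) (five 5 427 460)))))))))))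 (mv 556 (both (mv 557 (both (five 1 522 554) (mv 558 (both (five 3 522 522) (mv 590 (both (five 0 555 591) (five 7 493 622))))))) (mv 588 (both (five 4 459 459) (mv 620 (both (five 4 491 587) (five 7 523 652))))))))))) (both (mv 555 (both (mv 459 (both (mv 426 (both (five 7 426 458) (mv 427 (both (five 7 394 394) (mv 428 (both (five 5 395 396) (five 5 427 460))))))) (mv 554 (both (five 6 458 586) (mv 556 (both (five 1 522 557) (five 4 459 588))))))) (both (mv 587 (both (mv 618 (both (five 6 490 586) (mv 619 (both (five 6 522 650) (mv 620 (both (five 4 491 588) (five 4 523 652))))))) (mv 492 (both (five 5 459 460) (mv 494 (both (five 2 490 522) (mv 462 (both (five 1 459 463) (mv 430 (both (five 6 397 398) (five 6 429 557))))))))))) (both (mv 459 (both (mv 426 (both (five 7 426 458) (mv 427 (both (five 7 394 394) (mv 428 (both (five 5 395 396) (five 5 427 460))))))) (both (mv 426 (both (five 7 426 458) (mv 427 (both (five 7 394 394) (mv 554 (both (five 6 426 522) (five 6 458 586))))))) (both (mv 428 (both (five 5 427 460) (mv 427 (both (five 5 395 396) (mv 554 (both (five 6 426 522) (five 6 458 586)))))))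 (mv 426 (both (five 7 426 458) (mv 428 (both (five 5 427 460) (mv 586 (both (five 6 458 554) (mv 587 (both (five 6 490 618) (mv 588 (both (five 4 459 556) (five 4 491 620))))))))))))))) (both (mv 556 (both (mv 557 (both (five 1 522 554) (mv 558 (both (five 3 522 522) (mv 590 (both (five 0 555 591) (five 7 493 622))))))) (mv 588 (both (five 4 459 459) (mv 620 (both (five 4 491 587) (five 7 523 652))))))) (mv 459 (both (mv 426 (both (five 7 426 458) (mv 427 (both (five 7 394 394) (mv 428 (both (five 5 395 396) (five 5 427 460))))))) (both (mv 426 (both (five 7 426 458) (mv 427 (both (five 7 394 394) (mv 554 (both (five 6 426 522) (five 6 458 586))))))) (both (mv 428 (both (five 5 427 460) (mv 427 (both (five 5 395 396) (mv 554 (both (five 6 426 522) (five 6 458 586))))))) (mv 426 (both (five 7 426 458) (mv 460 (both (five 5 427 428) (mv 492 (both (five 5 459 587) (mv 494 (both (five 2 490 522) (mv 462 (both (five 1 459 463) (mv 430 (both (five 6 397 398) (five 6 429 557)))))))))))))))))))))) (both (mv 494 (both (mv 495 (both (five 1 491 524) (mv 496 (both (five 2 493 497) (mv 464 (both (five 1 461 465)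 (mv 463 (both (five 1 460 492) (mv 431 (both (five 4 399 399) (five 7 431 560))))))))))) (both (mv 462 (both (mv 430 (both (five 6 397 398) (five 6 429 557))) (mv 463 (both (five 1 459 492) (mv 431 (both (five 5 430 558) (mv 399 (both (five 6 366 367) (mv 464 (both (five 2 461 465) (mv 496 (both (five 7 399 432) (five 7 431 560))))))))))))) (both (mv 495 (both (five 1 491 524) (mv 431 (both (mv 496 (both (five 2 493 497) (mv 464 (both (five 1 461 465) (mv 432 (both (five 7 399 399) (mv 401 (both (five 5 400 433) (mv 400 (both (five 5 368 369) (mv 402 (both (five 2 399 403) (mv 430 (both (five 1 397 429) (mv 462 (both (five 6 397 398) (five 6 429 557))))))))))))))))) (both (mv 496 (both (five 2 493 497) (mv 464 (both (five 1 461 465) (mv 463 (both (five 7 431 560) (mv 558 (both (five 5 430 462) (five 5 462 590))))))))) (both (mv 463 (both (five 6 398 399) (mv 558 (both (five 5 430 462) (five 5 462 590))))) (mv 399 (both (five 6 398 463) (mv 496 (both (five 2 493 497) (mv 464 (both (five 7 399 432) (five 1 461 465))))))))))))) (both (mv 462 (both (mv 430 (both (five 6 397 398) (five 6 429 557))) (mv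 463 (both (five 1 459 492) (mv 431 (both (five 5 430 558) (mv 399 (both (five 6 366 367) (five 6 398 495))))))))) (mv 459 (both (mv 458 (both (five 3 458 492) (mv 426 (both (five 7 426 555) (mv 394 (both (five 4 362 362) (five 7 394 427))))))) (both (mv 524 (both (five 1 491 495) (mv 427 (both (five 4 427 556) (mv 428 (both (five 5 395 396) (mv 555 (both (five 5 427 460) (five 2 522 554))))))))) (both (mv 458 (both (five 3 458 492) (mv 524 (both (five 1 491 495) (mv 427 (both (five 4 427 556) (mv 394 (both (five 7 394 426) (mv 395 (both (five 7 362 362) (mv 396 (both (five 5 363 364) (five 5 395 428))))))))))))) (mv 458 (both (five 3 458 492) (mv 495 (both (five 1 491 524) (mv 496 (both (five 2 493 497) (mv 464 (both (five 1 461 465) (mv 555 (both (five 7 426 426) (mv 554 (both (five 6 458 586) (mv 556 (both (five 1 522 557) (five 4 459 588)))))))))))))))))))))))) (both (mv 494 (both (mv 462 (both (mv 430 (both (five 6 397 398) (five 6 429 557))) (mv 463 (both (five 1 459 492) (mv 431 (both (five 5 430 558) (mv 399 (both (five 6 366 367) (five 6 398 495))))))))) (both (mv 495 (both (five 1 491 524)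 (mv 431 (both (mv 496 (both (five 2 493 497) (mv 464 (both (five 1 461 465) (mv 432 (both (five 7 399 399) (mv 401 (both (five 5 400 433) (mv 400 (both (five 5 368 369) (mv 402 (both (five 2 399 403) (mv 430 (both (five 1 397 429) (mv 462 (both (five 6 397 398) (five 6 429 557))))))))))))))))) (both (mv 496 (both (five 2 493 497) (mv 464 (both (five 1 461 465) (mv 463 (both (five 7 431 560) (mv 558 (both (five 5 430 462) (five 5 462 590))))))))) (both (mv 463 (both (five 6 398 399) (mv 558 (both (five 5 430 462) (five 5 462 590))))) (mv 399 (both (five 6 398 463) (mv 496 (both (five 2 493 497) (mv 464 (both (five 7 399 432) (five 1 461 465))))))))))))) (mv 522 (both (five 2 490 492) (five 1 490 524)))))) (mv 494 (both (mv 522 (both (five 2 490 492) (five 1 490 524))) (both (mv 492 (both (five 2 490 522) (mv 459 (both (five 3 458 458) (mv 460 (both (five 3 459 495) (mv 428 (both (five 4 396 396) (five 5 427 555))))))))) (both (mv 495 (both (five 1 491 524) (mv 496 (both (five 2 493 497) (mv 464 (both (five 1 461 465) (mv 463 (both (five 1 460 492) (mv 431 (both (five 4 399 399) (five 7 431 560)))))))))))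 (mv 524 (both (five 1 491 495) (five 1 490 522))))))))))))) (both (mv 490 (both (five 0 490 492) (mv 523 (both (five 3 490 524) (mv 555 (both (mv 459 (both (mv 426 (both (five 7 426 458) (mv 427 (both (five 7 394 394) (mv 428 (both (five 5 395 396) (five 5 427 460))))))) (mv 554 (both (five 6 458 586) (mv 556 (both (five 1 522 557) (five 4 459 588))))))) (both (mv 556 (both (mv 557 (both (five 1 522 554) (mv 558 (both (five 3 522 522) (mv 590 (both (five 0 555 591) (five 7 493 622))))))) (mv 588 (both (five 4 459 459) (mv 620 (both (five 4 491 587) (five 7 523 652))))))) (mv 458 (both (five 7 458 587) (mv 426 (both (five 4 394 394) (five 4 426 522)))))))))))) (both (mv 492 (both (five 0 490 490) (mv 494 (both (mv 462 (both (five 1 459 463) (mv 430 (both (five 6 397 398) (five 6 429 557))))) (mv 459 (both (five 3 458 458) (mv 495 (both (five 3 459 460) (mv 496 (both (five 2 493 497) (five 2 492 524))))))))))) (both (mv 492 (both (five 0 490 490) (mv 494 (both (mv 462 (both (five 1 459 463) (mv 430 (both (five 6 397 398) (five 6 429 557))))) (mv 459 (both (five 3 458 458) (mv 460 (both (five 3 459 495)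 (mv 428 (both (five 4 396 396) (mv 523 (both (five 2 490 522) (five 5 427 555))))))))))))) (both (mv 523 (both (mv 524 (both (five 3 490 490) (mv 494 (both (five 1 491 495) (five 1 490 522))))) (both (mv 494 (both (mv 522 (both (five 2 490 492) (five 1 490 524))) (both (mv 492 (both (five 2 490 522) (mv 459 (both (five 3 458 458) (mv 460 (both (five 3 459 495) (mv 428 (both (five 4 396 396) (five 5 427 555))))))))) (both (mv 495 (both (five 1 491 524) (mv 496 (both (five 2 493 497) (mv 464 (both (five 1 461 465) (mv 463 (both (five 1 460 492) (mv 431 (both (five 4 399 399) (five 7 431 560))))))))))) (mv 524 (both (five 1 491 495) (five 1 490 522))))))) (both (mv 492 (both (five 0 490 490) (mv 494 (both (five 2 490 522) (mv 459 (both (five 3 458 458) (mv 460 (both (five 3 459 495) (mv 428 (both (five 4 396 396) (five 5 427 555))))))))))) (mv 490 (both (five 0 490 492) (five 3 490 524))))))) (both (mv 492 (both (five 0 490 490) (mv 494 (both (mv 462 (both (five 1 459 463) (mv 430 (both (five 6 397 398) (five 6 429 557))))) (mv 523 (both (five 2 490 522) (mv 524 (both (five 2 491 495) (mv 555 (both (five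 2 522 554) (mv 460 (both (five 6 427 428) (five 5 459 587))))))))))))) (mv 492 (both (five 0 490 490) (mv 494 (both (mv 462 (both (five 1 459 463) (mv 430 (both (five 6 397 398) (five 6 429 557))))) (mv 459 (both (five 3 458 458) (mv 523 (both (five 2 490 522) (mv 524 (both (five 1 491 495) (mv 427 (both (five 4 427 556) (mv 394 (both (five 7 394 426) (mv 395 (both (five 7 362 362) (mv 396 (both (five 5 363 364) (five 5 395 428))))))))))))))))))))))))))) (both (mv 557 (both (mv 527 (both (five 2 524 556) (mv 496 (both (five 1 493 497) (mv 495 (both (five 1 492 524) (mv 560 (both (five 0 525 561) (mv 463 (both (five 4 431 431) (five 7 463 592))))))))))) (both (mv 589 (both (mv 494 (both (five 5 461 462) (five 5 493 621))) (both (mv 588 (both (five 6 492 620) (mv 622 (both (five 4 493 590) (mv 621 (both (five 4 525 654) (mv 586 (both (five 0 586 587) (mv 623 (both (five 3 588 624) (mv 653 (both (five 5 525 558) (mv 556 (both (five 7 524 524) (five 7 556 685))))))))))))))) (mv 494 (both (five 5 461 462) (mv 524 (both (mv 495 (both (five 2 492 496) (five 1 491 523))) (both (mv 495 (both (five 2 492 496)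 (mv 588 (both (five 6 492 620) (mv 590 (both (five 4 493 622) (mv 558 (both (five 5 462 463) (mv 586 (both (five 1 554 587) (mv 591 (both (five 4 494 623) (mv 556 (both (five 3 555 555) (five 3 556 592))))))))))))))) (mv 523 (both (five 1 490 522) (mv 490 (both (five 3 490 491) (mv 555 (both (five 2 522 554) (mv 588 (both (five 6 492 620) (mv 590 (both (five 4 493 622) (mv 591 (both (five 3 555 556) (mv 623 (both (five 4 494 558) (five 0 588 624))))))))))))))))))))))) (both (mv 589 (both (mv 494 (both (five 5 461 462) (five 5 493 621))) (both (mv 620 (both (five 6 492 588) (mv 621 (both (five 6 524 652) (mv 622 (both (five 4 493 590) (five 4 525 654))))))) (mv 494 (both (five 5 461 462) (mv 495 (both (mv 496 (both (five 2 493 497) (five 2 492 524))) (mv 588 (both (five 6 492 620) (mv 590 (both (five 4 493 622) (mv 558 (both (five 5 462 463) (mv 586 (both (five 1 554 587) (mv 591 (both (five 4 494 623) (mv 592 (both (five 3 557 593) (mv 560 (both (five 1 557 561) (mv 624 (both (five 7 495 527) (five 0 589 625)))))))))))))))))))))))) (mv 589 (both (mv 494 (both (five 5 461 462) (five 5 493 621))) (both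 (mv 620 (both (five 6 492 588) (mv 621 (both (five 6 524 652) (mv 622 (both (five 4 493 590) (five 4 525 654))))))) (mv 462 (both (five 5 461 494) (mv 556 (both (five 2 524 527) (mv 555 (both (five 1 522 554) (mv 588 (both (five 6 492 620) (mv 590 (both (five 3 555 591) (five 4 493 622)))))))))))))))))) (both (mv 527 (both (five 3 492 492) (mv 496 (both (five 1 493 497) (mv 495 (both (five 1 492 524) (mv 560 (both (five 0 525 561) (mv 463 (both (five 4 431 431) (five 7 463 592))))))))))) (both (mv 492 (both (five 3 492 527) (mv 491 (both (five 0 490 490) (mv 494 (both (mv 462 (both (five 1 459 463) (mv 430 (both (five 6 397 398) (five 6 429 557))))) (mv 459 (both (five 3 458 458) (mv 460 (both (five 3 459 495) (mv 428 (both (five 4 396 396) (mv 523 (both (five 2 490 522) (five 5 427 555))))))))))))))) (mv 557 (both (mv 589 (both (mv 494 (both (five 5 461 462) (five 5 493 621))) (both (mv 620 (both (five 6 492 588) (mv 621 (both (five 6 524 652) (mv 622 (both (five 4 493 590) (five 4 525 654))))))) (mv 462 (both (five 5 461 494) (mv 556 (both (five 2 524 527) (mv 555 (both (five 1 522 554) (mv 588 (both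 (five 6 492 620) (mv 590 (both (five 3 555 591) (five 4 493 622)))))))))))))) (both (mv 589 (both (mv 494 (both (five 5 461 462) (five 5 493 621))) (both (mv 620 (both (five 6 492 588) (mv 621 (both (five 6 524 652) (mv 622 (both (five 4 493 590) (five 4 525 654))))))) (mv 492 (both (five 7 460 460) (mv 491 (both (five 0 490 490) (mv 494 (both (five 5 461 462) (mv 459 (both (five 3 458 458) (mv 522 (both (five 2 490 523) (mv 588 (both (five 6 492 620) (mv 556 (both (five 7 459 524) (mv 554 (both (five 1 522 555) (mv 590 (both (five 4 493 622) (mv 591 (both (five 3 556 592) (mv 623 (both (five 4 494 558) (five 0 588 624)))))))))))))))))))))))))) (both (mv 527 (both (five 3 492 492) (five 2 524 556))) (mv 492 (both (five 3 492 527) (mv 460 (both (five 7 460 589) (mv 428 (both (five 4 396 396) (five 4 428 524)))))))))))))))) (both (mv 557 (both (mv 589 (both (mv 620 (both (five 6 492 588) (mv 621 (both (five 6 524 652) (mv 622 (both (five 4 493 590) (five 4 525 654))))))) (mv 492 (both (five 7 460 460) (mv 494 (both (five 5 461 462) (mv 495 (both (five 0 492 527) (mv 524 (both (five 2 492 496) (five 2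 491 523))))))))))) (both (mv 461 (both (mv 428 (both (five 7 428 460) (mv 429 (both (five 7 396 396) (mv 430 (both (five 5 397 398) (five 5 429 462))))))) (both (mv 430 (both (five 5 429 462) (mv 429 (both (five 5 397 398) (mv 556 (both (five 6 428 524) (five 6 460 588))))))) (both (mv 428 (both (five 7 428 460) (mv 429 (both (five 7 396 396) (mv 556 (both (five 6 428 524) (five 6 460 588))))))) (mv 460 (both (five 7 428 428) (mv 494 (both (mv 459 (both (five 0 458 458) (mv 462 (both (five 5 429 430) (mv 426 (both (five 3 426 427) (mv 491 (both (five 2 458 490) (mv 463 (both (five 2 459 492) (mv 431 (both (five 1 428 432) (mv 367 (both (five 6 366 399) (mv 464 (both (five 2 461 465) (mv 496 (both (five 0 461 497) (five 7 431 560))))))))))))))))))) (both (mv 458 (both (five 0 458 459) (mv 495 (both (five 3 460 496) (mv 492 (both (five 0 492 527) (mv 463 (both (five 1 460 464) (mv 523 (both (five 2 491 524) (mv 491 (both (five 2 490 522) (mv 490 (both (five 3 457 457) (five 1 457 489))))))))))))))) (both (mv 430 (both (five 5 429 462) (mv 495 (both (five 3 460 496) (mv 492 (both (five 0 492 527) (mv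 463 (both (five 1 460 464) (mv 523 (both (five 2 491 524) (mv 522 (both (five 2 490 491) (mv 556 (both (five 6 460 588) (mv 558 (both (five 3 522 555) (five 4 461 590))))))))))))))))) (mv 459 (both (five 0 458 458) (mv 462 (both (five 5 429 430) (five 0 459 495))))))))))))))) (both (mv 589 (both (mv 620 (both (five 6 492 588) (mv 621 (both (five 6 524 652) (mv 622 (both (five 4 493 590) (five 4 525 654))))))) (both (mv 462 (both (five 5 461 494) (mv 461 (both (five 5 429 430) (mv 590 (both (five 4 461 558) (five 4 493 622))))))) (mv 462 (both (five 5 461 494) (mv 461 (both (five 5 429 430) (mv 588 (both (five 6 460 556) (five 6 492 620)))))))))) (both (mv 461 (both (mv 462 (both (five 5 429 430) (mv 589 (both (five 5 461 494) (mv 590 (both (five 4 461 558) (five 4 493 622))))))) (both (mv 428 (both (five 7 428 460) (mv 429 (both (five 7 396 396) (mv 398 (both (five 5 397 430) (mv 397 (both (five 5 365 366) (mv 524 (both (five 6 396 492) (five 6 428 556))))))))))) (mv 428 (both (five 7 428 460) (mv 429 (both (five 7 396 396) (mv 524 (both (five 6 428 556) (mv 492 (both (five 6 396 397) (mv 558 (both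 (five 4 461 590) (mv 522 (both (five 0 522 523) (mv 589 (both (five 7 492 621) (mv 494 (both (five 5 461 462) (mv 495 (both (five 2 492 496) (five 0 492 527)))))))))))))))))))))) (both (mv 589 (both (mv 620 (both (five 6 492 588) (mv 621 (both (five 6 524 652) (mv 622 (both (five 4 493 590) (five 4 525 654))))))) (both (mv 492 (both (five 7 460 460) (mv 620 (both (five 6 492 588) (mv 621 (both (five 7 492 524) (five 6 524 652))))))) (mv 460 (both (five 7 460 492) (mv 461 (both (five 7 428 428) (mv 590 (both (five 4 461 558) (five 4 493 622)))))))))) (mv 461 (both (mv 462 (both (five 5 429 430) (mv 588 (both (five 6 460 556) (mv 589 (both (five 5 461 494) (five 6 492 620))))))) (both (mv 428 (both (five 7 428 460) (mv 429 (both (five 7 396 396) (mv 556 (both (five 6 428 524) (five 6 460 588))))))) (mv 428 (both (five 7 428 460) (mv 429 (both (five 7 396 396) (mv 430 (both (five 5 397 398) (five 5 429 462)))))))))))))))) (both (mv 461 (both (mv 557 (both (mv 588 (both (five 6 460 556) (mv 589 (both (five 6 492 620) (mv 590 (both (five 4 461 558) (five 4 493 622))))))) (mv 428 (both (five 7 428 460) (mv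 429 (both (five 7 396 396) (mv 430 (both (five 5 397 398) (five 5 429 462))))))))) (both (mv 429 (both (mv 396 (both (five 7 396 428) (mv 397 (both (five 7 364 364) (mv 398 (both (five 5 365 366) (five 5 397 430))))))) (both (mv 396 (both (five 7 396 428) (mv 397 (both (five 7 364 364) (mv 526 (both (five 4 397 494) (five 4 429 558))))))) (both (mv 398 (both (five 5 397 430) (mv 397 (both (five 5 365 366) (mv 526 (both (five 4 397 494) (five 4 429 558))))))) (mv 428 (both (five 7 396 396) (mv 427 (both (mv 426 (both (five 0 426 462) (mv 393 (both (five 3 393 394) (mv 425 (both (five 3 392 392) (five 0 425 460))))))) (both (mv 430 (both (five 5 397 398) (mv 459 (both (five 2 426 458) (mv 431 (both (five 2 427 460) (mv 399 (both (five 1 396 400) (mv 463 (both (five 0 428 464) (mv 495 (both (five 4 399 496) (mv 526 (both (five 6 398 494) (five 4 429 558))))))))))))))) (mv 398 (both (five 5 397 430) (mv 426 (both (five 0 426 462) (mv 393 (both (five 3 393 394) (mv 425 (both (five 3 392 392) (mv 457 (both (five 2 424 456) (five 2 425 458)))))))))))))))))))) (both (mv 557 (both (mv 588 (both (five 6 460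 556) (mv 589 (both (five 6 492 620) (mv 590 (both (five 4 461 558) (five 4 493 622))))))) (both (mv 462 (both (five 5 429 430) (mv 589 (both (five 5 461 494) (mv 590 (both (five 4 461 558) (five 4 493 622))))))) (both (mv 462 (both (five 5 429 430) (mv 588 (both (five 6 460 556) (mv 589 (both (five 5 461 494) (five 6 492 620))))))) (mv 460 (both (five 7 428 428) (mv 494 (both (mv 459 (both (five 0 458 458) (mv 462 (both (five 5 429 430) (five 0 459 495))))) (both (mv 459 (both (five 0 458 458) (mv 462 (both (five 5 429 430) (mv 427 (both (five 3 426 426) (mv 491 (both (five 2 458 490) (mv 556 (both (five 6 460 588) (mv 523 (both (five 4 427 524) (mv 522 (both (five 6 426 554) (mv 558 (both (five 3 522 555) (five 4 461 590))))))))))))))))) (mv 495 (both (five 3 460 496) (mv 556 (both (five 6 460 588) (mv 526 (both (five 2 524 527) (mv 523 (both (five 1 491 524) (mv 555 (both (five 1 522 554) (mv 558 (both (five 3 522 522) (mv 590 (both (five 0 555 591) (five 7 493 622)))))))))))))))))))))))) (both (mv 557 (both (mv 588 (both (five 6 460 556) (mv 589 (both (five 6 492 620) (mv 590 (both (five 4 461 558)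 (five 4 493 622))))))) (both (mv 428 (both (five 7 428 460) (mv 396 (both (five 7 396 429) (mv 590 (both (five 4 461 558) (mv 589 (both (five 4 493 622) (mv 494 (both (five 5 461 462) (mv 620 (both (five 6 492 588) (mv 621 (both (five 5 493 526) (five 6 524 652))))))))))))))) (both (mv 428 (both (five 7 428 460) (mv 429 (both (five 7 396 396) (mv 556 (both (five 6 428 524) (five 6 460 588))))))) (mv 428 (both (five 7 428 460) (mv 396 (both (five 7 396 429) (mv 590 (both (five 4 461 558) (mv 589 (both (five 4 493 622) (mv 494 (both (five 5 461 462) (mv 526 (both (five 5 493 621) (mv 527 (both (five 2 524 556) (mv 496 (both (five 1 493 497) (mv 495 (both (five 1 492 524) (mv 560 (both (five 0 525 561) (mv 463 (both (five 4 431 431) (five 7 463 592))))))))))))))))))))))))))) (both (mv 429 (both (mv 396 (both (five 7 396 428) (mv 397 (both (five 7 364 364) (mv 398 (both (five 5 365 366) (five 5 397 430))))))) (both (mv 398 (both (five 5 397 430) (mv 397 (both (five 5 365 366) (mv 526 (both (five 4 397 494) (five 4 429 558))))))) (both (mv 396 (both (five 7 396 428) (mv 397 (both (five 7 364 364) (mv 526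 (both (five 4 397 494) (five 4 429 558))))))) (mv 396 (both (five 7 396 428) (mv 398 (both (five 5 397 430) (mv 526 (both (five 4 429 558) (mv 556 (both (five 6 428 524) (mv 557 (both (five 2 524 527) (five 6 460 588))))))))))))))) (both (mv 557 (both (mv 462 (both (five 5 429 430) (mv 588 (both (five 6 460 556) (mv 589 (both (five 5 461 494) (five 6 492 620))))))) (both (mv 428 (both (five 7 428 460) (mv 429 (both (five 7 396 396) (mv 430 (both (five 5 397 398) (five 5 429 462))))))) (mv 428 (both (five 7 428 460) (mv 429 (both (five 7 396 396) (mv 556 (both (five 6 428 524) (five 6 460 588)))))))))) (mv 557 (both (mv 588 (both (five 6 460 556) (mv 589 (both (five 6 492 620) (mv 590 (both (five 4 461 558) (five 4 493 622))))))) (both (mv 462 (both (five 5 429 430) (mv 589 (both (five 5 461 494) (mv 590 (both (five 4 461 558) (five 4 493 622))))))) (mv 430 (both (five 5 429 462) (mv 429 (both (five 5 397 398) (mv 556 (both (five 6 428 524) (five 6 460 588))))))))))))))))) (both (mv 461 (both (mv 557 (both (mv 462 (both (five 5 429 430) (mv 588 (both (five 6 460 556) (mv 589 (both (five 5 461 494) (five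 6 492 620))))))) (both (mv 428 (both (five 7 428 460) (mv 429 (both (five 7 396 396) (mv 430 (both (five 5 397 398) (five 5 429 462))))))) (mv 428 (both (five 7 428 460) (mv 429 (both (five 7 396 396) (mv 556 (both (five 6 428 524) (five 6 460 588)))))))))) (both (mv 429 (both (mv 396 (both (five 7 396 428) (mv 397 (both (five 7 364 364) (mv 398 (both (five 5 365 366) (five 5 397 430))))))) (both (mv 396 (both (five 7 396 428) (mv 397 (both (five 7 364 364) (mv 526 (both (five 4 397 494) (five 4 429 558))))))) (both (mv 398 (both (five 5 397 430) (mv 397 (both (five 5 365 366) (mv 526 (both (five 4 397 494) (five 4 429 558))))))) (mv 428 (both (five 7 396 396) (mv 427 (both (mv 426 (both (five 0 426 462) (mv 393 (both (five 3 393 394) (mv 425 (both (five 3 392 392) (five 0 425 460))))))) (both (mv 430 (both (five 5 397 398) (mv 459 (both (five 2 426 458) (mv 431 (both (five 2 427 460) (mv 399 (both (five 1 396 400) (mv 463 (both (five 0 428 464) (mv 495 (both (five 4 399 496) (mv 526 (both (five 6 398 494) (five 4 429 558))))))))))))))) (mv 398 (both (five 5 397 430) (mv 426 (both (five 0 426 462)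 (mv 393 (both (five 3 393 394) (mv 425 (both (five 3 392 392) (mv 457 (both (five 2 424 456) (five 2 425 458)))))))))))))))))))) (both (mv 557 (both (mv 588 (both (five 6 460 556) (mv 589 (both (five 6 492 620) (mv 590 (both (five 4 461 558) (five 4 493 622))))))) (both (mv 462 (both (five 5 429 430) (mv 588 (both (five 6 460 556) (mv 589 (both (five 5 461 494) (five 6 492 620))))))) (both (mv 462 (both (five 5 429 430) (mv 589 (both (five 5 461 494) (mv 590 (both (five 4 461 558) (five 4 493 622))))))) (mv 460 (both (five 7 428 428) (mv 459 (both (mv 462 (both (five 5 429 430) (mv 427 (both (five 3 426 426) (mv 491 (both (five 2 458 490) (mv 556 (both (five 6 460 588) (mv 523 (both (five 4 427 524) (mv 522 (both (five 6 426 554) (mv 558 (both (five 3 522 555) (five 4 461 590))))))))))))))) (both (mv 458 (both (five 0 458 494) (mv 425 (both (five 3 425 426) (mv 457 (both (five 3 424 424) (five 0 457 492))))))) (mv 430 (both (five 5 429 462) (mv 458 (both (five 0 458 494) (mv 457 (both (five 0 457 492) (mv 489 (both (five 2 456 488) (five 2 457 490)))))))))))))))))) (both (mv 557 (both (mv 588 (both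 (five 6 460 556) (mv 589 (both (five 6 492 620) (mv 590 (both (five 4 461 558) (five 4 493 622))))))) (both (mv 462 (both (five 5 429 430) (mv 589 (both (five 5 461 494) (mv 590 (both (five 4 461 558) (five 4 493 622))))))) (mv 430 (both (five 5 429 462) (mv 429 (both (five 5 397 398) (mv 556 (both (five 6 428 524) (five 6 460 588)))))))))) (both (mv 429 (both (mv 398 (both (five 5 397 430) (mv 397 (both (five 5 365 366) (mv 524 (both (five 6 396 492) (five 6 428 556))))))) (both (mv 396 (both (five 7 396 428) (mv 397 (both (five 7 364 364) (mv 526 (both (five 4 397 494) (five 4 429 558))))))) (mv 396 (both (five 7 396 428) (mv 398 (both (five 5 397 430) (mv 556 (both (five 6 428 524) (mv 557 (both (five 6 460 588) (mv 558 (both (five 4 429 526) (five 4 461 590)))))))))))))) (both (mv 557 (both (mv 588 (both (five 6 460 556) (mv 589 (both (five 6 492 620) (mv 590 (both (five 4 461 558) (five 4 493 622))))))) (mv 428 (both (five 7 428 460) (mv 429 (both (five 7 396 396) (mv 430 (both (five 5 397 398) (five 5 429 462))))))))) (mv 557 (both (mv 590 (both (five 4 461 558) (mv 589 (both (five 4 493 622)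 (mv 494 (both (five 5 461 462) (mv 620 (both (five 6 492 588) (mv 621 (both (five 5 493 526) (five 6 524 652))))))))))) (both (mv 428 (both (five 7 428 460) (mv 429 (both (five 7 396 396) (mv 556 (both (five 6 428 524) (five 6 460 588))))))) (mv 428 (both (five 7 428 460) (mv 396 (both (five 7 396 429) (mv 590 (both (five 4 461 558) (mv 589 (both (five 4 493 622) (mv 494 (both (five 5 461 462) (mv 621 (both (five 5 493 526) (mv 524 (both (five 7 492 492) (mv 652 (both (five 6 524 620) (mv 653 (both (five 7 524 556) (five 6 556 684))))))))))))))))))))))))))))) (both (mv 461 (both (mv 429 (both (mv 396 (both (five 7 396 428) (mv 397 (both (five 7 364 364) (mv 398 (both (five 5 365 366) (five 5 397 430))))))) (mv 524 (both (five 6 428 556) (mv 526 (both (five 4 429 558) (mv 527 (both (five 3 492 492) (mv 496 (both (five 1 492 495) (five 1 493 497))))))))))) (both (mv 557 (both (mv 588 (both (five 6 460 556) (mv 589 (both (five 6 492 620) (mv 590 (both (five 4 461 558) (five 4 493 622))))))) (both (mv 430 (both (five 5 429 462) (mv 460 (both (five 7 428 428) (mv 589 (both (five 7 460 492) (mv 590 (both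 (five 4 461 558) (five 4 493 622))))))))) (both (mv 430 (both (five 5 429 462) (mv 460 (both (five 7 428 428) (mv 492 (both (five 7 460 589) (mv 526 (both (five 3 492 527) (mv 490 (both (five 0 490 491) (mv 556 (both (five 6 460 588) (mv 555 (both (five 1 522 554) (mv 524 (both (five 6 459 587) (mv 459 (both (five 7 427 427) (mv 458 (both (five 0 457 457) (five 2 457 489))))))))))))))))))))) (mv 430 (both (five 5 429 462) (mv 460 (both (five 7 428 428) (mv 556 (both (five 6 460 588) (mv 526 (both (five 2 524 527) (mv 555 (both (five 1 522 554) (mv 558 (both (five 4 461 590) (mv 523 (both (five 3 522 522) (mv 587 (both (five 2 554 586) (mv 492 (both (five 5 459 491) (five 6 459 524))))))))))))))))))))))) (both (mv 557 (both (mv 428 (both (five 7 428 460) (mv 429 (both (five 7 396 396) (mv 430 (both (five 5 397 398) (five 5 429 462))))))) (both (mv 430 (both (five 5 429 462) (mv 429 (both (five 5 397 398) (mv 558 (both (five 4 429 526) (five 4 461 590))))))) (mv 460 (both (five 7 428 428) (mv 589 (both (five 7 460 492) (mv 590 (both (five 4 461 558) (five 4 493 622)))))))))) (both (mv 557 (both (mv 588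 (both (five 6 460 556) (mv 589 (both (five 6 492 620) (mv 590 (both (five 4 461 558) (five 4 493 622))))))) (both (mv 430 (both (five 5 429 462) (mv 429 (both (five 5 397 398) (mv 558 (both (five 4 429 526) (five 4 461 590))))))) (mv 430 (both (five 5 429 462) (mv 429 (both (five 5 397 398) (mv 556 (both (five 6 428 524) (five 6 460 588)))))))))) (both (mv 557 (both (mv 588 (both (five 6 460 556) (mv 589 (both (five 6 492 620) (mv 590 (both (five 4 461 558) (five 4 493 622))))))) (both (mv 460 (both (five 7 428 428) (mv 589 (both (five 7 460 492) (mv 590 (both (five 4 461 558) (five 4 493 622))))))) (mv 428 (both (five 7 428 460) (mv 429 (both (five 7 396 396) (mv 556 (both (five 6 428 524) (five 6 460 588)))))))))) (mv 557 (both (mv 428 (both (five 7 428 460) (mv 429 (both (five 7 396 396) (mv 430 (both (five 5 397 398) (five 5 429 462))))))) (both (mv 430 (both (five 5 429 462) (mv 429 (both (five 5 397 398) (mv 556 (both (five 6 428 524) (five 6 460 588))))))) (mv 460 (both (five 7 428 428) (mv 492 (both (five 7 460 589) (mv 526 (both (five 3 492 527) (mv 490 (both (five 0 490 491) (mv 556 (both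 (five 6 460 588) (mv 555 (both (five 1 522 554) (mv 524 (both (five 6 459 587) (mv 459 (both (five 7 427 427) (mv 458 (both (five 0 457 457) (five 2 457 489)))))))))))))))))))))))))))) (both (mv 557 (both (mv 589 (both (mv 620 (both (five 6 492 588) (mv 621 (both (five 6 524 652) (mv 622 (both (five 4 493 590) (five 4 525 654))))))) (both (mv 462 (both (five 5 461 494) (mv 461 (both (five 5 429 430) (mv 590 (both (five 4 461 558) (five 4 493 622))))))) (mv 462 (both (five 5 461 494) (mv 461 (both (five 5 429 430) (mv 588 (both (five 6 460 556) (five 6 492 620)))))))))) (both (mv 589 (both (mv 620 (both (five 6 492 588) (mv 621 (both (five 6 524 652) (mv 622 (both (five 4 493 590) (five 4 525 654))))))) (mv 492 (both (five 7 460 460) (mv 494 (both (five 5 461 462) (mv 527 (both (five 0 492 495) (five 3 492 526))))))))) (both (mv 461 (both (mv 428 (both (five 7 428 460) (mv 429 (both (five 7 396 396) (mv 430 (both (five 5 397 398) (five 5 429 462))))))) (both (mv 428 (both (five 7 428 460) (mv 429 (both (five 7 396 396) (mv 558 (both (five 4 429 526) (five 4 461 590))))))) (both (mv 430 (both (five 5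 429 462) (mv 429 (both (five 5 397 398) (mv 558 (both (five 4 429 526) (five 4 461 590))))))) (mv 430 (both (five 5 429 462) (mv 460 (both (five 7 428 428) (mv 556 (both (five 6 460 588) (mv 526 (both (five 2 524 527) (mv 555 (both (five 1 522 554) (mv 558 (both (five 4 461 590) (mv 523 (both (five 3 522 522) (mv 587 (both (five 2 554 586) (mv 491 (both (five 5 459 492) (mv 458 (both (five 7 458 490) (mv 459 (both (five 7 426 426) (five 0 458 494))))))))))))))))))))))))))) (both (mv 589 (both (mv 620 (both (five 6 492 588) (mv 621 (both (five 6 524 652) (mv 622 (both (five 4 493 590) (five 4 525 654))))))) (both (mv 460 (both (five 7 460 492) (mv 461 (both (five 7 428 428) (mv 590 (both (five 4 461 558) (five 4 493 622))))))) (mv 460 (both (five 7 460 492) (mv 461 (both (five 7 428 428) (mv 588 (both (five 6 460 556) (five 6 492 620)))))))))) (both (mv 461 (both (mv 462 (both (five 5 429 430) (mv 588 (both (five 6 460 556) (mv 589 (both (five 5 461 494) (five 6 492 620))))))) (both (mv 428 (both (five 7 428 460) (mv 429 (both (five 7 396 396) (mv 398 (both (five 5 397 430) (mv 397 (both (five 5 365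 366) (mv 526 (both (five 4 397 494) (five 4 429 558))))))))))) (both (mv 428 (both (five 7 428 460) (mv 396 (both (five 7 396 429) (mv 588 (both (five 6 460 556) (mv 589 (both (five 6 492 620) (mv 494 (both (five 5 461 462) (mv 526 (both (five 5 493 621) (mv 492 (both (five 3 492 527) (mv 491 (both (five 0 490 490) (mv 459 (both (five 3 458 458) (mv 523 (both (five 5 395 427) (five 2 490 522))))))))))))))))))))) (mv 428 (both (five 7 428 460) (mv 429 (both (five 7 396 396) (mv 430 (both (five 5 397 398) (five 5 429 462))))))))))) (mv 461 (both (mv 462 (both (five 5 429 430) (mv 589 (both (five 5 461 494) (mv 590 (both (five 4 461 558) (five 4 493 622))))))) (both (mv 460 (both (five 7 428 428) (mv 589 (both (five 7 460 492) (mv 590 (both (five 4 461 558) (five 4 493 622))))))) (mv 428 (both (five 7 428 460) (mv 429 (both (five 7 396 396) (mv 430 (both (five 5 397 398) (five 5 429 462)))))))))))))))) (both (mv 492 (both (mv 526 (both (five 3 492 527) (mv 491 (both (five 0 490 490) (mv 494 (both (mv 463 (both (five 1 459 462) (mv 495 (both (five 1 460 464) (mv 496 (both (five 2 493 497) (five 2 492 524)))))))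 (both (mv 462 (both (five 1 459 463) (mv 430 (both (five 6 397 398) (mv 429 (both (five 7 397 397) (mv 431 (both (five 5 398 399) (mv 461 (both (five 7 429 558) (mv 432 (both (five 2 429 433) (five 2 428 460))))))))))))) (mv 523 (both (five 2 490 522) (mv 495 (both (five 2 491 524) (mv 496 (both (five 2 493 497) (mv 461 (both (five 3 460 460) (mv 429 (both (five 4 397 397) (five 4 429 558)))))))))))))))))) (both (mv 494 (both (mv 495 (both (five 0 492 527) (mv 524 (both (five 2 492 496) (five 2 491 523))))) (both (mv 491 (both (mv 458 (both (five 3 458 459) (mv 490 (both (five 3 457 457) (mv 522 (both (five 2 489 521) (five 2 490 523))))))) (both (mv 462 (both (five 1 459 463) (mv 398 (both (five 6 397 430) (mv 490 (both (five 1 458 461) (mv 522 (both (five 2 489 521) (five 2 490 523))))))))) (mv 458 (both (five 3 458 459) (mv 462 (both (five 1 459 463) (mv 430 (both (five 6 397 398) (mv 557 (both (five 5 429 461) (five 5 461 589)))))))))))) (mv 495 (both (five 0 492 527) (mv 459 (both (five 3 459 460) (mv 463 (both (five 1 460 464) (mv 491 (both (five 3 458 458) (five 1 459 462)))))))))))) (both (mv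 491 (both (mv 490 (both (five 0 490 526) (mv 457 (both (five 3 457 458) (mv 489 (both (five 3 456 456) (five 0 489 524))))))) (both (mv 494 (both (mv 462 (both (five 1 459 463) (mv 430 (both (five 6 397 398) (mv 557 (both (five 5 429 461) (five 5 461 589))))))) (mv 459 (both (five 3 458 458) (mv 460 (both (five 3 459 495) (mv 428 (both (five 4 396 396) (mv 523 (both (five 2 490 522) (five 5 427 555))))))))))) (mv 490 (both (five 0 490 526) (mv 462 (both (five 1 458 461) (mv 494 (both (five 1 459 463) (mv 522 (both (five 2 489 521) (five 2 490 523)))))))))))) (both (mv 460 (both (mv 461 (both (mv 526 (both (five 3 492 527) (mv 429 (both (five 4 429 558) (mv 397 (both (five 6 364 365) (five 6 396 524))))))) (both (mv 557 (both (five 7 460 589) (mv 430 (both (five 5 429 462) (mv 429 (both (five 5 397 398) (mv 397 (both (five 6 364 365) (five 6 396 524))))))))) (mv 526 (both (five 3 492 527) (mv 491 (both (five 0 490 490) (mv 462 (both (five 2 459 463) (mv 557 (both (five 5 429 430) (five 7 460 589)))))))))))) (both (mv 429 (both (mv 526 (both (five 3 492 527) (mv 461 (both (five 4 429 558) (mv 397 (both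 (five 6 364 365) (five 6 396 524))))))) (both (mv 428 (both (five 4 396 396) (mv 524 (both (five 5 396 397) (mv 395 (both (five 7 395 427) (mv 523 (both (five 6 427 555) (mv 522 (both (five 1 489 521) (mv 490 (both (five 3 489 489) (mv 526 (both (five 3 490 491) (five 3 492 527))))))))))))))) (both (mv 428 (both (five 4 396 396) (mv 397 (both (five 5 396 524) (mv 365 (both (five 6 332 333) (five 6 364 461))))))) (mv 396 (both (five 4 396 428) (mv 526 (both (five 3 492 527) (mv 461 (both (five 4 429 558) (mv 430 (both (five 5 397 398) (mv 431 (both (five 2 428 432) (mv 459 (both (five 1 426 458) (five 1 427 462))))))))))))))))) (both (mv 428 (both (five 4 396 396) (mv 557 (both (five 4 428 524) (five 7 460 589))))) (mv 428 (both (five 4 396 396) (mv 557 (both (five 7 428 461) (five 7 460 589))))))))) (both (mv 494 (both (mv 527 (both (five 0 492 495) (five 3 492 526))) (both (mv 491 (both (mv 458 (both (five 3 458 459) (mv 462 (both (five 1 459 463) (mv 490 (both (five 3 457 457) (five 1 458 461))))))) (both (mv 463 (both (five 1 459 462) (mv 495 (both (five 1 460 464) (mv 524 (both (five 2 492 496)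 (five 2 491 523))))))) (mv 458 (both (five 3 458 459) (mv 490 (both (five 3 457 457) (mv 522 (both (five 2 489 521) (five 2 490 523)))))))))) (mv 526 (both (five 3 492 527) (mv 491 (both (five 0 490 490) (mv 459 (both (five 3 458 458) (mv 462 (both (five 1 459 463) (mv 430 (both (five 6 397 398) (mv 399 (both (five 5 398 431) (mv 429 (both (five 7 397 397) (mv 461 (both (five 7 429 558) (mv 428 (both (five 7 396 396) (mv 427 (both (five 0 426 426) (mv 395 (both (five 3 394 394) (five 4 395 524)))))))))))))))))))))))))) (both (mv 460 (both (mv 461 (both (mv 526 (both (five 3 492 527) (mv 429 (both (five 4 429 558) (mv 397 (both (five 6 364 365) (five 6 396 524))))))) (both (mv 557 (both (five 7 460 589) (mv 430 (both (five 5 429 462) (mv 429 (both (five 5 397 398) (mv 397 (both (five 6 364 365) (five 6 396 524))))))))) (mv 526 (both (five 3 492 527) (mv 557 (both (five 7 460 589) (mv 462 (both (five 5 429 430) (mv 463 (both (five 2 460 464) (mv 431 (both (five 1 428 432) (mv 558 (both (five 5 430 494) (five 4 461 590)))))))))))))))) (both (mv 429 (both (mv 428 (both (five 4 396 396) (mv 524 (both (five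 5 396 397) (mv 395 (both (five 7 395 427) (mv 523 (both (five 6 427 555) (mv 494 (both (five 2 491 495) (five 1 490 522))))))))))) (mv 526 (both (five 3 492 527) (mv 461 (both (five 4 429 558) (mv 430 (both (five 5 397 398) (mv 431 (both (five 2 428 432) (mv 459 (both (five 1 426 458) (five 1 427 462))))))))))))) (both (mv 428 (both (five 4 396 396) (mv 557 (both (five 4 428 524) (five 7 460 589))))) (mv 428 (both (five 4 396 396) (mv 557 (both (five 7 428 461) (five 7 460 589))))))))) (both (mv 494 (both (mv 527 (both (five 0 492 495) (five 3 492 526))) (both (mv 491 (both (mv 459 (both (five 3 458 458) (mv 460 (both (five 3 459 495) (mv 396 (both (five 4 396 428) (mv 462 (both (five 1 459 463) (mv 430 (both (five 6 397 398) (mv 461 (both (five 1 427 431) (mv 427 (both (five 3 426 426) (mv 395 (both (five 4 363 363) (five 5 363 364))))))))))))))))) (both (mv 458 (both (five 3 458 459) (mv 490 (both (five 3 457 457) (mv 522 (both (five 2 489 521) (five 2 490 523))))))) (mv 462 (both (five 1 459 463) (mv 398 (both (five 6 397 430) (mv 490 (both (five 1 458 461) (mv 522 (both (five 2 489 521) (five 2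 490 523)))))))))))) (mv 526 (both (five 3 492 527) (mv 491 (both (five 0 490 490) (mv 462 (both (five 1 459 463) (mv 430 (both (five 6 397 398) (mv 429 (both (five 7 397 397) (mv 431 (both (five 5 398 399) (mv 461 (both (five 7 429 558) (mv 432 (both (five 2 429 433) (five 2 428 460)))))))))))))))))))) (both (mv 526 (both (five 3 492 527) (mv 491 (both (five 0 490 490) (mv 494 (both (mv 463 (both (five 1 459 462) (mv 495 (both (five 1 460 464) (mv 524 (both (five 2 492 496) (five 2 491 523))))))) (both (mv 459 (both (five 3 458 458) (mv 462 (both (five 1 459 463) (mv 430 (both (five 6 397 398) (mv 429 (both (five 7 397 397) (mv 431 (both (five 5 398 399) (mv 428 (both (five 2 427 460) (mv 395 (both (five 3 395 396) (mv 427 (both (five 3 394 394) (five 4 395 524))))))))))))))))) (mv 459 (both (five 3 458 458) (mv 460 (both (five 3 459 495) (mv 428 (both (five 4 396 396) (mv 523 (both (five 2 490 522) (five 5 427 555)))))))))))))))) (both (mv 460 (both (mv 494 (both (mv 527 (both (five 0 492 495) (five 3 492 526))) (both (mv 526 (both (five 3 492 527) (mv 491 (both (five 0 490 490) (mv 459 (both (five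 3 458 458) (mv 523 (both (five 2 490 522) (mv 555 (both (five 5 459 587) (mv 554 (both (five 2 522 524) (five 6 458 586))))))))))))) (mv 459 (both (five 3 459 495) (mv 458 (both (five 0 457 457) (five 0 458 461)))))))) (both (mv 428 (both (five 4 396 396) (mv 557 (both (five 7 428 461) (five 7 460 589))))) (mv 428 (both (five 4 396 396) (mv 557 (both (five 4 428 524) (five 7 460 589)))))))) (mv 526 (both (five 3 492 527) (mv 491 (both (five 0 490 490) (mv 494 (both (mv 463 (both (five 1 459 462) (mv 495 (both (five 1 460 464) (mv 496 (both (five 2 493 497) (five 2 492 524))))))) (both (mv 459 (both (five 3 458 458) (mv 495 (both (five 3 459 460) (mv 496 (both (five 2 493 497) (five 2 492 524))))))) (mv 462 (both (five 1 459 463) (mv 430 (both (five 6 397 398) (mv 429 (both (five 7 397 397) (mv 431 (both (five 5 398 399) (mv 461 (both (five 7 429 558) (mv 432 (both (five 2 429 433) (five 2 428 460)))))))))))))))))))))))))))))) (both (mv 492 (both (mv 494 (both (mv 495 (both (five 0 492 527) (mv 524 (both (five 2 492 496) (five 2 491 523))))) (both (mv 491 (both (mv 458 (both (five 3 458 459) (mv 490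 (both (five 3 457 457) (mv 522 (both (five 2 489 521) (five 2 490 523))))))) (both (mv 462 (both (five 1 459 463) (mv 398 (both (five 6 397 430) (mv 490 (both (five 1 458 461) (mv 522 (both (five 2 489 521) (five 2 490 523))))))))) (mv 458 (both (five 3 458 459) (mv 462 (both (five 1 459 463) (mv 430 (both (five 6 397 398) (mv 557 (both (five 5 429 461) (five 5 461 589)))))))))))) (mv 495 (both (five 0 492 527) (mv 459 (both (five 3 459 460) (mv 463 (both (five 1 460 464) (mv 491 (both (five 3 458 458) (five 1 459 462)))))))))))) (both (mv 491 (both (mv 490 (both (five 0 490 526) (mv 457 (both (five 3 457 458) (mv 489 (both (five 3 456 456) (five 0 489 524))))))) (both (mv 494 (both (mv 462 (both (five 1 459 463) (mv 430 (both (five 6 397 398) (mv 557 (both (five 5 429 461) (five 5 461 589))))))) (mv 459 (both (five 3 458 458) (mv 460 (both (five 3 459 495) (mv 428 (both (five 4 396 396) (mv 523 (both (five 2 490 522) (five 5 427 555))))))))))) (mv 490 (both (five 0 490 526) (mv 462 (both (five 1 458 461) (mv 494 (both (five 1 459 463) (mv 522 (both (five 2 489 521) (five 2 490 523)))))))))))) (both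 (mv 557 (both (mv 460 (both (five 7 460 589) (mv 428 (both (five 4 396 396) (five 4 428 524))))) (both (mv 461 (both (mv 526 (both (five 3 492 527) (mv 556 (both (five 6 460 588) (mv 555 (both (five 1 522 554) (mv 558 (both (five 4 461 590) (mv 523 (both (five 3 522 522) (mv 587 (both (five 2 554 586) (mv 619 (both (five 5 491 524) (mv 650 (both (five 6 522 618) (mv 651 (both (five 6 554 682) (mv 652 (both (five 4 523 620) (five 4 555 684))))))))))))))))))))) (mv 460 (both (five 7 428 428) (mv 462 (both (five 5 429 430) (mv 463 (both (five 2 460 464) (five 2 459 491))))))))) (both (mv 589 (both (mv 621 (both (five 7 492 524) (mv 622 (both (five 4 493 590) (five 4 525 654))))) (both (mv 526 (both (five 3 492 527) (mv 490 (both (five 0 490 491) (mv 588 (both (five 6 492 620) (mv 461 (both (five 6 460 556) (mv 590 (both (five 4 461 558) (five 4 493 622))))))))))) (mv 620 (both (five 6 492 588) (mv 621 (both (five 7 492 524) (five 6 524 652)))))))) (mv 460 (both (five 7 460 589) (mv 428 (both (five 4 396 396) (five 7 428 461))))))))) (both (mv 494 (both (mv 527 (both (five 0 492 495) (five 3 492 526)))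 (both (mv 491 (both (mv 459 (both (five 3 458 458) (mv 460 (both (five 3 459 495) (mv 428 (both (five 4 396 396) (mv 523 (both (five 2 490 522) (five 5 427 555))))))))) (both (mv 490 (both (five 0 490 526) (mv 457 (both (five 3 457 458) (mv 489 (both (five 3 456 456) (five 0 489 524))))))) (mv 490 (both (five 0 490 526) (mv 522 (both (five 2 489 521) (five 2 490 523)))))))) (both (mv 526 (both (five 3 492 527) (mv 524 (both (mv 523 (both (mv 490 (both (five 0 490 491) (mv 522 (both (five 3 489 489) (five 1 489 521))))) (both (mv 522 (both (five 1 489 521) (mv 554 (both (five 2 521 553) (five 2 522 555))))) (mv 491 (both (five 0 490 490) (mv 555 (both (five 2 522 554) (mv 460 (both (five 6 427 428) (five 5 459 587)))))))))) (both (mv 523 (both (five 1 490 522) (mv 555 (both (five 2 522 554) (mv 460 (both (five 6 427 428) (mv 587 (both (five 6 459 556) (five 5 491 619))))))))) (both (mv 491 (both (five 0 490 490) (mv 459 (both (five 3 458 458) (mv 427 (both (five 4 395 395) (mv 556 (both (five 7 427 460) (five 7 459 588))))))))) (mv 523 (both (mv 490 (both (five 0 490 491) (mv 522 (both (five 3 489 489)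 (five 1 489 521))))) (both (mv 522 (both (five 1 489 521) (mv 554 (both (five 2 521 553) (five 2 522 555))))) (mv 491 (both (five 0 490 490) (mv 555 (both (five 2 522 554) (mv 587 (both (five 5 491 619) (mv 586 (both (five 6 490 618) (mv 588 (both (five 4 491 620) (mv 556 (both (five 4 459 459) (five 5 460 461)))))))))))))))))))))) (mv 495 (both (five 0 492 527) (mv 524 (both (five 2 492 496) (five 2 491 523))))))))) (both (mv 526 (both (five 3 492 527) (mv 491 (both (five 0 490 490) (mv 494 (both (mv 462 (both (five 1 459 463) (mv 430 (both (five 6 397 398) (five 6 429 557))))) (both (mv 523 (both (five 2 490 522) (mv 495 (both (five 2 491 524) (mv 464 (both (five 1 460 463) (mv 496 (both (five 1 461 465) (five 2 493 497))))))))) (mv 458 (both (five 3 458 459) (mv 523 (both (five 2 490 522) (mv 524 (both (five 2 491 495) (mv 555 (both (five 2 522 554) (mv 587 (both (five 5 491 619) (mv 586 (both (five 6 490 618) (mv 588 (both (five 4 491 620) (mv 556 (both (five 5 460 461) (mv 557 (both (five 2 554 558) (five 1 553 585)))))))))))))))))))))))))) (both (mv 557 (both (mv 460 (both (five 7 460 589) (mv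 428 (both (five 4 396 396) (five 4 428 524))))) (both (mv 461 (both (mv 526 (both (five 3 492 527) (mv 556 (both (five 6 460 588) (mv 555 (both (five 1 522 554) (mv 558 (both (five 4 461 590) (mv 523 (both (five 3 522 522) (mv 587 (both (five 2 554 586) (mv 619 (both (five 5 491 524) (mv 650 (both (five 6 522 618) (mv 651 (both (five 6 554 682) (mv 652 (both (five 4 523 620) (five 4 555 684))))))))))))))))))))) (mv 460 (both (five 7 428 428) (mv 462 (both (five 5 429 430) (mv 463 (both (five 2 460 464) (mv 431 (both (five 1 428 432) (mv 495 (both (five 0 460 496) (mv 459 (both (five 0 459 494) (mv 426 (both (five 3 426 427) (mv 458 (both (five 3 425 425) (five 0 457 457))))))))))))))))))) (mv 589 (both (mv 620 (both (five 6 492 588) (mv 621 (both (five 6 524 652) (mv 622 (both (five 4 493 590) (five 4 525 654))))))) (both (mv 462 (both (five 5 461 494) (mv 461 (both (five 5 429 430) (mv 590 (both (five 4 461 558) (five 4 493 622))))))) (mv 462 (both (five 5 461 494) (mv 461 (both (five 5 429 430) (mv 588 (both (five 6 460 556) (five 6 492 620))))))))))))) (both (mv 526 (both (five 3 492 527) (mv 491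 (both (five 0 490 490) (mv 494 (both (mv 462 (both (five 1 459 463) (mv 430 (both (five 6 397 398) (five 6 429 557))))) (mv 459 (both (five 3 458 458) (mv 460 (both (five 3 459 495) (mv 428 (both (five 4 396 396) (mv 523 (both (five 2 490 522) (five 5 427 555))))))))))))))) (mv 526 (both (five 3 492 527) (mv 491 (both (five 0 490 490) (mv 494 (both (mv 462 (both (five 1 459 463) (mv 430 (both (five 6 397 398) (five 6 429 557))))) (mv 459 (both (five 3 458 458) (mv 495 (both (five 3 459 460) (mv 496 (both (five 2 493 497) (five 2 492 524))))))))))))))))))))) (both (mv 557 (both (mv 589 (both (mv 620 (both (five 6 492 588) (mv 621 (both (five 6 524 652) (mv 622 (both (five 4 493 590) (five 4 525 654))))))) (both (mv 462 (both (five 5 461 494) (mv 461 (both (five 5 429 430) (mv 590 (both (five 4 461 558) (five 4 493 622))))))) (mv 462 (both (five 5 461 494) (mv 461 (both (five 5 429 430) (mv 588 (both (five 6 460 556) (five 6 492 620)))))))))) (both (mv 589 (both (mv 620 (both (five 6 492 588) (mv 621 (both (five 6 524 652) (mv 622 (both (five 4 493 590) (five 4 525 654))))))) (both (mv 492 (both (five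 7 460 460) (mv 620 (both (five 6 492 588) (mv 621 (both (five 7 492 524) (five 6 524 652))))))) (both (mv 492 (both (five 7 460 460) (mv 621 (both (five 7 492 524) (mv 622 (both (five 4 493 590) (five 4 525 654))))))) (mv 492 (both (five 7 460 460) (mv 494 (both (five 5 461 462) (mv 526 (both (five 3 492 527) (mv 491 (both (five 0 490 490) (mv 459 (both (five 3 458 458) (mv 522 (both (five 2 490 523) (mv 588 (both (five 6 492 620) (mv 556 (both (five 7 459 524) (mv 554 (both (five 1 522 555) (mv 590 (both (five 4 493 622) (mv 591 (both (five 3 556 592) (mv 623 (both (five 4 494 558) (five 0 588 624))))))))))))))))))))))))))))) (both (mv 461 (both (mv 428 (both (five 7 428 460) (mv 429 (both (five 7 396 396) (mv 430 (both (five 5 397 398) (five 5 429 462))))))) (both (mv 428 (both (five 7 428 460) (mv 429 (both (five 7 396 396) (mv 558 (both (five 4 429 526) (five 4 461 590))))))) (both (mv 430 (both (five 5 429 462) (mv 429 (both (five 5 397 398) (mv 558 (both (five 4 429 526) (five 4 461 590))))))) (mv 430 (both (five 5 429 462) (mv 460 (both (five 7 428 428) (mv 556 (both (five 6 460 588) (mv 526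 (both (five 2 524 527) (mv 555 (both (five 1 522 554) (mv 558 (both (five 4 461 590) (mv 523 (both (five 3 522 522) (mv 587 (both (five 2 554 586) (mv 491 (both (five 5 459 492) (mv 458 (both (five 7 458 490) (mv 459 (both (five 7 426 426) (five 0 458 494))))))))))))))))))))))))))) (both (mv 589 (both (mv 620 (both (five 6 492 588) (mv 621 (both (five 6 524 652) (mv 622 (both (five 4 493 590) (five 4 525 654))))))) (both (mv 492 (both (five 7 460 460) (mv 620 (both (five 6 492 588) (mv 621 (both (five 7 492 524) (five 6 524 652))))))) (mv 460 (both (five 7 460 492) (mv 461 (both (five 7 428 428) (mv 590 (both (five 4 461 558) (five 4 493 622)))))))))) (both (mv 461 (both (mv 462 (both (five 5 429 430) (mv 588 (both (five 6 460 556) (mv 589 (both (five 5 461 494) (five 6 492 620))))))) (both (mv 428 (both (five 7 428 460) (mv 429 (both (five 7 396 396) (mv 556 (both (five 6 428 524) (five 6 460 588))))))) (mv 428 (both (five 7 428 460) (mv 429 (both (five 7 396 396) (mv 430 (both (five 5 397 398) (five 5 429 462)))))))))) (mv 461 (both (mv 462 (both (five 5 429 430) (mv 589 (both (five 5 461 494) (mv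 590 (both (five 4 461 558) (five 4 493 622))))))) (both (mv 460 (both (five 7 428 428) (mv 589 (both (five 7 460 492) (mv 590 (both (five 4 461 558) (five 4 493 622))))))) (mv 428 (both (five 7 428 460) (mv 429 (both (five 7 396 396) (mv 430 (both (five 5 397 398) (five 5 429 462)))))))))))))))) (both (mv 461 (both (mv 557 (both (mv 588 (both (five 6 460 556) (mv 589 (both (five 6 492 620) (mv 590 (both (five 4 461 558) (five 4 493 622))))))) (both (mv 462 (both (five 5 429 430) (mv 589 (both (five 5 461 494) (mv 590 (both (five 4 461 558) (five 4 493 622))))))) (both (mv 462 (both (five 5 429 430) (mv 588 (both (five 6 460 556) (mv 589 (both (five 5 461 494) (five 6 492 620))))))) (mv 492 (both (mv 462 (both (five 5 429 430) (mv 463 (both (five 2 460 464) (mv 491 (both (five 1 458 490) (five 1 459 494))))))) (mv 526 (both (five 3 492 527) (mv 556 (both (five 6 460 588) (mv 555 (both (five 1 522 554) (mv 558 (both (five 4 461 590) (mv 523 (both (five 3 522 522) (mv 587 (both (five 2 554 586) (mv 619 (both (five 5 491 524) (mv 650 (both (five 6 522 618) (mv 651 (both (five 6 554 682) (mv 652 (both (five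 4 523 620) (five 4 555 684))))))))))))))))))))))))))) (both (mv 557 (both (mv 588 (both (five 6 460 556) (mv 589 (both (five 6 492 620) (mv 590 (both (five 4 461 558) (five 4 493 622))))))) (both (mv 462 (both (five 5 429 430) (mv 588 (both (five 6 460 556) (mv 589 (both (five 5 461 494) (five 6 492 620))))))) (mv 430 (both (five 5 429 462) (mv 429 (both (five 5 397 398) (mv 558 (both (five 4 429 526) (five 4 461 590)))))))))) (both (mv 429 (both (mv 398 (both (five 5 397 430) (mv 397 (both (five 5 365 366) (mv 524 (both (five 6 396 492) (five 6 428 556))))))) (both (mv 396 (both (five 7 396 428) (mv 397 (both (five 7 364 364) (mv 398 (both (five 5 365 366) (five 5 397 430))))))) (both (mv 396 (both (five 7 396 428) (mv 397 (both (five 7 364 364) (mv 524 (both (five 6 396 492) (five 6 428 556))))))) (mv 396 (both (five 7 396 428) (mv 430 (both (five 5 397 398) (mv 556 (both (five 6 428 524) (mv 557 (both (five 5 429 462) (five 6 460 588))))))))))))) (mv 526 (both (mv 527 (both (five 3 492 492) (mv 496 (both (five 1 493 497) (mv 495 (both (five 1 492 524) (mv 560 (both (five 0 525 561) (mv 463 (both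 (five 4 431 431) (five 7 463 592))))))))))) (mv 429 (both (five 4 429 558) (mv 396 (both (five 7 396 428) (mv 397 (both (five 7 364 364) (five 4 397 494))))))))))))) (both (mv 461 (both (mv 557 (both (mv 588 (both (five 6 460 556) (mv 589 (both (five 6 492 620) (mv 590 (both (five 4 461 558) (five 4 493 622))))))) (both (mv 460 (both (five 7 428 428) (mv 589 (both (five 7 460 492) (mv 590 (both (five 4 461 558) (five 4 493 622))))))) (both (mv 460 (both (five 7 428 428) (mv 492 (both (five 7 460 589) (mv 526 (both (five 3 492 527) (mv 490 (both (five 0 490 491) (mv 556 (both (five 6 460 588) (mv 555 (both (five 1 522 554) (mv 524 (both (five 6 459 587) (mv 459 (both (five 7 427 427) (mv 458 (both (five 0 457 457) (five 2 457 489))))))))))))))))))) (mv 460 (both (five 7 428 428) (mv 556 (both (five 6 460 588) (mv 526 (both (five 2 524 527) (mv 555 (both (five 1 522 554) (mv 558 (both (five 4 461 590) (mv 523 (both (five 3 522 522) (mv 587 (both (five 2 554 586) (mv 492 (both (five 5 459 491) (five 6 459 524))))))))))))))))))))) (both (mv 429 (both (mv 396 (both (five 7 396 428) (mv 397 (both (five 7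 364 364) (mv 398 (both (five 5 365 366) (five 5 397 430))))))) (both (mv 398 (both (five 5 397 430) (mv 397 (both (five 5 365 366) (mv 526 (both (five 4 397 494) (five 4 429 558))))))) (both (mv 396 (both (five 7 396 428) (mv 397 (both (five 7 364 364) (mv 526 (both (five 4 397 494) (five 4 429 558))))))) (mv 396 (both (five 7 396 428) (mv 398 (both (five 5 397 430) (mv 526 (both (five 4 429 558) (mv 556 (both (five 6 428 524) (mv 557 (both (five 2 524 527) (five 6 460 588))))))))))))))) (both (mv 557 (both (mv 588 (both (five 6 460 556) (mv 589 (both (five 6 492 620) (mv 590 (both (five 4 461 558) (five 4 493 622))))))) (both (mv 428 (both (five 7 428 460) (mv 429 (both (five 7 396 396) (mv 398 (both (five 5 397 430) (mv 397 (both (five 5 365 366) (mv 399 (both (five 2 396 400) (mv 426 (both (five 1 394 427) (mv 526 (both (five 4 397 494) (mv 527 (both (five 3 492 492) (five 2 524 556))))))))))))))))) (mv 460 (both (five 7 428 428) (mv 589 (both (five 7 460 492) (mv 590 (both (five 4 461 558) (five 4 493 622)))))))))) (both (mv 526 (both (mv 527 (both (five 3 492 492) (mv 496 (both (five 1 493 497)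 (mv 495 (both (five 1 492 524) (mv 560 (both (five 0 525 561) (mv 463 (both (five 4 431 431) (five 7 463 592))))))))))) (mv 429 (both (five 4 429 558) (mv 397 (both (five 4 397 494) (mv 398 (both (five 5 365 366) (five 5 397 430))))))))) (mv 429 (both (mv 398 (both (five 5 397 430) (mv 397 (both (five 5 365 366) (mv 524 (both (five 6 396 492) (five 6 428 556))))))) (both (mv 396 (both (five 7 396 428) (mv 397 (both (five 7 364 364) (mv 398 (both (five 5 365 366) (five 5 397 430))))))) (both (mv 396 (both (five 7 396 428) (mv 397 (both (five 7 364 364) (mv 524 (both (five 6 396 492) (five 6 428 556))))))) (mv 398 (both (five 5 397 430) (mv 428 (both (five 7 396 396) (mv 556 (both (five 6 428 524) (mv 557 (both (five 7 428 460) (five 6 460 588)))))))))))))))))) (both (mv 492 (both (mv 526 (both (five 3 492 527) (mv 491 (both (five 0 490 490) (mv 494 (both (mv 462 (both (five 1 459 463) (mv 430 (both (five 6 397 398) (five 6 429 557))))) (mv 459 (both (five 3 458 458) (mv 495 (both (five 3 459 460) (mv 496 (both (five 2 493 497) (five 2 492 524))))))))))))) (both (mv 494 (both (mv 495 (both (five 0 492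 527) (mv 524 (both (five 2 492 496) (five 2 491 523))))) (both (mv 491 (both (mv 458 (both (five 3 458 459) (mv 490 (both (five 3 457 457) (mv 522 (both (five 2 489 521) (five 2 490 523))))))) (both (mv 462 (both (five 1 459 463) (mv 398 (both (five 6 397 430) (mv 490 (both (five 1 458 461) (mv 522 (both (five 2 489 521) (five 2 490 523))))))))) (mv 458 (both (five 3 458 459) (mv 462 (both (five 1 459 463) (mv 430 (both (five 6 397 398) (mv 557 (both (five 5 429 461) (five 5 461 589)))))))))))) (mv 495 (both (five 0 492 527) (mv 459 (both (five 3 459 460) (mv 463 (both (five 1 460 464) (mv 491 (both (five 3 458 458) (five 1 459 462)))))))))))) (both (mv 491 (both (mv 490 (both (five 0 490 526) (mv 457 (both (five 3 457 458) (mv 489 (both (five 3 456 456) (five 0 489 524))))))) (both (mv 494 (both (mv 462 (both (five 1 459 463) (mv 430 (both (five 6 397 398) (mv 557 (both (five 5 429 461) (five 5 461 589))))))) (mv 459 (both (five 3 458 458) (mv 460 (both (five 3 459 495) (mv 428 (both (five 4 396 396) (mv 523 (both (five 2 490 522) (five 5 427 555))))))))))) (mv 490 (both (five 0 490 526) (mv 462 (both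 (five 1 458 461) (mv 494 (both (five 1 459 463) (mv 522 (both (five 2 489 521) (five 2 490 523)))))))))))) (both (ref 0) (both (mv 526 (both (five 3 492 527) (mv 491 (both (five 0 490 490) (mv 494 (both (mv 462 (both (five 1 459 463) (mv 430 (both (five 6 397 398) (five 6 429 557))))) (mv 459 (both (five 3 458 458) (mv 460 (both (five 3 459 495) (mv 428 (both (five 4 396 396) (mv 523 (both (five 2 490 522) (five 5 427 555))))))))))))))) (both (mv 526 (both (five 3 492 527) (mv 491 (both (five 0 490 490) (mv 494 (both (mv 462 (both (five 1 459 463) (mv 430 (both (five 6 397 398) (five 6 429 557))))) (both (mv 523 (both (five 2 490 522) (mv 495 (both (five 2 491 524) (mv 464 (both (five 1 460 463) (mv 496 (both (five 1 461 465) (five 2 493 497))))))))) (mv 458 (both (five 3 458 459) (mv 523 (both (five 2 490 522) (mv 524 (both (five 2 491 495) (mv 555 (both (five 2 522 554) (mv 587 (both (five 5 491 619) (mv 586 (both (five 6 490 618) (mv 588 (both (five 4 491 620) (mv 556 (both (five 5 460 461) (mv 585 (both (five 1 553 557) (five 1 552 584)))))))))))))))))))))))))) (both (mv 460 (both (mv 428 (both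 (five 4 396 396) (mv 524 (both (mv 523 (both (five 6 427 555) (mv 494 (both (five 2 491 495) (five 1 490 522))))) (mv 395 (both (five 7 395 427) (mv 429 (both (five 5 396 397) (mv 461 (both (five 5 428 556) (mv 430 (both (five 5 397 398) (mv 431 (both (five 2 428 432) (mv 459 (both (five 1 426 458) (five 1 427 462))))))))))))))))) (both (mv 557 (both (five 7 460 589) (mv 461 (both (mv 430 (both (five 5 429 462) (mv 429 (both (five 5 397 398) (mv 397 (both (five 6 364 365) (five 6 396 524))))))) (both (mv 526 (both (five 3 492 527) (mv 556 (both (five 6 460 588) (mv 429 (both (five 5 428 524) (mv 397 (both (five 6 364 365) (five 4 397 494))))))))) (mv 462 (both (five 5 429 430) (mv 463 (both (five 2 460 464) (mv 431 (both (five 1 428 432) (mv 495 (both (five 0 460 496) (mv 494 (both (five 3 459 459) (five 0 492 527)))))))))))))))) (both (mv 428 (both (five 4 396 396) (mv 557 (both (five 7 428 461) (five 7 460 589))))) (mv 428 (both (five 4 396 396) (mv 557 (both (five 4 428 524) (five 7 460 589))))))))) (both (mv 460 (both (mv 494 (both (mv 527 (both (five 0 492 495) (five 3 492 526))) (both (mv 526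 (both (five 3 492 527) (mv 491 (both (five 0 490 490) (mv 459 (both (five 3 458 458) (mv 523 (both (five 2 490 522) (mv 555 (both (five 5 459 587) (mv 554 (both (five 2 522 524) (five 6 458 586))))))))))))) (mv 459 (both (five 3 459 495) (mv 458 (both (five 0 457 457) (five 0 458 461)))))))) (both (mv 428 (both (five 4 396 396) (mv 557 (both (five 7 428 461) (five 7 460 589))))) (mv 428 (both (five 4 396 396) (mv 557 (both (five 4 428 524) (five 7 460 589)))))))) (mv 526 (both (five 3 492 527) (mv 491 (both (five 0 490 490) (mv 494 (both (mv 462 (both (five 1 459 463) (mv 430 (both (five 6 397 398) (five 6 429 557))))) (mv 523 (both (five 2 490 522) (mv 524 (both (five 2 491 495) (mv 555 (both (five 2 522 554) (mv 460 (both (five 6 427 428) (five 5 459 587)))))))))))))))))))))))) (both (mv 492 (both (mv 526 (both (five 3 492 527) (mv 491 (both (five 0 490 490) (mv 494 (both (mv 462 (both (five 1 459 463) (mv 430 (both (five 6 397 398) (five 6 429 557))))) (mv 459 (both (five 3 458 458) (mv 495 (both (five 3 459 460) (mv 496 (both (five 2 493 497) (five 2 492 524))))))))))))) (both (mv 494 (both (mv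 495 (both (five 0 492 527) (mv 524 (both (five 2 492 496) (five 2 491 523))))) (both (mv 491 (both (mv 458 (both (five 3 458 459) (mv 490 (both (five 3 457 457) (mv 522 (both (five 2 489 521) (five 2 490 523))))))) (both (mv 462 (both (five 1 459 463) (mv 398 (both (five 6 397 430) (mv 490 (both (five 1 458 461) (mv 522 (both (five 2 489 521) (five 2 490 523))))))))) (mv 458 (both (five 3 458 459) (mv 462 (both (five 1 459 463) (mv 430 (both (five 6 397 398) (mv 557 (both (five 5 429 461) (five 5 461 589)))))))))))) (mv 495 (both (five 0 492 527) (mv 459 (both (five 3 459 460) (mv 463 (both (five 1 460 464) (mv 491 (both (five 3 458 458) (five 1 459 462)))))))))))) (both (mv 491 (both (mv 490 (both (five 0 490 526) (mv 457 (both (five 3 457 458) (mv 489 (both (five 3 456 456) (five 0 489 524))))))) (both (mv 494 (both (mv 462 (both (five 1 459 463) (mv 430 (both (five 6 397 398) (mv 557 (both (five 5 429 461) (five 5 461 589))))))) (mv 459 (both (five 3 458 458) (mv 460 (both (five 3 459 495) (mv 523 (both (five 2 490 522) (mv 555 (both (five 5 459 587) (mv 554 (both (five 6 458 586) (mv 556 (both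 (five 4 459 588) (mv 524 (both (five 4 427 427) (five 1 521 553))))))))))))))))) (mv 490 (both (five 0 490 526) (mv 462 (both (five 1 458 461) (mv 494 (both (five 1 459 463) (mv 522 (both (five 2 489 521) (five 2 490 523)))))))))))) (both (mv 557 (both (mv 589 (both (five 7 460 460) (mv 621 (both (five 7 492 524) (mv 622 (both (five 4 493 590) (five 4 525 654))))))) (both (mv 461 (both (mv 430 (both (five 5 429 462) (mv 429 (both (five 5 397 398) (mv 556 (both (five 6 428 524) (five 6 460 588))))))) (both (mv 430 (both (five 5 429 462) (mv 429 (both (five 5 397 398) (mv 558 (both (five 4 429 526) (five 4 461 590))))))) (mv 526 (both (five 3 492 527) (mv 556 (both (five 6 460 588) (mv 555 (both (five 1 522 554) (mv 558 (both (five 4 461 590) (mv 523 (both (five 3 522 522) (mv 587 (both (five 2 554 586) (mv 619 (both (five 5 491 524) (mv 650 (both (five 6 522 618) (mv 651 (both (five 6 554 682) (mv 652 (both (five 4 523 620) (five 4 555 684)))))))))))))))))))))))) (both (mv 589 (both (five 7 460 460) (mv 620 (both (five 6 492 588) (mv 621 (both (five 6 524 652) (mv 622 (both (five 4 493 590) (five 4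 525 654))))))))) (mv 589 (both (five 7 460 460) (mv 620 (both (five 6 492 588) (mv 621 (both (five 7 492 524) (five 6 524 652))))))))))) (both (mv 526 (both (five 3 492 527) (mv 491 (both (five 0 490 490) (mv 494 (both (mv 462 (both (five 1 459 463) (mv 430 (both (five 6 397 398) (five 6 429 557))))) (both (mv 459 (both (five 3 458 458) (mv 460 (both (five 3 459 495) (mv 523 (both (five 2 490 522) (mv 555 (both (five 5 459 587) (mv 554 (both (five 6 458 586) (mv 556 (both (five 1 522 557) (five 4 459 588))))))))))))) (mv 462 (both (five 1 459 463) (mv 430 (both (five 6 397 398) (mv 429 (both (five 7 397 397) (mv 431 (both (five 5 398 399) (mv 461 (both (five 7 429 558) (mv 432 (both (five 2 429 433) (five 2 428 460)))))))))))))))))))) (both (mv 526 (both (five 3 492 527) (mv 491 (both (five 0 490 490) (mv 494 (both (mv 462 (both (five 1 459 463) (mv 430 (both (five 6 397 398) (five 6 429 557))))) (both (mv 523 (both (five 2 490 522) (mv 495 (both (five 2 491 524) (mv 464 (both (five 1 460 463) (mv 496 (both (five 1 461 465) (five 2 493 497))))))))) (mv 458 (both (five 3 458 459) (mv 523 (both (five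 2 490 522) (mv 524 (both (five 2 491 495) (mv 555 (both (five 2 522 554) (mv 587 (both (five 5 491 619) (mv 586 (both (five 6 490 618) (mv 588 (both (five 4 491 620) (mv 556 (both (five 5 460 461) (mv 557 (both (five 2 554 558) (five 1 553 585)))))))))))))))))))))))))) (mv 494 (both (mv 527 (both (five 0 492 495) (five 3 492 526))) (both (mv 495 (both (mv 524 (both (five 2 492 496) (five 2 491 523))) (both (mv 464 (both (five 1 460 463) (mv 496 (both (five 1 461 465) (mv 461 (both (five 3 460 460) (mv 526 (both (five 2 493 497) (mv 429 (both (five 4 397 397) (five 4 429 558))))))))))) (mv 459 (both (five 3 459 460) (mv 463 (both (five 1 460 464) (mv 491 (both (five 3 458 458) (mv 490 (both (five 0 490 526) (mv 522 (both (five 2 489 521) (five 2 490 523)))))))))))))) (both (mv 526 (both (five 3 492 527) (mv 524 (both (mv 491 (both (five 0 490 490) (mv 459 (both (five 3 458 458) (mv 427 (both (five 4 395 395) (mv 556 (both (five 7 427 460) (five 7 459 588))))))))) (both (mv 523 (both (five 1 490 522) (mv 555 (both (five 2 522 554) (mv 587 (both (five 5 491 619) (mv 556 (both (five 6 459 460) (mv 461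 (both (five 6 428 429) (five 5 460 588))))))))))) (both (mv 491 (both (five 0 490 490) (mv 458 (both (five 3 458 459) (mv 523 (both (five 2 490 522) (mv 555 (both (five 2 522 554) (mv 587 (both (five 5 459 460) (five 5 491 619))))))))))) (mv 523 (both (mv 490 (both (five 0 490 491) (mv 522 (both (five 3 489 489) (five 1 489 521))))) (both (mv 522 (both (five 1 489 521) (mv 554 (both (five 2 521 553) (five 2 522 555))))) (mv 491 (both (five 0 490 490) (mv 555 (both (five 2 522 554) (mv 587 (both (five 5 491 619) (mv 586 (both (five 6 490 618) (mv 588 (both (five 4 491 620) (mv 556 (both (five 4 459 459) (five 5 460 461)))))))))))))))))))))) (mv 495 (both (five 0 492 527) (mv 524 (both (five 2 492 496) (five 2 491 523)))))))))))))))) (both (mv 557 (both (mv 589 (both (mv 620 (both (five 6 492 588) (mv 621 (both (five 6 524 652) (mv 622 (both (five 4 493 590) (five 4 525 654))))))) (both (mv 492 (both (five 7 460 460) (mv 620 (both (five 6 492 588) (mv 621 (both (five 7 492 524) (five 6 524 652))))))) (mv 460 (both (five 7 460 492) (mv 461 (both (five 7 428 428) (mv 590 (both (five 4 461 558) (five 4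 493 622)))))))))) (both (mv 461 (both (mv 428 (both (five 7 428 460) (mv 429 (both (five 7 396 396) (mv 556 (both (five 6 428 524) (five 6 460 588))))))) (both (mv 428 (both (five 7 428 460) (mv 429 (both (five 7 396 396) (mv 558 (both (five 4 429 526) (five 4 461 590))))))) (both (mv 556 (both (five 6 460 588) (mv 429 (both (five 6 428 524) (mv 558 (both (five 4 429 526) (five 4 461 590))))))) (mv 460 (both (five 7 428 428) (mv 556 (both (five 6 460 588) (mv 526 (both (five 2 524 527) (mv 555 (both (five 1 522 554) (mv 558 (both (five 4 461 590) (mv 523 (both (five 3 522 522) (mv 587 (both (five 2 554 586) (mv 492 (both (five 5 459 491) (five 6 459 524))))))))))))))))))))) (both (mv 589 (both (mv 494 (both (five 5 461 462) (mv 620 (both (five 6 492 588) (mv 621 (both (five 5 493 526) (five 6 524 652))))))) (both (mv 494 (both (five 5 461 462) (mv 526 (both (five 5 493 621) (mv 556 (both (five 2 524 527) (mv 555 (both (five 1 522 554) (mv 590 (both (five 4 493 622) (mv 591 (both (five 0 555 558) (five 3 556 592))))))))))))) (mv 588 (both (five 6 492 620) (mv 461 (both (five 6 460 556) (mv 590 (both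 (five 4 461 558) (five 4 493 622)))))))))) (both (mv 589 (both (mv 492 (both (five 7 460 460) (mv 620 (both (five 6 492 588) (mv 621 (both (five 7 492 524) (five 6 524 652))))))) (both (mv 494 (both (five 5 461 462) (mv 620 (both (five 6 492 588) (mv 621 (both (five 5 493 526) (five 6 524 652))))))) (mv 492 (both (five 7 460 460) (mv 494 (both (five 5 461 462) (mv 527 (both (five 0 492 495) (five 3 492 526)))))))))) (mv 589 (both (mv 492 (both (five 7 460 460) (mv 621 (both (five 7 492 524) (mv 622 (both (five 4 493 590) (five 4 525 654))))))) (both (mv 494 (both (five 5 461 462) (mv 526 (both (five 5 493 621) (mv 556 (both (five 2 524 527) (mv 555 (both (five 1 522 554) (mv 590 (both (five 4 493 622) (mv 591 (both (five 0 555 558) (five 3 556 592))))))))))))) (mv 492 (both (five 7 460 460) (mv 494 (both (five 5 461 462) (mv 527 (both (five 0 492 495) (five 3 492 526))))))))))))))) (mv 557 (both (mv 589 (both (mv 492 (both (five 7 460 460) (mv 620 (both (five 6 492 588) (mv 621 (both (five 7 492 524) (five 6 524 652))))))) (both (mv 494 (both (five 5 461 462) (mv 620 (both (five 6 492 588) (mv 621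 (both (five 5 493 526) (five 6 524 652))))))) (mv 492 (both (five 7 460 460) (mv 494 (both (five 5 461 462) (mv 527 (both (five 0 492 495) (five 3 492 526)))))))))) (both (mv 461 (both (mv 428 (both (five 7 428 460) (mv 429 (both (five 7 396 396) (mv 430 (both (five 5 397 398) (five 5 429 462))))))) (both (mv 430 (both (five 5 429 462) (mv 429 (both (five 5 397 398) (mv 556 (both (five 6 428 524) (five 6 460 588))))))) (both (mv 428 (both (five 7 428 460) (mv 429 (both (five 7 396 396) (mv 556 (both (five 6 428 524) (five 6 460 588))))))) (mv 494 (both (mv 428 (both (five 7 428 460) (mv 556 (both (five 6 460 588) (mv 527 (both (five 2 524 526) (mv 495 (both (five 0 492 492) (mv 496 (both (five 2 492 524) (mv 464 (both (five 1 461 465) (mv 432 (both (five 6 399 400) (mv 431 (both (five 7 399 399) (mv 560 (both (five 7 431 463) (mv 592 (both (five 7 495 624) (mv 593 (both (five 4 464 561) (five 4 496 625))))))))))))))))))))))) (both (mv 430 (both (five 5 429 462) (mv 556 (both (five 6 460 588) (mv 527 (both (five 2 524 526) (mv 495 (both (five 0 492 492) (mv 496 (both (five 2 492 524) (mv 464 (both (five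 1 461 465) (mv 432 (both (five 6 399 400) (mv 431 (both (five 7 399 399) (mv 463 (both (five 7 398 398) (five 7 431 560))))))))))))))))))) (both (mv 460 (both (five 7 428 428) (mv 459 (both (five 0 458 458) (mv 462 (both (five 5 429 430) (five 0 459 495))))))) (mv 428 (both (five 7 428 460) (mv 462 (both (five 5 429 430) (mv 556 (both (five 6 460 588) (mv 526 (both (five 2 524 527) (mv 558 (both (five 7 461 590) (mv 463 (both (five 5 430 431) (mv 464 (both (five 2 461 465) (five 2 460 492))))))))))))))))))))))) (both (mv 589 (both (mv 620 (both (five 6 492 588) (mv 621 (both (five 6 524 652) (mv 622 (both (five 4 493 590) (five 4 525 654))))))) (both (mv 462 (both (five 5 461 494) (mv 461 (both (five 5 429 430) (mv 590 (both (five 4 461 558) (five 4 493 622))))))) (mv 462 (both (five 5 461 494) (mv 461 (both (five 5 429 430) (mv 588 (both (five 6 460 556) (five 6 492 620)))))))))) (both (mv 589 (both (mv 620 (both (five 6 492 588) (mv 621 (both (five 6 524 652) (mv 622 (both (five 4 493 590) (five 4 525 654))))))) (both (mv 492 (both (five 7 460 460) (mv 620 (both (five 6 492 588) (mv 621 (both (five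 7 492 524) (five 6 524 652))))))) (mv 460 (both (five 7 460 492) (mv 461 (both (five 7 428 428) (mv 590 (both (five 4 461 558) (five 4 493 622)))))))))) (mv 461 (both (mv 462 (both (five 5 429 430) (mv 589 (both (five 5 461 494) (mv 590 (both (five 4 461 558) (five 4 493 622))))))) (both (mv 460 (both (five 7 428 428) (mv 589 (both (five 7 460 492) (mv 590 (both (five 4 461 558) (five 4 493 622))))))) (mv 428 (both (five 7 428 460) (mv 429 (both (five 7 396 396) (mv 430 (both (five 5 397 398) (five 5 429 462))))))))))))))))))))))))))))))

theorem L87 : W (S 988530863058807798957393715067720623286798683220635978952802738122718218409262471505648588255249455916730668840373243557345566271959196709010660073920568229888) (S 300987390751617234569256399116063402567036411214976030653493766270596616624778866436336010788646461991952086332370534261914825722635085746042518916355796248960362715288820410214668705929431256784416796573696) :=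
  check_sound (Env.cons L86 Env.nil) (x := 493) (t := tL87) (by decide +kernel)

def tL88 : T :=
  (both (mv 464 (both (mv 463 (both (mv 495 (both (mv 559 (both (five 5 431 432) (mv 462 (both (five 7 430 430) (mv 560 (both (five 4 463 592) (mv 591 (both (five 7 462 494) (mv 622 (both (five 6 494 590) (mv 623 (both (five 6 526 654) (five 5 527 655))))))))))))) (both (mv 431 (both (five 4 431 560) (mv 398 (both (five 7 398 430) (mv 399 (both (five 7 366 366) (mv 400 (both (five 5 367 368) (five 5 399 432))))))))) (both (mv 560 (both (five 4 431 431) (mv 592 (both (five 4 463 559) (five 7 495 624))))) (mv 432 (both (five 5 431 559) (mv 400 (both (five 6 367 368) (five 5 399 431))))))))) (both (mv 496 (both (mv 431 (both (five 7 431 560) (mv 399 (both (five 4 367 367) (five 7 399 432))))) (both (mv 560 (both (five 7 431 431) (mv 591 (both (five 6 463 559) (mv 592 (both (five 6 495 623) (mv 593 (both (five 4 464 561) (five 4 496 625))))))))) (both (mv 559 (both (five 6 431 432) (mv 591 (both (five 6 463 560) (five 5 495 623))))) (mv 432 (both (five 6 431 559) (mv 399 (both (five 7 399 431) (mv 400 (both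 (five 7 367 367) (mv 401 (both (five 5 368 369) (five 5 400 433))))))))))))) (both (mv 462 (both (mv 461 (both (mv 496 (both (five 0 461 497) (mv 560 (both (five 7 431 431) (mv 591 (both (five 6 463 559) (mv 592 (both (five 6 495 623) (mv 593 (both (five 4 464 561) (five 4 496 625))))))))))) (mv 428 (both (five 3 428 429) (mv 427 (both (five 3 427 460) (mv 493 (both (five 2 460 492) (mv 430 (both (five 5 429 557) (mv 398 (both (five 6 365 366) (five 6 397 494))))))))))))) (both (mv 495 (both (mv 560 (both (five 4 431 431) (mv 592 (both (five 4 463 559) (five 7 495 624))))) (both (mv 431 (both (five 4 431 560) (mv 398 (both (five 7 398 430) (mv 399 (both (five 7 366 366) (mv 367 (both (five 6 366 494) (mv 368 (both (five 5 335 336) (five 5 367 400))))))))))) (mv 430 (both (five 7 430 559) (mv 398 (both (five 4 366 366) (five 4 398 494)))))))) (both (mv 461 (both (mv 493 (both (five 2 460 492) (mv 430 (both (five 5 429 557) (mv 398 (both (five 6 365 366) (five 6 397 494))))))) (mv 428 (both (five 3 428 429) (mv 460 (both (five 3 427 427) (mv 496 (both (five 0 460 495) (five 0 461 497))))))))) (mv 496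 (both (mv 560 (both (five 7 431 431) (mv 591 (both (five 6 463 559) (mv 592 (both (five 6 495 623) (mv 593 (both (five 4 464 561) (five 4 496 625))))))))) (mv 461 (both (five 0 461 497) (mv 428 (both (five 3 428 429) (mv 460 (both (five 3 427 427) (five 0 460 495))))))))))))) (both (mv 559 (both (mv 432 (both (five 5 431 495) (five 6 431 496))) (both (mv 496 (both (five 6 431 432) (mv 591 (both (five 6 463 560) (five 5 495 623))))) (both (mv 495 (both (mv 462 (both (five 7 430 430) (mv 560 (both (five 4 463 592) (mv 591 (both (five 7 462 494) (mv 622 (both (five 6 494 590) (mv 623 (both (five 6 526 654) (five 5 527 655))))))))))) (both (mv 462 (both (five 7 430 430) (mv 461 (both (mv 496 (both (five 0 460 460) (five 0 461 497))) (both (mv 428 (both (five 3 428 429) (mv 460 (both (five 3 427 427) (mv 492 (both (five 2 459 491) (five 2 460 493))))))) (mv 429 (both (five 3 428 428) (mv 493 (both (five 2 460 492) (mv 496 (both (five 0 461 497) (mv 524 (both (five 2 492 494) (five 6 428 556)))))))))))))) (mv 560 (both (five 4 463 592) (mv 591 (both (five 5 463 496) (mv 622 (both (five 6 494 590) (mv 623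 (both (five 6 526 654) (five 5 527 655)))))))))))) (mv 495 (both (five 5 431 432) (mv 462 (both (five 7 430 430) (mv 560 (both (five 4 463 592) (mv 591 (both (five 7 462 494) (mv 622 (both (five 6 494 590) (mv 623 (both (five 6 526 654) (five 5 527 655))))))))))))))))) (both (mv 432 (both (mv 559 (both (five 5 431 495) (five 6 431 496))) (both (mv 496 (both (five 6 431 559) (mv 399 (both (five 7 399 431) (mv 400 (both (five 7 367 367) (mv 401 (both (five 5 368 369) (five 5 400 433))))))))) (both (mv 431 (both (mv 400 (both (five 5 399 495) (mv 368 (both (five 6 335 336) (mv 335 (both (five 7 335 367) (mv 369 (both (five 5 336 337) (mv 401 (both (five 5 368 496) (mv 402 (both (five 2 399 403) (mv 430 (both (five 1 397 429) (five 1 398 433))))))))))))))) (both (mv 399 (both (five 7 399 496) (mv 367 (both (five 4 335 335) (mv 334 (both (five 7 334 366) (mv 336 (both (five 5 335 368) (mv 462 (both (five 6 366 494) (mv 433 (both (five 2 430 434) (five 1 429 461))))))))))))) (both (mv 495 (both (five 5 399 400) (mv 398 (both (five 7 398 430) (mv 399 (both (five 7 366 366) (mv 367 (both (five 4 335 335) (mv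 462 (both (five 6 366 494) (mv 433 (both (five 2 430 434) (five 1 429 461))))))))))))) (mv 399 (both (five 7 399 496) (mv 400 (both (five 5 399 495) (mv 368 (both (five 6 335 336) (mv 369 (both (five 5 336 337) (mv 370 (both (five 2 367 371) (mv 398 (both (five 1 365 397) (five 1 366 401))))))))))))))))) (mv 495 (both (five 5 431 559) (mv 400 (both (five 6 367 368) (five 5 399 431))))))))) (mv 431 (both (mv 560 (both (five 4 431 495) (five 7 431 496))) (both (mv 496 (both (five 7 431 560) (mv 399 (both (five 4 367 367) (five 7 399 432))))) (both (mv 432 (both (mv 399 (both (five 7 399 496) (mv 367 (both (five 4 335 335) (mv 334 (both (five 7 334 366) (mv 336 (both (five 5 335 368) (mv 462 (both (five 6 366 494) (mv 433 (both (five 2 430 434) (five 1 429 461))))))))))))) (both (mv 400 (both (five 5 399 495) (mv 368 (both (five 6 335 336) (mv 335 (both (five 7 335 367) (mv 369 (both (five 5 336 337) (mv 401 (both (five 5 368 496) (mv 402 (both (five 2 399 403) (mv 430 (both (five 1 397 429) (five 1 398 433))))))))))))))) (both (mv 495 (both (five 5 399 400) (mv 398 (both (five 7 398 430) (mv 399 (both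 (five 7 366 366) (mv 367 (both (five 4 335 335) (mv 462 (both (five 6 366 494) (mv 433 (both (five 2 430 434) (five 1 429 461))))))))))))) (mv 399 (both (five 7 399 496) (mv 400 (both (five 5 399 495) (mv 368 (both (five 6 335 336) (mv 369 (both (five 5 336 337) (mv 370 (both (five 2 367 371) (mv 398 (both (five 1 365 397) (five 1 366 401))))))))))))))))) (mv 495 (both (five 4 431 560) (mv 398 (both (five 7 398 430) (mv 399 (both (five 7 366 366) (mv 400 (both (five 5 367 368) (five 5 399 432))))))))))))))))))) (both (mv 463 (both (mv 462 (both (mv 465 (both (mv 434 (both (five 1 430 433) (mv 466 (both (five 1 431 435) (mv 498 (both (five 0 462 497) (five 0 463 499))))))) (mv 429 (both (five 3 429 430) (mv 461 (both (five 3 428 428) (mv 493 (both (five 2 460 492) (five 2 461 494))))))))) (both (mv 461 (both (mv 493 (both (five 2 460 492) (mv 430 (both (five 5 429 557) (mv 398 (both (five 6 365 366) (five 6 397 494))))))) (mv 428 (both (five 3 428 429) (mv 432 (both (five 1 429 433) (mv 460 (both (five 3 427 427) (five 1 428 431))))))))) (both (mv 465 (both (mv 434 (both (five 1 430 433) (mv 466 (both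 (five 1 431 435) (mv 498 (both (five 0 462 497) (five 0 463 499))))))) (both (mv 430 (both (five 3 429 429) (mv 466 (both (five 3 430 431) (mv 498 (both (five 0 462 497) (five 0 463 499))))))) (both (mv 430 (both (five 3 429 429) (mv 434 (both (five 1 430 433) (mv 466 (both (five 3 430 431) (five 1 431 435))))))) (mv 430 (both (five 3 429 429) (mv 494 (both (five 2 461 493) (mv 398 (both (mv 365 (both (five 7 365 397) (mv 366 (both (five 7 333 333) (mv 367 (both (five 5 334 335) (five 5 366 399))))))) (both (mv 397 (both (five 7 365 365) (mv 433 (both (five 1 430 434) (mv 432 (both (five 3 397 431) (mv 400 (both (five 0 397 399) (mv 368 (both (five 4 336 336) (five 4 368 497))))))))))) (both (mv 365 (both (five 7 365 397) (mv 366 (both (five 7 333 333) (mv 334 (both (five 4 334 431) (mv 335 (both (five 5 302 303) (five 5 334 367))))))))) (mv 367 (both (five 5 366 399) (mv 366 (both (five 5 334 335) (mv 334 (both (five 4 334 431) (mv 333 (both (five 7 301 301) (mv 331 (both (five 0 331 332) (mv 368 (both (five 3 333 369) (mv 433 (both (five 1 430 434) (mv 497 (both (five 0 462 498) (mv 400 (both (five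 7 368 401) (five 4 368 432))))))))))))))))))))))))))))))) (both (mv 465 (both (mv 434 (both (five 1 430 433) (mv 466 (both (five 1 431 435) (mv 498 (both (five 0 462 497) (five 0 463 499))))))) (both (mv 430 (both (five 3 429 429) (mv 466 (both (five 3 430 431) (mv 498 (both (five 0 462 497) (five 0 463 499))))))) (mv 429 (both (five 3 429 430) (mv 433 (both (five 1 430 434) (mv 461 (both (five 3 428 428) (five 1 429 432)))))))))) (both (mv 461 (both (mv 428 (both (five 3 428 429) (mv 460 (both (five 3 427 427) (mv 492 (both (five 2 459 491) (five 2 460 493))))))) (both (mv 428 (both (five 3 428 429) (mv 432 (both (five 1 429 433) (mv 460 (both (five 3 427 427) (five 1 428 431))))))) (both (mv 432 (both (five 1 429 433) (mv 431 (both (five 1 428 460) (mv 493 (both (five 2 460 492) (mv 465 (both (five 2 461 494) (mv 466 (both (five 3 431 467) (mv 498 (both (five 0 462 497) (five 0 463 499))))))))))))) (mv 428 (both (five 3 428 429) (mv 432 (both (five 1 429 433) (mv 493 (both (five 2 460 492) (mv 465 (both (five 2 461 494) (mv 498 (both (five 0 462 497) (mv 466 (both (five 0 463 499) (mv 435 (both (five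 1 431 434) (mv 467 (both (five 3 431 431) (five 1 432 436))))))))))))))))))))) (both (mv 465 (both (mv 434 (both (five 1 430 433) (mv 466 (both (five 1 431 435) (mv 498 (both (five 0 462 497) (five 0 463 499))))))) (both (mv 493 (both (five 2 461 494) (mv 461 (both (five 2 460 492) (mv 430 (both (five 5 429 557) (mv 466 (both (five 3 430 431) (mv 498 (both (five 0 462 497) (five 0 463 499))))))))))) (mv 433 (both (five 1 430 434) (mv 461 (both (five 1 429 432) (mv 493 (both (five 2 460 492) (five 2 461 494)))))))))) (mv 465 (both (mv 493 (both (five 2 461 494) (mv 461 (both (five 2 460 492) (mv 428 (both (five 3 428 429) (mv 460 (both (five 3 427 427) (five 7 428 557))))))))) (both (mv 493 (both (five 2 461 494) (mv 461 (both (five 2 460 492) (mv 430 (both (five 5 429 557) (mv 466 (both (five 3 430 431) (mv 498 (both (five 0 462 497) (five 0 463 499))))))))))) (mv 430 (both (five 3 429 429) (mv 466 (both (five 3 430 431) (mv 498 (both (five 0 462 497) (five 0 463 499))))))))))))))))) (both (mv 465 (both (mv 462 (both (mv 434 (both (five 1 430 433) (mv 466 (both (five 1 431 435) (mv 498 (both (five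 0 462 497) (five 0 463 499))))))) (mv 429 (both (five 3 429 430) (mv 461 (both (five 3 428 428) (mv 493 (both (five 2 460 492) (five 2 461 494))))))))) (both (mv 495 (both (mv 559 (both (five 5 431 432) (mv 591 (both (mv 592 (both (five 4 463 560) (five 4 495 624))) (both (mv 622 (both (five 6 494 590) (mv 623 (both (five 6 526 654) (mv 655 (both (five 5 527 560) (mv 656 (both (five 4 527 624) (five 4 559 688))))))))) (both (mv 560 (both (five 4 463 592) (mv 622 (both (five 6 494 590) (mv 623 (both (five 6 526 654) (five 5 527 655))))))) (mv 622 (both (five 6 494 590) (mv 623 (both (five 6 526 654) (mv 624 (both (five 4 495 592) (five 4 527 656))))))))))))) (mv 466 (both (five 2 462 494) (mv 435 (both (five 1 431 434) (mv 467 (both (five 1 432 436) (mv 499 (both (five 0 463 498) (five 0 464 500))))))))))) (both (mv 462 (both (mv 429 (both (five 3 429 430) (mv 461 (both (five 3 428 428) (mv 493 (both (five 2 460 492) (five 2 461 494))))))) (both (mv 433 (both (five 1 430 434) (mv 461 (both (five 1 429 432) (mv 493 (both (five 2 460 492) (five 2 461 494))))))) (both (mv 429 (both (five 3 429 430) (mv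 433 (both (five 1 430 434) (mv 461 (both (five 3 428 428) (five 1 429 432))))))) (mv 430 (both (five 3 429 429) (mv 433 (both (five 1 430 434) (mv 494 (both (five 2 461 493) (mv 495 (both (five 4 398 398) (five 7 430 559))))))))))))) (both (mv 498 (both (mv 462 (both (five 0 462 497) (mv 429 (both (five 3 429 430) (mv 433 (both (five 1 430 434) (mv 461 (both (five 3 428 428) (five 1 429 432))))))))) (both (mv 466 (both (five 0 463 499) (mv 433 (both (mv 401 (both (five 4 369 369) (mv 530 (both (five 4 401 497) (five 7 433 562))))) (both (mv 435 (both (five 1 431 434) (mv 467 (both (five 1 432 436) (mv 371 (both (five 6 370 403) (mv 468 (both (five 3 432 432) (mv 469 (both (five 2 465 497) (mv 501 (both (five 0 465 500) (five 0 466 502))))))))))))) (mv 401 (both (five 4 369 369) (mv 434 (both (five 1 431 435) (five 7 401 530)))))))))) (both (mv 466 (both (five 0 463 499) (mv 434 (both (five 1 431 435) (mv 433 (both (five 1 430 462) (mv 401 (both (five 4 369 369) (five 7 401 530))))))))) (mv 497 (both (five 0 462 462) (mv 499 (both (five 0 463 466) (five 3 464 500))))))))) (mv 495 (both (mv 559 (both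 (five 5 431 432) (mv 591 (both (mv 592 (both (five 4 463 560) (five 4 495 624))) (both (mv 622 (both (five 6 494 590) (mv 623 (both (five 6 526 654) (mv 655 (both (five 5 527 560) (mv 656 (both (five 4 527 624) (five 4 559 688))))))))) (both (mv 560 (both (five 4 463 592) (mv 622 (both (five 6 494 590) (mv 623 (both (five 6 526 654) (five 5 527 655))))))) (mv 622 (both (five 6 494 590) (mv 623 (both (five 6 526 654) (mv 624 (both (five 4 495 592) (five 4 527 656))))))))))))) (mv 494 (both (five 2 462 466) (mv 493 (both (five 2 461 462) (five 1 460 492)))))))))))) (both (mv 462 (both (mv 495 (both (mv 560 (both (five 4 431 431) (mv 592 (both (five 4 463 559) (five 7 495 624))))) (both (mv 431 (both (five 4 431 560) (mv 398 (both (five 7 398 430) (mv 399 (both (five 7 366 366) (mv 367 (both (five 6 366 494) (mv 368 (both (five 5 335 336) (five 5 367 400))))))))))) (mv 430 (both (five 7 430 559) (mv 398 (both (five 4 366 366) (five 4 398 494)))))))) (both (mv 465 (both (mv 434 (both (five 1 430 433) (mv 466 (both (five 1 431 435) (mv 498 (both (five 0 462 497) (five 0 463 499))))))) (mv 493 (both (five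 2 461 494) (mv 461 (both (five 2 460 492) (mv 428 (both (five 3 428 429) (mv 460 (both (five 3 427 427) (five 7 428 557))))))))))) (mv 430 (both (mv 495 (both (five 7 430 559) (mv 398 (both (five 4 366 366) (five 7 398 431))))) (mv 429 (both (five 3 429 465) (mv 428 (both (five 0 427 427) (five 3 428 461)))))))))) (both (mv 495 (both (mv 560 (both (five 4 431 431) (mv 592 (both (five 4 463 559) (five 7 495 624))))) (both (mv 432 (both (five 5 431 559) (mv 400 (both (five 6 367 368) (five 5 399 431))))) (both (mv 559 (both (five 5 431 432) (mv 591 (both (mv 592 (both (five 4 463 560) (five 4 495 624))) (both (mv 622 (both (five 6 494 590) (mv 623 (both (five 6 526 654) (mv 655 (both (five 5 527 560) (mv 656 (both (five 4 527 624) (five 4 559 688))))))))) (both (mv 560 (both (five 4 463 592) (mv 622 (both (five 6 494 590) (mv 623 (both (five 6 526 654) (five 5 527 655))))))) (mv 622 (both (five 6 494 590) (mv 623 (both (five 6 526 654) (mv 624 (both (five 4 495 592) (five 4 527 656))))))))))))) (mv 431 (both (five 4 431 560) (mv 399 (both (mv 400 (both (five 5 367 368) (five 5 399 432))) (both (mv 366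 (both (five 7 366 398) (mv 367 (both (five 7 334 334) (mv 335 (both (five 4 335 432) (mv 336 (both (five 5 303 304) (five 5 335 368))))))))) (both (mv 366 (both (five 7 366 398) (mv 367 (both (five 7 334 334) (mv 368 (both (five 5 335 336) (five 5 367 400))))))) (mv 366 (both (five 7 366 398) (mv 367 (both (five 7 334 334) (mv 432 (both (five 4 335 335) (five 5 399 400))))))))))))))))) (mv 462 (both (mv 465 (both (mv 434 (both (five 1 430 433) (mv 466 (both (five 1 431 435) (mv 498 (both (five 0 462 497) (five 0 463 499))))))) (both (mv 430 (both (five 3 429 429) (mv 466 (both (five 3 430 431) (mv 498 (both (five 0 462 497) (five 0 463 499))))))) (mv 429 (both (five 3 429 430) (mv 433 (both (five 1 430 434) (mv 461 (both (five 3 428 428) (five 1 429 432)))))))))) (both (mv 495 (both (mv 431 (both (five 4 431 560) (mv 400 (both (five 5 399 432) (mv 399 (both (five 5 367 368) (mv 367 (both (five 6 366 494) (mv 334 (both (five 7 334 366) (mv 335 (both (five 7 302 302) (five 6 334 430))))))))))))) (both (mv 560 (both (five 4 431 431) (mv 592 (both (five 4 463 559) (five 7 495 624))))) (both (mv 559 (both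 (five 5 431 432) (mv 591 (both (mv 592 (both (five 4 463 560) (five 4 495 624))) (both (mv 622 (both (five 6 494 590) (mv 623 (both (five 6 526 654) (mv 655 (both (five 5 527 560) (mv 656 (both (five 4 527 624) (five 4 559 688))))))))) (both (mv 560 (both (five 4 463 592) (mv 622 (both (five 6 494 590) (mv 623 (both (five 6 526 654) (five 5 527 655))))))) (mv 622 (both (five 6 494 590) (mv 623 (both (five 6 526 654) (mv 624 (both (five 4 495 592) (five 4 527 656))))))))))))) (mv 432 (both (five 5 431 559) (mv 400 (both (five 6 367 368) (five 5 399 431))))))))) (mv 465 (both (mv 434 (both (five 1 430 433) (mv 466 (both (five 1 431 435) (mv 498 (both (five 0 462 497) (five 0 463 499))))))) (mv 493 (both (five 2 461 494) (mv 461 (both (five 2 460 492) (mv 428 (both (five 3 428 429) (mv 460 (both (five 3 427 427) (five 7 428 557))))))))))))))))))) (both (mv 463 (both (mv 462 (both (mv 461 (both (mv 496 (both (five 0 461 497) (mv 560 (both (five 7 431 431) (mv 591 (both (five 6 463 559) (mv 592 (both (five 6 495 623) (mv 593 (both (five 4 464 561) (five 4 496 625))))))))))) (mv 428 (both (five 3 428 429)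 (mv 427 (both (five 3 427 460) (mv 493 (both (five 2 460 492) (mv 430 (both (five 5 429 557) (mv 398 (both (five 6 365 366) (five 6 397 494))))))))))))) (both (mv 495 (both (mv 560 (both (five 4 431 431) (mv 592 (both (five 4 463 559) (five 7 495 624))))) (both (mv 431 (both (five 4 431 560) (mv 398 (both (five 7 398 430) (mv 399 (both (five 7 366 366) (mv 367 (both (five 6 366 494) (mv 368 (both (five 5 335 336) (five 5 367 400))))))))))) (mv 430 (both (five 7 430 559) (mv 398 (both (five 4 366 366) (five 4 398 494)))))))) (both (mv 461 (both (mv 493 (both (five 2 460 492) (mv 430 (both (five 5 429 557) (mv 398 (both (five 6 365 366) (five 6 397 494))))))) (mv 428 (both (five 3 428 429) (mv 460 (both (five 3 427 427) (mv 496 (both (five 0 460 495) (five 0 461 497))))))))) (mv 496 (both (mv 560 (both (five 7 431 431) (mv 591 (both (five 6 463 559) (mv 592 (both (five 6 495 623) (mv 593 (both (five 4 464 561) (five 4 496 625))))))))) (mv 461 (both (five 0 461 497) (mv 428 (both (five 3 428 429) (mv 460 (both (five 3 427 427) (five 0 460 495))))))))))))) (both (mv 462 (both (mv 495 (both (mv 560 (both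 (five 4 431 431) (mv 592 (both (five 4 463 559) (five 7 495 624))))) (both (mv 431 (both (five 4 431 560) (mv 398 (both (five 7 398 430) (mv 399 (both (five 7 366 366) (mv 367 (both (five 6 366 494) (mv 368 (both (five 5 335 336) (five 5 367 400))))))))))) (mv 430 (both (five 7 430 559) (mv 398 (both (five 4 366 366) (five 4 398 494)))))))) (both (mv 465 (both (mv 434 (both (five 1 430 433) (mv 466 (both (five 1 431 435) (mv 498 (both (five 0 462 497) (five 0 463 499))))))) (mv 493 (both (five 2 461 494) (mv 461 (both (five 2 460 492) (mv 428 (both (five 3 428 429) (mv 460 (both (five 3 427 427) (five 7 428 557))))))))))) (mv 430 (both (mv 495 (both (five 7 430 559) (mv 398 (both (five 4 366 366) (five 7 398 431))))) (mv 429 (both (five 3 429 465) (mv 428 (both (five 0 427 427) (five 3 428 461)))))))))) (both (mv 462 (both (mv 461 (both (mv 496 (both (five 0 461 497) (mv 560 (both (five 7 431 431) (mv 591 (both (five 6 463 559) (mv 592 (both (five 6 495 623) (mv 593 (both (five 4 464 561) (five 4 496 625))))))))))) (mv 428 (both (five 3 428 429) (mv 427 (both (five 3 427 460) (mv 493 (both (five 2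 460 492) (mv 430 (both (five 5 429 557) (mv 398 (both (five 6 365 366) (five 6 397 494))))))))))))) (both (mv 465 (both (mv 434 (both (five 1 430 433) (mv 466 (both (five 1 431 435) (mv 498 (both (five 0 462 497) (five 0 463 499))))))) (both (mv 430 (both (five 3 429 429) (mv 466 (both (five 3 430 431) (mv 498 (both (five 0 462 497) (five 0 463 499))))))) (both (mv 430 (both (five 3 429 429) (mv 434 (both (five 1 430 433) (mv 466 (both (five 3 430 431) (five 1 431 435))))))) (mv 429 (both (five 3 429 430) (mv 433 (both (five 1 430 434) (mv 493 (both (five 2 461 494) (mv 496 (both (five 5 432 560) (mv 401 (both (five 6 368 369) (five 6 400 497))))))))))))))) (both (mv 465 (both (mv 434 (both (five 1 430 433) (mv 466 (both (five 1 431 435) (mv 498 (both (five 0 462 497) (five 0 463 499))))))) (both (mv 430 (both (five 3 429 429) (mv 434 (both (five 1 430 433) (mv 466 (both (five 3 430 431) (five 1 431 435))))))) (both (mv 430 (both (five 3 429 429) (mv 466 (both (five 3 430 431) (mv 498 (both (five 0 462 497) (five 0 463 499))))))) (mv 429 (both (five 3 429 430) (mv 428 (both (five 3 428 461) (mv 433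 (both (five 1 430 434) (mv 496 (both (five 5 432 560) (mv 401 (both (five 6 368 369) (five 6 400 497))))))))))))))) (both (mv 465 (both (mv 434 (both (five 1 430 433) (mv 466 (both (five 1 431 435) (mv 498 (both (five 0 462 497) (five 0 463 499))))))) (both (mv 433 (both (five 1 430 434) (mv 493 (both (five 2 461 494) (mv 461 (both (five 2 460 492) (mv 557 (both (five 5 429 430) (mv 560 (both (five 5 432 496) (mv 588 (both (five 6 460 556) (mv 589 (both (five 6 492 620) (mv 590 (both (five 4 493 622) (mv 591 (both (five 1 556 559) (mv 592 (both (five 1 557 561) (mv 624 (both (five 0 588 623) (five 0 589 625))))))))))))))))))))))) (mv 493 (both (five 2 461 494) (mv 461 (both (five 2 460 492) (mv 430 (both (five 5 429 557) (mv 466 (both (five 3 430 431) (mv 498 (both (five 0 462 497) (five 0 463 499)))))))))))))) (both (mv 465 (both (mv 434 (both (five 1 430 433) (mv 466 (both (five 1 431 435) (mv 498 (both (five 0 462 497) (five 0 463 499))))))) (mv 493 (both (five 2 461 494) (mv 461 (both (five 2 460 492) (mv 428 (both (five 3 428 429) (mv 460 (both (five 3 427 427) (five 7 428 557))))))))))) (mv 465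 (both (mv 430 (both (five 3 429 429) (mv 434 (both (five 1 430 433) (mv 466 (both (five 3 430 431) (five 1 431 435))))))) (both (mv 493 (both (five 2 461 494) (mv 461 (both (five 2 460 492) (mv 428 (both (five 3 428 429) (mv 460 (both (five 3 427 427) (five 7 428 557))))))))) (mv 433 (both (five 1 430 434) (mv 493 (both (five 2 461 494) (mv 461 (both (five 2 460 492) (mv 557 (both (five 5 429 430) (mv 560 (both (five 5 432 496) (mv 588 (both (five 6 460 556) (mv 589 (both (five 6 492 620) (mv 590 (both (five 4 493 622) (mv 591 (both (five 1 556 559) (mv 592 (both (five 1 557 561) (mv 624 (both (five 0 588 623) (five 0 589 625)))))))))))))))))))))))))))))))) (both (mv 462 (both (mv 430 (both (mv 495 (both (five 7 430 559) (mv 398 (both (five 4 366 366) (five 7 398 431))))) (mv 429 (both (five 3 429 465) (mv 428 (both (five 0 427 427) (five 3 428 461))))))) (both (mv 461 (both (mv 493 (both (five 2 460 492) (mv 430 (both (five 5 429 557) (mv 398 (both (five 6 365 366) (five 6 397 494))))))) (mv 428 (both (five 3 428 429) (mv 460 (both (five 3 427 427) (mv 496 (both (five 0 460 495) (five 0 461 497)))))))))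 (both (mv 465 (both (mv 434 (both (five 1 430 433) (mv 466 (both (five 1 431 435) (mv 498 (both (five 0 462 497) (five 0 463 499))))))) (both (mv 430 (both (five 3 429 429) (mv 466 (both (five 3 430 431) (mv 498 (both (five 0 462 497) (five 0 463 499))))))) (mv 430 (both (five 3 429 429) (mv 433 (both (five 1 430 434) (mv 494 (both (five 2 461 493) (mv 495 (both (five 4 398 398) (five 7 430 559)))))))))))) (both (mv 465 (both (mv 434 (both (five 1 430 433) (mv 466 (both (five 1 431 435) (mv 498 (both (five 0 462 497) (five 0 463 499))))))) (mv 493 (both (five 2 461 494) (mv 461 (both (five 2 460 492) (mv 428 (both (five 3 428 429) (mv 460 (both (five 3 427 427) (five 7 428 557))))))))))) (mv 465 (both (mv 434 (both (five 1 430 433) (mv 466 (both (five 1 431 435) (mv 498 (both (five 0 462 497) (five 0 463 499))))))) (both (mv 433 (both (five 1 430 434) (mv 493 (both (five 2 461 494) (mv 461 (both (five 2 460 492) (mv 430 (both (five 5 429 557) (mv 495 (both (five 7 430 559) (mv 398 (both (five 4 366 366) (five 7 398 431))))))))))))) (mv 493 (both (five 2 461 494) (mv 461 (both (five 2 460 492) (mv 430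 (both (five 5 429 557) (mv 466 (both (five 3 430 431) (mv 498 (both (five 0 462 497) (five 0 463 499))))))))))))))))))) (both (mv 462 (both (mv 465 (both (mv 434 (both (five 1 430 433) (mv 466 (both (five 1 431 435) (mv 498 (both (five 0 462 497) (five 0 463 499))))))) (mv 429 (both (five 3 429 430) (mv 461 (both (five 3 428 428) (mv 493 (both (five 2 460 492) (five 2 461 494))))))))) (both (mv 465 (both (mv 434 (both (five 1 430 433) (mv 466 (both (five 1 431 435) (mv 498 (both (five 0 462 497) (five 0 463 499))))))) (both (mv 429 (both (five 3 429 430) (mv 428 (both (five 3 428 461) (mv 434 (both (five 1 430 433) (mv 466 (both (five 1 431 435) (mv 495 (both (five 2 462 494) (mv 467 (both (five 2 463 496) (mv 499 (both (five 0 463 498) (five 0 464 500))))))))))))))) (both (mv 433 (both (five 1 430 434) (mv 496 (both (five 5 432 560) (mv 401 (both (five 6 368 369) (five 6 400 497))))))) (both (mv 429 (both (five 3 429 430) (mv 428 (both (five 3 428 461) (mv 498 (both (five 0 462 497) (mv 466 (both (five 0 463 499) (mv 435 (both (five 1 431 434) (mv 467 (both (five 1 432 436) (mv 495 (both (five 2 462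 494) (five 2 463 496))))))))))))))) (mv 429 (both (five 3 429 430) (mv 428 (both (five 3 428 461) (mv 498 (both (five 0 462 497) (mv 466 (both (five 0 463 499) (mv 495 (both (five 2 462 494) (mv 496 (both (five 2 463 467) (mv 560 (both (five 5 432 433) (five 7 463 592)))))))))))))))))))) (both (mv 461 (both (mv 428 (both (five 3 428 429) (mv 460 (both (five 3 427 427) (mv 496 (both (five 0 460 495) (five 0 461 497))))))) (both (mv 428 (both (five 3 428 429) (mv 460 (both (five 3 427 427) (mv 492 (both (five 2 459 491) (five 2 460 493))))))) (both (mv 492 (both (five 2 460 493) (mv 460 (both (five 2 459 491) (mv 496 (both (five 0 460 495) (five 0 461 497))))))) (mv 428 (both (five 3 428 429) (mv 493 (both (five 2 460 492) (mv 430 (both (five 5 429 557) (mv 366 (both (five 6 365 398) (mv 496 (both (five 0 461 497) (mv 559 (both (five 7 430 495) (mv 591 (both (five 6 463 560) (five 5 495 623))))))))))))))))))) (both (mv 465 (both (mv 429 (both (five 3 429 430) (mv 461 (both (five 3 428 428) (mv 493 (both (five 2 460 492) (five 2 461 494))))))) (both (mv 434 (both (five 1 430 433) (mv 466 (both (five 1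 431 435) (mv 495 (both (five 2 462 494) (mv 467 (both (five 2 463 496) (mv 499 (both (five 0 463 498) (five 0 464 500))))))))))) (mv 429 (both (five 3 429 430) (mv 433 (both (five 1 430 434) (mv 461 (both (five 3 428 428) (mv 492 (both (five 2 460 493) (mv 460 (both (five 2 459 491) (mv 496 (both (five 0 460 495) (five 5 432 560)))))))))))))))) (mv 465 (both (mv 434 (both (five 1 430 433) (mv 466 (both (five 1 431 435) (mv 495 (both (five 2 462 494) (mv 467 (both (five 2 463 496) (mv 499 (both (five 0 463 498) (five 0 464 500))))))))))) (both (mv 433 (both (five 1 430 434) (mv 496 (both (five 5 432 560) (mv 401 (both (five 6 368 369) (five 6 400 497))))))) (mv 494 (both (five 2 461 493) (mv 466 (both (five 2 462 495) (mv 498 (both (five 0 462 497) (five 0 463 499))))))))))))))) (both (mv 560 (both (mv 431 (both (five 4 431 495) (five 7 431 496))) (both (mv 495 (both (five 4 431 431) (mv 592 (both (five 4 463 559) (five 7 495 624))))) (both (mv 496 (both (mv 591 (both (five 6 463 559) (mv 592 (both (five 6 495 623) (mv 593 (both (five 4 464 561) (five 4 496 625))))))) (both (mv 465 (both (five 5 432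 433) (mv 559 (both (five 6 463 591) (mv 561 (both (five 4 464 593) (mv 562 (both (five 3 527 563) (mv 530 (both (five 1 527 531) (mv 594 (both (five 0 559 595) (mv 498 (both (five 7 465 497) (mv 499 (both (five 0 463 466) (five 5 466 467))))))))))))))))) (both (mv 433 (both (five 5 432 465) (mv 592 (both (five 7 463 495) (mv 593 (both (five 4 464 561) (five 4 496 625))))))) (mv 433 (both (five 5 432 465) (mv 591 (both (five 6 463 559) (mv 592 (both (five 7 463 495) (five 6 495 623))))))))))) (mv 496 (both (five 7 431 431) (mv 591 (both (five 6 463 559) (mv 592 (both (five 6 495 623) (mv 593 (both (five 4 464 561) (five 4 496 625))))))))))))) (both (mv 465 (both (mv 462 (both (mv 434 (both (five 1 430 433) (mv 466 (both (five 1 431 435) (mv 498 (both (five 0 462 497) (five 0 463 499))))))) (mv 429 (both (five 3 429 430) (mv 461 (both (five 3 428 428) (mv 493 (both (five 2 460 492) (five 2 461 494))))))))) (both (mv 466 (both (mv 435 (both (five 1 431 434) (mv 467 (both (five 1 432 436) (mv 499 (both (five 0 463 498) (five 0 464 500))))))) (mv 431 (both (five 3 430 430) (mv 560 (both (five 4 431 495)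 (five 7 431 496))))))) (both (mv 462 (both (mv 429 (both (five 3 429 430) (mv 461 (both (five 3 428 428) (mv 493 (both (five 2 460 492) (five 2 461 494))))))) (mv 433 (both (five 1 430 434) (mv 496 (both (five 5 432 560) (mv 401 (both (five 6 368 369) (five 6 400 497))))))))) (mv 560 (both (mv 495 (both (five 4 431 431) (mv 494 (both (five 2 462 466) (mv 493 (both (five 2 461 462) (five 1 460 492))))))) (both (mv 496 (both (five 5 432 433) (mv 592 (both (five 7 463 495) (mv 593 (both (five 4 464 561) (five 4 496 625))))))) (mv 496 (both (five 7 431 431) (five 5 432 433)))))))))) (mv 465 (both (mv 462 (both (mv 430 (both (five 3 429 429) (mv 434 (both (five 1 430 433) (mv 466 (both (five 3 430 431) (five 1 431 435))))))) (both (mv 493 (both (five 2 461 494) (mv 461 (both (five 2 460 492) (mv 428 (both (five 3 428 429) (mv 460 (both (five 3 427 427) (five 7 428 557))))))))) (mv 433 (both (five 1 430 434) (mv 493 (both (five 2 461 494) (mv 461 (both (five 2 460 492) (mv 557 (both (five 5 429 430) (mv 560 (both (five 5 432 496) (mv 588 (both (five 6 460 556) (mv 589 (both (five 6 492 620) (mv 590 (both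 (five 4 493 622) (mv 591 (both (five 1 556 559) (mv 592 (both (five 1 557 561) (mv 624 (both (five 0 588 623) (five 0 589 625)))))))))))))))))))))))))) (both (mv 560 (both (mv 495 (both (five 4 431 431) (mv 592 (both (five 4 463 559) (five 7 495 624))))) (both (mv 496 (both (five 5 432 433) (mv 592 (both (five 7 463 495) (mv 593 (both (five 4 464 561) (five 4 496 625))))))) (mv 496 (both (five 7 431 431) (five 5 432 433)))))) (both (mv 466 (both (mv 435 (both (five 1 431 434) (mv 467 (both (five 1 432 436) (mv 499 (both (five 0 463 498) (five 0 464 500))))))) (mv 430 (both (five 3 430 431) (mv 462 (both (five 3 429 429) (mv 494 (both (five 2 461 493) (mv 495 (both (five 4 398 398) (five 7 430 559))))))))))) (mv 462 (both (mv 429 (both (five 3 429 430) (mv 461 (both (five 3 428 428) (mv 493 (both (five 2 460 492) (five 2 461 494))))))) (both (mv 434 (both (five 1 430 433) (mv 466 (both (five 1 431 435) (mv 495 (both (five 2 462 494) (mv 467 (both (five 2 463 496) (mv 499 (both (five 0 463 498) (five 0 464 500))))))))))) (mv 429 (both (five 3 429 430) (mv 433 (both (five 1 430 434) (mv 461 (both (five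 3 428 428) (mv 492 (both (five 2 460 493) (mv 460 (both (five 2 459 491) (mv 496 (both (five 0 460 495) (five 5 432 560)))))))))))))))))))))))))))) (both (mv 463 (both (mv 431 (both (mv 560 (both (five 4 431 495) (five 7 431 496))) (both (mv 496 (both (five 7 431 560) (mv 399 (both (five 4 367 367) (five 7 399 432))))) (both (mv 432 (both (mv 399 (both (five 7 399 496) (mv 367 (both (five 4 335 335) (mv 334 (both (five 7 334 366) (mv 336 (both (five 5 335 368) (mv 462 (both (five 6 366 494) (mv 433 (both (five 2 430 434) (five 1 429 461))))))))))))) (both (mv 400 (both (five 5 399 495) (mv 368 (both (five 6 335 336) (mv 335 (both (five 7 335 367) (mv 369 (both (five 5 336 337) (mv 401 (both (five 5 368 496) (mv 402 (both (five 2 399 403) (mv 430 (both (five 1 397 429) (five 1 398 433))))))))))))))) (both (mv 495 (both (five 5 399 400) (mv 398 (both (five 7 398 430) (mv 399 (both (five 7 366 366) (mv 367 (both (five 4 335 335) (mv 462 (both (five 6 366 494) (mv 433 (both (five 2 430 434) (five 1 429 461))))))))))))) (mv 399 (both (five 7 399 496) (mv 400 (both (five 5 399 495) (mv 368 (both (five 6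 335 336) (mv 369 (both (five 5 336 337) (mv 370 (both (five 2 367 371) (mv 398 (both (five 1 365 397) (five 1 366 401))))))))))))))))) (mv 495 (both (five 4 431 560) (mv 398 (both (five 7 398 430) (mv 399 (both (five 7 366 366) (mv 400 (both (five 5 367 368) (five 5 399 432))))))))))))) (both (mv 462 (both (mv 461 (both (mv 493 (both (five 2 460 492) (mv 430 (both (five 5 429 557) (mv 398 (both (five 6 365 366) (five 6 397 494))))))) (mv 428 (both (five 3 428 429) (mv 460 (both (five 3 427 427) (mv 496 (both (five 0 460 495) (five 0 461 497))))))))) (both (mv 465 (both (mv 434 (both (five 1 430 433) (mv 466 (both (five 1 431 435) (mv 495 (both (five 2 462 494) (mv 467 (both (five 2 463 496) (mv 499 (both (five 0 463 498) (five 0 464 500))))))))))) (both (mv 433 (both (five 1 430 434) (mv 496 (both (five 5 432 560) (mv 401 (both (five 6 368 369) (five 6 400 497))))))) (mv 494 (both (five 2 461 493) (mv 466 (both (five 2 462 495) (mv 498 (both (five 0 462 497) (five 0 463 499)))))))))) (both (mv 465 (both (mv 434 (both (five 1 430 433) (mv 466 (both (five 1 431 435) (mv 498 (both (five 0 462 497) (five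 0 463 499))))))) (both (mv 429 (both (five 3 429 430) (mv 428 (both (five 3 428 461) (mv 434 (both (five 1 430 433) (mv 466 (both (five 1 431 435) (mv 495 (both (five 2 462 494) (mv 467 (both (five 2 463 496) (mv 499 (both (five 0 463 498) (five 0 464 500))))))))))))))) (both (mv 433 (both (five 1 430 434) (mv 496 (both (five 5 432 560) (mv 401 (both (five 6 368 369) (five 6 400 497))))))) (both (mv 429 (both (five 3 429 430) (mv 428 (both (five 3 428 461) (mv 498 (both (five 0 462 497) (mv 466 (both (five 0 463 499) (mv 435 (both (five 1 431 434) (mv 467 (both (five 1 432 436) (mv 495 (both (five 2 462 494) (five 2 463 496))))))))))))))) (mv 429 (both (five 3 429 430) (mv 428 (both (five 3 428 461) (mv 498 (both (five 0 462 497) (mv 466 (both (five 0 463 499) (mv 495 (both (five 2 462 494) (mv 496 (both (five 2 463 467) (mv 560 (both (five 5 432 433) (five 7 463 592)))))))))))))))))))) (both (mv 465 (both (mv 434 (both (five 1 430 433) (mv 466 (both (five 1 431 435) (mv 498 (both (five 0 462 497) (five 0 463 499))))))) (mv 429 (both (five 3 429 430) (mv 461 (both (five 3 428 428) (mv 493 (both (five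 2 460 492) (five 2 461 494))))))))) (both (mv 461 (both (mv 428 (both (five 3 428 429) (mv 460 (both (five 3 427 427) (mv 496 (both (five 0 460 495) (five 0 461 497))))))) (both (mv 428 (both (five 3 428 429) (mv 460 (both (five 3 427 427) (mv 492 (both (five 2 459 491) (five 2 460 493))))))) (both (mv 492 (both (five 2 460 493) (mv 460 (both (five 2 459 491) (mv 496 (both (five 0 460 495) (five 0 461 497))))))) (mv 428 (both (five 3 428 429) (mv 432 (both (five 1 429 433) (mv 492 (both (five 2 460 493) (mv 496 (both (five 0 461 497) (mv 400 (both (five 6 399 495) (mv 367 (both (five 7 367 399) (mv 368 (both (five 7 335 335) (mv 369 (both (five 5 336 337) (five 5 368 401))))))))))))))))))))) (mv 465 (both (mv 429 (both (five 3 429 430) (mv 461 (both (five 3 428 428) (mv 493 (both (five 2 460 492) (five 2 461 494))))))) (both (mv 434 (both (five 1 430 433) (mv 466 (both (five 1 431 435) (mv 495 (both (five 2 462 494) (mv 467 (both (five 2 463 496) (mv 499 (both (five 0 463 498) (five 0 464 500))))))))))) (mv 429 (both (five 3 429 430) (mv 433 (both (five 1 430 434) (mv 461 (both (five 3 428 428) (mv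 492 (both (five 2 460 493) (mv 460 (both (five 2 459 491) (mv 496 (both (five 0 460 495) (five 5 432 560)))))))))))))))))))))) (both (mv 462 (both (mv 465 (both (mv 434 (both (five 1 430 433) (mv 466 (both (five 1 431 435) (mv 498 (both (five 0 462 497) (five 0 463 499))))))) (both (mv 430 (both (five 3 429 429) (mv 466 (both (five 3 430 431) (mv 498 (both (five 0 462 497) (five 0 463 499))))))) (mv 429 (both (five 3 429 430) (mv 433 (both (five 1 430 434) (mv 461 (both (five 3 428 428) (five 1 429 432)))))))))) (both (mv 461 (both (mv 493 (both (five 2 460 492) (mv 430 (both (five 5 429 557) (mv 398 (both (five 6 365 366) (five 6 397 494))))))) (mv 428 (both (five 3 428 429) (mv 432 (both (five 1 429 433) (mv 460 (both (five 3 427 427) (five 1 428 431))))))))) (both (mv 465 (both (mv 434 (both (five 1 430 433) (mv 466 (both (five 1 431 435) (mv 498 (both (five 0 462 497) (five 0 463 499))))))) (both (mv 430 (both (five 3 429 429) (mv 466 (both (five 3 430 431) (mv 498 (both (five 0 462 497) (five 0 463 499))))))) (mv 430 (both (five 3 429 429) (mv 433 (both (five 1 430 434) (mv 494 (both (five 2 461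 493) (mv 398 (both (five 4 398 495) (mv 365 (both (five 7 365 397) (mv 366 (both (five 7 333 333) (mv 367 (both (five 5 334 335) (five 5 366 399)))))))))))))))))) (both (mv 465 (both (mv 434 (both (five 1 430 433) (mv 466 (both (five 1 431 435) (mv 498 (both (five 0 462 497) (five 0 463 499))))))) (mv 493 (both (five 2 461 494) (mv 461 (both (five 2 460 492) (mv 428 (both (five 3 428 429) (mv 460 (both (five 3 427 427) (five 7 428 557))))))))))) (both (mv 465 (both (mv 434 (both (five 1 430 433) (mv 466 (both (five 1 431 435) (mv 498 (both (five 0 462 497) (five 0 463 499))))))) (both (mv 493 (both (five 2 461 494) (mv 461 (both (five 2 460 492) (mv 430 (both (five 5 429 557) (mv 466 (both (five 3 430 431) (mv 498 (both (five 0 462 497) (five 0 463 499))))))))))) (mv 433 (both (five 1 430 434) (mv 461 (both (five 1 429 432) (mv 493 (both (five 2 460 492) (five 2 461 494)))))))))) (mv 465 (both (mv 493 (both (five 2 461 494) (mv 461 (both (five 2 460 492) (mv 428 (both (five 3 428 429) (mv 460 (both (five 3 427 427) (five 7 428 557))))))))) (both (mv 493 (both (five 2 461 494) (mv 461 (both (five 2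 460 492) (mv 430 (both (five 5 429 557) (mv 466 (both (five 3 430 431) (mv 498 (both (five 0 462 497) (five 0 463 499))))))))))) (mv 430 (both (five 3 429 429) (mv 466 (both (five 3 430 431) (mv 498 (both (five 0 462 497) (five 0 463 499)))))))))))))))) (both (mv 462 (both (mv 465 (both (mv 434 (both (five 1 430 433) (mv 466 (both (five 1 431 435) (mv 498 (both (five 0 462 497) (five 0 463 499))))))) (both (mv 430 (both (five 3 429 429) (mv 466 (both (five 3 430 431) (mv 498 (both (five 0 462 497) (five 0 463 499))))))) (mv 429 (both (five 3 429 430) (mv 433 (both (five 1 430 434) (mv 461 (both (five 3 428 428) (five 1 429 432)))))))))) (both (mv 465 (both (mv 434 (both (five 1 430 433) (mv 466 (both (five 1 431 435) (mv 498 (both (five 0 462 497) (five 0 463 499))))))) (both (mv 430 (both (five 3 429 429) (mv 466 (both (five 3 430 431) (mv 498 (both (five 0 462 497) (five 0 463 499))))))) (both (mv 430 (both (five 3 429 429) (mv 434 (both (five 1 430 433) (mv 466 (both (five 3 430 431) (five 1 431 435))))))) (mv 429 (both (five 3 429 430) (mv 433 (both (five 1 430 434) (mv 493 (both (five 2 461 494)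 (mv 496 (both (five 5 432 560) (mv 401 (both (five 6 368 369) (five 6 400 497))))))))))))))) (both (mv 461 (both (mv 493 (both (five 2 460 492) (mv 430 (both (five 5 429 557) (mv 398 (both (five 6 365 366) (five 6 397 494))))))) (mv 428 (both (five 3 428 429) (mv 432 (both (five 1 429 433) (mv 460 (both (five 3 427 427) (five 1 428 431))))))))) (both (mv 465 (both (mv 493 (both (five 2 461 494) (mv 461 (both (five 2 460 492) (mv 428 (both (five 3 428 429) (mv 460 (both (five 3 427 427) (five 7 428 557))))))))) (both (mv 493 (both (five 2 461 494) (mv 461 (both (five 2 460 492) (mv 430 (both (five 5 429 557) (mv 466 (both (five 3 430 431) (mv 498 (both (five 0 462 497) (five 0 463 499))))))))))) (mv 430 (both (five 3 429 429) (mv 466 (both (five 3 430 431) (mv 498 (both (five 0 462 497) (five 0 463 499)))))))))) (both (mv 465 (both (mv 434 (both (five 1 430 433) (mv 466 (both (five 1 431 435) (mv 498 (both (five 0 462 497) (five 0 463 499))))))) (mv 493 (both (five 2 461 494) (mv 461 (both (five 2 460 492) (mv 428 (both (five 3 428 429) (mv 460 (both (five 3 427 427) (five 7 428 557))))))))))) (mv 465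 (both (mv 434 (both (five 1 430 433) (mv 466 (both (five 1 431 435) (mv 498 (both (five 0 462 497) (five 0 463 499))))))) (both (mv 493 (both (five 2 461 494) (mv 461 (both (five 2 460 492) (mv 430 (both (five 5 429 557) (mv 466 (both (five 3 430 431) (mv 498 (both (five 0 462 497) (five 0 463 499))))))))))) (mv 433 (both (five 1 430 434) (mv 461 (both (five 1 429 432) (mv 493 (both (five 2 460 492) (five 2 461 494)))))))))))))))) (both (mv 431 (both (mv 560 (both (five 4 431 495) (five 7 431 496))) (both (mv 432 (both (mv 399 (both (five 7 399 496) (mv 400 (both (five 5 399 495) (mv 368 (both (five 6 335 336) (mv 369 (both (five 5 336 337) (mv 370 (both (five 2 367 371) (mv 398 (both (five 1 365 397) (five 1 366 401))))))))))))) (both (mv 399 (both (five 7 399 496) (mv 367 (both (five 4 335 335) (mv 336 (both (five 5 335 368) (mv 366 (both (five 7 334 334) (mv 398 (both (five 7 366 495) (mv 397 (both (five 0 396 396) (mv 433 (both (five 3 397 430) (five 3 398 434))))))))))))))) (both (mv 496 (both (five 7 399 399) (mv 401 (both (five 5 400 433) (mv 400 (both (five 5 368 369) (mv 368 (both (five 6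 335 336) (mv 335 (both (five 7 335 367) (mv 402 (both (five 2 399 403) (mv 430 (both (five 1 397 429) (mv 465 (both (five 3 430 466) (five 4 368 497))))))))))))))))) (both (mv 400 (both (five 5 399 495) (mv 368 (both (five 6 335 336) (mv 335 (both (five 7 335 367) (mv 337 (both (five 5 336 369) (mv 465 (both (five 4 368 497) (mv 430 (both (five 0 429 429) (five 3 430 466))))))))))))) (mv 399 (both (five 7 399 496) (mv 335 (both (five 4 335 367) (mv 495 (both (five 5 399 400) (mv 398 (both (five 7 366 366) (five 7 398 430)))))))))))))) (both (mv 496 (both (five 7 431 560) (mv 399 (both (five 4 367 367) (five 7 399 432))))) (mv 495 (both (five 4 431 560) (mv 398 (both (five 7 398 430) (mv 399 (both (five 7 366 366) (mv 400 (both (five 5 367 368) (five 5 399 432))))))))))))) (both (mv 465 (both (mv 462 (both (mv 434 (both (five 1 430 433) (mv 466 (both (five 1 431 435) (mv 498 (both (five 0 462 497) (five 0 463 499))))))) (mv 429 (both (five 3 429 430) (mv 461 (both (five 3 428 428) (mv 493 (both (five 2 460 492) (five 2 461 494))))))))) (both (mv 466 (both (mv 435 (both (five 1 431 434) (mv 467 (both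 (five 1 432 436) (mv 499 (both (five 0 463 498) (five 0 464 500))))))) (mv 431 (both (five 3 430 430) (mv 560 (both (five 4 431 495) (five 7 431 496))))))) (both (mv 462 (both (mv 429 (both (five 3 429 430) (mv 461 (both (five 3 428 428) (mv 493 (both (five 2 460 492) (five 2 461 494))))))) (mv 433 (both (five 1 430 434) (mv 496 (both (five 5 432 560) (mv 401 (both (five 6 368 369) (five 6 400 497))))))))) (mv 560 (both (mv 495 (both (five 4 431 431) (mv 494 (both (five 2 462 466) (mv 493 (both (five 2 461 462) (five 1 460 492))))))) (both (mv 496 (both (five 5 432 433) (mv 592 (both (five 7 463 495) (mv 593 (both (five 4 464 561) (five 4 496 625))))))) (mv 496 (both (five 7 431 431) (five 5 432 433)))))))))) (both (mv 431 (both (mv 560 (both (five 4 431 495) (five 7 431 496))) (both (mv 496 (both (five 7 431 560) (mv 399 (both (five 4 367 367) (five 7 399 432))))) (both (mv 495 (both (mv 398 (both (five 7 398 430) (mv 399 (both (five 7 366 366) (five 4 399 496))))) (both (mv 400 (both (five 5 399 432) (mv 430 (both (five 7 398 398) (mv 429 (both (five 0 428 428) (mv 465 (both (five 3 429 462) (five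 3 430 466))))))))) (mv 399 (both (five 4 399 496) (mv 400 (both (five 5 367 368) (five 5 399 432)))))))) (mv 495 (both (five 4 431 560) (mv 398 (both (five 7 398 430) (mv 399 (both (five 7 366 366) (mv 400 (both (five 5 367 368) (five 5 399 432))))))))))))) (mv 496 (both (mv 431 (both (five 7 431 560) (mv 399 (both (five 4 367 367) (five 7 399 432))))) (both (mv 432 (both (mv 433 (both (five 5 400 401) (mv 434 (both (five 2 431 435) (mv 462 (both (five 1 429 461) (five 1 430 465))))))) (mv 399 (both (five 7 399 431) (mv 400 (both (five 7 367 367) (five 6 399 495))))))) (both (mv 432 (both (mv 433 (both (five 5 400 401) (mv 434 (both (five 2 431 435) (mv 462 (both (five 1 429 461) (five 1 430 465))))))) (both (mv 400 (both (five 6 399 495) (mv 367 (both (five 7 367 399) (mv 368 (both (five 7 335 335) (mv 369 (both (five 5 336 337) (five 5 368 401))))))))) (mv 400 (both (five 6 399 495) (mv 367 (both (five 7 367 399) (mv 368 (both (five 7 335 335) (mv 337 (both (five 5 336 369) (mv 305 (both (five 5 304 336) (mv 465 (both (five 4 368 497) (mv 433 (both (five 5 432 560) (mv 434 (both (five 1 430 462)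 (mv 435 (both (five 2 432 436) (five 1 431 466)))))))))))))))))))))) (mv 560 (both (five 7 431 431) (mv 592 (both (five 7 463 495) (mv 593 (both (five 4 464 561) (five 4 496 625))))))))))))))))))) (both (mv 496 (both (mv 559 (both (five 6 431 432) (mv 591 (both (five 6 463 560) (five 5 495 623))))) (both (mv 560 (both (mv 591 (both (five 6 463 559) (mv 592 (both (five 6 495 623) (mv 593 (both (five 4 464 561) (five 4 496 625))))))) (both (mv 431 (both (five 7 431 463) (mv 465 (both (five 5 432 433) (mv 592 (both (five 5 464 497) (mv 593 (both (five 4 464 561) (five 4 496 625))))))))) (both (mv 431 (both (five 7 431 463) (mv 465 (both (five 5 432 433) (mv 591 (both (five 6 463 559) (mv 592 (both (five 5 464 497) (five 6 495 623))))))))) (mv 463 (both (five 7 431 431) (mv 465 (both (five 5 432 433) (mv 559 (both (five 6 463 591) (mv 561 (both (five 4 464 593) (mv 562 (both (five 3 527 563) (mv 530 (both (five 1 527 531) (mv 594 (both (five 0 559 595) (mv 498 (both (five 7 465 497) (mv 499 (both (five 0 463 466) (five 5 466 467))))))))))))))))))))))) (both (mv 431 (both (mv 399 (both (five 7 399 432)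 (mv 463 (both (five 4 367 367) (five 7 431 560))))) (both (mv 560 (both (five 7 431 463) (mv 465 (both (five 5 432 433) (mv 592 (both (five 5 464 497) (mv 593 (both (five 4 464 561) (five 4 496 625))))))))) (both (mv 432 (both (five 7 399 399) (mv 465 (both (mv 430 (both (five 0 429 429) (mv 466 (both (five 3 430 463) (five 3 431 467))))) (both (mv 401 (both (five 5 400 433) (mv 400 (both (five 5 368 369) (mv 368 (both (five 4 368 497) (mv 335 (both (five 7 335 367) (mv 336 (both (five 7 303 303) (five 6 335 463))))))))))) (mv 430 (both (five 0 429 429) (mv 433 (both (five 5 400 401) (five 0 430 466)))))))))) (mv 432 (both (five 7 399 399) (mv 433 (both (five 5 400 401) (mv 465 (both (five 5 432 560) (mv 430 (both (five 0 429 429) (five 0 430 466))))))))))))) (mv 432 (both (five 6 431 559) (mv 399 (both (five 7 399 431) (mv 400 (both (five 7 367 367) (mv 401 (both (five 5 368 369) (five 5 400 433))))))))))))) (both (mv 463 (both (mv 462 (both (mv 430 (both (mv 495 (both (five 7 430 559) (mv 398 (both (five 4 366 366) (five 7 398 431))))) (mv 429 (both (five 3 429 465) (mv 428 (both (five 0 427 427)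 (five 3 428 461))))))) (both (mv 461 (both (mv 493 (both (five 2 460 492) (mv 430 (both (five 5 429 557) (mv 398 (both (five 6 365 366) (five 6 397 494))))))) (mv 428 (both (five 3 428 429) (mv 460 (both (five 3 427 427) (mv 496 (both (five 0 460 495) (five 0 461 497))))))))) (both (mv 465 (both (mv 434 (both (five 1 430 433) (mv 466 (both (five 1 431 435) (mv 498 (both (five 0 462 497) (five 0 463 499))))))) (both (mv 430 (both (five 3 429 429) (mv 466 (both (five 3 430 431) (mv 498 (both (five 0 462 497) (five 0 463 499))))))) (mv 430 (both (five 3 429 429) (mv 433 (both (five 1 430 434) (mv 494 (both (five 2 461 493) (mv 495 (both (five 4 398 398) (five 7 430 559)))))))))))) (both (mv 465 (both (mv 434 (both (five 1 430 433) (mv 466 (both (five 1 431 435) (mv 498 (both (five 0 462 497) (five 0 463 499))))))) (mv 493 (both (five 2 461 494) (mv 461 (both (five 2 460 492) (mv 428 (both (five 3 428 429) (mv 460 (both (five 3 427 427) (five 7 428 557))))))))))) (mv 465 (both (mv 434 (both (five 1 430 433) (mv 466 (both (five 1 431 435) (mv 498 (both (five 0 462 497) (five 0 463 499))))))) (both (mv 433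 (both (five 1 430 434) (mv 493 (both (five 2 461 494) (mv 461 (both (five 2 460 492) (mv 430 (both (five 5 429 557) (mv 495 (both (five 7 430 559) (mv 398 (both (five 4 366 366) (five 7 398 431))))))))))))) (mv 493 (both (five 2 461 494) (mv 461 (both (five 2 460 492) (mv 430 (both (five 5 429 557) (mv 466 (both (five 3 430 431) (mv 498 (both (five 0 462 497) (five 0 463 499))))))))))))))))))) (both (mv 462 (both (mv 465 (both (mv 434 (both (five 1 430 433) (mv 466 (both (five 1 431 435) (mv 498 (both (five 0 462 497) (five 0 463 499))))))) (both (mv 430 (both (five 3 429 429) (mv 466 (both (five 3 430 431) (mv 498 (both (five 0 462 497) (five 0 463 499))))))) (mv 429 (both (five 3 429 430) (mv 433 (both (five 1 430 434) (mv 461 (both (five 3 428 428) (five 1 429 432)))))))))) (both (mv 465 (both (mv 434 (both (five 1 430 433) (mv 466 (both (five 1 431 435) (mv 498 (both (five 0 462 497) (five 0 463 499))))))) (both (mv 430 (both (five 3 429 429) (mv 466 (both (five 3 430 431) (mv 498 (both (five 0 462 497) (five 0 463 499))))))) (both (mv 430 (both (five 3 429 429) (mv 434 (both (five 1 430 433) (mv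 466 (both (five 3 430 431) (five 1 431 435))))))) (mv 429 (both (five 3 429 430) (mv 433 (both (five 1 430 434) (mv 493 (both (five 2 461 494) (mv 497 (both (five 0 462 498) (mv 401 (both (five 6 400 496) (mv 368 (both (five 7 368 400) (mv 369 (both (five 7 336 336) (mv 370 (both (five 5 337 338) (five 5 369 402))))))))))))))))))))) (both (mv 461 (both (mv 493 (both (five 2 460 492) (mv 430 (both (five 5 429 557) (mv 398 (both (five 6 365 366) (five 6 397 494))))))) (mv 428 (both (five 3 428 429) (mv 432 (both (five 1 429 433) (mv 460 (both (five 3 427 427) (five 1 428 431))))))))) (both (mv 465 (both (mv 493 (both (five 2 461 494) (mv 461 (both (five 2 460 492) (mv 428 (both (five 3 428 429) (mv 460 (both (five 3 427 427) (five 7 428 557))))))))) (both (mv 493 (both (five 2 461 494) (mv 461 (both (five 2 460 492) (mv 430 (both (five 5 429 557) (mv 466 (both (five 3 430 431) (mv 498 (both (five 0 462 497) (five 0 463 499))))))))))) (mv 430 (both (five 3 429 429) (mv 466 (both (five 3 430 431) (mv 498 (both (five 0 462 497) (five 0 463 499)))))))))) (both (mv 465 (both (mv 434 (both (five 1 430 433)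 (mv 466 (both (five 1 431 435) (mv 498 (both (five 0 462 497) (five 0 463 499))))))) (mv 493 (both (five 2 461 494) (mv 461 (both (five 2 460 492) (mv 428 (both (five 3 428 429) (mv 460 (both (five 3 427 427) (five 7 428 557))))))))))) (mv 465 (both (mv 434 (both (five 1 430 433) (mv 466 (both (five 1 431 435) (mv 498 (both (five 0 462 497) (five 0 463 499))))))) (both (mv 493 (both (five 2 461 494) (mv 461 (both (five 2 460 492) (mv 430 (both (five 5 429 557) (mv 466 (both (five 3 430 431) (mv 498 (both (five 0 462 497) (five 0 463 499))))))))))) (mv 433 (both (five 1 430 434) (mv 461 (both (five 1 429 432) (mv 493 (both (five 2 460 492) (five 2 461 494)))))))))))))))) (both (mv 462 (both (mv 465 (both (mv 434 (both (five 1 430 433) (mv 466 (both (five 1 431 435) (mv 498 (both (five 0 462 497) (five 0 463 499))))))) (both (mv 430 (both (five 3 429 429) (mv 466 (both (five 3 430 431) (mv 498 (both (five 0 462 497) (five 0 463 499))))))) (mv 429 (both (five 3 429 430) (mv 433 (both (five 1 430 434) (mv 461 (both (five 3 428 428) (five 1 429 432)))))))))) (both (mv 461 (both (mv 493 (both (five 2 460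 492) (mv 430 (both (five 5 429 557) (mv 398 (both (five 6 365 366) (five 6 397 494))))))) (mv 428 (both (five 3 428 429) (mv 432 (both (five 1 429 433) (mv 460 (both (five 3 427 427) (five 1 428 431))))))))) (both (mv 465 (both (mv 434 (both (five 1 430 433) (mv 466 (both (five 1 431 435) (mv 498 (both (five 0 462 497) (five 0 463 499))))))) (both (mv 430 (both (five 3 429 429) (mv 466 (both (five 3 430 431) (mv 498 (both (five 0 462 497) (five 0 463 499))))))) (mv 430 (both (five 3 429 429) (mv 433 (both (five 1 430 434) (mv 494 (both (five 2 461 493) (mv 398 (both (five 4 398 495) (mv 365 (both (five 7 365 397) (mv 366 (both (five 7 333 333) (mv 367 (both (five 5 334 335) (five 5 366 399)))))))))))))))))) (both (mv 465 (both (mv 434 (both (five 1 430 433) (mv 466 (both (five 1 431 435) (mv 498 (both (five 0 462 497) (five 0 463 499))))))) (mv 493 (both (five 2 461 494) (mv 461 (both (five 2 460 492) (mv 428 (both (five 3 428 429) (mv 460 (both (five 3 427 427) (five 7 428 557))))))))))) (both (mv 465 (both (mv 434 (both (five 1 430 433) (mv 466 (both (five 1 431 435) (mv 498 (both (five 0 462 497)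 (five 0 463 499))))))) (both (mv 493 (both (five 2 461 494) (mv 461 (both (five 2 460 492) (mv 430 (both (five 5 429 557) (mv 466 (both (five 3 430 431) (mv 498 (both (five 0 462 497) (five 0 463 499))))))))))) (mv 433 (both (five 1 430 434) (mv 461 (both (five 1 429 432) (mv 493 (both (five 2 460 492) (five 2 461 494)))))))))) (mv 465 (both (mv 493 (both (five 2 461 494) (mv 461 (both (five 2 460 492) (mv 428 (both (five 3 428 429) (mv 460 (both (five 3 427 427) (five 7 428 557))))))))) (both (mv 493 (both (five 2 461 494) (mv 461 (both (five 2 460 492) (mv 430 (both (five 5 429 557) (mv 466 (both (five 3 430 431) (mv 498 (both (five 0 462 497) (five 0 463 499))))))))))) (mv 430 (both (five 3 429 429) (mv 466 (both (five 3 430 431) (mv 498 (both (five 0 462 497) (five 0 463 499)))))))))))))))) (both (mv 432 (both (mv 559 (both (five 5 431 495) (five 6 431 496))) (both (mv 495 (both (five 5 431 559) (mv 400 (both (five 6 367 368) (five 5 399 431))))) (both (mv 496 (both (five 6 431 559) (mv 399 (both (five 7 399 431) (mv 400 (both (five 7 367 367) (mv 401 (both (five 5 368 369) (five 5 400 433)))))))))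 (mv 431 (both (mv 399 (both (five 7 399 496) (mv 335 (both (five 4 335 367) (mv 495 (both (five 5 399 400) (mv 398 (both (five 7 366 366) (five 7 398 430))))))))) (both (mv 399 (both (five 7 399 496) (mv 367 (both (five 4 335 335) (mv 336 (both (five 5 335 368) (mv 366 (both (five 7 334 334) (mv 398 (both (five 7 366 495) (mv 397 (both (five 0 396 396) (mv 433 (both (five 3 397 430) (five 3 398 434))))))))))))))) (both (mv 496 (both (five 7 399 399) (mv 401 (both (five 5 400 433) (mv 400 (both (five 5 368 369) (mv 368 (both (five 6 335 336) (mv 335 (both (five 7 335 367) (mv 402 (both (five 2 399 403) (mv 430 (both (five 1 397 429) (mv 465 (both (five 3 430 466) (five 4 368 497))))))))))))))))) (both (mv 400 (both (five 5 399 495) (mv 368 (both (five 6 335 336) (mv 335 (both (five 7 335 367) (mv 337 (both (five 5 336 369) (mv 465 (both (five 4 368 497) (mv 430 (both (five 0 429 429) (five 3 430 466))))))))))))) (mv 399 (both (five 7 399 496) (mv 400 (both (five 5 399 495) (mv 368 (both (five 6 335 336) (mv 369 (both (five 5 336 337) (mv 370 (both (five 2 367 371) (mv 398 (both (five 1 365 397) (five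 1 366 401)))))))))))))))))))))) (both (mv 432 (both (mv 559 (both (five 5 431 495) (five 6 431 496))) (both (mv 496 (both (five 6 431 559) (mv 399 (both (five 7 399 431) (mv 400 (both (five 7 367 367) (mv 401 (both (five 5 368 369) (five 5 400 433))))))))) (both (mv 431 (both (mv 400 (both (five 5 399 495) (mv 368 (both (five 6 335 336) (mv 335 (both (five 7 335 367) (mv 369 (both (five 5 336 337) (mv 401 (both (five 5 368 496) (mv 402 (both (five 2 399 403) (mv 430 (both (five 1 397 429) (five 1 398 433))))))))))))))) (both (mv 399 (both (five 7 399 496) (mv 367 (both (five 4 335 335) (mv 334 (both (five 7 334 366) (mv 336 (both (five 5 335 368) (mv 462 (both (five 6 366 494) (mv 433 (both (five 2 430 434) (five 1 429 461))))))))))))) (both (mv 495 (both (five 5 399 400) (mv 398 (both (five 7 398 430) (mv 399 (both (five 7 366 366) (mv 367 (both (five 4 335 335) (mv 462 (both (five 6 366 494) (mv 433 (both (five 2 430 434) (five 1 429 461))))))))))))) (mv 399 (both (five 7 399 496) (mv 400 (both (five 5 399 495) (mv 368 (both (five 6 335 336) (mv 369 (both (five 5 336 337) (mv 370 (both (five 2 367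 371) (mv 398 (both (five 1 365 397) (five 1 366 401))))))))))))))))) (mv 495 (both (five 5 431 559) (mv 400 (both (five 6 367 368) (five 5 399 431))))))))) (both (mv 462 (both (mv 461 (both (mv 493 (both (five 2 460 492) (mv 430 (both (five 5 429 557) (mv 398 (both (five 6 365 366) (five 6 397 494))))))) (mv 428 (both (five 3 428 429) (mv 460 (both (five 3 427 427) (mv 496 (both (five 0 460 495) (five 0 461 497))))))))) (both (mv 465 (both (mv 434 (both (five 1 430 433) (mv 466 (both (five 1 431 435) (mv 498 (both (five 0 462 497) (five 0 463 499))))))) (both (mv 430 (both (five 3 429 429) (mv 433 (both (five 1 430 434) (mv 494 (both (five 2 461 493) (mv 495 (both (five 4 398 398) (five 7 430 559))))))))) (mv 494 (both (five 2 461 493) (mv 466 (both (five 2 462 495) (mv 498 (both (five 0 462 497) (five 0 463 499)))))))))) (both (mv 465 (both (mv 434 (both (five 1 430 433) (mv 466 (both (five 1 431 435) (mv 498 (both (five 0 462 497) (five 0 463 499))))))) (mv 429 (both (five 3 429 430) (mv 461 (both (five 3 428 428) (mv 493 (both (five 2 460 492) (five 2 461 494))))))))) (mv 432 (both (mv 559 (both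 (five 5 431 495) (five 6 431 496))) (mv 433 (both (five 1 429 461) (mv 434 (both (five 2 431 435) (five 1 430 465))))))))))) (both (mv 432 (both (mv 559 (both (five 5 431 495) (five 6 431 496))) (both (mv 495 (both (five 5 431 559) (mv 400 (both (five 6 367 368) (five 5 399 431))))) (both (mv 496 (both (five 6 431 559) (mv 399 (both (five 7 399 431) (mv 400 (both (five 7 367 367) (mv 401 (both (five 5 368 369) (five 5 400 433))))))))) (mv 496 (both (mv 399 (both (five 7 399 431) (mv 400 (both (five 7 367 367) (five 6 399 495))))) (mv 433 (both (five 5 400 401) (mv 434 (both (five 2 431 435) (mv 462 (both (five 1 429 461) (five 1 430 465))))))))))))) (mv 495 (both (mv 431 (both (mv 399 (both (five 4 399 496) (mv 366 (both (five 7 366 398) (mv 367 (both (five 7 334 334) (mv 368 (both (five 5 335 336) (five 5 367 400))))))))) (both (mv 430 (both (five 7 398 398) (mv 429 (both (five 0 428 428) (mv 465 (both (five 3 429 462) (five 3 430 466))))))) (mv 399 (both (five 4 399 496) (mv 368 (both (five 5 367 400) (mv 367 (both (five 5 335 336) (mv 334 (both (five 7 334 366) (mv 302 (both (five 7 302 335) (mv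 462 (both (five 6 366 494) (mv 430 (both (five 7 430 559) (mv 429 (both (five 3 429 465) (mv 428 (both (five 0 427 427) (five 3 428 461)))))))))))))))))))))) (both (mv 431 (both (mv 430 (both (five 7 398 398) (mv 429 (both (five 0 428 428) (mv 465 (both (five 3 429 462) (five 3 430 466))))))) (mv 399 (both (five 4 399 496) (mv 400 (both (five 5 367 368) (five 5 399 432))))))) (both (mv 432 (both (five 5 431 559) (mv 400 (both (five 6 367 368) (five 5 399 431))))) (mv 559 (both (five 5 431 432) (mv 462 (both (five 7 430 430) (mv 461 (both (mv 496 (both (five 0 460 460) (five 0 461 497))) (both (mv 428 (both (five 3 428 429) (mv 460 (both (five 3 427 427) (mv 492 (both (five 2 459 491) (five 2 460 493))))))) (mv 429 (both (five 3 428 428) (mv 493 (both (five 2 460 492) (mv 496 (both (five 0 461 497) (mv 524 (both (five 2 492 494) (five 6 428 556)))))))))))))))))))))))))))) (both (mv 496 (both (mv 559 (both (five 6 431 432) (mv 591 (both (five 6 463 560) (five 5 495 623))))) (both (mv 560 (both (mv 465 (both (five 5 432 433) (mv 592 (both (five 5 464 497) (mv 593 (both (five 4 464 561) (five 4 496 625)))))))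 (both (mv 593 (both (five 4 464 561) (mv 592 (both (five 4 496 625) (mv 623 (both (five 6 495 591) (mv 624 (both (five 7 495 495) (five 6 527 655))))))))) (mv 432 (both (mv 400 (both (five 6 399 495) (mv 367 (both (five 7 367 399) (mv 368 (both (five 7 335 335) (mv 369 (both (five 5 336 337) (five 5 368 401))))))))) (both (mv 433 (both (five 5 400 401) (five 5 432 465))) (mv 400 (both (five 6 399 495) (mv 367 (both (five 7 367 399) (mv 368 (both (five 7 335 335) (mv 465 (both (five 5 432 433) (five 4 368 497))))))))))))))) (both (mv 560 (both (mv 591 (both (five 6 463 559) (mv 592 (both (five 6 495 623) (mv 593 (both (five 4 464 561) (five 4 496 625))))))) (both (mv 465 (both (five 5 432 433) (mv 592 (both (five 5 464 497) (mv 593 (both (five 4 464 561) (five 4 496 625))))))) (both (mv 465 (both (five 5 432 433) (mv 591 (both (five 6 463 559) (mv 592 (both (five 5 464 497) (five 6 495 623))))))) (mv 465 (both (five 5 432 433) (mv 559 (both (five 6 463 591) (mv 561 (both (five 4 464 593) (mv 562 (both (five 3 527 563) (mv 530 (both (five 1 527 531) (mv 594 (both (five 0 559 595) (mv 498 (both (five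 7 465 497) (mv 467 (both (five 5 466 499) (mv 466 (both (five 5 434 435) (five 2 463 495))))))))))))))))))))))) (mv 432 (both (five 6 431 559) (mv 400 (both (five 6 399 495) (mv 367 (both (five 7 367 399) (mv 368 (both (five 7 335 335) (mv 369 (both (five 5 336 337) (five 5 368 401))))))))))))))) (both (mv 463 (both (mv 496 (both (mv 431 (both (five 7 431 560) (mv 399 (both (five 4 367 367) (five 7 399 432))))) (both (mv 432 (both (five 6 431 559) (mv 400 (both (mv 367 (both (five 7 367 399) (mv 368 (both (five 7 335 335) (mv 369 (both (five 5 336 337) (five 5 368 401))))))) (both (mv 369 (both (five 5 368 401) (mv 368 (both (five 5 336 337) (mv 335 (both (five 7 335 367) (mv 336 (both (five 7 303 303) (five 6 335 431))))))))) (both (mv 369 (both (five 5 368 401) (mv 368 (both (five 5 336 337) (mv 431 (both (five 6 335 336) (five 7 399 399))))))) (mv 399 (both (five 7 367 367) (five 7 399 431))))))))) (both (mv 559 (both (five 6 431 432) (mv 591 (both (five 6 463 560) (five 5 495 623))))) (mv 560 (both (five 7 431 431) (mv 591 (both (five 6 463 559) (mv 592 (both (five 6 495 623) (mv 593 (both (five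 4 464 561) (five 4 496 625))))))))))))) (both (mv 495 (both (mv 559 (both (five 5 431 432) (mv 462 (both (five 7 430 430) (mv 560 (both (five 4 463 592) (mv 591 (both (five 7 462 494) (mv 622 (both (five 6 494 590) (mv 623 (both (five 6 526 654) (five 5 527 655))))))))))))) (both (mv 431 (both (five 4 431 560) (mv 398 (both (five 7 398 430) (mv 399 (both (five 7 366 366) (mv 400 (both (five 5 367 368) (five 5 399 432))))))))) (both (mv 560 (both (five 4 431 431) (mv 592 (both (five 4 463 559) (five 7 495 624))))) (mv 432 (both (five 5 431 559) (mv 400 (both (five 6 367 368) (five 5 399 431))))))))) (both (mv 559 (both (mv 432 (both (five 5 431 495) (five 6 431 496))) (both (mv 496 (both (five 6 431 432) (mv 591 (both (five 6 463 560) (five 5 495 623))))) (both (mv 495 (both (mv 462 (both (five 7 430 430) (mv 560 (both (five 4 463 592) (mv 591 (both (five 7 462 494) (mv 622 (both (five 6 494 590) (mv 623 (both (five 6 526 654) (five 5 527 655))))))))))) (both (mv 462 (both (five 7 430 430) (mv 461 (both (mv 496 (both (five 0 460 460) (five 0 461 497))) (both (mv 428 (both (five 3 428 429) (mv 460 (both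 (five 3 427 427) (mv 492 (both (five 2 459 491) (five 2 460 493))))))) (mv 429 (both (five 3 428 428) (mv 493 (both (five 2 460 492) (mv 496 (both (five 0 461 497) (mv 524 (both (five 2 492 494) (five 6 428 556)))))))))))))) (mv 560 (both (five 4 463 592) (mv 591 (both (five 5 463 496) (mv 622 (both (five 6 494 590) (mv 623 (both (five 6 526 654) (five 5 527 655)))))))))))) (mv 495 (both (five 5 431 432) (mv 462 (both (five 7 430 430) (mv 560 (both (five 4 463 592) (mv 591 (both (five 7 462 494) (mv 622 (both (five 6 494 590) (mv 623 (both (five 6 526 654) (five 5 527 655))))))))))))))))) (both (mv 495 (both (mv 431 (both (mv 399 (both (five 4 399 496) (mv 366 (both (five 7 366 398) (mv 367 (both (five 7 334 334) (mv 368 (both (five 5 335 336) (five 5 367 400))))))))) (both (mv 430 (both (five 7 398 398) (mv 429 (both (five 0 428 428) (mv 465 (both (five 3 429 462) (five 3 430 466))))))) (mv 399 (both (five 4 399 496) (mv 368 (both (five 5 367 400) (mv 367 (both (five 5 335 336) (mv 334 (both (five 7 334 366) (mv 302 (both (five 7 302 335) (mv 462 (both (five 6 366 494) (mv 430 (both (five 7 430 559)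 (mv 429 (both (five 3 429 465) (mv 428 (both (five 0 427 427) (five 3 428 461)))))))))))))))))))))) (both (mv 431 (both (mv 430 (both (five 7 398 398) (mv 429 (both (five 0 428 428) (mv 465 (both (five 3 429 462) (five 3 430 466))))))) (mv 399 (both (five 4 399 496) (mv 400 (both (five 5 367 368) (five 5 399 432))))))) (both (mv 432 (both (five 5 431 559) (mv 400 (both (five 6 367 368) (five 5 399 431))))) (mv 559 (both (five 5 431 432) (mv 462 (both (five 7 430 430) (mv 461 (both (mv 496 (both (five 0 460 460) (five 0 461 497))) (both (mv 428 (both (five 3 428 429) (mv 460 (both (five 3 427 427) (mv 492 (both (five 2 459 491) (five 2 460 493))))))) (mv 429 (both (five 3 428 428) (mv 493 (both (five 2 460 492) (mv 496 (both (five 0 461 497) (mv 524 (both (five 2 492 494) (five 6 428 556)))))))))))))))))))) (both (mv 431 (both (mv 560 (both (five 4 431 495) (five 7 431 496))) (both (mv 496 (both (five 7 431 560) (mv 399 (both (five 4 367 367) (five 7 399 432))))) (both (mv 495 (both (mv 398 (both (five 7 398 430) (mv 399 (both (five 7 366 366) (five 4 399 496))))) (both (mv 400 (both (five 5 399 432)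 (mv 430 (both (five 7 398 398) (mv 429 (both (five 0 428 428) (mv 465 (both (five 3 429 462) (five 3 430 466))))))))) (mv 399 (both (five 4 399 496) (mv 400 (both (five 5 367 368) (five 5 399 432)))))))) (mv 495 (both (five 4 431 560) (mv 398 (both (five 7 398 430) (mv 399 (both (five 7 366 366) (mv 400 (both (five 5 367 368) (five 5 399 432))))))))))))) (mv 462 (both (mv 461 (both (mv 496 (both (five 0 461 497) (mv 560 (both (five 7 431 431) (mv 591 (both (five 6 463 559) (mv 592 (both (five 6 495 623) (mv 593 (both (five 4 464 561) (five 4 496 625))))))))))) (mv 428 (both (five 3 428 429) (mv 427 (both (five 3 427 460) (mv 493 (both (five 2 460 492) (mv 430 (both (five 5 429 557) (mv 398 (both (five 6 365 366) (five 6 397 494))))))))))))) (both (mv 495 (both (mv 560 (both (five 4 431 431) (mv 592 (both (five 4 463 559) (five 7 495 624))))) (both (mv 431 (both (five 4 431 560) (mv 398 (both (five 7 398 430) (mv 399 (both (five 7 366 366) (mv 367 (both (five 6 366 494) (mv 368 (both (five 5 335 336) (five 5 367 400))))))))))) (mv 430 (both (five 7 430 559) (mv 398 (both (five 4 366 366) (five 4 398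 494)))))))) (both (mv 461 (both (mv 493 (both (five 2 460 492) (mv 430 (both (five 5 429 557) (mv 398 (both (five 6 365 366) (five 6 397 494))))))) (mv 428 (both (five 3 428 429) (mv 460 (both (five 3 427 427) (mv 496 (both (five 0 460 495) (five 0 461 497))))))))) (mv 496 (both (mv 560 (both (five 7 431 431) (mv 591 (both (five 6 463 559) (mv 592 (both (five 6 495 623) (mv 593 (both (five 4 464 561) (five 4 496 625))))))))) (mv 461 (both (five 0 461 497) (mv 428 (both (five 3 428 429) (mv 460 (both (five 3 427 427) (five 0 460 495))))))))))))))))))) (both (mv 496 (both (mv 560 (both (mv 591 (both (five 6 463 559) (mv 592 (both (five 6 495 623) (mv 593 (both (five 4 464 561) (five 4 496 625))))))) (both (mv 593 (both (five 4 464 561) (mv 592 (both (five 4 496 625) (mv 495 (both (five 7 463 463) (five 7 495 624))))))) (mv 463 (both (five 7 431 431) (mv 462 (both (mv 559 (both (five 6 463 591) (mv 495 (both (five 7 430 430) (mv 461 (both (five 0 460 460) (mv 429 (both (five 3 428 428) (mv 493 (both (five 2 460 492) (mv 524 (both (five 2 492 494) (five 6 428 556))))))))))))) (both (mv 465 (both (five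 5 432 433) (mv 429 (both (five 3 429 430) (mv 461 (both (five 3 428 428) (mv 493 (both (five 2 460 492) (five 2 461 494))))))))) (both (mv 465 (both (five 5 432 433) (mv 429 (both (five 3 429 430) (mv 461 (both (five 3 428 428) (mv 495 (both (five 0 460 460) (mv 466 (both (five 2 462 494) (mv 435 (both (five 1 431 434) (mv 467 (both (five 1 432 436) (mv 499 (both (five 0 463 498) (five 0 464 500))))))))))))))))) (both (mv 465 (both (five 5 432 433) (mv 429 (both (five 3 429 430) (mv 461 (both (five 3 428 428) (mv 460 (both (five 0 460 495) (mv 492 (both (five 2 459 491) (five 2 460 493))))))))))) (mv 465 (both (five 5 432 433) (mv 494 (both (five 2 461 493) (mv 466 (both (five 2 462 495) (mv 435 (both (five 1 431 434) (mv 467 (both (five 1 432 436) (mv 499 (both (five 0 463 498) (five 0 464 500))))))))))))))))))))))) (both (mv 560 (both (mv 593 (both (five 4 464 561) (mv 592 (both (five 4 496 625) (mv 623 (both (five 6 495 591) (mv 624 (both (five 7 495 495) (five 6 527 655))))))))) (mv 431 (both (five 7 431 463) (mv 432 (both (five 7 399 399) (mv 433 (both (five 5 400 401) (five 5 432 465)))))))))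 (both (mv 559 (both (five 6 431 432) (mv 591 (both (five 5 463 495) (five 5 495 623))))) (mv 432 (both (five 6 431 559) (mv 399 (both (five 7 399 431) (mv 400 (both (five 7 367 367) (mv 401 (both (five 5 368 369) (five 5 400 433))))))))))))) (both (mv 496 (both (mv 559 (both (five 6 431 432) (mv 591 (both (five 6 463 560) (five 5 495 623))))) (both (mv 560 (both (mv 465 (both (five 5 432 433) (mv 592 (both (five 5 464 497) (mv 593 (both (five 4 464 561) (five 4 496 625))))))) (both (mv 593 (both (five 4 464 561) (mv 592 (both (five 4 496 625) (mv 495 (both (five 7 463 463) (five 7 495 624))))))) (both (mv 497 (both (mv 465 (both (five 5 432 433) (mv 498 (both (five 2 495 499) (mv 561 (both (five 4 464 593) (mv 562 (both (five 3 527 563) (mv 530 (both (five 7 465 594) (mv 495 (both (five 0 495 531) (mv 466 (both (five 1 463 467) (five 1 462 494))))))))))))))) (both (mv 463 (both (five 7 431 431) (mv 462 (both (five 0 461 461) (mv 498 (both (five 3 462 495) (five 3 463 499))))))) (both (mv 463 (both (five 7 431 431) (mv 462 (both (five 0 461 461) (mv 465 (both (five 5 432 433) (mv 429 (both (five 3 429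 430) (mv 494 (both (five 2 461 493) (mv 466 (both (five 2 462 495) (mv 434 (both (five 1 431 435) (mv 467 (both (five 2 464 468) (mv 499 (both (five 0 464 500) (mv 561 (both (five 4 464 593) (mv 563 (both (five 7 434 531) (five 3 527 562))))))))))))))))))))))) (mv 463 (both (five 7 431 431) (mv 462 (both (five 0 461 461) (mv 465 (both (five 5 432 433) (five 0 462 498))))))))))) (mv 431 (both (five 7 431 463) (mv 465 (both (five 5 432 433) (mv 592 (both (five 5 464 497) (mv 623 (both (five 6 495 591) (mv 624 (both (five 7 495 495) (five 6 527 655))))))))))))))) (both (mv 559 (both (five 6 431 432) (mv 591 (both (five 5 463 495) (five 5 495 623))))) (mv 432 (both (five 6 431 559) (mv 433 (both (five 5 400 401) (mv 560 (both (five 5 432 465) (mv 593 (both (five 4 464 561) (mv 592 (both (five 4 496 625) (mv 495 (both (five 7 463 463) (five 7 495 624))))))))))))))))) (mv 496 (both (mv 559 (both (five 6 431 432) (mv 591 (both (five 6 463 560) (five 5 495 623))))) (both (mv 560 (both (mv 465 (both (five 5 432 433) (mv 592 (both (five 5 464 497) (mv 593 (both (five 4 464 561) (five 4 496 625))))))) (both (mv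 593 (both (five 4 464 561) (mv 592 (both (five 4 496 625) (mv 495 (both (five 7 463 463) (five 7 495 624))))))) (both (mv 497 (both (mv 465 (both (five 5 432 433) (mv 498 (both (five 2 495 499) (mv 561 (both (five 4 464 593) (mv 562 (both (five 3 527 563) (mv 530 (both (five 7 465 594) (mv 495 (both (five 0 495 531) (mv 466 (both (five 1 463 467) (five 1 462 494))))))))))))))) (both (mv 463 (both (five 7 431 431) (mv 462 (both (five 0 461 461) (mv 498 (both (five 3 462 495) (five 3 463 499))))))) (both (mv 463 (both (five 7 431 431) (mv 462 (both (five 0 461 461) (mv 465 (both (five 5 432 433) (mv 429 (both (five 3 429 430) (mv 494 (both (five 2 461 493) (mv 466 (both (five 2 462 495) (mv 434 (both (five 1 431 435) (mv 467 (both (five 2 464 468) (mv 499 (both (five 0 464 500) (mv 561 (both (five 4 464 593) (mv 563 (both (five 7 434 531) (five 3 527 562))))))))))))))))))))))) (mv 463 (both (five 7 431 431) (mv 462 (both (five 0 461 461) (mv 465 (both (five 5 432 433) (five 0 462 498))))))))))) (mv 431 (both (five 7 431 463) (mv 465 (both (five 5 432 433) (mv 592 (both (five 5 464 497) (mv 623 (both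 (five 6 495 591) (mv 624 (both (five 7 495 495) (five 6 527 655))))))))))))))) (mv 432 (both (five 6 431 559) (mv 399 (both (five 7 399 431) (mv 400 (both (five 7 367 367) (five 6 399 495))))))))))))))))))))) (both (mv 526 (both (mv 492 (both (five 3 492 493) (mv 524 (both (five 3 491 491) (mv 556 (both (five 2 523 555) (five 2 524 557))))))) (both (mv 556 (both (five 2 524 557) (mv 524 (both (five 2 523 555) (mv 560 (both (five 0 524 559) (five 0 525 561))))))) (both (mv 492 (both (five 3 492 493) (mv 524 (both (five 3 491 491) (mv 560 (both (five 0 524 559) (five 0 525 561))))))) (mv 557 (both (five 2 524 556) (mv 589 (both (mv 560 (both (five 0 525 561) (mv 621 (both (five 5 493 494) (mv 622 (both (five 4 525 654) (mv 652 (both (five 6 524 620) (mv 653 (both (five 6 556 684) (mv 624 (both (five 2 620 623) (mv 592 (both (five 7 495 495) (mv 650 (both (five 1 618 651) (mv 656 (both (five 7 527 559) (mv 657 (both (five 4 528 625) (five 4 560 689))))))))))))))))))))) (both (mv 493 (both (five 3 492 492) (mv 560 (both (five 0 525 561) (mv 588 (both (five 6 492 620) (mv 590 (both (five 4 493 622) (mv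 591 (both (five 1 556 559) (mv 624 (both (five 0 588 623) (mv 592 (both (five 7 495 495) (five 0 589 625))))))))))))))) (mv 493 (both (five 3 492 492) (mv 494 (both (five 5 461 462) (five 5 493 621)))))))))))))) (both (mv 526 (both (mv 492 (both (five 3 492 493) (mv 524 (both (five 3 491 491) (mv 556 (both (five 2 523 555) (five 2 524 557))))))) (both (mv 496 (both (five 1 493 497) (mv 524 (both (five 1 492 495) (mv 556 (both (five 2 523 555) (five 2 524 557))))))) (both (mv 492 (both (five 3 492 493) (mv 496 (both (five 1 493 497) (mv 524 (both (five 3 491 491) (five 1 492 495))))))) (mv 557 (both (five 2 524 556) (mv 589 (both (mv 621 (both (five 5 493 494) (mv 652 (both (five 6 524 620) (mv 653 (both (five 6 556 684) (mv 654 (both (five 4 525 622) (five 4 557 686))))))))) (both (mv 493 (both (five 3 492 492) (mv 496 (both (five 1 493 497) (mv 590 (both (five 4 493 622) (mv 620 (both (five 6 492 588) (mv 621 (both (five 6 524 652) (mv 591 (both (five 2 588 592) (mv 559 (both (five 5 495 623) (mv 464 (both (five 6 431 432) (five 5 463 495))))))))))))))))) (mv 493 (both (five 3 492 492) (mv 462 (both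 (five 5 461 494) (mv 461 (both (five 5 429 430) (mv 428 (both (five 7 428 460) (mv 429 (both (five 7 396 396) (mv 426 (both (five 0 426 427) (mv 464 (both (five 3 428 463) (mv 496 (both (five 1 493 497) (mv 559 (both (five 6 431 432) (mv 591 (both (five 5 463 495) (five 5 495 623)))))))))))))))))))))))))))))) (both (mv 526 (both (mv 556 (both (five 2 524 557) (mv 524 (both (five 2 523 555) (mv 560 (both (five 0 524 559) (five 0 525 561))))))) (both (mv 496 (both (five 1 493 497) (mv 524 (both (five 1 492 495) (mv 556 (both (five 2 523 555) (five 2 524 557))))))) (both (mv 496 (both (five 1 493 497) (mv 495 (both (five 1 492 524) (mv 560 (both (five 0 525 561) (mv 463 (both (five 4 431 431) (five 7 463 592))))))))) (mv 496 (both (five 1 493 497) (mv 464 (both (mv 559 (both (five 6 431 432) (mv 591 (both (five 5 463 495) (five 5 495 623))))) (both (mv 556 (both (five 2 524 557) (mv 560 (both (five 0 525 561) (mv 431 (both (five 7 431 463) (mv 432 (both (five 7 399 399) (mv 433 (both (five 5 400 401) (five 5 432 465))))))))))) (mv 556 (both (five 2 524 557) (mv 560 (both (five 0 525 561) (mv 591 (both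 (five 6 463 559) (mv 592 (both (five 6 495 623) (mv 624 (both (five 7 495 495) (mv 625 (both (five 4 496 593) (five 4 528 657)))))))))))))))))))))) (both (mv 526 (both (mv 492 (both (five 3 492 493) (mv 524 (both (five 3 491 491) (mv 556 (both (five 2 523 555) (five 2 524 557))))))) (both (mv 556 (both (five 2 524 557) (mv 524 (both (five 2 523 555) (mv 560 (both (five 0 524 559) (five 0 525 561))))))) (both (mv 492 (both (five 3 492 493) (mv 524 (both (five 3 491 491) (mv 560 (both (five 0 524 559) (five 0 525 561))))))) (mv 496 (both (five 1 493 497) (mv 464 (both (mv 559 (both (five 6 431 432) (mv 591 (both (five 6 463 560) (five 5 495 623))))) (both (mv 432 (both (five 6 431 559) (mv 399 (both (five 7 399 431) (mv 400 (both (five 7 367 367) (mv 401 (both (five 5 368 369) (five 5 400 433))))))))) (both (mv 560 (both (five 0 525 561) (mv 431 (both (five 7 431 463) (mv 432 (both (five 7 399 399) (mv 433 (both (five 5 400 401) (five 5 432 465))))))))) (mv 493 (both (five 3 492 492) (mv 557 (both (five 2 524 556) (mv 560 (both (five 0 525 561) (mv 431 (both (five 7 431 463) (mv 433 (both (five 5 432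 465) (mv 591 (both (five 6 463 559) (mv 592 (both (five 6 495 623) (mv 625 (both (five 4 496 593) (mv 624 (both (five 4 528 657) (mv 589 (both (five 0 589 590) (mv 494 (both (five 5 461 462) (five 5 493 621))))))))))))))))))))))))))))))))) (both (mv 526 (both (mv 492 (both (five 3 492 493) (mv 524 (both (five 3 491 491) (mv 560 (both (five 0 524 559) (five 0 525 561))))))) (both (mv 492 (both (five 3 492 493) (mv 496 (both (five 1 493 497) (mv 524 (both (five 3 491 491) (five 1 492 495))))))) (mv 496 (both (five 1 493 497) (mv 464 (both (mv 559 (both (five 6 431 432) (mv 591 (both (five 5 463 495) (five 5 495 623))))) (both (mv 560 (both (five 0 525 561) (mv 431 (both (five 7 431 463) (mv 432 (both (five 7 399 399) (mv 433 (both (five 5 400 401) (five 5 432 465))))))))) (mv 560 (both (five 0 525 561) (mv 591 (both (five 6 463 559) (mv 592 (both (five 6 495 623) (mv 624 (both (five 7 495 495) (mv 625 (both (five 4 496 593) (five 4 528 657))))))))))))))))))) (both (mv 526 (both (mv 496 (both (five 1 493 497) (mv 464 (both (mv 559 (both (five 6 431 432) (mv 591 (both (five 5 463 495) (five 5 495 623)))))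 (both (mv 560 (both (five 0 525 561) (mv 431 (both (five 7 431 463) (mv 432 (both (five 7 399 399) (mv 433 (both (five 5 400 401) (five 5 432 465))))))))) (mv 560 (both (five 0 525 561) (mv 591 (both (five 6 463 559) (mv 592 (both (five 6 495 623) (mv 624 (both (five 7 495 495) (mv 625 (both (five 4 496 593) (five 4 528 657)))))))))))))))) (both (mv 557 (both (five 2 524 556) (mv 589 (both (mv 560 (both (five 0 525 561) (mv 621 (both (five 5 493 494) (mv 622 (both (five 4 525 654) (mv 652 (both (five 6 524 620) (mv 653 (both (five 6 556 684) (mv 624 (both (five 2 620 623) (mv 592 (both (five 7 495 495) (mv 650 (both (five 1 618 651) (mv 656 (both (five 7 527 559) (mv 657 (both (five 4 528 625) (five 4 560 689))))))))))))))))))))) (both (mv 493 (both (five 3 492 492) (mv 560 (both (five 0 525 561) (mv 588 (both (five 6 492 620) (mv 590 (both (five 4 493 622) (mv 591 (both (five 1 556 559) (mv 624 (both (five 0 588 623) (mv 592 (both (five 7 495 495) (five 0 589 625))))))))))))))) (mv 493 (both (five 3 492 492) (mv 494 (both (five 5 461 462) (five 5 493 621)))))))))) (both (mv 557 (both (five 2 524 556)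 (mv 589 (both (mv 621 (both (five 5 493 494) (mv 652 (both (five 6 524 620) (mv 653 (both (five 6 556 684) (mv 654 (both (five 4 525 622) (five 4 557 686))))))))) (both (mv 493 (both (five 3 492 492) (mv 496 (both (five 1 493 497) (mv 590 (both (five 4 493 622) (mv 620 (both (five 6 492 588) (mv 621 (both (five 6 524 652) (mv 591 (both (five 2 588 592) (mv 559 (both (five 5 495 623) (mv 464 (both (five 6 431 432) (five 5 463 495))))))))))))))))) (mv 493 (both (five 3 492 492) (mv 462 (both (five 5 461 494) (mv 461 (both (five 5 429 430) (mv 428 (both (five 7 428 460) (mv 429 (both (five 7 396 396) (mv 426 (both (five 0 426 427) (mv 464 (both (five 3 428 463) (mv 496 (both (five 1 493 497) (mv 559 (both (five 6 431 432) (mv 591 (both (five 5 463 495) (five 5 495 623)))))))))))))))))))))))))) (both (mv 496 (both (five 1 493 497) (mv 464 (both (mv 559 (both (five 6 431 432) (mv 591 (both (five 6 463 560) (five 5 495 623))))) (both (mv 432 (both (five 6 431 559) (mv 399 (both (five 7 399 431) (mv 400 (both (five 7 367 367) (mv 401 (both (five 5 368 369) (five 5 400 433))))))))) (both (mv 560 (both (five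 0 525 561) (mv 431 (both (five 7 431 463) (mv 432 (both (five 7 399 399) (mv 433 (both (five 5 400 401) (five 5 432 465))))))))) (mv 493 (both (five 3 492 492) (mv 557 (both (five 2 524 556) (mv 560 (both (five 0 525 561) (mv 431 (both (five 7 431 463) (mv 433 (both (five 5 432 465) (mv 591 (both (five 6 463 559) (mv 592 (both (five 6 495 623) (mv 625 (both (five 4 496 593) (mv 624 (both (five 4 528 657) (mv 589 (both (five 0 589 590) (mv 494 (both (five 5 461 462) (five 5 493 621))))))))))))))))))))))))))))) (both (mv 557 (both (five 2 524 556) (mv 589 (both (mv 621 (both (five 5 493 494) (mv 652 (both (five 6 524 620) (mv 653 (both (five 6 556 684) (mv 654 (both (five 4 525 622) (five 4 557 686))))))))) (both (mv 493 (both (five 3 492 492) (mv 496 (both (five 1 493 497) (mv 560 (both (five 0 525 561) (mv 588 (both (five 6 492 620) (mv 622 (both (five 4 493 590) (mv 621 (both (five 4 525 654) (mv 586 (both (five 0 586 587) (mv 624 (both (five 3 588 623) (mv 592 (both (five 7 495 495) (mv 625 (both (five 4 496 593) (five 4 528 657))))))))))))))))))))) (mv 493 (both (five 3 492 492) (mv 462 (both (five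 5 461 494) (mv 461 (both (five 5 429 430) (mv 428 (both (five 7 428 460) (mv 429 (both (five 7 396 396) (mv 426 (both (five 0 426 427) (mv 463 (both (five 3 428 464) (mv 496 (both (five 1 493 497) (mv 560 (both (five 0 525 561) (mv 495 (both (five 4 431 431) (five 7 463 592)))))))))))))))))))))))))) (both (mv 496 (both (five 1 493 497) (mv 464 (both (mv 559 (both (five 6 431 432) (mv 591 (both (five 6 463 560) (five 5 495 623))))) (both (mv 559 (both (five 6 431 432) (mv 591 (both (five 5 463 495) (five 5 495 623))))) (mv 493 (both (five 3 492 492) (mv 556 (both (five 2 524 557) (mv 560 (both (five 0 525 561) (mv 463 (both (five 7 431 431) (mv 465 (both (five 5 432 433) (mv 494 (both (five 2 461 462) (five 1 461 495)))))))))))))))))) (mv 496 (both (five 1 493 497) (mv 464 (both (mv 432 (both (five 6 431 559) (mv 399 (both (five 7 399 431) (mv 400 (both (five 7 367 367) (five 6 399 495))))))) (both (mv 493 (both (five 3 492 492) (mv 556 (both (five 2 524 557) (mv 560 (both (five 0 525 561) (mv 463 (both (five 7 431 431) (mv 465 (both (five 5 432 433) (mv 494 (both (five 2 461 462) (five 1 461 495)))))))))))))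 (both (mv 432 (both (five 6 431 559) (mv 399 (both (five 7 399 431) (mv 400 (both (five 7 367 367) (mv 401 (both (five 5 368 369) (five 5 400 433))))))))) (mv 432 (both (five 6 431 559) (mv 433 (both (five 5 400 401) (mv 560 (both (five 5 432 465) (mv 593 (both (five 4 464 561) (mv 592 (both (five 4 496 625) (mv 495 (both (five 7 463 463) (five 7 495 624)))))))))))))))))))))))))) (both (mv 526 (both (mv 492 (both (five 3 492 493) (mv 524 (both (five 3 491 491) (mv 556 (both (five 2 523 555) (five 2 524 557))))))) (both (mv 496 (both (five 1 493 497) (mv 524 (both (five 1 492 495) (mv 556 (both (five 2 523 555) (five 2 524 557))))))) (both (mv 492 (both (five 3 492 493) (mv 496 (both (five 1 493 497) (mv 524 (both (five 3 491 491) (five 1 492 495))))))) (mv 557 (both (five 2 524 556) (mv 589 (both (mv 621 (both (five 5 493 494) (mv 652 (both (five 6 524 620) (mv 653 (both (five 6 556 684) (mv 654 (both (five 4 525 622) (five 4 557 686))))))))) (both (mv 493 (both (five 3 492 492) (mv 496 (both (five 1 493 497) (mv 560 (both (five 0 525 561) (mv 588 (both (five 6 492 620) (mv 622 (both (five 4 493 590)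 (mv 621 (both (five 4 525 654) (mv 586 (both (five 0 586 587) (mv 624 (both (five 3 588 623) (mv 592 (both (five 7 495 495) (mv 625 (both (five 4 496 593) (five 4 528 657))))))))))))))))))))) (mv 493 (both (five 3 492 492) (mv 462 (both (five 5 461 494) (mv 461 (both (five 5 429 430) (mv 428 (both (five 7 428 460) (mv 429 (both (five 7 396 396) (mv 426 (both (five 0 426 427) (mv 463 (both (five 3 428 464) (mv 496 (both (five 1 493 497) (mv 560 (both (five 0 525 561) (mv 495 (both (five 4 431 431) (five 7 463 592)))))))))))))))))))))))))))))) (both (mv 526 (both (mv 492 (both (five 3 492 493) (mv 524 (both (five 3 491 491) (mv 556 (both (five 2 523 555) (five 2 524 557))))))) (both (mv 556 (both (five 2 524 557) (mv 524 (both (five 2 523 555) (mv 560 (both (five 0 524 559) (five 0 525 561))))))) (both (mv 492 (both (five 3 492 493) (mv 524 (both (five 3 491 491) (mv 560 (both (five 0 524 559) (five 0 525 561))))))) (mv 496 (both (five 1 493 497) (mv 464 (both (mv 559 (both (five 6 431 432) (mv 591 (both (five 6 463 560) (five 5 495 623))))) (both (mv 559 (both (five 6 431 432) (mv 591 (both (five 5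 463 495) (five 5 495 623))))) (mv 493 (both (five 3 492 492) (mv 556 (both (five 2 524 557) (mv 560 (both (five 0 525 561) (mv 463 (both (five 7 431 431) (mv 465 (both (five 5 432 433) (mv 494 (both (five 2 461 462) (five 1 461 495)))))))))))))))))))))) (mv 526 (both (mv 492 (both (five 3 492 493) (mv 524 (both (five 3 491 491) (mv 556 (both (five 2 523 555) (five 2 524 557))))))) (both (mv 556 (both (five 2 524 557) (mv 524 (both (five 2 523 555) (mv 560 (both (five 0 524 559) (five 0 525 561))))))) (both (mv 492 (both (five 3 492 493) (mv 524 (both (five 3 491 491) (mv 560 (both (five 0 524 559) (five 0 525 561))))))) (mv 496 (both (five 1 493 497) (mv 464 (both (mv 432 (both (five 6 431 559) (mv 399 (both (five 7 399 431) (mv 400 (both (five 7 367 367) (five 6 399 495))))))) (both (mv 493 (both (five 3 492 492) (mv 556 (both (five 2 524 557) (mv 560 (both (five 0 525 561) (mv 463 (both (five 7 431 431) (mv 465 (both (five 5 432 433) (mv 494 (both (five 2 461 462) (five 1 461 495))))))))))))) (both (mv 432 (both (five 6 431 559) (mv 399 (both (five 7 399 431) (mv 400 (both (five 7 367 367) (mv 401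 (both (five 5 368 369) (five 5 400 433))))))))) (mv 432 (both (five 6 431 559) (mv 433 (both (five 5 400 401) (mv 560 (both (five 5 432 465) (mv 593 (both (five 4 464 561) (mv 592 (both (five 4 496 625) (mv 495 (both (five 7 463 463) (five 7 495 624))))))))))))))))))))))))))))))))

theorem L88 : W (S 988530863058807798957393715067720623286798683220635978952802738122718218409262471505648588255249455916730668840373243557345566271959196709010660073920568229888) (S 4253955121767269114156165601049352972895126371448854635890511839711417317639998220975532231395261635402021453518783190295502119436327787030307795955711518208691349370367380762505668344356167411260548630708224) :=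
  check_sound Env.nil (x := 527) (t := tL88) (by decide +kernel)

end P062.Cert
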