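import Vale.Agent.P062.Check

/-! Snaky certificate, part 16 (machine generated, checked by the kernel) -/

set_option maxRecDepth 100000

namespace P062.Cert

open T

def tL89 : T :=
  (both (mv 464 (both (mv 463 (both (mv 462 (both (mv 465 (both (mv 434 (both (five 1 430 433) (mv 466 (both (five 1 431 435) (mv 498 (both (five 0 462 497) (five 0 463 499))))))) (mv 429 (both (five 3 429 430) (mv 461 (both (five 3 428 428) (mv 493 (both (five 2 460 492) (five 2 461 494))))))))) (both (mv 461 (both (mv 428 (both (five 3 428 429) (mv 432 (both (five 1 429 433) (mv 460 (both (five 3 427 427) (five 1 428 431))))))) (mv 493 (both (five 2 460 492) (mv 430 (both (five 5 429 557) (mv 398 (both (five 6 365 366) (five 6 397 494))))))))) (both (mv 465 (both (mv 434 (both (five 1 430 433) (mv 466 (both (five 1 431 435) (mv 498 (both (five 0 462 497) (five 0 463 499))))))) (both (mv 430 (both (five 3 429 429) (mv 466 (both (five 3 430 431) (mv 498 (both (five 0 462 497) (five 0 463 499))))))) (both (mv 430 (both (five 3 429 429) (mv 434 (both (five 1 430 433) (mv 466 (both (five 3 430 431) (five 1 431 435))))))) (mv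 430 (both (five 3 429 429) (mv 494 (both (five 2 461 493) (mv 398 (both (mv 365 (both (five 7 365 397) (mv 366 (both (five 7 333 333) (mv 367 (both (five 5 334 335) (five 5 366 399))))))) (both (mv 397 (both (five 7 365 365) (mv 433 (both (five 1 430 434) (mv 432 (both (five 3 397 431) (mv 400 (both (five 0 397 399) (mv 368 (both (five 4 336 336) (five 4 368 497))))))))))) (both (mv 365 (both (five 7 365 397) (mv 366 (both (five 7 333 333) (mv 334 (both (five 4 334 431) (mv 335 (both (five 5 302 303) (five 5 334 367))))))))) (mv 367 (both (five 5 366 399) (mv 366 (both (five 5 334 335) (mv 334 (both (five 4 334 431) (mv 333 (both (five 7 301 301) (mv 331 (both (five 0 331 332) (mv 368 (both (five 3 333 369) (mv 433 (both (five 1 430 434) (mv 497 (both (five 0 462 498) (mv 400 (both (five 7 368 401) (five 4 368 432))))))))))))))))))))))))))))))) (both (mv 465 (both (mv 434 (both (five 1 430 433) (mv 466 (both (five 1 431 435) (mv 498 (both (five 0 462 497) (five 0 463 499))))))) (both (mv 430 (both (five 3 429 429) (mv 466 (both (five 3 430 431) (mv 498 (both (five 0 462 497) (five 0 463 499))))))) (mv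 429 (both (five 3 429 430) (mv 433 (both (five 1 430 434) (mv 461 (both (five 3 428 428) (five 1 429 432)))))))))) (both (mv 461 (both (mv 428 (both (five 3 428 429) (mv 432 (both (five 1 429 433) (mv 460 (both (five 3 427 427) (five 1 428 431))))))) (both (mv 428 (both (five 3 428 429) (mv 460 (both (five 3 427 427) (mv 492 (both (five 2 459 491) (five 2 460 493))))))) (mv 493 (both (five 2 460 492) (mv 465 (both (five 2 461 494) (mv 434 (both (five 1 430 433) (mv 466 (both (five 1 431 435) (mv 498 (both (five 0 462 497) (five 0 463 499)))))))))))))) (both (mv 465 (both (mv 434 (both (five 1 430 433) (mv 466 (both (five 1 431 435) (mv 498 (both (five 0 462 497) (five 0 463 499))))))) (both (mv 493 (both (five 2 461 494) (mv 461 (both (five 2 460 492) (mv 430 (both (five 5 429 557) (mv 466 (both (five 3 430 431) (mv 498 (both (five 0 462 497) (five 0 463 499))))))))))) (mv 433 (both (five 1 430 434) (mv 461 (both (five 1 429 432) (mv 493 (both (five 2 460 492) (five 2 461 494)))))))))) (mv 465 (both (mv 493 (both (five 2 461 494) (mv 461 (both (five 2 460 492) (mv 428 (both (five 3 428 429) (mv 460 (both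 (five 3 427 427) (five 7 428 557))))))))) (both (mv 493 (both (five 2 461 494) (mv 461 (both (five 2 460 492) (mv 430 (both (five 5 429 557) (mv 466 (both (five 3 430 431) (mv 498 (both (five 0 462 497) (five 0 463 499))))))))))) (mv 430 (both (five 3 429 429) (mv 466 (both (five 3 430 431) (mv 498 (both (five 0 462 497) (five 0 463 499))))))))))))))))) (both (mv 465 (both (mv 462 (both (mv 434 (both (five 1 430 433) (mv 466 (both (five 1 431 435) (mv 498 (both (five 0 462 497) (five 0 463 499))))))) (mv 429 (both (five 3 429 430) (mv 461 (both (five 3 428 428) (mv 493 (both (five 2 460 492) (five 2 461 494))))))))) (both (mv 466 (both (mv 435 (both (five 1 431 434) (mv 467 (both (five 1 432 436) (mv 499 (both (five 0 463 498) (five 0 464 500))))))) (both (mv 495 (both (five 2 462 494) (mv 498 (both (five 0 463 499) (mv 559 (both (five 5 431 432) (mv 558 (both (five 6 462 590) (mv 557 (both (five 1 524 556) (mv 560 (both (five 3 524 524) (five 4 463 592))))))))))))) (mv 434 (both (five 1 431 435) (mv 495 (both (five 2 462 494) (mv 559 (both (five 5 431 432) (mv 558 (both (five 6 462 590) (mv 557 (both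 (five 1 524 556) (mv 560 (both (five 3 524 524) (five 4 463 592)))))))))))))))) (both (mv 462 (both (mv 429 (both (five 3 429 430) (mv 461 (both (five 3 428 428) (mv 493 (both (five 2 460 492) (five 2 461 494))))))) (both (mv 429 (both (five 3 429 430) (mv 433 (both (five 1 430 434) (mv 461 (both (five 3 428 428) (five 1 429 432))))))) (both (mv 433 (both (five 1 430 434) (mv 461 (both (five 1 429 432) (mv 493 (both (five 2 460 492) (five 2 461 494))))))) (mv 430 (both (five 3 429 429) (mv 433 (both (five 1 430 434) (mv 494 (both (five 2 461 493) (mv 495 (both (five 4 398 398) (five 7 430 559))))))))))))) (both (mv 462 (both (mv 434 (both (five 1 430 433) (mv 466 (both (five 1 431 435) (mv 498 (both (five 0 462 497) (five 0 463 499))))))) (both (mv 429 (both (five 3 429 430) (mv 461 (both (five 3 428 428) (mv 493 (both (five 2 460 492) (mv 497 (both (five 0 462 498) (mv 556 (both (five 6 428 524) (mv 557 (both (five 6 460 588) (mv 558 (both (five 1 524 559) (five 4 461 590))))))))))))))) (mv 429 (both (five 3 429 430) (mv 433 (both (five 1 430 434) (mv 461 (both (five 3 428 428) (five 1 429 432))))))))))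 (mv 462 (both (mv 429 (both (five 3 429 430) (mv 461 (both (five 3 428 428) (mv 493 (both (five 2 460 492) (five 2 461 494))))))) (both (mv 429 (both (five 3 429 430) (mv 461 (both (five 3 428 428) (mv 493 (both (five 2 460 492) (mv 497 (both (five 0 462 498) (mv 556 (both (five 6 428 524) (mv 557 (both (five 6 460 588) (mv 558 (both (five 1 524 559) (five 4 461 590))))))))))))))) (mv 498 (both (five 0 462 497) (mv 466 (both (five 0 463 499) (mv 495 (both (five 2 462 494) (mv 559 (both (five 5 431 432) (mv 558 (both (five 6 462 590) (mv 557 (both (five 1 524 556) (mv 560 (both (five 3 524 524) (five 4 463 592))))))))))))))))))))))) (both (mv 462 (both (mv 495 (both (mv 560 (both (five 4 431 431) (mv 592 (both (five 4 463 559) (five 7 495 624))))) (both (mv 431 (both (five 4 431 560) (mv 398 (both (five 7 398 430) (mv 399 (both (five 7 366 366) (mv 367 (both (five 6 366 494) (mv 368 (both (five 5 335 336) (five 5 367 400))))))))))) (mv 430 (both (five 7 430 559) (mv 398 (both (five 4 366 366) (five 4 398 494)))))))) (both (mv 465 (both (mv 434 (both (five 1 430 433) (mv 466 (both (five 1 431 435) (mv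 498 (both (five 0 462 497) (five 0 463 499))))))) (mv 493 (both (five 2 461 494) (mv 461 (both (five 2 460 492) (mv 428 (both (five 3 428 429) (mv 460 (both (five 3 427 427) (five 7 428 557))))))))))) (mv 430 (both (mv 495 (both (five 7 430 559) (mv 398 (both (five 4 366 366) (five 7 398 431))))) (mv 429 (both (five 3 429 465) (mv 428 (both (five 0 427 427) (five 3 428 461)))))))))) (both (mv 495 (both (mv 560 (both (five 4 431 431) (mv 592 (both (five 4 463 559) (five 7 495 624))))) (both (mv 431 (both (five 4 431 560) (mv 399 (both (mv 400 (both (five 5 367 368) (five 5 399 432))) (both (mv 366 (both (five 7 366 398) (mv 367 (both (five 7 334 334) (mv 335 (both (five 4 335 432) (mv 336 (both (five 5 303 304) (five 5 335 368))))))))) (both (mv 366 (both (five 7 366 398) (mv 367 (both (five 7 334 334) (mv 368 (both (five 5 335 336) (five 5 367 400))))))) (mv 366 (both (five 7 366 398) (mv 367 (both (five 7 334 334) (mv 432 (both (five 4 335 335) (five 5 399 400))))))))))))) (both (mv 432 (both (five 5 431 559) (mv 400 (both (five 6 367 368) (five 5 399 431))))) (mv 559 (both (five 5 431 432) (mv 558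 (both (five 6 462 590) (mv 557 (both (five 1 524 556) (mv 560 (both (five 3 524 524) (five 4 463 592))))))))))))) (both (mv 495 (both (mv 560 (both (five 4 431 431) (mv 592 (both (five 4 463 559) (five 7 495 624))))) (both (mv 431 (both (five 4 431 560) (mv 398 (both (five 7 398 430) (mv 399 (both (five 7 366 366) (mv 400 (both (five 5 367 368) (five 5 399 432))))))))) (both (mv 559 (both (five 5 431 432) (mv 430 (both (five 7 430 462) (mv 590 (both (five 6 462 558) (mv 591 (both (five 6 494 622) (mv 592 (both (five 4 463 560) (five 4 495 624))))))))))) (mv 432 (both (five 5 431 559) (mv 400 (both (five 6 367 368) (five 5 399 431))))))))) (mv 462 (both (mv 465 (both (mv 434 (both (five 1 430 433) (mv 466 (both (five 1 431 435) (mv 498 (both (five 0 462 497) (five 0 463 499))))))) (both (mv 430 (both (five 3 429 429) (mv 466 (both (five 3 430 431) (mv 498 (both (five 0 462 497) (five 0 463 499))))))) (mv 429 (both (five 3 429 430) (mv 433 (both (five 1 430 434) (mv 461 (both (five 3 428 428) (five 1 429 432)))))))))) (both (mv 495 (both (mv 560 (both (five 4 431 431) (mv 592 (both (five 4 463 559) (five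 7 495 624))))) (both (mv 431 (both (five 4 431 560) (mv 400 (both (five 5 399 432) (mv 399 (both (five 5 367 368) (mv 367 (both (five 6 366 494) (mv 334 (both (five 7 334 366) (mv 335 (both (five 7 302 302) (five 6 334 430))))))))))))) (both (mv 559 (both (five 5 431 432) (mv 558 (both (five 6 462 590) (mv 557 (both (five 1 524 556) (mv 560 (both (five 3 524 524) (five 4 463 592))))))))) (mv 432 (both (five 5 431 559) (mv 400 (both (five 6 367 368) (five 5 399 431))))))))) (mv 465 (both (mv 434 (both (five 1 430 433) (mv 466 (both (five 1 431 435) (mv 498 (both (five 0 462 497) (five 0 463 499))))))) (mv 493 (both (five 2 461 494) (mv 461 (both (five 2 460 492) (mv 428 (both (five 3 428 429) (mv 460 (both (five 3 427 427) (five 7 428 557)))))))))))))))))))) (both (mv 463 (both (mv 462 (both (mv 465 (both (mv 434 (both (five 1 430 433) (mv 466 (both (five 1 431 435) (mv 498 (both (five 0 462 497) (five 0 463 499))))))) (mv 429 (both (five 3 429 430) (mv 461 (both (five 3 428 428) (mv 493 (both (five 2 460 492) (five 2 461 494))))))))) (both (mv 465 (both (mv 434 (both (five 1 430 433) (mv 466 (both (five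 1 431 435) (mv 498 (both (five 0 462 497) (five 0 463 499))))))) (both (mv 429 (both (five 3 429 430) (mv 494 (both (five 2 461 493) (mv 466 (both (five 2 462 495) (mv 498 (both (five 0 462 497) (five 0 463 499))))))))) (mv 429 (both (five 3 429 430) (mv 433 (both (five 1 430 434) (mv 493 (both (five 2 461 494) (mv 496 (both (five 5 432 560) (mv 401 (both (five 6 368 369) (five 5 400 432)))))))))))))) (both (mv 465 (both (mv 434 (both (five 1 430 433) (mv 466 (both (five 1 431 435) (mv 498 (both (five 0 462 497) (five 0 463 499))))))) (both (mv 429 (both (five 3 429 430) (mv 428 (both (five 3 428 461) (mv 498 (both (five 0 462 497) (mv 466 (both (five 0 463 499) (mv 435 (both (five 1 431 434) (mv 467 (both (five 1 432 436) (mv 495 (both (five 2 462 494) (five 2 463 496))))))))))))))) (both (mv 429 (both (five 3 429 430) (mv 433 (both (five 1 430 434) (mv 461 (both (five 3 428 428) (five 1 429 432))))))) (mv 429 (both (five 3 429 430) (mv 428 (both (five 3 428 461) (mv 498 (both (five 0 462 497) (mv 466 (both (five 0 463 499) (mv 495 (both (five 2 462 494) (mv 496 (both (five 2 463 467) (mv 560 (both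 (five 5 432 433) (five 7 463 592))))))))))))))))))) (both (mv 461 (both (mv 493 (both (five 2 460 492) (mv 430 (both (five 5 429 557) (mv 398 (both (five 6 365 366) (five 6 397 494))))))) (both (mv 428 (both (five 3 428 429) (mv 460 (both (five 3 427 427) (mv 491 (both (five 2 459 492) (mv 459 (both (five 2 458 490) (mv 495 (both (five 0 459 494) (five 0 460 496))))))))))) (both (mv 428 (both (five 3 428 429) (mv 460 (both (five 3 427 427) (mv 493 (both (five 7 428 557) (mv 364 (both (five 4 364 396) (mv 494 (both (five 2 461 465) (mv 459 (both (five 0 458 458) (five 0 459 495))))))))))))) (mv 428 (both (five 3 428 429) (mv 460 (both (five 3 427 427) (mv 492 (both (five 2 459 491) (five 2 460 493))))))))))) (both (mv 461 (both (mv 428 (both (five 3 428 429) (mv 460 (both (five 3 427 427) (mv 492 (both (five 2 459 491) (five 2 460 493))))))) (mv 432 (both (five 1 429 433) (mv 496 (both (five 0 461 497) (mv 400 (both (five 6 399 495) (mv 367 (both (five 7 367 399) (mv 368 (both (five 7 335 335) (mv 369 (both (five 5 336 337) (five 5 368 401))))))))))))))) (mv 465 (both (mv 434 (both (five 1 430 433) (mv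 466 (both (five 1 431 435) (mv 498 (both (five 0 462 497) (five 0 463 499))))))) (both (mv 494 (both (five 2 461 493) (mv 466 (both (five 2 462 495) (mv 498 (both (five 0 462 497) (five 0 463 499))))))) (mv 433 (both (five 1 430 434) (mv 461 (both (five 1 429 432) (mv 493 (both (five 2 460 492) (five 2 461 494)))))))))))))))) (both (mv 462 (both (mv 465 (both (mv 434 (both (five 1 430 433) (mv 466 (both (five 1 431 435) (mv 498 (both (five 0 462 497) (five 0 463 499))))))) (both (mv 430 (both (five 3 429 429) (mv 466 (both (five 3 430 431) (mv 498 (both (five 0 462 497) (five 0 463 499))))))) (mv 429 (both (five 3 429 430) (mv 433 (both (five 1 430 434) (mv 461 (both (five 3 428 428) (five 1 429 432)))))))))) (both (mv 461 (both (mv 428 (both (five 3 428 429) (mv 432 (both (five 1 429 433) (mv 460 (both (five 3 427 427) (five 1 428 431))))))) (mv 493 (both (five 2 460 492) (mv 430 (both (five 5 429 557) (mv 398 (both (five 6 365 366) (five 6 397 494))))))))) (both (mv 465 (both (mv 434 (both (five 1 430 433) (mv 466 (both (five 1 431 435) (mv 498 (both (five 0 462 497) (five 0 463 499))))))) (both (mv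 430 (both (five 3 429 429) (mv 466 (both (five 3 430 431) (mv 498 (both (five 0 462 497) (five 0 463 499))))))) (mv 430 (both (five 3 429 429) (mv 433 (both (five 1 430 434) (mv 494 (both (five 2 461 493) (mv 398 (both (five 4 398 495) (mv 365 (both (five 7 365 397) (mv 366 (both (five 7 333 333) (mv 367 (both (five 5 334 335) (five 5 366 399)))))))))))))))))) (both (mv 465 (both (mv 434 (both (five 1 430 433) (mv 466 (both (five 1 431 435) (mv 498 (both (five 0 462 497) (five 0 463 499))))))) (both (mv 494 (both (five 2 461 493) (mv 466 (both (five 2 462 495) (mv 498 (both (five 0 462 497) (five 0 463 499))))))) (mv 433 (both (five 1 430 434) (mv 461 (both (five 1 429 432) (mv 493 (both (five 2 460 492) (five 2 461 494)))))))))) (mv 465 (both (mv 493 (both (five 2 461 494) (mv 461 (both (five 2 460 492) (mv 428 (both (five 3 428 429) (mv 460 (both (five 3 427 427) (five 7 428 557))))))))) (both (mv 493 (both (five 2 461 494) (mv 461 (both (five 2 460 492) (mv 430 (both (five 5 429 557) (mv 466 (both (five 3 430 431) (mv 498 (both (five 0 462 497) (five 0 463 499))))))))))) (mv 430 (both (five 3 429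 429) (mv 466 (both (five 3 430 431) (mv 498 (both (five 0 462 497) (five 0 463 499))))))))))))))) (both (mv 465 (both (mv 466 (both (mv 435 (both (five 1 431 434) (mv 467 (both (five 1 432 436) (mv 499 (both (five 0 463 498) (five 0 464 500))))))) (mv 431 (both (five 3 430 430) (mv 496 (both (five 7 431 560) (mv 399 (both (five 4 367 367) (five 7 399 432))))))))) (both (mv 462 (both (mv 429 (both (five 3 429 430) (mv 461 (both (five 3 428 428) (mv 493 (both (five 2 460 492) (five 2 461 494))))))) (both (mv 429 (both (five 3 429 430) (mv 433 (both (five 1 430 434) (mv 461 (both (five 3 428 428) (five 1 429 432))))))) (mv 433 (both (five 1 430 434) (mv 493 (both (five 2 461 494) (mv 496 (both (five 5 432 560) (mv 401 (both (five 6 368 369) (five 5 400 432)))))))))))) (both (mv 462 (both (mv 434 (both (five 1 430 433) (mv 466 (both (five 1 431 435) (mv 498 (both (five 0 462 497) (five 0 463 499))))))) (mv 493 (both (five 2 461 494) (mv 461 (both (five 2 460 492) (mv 428 (both (five 3 428 429) (mv 460 (both (five 3 427 427) (five 7 428 557))))))))))) (mv 462 (both (mv 493 (both (five 2 461 494) (mv 461 (both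 (five 2 460 492) (mv 428 (both (five 3 428 429) (mv 460 (both (five 3 427 427) (five 7 428 557))))))))) (both (mv 430 (both (five 3 429 429) (mv 466 (both (five 3 430 431) (mv 498 (both (five 0 462 497) (five 0 463 499))))))) (mv 493 (both (five 2 461 494) (mv 461 (both (five 2 460 492) (mv 430 (both (five 5 429 557) (mv 466 (both (five 3 430 431) (mv 498 (both (five 0 462 497) (five 0 463 499)))))))))))))))))) (both (mv 431 (both (mv 560 (both (five 4 431 495) (five 7 431 496))) (both (mv 496 (both (five 7 431 560) (mv 399 (both (five 4 367 367) (five 7 399 432))))) (both (mv 432 (both (mv 400 (both (five 5 399 495) (mv 368 (both (five 6 335 336) (mv 335 (both (five 7 335 367) (mv 369 (both (five 5 336 337) (mv 401 (both (five 5 368 496) (mv 402 (both (five 2 399 403) (mv 430 (both (five 1 397 429) (five 1 398 433))))))))))))))) (both (mv 495 (both (five 5 399 400) (mv 398 (both (five 7 398 430) (mv 399 (both (five 7 366 366) (mv 367 (both (five 4 335 335) (mv 462 (both (five 6 366 494) (mv 433 (both (five 2 430 434) (five 1 429 461))))))))))))) (both (mv 399 (both (five 7 399 496) (mv 367 (both (five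 4 335 335) (mv 334 (both (five 7 334 366) (mv 336 (both (five 5 335 368) (mv 462 (both (five 6 366 494) (mv 433 (both (five 2 430 434) (five 1 429 461))))))))))))) (mv 399 (both (five 7 399 496) (mv 495 (both (five 5 399 400) (mv 398 (both (five 7 366 366) (five 7 398 430))))))))))) (mv 495 (both (five 4 431 560) (mv 398 (both (five 7 398 430) (mv 399 (both (five 7 366 366) (mv 400 (both (five 5 367 368) (five 5 399 432))))))))))))) (both (mv 431 (both (mv 560 (both (five 4 431 495) (five 7 431 496))) (both (mv 432 (both (mv 399 (both (five 7 399 496) (mv 495 (both (five 5 399 400) (mv 398 (both (five 7 366 366) (five 7 398 430))))))) (both (mv 399 (both (five 7 399 496) (mv 367 (both (five 4 335 335) (mv 336 (both (five 5 335 368) (mv 366 (both (five 7 334 334) (mv 398 (both (five 7 366 495) (mv 397 (both (five 0 396 396) (mv 433 (both (five 3 397 430) (five 3 398 434))))))))))))))) (both (mv 496 (both (five 7 399 399) (mv 401 (both (five 5 400 433) (mv 400 (both (five 5 368 369) (mv 368 (both (five 6 335 336) (mv 465 (both (five 4 368 497) (mv 430 (both (five 0 429 429) (five 3 430 466)))))))))))))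 (both (mv 400 (both (five 5 399 495) (mv 368 (both (five 6 335 336) (mv 337 (both (five 5 336 369) (mv 465 (both (five 4 368 497) (mv 430 (both (five 0 429 429) (five 3 430 466))))))))))) (mv 399 (both (five 7 399 496) (mv 335 (both (five 4 335 367) (mv 400 (both (five 5 399 495) (mv 368 (both (five 6 335 336) (mv 337 (both (five 5 336 369) (mv 465 (both (five 4 368 497) (mv 466 (both (five 3 431 467) (mv 434 (both (five 1 431 435) (mv 433 (both (five 3 398 398) (mv 498 (both (five 0 463 499) (mv 530 (both (five 7 401 401) (five 7 433 562)))))))))))))))))))))))))))) (both (mv 496 (both (five 7 431 560) (mv 399 (both (five 4 367 367) (five 7 399 432))))) (mv 495 (both (five 4 431 560) (mv 398 (both (five 7 398 430) (mv 399 (both (five 7 366 366) (mv 400 (both (five 5 367 368) (five 5 399 432))))))))))))) (both (mv 465 (both (mv 466 (both (mv 435 (both (five 1 431 434) (mv 467 (both (five 1 432 436) (mv 499 (both (five 0 463 498) (five 0 464 500))))))) (mv 431 (both (five 3 430 430) (mv 560 (both (five 4 431 495) (five 7 431 496))))))) (both (mv 462 (both (mv 429 (both (five 3 429 430) (mv 461 (both (five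 3 428 428) (mv 493 (both (five 2 460 492) (five 2 461 494))))))) (mv 433 (both (five 1 430 434) (mv 496 (both (five 5 432 560) (mv 401 (both (five 6 368 369) (five 6 400 497))))))))) (both (mv 462 (both (mv 434 (both (five 1 430 433) (mv 466 (both (five 1 431 435) (mv 498 (both (five 0 462 497) (five 0 463 499))))))) (mv 493 (both (five 2 461 494) (mv 461 (both (five 2 460 492) (mv 428 (both (five 3 428 429) (mv 460 (both (five 3 427 427) (five 7 428 557))))))))))) (mv 462 (both (mv 493 (both (five 2 461 494) (mv 461 (both (five 2 460 492) (mv 428 (both (five 3 428 429) (mv 460 (both (five 3 427 427) (five 7 428 557))))))))) (both (mv 430 (both (five 3 429 429) (mv 466 (both (five 3 430 431) (mv 498 (both (five 0 462 497) (five 0 463 499))))))) (mv 493 (both (five 2 461 494) (mv 461 (both (five 2 460 492) (mv 430 (both (five 5 429 557) (mv 466 (both (five 3 430 431) (mv 498 (both (five 0 462 497) (five 0 463 499)))))))))))))))))) (both (mv 431 (both (mv 560 (both (five 4 431 495) (five 7 431 496))) (both (mv 496 (both (five 7 431 560) (mv 399 (both (five 4 367 367) (five 7 399 432))))) (both (mv 495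 (both (mv 430 (both (five 7 398 398) (mv 429 (both (five 0 428 428) (mv 465 (both (five 3 429 462) (five 3 430 466))))))) (mv 399 (both (five 4 399 496) (mv 400 (both (five 5 367 368) (five 5 399 432))))))) (mv 495 (both (five 4 431 560) (mv 398 (both (five 7 398 430) (mv 399 (both (five 7 366 366) (mv 400 (both (five 5 367 368) (five 5 399 432))))))))))))) (mv 496 (both (mv 431 (both (five 7 431 560) (mv 399 (both (five 4 367 367) (five 7 399 432))))) (both (mv 432 (both (mv 433 (both (five 5 400 401) (mv 434 (both (five 2 431 435) (mv 462 (both (five 1 429 461) (five 1 430 465))))))) (mv 399 (both (five 7 399 431) (mv 400 (both (five 7 367 367) (five 6 399 495))))))) (both (mv 432 (both (mv 433 (both (five 5 400 401) (mv 434 (both (five 2 431 435) (mv 462 (both (five 1 429 461) (five 1 430 465))))))) (both (mv 400 (both (five 6 399 495) (mv 367 (both (five 7 367 399) (mv 368 (both (five 7 335 335) (mv 369 (both (five 5 336 337) (five 5 368 401))))))))) (mv 400 (both (five 6 399 495) (mv 367 (both (five 7 367 399) (mv 368 (both (five 7 335 335) (mv 337 (both (five 5 336 369) (mv 305 (both (five 5 304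 336) (mv 465 (both (five 4 368 497) (mv 433 (both (five 5 432 560) (mv 434 (both (five 2 431 435) (five 1 430 462)))))))))))))))))))) (both (mv 431 (both (five 7 431 560) (mv 399 (both (five 4 367 367) (five 4 399 495))))) (mv 560 (both (five 7 431 431) (mv 433 (both (five 5 432 465) (mv 401 (both (five 5 400 432) (mv 592 (both (five 7 463 495) (mv 593 (both (five 4 464 561) (five 4 496 625)))))))))))))))))))))))) (both (mv 463 (both (mv 465 (both (mv 466 (both (mv 435 (both (five 1 431 434) (mv 467 (both (five 1 432 436) (mv 499 (both (five 0 463 498) (five 0 464 500))))))) (mv 431 (both (five 3 430 430) (mv 560 (both (five 4 431 495) (five 7 431 496))))))) (both (mv 462 (both (mv 429 (both (five 3 429 430) (mv 461 (both (five 3 428 428) (mv 493 (both (five 2 460 492) (five 2 461 494))))))) (mv 433 (both (five 1 430 434) (mv 496 (both (five 5 432 560) (mv 401 (both (five 6 368 369) (five 6 400 497))))))))) (both (mv 462 (both (mv 434 (both (five 1 430 433) (mv 466 (both (five 1 431 435) (mv 498 (both (five 0 462 497) (five 0 463 499))))))) (mv 493 (both (five 2 461 494) (mv 461 (both (five 2 460 492)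 (mv 428 (both (five 3 428 429) (mv 460 (both (five 3 427 427) (five 7 428 557))))))))))) (mv 462 (both (mv 493 (both (five 2 461 494) (mv 461 (both (five 2 460 492) (mv 428 (both (five 3 428 429) (mv 460 (both (five 3 427 427) (five 7 428 557))))))))) (both (mv 430 (both (five 3 429 429) (mv 466 (both (five 3 430 431) (mv 498 (both (five 0 462 497) (five 0 463 499))))))) (mv 493 (both (five 2 461 494) (mv 461 (both (five 2 460 492) (mv 430 (both (five 5 429 557) (mv 466 (both (five 3 430 431) (mv 498 (both (five 0 462 497) (five 0 463 499)))))))))))))))))) (both (mv 462 (both (mv 461 (both (mv 493 (both (five 2 460 492) (mv 430 (both (five 5 429 557) (mv 398 (both (five 6 365 366) (five 6 397 494))))))) (mv 428 (both (five 3 428 429) (mv 427 (both (five 3 427 460) (mv 496 (both (five 0 461 497) (mv 560 (both (five 7 431 431) (mv 591 (both (five 6 463 559) (mv 592 (both (five 6 495 623) (mv 593 (both (five 4 464 561) (five 4 496 625))))))))))))))))) (both (mv 465 (both (mv 430 (both (five 3 429 429) (mv 466 (both (five 3 430 431) (mv 498 (both (five 0 462 497) (five 0 463 499))))))) (both (mv 430 (both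 (five 3 429 429) (mv 434 (both (five 1 430 433) (mv 466 (both (five 3 430 431) (five 1 431 435))))))) (mv 433 (both (five 1 430 434) (mv 496 (both (five 5 432 560) (mv 401 (both (five 6 368 369) (five 6 400 497)))))))))) (both (mv 465 (both (mv 434 (both (five 1 430 433) (mv 466 (both (five 1 431 435) (mv 498 (both (five 0 462 497) (five 0 463 499))))))) (both (mv 433 (both (five 1 430 434) (mv 493 (both (five 2 461 494) (mv 461 (both (five 2 460 492) (mv 496 (both (five 5 432 560) (mv 369 (both (five 6 368 401) (mv 557 (both (five 5 429 430) (mv 428 (both (five 7 428 460) (mv 556 (both (five 6 460 588) (mv 558 (both (five 1 524 559) (five 4 461 590))))))))))))))))))) (mv 493 (both (five 2 461 494) (mv 461 (both (five 2 460 492) (mv 430 (both (five 5 429 557) (mv 466 (both (five 3 430 431) (mv 498 (both (five 0 462 497) (five 0 463 499)))))))))))))) (both (mv 465 (both (mv 434 (both (five 1 430 433) (mv 466 (both (five 1 431 435) (mv 498 (both (five 0 462 497) (five 0 463 499))))))) (mv 493 (both (five 2 461 494) (mv 461 (both (five 2 460 492) (mv 428 (both (five 3 428 429) (mv 460 (both (five 3 427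 427) (five 7 428 557))))))))))) (mv 465 (both (mv 493 (both (five 2 461 494) (mv 461 (both (five 2 460 492) (mv 428 (both (five 3 428 429) (mv 460 (both (five 3 427 427) (five 7 428 557))))))))) (both (mv 430 (both (five 3 429 429) (mv 434 (both (five 1 430 433) (mv 466 (both (five 3 430 431) (five 1 431 435))))))) (mv 433 (both (five 1 430 434) (mv 493 (both (five 2 461 494) (mv 461 (both (five 2 460 492) (mv 496 (both (five 5 432 560) (mv 369 (both (five 6 368 401) (mv 557 (both (five 5 429 430) (mv 428 (both (five 7 428 460) (mv 556 (both (five 6 460 588) (mv 558 (both (five 1 524 559) (five 4 461 590))))))))))))))))))))))))))) (both (mv 462 (both (mv 495 (both (mv 560 (both (five 4 431 431) (mv 592 (both (five 4 463 559) (five 7 495 624))))) (both (mv 431 (both (five 4 431 560) (mv 398 (both (five 7 398 430) (mv 399 (both (five 7 366 366) (mv 367 (both (five 6 366 494) (mv 368 (both (five 5 335 336) (five 5 367 400))))))))))) (mv 430 (both (five 7 430 559) (mv 398 (both (five 4 366 366) (five 4 398 494)))))))) (both (mv 465 (both (mv 434 (both (five 1 430 433) (mv 466 (both (five 1 431 435) (mv 498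 (both (five 0 462 497) (five 0 463 499))))))) (mv 493 (both (five 2 461 494) (mv 461 (both (five 2 460 492) (mv 428 (both (five 3 428 429) (mv 460 (both (five 3 427 427) (five 7 428 557))))))))))) (mv 430 (both (mv 495 (both (five 7 430 559) (mv 398 (both (five 4 366 366) (five 7 398 431))))) (mv 429 (both (five 3 429 465) (mv 428 (both (five 0 427 427) (five 3 428 461)))))))))) (both (mv 462 (both (mv 430 (both (mv 495 (both (five 7 430 559) (mv 398 (both (five 4 366 366) (five 7 398 431))))) (mv 429 (both (five 3 429 465) (mv 428 (both (five 0 427 427) (five 3 428 461))))))) (both (mv 461 (both (mv 493 (both (five 2 460 492) (mv 430 (both (five 5 429 557) (mv 398 (both (five 6 365 366) (five 6 397 494))))))) (mv 428 (both (five 3 428 429) (mv 460 (both (five 3 427 427) (mv 496 (both (five 0 460 495) (five 0 461 497))))))))) (both (mv 465 (both (mv 434 (both (five 1 430 433) (mv 466 (both (five 1 431 435) (mv 498 (both (five 0 462 497) (five 0 463 499))))))) (both (mv 430 (both (five 3 429 429) (mv 466 (both (five 3 430 431) (mv 498 (both (five 0 462 497) (five 0 463 499))))))) (mv 430 (both (five 3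 429 429) (mv 433 (both (five 1 430 434) (mv 494 (both (five 2 461 493) (mv 398 (both (five 4 398 495) (mv 365 (both (five 7 365 397) (mv 366 (both (five 7 333 333) (mv 367 (both (five 5 334 335) (five 5 366 399)))))))))))))))))) (both (mv 465 (both (mv 434 (both (five 1 430 433) (mv 466 (both (five 1 431 435) (mv 498 (both (five 0 462 497) (five 0 463 499))))))) (mv 493 (both (five 2 461 494) (mv 461 (both (five 2 460 492) (mv 428 (both (five 3 428 429) (mv 460 (both (five 3 427 427) (five 7 428 557))))))))))) (mv 465 (both (mv 434 (both (five 1 430 433) (mv 466 (both (five 1 431 435) (mv 498 (both (five 0 462 497) (five 0 463 499))))))) (both (mv 433 (both (five 1 430 434) (mv 493 (both (five 2 461 494) (mv 461 (both (five 2 460 492) (mv 557 (both (five 5 429 430) (mv 428 (both (five 7 428 460) (mv 556 (both (five 6 460 588) (mv 558 (both (five 1 524 559) (five 4 461 590))))))))))))))) (mv 494 (both (five 2 461 493) (mv 466 (both (five 2 462 495) (mv 498 (both (five 0 462 497) (five 0 463 499))))))))))))))) (both (mv 462 (both (mv 465 (both (mv 433 (both (five 1 430 434) (mv 496 (both (five 5 432 560)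 (mv 401 (both (five 6 368 369) (five 6 400 497))))))) (both (mv 494 (both (five 2 461 493) (mv 466 (both (five 2 462 495) (mv 498 (both (five 0 462 497) (five 0 463 499))))))) (mv 430 (both (five 3 429 429) (mv 433 (both (five 1 430 434) (mv 494 (both (five 2 461 493) (mv 495 (both (five 4 398 398) (five 7 430 559)))))))))))) (both (mv 465 (both (mv 434 (both (five 1 430 433) (mv 466 (both (five 1 431 435) (mv 498 (both (five 0 462 497) (five 0 463 499))))))) (both (mv 429 (both (five 3 429 430) (mv 428 (both (five 3 428 461) (mv 434 (both (five 1 430 433) (mv 466 (both (five 1 431 435) (mv 495 (both (five 2 462 494) (mv 467 (both (five 2 463 496) (mv 499 (both (five 0 463 498) (five 0 464 500))))))))))))))) (both (mv 433 (both (five 1 430 434) (mv 496 (both (five 5 432 560) (mv 401 (both (five 6 368 369) (five 6 400 497))))))) (both (mv 498 (both (five 0 462 497) (mv 466 (both (five 0 463 499) (mv 435 (both (five 1 431 434) (mv 467 (both (five 1 432 436) (mv 495 (both (five 2 462 494) (five 2 463 496))))))))))) (mv 498 (both (five 0 462 497) (mv 466 (both (five 0 463 499) (mv 495 (both (five 2 462 494)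 (mv 496 (both (five 2 463 467) (mv 560 (both (five 5 432 433) (five 7 463 592)))))))))))))))) (both (mv 465 (both (mv 434 (both (five 1 430 433) (mv 466 (both (five 1 431 435) (mv 498 (both (five 0 462 497) (five 0 463 499))))))) (mv 493 (both (five 2 461 494) (mv 461 (both (five 2 460 492) (mv 428 (both (five 3 428 429) (mv 460 (both (five 3 427 427) (five 7 428 557))))))))))) (both (mv 461 (both (mv 428 (both (five 3 428 429) (mv 460 (both (five 3 427 427) (mv 492 (both (five 2 459 491) (five 2 460 493))))))) (both (mv 428 (both (five 3 428 429) (mv 460 (both (five 3 427 427) (mv 496 (both (five 0 460 495) (five 0 461 497))))))) (both (mv 492 (both (five 2 460 493) (mv 460 (both (five 2 459 491) (mv 496 (both (five 0 460 495) (five 0 461 497))))))) (mv 428 (both (five 3 428 429) (mv 493 (both (five 2 460 492) (mv 430 (both (five 5 429 557) (mv 366 (both (five 6 365 398) (mv 496 (both (five 0 461 497) (mv 559 (both (five 7 430 495) (mv 591 (both (five 6 463 560) (five 5 495 623))))))))))))))))))) (both (mv 461 (both (mv 493 (both (five 2 460 492) (mv 430 (both (five 5 429 557) (mv 398 (both (five 6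 365 366) (five 6 397 494))))))) (both (mv 428 (both (five 3 428 429) (mv 460 (both (five 3 427 427) (mv 491 (both (five 2 459 492) (mv 459 (both (five 2 458 490) (mv 495 (both (five 0 459 494) (five 0 460 496))))))))))) (both (mv 428 (both (five 3 428 429) (mv 460 (both (five 3 427 427) (mv 493 (both (five 7 428 557) (mv 364 (both (five 4 364 396) (mv 494 (both (five 2 461 465) (mv 459 (both (five 0 458 458) (five 0 459 495))))))))))))) (mv 428 (both (five 3 428 429) (mv 460 (both (five 3 427 427) (mv 492 (both (five 2 459 491) (five 2 460 493))))))))))) (mv 465 (both (mv 434 (both (five 1 430 433) (mv 466 (both (five 1 431 435) (mv 498 (both (five 0 462 497) (five 0 463 499))))))) (both (mv 433 (both (five 1 430 434) (mv 493 (both (five 2 461 494) (mv 461 (both (five 2 460 492) (mv 557 (both (five 5 429 430) (mv 428 (both (five 7 428 460) (mv 556 (both (five 6 460 588) (mv 558 (both (five 1 524 559) (five 4 461 590))))))))))))))) (mv 494 (both (five 2 461 493) (mv 466 (both (five 2 462 495) (mv 498 (both (five 0 462 497) (five 0 463 499)))))))))))))))) (both (mv 462 (both (mv 495 (both (mv 560 (both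 (five 4 431 431) (mv 592 (both (five 4 463 559) (five 7 495 624))))) (both (mv 431 (both (five 4 431 560) (mv 398 (both (five 7 398 430) (mv 399 (both (five 7 366 366) (mv 367 (both (five 6 366 494) (mv 368 (both (five 5 335 336) (five 5 367 400))))))))))) (mv 430 (both (five 7 430 559) (mv 398 (both (five 4 366 366) (five 4 398 494)))))))) (both (mv 461 (both (mv 493 (both (five 2 460 492) (mv 430 (both (five 5 429 557) (mv 398 (both (five 6 365 366) (five 6 397 494))))))) (mv 428 (both (five 3 428 429) (mv 427 (both (five 3 427 460) (mv 496 (both (five 0 461 497) (mv 560 (both (five 7 431 431) (mv 591 (both (five 6 463 559) (mv 592 (both (five 6 495 623) (mv 593 (both (five 4 464 561) (five 4 496 625))))))))))))))))) (both (mv 461 (both (mv 493 (both (five 2 460 492) (mv 430 (both (five 5 429 557) (mv 398 (both (five 6 365 366) (five 6 397 494))))))) (mv 428 (both (five 3 428 429) (mv 460 (both (five 3 427 427) (mv 496 (both (five 0 460 495) (five 0 461 497))))))))) (mv 496 (both (mv 431 (both (five 7 431 560) (mv 399 (both (five 4 367 367) (five 4 399 495))))) (mv 461 (both (five 0 461 497) (mv 428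 (both (five 3 428 429) (mv 460 (both (five 3 427 427) (mv 492 (both (five 2 459 491) (five 2 460 493))))))))))))))) (both (mv 560 (both (mv 431 (both (five 4 431 495) (five 7 431 496))) (both (mv 495 (both (five 4 431 431) (mv 592 (both (five 4 463 559) (five 7 495 624))))) (both (mv 496 (both (mv 592 (both (five 7 463 495) (mv 593 (both (five 4 464 561) (five 4 496 625))))) (both (mv 465 (both (five 5 432 433) (mv 559 (both (five 6 463 591) (mv 561 (both (five 4 464 593) (mv 562 (both (five 3 527 563) (mv 530 (both (five 1 527 531) (mv 594 (both (five 0 559 595) (mv 498 (both (five 7 465 497) (mv 499 (both (five 0 463 466) (five 5 466 467))))))))))))))))) (mv 433 (both (five 5 432 465) (mv 495 (both (five 7 463 592) (mv 559 (both (five 5 463 591) (mv 558 (both (five 6 462 590) (mv 557 (both (five 3 524 524) (five 1 524 556)))))))))))))) (mv 496 (both (five 7 431 431) (mv 591 (both (five 6 463 559) (mv 592 (both (five 6 495 623) (mv 593 (both (five 4 464 561) (five 4 496 625))))))))))))) (both (mv 495 (both (mv 560 (both (five 4 431 431) (mv 592 (both (five 4 463 559) (five 7 495 624))))) (both (mv 559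 (both (mv 430 (both (five 7 430 462) (mv 431 (both (five 7 398 398) (mv 428 (both (five 0 428 429) (mv 465 (both (five 3 430 466) (mv 496 (both (five 4 399 399) (mv 493 (both (five 1 461 494) (mv 558 (both (five 6 462 590) (mv 557 (both (five 1 524 556) (mv 460 (both (five 7 428 461) (mv 492 (both (five 4 396 396) (five 4 428 524))))))))))))))))))))) (both (mv 590 (both (five 6 462 558) (mv 591 (both (five 5 463 496) (five 6 494 622))))) (mv 462 (both (five 7 430 430) (mv 494 (both (five 7 462 591) (mv 465 (both (five 2 462 466) (five 2 461 493)))))))))) (both (mv 559 (both (mv 558 (both (five 6 462 590) (mv 557 (both (five 1 524 556) (mv 560 (both (five 3 524 524) (five 4 463 592))))))) (mv 462 (both (five 7 430 430) (mv 494 (both (five 7 462 591) (mv 465 (both (five 2 462 466) (five 2 461 493))))))))) (mv 431 (both (five 4 431 560) (mv 430 (both (five 7 398 398) (mv 429 (both (five 0 428 428) (mv 465 (both (five 3 429 462) (five 3 430 466))))))))))))) (mv 495 (both (mv 560 (both (five 4 431 431) (mv 592 (both (five 4 463 559) (five 7 495 624))))) (both (mv 431 (both (mv 430 (both (five 7 398 398) (mv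 429 (both (five 0 428 428) (mv 465 (both (five 3 429 462) (five 3 430 466))))))) (both (mv 399 (both (five 4 399 496) (mv 366 (both (five 7 366 398) (mv 367 (both (five 7 334 334) (mv 368 (both (five 5 335 336) (five 5 367 400))))))))) (mv 399 (both (five 4 399 496) (mv 368 (both (five 5 367 400) (mv 367 (both (five 5 335 336) (mv 334 (both (five 7 334 366) (mv 302 (both (five 7 302 335) (mv 462 (both (five 6 366 494) (mv 430 (both (five 7 430 559) (mv 429 (both (five 3 429 465) (mv 428 (both (five 0 427 427) (five 3 428 461)))))))))))))))))))))) (both (mv 496 (both (mv 559 (both (five 5 463 591) (mv 462 (both (five 7 430 430) (mv 461 (both (five 0 461 497) (mv 428 (both (five 3 428 429) (mv 460 (both (five 3 427 427) (mv 492 (both (five 2 459 491) (five 2 460 493))))))))))))) (mv 560 (both (five 7 463 592) (mv 465 (both (five 5 432 433) (mv 466 (both (five 2 463 467) (five 2 462 494))))))))) (mv 431 (both (five 4 431 560) (mv 430 (both (five 7 398 398) (mv 429 (both (five 0 428 428) (mv 465 (both (five 3 429 462) (five 3 430 466)))))))))))))))))))))) (both (mv 496 (both (mv 432 (both (five 6 431 559)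 (mv 399 (both (five 7 399 431) (mv 400 (both (five 7 367 367) (mv 401 (both (five 5 368 369) (five 5 400 433))))))))) (both (mv 560 (both (mv 591 (both (five 6 463 559) (mv 592 (both (five 6 495 623) (mv 593 (both (five 4 464 561) (five 4 496 625))))))) (both (mv 431 (both (five 7 431 463) (mv 465 (both (five 5 432 433) (mv 592 (both (five 5 464 497) (mv 593 (both (five 4 464 561) (five 4 496 625))))))))) (both (mv 431 (both (five 7 431 463) (mv 465 (both (five 5 432 433) (mv 591 (both (five 6 463 559) (mv 592 (both (five 5 464 497) (five 6 495 623))))))))) (mv 463 (both (five 7 431 431) (mv 465 (both (five 5 432 433) (mv 559 (both (five 6 463 591) (mv 561 (both (five 4 464 593) (mv 562 (both (five 3 527 563) (mv 530 (both (five 1 527 531) (mv 594 (both (five 0 559 595) (mv 498 (both (five 7 465 497) (mv 499 (both (five 0 463 466) (five 5 466 467))))))))))))))))))))))) (both (mv 431 (both (mv 399 (both (five 7 399 432) (mv 463 (both (five 4 367 367) (five 7 431 560))))) (both (mv 560 (both (five 7 431 463) (mv 465 (both (five 5 432 433) (mv 592 (both (five 5 464 497) (mv 593 (both (five 4 464 561) (five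 4 496 625))))))))) (both (mv 432 (both (five 7 399 399) (mv 465 (both (mv 430 (both (five 0 429 429) (mv 466 (both (five 3 430 463) (five 3 431 467))))) (both (mv 401 (both (five 5 400 433) (mv 400 (both (five 5 368 369) (mv 368 (both (five 4 368 497) (mv 335 (both (five 7 335 367) (mv 336 (both (five 7 303 303) (five 6 335 463))))))))))) (mv 430 (both (five 0 429 429) (mv 433 (both (five 5 400 401) (five 0 430 466)))))))))) (mv 432 (both (five 7 399 399) (mv 433 (both (five 5 400 401) (mv 465 (both (five 5 432 560) (mv 430 (both (five 0 429 429) (five 0 430 466))))))))))))) (mv 559 (both (five 6 431 432) (mv 591 (both (five 6 463 560) (five 5 495 623))))))))) (both (mv 463 (both (mv 462 (both (mv 465 (both (mv 434 (both (five 1 430 433) (mv 466 (both (five 1 431 435) (mv 498 (both (five 0 462 497) (five 0 463 499))))))) (both (mv 430 (both (five 3 429 429) (mv 466 (both (five 3 430 431) (mv 498 (both (five 0 462 497) (five 0 463 499))))))) (mv 429 (both (five 3 429 430) (mv 433 (both (five 1 430 434) (mv 461 (both (five 3 428 428) (five 1 429 432)))))))))) (both (mv 461 (both (mv 428 (both (five 3 428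 429) (mv 432 (both (five 1 429 433) (mv 460 (both (five 3 427 427) (five 1 428 431))))))) (mv 493 (both (five 2 460 492) (mv 430 (both (five 5 429 557) (mv 398 (both (five 6 365 366) (five 6 397 494))))))))) (both (mv 465 (both (mv 434 (both (five 1 430 433) (mv 466 (both (five 1 431 435) (mv 498 (both (five 0 462 497) (five 0 463 499))))))) (both (mv 430 (both (five 3 429 429) (mv 466 (both (five 3 430 431) (mv 498 (both (five 0 462 497) (five 0 463 499))))))) (mv 430 (both (five 3 429 429) (mv 433 (both (five 1 430 434) (mv 494 (both (five 2 461 493) (mv 398 (both (five 4 398 495) (mv 365 (both (five 7 365 397) (mv 366 (both (five 7 333 333) (mv 367 (both (five 5 334 335) (five 5 366 399)))))))))))))))))) (both (mv 465 (both (mv 434 (both (five 1 430 433) (mv 466 (both (five 1 431 435) (mv 498 (both (five 0 462 497) (five 0 463 499))))))) (both (mv 494 (both (five 2 461 493) (mv 466 (both (five 2 462 495) (mv 498 (both (five 0 462 497) (five 0 463 499))))))) (mv 433 (both (five 1 430 434) (mv 461 (both (five 1 429 432) (mv 493 (both (five 2 460 492) (five 2 461 494)))))))))) (mv 465 (both (mv 493 (both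 (five 2 461 494) (mv 461 (both (five 2 460 492) (mv 428 (both (five 3 428 429) (mv 460 (both (five 3 427 427) (five 7 428 557))))))))) (both (mv 493 (both (five 2 461 494) (mv 461 (both (five 2 460 492) (mv 430 (both (five 5 429 557) (mv 466 (both (five 3 430 431) (mv 498 (both (five 0 462 497) (five 0 463 499))))))))))) (mv 430 (both (five 3 429 429) (mv 466 (both (five 3 430 431) (mv 498 (both (five 0 462 497) (five 0 463 499))))))))))))))) (both (mv 462 (both (mv 430 (both (mv 495 (both (five 7 430 559) (mv 398 (both (five 4 366 366) (five 7 398 431))))) (mv 429 (both (five 3 429 465) (mv 428 (both (five 0 427 427) (five 3 428 461))))))) (both (mv 461 (both (mv 493 (both (five 2 460 492) (mv 430 (both (five 5 429 557) (mv 398 (both (five 6 365 366) (five 6 397 494))))))) (mv 428 (both (five 3 428 429) (mv 460 (both (five 3 427 427) (mv 496 (both (five 0 460 495) (five 0 461 497))))))))) (both (mv 465 (both (mv 434 (both (five 1 430 433) (mv 466 (both (five 1 431 435) (mv 498 (both (five 0 462 497) (five 0 463 499))))))) (both (mv 430 (both (five 3 429 429) (mv 466 (both (five 3 430 431) (mv 498 (both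 (five 0 462 497) (five 0 463 499))))))) (mv 430 (both (five 3 429 429) (mv 433 (both (five 1 430 434) (mv 494 (both (five 2 461 493) (mv 398 (both (five 4 398 495) (mv 365 (both (five 7 365 397) (mv 366 (both (five 7 333 333) (mv 367 (both (five 5 334 335) (five 5 366 399)))))))))))))))))) (both (mv 465 (both (mv 434 (both (five 1 430 433) (mv 466 (both (five 1 431 435) (mv 498 (both (five 0 462 497) (five 0 463 499))))))) (mv 493 (both (five 2 461 494) (mv 461 (both (five 2 460 492) (mv 428 (both (five 3 428 429) (mv 460 (both (five 3 427 427) (five 7 428 557))))))))))) (mv 465 (both (mv 434 (both (five 1 430 433) (mv 466 (both (five 1 431 435) (mv 498 (both (five 0 462 497) (five 0 463 499))))))) (both (mv 433 (both (five 1 430 434) (mv 493 (both (five 2 461 494) (mv 461 (both (five 2 460 492) (mv 557 (both (five 5 429 430) (mv 428 (both (five 7 428 460) (mv 556 (both (five 6 460 588) (mv 558 (both (five 1 524 559) (five 4 461 590))))))))))))))) (mv 494 (both (five 2 461 493) (mv 466 (both (five 2 462 495) (mv 498 (both (five 0 462 497) (five 0 463 499))))))))))))))) (both (mv 462 (both (mv 465 (both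 (mv 434 (both (five 1 430 433) (mv 466 (both (five 1 431 435) (mv 498 (both (five 0 462 497) (five 0 463 499))))))) (both (mv 430 (both (five 3 429 429) (mv 466 (both (five 3 430 431) (mv 498 (both (five 0 462 497) (five 0 463 499))))))) (mv 429 (both (five 3 429 430) (mv 433 (both (five 1 430 434) (mv 461 (both (five 3 428 428) (five 1 429 432)))))))))) (both (mv 465 (both (mv 434 (both (five 1 430 433) (mv 466 (both (five 1 431 435) (mv 498 (both (five 0 462 497) (five 0 463 499))))))) (both (mv 430 (both (five 3 429 429) (mv 466 (both (five 3 430 431) (mv 498 (both (five 0 462 497) (five 0 463 499))))))) (both (mv 430 (both (five 3 429 429) (mv 434 (both (five 1 430 433) (mv 466 (both (five 3 430 431) (five 1 431 435))))))) (mv 429 (both (five 3 429 430) (mv 433 (both (five 1 430 434) (mv 493 (both (five 2 461 494) (mv 497 (both (five 0 462 498) (mv 401 (both (five 6 400 496) (mv 368 (both (five 7 368 400) (mv 369 (both (five 7 336 336) (mv 370 (both (five 5 337 338) (five 5 369 402))))))))))))))))))))) (both (mv 461 (both (mv 428 (both (five 3 428 429) (mv 432 (both (five 1 429 433) (mv 460 (both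 (five 3 427 427) (five 1 428 431))))))) (mv 493 (both (five 2 460 492) (mv 430 (both (five 5 429 557) (mv 398 (both (five 6 365 366) (five 6 397 494))))))))) (both (mv 465 (both (mv 493 (both (five 2 461 494) (mv 461 (both (five 2 460 492) (mv 428 (both (five 3 428 429) (mv 460 (both (five 3 427 427) (five 7 428 557))))))))) (both (mv 493 (both (five 2 461 494) (mv 461 (both (five 2 460 492) (mv 430 (both (five 5 429 557) (mv 466 (both (five 3 430 431) (mv 498 (both (five 0 462 497) (five 0 463 499))))))))))) (mv 430 (both (five 3 429 429) (mv 466 (both (five 3 430 431) (mv 498 (both (five 0 462 497) (five 0 463 499)))))))))) (both (mv 465 (both (mv 434 (both (five 1 430 433) (mv 466 (both (five 1 431 435) (mv 498 (both (five 0 462 497) (five 0 463 499))))))) (mv 493 (both (five 2 461 494) (mv 461 (both (five 2 460 492) (mv 428 (both (five 3 428 429) (mv 460 (both (five 3 427 427) (five 7 428 557))))))))))) (mv 465 (both (mv 434 (both (five 1 430 433) (mv 466 (both (five 1 431 435) (mv 498 (both (five 0 462 497) (five 0 463 499))))))) (both (mv 493 (both (five 2 461 494) (mv 461 (both (five 2 460 492)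 (mv 430 (both (five 5 429 557) (mv 466 (both (five 3 430 431) (mv 498 (both (five 0 462 497) (five 0 463 499))))))))))) (mv 433 (both (five 1 430 434) (mv 461 (both (five 1 429 432) (mv 493 (both (five 2 460 492) (five 2 461 494)))))))))))))))) (both (mv 432 (both (mv 559 (both (five 5 431 495) (five 6 431 496))) (both (mv 495 (both (five 5 431 559) (mv 400 (both (five 6 367 368) (five 5 399 431))))) (both (mv 431 (both (mv 399 (both (five 7 399 496) (mv 495 (both (five 5 399 400) (mv 398 (both (five 7 366 366) (five 7 398 430))))))) (both (mv 399 (both (five 7 399 496) (mv 367 (both (five 4 335 335) (mv 336 (both (five 5 335 368) (mv 366 (both (five 7 334 334) (mv 398 (both (five 7 366 495) (mv 397 (both (five 0 396 396) (mv 433 (both (five 3 397 430) (five 3 398 434))))))))))))))) (both (mv 496 (both (five 7 399 399) (mv 401 (both (five 5 400 433) (mv 400 (both (five 5 368 369) (mv 368 (both (five 6 335 336) (mv 465 (both (five 4 368 497) (mv 430 (both (five 0 429 429) (five 3 430 466))))))))))))) (both (mv 400 (both (five 5 399 495) (mv 368 (both (five 6 335 336) (mv 337 (both (five 5 336 369) (mv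 465 (both (five 4 368 497) (mv 430 (both (five 0 429 429) (five 3 430 466))))))))))) (mv 399 (both (five 7 399 496) (mv 335 (both (five 4 335 367) (mv 400 (both (five 5 399 495) (mv 368 (both (five 6 335 336) (mv 337 (both (five 5 336 369) (mv 465 (both (five 4 368 497) (mv 466 (both (five 3 431 467) (mv 434 (both (five 1 431 435) (mv 433 (both (five 3 398 398) (mv 498 (both (five 0 463 499) (mv 530 (both (five 7 401 401) (five 7 433 562)))))))))))))))))))))))))))) (mv 496 (both (five 6 431 559) (mv 399 (both (five 7 399 431) (mv 400 (both (five 7 367 367) (mv 401 (both (five 5 368 369) (five 5 400 433))))))))))))) (both (mv 432 (both (mv 559 (both (five 5 431 495) (five 6 431 496))) (both (mv 431 (both (mv 399 (both (five 7 399 496) (mv 495 (both (five 5 399 400) (mv 398 (both (five 7 366 366) (five 7 398 430))))))) (both (mv 400 (both (five 5 399 495) (mv 368 (both (five 6 335 336) (mv 335 (both (five 7 335 367) (mv 369 (both (five 5 336 337) (mv 401 (both (five 5 368 496) (mv 402 (both (five 2 399 403) (mv 430 (both (five 1 397 429) (five 1 398 433))))))))))))))) (both (mv 495 (both (five 5 399 400)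 (mv 398 (both (five 7 398 430) (mv 399 (both (five 7 366 366) (mv 367 (both (five 4 335 335) (mv 462 (both (five 6 366 494) (mv 433 (both (five 2 430 434) (five 1 429 461))))))))))))) (mv 399 (both (five 7 399 496) (mv 367 (both (five 4 335 335) (mv 334 (both (five 7 334 366) (mv 336 (both (five 5 335 368) (mv 462 (both (five 6 366 494) (mv 433 (both (five 2 430 434) (five 1 429 461))))))))))))))))) (both (mv 495 (both (five 5 431 559) (mv 400 (both (five 6 367 368) (five 5 399 431))))) (mv 496 (both (five 6 431 559) (mv 399 (both (five 7 399 431) (mv 400 (both (five 7 367 367) (mv 401 (both (five 5 368 369) (five 5 400 433))))))))))))) (both (mv 462 (both (mv 465 (both (mv 434 (both (five 1 430 433) (mv 466 (both (five 1 431 435) (mv 498 (both (five 0 462 497) (five 0 463 499))))))) (both (mv 494 (both (five 2 461 493) (mv 466 (both (five 2 462 495) (mv 498 (both (five 0 462 497) (five 0 463 499))))))) (mv 433 (both (five 1 430 434) (mv 461 (both (five 1 429 432) (mv 493 (both (five 2 460 492) (five 2 461 494)))))))))) (both (mv 465 (both (mv 434 (both (five 1 430 433) (mv 466 (both (five 1 431 435)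 (mv 498 (both (five 0 462 497) (five 0 463 499))))))) (both (mv 430 (both (five 3 429 429) (mv 433 (both (five 1 430 434) (mv 494 (both (five 2 461 493) (mv 495 (both (five 4 398 398) (five 7 430 559))))))))) (mv 494 (both (five 2 461 493) (mv 466 (both (five 2 462 495) (mv 498 (both (five 0 462 497) (five 0 463 499)))))))))) (both (mv 465 (both (mv 434 (both (five 1 430 433) (mv 466 (both (five 1 431 435) (mv 498 (both (five 0 462 497) (five 0 463 499))))))) (mv 429 (both (five 3 429 430) (mv 461 (both (five 3 428 428) (mv 493 (both (five 2 460 492) (five 2 461 494))))))))) (both (mv 461 (both (mv 493 (both (five 2 460 492) (mv 430 (both (five 5 429 557) (mv 398 (both (five 6 365 366) (five 6 397 494))))))) (mv 428 (both (five 3 428 429) (mv 460 (both (five 3 427 427) (mv 496 (both (five 0 460 495) (five 0 461 497))))))))) (mv 559 (both (mv 432 (both (five 5 431 495) (five 6 431 496))) (both (mv 432 (both (five 6 431 496) (mv 433 (both (five 1 429 461) (mv 434 (both (five 2 431 435) (five 1 430 465))))))) (mv 430 (both (five 7 430 495) (mv 429 (both (five 3 429 465) (mv 428 (both (five 0 427 427) (five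 3 428 461))))))))))))))) (both (mv 432 (both (mv 559 (both (five 5 431 495) (five 6 431 496))) (both (mv 495 (both (five 5 431 559) (mv 400 (both (five 6 367 368) (five 5 399 431))))) (both (mv 496 (both (mv 399 (both (five 7 399 431) (mv 400 (both (five 7 367 367) (five 6 399 495))))) (mv 433 (both (five 5 400 401) (mv 434 (both (five 2 431 435) (mv 462 (both (five 1 429 461) (five 1 430 465))))))))) (mv 496 (both (five 6 431 559) (mv 399 (both (five 7 399 431) (mv 400 (both (five 7 367 367) (mv 401 (both (five 5 368 369) (five 5 400 433))))))))))))) (mv 495 (both (mv 432 (both (five 5 431 559) (mv 400 (both (five 6 367 368) (five 5 399 431))))) (both (mv 431 (both (mv 399 (both (five 4 399 496) (mv 400 (both (five 5 367 368) (five 5 399 432))))) (mv 430 (both (five 7 398 398) (mv 429 (both (five 0 428 428) (mv 465 (both (five 3 429 462) (five 3 430 466))))))))) (both (mv 432 (both (five 5 431 559) (mv 400 (both (five 6 367 368) (five 6 399 496))))) (mv 559 (both (mv 430 (both (five 7 430 462) (mv 431 (both (five 7 398 398) (mv 428 (both (five 0 428 429) (mv 465 (both (five 3 430 466) (mv 496 (both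 (five 4 399 399) (mv 493 (both (five 1 461 494) (mv 558 (both (five 6 462 590) (mv 557 (both (five 1 524 556) (mv 460 (both (five 7 428 461) (mv 492 (both (five 4 396 396) (five 4 428 524))))))))))))))))))))) (both (mv 590 (both (five 6 462 558) (mv 591 (both (five 5 463 496) (five 6 494 622))))) (mv 462 (both (five 7 430 430) (mv 494 (both (five 7 462 591) (mv 465 (both (five 2 462 466) (five 2 461 493)))))))))))))))))))))) (both (mv 496 (both (mv 559 (both (five 6 431 432) (mv 591 (both (five 6 463 560) (five 5 495 623))))) (both (mv 560 (both (mv 591 (both (five 6 463 559) (mv 592 (both (five 6 495 623) (mv 593 (both (five 4 464 561) (five 4 496 625))))))) (both (mv 593 (both (five 4 464 561) (mv 592 (both (five 4 496 625) (mv 623 (both (five 6 495 591) (mv 624 (both (five 7 495 495) (five 6 527 655))))))))) (both (mv 431 (both (five 7 431 463) (mv 593 (both (five 4 464 561) (mv 592 (both (five 4 496 625) (mv 624 (both (five 7 495 495) (mv 655 (both (five 6 527 623) (mv 656 (both (five 7 527 559) (five 6 559 687))))))))))))) (mv 463 (both (five 7 431 431) (mv 462 (both (mv 461 (both (five 0 461 497)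 (mv 428 (both (five 3 428 429) (mv 460 (both (five 3 427 427) (mv 492 (both (five 2 459 491) (five 2 460 493))))))))) (mv 559 (both (five 6 463 591) (mv 495 (both (five 7 430 430) (mv 558 (both (five 6 462 590) (mv 557 (both (five 3 524 524) (five 1 524 556))))))))))))))))) (both (mv 432 (both (mv 399 (both (five 7 399 431) (mv 400 (both (five 7 367 367) (five 6 399 495))))) (both (mv 401 (both (five 5 400 433) (mv 431 (both (five 7 399 399) (mv 560 (both (five 7 431 463) (mv 593 (both (five 4 464 561) (mv 592 (both (five 4 496 625) (mv 623 (both (five 6 495 591) (mv 624 (both (five 7 495 495) (five 6 527 655))))))))))))))) (both (mv 399 (both (five 7 399 431) (mv 400 (both (five 7 367 367) (mv 401 (both (five 5 368 369) (five 5 400 433))))))) (mv 400 (both (five 6 399 495) (mv 401 (both (five 5 368 369) (five 5 400 433))))))))) (mv 432 (both (five 6 431 559) (mv 399 (both (five 7 399 431) (mv 400 (both (five 7 367 367) (mv 401 (both (five 5 368 369) (five 5 400 433))))))))))))) (both (mv 496 (both (mv 559 (both (five 6 431 432) (mv 591 (both (five 6 463 560) (five 5 495 623))))) (both (mv 560 (both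 (mv 465 (both (five 5 432 433) (mv 592 (both (five 5 464 497) (mv 593 (both (five 4 464 561) (five 4 496 625))))))) (both (mv 593 (both (five 4 464 561) (mv 592 (both (five 4 496 625) (mv 623 (both (five 6 495 591) (mv 624 (both (five 7 495 495) (five 6 527 655))))))))) (mv 432 (both (mv 400 (both (five 6 399 495) (mv 367 (both (five 7 367 399) (mv 368 (both (five 7 335 335) (mv 369 (both (five 5 336 337) (five 5 368 401))))))))) (both (mv 433 (both (five 5 400 401) (five 5 432 465))) (mv 400 (both (five 6 399 495) (mv 367 (both (five 7 367 399) (mv 368 (both (five 7 335 335) (mv 465 (both (five 5 432 433) (five 4 368 497))))))))))))))) (both (mv 560 (both (mv 591 (both (five 6 463 559) (mv 592 (both (five 6 495 623) (mv 593 (both (five 4 464 561) (five 4 496 625))))))) (both (mv 465 (both (five 5 432 433) (mv 592 (both (five 5 464 497) (mv 593 (both (five 4 464 561) (five 4 496 625))))))) (both (mv 465 (both (five 5 432 433) (mv 591 (both (five 6 463 559) (mv 592 (both (five 5 464 497) (five 6 495 623))))))) (mv 465 (both (five 5 432 433) (mv 559 (both (five 6 463 591) (mv 561 (both (five 4 464 593)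 (mv 562 (both (five 3 527 563) (mv 530 (both (five 1 527 531) (mv 594 (both (five 0 559 595) (mv 498 (both (five 7 465 497) (mv 467 (both (five 5 466 499) (mv 466 (both (five 5 434 435) (five 2 463 495))))))))))))))))))))))) (mv 432 (both (five 6 431 559) (mv 400 (both (five 6 399 495) (mv 401 (both (five 5 368 369) (five 5 400 433))))))))))) (both (mv 463 (both (mv 431 (both (mv 560 (both (five 4 431 495) (five 7 431 496))) (both (mv 496 (both (five 7 431 560) (mv 399 (both (five 4 367 367) (five 7 399 432))))) (both (mv 495 (both (mv 430 (both (five 7 398 398) (mv 429 (both (five 0 428 428) (mv 465 (both (five 3 429 462) (five 3 430 466))))))) (mv 399 (both (five 4 399 496) (mv 400 (both (five 5 367 368) (five 5 399 432))))))) (mv 495 (both (five 4 431 560) (mv 398 (both (five 7 398 430) (mv 399 (both (five 7 366 366) (mv 400 (both (five 5 367 368) (five 5 399 432))))))))))))) (both (mv 496 (both (mv 431 (both (five 7 431 560) (mv 399 (both (five 4 367 367) (five 7 399 432))))) (both (mv 432 (both (five 6 431 559) (mv 400 (both (mv 367 (both (five 7 367 399) (mv 368 (both (five 7 335 335) (mv 369 (both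 (five 5 336 337) (five 5 368 401))))))) (both (mv 369 (both (five 5 368 401) (mv 368 (both (five 5 336 337) (mv 335 (both (five 7 335 367) (mv 336 (both (five 7 303 303) (five 6 335 431))))))))) (both (mv 369 (both (five 5 368 401) (mv 368 (both (five 5 336 337) (mv 431 (both (five 6 335 336) (five 7 399 399))))))) (mv 399 (both (five 7 367 367) (five 7 399 431))))))))) (both (mv 559 (both (five 6 431 432) (mv 591 (both (five 6 463 560) (five 5 495 623))))) (mv 560 (both (five 7 431 431) (mv 591 (both (five 6 463 559) (mv 592 (both (five 6 495 623) (mv 593 (both (five 4 464 561) (five 4 496 625))))))))))))) (both (mv 495 (both (mv 559 (both (five 5 431 432) (mv 558 (both (five 6 462 590) (mv 557 (both (five 1 524 556) (mv 560 (both (five 3 524 524) (five 4 463 592))))))))) (both (mv 431 (both (five 4 431 560) (mv 398 (both (five 7 398 430) (mv 399 (both (five 7 366 366) (mv 400 (both (five 5 367 368) (five 5 399 432))))))))) (both (mv 560 (both (five 4 431 431) (mv 592 (both (five 4 463 559) (five 7 495 624))))) (mv 432 (both (five 5 431 559) (mv 400 (both (five 6 367 368) (five 5 399 431))))))))) (both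 (mv 559 (both (mv 432 (both (five 5 431 495) (five 6 431 496))) (both (mv 496 (both (five 6 431 432) (mv 591 (both (five 6 463 560) (five 5 495 623))))) (mv 495 (both (mv 558 (both (five 6 462 590) (mv 557 (both (five 1 524 556) (mv 560 (both (five 3 524 524) (five 4 463 592))))))) (mv 462 (both (five 7 430 430) (mv 494 (both (five 7 462 591) (mv 465 (both (five 2 462 466) (five 2 461 493)))))))))))) (both (mv 495 (both (mv 432 (both (five 5 431 559) (mv 400 (both (five 6 367 368) (five 5 399 431))))) (both (mv 431 (both (mv 399 (both (five 4 399 496) (mv 400 (both (five 5 367 368) (five 5 399 432))))) (mv 430 (both (five 7 398 398) (mv 429 (both (five 0 428 428) (mv 465 (both (five 3 429 462) (five 3 430 466))))))))) (both (mv 432 (both (five 5 431 559) (mv 400 (both (five 6 367 368) (five 6 399 496))))) (mv 559 (both (mv 430 (both (five 7 430 462) (mv 431 (both (five 7 398 398) (mv 428 (both (five 0 428 429) (mv 465 (both (five 3 430 466) (mv 496 (both (five 4 399 399) (mv 493 (both (five 1 461 494) (mv 558 (both (five 6 462 590) (mv 557 (both (five 1 524 556) (mv 460 (both (five 7 428 461) (mv 492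 (both (five 4 396 396) (five 4 428 524))))))))))))))))))))) (both (mv 590 (both (five 6 462 558) (mv 591 (both (five 5 463 496) (five 6 494 622))))) (mv 462 (both (five 7 430 430) (mv 494 (both (five 7 462 591) (mv 465 (both (five 2 462 466) (five 2 461 493)))))))))))))) (mv 495 (both (mv 560 (both (five 4 431 431) (mv 592 (both (five 4 463 559) (five 7 495 624))))) (both (mv 559 (both (mv 430 (both (five 7 430 462) (mv 431 (both (five 7 398 398) (mv 428 (both (five 0 428 429) (mv 465 (both (five 3 430 466) (mv 496 (both (five 4 399 399) (mv 493 (both (five 1 461 494) (mv 558 (both (five 6 462 590) (mv 557 (both (five 1 524 556) (mv 460 (both (five 7 428 461) (mv 492 (both (five 4 396 396) (five 4 428 524))))))))))))))))))))) (both (mv 590 (both (five 6 462 558) (mv 591 (both (five 5 463 496) (five 6 494 622))))) (mv 462 (both (five 7 430 430) (mv 494 (both (five 7 462 591) (mv 465 (both (five 2 462 466) (five 2 461 493)))))))))) (both (mv 559 (both (mv 558 (both (five 6 462 590) (mv 557 (both (five 1 524 556) (mv 560 (both (five 3 524 524) (five 4 463 592))))))) (mv 462 (both (five 7 430 430) (mv 494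 (both (five 7 462 591) (mv 465 (both (five 2 462 466) (five 2 461 493))))))))) (mv 431 (both (five 4 431 560) (mv 430 (both (five 7 398 398) (mv 429 (both (five 0 428 428) (mv 465 (both (five 3 429 462) (five 3 430 466))))))))))))))))))) (both (mv 496 (both (mv 560 (both (mv 593 (both (five 4 464 561) (mv 592 (both (five 4 496 625) (mv 623 (both (five 6 495 591) (mv 624 (both (five 7 495 495) (five 6 527 655))))))))) (mv 431 (both (five 7 431 463) (mv 432 (both (five 7 399 399) (mv 433 (both (five 5 400 401) (five 5 432 465))))))))) (both (mv 560 (both (mv 591 (both (five 6 463 559) (mv 592 (both (five 6 495 623) (mv 593 (both (five 4 464 561) (five 4 496 625))))))) (both (mv 431 (both (five 7 431 463) (mv 465 (both (five 5 432 433) (mv 592 (both (five 5 464 497) (mv 593 (both (five 4 464 561) (five 4 496 625))))))))) (both (mv 431 (both (five 7 431 463) (mv 465 (both (five 5 432 433) (mv 591 (both (five 6 463 559) (mv 592 (both (five 5 464 497) (five 6 495 623))))))))) (mv 463 (both (five 7 431 431) (mv 465 (both (five 5 432 433) (mv 559 (both (five 6 463 591) (mv 561 (both (five 4 464 593) (mv 562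 (both (five 3 527 563) (mv 530 (both (five 1 527 531) (mv 594 (both (five 0 559 595) (mv 498 (both (five 7 465 497) (mv 499 (both (five 0 463 466) (five 5 466 467))))))))))))))))))))))) (both (mv 559 (both (five 6 431 432) (mv 591 (both (five 5 463 495) (five 5 495 623))))) (mv 432 (both (five 6 431 559) (mv 399 (both (five 7 399 431) (mv 433 (both (five 5 400 401) (mv 560 (both (five 5 432 465) (mv 593 (both (five 4 464 561) (mv 592 (both (five 4 496 625) (mv 495 (both (five 7 463 463) (five 7 495 624))))))))))))))))))) (both (mv 496 (both (mv 559 (both (five 6 431 432) (mv 591 (both (five 6 463 560) (five 5 495 623))))) (both (mv 560 (both (mv 465 (both (five 5 432 433) (mv 592 (both (five 5 464 497) (mv 593 (both (five 4 464 561) (five 4 496 625))))))) (both (mv 593 (both (five 4 464 561) (mv 592 (both (five 4 496 625) (mv 495 (both (five 7 463 463) (five 7 495 624))))))) (both (mv 497 (both (mv 465 (both (five 5 432 433) (mv 498 (both (five 2 495 499) (mv 561 (both (five 4 464 593) (mv 562 (both (five 3 527 563) (mv 530 (both (five 7 465 594) (mv 495 (both (five 0 495 531) (mv 466 (both (five 1 463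 467) (five 1 462 494))))))))))))))) (both (mv 463 (both (five 7 431 431) (mv 462 (both (five 0 461 461) (mv 498 (both (five 3 462 495) (five 3 463 499))))))) (both (mv 463 (both (five 7 431 431) (mv 462 (both (five 0 461 461) (mv 465 (both (five 5 432 433) (mv 429 (both (five 3 429 430) (mv 494 (both (five 2 461 493) (mv 466 (both (five 2 462 495) (mv 434 (both (five 1 431 435) (mv 467 (both (five 2 464 468) (mv 499 (both (five 0 464 500) (mv 561 (both (five 4 464 593) (mv 563 (both (five 7 434 531) (five 3 527 562))))))))))))))))))))))) (mv 463 (both (five 7 431 431) (mv 462 (both (five 0 461 461) (mv 465 (both (five 5 432 433) (five 0 462 498))))))))))) (mv 431 (both (five 7 431 463) (mv 465 (both (five 5 432 433) (mv 592 (both (five 5 464 497) (mv 623 (both (five 6 495 591) (mv 624 (both (five 7 495 495) (five 6 527 655))))))))))))))) (mv 432 (both (five 6 431 559) (mv 400 (both (five 6 399 495) (mv 401 (both (five 5 368 369) (five 5 400 433)))))))))) (mv 496 (both (mv 559 (both (five 6 431 432) (mv 591 (both (five 6 463 560) (five 5 495 623))))) (both (mv 560 (both (mv 465 (both (five 5 432 433)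 (mv 592 (both (five 5 464 497) (mv 593 (both (five 4 464 561) (five 4 496 625))))))) (both (mv 593 (both (five 4 464 561) (mv 592 (both (five 4 496 625) (mv 495 (both (five 7 463 463) (five 7 495 624))))))) (both (mv 497 (both (mv 465 (both (five 5 432 433) (mv 498 (both (five 2 495 499) (mv 561 (both (five 4 464 593) (mv 562 (both (five 3 527 563) (mv 530 (both (five 7 465 594) (mv 495 (both (five 0 495 531) (mv 466 (both (five 1 463 467) (five 1 462 494))))))))))))))) (both (mv 463 (both (five 7 431 431) (mv 462 (both (five 0 461 461) (mv 498 (both (five 3 462 495) (five 3 463 499))))))) (both (mv 463 (both (five 7 431 431) (mv 462 (both (five 0 461 461) (mv 465 (both (five 5 432 433) (mv 429 (both (five 3 429 430) (mv 494 (both (five 2 461 493) (mv 466 (both (five 2 462 495) (mv 434 (both (five 1 431 435) (mv 467 (both (five 2 464 468) (mv 499 (both (five 0 464 500) (mv 561 (both (five 4 464 593) (mv 563 (both (five 7 434 531) (five 3 527 562))))))))))))))))))))))) (mv 463 (both (five 7 431 431) (mv 462 (both (five 0 461 461) (mv 465 (both (five 5 432 433) (five 0 462 498))))))))))) (mv 431 (both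 (five 7 431 463) (mv 465 (both (five 5 432 433) (mv 592 (both (five 5 464 497) (mv 623 (both (five 6 495 591) (mv 624 (both (five 7 495 495) (five 6 527 655))))))))))))))) (mv 432 (both (five 6 431 559) (mv 399 (both (five 7 399 431) (mv 400 (both (five 7 367 367) (five 6 399 495))))))))))))))))))))) (both (mv 526 (both (mv 492 (both (five 3 492 493) (mv 524 (both (five 3 491 491) (mv 556 (both (five 2 523 555) (five 2 524 557))))))) (both (mv 556 (both (five 2 524 557) (mv 524 (both (five 2 523 555) (mv 560 (both (five 0 524 559) (five 0 525 561))))))) (both (mv 492 (both (five 3 492 493) (mv 524 (both (five 3 491 491) (mv 560 (both (five 0 524 559) (five 0 525 561))))))) (mv 558 (both (mv 493 (both (five 3 492 492) (mv 461 (both (five 4 429 429) (mv 557 (both (five 2 524 556) (five 4 461 590))))))) (both (mv 495 (both (mv 557 (both (five 2 524 556) (mv 560 (both (five 0 525 561) (mv 590 (both (five 5 494 622) (mv 592 (both (five 7 495 624) (mv 593 (both (five 0 557 559) (five 3 557 591))))))))))) (both (mv 463 (both (five 6 430 431) (mv 556 (both (five 2 524 557) (mv 560 (both (five 0 525 561) (mv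 592 (both (five 4 463 559) (five 7 495 624))))))))) (mv 463 (both (five 6 430 431) (mv 590 (both (five 5 462 494) (five 5 494 622)))))))) (both (mv 493 (both (five 3 492 492) (mv 461 (both (five 4 429 429) (mv 590 (both (five 7 461 494) (five 7 493 622))))))) (mv 495 (both (mv 493 (both (five 3 492 492) (mv 461 (both (five 4 429 429) (mv 557 (both (five 2 524 556) (mv 460 (both (five 7 428 428) (mv 462 (both (five 5 429 430) (mv 459 (both (five 0 459 494) (mv 426 (both (five 3 426 427) (mv 458 (both (five 3 425 425) (mv 490 (both (five 2 457 489) (five 2 458 491))))))))))))))))))) (mv 463 (both (five 6 430 431) (mv 560 (both (five 0 525 561) (mv 592 (both (five 4 463 559) (five 7 495 624))))))))))))))))) (both (mv 526 (both (mv 492 (both (five 3 492 493) (mv 524 (both (five 3 491 491) (mv 556 (both (five 2 523 555) (five 2 524 557))))))) (both (mv 496 (both (five 1 493 497) (mv 524 (both (five 1 492 495) (mv 556 (both (five 2 523 555) (five 2 524 557))))))) (both (mv 492 (both (five 3 492 493) (mv 496 (both (five 1 493 497) (mv 524 (both (five 3 491 491) (five 1 492 495))))))) (mv 493 (both (five 3 492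 492) (mv 461 (both (mv 429 (both (five 4 429 558) (mv 396 (both (five 7 396 428) (mv 397 (both (five 7 364 364) (five 4 397 494))))))) (both (mv 496 (both (five 1 493 497) (mv 557 (both (five 2 524 556) (mv 428 (both (five 7 428 460) (mv 429 (both (five 7 396 396) (mv 430 (both (five 5 397 398) (five 5 429 462))))))))))) (both (mv 496 (both (five 1 493 497) (mv 557 (both (five 2 524 556) (mv 460 (both (five 7 428 428) (mv 462 (both (five 5 429 430) (mv 495 (both (five 0 460 463) (five 3 460 494))))))))))) (mv 429 (both (five 4 429 558) (mv 397 (both (five 4 397 494) (mv 398 (both (five 5 365 366) (five 5 397 430))))))))))))))))) (both (mv 526 (both (mv 556 (both (five 2 524 557) (mv 524 (both (five 2 523 555) (mv 560 (both (five 0 524 559) (five 0 525 561))))))) (both (mv 496 (both (five 1 493 497) (mv 524 (both (five 1 492 495) (mv 556 (both (five 2 523 555) (five 2 524 557))))))) (both (mv 496 (both (five 1 493 497) (mv 495 (both (five 1 492 524) (mv 560 (both (five 0 525 561) (mv 463 (both (five 4 431 431) (five 7 463 592))))))))) (mv 496 (both (five 1 493 497) (mv 464 (both (mv 559 (both (five 6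 431 432) (mv 591 (both (five 5 463 495) (five 5 495 623))))) (both (mv 556 (both (five 2 524 557) (mv 560 (both (five 0 525 561) (mv 431 (both (five 7 431 463) (mv 432 (both (five 7 399 399) (mv 433 (both (five 5 400 401) (five 5 432 465))))))))))) (mv 556 (both (five 2 524 557) (mv 560 (both (five 0 525 561) (mv 591 (both (five 6 463 559) (mv 592 (both (five 6 495 623) (mv 624 (both (five 7 495 495) (mv 625 (both (five 4 496 593) (five 4 528 657)))))))))))))))))))))) (both (mv 526 (both (mv 492 (both (five 3 492 493) (mv 524 (both (five 3 491 491) (mv 556 (both (five 2 523 555) (five 2 524 557))))))) (both (mv 556 (both (five 2 524 557) (mv 524 (both (five 2 523 555) (mv 560 (both (five 0 524 559) (five 0 525 561))))))) (both (mv 492 (both (five 3 492 493) (mv 524 (both (five 3 491 491) (mv 560 (both (five 0 524 559) (five 0 525 561))))))) (mv 496 (both (five 1 493 497) (mv 464 (both (mv 559 (both (five 6 431 432) (mv 591 (both (five 6 463 560) (five 5 495 623))))) (both (mv 432 (both (five 6 431 559) (mv 399 (both (five 7 399 431) (mv 400 (both (five 7 367 367) (mv 401 (both (five 5 368 369) (five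 5 400 433))))))))) (mv 493 (both (five 3 492 492) (mv 556 (both (five 2 524 557) (mv 560 (both (five 0 525 561) (mv 463 (both (five 7 431 431) (mv 465 (both (five 5 432 433) (mv 462 (both (five 2 461 494) (mv 429 (both (five 3 429 430) (mv 461 (both (five 3 428 428) (five 4 429 558)))))))))))))))))))))))))) (both (mv 526 (both (mv 492 (both (five 3 492 493) (mv 524 (both (five 3 491 491) (mv 560 (both (five 0 524 559) (five 0 525 561))))))) (both (mv 492 (both (five 3 492 493) (mv 496 (both (five 1 493 497) (mv 524 (both (five 3 491 491) (five 1 492 495))))))) (mv 496 (both (five 1 493 497) (mv 464 (both (mv 559 (both (five 6 431 432) (mv 591 (both (five 5 463 495) (five 5 495 623))))) (both (mv 560 (both (five 0 525 561) (mv 431 (both (five 7 431 463) (mv 432 (both (five 7 399 399) (mv 433 (both (five 5 400 401) (five 5 432 465))))))))) (mv 560 (both (five 0 525 561) (mv 591 (both (five 6 463 559) (mv 592 (both (five 6 495 623) (mv 624 (both (five 7 495 495) (mv 625 (both (five 4 496 593) (five 4 528 657))))))))))))))))))) (both (mv 526 (both (mv 493 (both (five 3 492 492) (mv 461 (both (mv 429 (both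 (five 4 429 558) (mv 396 (both (five 7 396 428) (mv 397 (both (five 7 364 364) (five 4 397 494))))))) (both (mv 496 (both (five 1 493 497) (mv 557 (both (five 2 524 556) (mv 428 (both (five 7 428 460) (mv 429 (both (five 7 396 396) (mv 430 (both (five 5 397 398) (five 5 429 462))))))))))) (both (mv 496 (both (five 1 493 497) (mv 557 (both (five 2 524 556) (mv 460 (both (five 7 428 428) (mv 462 (both (five 5 429 430) (mv 495 (both (five 0 460 463) (five 3 460 494))))))))))) (mv 429 (both (five 4 429 558) (mv 397 (both (five 4 397 494) (mv 398 (both (five 5 365 366) (five 5 397 430))))))))))))) (both (mv 496 (both (five 1 493 497) (mv 464 (both (mv 559 (both (five 6 431 432) (mv 591 (both (five 5 463 495) (five 5 495 623))))) (both (mv 560 (both (five 0 525 561) (mv 431 (both (five 7 431 463) (mv 432 (both (five 7 399 399) (mv 433 (both (five 5 400 401) (five 5 432 465))))))))) (mv 560 (both (five 0 525 561) (mv 591 (both (five 6 463 559) (mv 592 (both (five 6 495 623) (mv 624 (both (five 7 495 495) (mv 625 (both (five 4 496 593) (five 4 528 657)))))))))))))))) (both (mv 558 (both (mv 493 (both (five 3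 492 492) (mv 461 (both (five 4 429 429) (mv 557 (both (five 2 524 556) (five 4 461 590))))))) (both (mv 495 (both (mv 557 (both (five 2 524 556) (mv 560 (both (five 0 525 561) (mv 590 (both (five 5 494 622) (mv 592 (both (five 7 495 624) (mv 593 (both (five 0 557 559) (five 3 557 591))))))))))) (both (mv 463 (both (five 6 430 431) (mv 556 (both (five 2 524 557) (mv 560 (both (five 0 525 561) (mv 592 (both (five 4 463 559) (five 7 495 624))))))))) (mv 463 (both (five 6 430 431) (mv 590 (both (five 5 462 494) (five 5 494 622)))))))) (both (mv 493 (both (five 3 492 492) (mv 461 (both (five 4 429 429) (mv 590 (both (five 7 461 494) (five 7 493 622))))))) (mv 495 (both (mv 493 (both (five 3 492 492) (mv 461 (both (five 4 429 429) (mv 557 (both (five 2 524 556) (mv 460 (both (five 7 428 428) (mv 462 (both (five 5 429 430) (mv 459 (both (five 0 459 494) (mv 426 (both (five 3 426 427) (mv 458 (both (five 3 425 425) (mv 490 (both (five 2 457 489) (five 2 458 491))))))))))))))))))) (mv 463 (both (five 6 430 431) (mv 560 (both (five 0 525 561) (mv 592 (both (five 4 463 559) (five 7 495 624))))))))))))) (both (mv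 496 (both (five 1 493 497) (mv 464 (both (mv 559 (both (five 6 431 432) (mv 591 (both (five 6 463 560) (five 5 495 623))))) (both (mv 432 (both (five 6 431 559) (mv 399 (both (five 7 399 431) (mv 400 (both (five 7 367 367) (mv 401 (both (five 5 368 369) (five 5 400 433))))))))) (mv 493 (both (five 3 492 492) (mv 556 (both (five 2 524 557) (mv 560 (both (five 0 525 561) (mv 463 (both (five 7 431 431) (mv 465 (both (five 5 432 433) (mv 462 (both (five 2 461 494) (mv 429 (both (five 3 429 430) (mv 461 (both (five 3 428 428) (five 4 429 558)))))))))))))))))))))) (mv 493 (both (five 3 492 492) (mv 461 (both (mv 429 (both (five 4 429 558) (mv 396 (both (five 7 396 428) (mv 397 (both (five 7 364 364) (five 4 397 494))))))) (both (mv 557 (both (five 2 524 556) (mv 428 (both (five 7 428 460) (mv 429 (both (five 7 396 396) (mv 430 (both (five 5 397 398) (five 5 429 462))))))))) (both (mv 496 (both (five 1 493 497) (mv 557 (both (five 2 524 556) (mv 430 (both (five 5 429 462) (mv 460 (both (five 7 428 428) (mv 495 (both (five 3 460 494) (mv 558 (both (five 4 461 590) (mv 560 (both (five 0 525 561) (mv 592 (both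 (five 7 495 624) (mv 593 (both (five 0 557 559) (five 4 496 625))))))))))))))))))) (mv 429 (both (five 4 429 558) (mv 397 (both (five 4 397 494) (mv 398 (both (five 5 365 366) (five 5 397 430)))))))))))))))))) (mv 526 (both (mv 492 (both (five 3 492 493) (mv 524 (both (five 3 491 491) (mv 556 (both (five 2 523 555) (five 2 524 557))))))) (both (mv 556 (both (five 2 524 557) (mv 524 (both (five 2 523 555) (mv 560 (both (five 0 524 559) (five 0 525 561))))))) (both (mv 492 (both (five 3 492 493) (mv 524 (both (five 3 491 491) (mv 560 (both (five 0 524 559) (five 0 525 561))))))) (mv 493 (both (five 3 492 492) (mv 461 (both (mv 429 (both (five 4 429 558) (mv 396 (both (five 7 396 428) (mv 397 (both (five 7 364 364) (five 4 397 494))))))) (both (mv 557 (both (five 2 524 556) (mv 428 (both (five 7 428 460) (mv 429 (both (five 7 396 396) (mv 430 (both (five 5 397 398) (five 5 429 462))))))))) (both (mv 496 (both (five 1 493 497) (mv 557 (both (five 2 524 556) (mv 430 (both (five 5 429 462) (mv 460 (both (five 7 428 428) (mv 495 (both (five 3 460 494) (mv 558 (both (five 4 461 590) (mv 560 (both (five 0 525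 561) (mv 592 (both (five 7 495 624) (mv 593 (both (five 0 557 559) (five 4 496 625))))))))))))))))))) (mv 429 (both (five 4 429 558) (mv 397 (both (five 4 397 494) (mv 398 (both (five 5 365 366) (five 5 397 430))))))))))))))))))))))))

theorem L89 : W (S 988530863058807798957393715067720623286798683220635978952802738122718218409262471505648588255249455916730668840373243557345566271959196709010660073920568229888) (S 642106434340993567264402244769155975962980396310309070194648389709016937544056512101911204661511870699934009285238456004634442339317913150349612614422933168075391697649255558306800948190298305411869753475072) :=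
  check_sound Env.nil (x := 527) (t := tL89) (by decide +kernel)

def tL90 : T :=
  (both (mv 463 (both (mv 431 (both (five 4 399 399) (mv 560 (both (five 7 431 464) (five 7 463 592))))) (both (mv 494 (both (mv 493 (both (five 0 493 529) (mv 460 (both (five 3 460 461) (mv 492 (both (five 3 459 459) (mv 524 (both (five 2 491 523) (five 2 492 525))))))))) (both (mv 497 (both (mv 462 (both (five 3 462 498) (mv 461 (both (five 0 460 460) (five 0 461 464))))) (both (mv 466 (both (five 1 462 465) (mv 498 (both (five 1 463 467) (mv 530 (both (five 0 494 529) (five 0 495 531))))))) (mv 462 (both (five 3 461 461) (mv 465 (both (five 1 462 466) (mv 526 (both (five 2 493 525) (mv 529 (both (five 0 494 530) (mv 558 (both (five 5 462 590) (mv 557 (both (five 6 461 589) (mv 560 (both (five 1 525 559) (five 7 463 592)))))))))))))))))) (both (mv 493 (both (mv 460 (both (five 3 460 461) (mv 492 (both (five 3 459 459) (mv 524 (both (five 2 491 523) (five 2 492 525))))))) (both (mv 465 (both (five 1 461 464) (mv 497 (both (five 1 462 466) (mv 525 (both (five 2 492 524) (five 2 493 526))))))) (mv 464 (both (five 1 461 465)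 (five 1 460 492)))))) (mv 493 (both (five 0 493 529) (mv 464 (both (five 1 461 465) (five 1 460 492))))))))) (mv 494 (both (mv 493 (both (five 0 493 529) (mv 460 (both (five 3 460 461) (mv 492 (both (five 3 459 459) (mv 524 (both (five 2 491 523) (five 2 492 525))))))))) (both (mv 497 (both (mv 466 (both (five 1 462 465) (mv 498 (both (five 1 463 467) (mv 530 (both (five 0 494 529) (five 0 495 531))))))) (mv 431 (both (five 4 399 399) (mv 462 (both (five 3 461 461) (mv 526 (both (five 2 493 525) (five 5 430 558))))))))) (both (mv 526 (both (mv 497 (both (five 2 493 525) (mv 462 (both (five 3 461 461) (five 3 462 498))))) (both (mv 431 (both (five 6 398 399) (mv 558 (both (five 5 430 462) (five 5 462 590))))) (mv 399 (both (five 6 398 431) (mv 525 (both (five 2 493 497) (mv 524 (both (five 2 492 493) (five 1 491 523)))))))))) (both (mv 399 (both (five 4 399 431) (mv 493 (both (five 0 493 529) (mv 524 (both (five 2 492 525) (mv 492 (both (five 2 491 523) (mv 459 (both (five 3 459 460) (mv 491 (both (five 3 458 458) (five 1 459 462))))))))))))) (mv 399 (both (five 4 399 431) (mv 493 (both (five 0 493 529)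 (mv 460 (both (five 3 460 461) (mv 492 (both (five 3 459 459) (mv 491 (both (five 1 459 462) (mv 523 (both (five 2 490 522) (five 2 491 524))))))))))))))))))))) (both (mv 494 (both (mv 493 (both (five 0 493 529) (mv 460 (both (five 3 460 461) (mv 492 (both (five 3 459 459) (five 0 492 527))))))) (both (mv 497 (both (mv 526 (both (five 2 493 525) (mv 498 (both (five 2 494 527) (mv 530 (both (five 0 494 529) (five 0 495 531))))))) (both (mv 466 (both (five 1 462 465) (mv 498 (both (five 1 463 467) (mv 526 (both (five 2 493 525) (five 2 494 527))))))) (both (mv 466 (both (five 1 462 465) (mv 498 (both (five 1 463 467) (mv 530 (both (five 0 494 529) (five 0 495 531))))))) (mv 559 (both (mv 461 (both (five 3 461 462) (mv 465 (both (five 1 462 466) (mv 526 (both (five 2 493 525) (mv 529 (both (five 0 494 530) (mv 560 (both (five 5 464 592) (mv 558 (both (five 1 525 557) (mv 591 (both (five 6 463 464) (mv 623 (both (five 4 494 590) (five 7 526 655))))))))))))))))) (both (mv 465 (both (five 1 462 466) (mv 560 (both (five 5 464 592) (mv 591 (both (five 6 463 464) (mv 623 (both (five 5 495 527) (five 5 527 655)))))))))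 (mv 462 (both (five 3 461 461) (mv 526 (both (five 2 493 525) (mv 430 (both (five 4 430 527) (mv 397 (both (five 7 397 429) (mv 398 (both (five 7 365 365) (mv 399 (both (five 5 366 367) (five 5 398 431)))))))))))))))))))) (both (mv 497 (both (mv 461 (both (five 3 461 462) (mv 493 (both (five 3 460 460) (mv 525 (both (five 2 492 524) (five 2 493 526))))))) (both (mv 461 (both (five 3 461 462) (mv 460 (both (five 3 460 493) (mv 466 (both (five 1 462 465) (mv 498 (both (five 1 463 467) (mv 499 (both (five 2 495 527) (mv 531 (both (five 0 495 530) (five 0 496 532))))))))))))) (mv 466 (both (five 1 462 465) (mv 498 (both (five 1 463 467) (mv 526 (both (five 2 493 525) (five 2 494 527)))))))))) (both (mv 493 (both (five 0 493 529) (mv 460 (both (five 3 460 461) (mv 492 (both (five 3 459 459) (mv 524 (both (five 2 491 523) (five 2 492 525))))))))) (mv 493 (both (five 0 493 529) (mv 492 (both (five 0 492 527) (mv 524 (both (five 2 491 523) (five 2 492 525)))))))))))) (both (mv 497 (both (mv 560 (both (mv 464 (both (mv 431 (both (five 7 431 463) (mv 432 (both (five 7 399 399) (mv 559 (both (five 6 431 527) (five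 6 463 591))))))) (both (mv 559 (both (five 6 463 591) (mv 432 (both (five 6 431 527) (mv 399 (both (five 7 399 431) (mv 400 (both (five 7 367 367) (five 4 400 529))))))))) (both (mv 559 (both (five 6 463 591) (mv 432 (both (five 6 431 527) (mv 400 (both (five 4 400 529) (mv 368 (both (five 6 367 463) (mv 369 (both (five 5 336 337) (five 5 368 401))))))))))) (both (mv 431 (both (five 7 431 463) (mv 432 (both (five 7 399 399) (mv 400 (both (five 4 400 529) (mv 368 (both (five 4 368 465) (mv 369 (both (five 5 336 337) (five 5 368 401))))))))))) (mv 463 (both (five 7 431 431) (mv 462 (both (five 0 461 461) (mv 559 (both (five 6 463 591) (mv 527 (both (five 7 430 430) (mv 558 (both (five 6 462 590) (mv 529 (both (five 2 526 530) (five 1 525 557)))))))))))))))))) (both (mv 592 (both (five 5 464 465) (mv 623 (both (five 6 495 591) (mv 624 (both (five 5 496 529) (five 6 527 655))))))) (mv 463 (both (five 7 463 592) (mv 431 (both (five 4 399 399) (five 7 431 464)))))))) (both (mv 498 (both (mv 467 (both (five 1 463 466) (mv 499 (both (five 1 464 468) (mv 531 (both (five 0 495 530) (five 0 496 532))))))) (mv 463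 (both (five 3 462 462) (mv 431 (both (five 4 399 399) (mv 560 (both (five 7 431 464) (five 7 463 592))))))))) (both (mv 498 (both (mv 527 (both (five 2 495 499) (five 2 494 526))) (both (mv 467 (both (five 1 463 466) (mv 499 (both (five 1 464 468) (mv 531 (both (five 0 495 530) (five 0 496 532))))))) (mv 527 (both (five 2 494 526) (mv 559 (both (mv 591 (both (five 5 463 464) (five 5 495 623))) (mv 466 (both (five 1 463 467) (mv 530 (both (five 0 495 531) (mv 529 (both (five 2 526 558) (mv 402 (both (five 6 401 434) (mv 562 (both (five 0 527 563) (mv 594 (both (five 7 465 465) (five 7 497 626)))))))))))))))))))) (both (mv 498 (both (mv 467 (both (five 1 463 466) (mv 499 (both (five 1 464 468) (mv 531 (both (five 0 495 530) (five 0 496 532))))))) (mv 463 (both (five 3 462 462) (mv 431 (both (five 4 399 399) (mv 560 (both (five 4 431 527) (five 7 463 592))))))))) (mv 498 (both (mv 527 (both (five 2 495 499) (five 2 494 526))) (mv 463 (both (five 3 462 462) (mv 431 (both (five 4 399 399) (mv 560 (both (five 7 431 464) (five 7 463 592)))))))))))))) (both (mv 527 (both (mv 526 (both (mv 525 (both (five 1 492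 524) (mv 493 (both (five 3 492 492) (mv 494 (both (five 0 493 529) (mv 557 (both (five 2 524 556) (mv 589 (both (five 5 461 462) (five 5 493 621))))))))))) (both (mv 494 (both (mv 529 (both (five 3 494 530) (mv 558 (both (five 2 525 557) (mv 463 (both (five 6 430 431) (five 5 462 590))))))) (both (mv 493 (both (five 0 492 492) (mv 460 (both (five 3 460 461) (mv 464 (both (five 1 461 465) (mv 432 (both (five 6 399 400) (mv 431 (both (five 7 399 399) (mv 463 (both (five 6 430 558) (five 7 431 560))))))))))))) (mv 493 (both (five 0 492 492) (five 0 493 529)))))) (both (mv 525 (both (five 1 492 524) (mv 493 (both (five 3 492 492) (mv 557 (both (five 2 524 556) (mv 558 (both (five 2 525 529) (mv 461 (both (five 4 429 429) (five 4 461 590))))))))))) (both (mv 494 (both (mv 493 (both (five 0 492 492) (mv 460 (both (five 3 460 461) (mv 464 (both (five 1 461 465) (mv 432 (both (five 6 399 400) (mv 431 (both (five 7 399 399) (mv 463 (both (five 6 430 558) (five 7 431 560))))))))))))) (both (mv 525 (both (five 1 492 524) (mv 557 (both (five 2 524 556) (mv 462 (both (five 6 429 430) (mv 589 (both (five 6 461 558)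 (five 5 493 621))))))))) (mv 493 (both (five 0 492 492) (mv 460 (both (five 3 460 461) (mv 464 (both (five 1 461 465) (mv 400 (both (five 6 399 432) (mv 525 (both (five 2 492 524) (mv 557 (both (five 2 524 556) (mv 589 (both (five 5 461 462) (five 5 493 621)))))))))))))))))) (both (mv 525 (both (five 1 492 524) (mv 557 (both (five 2 524 556) (mv 529 (both (five 2 525 558) (mv 530 (both (five 3 494 494) (five 3 495 531))))))))) (mv 525 (both (five 1 492 524) (mv 493 (both (five 3 492 492) (mv 494 (both (five 0 493 529) (mv 464 (both (five 1 461 465) (mv 432 (both (five 6 399 400) (mv 431 (both (five 7 399 399) (mv 463 (both (five 6 430 558) (five 7 431 560))))))))))))))))))))) (both (mv 529 (both (mv 530 (both (five 3 494 494) (five 3 495 531))) (both (mv 530 (both (five 3 495 531) (mv 498 (both (five 1 495 499) (mv 559 (both (five 2 526 558) (mv 591 (both (five 5 463 464) (five 5 495 623))))))))) (mv 526 (both (mv 493 (both (five 0 493 494) (mv 525 (both (five 3 492 492) (five 1 492 524))))) (both (mv 525 (both (five 1 492 524) (mv 557 (both (five 2 524 556) (five 2 525 558))))) (mv 494 (both (five 0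 493 493) (mv 558 (both (five 2 525 557) (mv 590 (both (five 5 494 622) (mv 589 (both (five 6 493 621) (mv 591 (both (five 4 494 623) (mv 559 (both (five 4 462 462) (five 5 463 464))))))))))))))))))) (both (mv 463 (both (mv 559 (both (mv 591 (both (five 5 463 464) (five 5 495 623))) (mv 558 (both (five 6 462 590) (mv 529 (both (five 2 526 530) (mv 557 (both (five 2 525 526) (five 1 524 556))))))))) (mv 431 (both (five 4 399 399) (five 4 431 560))))) (both (mv 463 (both (mv 431 (both (five 4 399 399) (five 4 431 560))) (both (mv 559 (both (mv 591 (both (five 5 495 623) (mv 592 (both (five 4 463 560) (five 4 495 624))))) (mv 558 (both (five 6 462 590) (mv 529 (both (five 2 526 530) (mv 557 (both (five 2 525 526) (five 1 524 556))))))))) (mv 431 (both (five 4 399 399) (mv 526 (both (five 6 430 558) (mv 525 (both (five 1 492 524) (mv 493 (both (five 3 492 492) (mv 494 (both (five 0 493 529) (mv 557 (both (five 2 524 556) (mv 589 (both (five 5 461 462) (five 5 493 621)))))))))))))))))) (both (mv 463 (both (mv 431 (both (five 4 399 399) (five 4 431 560))) (both (mv 559 (both (mv 591 (both (five 5 463 464) (five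 5 495 623))) (both (mv 591 (both (five 5 495 623) (mv 592 (both (five 4 463 560) (five 4 495 624))))) (mv 432 (both (five 5 431 464) (mv 462 (both (five 7 430 430) (mv 460 (both (five 0 460 461) (mv 558 (both (five 6 462 590) (mv 557 (both (five 1 524 556) (mv 560 (both (five 7 463 592) (mv 525 (both (five 3 524 524) (mv 589 (both (five 2 556 588) (mv 493 (both (five 7 460 492) (five 5 461 494)))))))))))))))))))))) (mv 431 (both (five 4 399 399) (mv 558 (both (five 6 430 526) (mv 559 (both (five 6 462 590) (mv 591 (both (five 5 463 464) (five 5 495 623)))))))))))) (mv 559 (both (mv 591 (both (five 5 463 464) (five 5 495 623))) (both (mv 463 (both (mv 431 (both (five 4 399 399) (five 4 431 560))) (mv 462 (both (five 7 430 430) (mv 461 (both (five 0 460 460) (mv 464 (both (five 5 431 432) (mv 428 (both (five 3 428 429) (mv 493 (both (five 2 460 492) (mv 494 (both (five 1 461 465) (five 0 493 529))))))))))))))) (mv 591 (both (five 5 495 623) (mv 462 (both (five 7 462 494) (mv 463 (both (five 7 430 430) (mv 592 (both (five 4 463 560) (five 4 495 624)))))))))))))))))) (both (mv 463 (both (mv 497 (both (mv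 462 (both (five 3 462 498) (mv 461 (both (five 0 460 460) (five 0 461 464))))) (both (mv 494 (both (mv 461 (both (five 3 461 462) (mv 493 (both (five 3 460 460) (mv 525 (both (five 2 492 524) (five 2 493 526))))))) (both (mv 465 (both (five 1 462 466) (mv 464 (both (five 1 461 493) (mv 525 (both (five 2 493 526) (mv 560 (both (five 7 463 592) (mv 559 (both (five 6 463 591) (mv 527 (both (five 5 431 432) (mv 558 (both (five 6 462 590) (mv 557 (both (five 3 524 524) (five 1 524 556))))))))))))))))) (both (mv 461 (both (five 3 461 462) (mv 465 (both (five 1 462 466) (mv 493 (both (five 3 460 460) (five 1 461 464))))))) (mv 462 (both (five 3 461 461) (mv 465 (both (five 1 462 466) (mv 526 (both (five 2 493 525) (mv 558 (both (five 5 462 590) (mv 557 (both (five 6 461 589) (mv 559 (both (five 4 462 591) (mv 527 (both (five 4 430 430) (five 1 524 556))))))))))))))))))) (mv 498 (both (mv 527 (both (five 2 495 499) (five 2 494 526))) (both (mv 467 (both (five 1 463 466) (mv 499 (both (five 1 464 468) (mv 531 (both (five 0 495 530) (five 0 496 532))))))) (mv 466 (both (five 1 463 467) (mv 494 (both (five 1 462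 465) (mv 526 (both (five 2 493 525) (five 2 494 527))))))))))))) (both (mv 431 (both (five 4 399 399) (mv 527 (both (mv 430 (both (five 7 398 398) (mv 462 (both (five 7 430 559) (mv 461 (both (five 0 460 460) (mv 497 (both (five 0 461 464) (five 3 462 498))))))))) (both (mv 398 (both (five 7 398 430) (mv 558 (both (five 6 430 526) (mv 559 (both (five 6 462 590) (mv 591 (both (five 5 463 464) (five 5 495 623))))))))) (mv 526 (both (five 6 430 558) (mv 497 (both (five 2 494 498) (five 1 493 525)))))))))) (both (mv 431 (both (five 4 399 399) (mv 560 (both (five 7 431 464) (five 7 463 592))))) (mv 431 (both (five 4 399 399) (mv 560 (both (five 4 431 527) (five 7 463 592))))))))) (both (mv 494 (both (mv 493 (both (five 0 493 529) (mv 460 (both (five 3 460 461) (mv 492 (both (five 3 459 459) (five 0 492 527))))))) (both (mv 497 (both (mv 526 (both (five 2 493 525) (mv 498 (both (five 2 494 527) (mv 530 (both (five 0 494 529) (five 0 495 531))))))) (both (mv 466 (both (five 1 462 465) (mv 498 (both (five 1 463 467) (mv 530 (both (five 0 494 529) (five 0 495 531))))))) (both (mv 466 (both (five 1 462 465) (mv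 498 (both (five 1 463 467) (mv 526 (both (five 2 493 525) (five 2 494 527))))))) (mv 527 (both (mv 462 (both (five 3 461 461) (mv 430 (both (five 4 398 398) (mv 559 (both (five 7 430 463) (five 7 462 591))))))) (both (mv 526 (both (five 2 493 525) (mv 529 (both (five 3 494 530) (mv 558 (both (five 2 525 557) (mv 463 (both (five 6 430 431) (five 5 462 590))))))))) (mv 462 (both (five 3 461 461) (mv 398 (both (five 4 398 430) (mv 465 (both (five 1 462 466) (mv 526 (both (five 2 493 525) (mv 529 (both (five 0 494 530) (mv 558 (both (five 2 525 557) (mv 590 (both (five 5 494 622) (mv 591 (both (five 4 462 559) (five 4 494 623)))))))))))))))))))))))) (both (mv 497 (both (mv 461 (both (five 3 461 462) (mv 493 (both (five 3 460 460) (mv 525 (both (five 2 492 524) (five 2 493 526))))))) (both (mv 461 (both (five 3 461 462) (mv 460 (both (five 3 460 493) (mv 466 (both (five 1 462 465) (mv 498 (both (five 1 463 467) (mv 499 (both (five 2 495 527) (mv 531 (both (five 0 495 530) (five 0 496 532))))))))))))) (mv 466 (both (five 1 462 465) (mv 498 (both (five 1 463 467) (mv 526 (both (five 2 493 525) (five 2 494 527))))))))))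 (both (mv 493 (both (five 0 493 529) (mv 460 (both (five 3 460 461) (mv 492 (both (five 3 459 459) (mv 524 (both (five 2 491 523) (five 2 492 525))))))))) (mv 493 (both (five 0 493 529) (mv 492 (both (five 0 492 527) (mv 524 (both (five 2 491 523) (five 2 492 525)))))))))))) (both (mv 494 (both (mv 497 (both (mv 526 (both (five 2 493 525) (mv 498 (both (five 2 494 527) (mv 530 (both (five 0 494 529) (five 0 495 531))))))) (both (mv 466 (both (five 1 462 465) (mv 498 (both (five 1 463 467) (mv 530 (both (five 0 494 529) (five 0 495 531))))))) (both (mv 466 (both (five 1 462 465) (mv 498 (both (five 1 463 467) (mv 526 (both (five 2 493 525) (five 2 494 527))))))) (mv 527 (both (mv 462 (both (five 3 461 461) (mv 430 (both (five 4 398 398) (mv 559 (both (five 7 430 463) (five 7 462 591))))))) (both (mv 465 (both (five 1 462 466) (mv 526 (both (five 2 493 525) (mv 529 (both (five 0 494 530) (mv 558 (both (five 2 525 557) (mv 590 (both (five 5 462 463) (five 5 494 622))))))))))) (mv 462 (both (five 3 461 461) (mv 398 (both (five 4 398 430) (mv 465 (both (five 1 462 466) (mv 526 (both (five 2 493 525) (mv 529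 (both (five 0 494 530) (mv 558 (both (five 2 525 557) (mv 590 (both (five 5 494 622) (mv 591 (both (five 4 462 559) (five 4 494 623)))))))))))))))))))))))) (both (mv 493 (both (mv 460 (both (five 3 460 461) (mv 492 (both (five 3 459 459) (five 0 492 527))))) (both (mv 460 (both (five 3 460 461) (mv 465 (both (five 1 461 464) (mv 497 (both (five 1 462 466) (mv 525 (both (five 2 492 524) (five 2 493 526))))))))) (mv 464 (both (five 1 461 465) (mv 492 (both (five 1 460 463) (five 0 492 527)))))))) (both (mv 493 (both (five 0 493 529) (mv 460 (both (five 3 460 461) (mv 492 (both (five 3 459 459) (mv 524 (both (five 2 491 523) (five 2 492 525))))))))) (mv 493 (both (five 0 493 529) (mv 464 (both (five 1 461 465) (mv 492 (both (five 1 460 463) (five 0 492 527))))))))))) (both (mv 463 (both (mv 494 (both (mv 493 (both (five 0 493 529) (mv 464 (both (five 1 461 465) (five 1 460 492))))) (both (mv 497 (both (mv 462 (both (five 3 461 461) (five 3 462 498))) (both (mv 466 (both (five 1 462 465) (mv 498 (both (five 1 463 467) (mv 526 (both (five 2 493 525) (five 2 494 527))))))) (mv 462 (both (five 3 461 461) (mv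 465 (both (five 1 462 466) (mv 526 (both (five 2 493 525) (mv 558 (both (five 5 462 590) (mv 557 (both (five 6 461 589) (mv 559 (both (five 4 462 591) (mv 527 (both (five 4 430 430) (five 1 524 556)))))))))))))))))) (mv 493 (both (five 0 493 529) (mv 460 (both (five 3 460 461) (mv 492 (both (five 3 459 459) (five 0 492 527)))))))))) (both (mv 431 (both (five 4 399 399) (mv 560 (both (five 7 431 464) (five 7 463 592))))) (mv 431 (both (five 4 399 399) (mv 560 (both (five 4 431 527) (five 7 463 592)))))))) (both (mv 494 (both (mv 497 (both (mv 527 (both (mv 462 (both (five 3 461 461) (mv 430 (both (five 4 398 398) (mv 559 (both (five 7 430 463) (five 7 462 591))))))) (both (mv 465 (both (five 1 462 466) (mv 526 (both (five 2 493 525) (mv 529 (both (five 0 494 530) (mv 558 (both (five 2 525 557) (mv 590 (both (five 5 462 463) (five 5 494 622))))))))))) (mv 462 (both (five 3 461 461) (mv 398 (both (five 4 398 430) (mv 465 (both (five 1 462 466) (mv 526 (both (five 2 493 525) (mv 529 (both (five 0 494 530) (mv 558 (both (five 2 525 557) (mv 590 (both (five 5 494 622) (mv 591 (both (five 4 462 559) (five 4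 494 623)))))))))))))))))))) (both (mv 463 (both (mv 462 (both (five 3 461 461) (mv 465 (both (five 1 462 466) (mv 526 (both (five 2 493 525) (mv 558 (both (five 5 462 590) (mv 557 (both (five 6 461 589) (mv 559 (both (five 4 462 591) (mv 527 (both (five 4 430 430) (five 1 524 556))))))))))))))) (mv 431 (both (five 4 399 399) (mv 560 (both (five 7 431 464) (five 7 463 592))))))) (both (mv 560 (both (mv 464 (both (mv 431 (both (five 7 431 463) (mv 432 (both (five 7 399 399) (mv 559 (both (five 6 431 527) (five 6 463 591))))))) (both (mv 559 (both (five 6 463 591) (mv 432 (both (five 6 431 527) (mv 399 (both (five 7 399 431) (mv 400 (both (five 7 367 367) (five 4 400 529))))))))) (both (mv 559 (both (five 6 463 591) (mv 432 (both (five 6 431 527) (mv 400 (both (five 4 400 529) (mv 368 (both (five 6 367 463) (mv 369 (both (five 5 336 337) (five 5 368 401))))))))))) (both (mv 431 (both (five 7 431 463) (mv 432 (both (five 7 399 399) (mv 400 (both (five 4 400 529) (mv 368 (both (five 4 368 465) (mv 369 (both (five 5 336 337) (five 5 368 401))))))))))) (mv 463 (both (five 7 431 431) (mv 462 (both (five 0 461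 461) (mv 559 (both (five 6 463 591) (mv 527 (both (five 7 430 430) (mv 558 (both (five 6 462 590) (mv 529 (both (five 2 526 530) (five 1 525 557)))))))))))))))))) (both (mv 592 (both (five 5 464 465) (mv 623 (both (five 6 495 591) (mv 624 (both (five 5 496 529) (five 6 527 655))))))) (mv 463 (both (five 7 463 592) (mv 431 (both (five 4 399 399) (five 7 431 464)))))))) (both (mv 463 (both (mv 526 (both (five 2 493 525) (mv 529 (both (five 0 494 530) (mv 558 (both (five 5 462 590) (mv 557 (both (five 2 525 527) (mv 560 (both (five 1 525 559) (five 7 463 592))))))))))) (both (mv 431 (both (five 4 399 399) (mv 465 (both (five 1 462 466) (mv 526 (both (five 2 493 525) (mv 558 (both (five 6 430 527) (five 5 462 590))))))))) (mv 431 (both (five 4 399 399) (mv 560 (both (five 7 431 464) (five 7 463 592)))))))) (both (mv 463 (both (mv 431 (both (five 4 399 399) (mv 560 (both (five 7 431 464) (five 7 463 592))))) (both (mv 462 (both (five 3 461 461) (mv 465 (both (five 1 462 466) (mv 526 (both (five 2 493 525) (mv 529 (both (five 0 494 530) (mv 558 (both (five 5 462 590) (mv 557 (both (five 6 461 589) (mv 560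 (both (five 1 525 559) (five 7 463 592))))))))))))))) (mv 431 (both (five 4 399 399) (mv 462 (both (five 3 461 461) (mv 526 (both (five 2 493 525) (five 5 430 558)))))))))) (both (mv 559 (both (mv 461 (both (five 3 461 462) (mv 465 (both (five 1 462 466) (mv 526 (both (five 2 493 525) (mv 529 (both (five 0 494 530) (mv 560 (both (five 5 464 592) (mv 558 (both (five 1 525 557) (mv 591 (both (five 6 463 464) (mv 623 (both (five 4 494 590) (five 7 526 655))))))))))))))))) (both (mv 465 (both (five 1 462 466) (mv 560 (both (five 5 464 592) (mv 591 (both (five 6 463 464) (mv 623 (both (five 5 495 527) (five 5 527 655))))))))) (mv 462 (both (five 3 461 461) (mv 526 (both (five 2 493 525) (mv 430 (both (five 4 430 527) (mv 397 (both (five 7 397 429) (mv 398 (both (five 7 365 365) (mv 399 (both (five 5 366 367) (five 5 398 431)))))))))))))))) (both (mv 463 (both (mv 462 (both (five 3 461 461) (mv 526 (both (five 2 493 525) (mv 529 (both (five 0 494 530) (mv 558 (both (five 5 462 590) (mv 557 (both (five 2 525 527) (five 6 461 589))))))))))) (mv 431 (both (five 4 399 399) (mv 560 (both (five 7 431 464) (five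 7 463 592))))))) (mv 464 (both (mv 529 (both (five 0 494 530) (mv 432 (both (five 4 400 400) (mv 431 (both (five 7 399 399) (mv 559 (both (five 6 431 527) (mv 560 (both (five 7 431 463) (five 6 463 591))))))))))) (both (mv 461 (both (five 3 461 462) (mv 465 (both (five 1 462 466) (mv 525 (both (five 2 493 526) (mv 560 (both (five 5 464 592) (mv 431 (both (five 7 431 463) (mv 432 (both (five 7 399 399) (mv 559 (both (five 6 431 527) (five 6 463 591))))))))))))))) (both (mv 461 (both (five 3 461 462) (mv 465 (both (five 1 462 466) (mv 525 (both (five 2 493 526) (mv 529 (both (five 0 494 530) (mv 432 (both (five 4 400 400) (mv 431 (both (five 7 399 399) (mv 560 (both (five 7 431 463) (five 5 464 592))))))))))))))) (both (mv 462 (both (five 3 461 461) (mv 465 (both (five 1 462 466) (mv 525 (both (five 2 493 526) (mv 529 (both (five 0 494 530) (mv 560 (both (five 5 464 592) (mv 463 (both (five 7 431 431) (mv 430 (both (five 3 429 429) (mv 398 (both (five 4 366 366) (five 4 398 527))))))))))))))))) (both (mv 462 (both (five 3 461 461) (mv 465 (both (five 1 462 466) (mv 525 (both (five 2 493 526) (mv 529 (both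 (five 0 494 530) (mv 432 (both (five 4 400 400) (mv 431 (both (five 7 399 399) (mv 430 (both (five 0 429 429) (mv 527 (both (five 4 398 398) (five 6 431 559))))))))))))))))) (mv 461 (both (five 3 461 462) (mv 465 (both (five 1 462 466) (mv 525 (both (five 2 493 526) (mv 529 (both (five 0 494 530) (mv 432 (both (five 4 400 400) (mv 559 (both (five 6 431 527) (mv 560 (both (five 6 463 591) (five 5 464 592))))))))))))))))))))))))))))) (both (mv 493 (both (mv 460 (both (five 3 460 461) (mv 492 (both (five 3 459 459) (five 0 492 527))))) (both (mv 460 (both (five 3 460 461) (mv 465 (both (five 1 461 464) (mv 497 (both (five 1 462 466) (mv 525 (both (five 2 492 524) (five 2 493 526))))))))) (mv 464 (both (five 1 461 465) (mv 492 (both (five 1 460 463) (five 0 492 527)))))))) (both (mv 493 (both (five 0 493 529) (mv 460 (both (five 3 460 461) (mv 492 (both (five 3 459 459) (mv 524 (both (five 2 491 523) (five 2 492 525))))))))) (mv 493 (both (five 0 493 529) (mv 464 (both (five 1 461 465) (mv 492 (both (five 1 460 463) (five 0 492 527))))))))))) (both (mv 494 (both (mv 497 (both (mv 466 (both (five 1 462 465)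 (mv 498 (both (five 1 463 467) (mv 530 (both (five 0 494 529) (five 0 495 531))))))) (both (mv 462 (both (five 3 461 461) (mv 463 (both (five 3 462 498) (mv 431 (both (five 4 399 399) (mv 560 (both (five 7 431 464) (five 7 463 592))))))))) (mv 560 (both (mv 464 (both (mv 431 (both (five 7 431 463) (mv 432 (both (five 7 399 399) (mv 559 (both (five 6 431 527) (five 6 463 591))))))) (both (mv 559 (both (five 6 463 591) (mv 432 (both (five 6 431 527) (mv 399 (both (five 7 399 431) (mv 400 (both (five 7 367 367) (five 4 400 529))))))))) (both (mv 559 (both (five 6 463 591) (mv 432 (both (five 6 431 527) (mv 400 (both (five 4 400 529) (mv 368 (both (five 6 367 463) (mv 369 (both (five 5 336 337) (five 5 368 401))))))))))) (both (mv 431 (both (five 7 431 463) (mv 432 (both (five 7 399 399) (mv 400 (both (five 4 400 529) (mv 368 (both (five 4 368 465) (mv 369 (both (five 5 336 337) (five 5 368 401))))))))))) (mv 463 (both (five 7 431 431) (mv 462 (both (five 0 461 461) (mv 559 (both (five 6 463 591) (mv 527 (both (five 7 430 430) (mv 558 (both (five 6 462 590) (mv 529 (both (five 2 526 530) (five 1 525 557))))))))))))))))))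 (both (mv 592 (both (five 5 464 465) (mv 623 (both (five 6 495 591) (mv 624 (both (five 5 496 529) (five 6 527 655))))))) (mv 463 (both (five 7 463 592) (mv 431 (both (five 4 399 399) (five 7 431 464))))))))))) (both (mv 493 (both (mv 460 (both (five 3 460 461) (mv 492 (both (five 3 459 459) (five 0 492 527))))) (both (mv 461 (both (five 3 460 460) (mv 462 (both (five 3 461 497) (mv 464 (both (five 1 461 465) (mv 525 (both (five 2 492 524) (mv 430 (both (five 6 397 398) (five 5 429 557))))))))))) (mv 464 (both (five 1 461 465) (mv 492 (both (five 1 460 463) (five 0 492 527)))))))) (both (mv 493 (both (five 0 493 529) (mv 460 (both (five 3 460 461) (mv 492 (both (five 3 459 459) (mv 524 (both (five 2 491 523) (five 2 492 525))))))))) (mv 493 (both (five 0 493 529) (mv 464 (both (five 1 461 465) (mv 492 (both (five 1 460 463) (five 0 492 527))))))))))) (both (mv 494 (both (mv 493 (both (five 0 493 529) (mv 460 (both (five 3 460 461) (mv 492 (both (five 3 459 459) (five 0 492 527))))))) (both (mv 497 (both (mv 526 (both (five 2 493 525) (mv 498 (both (five 2 494 527) (mv 530 (both (five 0 494 529) (five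 0 495 531))))))) (both (mv 466 (both (five 1 462 465) (mv 498 (both (five 1 463 467) (mv 526 (both (five 2 493 525) (five 2 494 527))))))) (both (mv 466 (both (five 1 462 465) (mv 498 (both (five 1 463 467) (mv 530 (both (five 0 494 529) (five 0 495 531))))))) (mv 463 (both (mv 526 (both (five 2 493 525) (mv 529 (both (five 0 494 530) (mv 558 (both (five 5 462 590) (mv 557 (both (five 2 525 527) (mv 560 (both (five 1 525 559) (five 7 463 592))))))))))) (both (mv 431 (both (five 4 399 399) (mv 465 (both (five 1 462 466) (mv 526 (both (five 2 493 525) (mv 558 (both (five 6 430 527) (five 5 462 590))))))))) (mv 431 (both (five 4 399 399) (mv 560 (both (five 7 431 464) (five 7 463 592)))))))))))) (both (mv 493 (both (mv 460 (both (five 3 460 461) (mv 492 (both (five 3 459 459) (five 0 492 527))))) (both (mv 460 (both (five 3 460 461) (mv 465 (both (five 1 461 464) (mv 497 (both (five 1 462 466) (mv 525 (both (five 2 492 524) (five 2 493 526))))))))) (mv 464 (both (five 1 461 465) (mv 492 (both (five 1 460 463) (five 0 492 527)))))))) (mv 493 (both (five 0 493 529) (mv 460 (both (five 3 460 461) (mv 492 (both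 (five 3 459 459) (mv 524 (both (five 2 491 523) (five 2 492 525))))))))))))) (both (mv 463 (both (mv 497 (both (mv 462 (both (five 3 462 498) (mv 461 (both (five 0 460 460) (five 0 461 464))))) (both (mv 494 (both (mv 493 (both (five 0 493 529) (mv 460 (both (five 3 460 461) (mv 492 (both (five 3 459 459) (five 0 492 527))))))) (both (mv 461 (both (five 3 461 462) (mv 493 (both (five 3 460 460) (mv 525 (both (five 2 492 524) (five 2 493 526))))))) (both (mv 462 (both (five 3 461 461) (mv 526 (both (five 2 493 525) (mv 529 (both (five 0 494 530) (mv 558 (both (five 5 462 590) (mv 557 (both (five 2 525 527) (five 6 461 589))))))))))) (mv 493 (both (five 0 493 529) (mv 492 (both (five 0 492 527) (mv 524 (both (five 2 491 523) (five 2 492 525))))))))))) (mv 498 (both (mv 527 (both (five 2 495 499) (five 2 494 526))) (both (mv 467 (both (five 1 463 466) (mv 499 (both (five 1 464 468) (mv 531 (both (five 0 495 530) (five 0 496 532))))))) (mv 466 (both (five 1 463 467) (mv 526 (both (five 2 494 527) (mv 494 (both (five 2 493 525) (mv 530 (both (five 0 494 529) (five 0 495 531))))))))))))))) (both (mv 431 (both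 (five 4 399 399) (mv 560 (both (five 7 431 464) (five 7 463 592))))) (mv 431 (both (five 4 399 399) (mv 560 (both (five 4 431 527) (five 7 463 592)))))))) (both (mv 463 (both (mv 497 (both (mv 494 (both (mv 493 (both (five 0 493 529) (mv 464 (both (five 1 461 465) (five 1 460 492))))) (both (mv 465 (both (five 1 462 466) (mv 464 (both (five 1 461 493) (mv 525 (both (five 2 493 526) (mv 560 (both (five 7 463 592) (mv 559 (both (five 6 463 591) (mv 527 (both (five 5 431 432) (mv 558 (both (five 6 462 590) (mv 557 (both (five 3 524 524) (five 1 524 556))))))))))))))))) (mv 526 (both (five 2 493 525) (mv 529 (both (five 0 494 530) (mv 558 (both (five 5 462 590) (mv 557 (both (five 2 525 527) (mv 560 (both (five 1 525 559) (five 7 463 592)))))))))))))) (both (mv 498 (both (five 3 462 462) (mv 467 (both (five 1 463 466) (mv 499 (both (five 1 464 468) (mv 531 (both (five 0 495 530) (five 0 496 532))))))))) (mv 498 (both (five 3 462 462) (mv 527 (both (five 2 495 499) (five 2 494 526)))))))) (both (mv 431 (both (five 4 399 399) (mv 527 (both (mv 558 (both (five 6 430 526) (mv 559 (both (five 6 462 590) (mv 591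 (both (five 5 463 464) (five 5 495 623))))))) (both (mv 430 (both (five 7 398 398) (mv 559 (both (five 7 430 462) (mv 591 (both (five 5 463 464) (five 5 495 623))))))) (mv 398 (both (five 7 398 430) (mv 526 (both (five 6 430 558) (mv 525 (both (five 1 492 524) (mv 493 (both (five 3 492 492) (mv 494 (both (five 0 493 529) (mv 557 (both (five 2 524 556) (mv 589 (both (five 5 461 462) (five 5 493 621)))))))))))))))))))) (both (mv 431 (both (five 4 399 399) (mv 560 (both (five 7 431 464) (five 7 463 592))))) (mv 431 (both (five 4 399 399) (mv 560 (both (five 4 431 527) (five 7 463 592))))))))) (mv 494 (both (mv 497 (both (mv 526 (both (five 2 493 525) (mv 498 (both (five 2 494 527) (mv 530 (both (five 0 494 529) (five 0 495 531))))))) (both (mv 466 (both (five 1 462 465) (mv 498 (both (five 1 463 467) (mv 526 (both (five 2 493 525) (five 2 494 527))))))) (both (mv 466 (both (five 1 462 465) (mv 498 (both (five 1 463 467) (mv 530 (both (five 0 494 529) (five 0 495 531))))))) (mv 464 (both (mv 529 (both (five 0 494 530) (mv 432 (both (five 4 400 400) (mv 431 (both (five 7 399 399) (mv 559 (both (five 6 431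 527) (mv 560 (both (five 7 431 463) (five 6 463 591))))))))))) (both (mv 461 (both (five 3 461 462) (mv 465 (both (five 1 462 466) (mv 525 (both (five 2 493 526) (mv 560 (both (five 5 464 592) (mv 431 (both (five 7 431 463) (mv 432 (both (five 7 399 399) (mv 559 (both (five 6 431 527) (five 6 463 591))))))))))))))) (both (mv 461 (both (five 3 461 462) (mv 465 (both (five 1 462 466) (mv 525 (both (five 2 493 526) (mv 529 (both (five 0 494 530) (mv 432 (both (five 4 400 400) (mv 431 (both (five 7 399 399) (mv 560 (both (five 7 431 463) (five 5 464 592))))))))))))))) (both (mv 462 (both (five 3 461 461) (mv 465 (both (five 1 462 466) (mv 525 (both (five 2 493 526) (mv 529 (both (five 0 494 530) (mv 560 (both (five 5 464 592) (mv 463 (both (five 7 431 431) (mv 430 (both (five 3 429 429) (mv 398 (both (five 4 366 366) (five 4 398 527))))))))))))))))) (both (mv 462 (both (five 3 461 461) (mv 465 (both (five 1 462 466) (mv 525 (both (five 2 493 526) (mv 529 (both (five 0 494 530) (mv 432 (both (five 4 400 400) (mv 431 (both (five 7 399 399) (mv 430 (both (five 0 429 429) (mv 527 (both (five 4 398 398) (five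 6 431 559))))))))))))))))) (mv 461 (both (five 3 461 462) (mv 465 (both (five 1 462 466) (mv 525 (both (five 2 493 526) (mv 529 (both (five 0 494 530) (mv 432 (both (five 4 400 400) (mv 559 (both (five 6 431 527) (mv 560 (both (five 6 463 591) (five 5 464 592))))))))))))))))))))))))) (both (mv 493 (both (mv 460 (both (five 3 460 461) (mv 492 (both (five 3 459 459) (five 0 492 527))))) (both (mv 460 (both (five 3 460 461) (mv 465 (both (five 1 461 464) (mv 497 (both (five 1 462 466) (mv 525 (both (five 2 492 524) (five 2 493 526))))))))) (mv 464 (both (five 1 461 465) (mv 492 (both (five 1 460 463) (five 0 492 527)))))))) (both (mv 493 (both (five 0 493 529) (mv 460 (both (five 3 460 461) (mv 492 (both (five 3 459 459) (mv 524 (both (five 2 491 523) (five 2 492 525))))))))) (mv 493 (both (five 0 493 529) (mv 464 (both (five 1 461 465) (mv 492 (both (five 1 460 463) (five 0 492 527))))))))))))))))))))))))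

theorem L90 : W (S 878694100701304956511192169158242687862212665431883220280182872118455237980908336946979793684870563807462937680039967586724118902039808942127312687095760289792) (S 149502054567245842113240987861121203030215434362591522968692118473577603183821571708582039068853896717475179467648209672647180945693618304261547014764853394716885466669188860852792087121971613007872) :=
  check_sound Env.nil (x := 495) (t := tL90) (by decide +kernel)

def tL91 : T :=
  (both (mv 495 (both (mv 464 (both (mv 433 (both (five 5 432 465) (mv 432 (both (five 5 400 401) (mv 559 (both (five 6 431 527) (five 6 463 591))))))) (both (mv 559 (both (five 6 463 591) (mv 558 (both (mv 557 (both (five 1 525 529) (mv 524 (both (five 3 524 525) (mv 556 (both (five 3 523 523) (mv 588 (both (five 2 555 587) (five 2 556 589))))))))) (mv 527 (both (five 6 431 432) (mv 463 (both (five 6 462 590) (mv 462 (both (five 7 430 430) (mv 461 (both (five 0 460 460) (five 0 461 497))))))))))))) (both (mv 497 (both (mv 433 (both (five 5 432 465) (mv 432 (both (five 5 400 401) (mv 400 (both (five 4 400 529) (mv 367 (both (five 7 367 399)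 (mv 368 (both (five 7 335 335) (five 6 367 463))))))))))) (both (mv 498 (both (mv 467 (both (five 1 463 466) (mv 499 (both (five 1 464 468) (mv 531 (both (five 0 495 530) (five 0 496 532))))))) (both (mv 466 (both (five 1 463 467) (mv 434 (both (mv 402 (both (five 6 401 529) (mv 369 (both (five 7 369 401) (mv 370 (both (five 7 337 337) (mv 371 (both (five 5 338 339) (five 5 370 403))))))))) (both (mv 463 (both (five 3 462 462) (mv 530 (both (five 0 495 531) (mv 433 (both (five 7 401 401) (mv 435 (both (five 5 402 403) (five 2 431 432))))))))) (both (mv 402 (both (five 6 401 529) (mv 403 (both (five 5 370 371) (mv 530 (both (five 5 402 435) (five 0 495 531))))))) (mv 402 (both (five 6 401 529) (mv 401 (both (five 7 369 369) (mv 433 (both (five 5 400 432) (five 7 401 530))))))))))))) (mv 463 (both (five 3 462 462) (five 3 463 499)))))) (both (mv 498 (both (mv 463 (both (five 3 462 462) (five 3 463 499))) (both (mv 467 (both (five 1 463 466) (mv 499 (both (five 1 464 468) (mv 531 (both (five 0 495 530) (five 0 496 532))))))) (mv 466 (both (five 1 463 467) (mv 434 (both (mv 402 (both (five 6 401 529) (mv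 403 (both (five 5 370 371) (mv 530 (both (five 5 402 435) (five 0 495 531))))))) (both (mv 463 (both (five 3 462 462) (mv 435 (both (five 1 431 465) (mv 530 (both (five 5 402 403) (five 0 495 531))))))) (mv 402 (both (five 6 401 529) (mv 369 (both (five 7 369 401) (mv 370 (both (five 7 337 337) (five 6 369 465))))))))))))))) (both (mv 498 (both (mv 467 (both (five 1 463 466) (mv 499 (both (five 1 464 468) (mv 531 (both (five 0 495 530) (five 0 496 532))))))) (both (mv 433 (both (five 5 432 465) (mv 401 (both (five 5 400 432) (mv 466 (both (five 1 463 467) (mv 434 (both (five 7 401 530) (mv 369 (both (five 4 337 337) (five 7 369 402))))))))))) (both (mv 433 (both (five 5 432 465) (mv 432 (both (five 5 400 401) (mv 529 (both (five 4 400 400) (mv 499 (both (five 2 496 500) (mv 531 (both (five 0 495 530) (five 0 496 532))))))))))) (mv 433 (both (five 5 432 465) (mv 401 (both (five 5 400 432) (mv 467 (both (five 1 463 466) (mv 499 (both (five 1 464 468) (mv 500 (both (five 2 496 529) (mv 532 (both (five 0 496 531) (five 0 497 533))))))))))))))))) (both (mv 498 (both (mv 463 (both (five 3 462 462) (five 3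 463 499))) (mv 433 (both (five 5 432 465) (mv 401 (both (five 5 400 432) (mv 466 (both (five 1 463 467) (mv 434 (both (five 7 401 530) (mv 369 (both (five 4 337 337) (five 7 369 402))))))))))))) (mv 498 (both (mv 463 (both (five 3 462 462) (five 3 463 499))) (both (mv 467 (both (five 1 463 466) (mv 499 (both (five 1 464 468) (mv 531 (both (five 0 495 530) (five 0 496 532))))))) (mv 463 (both (five 3 462 462) (mv 465 (both (five 5 432 433) (mv 466 (both (five 2 463 467) (mv 434 (both (five 1 431 435) (mv 402 (both (five 6 369 370) (five 6 401 529)))))))))))))))))))) (mv 498 (both (mv 465 (both (five 5 432 433) (mv 466 (both (five 2 463 467) (mv 463 (both (five 0 463 499) (mv 462 (both (five 0 462 497) (mv 429 (both (five 3 429 430) (mv 461 (both (five 3 428 428) (five 0 460 460))))))))))))) (both (mv 465 (both (five 5 432 433) (mv 530 (both (mv 559 (both (five 6 463 591) (mv 529 (both (five 2 527 531) (mv 558 (both (five 2 526 527) (five 1 525 557))))))) (both (mv 466 (both (five 2 463 467) (mv 434 (both (mv 435 (both (five 5 402 403) (five 1 431 463))) (both (mv 403 (both (five 5 402 435) (mv 402 (both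 (five 5 370 371) (mv 531 (both (five 4 402 499) (five 4 434 563))))))) (mv 499 (both (five 0 463 463) (mv 531 (both (five 4 402 402) (five 4 434 563)))))))))) (mv 527 (both (mv 466 (both (five 2 463 467) (mv 499 (both (five 0 463 463) (five 1 495 529))))) (both (mv 529 (both (five 1 495 499) (mv 559 (both (five 2 526 558) (five 5 463 591))))) (both (mv 466 (both (five 2 463 467) (mv 559 (both (five 5 463 591) (mv 558 (both (five 2 526 529) (mv 463 (both (five 6 462 590) (mv 434 (both (five 1 431 435) (mv 462 (both (five 7 430 430) (mv 461 (both (five 0 460 460) (mv 429 (both (five 3 428 428) (mv 493 (both (five 2 460 492) (mv 525 (both (five 4 429 526) (mv 557 (both (five 3 524 524) (five 1 524 556))))))))))))))))))))))) (mv 466 (both (five 2 463 467) (mv 463 (both (five 0 463 499) (mv 434 (both (five 1 431 435) (mv 559 (both (five 5 463 591) (mv 462 (both (five 7 430 430) (mv 461 (both (five 0 460 460) (mv 429 (both (five 3 428 428) (mv 493 (both (five 2 460 492) (mv 558 (both (five 6 462 590) (mv 525 (both (five 4 429 526) (mv 557 (both (five 3 524 524) (five 1 524 556))))))))))))))))))))))))))))))))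 (both (mv 497 (both (mv 527 (both (five 2 495 499) (five 2 494 526))) (both (mv 463 (both (five 3 462 462) (five 3 463 499))) (mv 463 (both (five 3 462 462) (mv 527 (both (five 2 494 526) (mv 530 (both (five 0 495 531) (mv 559 (both (five 5 463 591) (mv 558 (both (five 2 526 529) (five 6 462 590)))))))))))))) (both (mv 497 (both (mv 463 (both (five 3 462 462) (mv 465 (both (five 5 432 433) (mv 466 (both (five 2 463 467) (mv 434 (both (five 1 431 435) (mv 402 (both (five 6 369 370) (five 6 401 529))))))))))) (both (mv 463 (both (five 3 462 462) (mv 527 (both (five 2 494 526) (mv 530 (both (five 0 495 531) (mv 559 (both (five 5 463 591) (mv 558 (both (five 2 526 529) (five 6 462 590))))))))))) (both (mv 433 (both (five 5 432 465) (mv 466 (both (five 1 463 467) (mv 526 (both (five 2 494 527) (mv 530 (both (five 0 495 531) (mv 434 (both (five 7 401 401) (mv 402 (both (five 6 401 529) (mv 403 (both (five 5 370 371) (five 5 402 435))))))))))))))) (mv 466 (both (five 1 463 467) (mv 434 (both (mv 463 (both (five 3 462 462) (mv 435 (both (five 1 431 465) (mv 530 (both (five 5 402 403) (five 0 495 531))))))) (both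 (mv 530 (both (five 0 495 531) (mv 401 (both (five 7 401 433) (mv 402 (both (five 7 369 369) (mv 403 (both (five 5 370 371) (five 5 402 435))))))))) (both (mv 463 (both (five 3 462 462) (mv 465 (both (five 5 432 433) (five 1 431 435))))) (mv 433 (both (five 5 432 465) (mv 530 (both (five 7 401 401) (five 0 495 531))))))))))))))) (mv 497 (both (mv 527 (both (five 2 495 499) (five 2 494 526))) (both (mv 467 (both (five 1 463 466) (mv 499 (both (five 1 464 468) (mv 531 (both (five 0 495 530) (five 0 496 532))))))) (mv 433 (both (five 5 432 465) (mv 466 (both (five 1 463 467) (mv 526 (both (five 2 494 527) (mv 530 (both (five 0 495 531) (mv 434 (both (five 7 401 401) (mv 402 (both (five 6 401 529) (mv 403 (both (five 5 370 371) (five 5 402 435))))))))))))))))))))))))))) (both (mv 494 (both (mv 493 (both (five 0 493 529) (mv 460 (both (five 3 460 461) (mv 492 (both (five 3 459 459) (five 0 492 527))))))) (both (mv 497 (both (mv 461 (both (five 3 461 462) (mv 493 (both (five 3 460 460) (mv 525 (both (five 2 492 524) (five 2 493 526))))))) (both (mv 461 (both (five 3 461 462) (mv 460 (both (five 3 460 493)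 (mv 466 (both (five 1 462 465) (mv 498 (both (five 1 463 467) (mv 499 (both (five 2 495 527) (mv 531 (both (five 0 495 530) (five 0 496 532))))))))))))) (mv 466 (both (five 1 462 465) (mv 498 (both (five 1 463 467) (mv 526 (both (five 2 493 525) (five 2 494 527)))))))))) (both (mv 497 (both (mv 526 (both (five 2 493 525) (mv 498 (both (five 2 494 527) (mv 530 (both (five 0 494 529) (five 0 495 531))))))) (both (mv 466 (both (five 1 462 465) (mv 498 (both (five 1 463 467) (mv 530 (both (five 0 494 529) (five 0 495 531))))))) (both (mv 466 (both (five 1 462 465) (mv 498 (both (five 1 463 467) (mv 526 (both (five 2 493 525) (five 2 494 527))))))) (mv 527 (both (mv 462 (both (five 3 461 461) (mv 430 (both (five 4 398 398) (mv 559 (both (five 7 430 463) (five 7 462 591))))))) (both (mv 465 (both (five 1 462 466) (mv 526 (both (five 2 493 525) (mv 529 (both (five 0 494 530) (mv 558 (both (five 2 525 557) (mv 590 (both (five 5 462 463) (five 5 494 622))))))))))) (mv 462 (both (five 3 461 461) (mv 398 (both (five 4 398 430) (mv 465 (both (five 1 462 466) (mv 526 (both (five 2 493 525) (mv 529 (both (five 0 494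 530) (mv 558 (both (five 2 525 557) (mv 590 (both (five 5 494 622) (mv 591 (both (five 4 462 559) (five 4 494 623)))))))))))))))))))))))) (both (mv 493 (both (five 0 493 529) (mv 460 (both (five 3 460 461) (mv 492 (both (five 3 459 459) (mv 524 (both (five 2 491 523) (five 2 492 525))))))))) (mv 493 (both (five 0 493 529) (mv 492 (both (five 0 492 527) (mv 524 (both (five 2 491 523) (five 2 492 525)))))))))))) (both (mv 494 (both (mv 497 (both (mv 526 (both (five 2 493 525) (mv 498 (both (five 2 494 527) (mv 467 (both (five 1 463 466) (mv 499 (both (five 1 464 468) (mv 531 (both (five 0 495 530) (five 0 496 532))))))))))) (both (mv 461 (both (five 3 461 462) (mv 465 (both (five 1 462 466) (mv 433 (both (five 6 400 401) (five 5 432 464))))))) (mv 461 (both (five 3 461 462) (mv 526 (both (five 2 493 525) (mv 498 (both (five 2 494 527) (mv 531 (both (five 0 495 530) (mv 499 (both (five 0 496 532) (mv 464 (both (five 3 463 463) (mv 465 (both (five 5 432 433) (five 3 464 500)))))))))))))))))) (both (mv 464 (both (mv 559 (both (five 6 463 591) (mv 432 (both (five 6 431 527) (mv 401 (both (five 5 400 433) (mv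 400 (both (five 5 368 369) (mv 367 (both (five 7 367 399) (mv 368 (both (five 7 335 335) (five 6 367 463))))))))))))) (both (mv 465 (both (five 5 432 433) (five 1 461 493))) (mv 465 (both (five 1 461 493) (mv 466 (both (five 2 462 463) (five 2 463 467)))))))) (both (mv 497 (both (mv 465 (both (five 1 462 466) (mv 433 (both (five 6 400 401) (five 5 432 464))))) (mv 461 (both (five 3 461 462) (mv 493 (both (five 3 460 460) (mv 525 (both (five 2 492 524) (five 2 493 526))))))))) (mv 493 (both (mv 460 (both (five 3 460 461) (mv 492 (both (five 3 459 459) (five 0 492 527))))) (both (mv 461 (both (five 3 460 460) (mv 462 (both (five 3 461 497) (mv 525 (both (five 2 492 524) (mv 430 (both (five 6 397 398) (five 5 429 557))))))))) (mv 492 (both (five 0 492 527) (mv 524 (both (five 2 491 523) (five 2 492 525)))))))))))) (both (mv 464 (both (mv 465 (both (five 5 432 433) (mv 466 (both (five 2 463 467) (mv 494 (both (five 2 462 463) (five 1 461 493))))))) (both (mv 559 (both (five 6 463 591) (mv 432 (both (five 6 431 527) (mv 401 (both (five 5 400 433) (mv 400 (both (five 5 368 369) (mv 367 (both (five 7 367 399)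 (mv 368 (both (five 7 335 335) (five 6 367 463))))))))))))) (both (mv 494 (both (mv 465 (both (five 1 461 493) (mv 466 (both (five 2 462 463) (five 2 463 467))))) (both (mv 559 (both (five 6 463 591) (mv 527 (both (five 6 431 432) (mv 529 (both (five 3 494 530) (mv 558 (both (five 1 525 557) (mv 590 (both (five 6 462 463) (mv 622 (both (five 5 494 526) (five 5 526 654))))))))))))) (mv 493 (both (five 0 493 529) (mv 460 (both (five 3 460 461) (mv 492 (both (five 3 459 459) (five 0 492 527)))))))))) (mv 433 (both (five 5 432 465) (mv 432 (both (five 5 400 401) (mv 559 (both (five 6 431 527) (five 6 463 591))))))))))) (both (mv 494 (both (mv 493 (both (five 0 493 529) (mv 460 (both (five 3 460 461) (mv 492 (both (five 3 459 459) (mv 524 (both (five 2 491 523) (five 2 492 525))))))))) (both (mv 497 (both (mv 465 (both (five 1 462 466) (mv 433 (both (five 6 400 401) (five 5 432 464))))) (mv 462 (both (five 3 461 461) (mv 463 (both (five 3 462 498) (mv 526 (both (five 2 493 525) (mv 529 (both (five 0 494 530) (mv 558 (both (five 5 462 590) (mv 557 (both (five 1 525 559) (five 6 461 589))))))))))))))) (both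 (mv 497 (both (mv 465 (both (five 1 462 466) (mv 433 (both (five 6 400 401) (five 5 432 464))))) (mv 461 (both (five 3 461 462) (mv 493 (both (five 3 460 460) (mv 525 (both (five 2 492 524) (five 2 493 526))))))))) (both (mv 493 (both (five 0 493 529) (mv 465 (both (five 1 461 464) (mv 497 (both (five 1 462 466) (mv 525 (both (five 2 492 524) (five 2 493 526))))))))) (mv 493 (both (five 0 493 529) (mv 460 (both (five 3 460 461) (mv 464 (both (five 1 461 465) (mv 492 (both (five 3 459 459) (five 1 460 463)))))))))))))) (both (mv 527 (both (mv 529 (both (mv 530 (both (five 3 494 494) (five 3 495 531))) (both (mv 530 (both (five 3 495 531) (mv 498 (both (five 1 495 499) (mv 559 (both (five 2 526 558) (mv 591 (both (five 5 463 464) (five 5 495 623))))))))) (mv 526 (both (mv 493 (both (five 0 493 494) (mv 525 (both (five 3 492 492) (five 1 492 524))))) (both (mv 525 (both (five 1 492 524) (mv 557 (both (five 2 524 556) (five 2 525 558))))) (mv 494 (both (five 0 493 493) (mv 558 (both (five 2 525 557) (mv 590 (both (five 5 494 622) (mv 589 (both (five 6 493 621) (mv 591 (both (five 4 494 623) (mv 559 (both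 (five 4 462 462) (five 5 463 464))))))))))))))))))) (both (mv 497 (both (mv 498 (both (five 2 495 499) (five 2 494 526))) (both (mv 494 (both (mv 493 (both (five 0 492 492) (five 0 493 529))) (both (mv 461 (both (five 3 461 462) (mv 493 (both (five 3 460 460) (mv 525 (both (five 2 492 524) (five 2 493 526))))))) (mv 526 (both (five 2 493 525) (mv 529 (both (five 0 494 530) (mv 558 (both (five 2 525 557) (mv 590 (both (five 5 462 463) (five 5 494 622)))))))))))) (mv 498 (both (five 2 495 499) (mv 462 (both (five 3 462 463) (mv 466 (both (five 1 463 467) (mv 494 (both (five 3 461 461) (mv 530 (both (five 0 494 529) (five 0 495 531)))))))))))))) (both (mv 559 (both (mv 591 (both (five 5 463 464) (five 5 495 623))) (mv 558 (both (mv 529 (both (five 2 526 530) (five 1 525 557))) (mv 590 (both (five 6 462 463) (mv 622 (both (five 5 494 526) (five 5 526 654))))))))) (both (mv 559 (both (mv 591 (both (five 5 463 464) (five 5 495 623))) (both (mv 591 (both (five 5 495 623) (mv 590 (both (five 6 494 622) (mv 558 (both (five 6 462 463) (mv 529 (both (five 2 526 530) (five 1 525 557))))))))) (mv 529 (both (mv 530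 (both (five 3 494 494) (five 3 495 531))) (both (mv 432 (both (five 6 431 464) (mv 494 (both (five 0 493 493) (mv 558 (both (five 1 525 557) (mv 463 (both (five 6 462 590) (mv 462 (both (five 7 430 430) (mv 461 (both (five 0 460 460) (five 3 461 497))))))))))))) (mv 530 (both (five 2 527 531) (five 2 526 558))))))))) (both (mv 559 (both (mv 591 (both (five 5 463 464) (five 5 495 623))) (both (mv 463 (both (mv 462 (both (five 7 430 430) (mv 461 (both (five 0 460 460) (mv 497 (both (five 0 461 464) (five 3 462 498))))))) (both (mv 558 (both (five 6 462 590) (mv 557 (both (five 1 524 556) (mv 525 (both (five 3 524 524) (mv 526 (both (five 1 493 497) (mv 492 (both (five 3 492 493) (mv 589 (both (five 2 556 588) (mv 621 (both (five 5 493 494) (five 5 525 653))))))))))))))) (mv 432 (both (five 5 431 464) (mv 462 (both (five 7 430 430) (mv 460 (both (five 0 460 461) (mv 558 (both (five 6 462 590) (mv 557 (both (five 1 524 556) (mv 525 (both (five 3 524 524) (mv 589 (both (five 2 556 588) (mv 493 (both (five 7 460 492) (five 5 461 494)))))))))))))))))))) (mv 591 (both (five 5 495 623) (mv 462 (both (five 7 462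 494) (mv 463 (both (five 7 430 430) (mv 590 (both (five 6 462 558) (five 6 494 622)))))))))))) (mv 494 (both (mv 493 (both (five 0 492 492) (five 0 493 529))) (mv 497 (both (mv 498 (both (five 2 495 499) (five 2 494 526))) (mv 462 (both (five 3 461 461) (mv 430 (both (five 4 398 398) (mv 559 (both (five 7 430 463) (five 7 462 591))))))))))))))))) (both (mv 464 (both (mv 433 (both (five 5 432 465) (mv 432 (both (five 5 400 401) (mv 559 (both (five 6 431 527) (five 6 463 591))))))) (both (mv 559 (both (five 6 463 591) (mv 558 (both (mv 557 (both (five 1 525 529) (mv 524 (both (five 3 524 525) (mv 556 (both (five 3 523 523) (mv 588 (both (five 2 555 587) (five 2 556 589))))))))) (mv 527 (both (five 6 431 432) (mv 463 (both (five 6 462 590) (mv 462 (both (five 7 430 430) (mv 461 (both (five 0 460 460) (five 0 461 497))))))))))))) (mv 465 (both (five 5 432 433) (mv 466 (both (five 2 463 467) (mv 494 (both (five 2 462 463) (five 1 462 497)))))))))) (both (mv 494 (both (mv 493 (both (five 0 493 529) (mv 460 (both (five 3 460 461) (mv 492 (both (five 3 459 459) (five 0 492 527))))))) (both (mv 497 (both (mv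 465 (both (five 1 462 466) (mv 433 (both (five 6 400 401) (five 5 432 464))))) (mv 526 (both (five 2 493 525) (mv 498 (both (five 2 494 527) (mv 530 (both (five 0 494 529) (five 0 495 531))))))))) (mv 497 (both (mv 465 (both (five 1 462 466) (mv 433 (both (five 6 400 401) (five 5 432 464))))) (mv 461 (both (five 3 461 462) (mv 493 (both (five 3 460 460) (mv 525 (both (five 2 492 524) (five 2 493 526)))))))))))) (both (mv 464 (both (mv 559 (both (five 6 463 591) (mv 432 (both (five 6 431 527) (mv 401 (both (five 5 400 433) (mv 400 (both (five 5 368 369) (mv 367 (both (five 7 367 399) (mv 368 (both (five 7 335 335) (five 6 367 463))))))))))))) (both (mv 529 (both (mv 493 (both (five 0 493 494) (mv 559 (both (five 6 463 591) (mv 432 (both (five 6 431 527) (mv 400 (both (five 4 400 497) (mv 367 (both (five 7 367 399) (mv 368 (both (five 7 335 335) (five 6 367 463))))))))))))) (both (mv 530 (both (five 3 495 531) (mv 559 (both (five 6 463 591) (mv 527 (both (five 6 431 432) (five 2 526 558))))))) (mv 494 (both (five 0 493 493) (mv 530 (both (five 0 494 497) (five 3 495 531)))))))) (mv 465 (both (five 5 432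 433) (mv 466 (both (five 2 463 467) (mv 494 (both (five 1 461 493) (five 1 462 497)))))))))) (mv 464 (both (mv 433 (both (five 5 432 465) (mv 432 (both (five 5 400 401) (mv 559 (both (five 6 431 527) (five 6 463 591))))))) (both (mv 433 (both (five 5 432 465) (mv 432 (both (five 5 400 401) (mv 400 (both (five 6 399 527) (mv 367 (both (five 7 367 399) (mv 368 (both (five 7 335 335) (five 6 367 463))))))))))) (both (mv 494 (both (mv 465 (both (five 5 432 433) (five 1 461 493))) (both (mv 497 (both (mv 433 (both (five 5 432 465) (mv 432 (both (five 5 400 401) (mv 400 (both (five 4 400 529) (mv 367 (both (five 7 367 399) (mv 368 (both (five 7 335 335) (five 6 367 463))))))))))) (both (mv 462 (both (five 3 461 461) (mv 465 (both (five 5 432 433) (mv 498 (both (five 0 462 463) (mv 499 (both (five 3 464 500) (mv 531 (both (five 0 495 530) (five 0 496 532))))))))))) (both (mv 462 (both (five 3 461 461) (mv 463 (both (five 3 462 498) (mv 526 (both (five 2 493 525) (mv 529 (both (five 0 494 530) (mv 558 (both (five 5 462 590) (mv 557 (both (five 1 525 559) (five 6 461 589))))))))))))) (mv 433 (both (five 5 432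 465) (mv 432 (both (five 5 400 401) (mv 529 (both (five 4 400 400) (five 0 494 530))))))))))) (mv 493 (both (five 0 493 529) (mv 460 (both (five 3 460 461) (mv 492 (both (five 3 459 459) (mv 524 (both (five 2 491 523) (five 2 492 525)))))))))))) (both (mv 529 (both (mv 493 (both (five 0 493 494) (mv 559 (both (five 6 463 591) (mv 432 (both (five 6 431 527) (mv 400 (both (five 4 400 497) (mv 367 (both (five 7 367 399) (mv 368 (both (five 7 335 335) (five 6 367 463))))))))))))) (both (mv 530 (both (five 3 495 531) (mv 559 (both (five 6 463 591) (mv 527 (both (five 6 431 432) (five 2 526 558))))))) (mv 494 (both (five 0 493 493) (mv 530 (both (five 0 494 497) (five 3 495 531)))))))) (mv 465 (both (five 5 432 433) (mv 494 (both (five 1 461 493) (mv 497 (both (mv 526 (both (five 2 493 525) (mv 498 (both (five 2 494 527) (mv 530 (both (five 0 494 529) (five 0 495 531))))))) (both (mv 461 (both (five 3 461 462) (mv 526 (both (five 2 493 525) (mv 529 (both (five 0 494 530) (mv 559 (both (five 6 463 591) (mv 558 (both (five 1 525 557) (mv 590 (both (five 5 462 463) (mv 621 (both (five 6 493 589) (mv 622 (both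 (five 5 494 527) (five 6 525 653))))))))))))))))) (both (mv 461 (both (five 3 461 462) (mv 530 (both (five 0 494 529) (mv 498 (both (five 0 495 531) (mv 499 (both (five 3 463 463) (five 3 464 500))))))))) (mv 461 (both (five 3 461 462) (mv 526 (both (five 2 493 525) (mv 498 (both (five 2 494 527) (mv 499 (both (five 3 463 463) (five 3 464 500)))))))))))))))))))))))))))))))) (both (mv 592 (both (mv 623 (both (five 6 495 591) (mv 624 (both (five 6 527 655) (mv 625 (both (five 4 496 593) (five 4 528 657))))))) (both (mv 495 (both (five 7 463 463) (mv 624 (both (five 7 495 527) (mv 625 (both (five 4 496 593) (five 4 528 657))))))) (both (mv 495 (both (five 7 463 463) (mv 527 (both (five 7 495 624) (mv 529 (both (mv 530 (both (five 3 494 494) (five 3 495 531))) (both (mv 530 (both (five 3 495 531) (mv 498 (both (five 1 495 499) (mv 559 (both (five 2 526 558) (mv 591 (both (five 5 463 464) (five 5 495 623))))))))) (mv 526 (both (mv 493 (both (five 0 493 494) (mv 525 (both (five 3 492 492) (five 1 492 524))))) (both (mv 525 (both (five 1 492 524) (mv 557 (both (five 2 524 556) (five 2 525 558))))) (mv 494 (both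 (five 0 493 493) (mv 558 (both (five 2 525 557) (mv 590 (both (five 5 494 622) (mv 589 (both (five 6 493 621) (mv 591 (both (five 4 494 623) (mv 559 (both (five 4 462 462) (five 5 463 464))))))))))))))))))))))) (mv 463 (both (five 7 463 495) (mv 591 (both (five 6 495 623) (mv 559 (both (five 6 463 464) (mv 593 (both (five 4 496 625) (mv 558 (both (five 0 557 557) (five 3 558 594))))))))))))))) (both (mv 592 (both (mv 623 (both (five 6 495 591) (mv 624 (both (five 6 527 655) (mv 625 (both (five 4 496 593) (five 4 528 657))))))) (both (mv 497 (both (five 5 464 465) (mv 624 (both (five 5 496 529) (mv 625 (both (five 4 496 593) (five 4 528 657))))))) (mv 465 (both (five 5 464 497) (mv 464 (both (five 5 432 433) (mv 591 (both (five 6 463 559) (five 6 495 623)))))))))) (both (mv 592 (both (mv 497 (both (five 5 464 465) (mv 624 (both (five 5 496 529) (mv 625 (both (five 4 496 593) (five 4 528 657))))))) (both (mv 495 (both (five 7 463 463) (mv 624 (both (five 7 495 527) (mv 625 (both (five 4 496 593) (five 4 528 657))))))) (mv 495 (both (five 7 463 463) (mv 494 (both (mv 493 (both (five 0 493 529) (mv 460 (both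 (five 3 460 461) (mv 492 (both (five 3 459 459) (five 0 492 527))))))) (both (mv 497 (both (five 5 464 465) (mv 526 (both (five 2 493 525) (mv 498 (both (five 2 494 527) (mv 467 (both (five 1 463 466) (mv 499 (both (five 1 464 468) (mv 531 (both (five 0 495 530) (five 0 496 532))))))))))))) (mv 465 (both (five 5 464 497) (mv 493 (both (five 0 493 529) (mv 460 (both (five 3 460 461) (mv 492 (both (five 3 459 459) (mv 524 (both (five 2 491 523) (five 2 492 525))))))))))))))))))) (mv 592 (both (mv 495 (both (five 7 463 463) (mv 624 (both (five 7 495 527) (mv 625 (both (five 4 496 593) (five 4 528 657))))))) (mv 465 (both (five 5 464 497) (mv 464 (both (five 5 432 433) (mv 591 (both (five 6 463 559) (five 6 495 623)))))))))))))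

theorem L91 : W (S 878694100701304956511192169158242687862212665431883220280182872118455237980908336946979793684870563807462937680039967586724118902039808942127312687095760289792) (S 859636811679670645548268094655280562251658741029137449843571080959668762256948565622163546762697275402558146880598502678892660891710074622920741675047379988521084711171306839103431957794843478982656) :=
  check_sound Env.nil (x := 560) (t := tL91) (by decide +kernel)

def tL92 : T :=
  (both (mv 494 (both (mv 493 (both (five 0 492 492) (five 0 493 529))) (mv 497 (both (mv 498 (both (five 2 495 499) (five 2 494 526))) (mv 462 (both (five 3 461 461) (mv 430 (both (five 4 398 398) (mv 559 (both (five 7 430 463) (five 7 462 591))))))))))) (both (mv 559 (both (mv 591 (both (five 5 463 464) (five 5 495 623))) (mv 463 (both (mv 430 (both (five 7 430 462) (mv 431 (both (five 7 398 398) (five 4 399 399))))) (mv 558 (both (five 6 462 590) (mv 529 (both (five 2 526 530) (mv 557 (both (five 2 525 526) (five 1 524 556))))))))))) (both (mv 559 (both (mv 591 (both (five 5 463 464) (five 5 495 623))) (both (mv 463 (both (mv 430 (both (five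 7 430 462) (mv 431 (both (five 7 398 398) (five 4 399 399))))) (both (mv 431 (both (five 4 399 399) (mv 432 (both (five 5 399 400) (five 5 431 464))))) (mv 462 (both (five 7 430 430) (mv 461 (both (five 0 460 460) (mv 497 (both (five 0 461 464) (five 3 462 498)))))))))) (mv 591 (both (five 5 495 623) (mv 462 (both (five 7 462 494) (mv 463 (both (five 7 430 430) (mv 590 (both (five 6 462 558) (five 6 494 622)))))))))))) (both (mv 497 (both (mv 498 (both (five 2 495 499) (five 2 494 526))) (both (mv 494 (both (mv 493 (both (five 0 492 492) (five 0 493 529))) (both (mv 461 (both (five 3 461 462) (mv 493 (both (five 3 460 460) (mv 525 (both (five 2 492 524) (five 2 493 526))))))) (mv 526 (both (five 2 493 525) (mv 529 (both (five 0 494 530) (mv 558 (both (five 2 525 557) (mv 590 (both (five 5 462 463) (five 5 494 622)))))))))))) (mv 498 (both (five 2 495 499) (mv 462 (both (five 3 462 463) (mv 466 (both (five 1 463 467) (mv 494 (both (five 3 461 461) (mv 530 (both (five 0 494 529) (five 0 495 531)))))))))))))) (both (mv 529 (both (mv 530 (both (five 3 494 494) (five 3 495 531))) (both (mv 530 (both (five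 3 495 531) (mv 498 (both (five 1 495 499) (mv 559 (both (five 2 526 558) (mv 591 (both (five 5 463 464) (five 5 495 623))))))))) (mv 526 (both (mv 493 (both (five 0 493 494) (mv 525 (both (five 3 492 492) (five 1 492 524))))) (both (mv 525 (both (five 1 492 524) (mv 557 (both (five 2 524 556) (five 2 525 558))))) (mv 494 (both (five 0 493 493) (mv 558 (both (five 2 525 557) (mv 590 (both (five 5 494 622) (mv 589 (both (five 6 493 621) (mv 591 (both (five 4 494 623) (mv 559 (both (five 4 462 462) (five 5 463 464))))))))))))))))))) (mv 526 (both (mv 497 (both (five 2 494 498) (five 1 493 525))) (both (mv 525 (both (five 1 492 524) (mv 557 (both (five 2 524 556) (mv 529 (both (five 2 525 558) (mv 530 (both (five 3 494 494) (five 3 495 531))))))))) (mv 529 (both (mv 530 (both (five 3 494 494) (five 3 495 531))) (both (mv 530 (both (five 3 495 531) (mv 498 (both (five 1 495 499) (mv 559 (both (five 2 526 558) (mv 591 (both (five 5 463 464) (five 5 495 623))))))))) (mv 493 (both (five 0 493 494) (mv 497 (both (five 2 494 498) (mv 558 (both (five 2 525 557) (mv 463 (both (five 6 430 431) (mv 559 (both (five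 6 462 590) (mv 591 (both (five 5 463 464) (five 5 495 623))))))))))))))))))))))))

theorem L92 : W (S 878694100803598413007946602596154865888075138938653284219028646789808093233912518084625873524972754192647442591005176465710371121077848209186231220012276776960) (S 60915154134352299560123288420650666643376930702981990274856503072562508881916266872290481273107693973280361599880881130688155016810727623629018742572476933661363390762922072476048332685312) :=
  check_sound Env.nil (x := 527) (t := tL92) (by decide +kernel)

def tL93 : T :=
  (both (mv 463 (both (mv 497 (both (mv 462 (both (five 3 462 498) (mv 461 (both (five 0 460 460) (five 0 461 464))))) (both (mv 494 (both (mv 493 (both (five 0 493 529) (mv 460 (both (five 3 460 461) (mv 492 (both (five 3 459 459) (five 0 492 527))))))) (both (mv 461 (both (five 3 461 462) (mv 493 (both (five 3 460 460) (mv 525 (both (five 2 492 524) (five 2 493 526))))))) (both (mv 462 (both (five 3 461 461) (mv 526 (both (five 2 493 525) (mv 529 (both (five 0 494 530) (mv 558 (both (five 5 462 590) (mv 557 (both (five 2 525 527) (five 6 461 589))))))))))) (mv 493 (both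 (five 0 493 529) (mv 492 (both (five 0 492 527) (mv 524 (both (five 2 491 523) (five 2 492 525))))))))))) (mv 498 (both (mv 527 (both (five 2 495 499) (five 2 494 526))) (both (mv 467 (both (five 1 463 466) (mv 499 (both (five 1 464 468) (mv 531 (both (five 0 495 530) (five 0 496 532))))))) (mv 466 (both (five 1 463 467) (mv 526 (both (five 2 494 527) (mv 494 (both (five 2 493 525) (mv 530 (both (five 0 494 529) (five 0 495 531))))))))))))))) (both (mv 431 (both (five 4 399 399) (mv 560 (both (five 7 431 464) (five 7 463 592))))) (mv 431 (both (five 4 399 399) (mv 560 (both (five 4 431 527) (five 7 463 592)))))))) (both (mv 494 (both (mv 493 (both (five 0 493 529) (mv 460 (both (five 3 460 461) (mv 492 (both (five 3 459 459) (mv 524 (both (five 2 491 523) (five 2 492 525))))))))) (both (mv 497 (both (mv 462 (both (five 3 461 461) (mv 463 (both (five 3 462 498) (mv 431 (both (five 4 399 399) (mv 560 (both (five 7 431 464) (five 7 463 592))))))))) (both (mv 498 (both (mv 530 (both (five 0 494 529) (five 0 495 531))) (both (mv 467 (both (five 1 463 466) (mv 499 (both (five 1 464 468) (mv 500 (both (five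 2 496 529) (mv 532 (both (five 0 496 531) (five 0 497 533))))))))) (both (mv 467 (both (five 1 463 466) (mv 499 (both (five 1 464 468) (mv 531 (both (five 0 495 530) (five 0 496 532))))))) (mv 467 (both (five 1 463 466) (mv 499 (both (five 1 464 468) (mv 529 (both (five 2 496 500) (five 0 494 530))))))))))) (mv 463 (both (mv 431 (both (five 4 399 399) (mv 560 (both (five 7 431 464) (five 7 463 592))))) (both (mv 462 (both (five 3 461 461) (mv 526 (both (five 2 493 525) (mv 529 (both (five 0 494 530) (mv 558 (both (five 5 462 590) (mv 557 (both (five 6 461 589) (mv 560 (both (five 1 525 559) (five 7 463 592))))))))))))) (mv 431 (both (five 4 399 399) (mv 462 (both (five 3 461 461) (mv 526 (both (five 2 493 525) (five 5 430 558))))))))))))) (both (mv 493 (both (mv 460 (both (five 3 460 461) (mv 492 (both (five 3 459 459) (mv 524 (both (five 2 491 523) (five 2 492 525))))))) (both (mv 524 (both (five 2 492 525) (mv 492 (both (five 2 491 523) (mv 459 (both (five 3 459 460) (mv 463 (both (five 1 460 464) (mv 491 (both (five 3 458 458) (five 1 459 462))))))))))) (both (mv 460 (both (five 3 460 461) (mv 492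 (both (five 3 459 459) (mv 463 (both (five 1 460 464) (mv 491 (both (five 1 459 462) (mv 523 (both (five 2 490 522) (five 2 491 524))))))))))) (both (mv 524 (both (five 2 492 525) (mv 492 (both (five 2 491 523) (mv 463 (both (five 1 460 464) (mv 399 (both (five 4 399 431) (mv 462 (both (five 1 459 491) (mv 497 (both (five 3 461 461) (five 3 462 498))))))))))))) (both (mv 460 (both (five 3 460 461) (mv 492 (both (five 3 459 459) (mv 463 (both (five 1 460 464) (mv 431 (both (five 4 399 399) (mv 462 (both (five 1 459 491) (mv 497 (both (five 3 462 498) (mv 526 (both (five 2 493 525) (five 5 430 558))))))))))))))) (mv 461 (both (five 3 460 460) (mv 462 (both (five 3 461 497) (mv 525 (both (five 2 492 524) (mv 430 (both (five 6 397 398) (five 5 429 557))))))))))))))) (both (mv 493 (both (five 0 493 529) (mv 524 (both (five 2 492 525) (mv 492 (both (five 2 491 523) (mv 459 (both (five 3 459 460) (mv 463 (both (five 1 460 464) (mv 491 (both (five 3 458 458) (five 1 459 462))))))))))))) (mv 493 (both (five 0 493 529) (mv 460 (both (five 3 460 461) (mv 492 (both (five 3 459 459) (mv 463 (both (five 1 460 464)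 (mv 491 (both (five 1 459 462) (mv 523 (both (five 2 490 522) (five 2 491 524)))))))))))))))))) (both (mv 494 (both (mv 493 (both (five 0 493 529) (mv 460 (both (five 3 460 461) (mv 492 (both (five 3 459 459) (five 0 492 527))))))) (both (mv 497 (both (mv 526 (both (five 2 493 525) (mv 498 (both (five 2 494 527) (mv 467 (both (five 1 463 466) (mv 499 (both (five 1 464 468) (mv 531 (both (five 0 495 530) (five 0 496 532))))))))))) (both (mv 461 (both (five 3 461 462) (mv 526 (both (five 2 493 525) (mv 498 (both (five 2 494 527) (mv 467 (both (five 1 463 466) (mv 499 (both (five 1 464 468) (mv 500 (both (five 2 496 529) (mv 532 (both (five 0 496 531) (five 0 497 533))))))))))))))) (both (mv 498 (both (mv 530 (both (five 0 494 529) (five 0 495 531))) (both (mv 467 (both (five 1 463 466) (mv 499 (both (five 1 464 468) (mv 500 (both (five 2 496 529) (mv 532 (both (five 0 496 531) (five 0 497 533))))))))) (both (mv 467 (both (five 1 463 466) (mv 499 (both (five 1 464 468) (mv 531 (both (five 0 495 530) (five 0 496 532))))))) (mv 467 (both (five 1 463 466) (mv 499 (both (five 1 464 468) (mv 529 (both (five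 2 496 500) (five 0 494 530))))))))))) (mv 462 (both (five 3 461 461) (mv 559 (both (mv 526 (both (five 2 493 525) (mv 430 (both (five 4 430 527) (mv 397 (both (five 7 397 429) (mv 398 (both (five 7 365 365) (mv 399 (both (five 5 366 367) (five 5 398 431))))))))))) (both (mv 526 (both (five 2 493 525) (mv 529 (both (five 0 494 530) (mv 558 (both (five 4 462 591) (mv 557 (both (five 1 525 560) (five 6 461 589))))))))) (mv 529 (both (five 0 494 530) (mv 591 (both (five 7 462 527) (mv 560 (both (five 6 463 464) (mv 592 (both (five 6 495 623) (five 5 496 624)))))))))))))))))) (both (mv 493 (both (mv 460 (both (five 3 460 461) (mv 492 (both (five 3 459 459) (five 0 492 527))))) (both (mv 461 (both (five 3 460 460) (mv 462 (both (five 3 461 497) (mv 525 (both (five 2 492 524) (mv 430 (both (five 6 397 398) (five 5 429 557))))))))) (mv 492 (both (five 0 492 527) (mv 524 (both (five 2 491 523) (five 2 492 525)))))))) (both (mv 493 (both (five 0 493 529) (mv 460 (both (five 3 460 461) (mv 492 (both (five 3 459 459) (mv 524 (both (five 2 491 523) (five 2 492 525))))))))) (mv 493 (both (five 0 493 529) (mv 492 (both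 (five 0 492 527) (mv 524 (both (five 2 491 523) (five 2 492 525)))))))))))) (both (mv 560 (both (mv 463 (both (five 7 463 592) (mv 431 (both (five 4 399 399) (five 7 431 464))))) (both (mv 592 (both (mv 624 (both (five 7 495 527) (mv 625 (both (five 4 496 593) (five 4 528 657))))) (both (mv 591 (both (five 6 495 623) (mv 559 (both (five 6 463 464) (mv 593 (both (five 4 496 625) (mv 558 (both (five 0 557 557) (five 3 558 594))))))))) (mv 527 (both (five 7 495 624) (mv 591 (both (five 6 495 623) (mv 559 (both (five 5 463 464) (mv 590 (both (five 6 494 622) (mv 589 (both (five 1 556 588) (mv 557 (both (five 3 556 556) (mv 558 (both (five 1 525 529) (mv 524 (both (five 3 524 525) (mv 621 (both (five 2 588 620) (mv 653 (both (five 5 525 526) (five 5 557 685)))))))))))))))))))))))) (both (mv 464 (both (mv 559 (both (five 6 463 591) (mv 432 (both (five 6 431 527) (mv 399 (both (five 7 399 431) (mv 400 (both (five 7 367 367) (mv 401 (both (five 5 368 369) (five 5 400 433))))))))))) (both (mv 559 (both (five 6 463 591) (mv 432 (both (five 6 431 527) (mv 401 (both (five 5 400 433) (mv 400 (both (five 5 368 369)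 (mv 367 (both (five 7 367 399) (mv 368 (both (five 7 335 335) (five 6 367 463))))))))))))) (both (mv 432 (both (mv 399 (both (five 7 399 431) (mv 400 (both (five 7 367 367) (mv 401 (both (five 5 368 369) (five 5 400 433))))))) (both (mv 401 (both (five 5 400 433) (mv 400 (both (five 5 368 369) (mv 367 (both (five 7 367 399) (mv 368 (both (five 7 335 335) (five 6 367 463))))))))) (both (mv 401 (both (five 5 400 433) (mv 400 (both (five 5 368 369) (mv 463 (both (five 6 367 368) (five 7 431 431))))))) (mv 431 (both (five 7 399 399) (five 7 431 463))))))) (mv 463 (both (five 7 431 431) (mv 497 (both (mv 462 (both (five 0 461 461) (five 3 462 498))) (both (mv 462 (both (five 0 461 461) (mv 559 (both (five 6 463 591) (mv 527 (both (five 7 430 430) (mv 558 (both (five 6 462 590) (mv 529 (both (five 2 526 530) (five 1 525 557))))))))))) (mv 498 (both (five 3 463 499) (mv 527 (both (five 2 494 526) (mv 530 (both (five 0 495 531) (mv 559 (both (five 5 463 591) (mv 558 (both (five 2 526 529) (five 6 462 590)))))))))))))))))))) (mv 592 (both (five 7 463 463) (mv 624 (both (five 7 495 527) (mv 625 (both (five 4 496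 593) (five 4 528 657))))))))))) (both (mv 527 (both (mv 494 (both (mv 493 (both (five 0 492 492) (mv 461 (both (five 3 460 460) (mv 462 (both (five 3 461 497) (mv 525 (both (five 2 492 524) (mv 430 (both (five 6 397 398) (five 5 429 557))))))))))) (both (mv 526 (both (mv 497 (both (five 2 494 498) (five 1 493 525))) (both (mv 497 (both (five 2 494 498) (mv 462 (both (five 3 461 461) (mv 430 (both (five 4 398 398) (five 4 430 559))))))) (mv 525 (both (five 1 492 524) (mv 557 (both (five 2 524 556) (mv 462 (both (five 6 429 430) (mv 589 (both (five 6 461 558) (five 5 493 621)))))))))))) (both (mv 526 (both (mv 525 (both (five 1 492 524) (mv 557 (both (five 2 524 556) (mv 462 (both (five 6 429 430) (mv 589 (both (five 6 461 558) (five 5 493 621))))))))) (both (mv 493 (both (five 0 492 492) (mv 461 (both (five 3 460 460) (mv 429 (both (five 4 397 397) (mv 558 (both (five 7 429 462) (five 7 461 590))))))))) (both (mv 493 (both (five 0 492 492) (mv 461 (both (five 3 460 460) (mv 397 (both (five 4 397 429) (mv 525 (both (five 2 492 524) (mv 557 (both (five 2 524 556) (mv 558 (both (five 7 461 590) (mv 589 (both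 (five 5 493 621) (mv 588 (both (five 6 492 620) (mv 559 (both (five 2 556 560) (mv 591 (both (five 5 463 464) (five 5 495 623))))))))))))))))))))) (mv 493 (both (five 0 492 492) (mv 525 (both (five 2 492 524) (mv 557 (both (five 2 524 556) (mv 589 (both (five 5 461 462) (five 5 493 621))))))))))))) (both (mv 493 (both (five 0 492 492) (mv 461 (both (five 3 460 460) (mv 462 (both (five 3 461 497) (mv 430 (both (five 4 398 398) (mv 559 (both (five 4 430 526) (five 7 462 591))))))))))) (both (mv 493 (both (five 0 492 492) (mv 461 (both (five 3 460 460) (mv 525 (both (five 2 492 524) (mv 526 (both (five 2 493 497) (mv 557 (both (five 2 524 556) (mv 558 (both (five 7 461 590) (mv 589 (both (five 5 493 621) (mv 588 (both (five 6 492 620) (mv 559 (both (five 2 556 560) (mv 591 (both (five 5 463 464) (five 5 495 623))))))))))))))))))))) (mv 493 (both (five 0 492 492) (mv 525 (both (five 2 492 524) (mv 526 (both (five 2 493 497) (mv 557 (both (five 2 524 556) (mv 589 (both (five 5 461 462) (five 5 493 621))))))))))))))))) (both (mv 497 (both (mv 498 (both (five 2 495 499) (five 2 494 526))) (both (mv 494 (both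 (mv 461 (both (five 3 461 462) (mv 493 (both (five 3 460 460) (five 0 492 492))))) (both (mv 462 (both (five 3 461 461) (mv 430 (both (five 4 398 398) (mv 526 (both (five 2 493 525) (mv 397 (both (five 7 397 429) (mv 431 (both (five 5 398 399) (mv 463 (both (five 6 430 558) (five 4 431 560))))))))))))) (mv 493 (both (five 0 492 492) (mv 525 (both (five 2 492 524) (five 2 493 526)))))))) (mv 498 (both (mv 467 (both (five 1 463 466) (mv 499 (both (five 1 464 468) (mv 531 (both (five 0 495 530) (five 0 496 532))))))) (mv 463 (both (five 3 462 462) (mv 431 (both (five 4 399 399) (mv 560 (both (five 7 431 464) (five 7 463 592)))))))))))) (both (mv 463 (both (mv 431 (both (five 4 399 399) (five 4 431 560))) (both (mv 559 (both (mv 591 (both (five 5 463 464) (five 5 495 623))) (both (mv 591 (both (five 5 495 623) (mv 592 (both (five 4 463 560) (five 4 495 624))))) (mv 432 (both (five 5 431 464) (mv 462 (both (five 7 430 430) (mv 460 (both (five 0 460 461) (mv 558 (both (five 6 462 590) (mv 557 (both (five 1 524 556) (mv 560 (both (five 7 463 592) (mv 525 (both (five 3 524 524) (mv 589 (both (five 2 556 588)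 (mv 493 (both (five 7 460 492) (five 5 461 494)))))))))))))))))))))) (mv 431 (both (five 4 399 399) (mv 430 (both (five 7 398 398) (mv 559 (both (five 7 430 462) (mv 591 (both (five 5 463 464) (five 5 495 623)))))))))))) (both (mv 463 (both (mv 431 (both (five 4 399 399) (five 4 431 560))) (both (mv 559 (both (mv 591 (both (five 5 495 623) (mv 592 (both (five 4 463 560) (five 4 495 624))))) (both (mv 430 (both (five 7 430 462) (mv 590 (both (five 6 462 558) (mv 591 (both (five 6 494 622) (five 5 495 623))))))) (mv 462 (both (five 7 430 430) (mv 460 (both (five 0 460 461) (mv 558 (both (five 6 462 590) (mv 557 (both (five 1 524 556) (mv 560 (both (five 7 463 592) (mv 525 (both (five 3 524 524) (mv 589 (both (five 2 556 588) (mv 493 (both (five 7 460 492) (five 5 461 494)))))))))))))))))))) (mv 431 (both (five 4 399 399) (mv 526 (both (five 6 430 558) (mv 497 (both (five 2 494 498) (five 1 493 525)))))))))) (both (mv 559 (both (mv 591 (both (five 5 463 464) (five 5 495 623))) (both (mv 463 (both (mv 462 (both (five 7 430 430) (mv 461 (both (five 0 460 460) (mv 497 (both (five 0 461 464) (five 3 462 498)))))))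 (both (mv 431 (both (five 4 399 399) (mv 526 (both (five 6 430 558) (mv 497 (both (five 2 494 498) (five 1 493 525))))))) (mv 399 (both (five 4 399 431) (mv 462 (both (five 7 430 430) (mv 461 (both (five 0 460 460) (mv 464 (both (five 5 431 432) (mv 429 (both (five 3 428 428) (mv 493 (both (five 2 460 492) (mv 558 (both (five 6 462 590) (mv 526 (both (five 7 429 494) (five 4 429 525)))))))))))))))))))) (mv 591 (both (five 5 495 623) (mv 462 (both (five 7 462 494) (mv 463 (both (five 7 430 430) (mv 590 (both (five 6 462 558) (five 6 494 622)))))))))))) (both (mv 463 (both (mv 431 (both (five 4 399 399) (five 4 431 560))) (both (mv 559 (both (mv 591 (both (five 5 463 464) (five 5 495 623))) (both (mv 591 (both (five 5 495 623) (mv 592 (both (five 4 463 560) (five 4 495 624))))) (mv 432 (both (five 5 431 464) (mv 558 (both (five 6 462 590) (mv 557 (both (five 1 524 556) (mv 560 (both (five 7 463 592) (mv 525 (both (five 3 524 524) (mv 526 (both (five 1 493 497) (mv 492 (both (five 3 492 493) (mv 589 (both (five 2 556 588) (mv 621 (both (five 5 493 494) (five 5 525 653)))))))))))))))))))))) (mv 431 (both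 (five 4 399 399) (mv 526 (both (five 6 430 558) (mv 497 (both (five 2 494 498) (five 1 493 525)))))))))) (mv 463 (both (mv 431 (both (five 4 399 399) (five 4 431 560))) (both (mv 559 (both (mv 591 (both (five 5 495 623) (mv 592 (both (five 4 463 560) (five 4 495 624))))) (mv 462 (both (five 7 430 430) (mv 461 (both (five 0 460 460) (mv 497 (both (five 0 461 464) (five 3 462 498))))))))) (mv 431 (both (five 4 399 399) (mv 430 (both (five 7 398 398) (mv 559 (both (five 7 430 462) (mv 591 (both (five 5 463 464) (five 5 495 623))))))))))))))))))) (both (ref 0) (both (mv 527 (both (mv 463 (both (mv 559 (both (mv 591 (both (five 5 463 464) (five 5 495 623))) (mv 558 (both (five 6 462 590) (mv 529 (both (five 2 526 530) (mv 557 (both (five 2 525 526) (five 1 524 556))))))))) (mv 431 (both (five 4 399 399) (five 4 431 560))))) (both (mv 526 (both (mv 525 (both (five 1 492 524) (mv 557 (both (five 2 524 556) (mv 529 (both (five 2 525 558) (mv 530 (both (five 3 494 494) (five 3 495 531))))))))) (both (mv 494 (both (mv 493 (both (five 0 492 492) (five 0 493 529))) (both (mv 529 (both (five 3 494 530) (mv 558 (both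 (five 2 525 557) (mv 463 (both (five 6 430 431) (five 5 462 590))))))) (mv 493 (both (five 0 492 492) (mv 461 (both (five 3 460 460) (mv 429 (both (five 4 397 397) (mv 558 (both (five 7 429 462) (five 7 461 590)))))))))))) (both (mv 525 (both (five 1 492 524) (mv 493 (both (five 3 492 492) (mv 557 (both (five 2 524 556) (mv 558 (both (five 2 525 529) (mv 461 (both (five 4 429 429) (five 4 461 590))))))))))) (both (mv 494 (both (mv 525 (both (five 1 492 524) (mv 557 (both (five 2 524 556) (mv 462 (both (five 6 429 430) (mv 589 (both (five 6 461 558) (five 5 493 621))))))))) (both (mv 493 (both (five 0 492 492) (mv 461 (both (five 3 460 460) (mv 429 (both (five 4 397 397) (mv 558 (both (five 7 429 462) (five 7 461 590))))))))) (both (mv 493 (both (five 0 492 492) (mv 525 (both (five 2 492 524) (mv 557 (both (five 2 524 556) (mv 589 (both (five 5 461 462) (five 5 493 621))))))))) (mv 493 (both (five 0 492 492) (mv 460 (both (five 3 460 461) (mv 525 (both (five 2 492 524) (mv 557 (both (five 2 524 556) (mv 589 (both (five 5 493 621) (mv 588 (both (five 6 492 620) (mv 590 (both (five 4 493 622) (mv 463 (both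 (five 5 462 558) (mv 431 (both (five 4 399 399) (five 4 431 560))))))))))))))))))))))) (both (mv 525 (both (five 1 492 524) (mv 493 (both (five 3 492 492) (mv 494 (both (five 0 493 529) (mv 557 (both (five 2 524 556) (mv 589 (both (five 5 461 462) (five 5 493 621))))))))))) (mv 525 (both (five 1 492 524) (mv 493 (both (five 3 492 492) (mv 494 (both (five 0 493 529) (mv 461 (both (five 3 460 460) (mv 429 (both (five 4 397 397) (mv 558 (both (five 7 429 462) (five 7 461 590))))))))))))))))))) (both (mv 529 (both (mv 530 (both (five 3 494 494) (five 3 495 531))) (both (mv 530 (both (five 3 495 531) (mv 498 (both (five 1 495 499) (mv 559 (both (five 2 526 558) (mv 591 (both (five 5 463 464) (five 5 495 623))))))))) (mv 526 (both (mv 493 (both (five 0 493 494) (mv 525 (both (five 3 492 492) (five 1 492 524))))) (both (mv 525 (both (five 1 492 524) (mv 557 (both (five 2 524 556) (five 2 525 558))))) (mv 494 (both (five 0 493 493) (mv 558 (both (five 2 525 557) (mv 590 (both (five 5 494 622) (mv 589 (both (five 6 493 621) (mv 591 (both (five 4 494 623) (mv 559 (both (five 4 462 462) (five 5 463 464)))))))))))))))))))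 (both (mv 463 (both (mv 431 (both (five 4 399 399) (five 4 431 560))) (both (mv 559 (both (mv 591 (both (five 5 463 464) (five 5 495 623))) (both (mv 591 (both (five 5 495 623) (mv 592 (both (five 4 463 560) (five 4 495 624))))) (mv 432 (both (five 5 431 464) (mv 462 (both (five 7 430 430) (mv 460 (both (five 0 460 461) (mv 558 (both (five 6 462 590) (mv 557 (both (five 1 524 556) (mv 560 (both (five 7 463 592) (mv 525 (both (five 3 524 524) (mv 589 (both (five 2 556 588) (mv 493 (both (five 7 460 492) (five 5 461 494)))))))))))))))))))))) (mv 431 (both (five 4 399 399) (mv 430 (both (five 7 398 398) (mv 559 (both (five 7 430 462) (mv 591 (both (five 5 463 464) (five 5 495 623)))))))))))) (both (mv 463 (both (mv 431 (both (five 4 399 399) (five 4 431 560))) (both (mv 559 (both (mv 591 (both (five 5 495 623) (mv 592 (both (five 4 463 560) (five 4 495 624))))) (mv 462 (both (five 7 430 430) (mv 461 (both (five 0 460 460) (mv 464 (both (five 5 431 432) (mv 428 (both (five 3 428 429) (mv 493 (both (five 2 460 492) (mv 494 (both (five 0 493 529) (mv 525 (both (five 2 492 524) (mv 557 (both (five 5 461 589)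 (mv 556 (both (five 2 524 526) (five 6 460 588))))))))))))))))))))) (mv 431 (both (five 4 399 399) (mv 430 (both (five 7 398 398) (mv 559 (both (five 7 430 462) (mv 591 (both (five 5 463 464) (five 5 495 623)))))))))))) (mv 463 (both (mv 431 (both (five 4 399 399) (five 4 431 560))) (both (mv 559 (both (mv 591 (both (five 5 495 623) (mv 592 (both (five 4 463 560) (five 4 495 624))))) (mv 462 (both (five 7 430 430) (mv 461 (both (five 0 460 460) (mv 464 (both (five 5 431 432) (mv 429 (both (five 3 428 428) (mv 493 (both (five 2 460 492) (mv 558 (both (five 6 462 590) (mv 526 (both (five 7 429 494) (five 4 429 525))))))))))))))))) (mv 431 (both (five 4 399 399) (mv 558 (both (five 6 430 526) (mv 559 (both (five 6 462 590) (mv 591 (both (five 5 463 464) (five 5 495 623)))))))))))))))))) (both (mv 527 (both (mv 494 (both (mv 493 (both (five 0 492 492) (five 0 493 529))) (mv 497 (both (mv 498 (both (five 2 495 499) (five 2 494 526))) (mv 462 (both (five 3 461 461) (mv 430 (both (five 4 398 398) (mv 559 (both (five 7 430 463) (five 7 462 591))))))))))) (both (mv 463 (both (mv 431 (both (five 4 399 399) (five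 4 431 560))) (both (mv 559 (both (mv 591 (both (five 5 495 623) (mv 592 (both (five 4 463 560) (five 4 495 624))))) (mv 558 (both (five 6 462 590) (mv 529 (both (five 2 526 530) (mv 557 (both (five 2 525 526) (five 1 524 556))))))))) (mv 431 (both (five 4 399 399) (mv 526 (both (five 6 430 558) (mv 497 (both (five 2 494 498) (five 1 493 525)))))))))) (both (mv 463 (both (mv 431 (both (five 4 399 399) (five 4 431 560))) (both (mv 431 (both (five 4 399 399) (mv 400 (both (five 5 399 432) (mv 430 (both (five 7 398 398) (mv 462 (both (five 7 430 559) (mv 461 (both (five 0 460 460) (mv 497 (both (five 3 461 494) (five 3 462 498))))))))))))) (mv 559 (both (mv 591 (both (five 5 495 623) (mv 592 (both (five 4 463 560) (five 4 495 624))))) (both (mv 430 (both (five 7 430 462) (mv 590 (both (five 6 462 558) (mv 591 (both (five 6 494 622) (five 5 495 623))))))) (mv 462 (both (five 7 430 430) (mv 460 (both (five 0 460 461) (mv 558 (both (five 6 462 590) (mv 557 (both (five 1 524 556) (mv 560 (both (five 7 463 592) (mv 525 (both (five 3 524 524) (mv 589 (both (five 2 556 588) (mv 493 (both (five 7 460 492) (five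 5 461 494))))))))))))))))))))))) (both (mv 494 (both (mv 493 (both (five 0 492 492) (five 0 493 529))) (mv 526 (both (mv 497 (both (five 2 494 498) (five 1 493 525))) (both (mv 497 (both (five 2 494 498) (mv 462 (both (five 3 461 461) (mv 430 (both (five 4 398 398) (five 4 430 559))))))) (mv 525 (both (five 1 492 524) (mv 557 (both (five 2 524 556) (mv 462 (both (five 6 429 430) (mv 589 (both (five 6 461 558) (five 5 493 621)))))))))))))) (both (mv 463 (both (mv 431 (both (five 4 399 399) (five 4 431 560))) (both (mv 559 (both (mv 591 (both (five 5 495 623) (mv 592 (both (five 4 463 560) (five 4 495 624))))) (mv 558 (both (five 6 462 590) (mv 529 (both (five 2 526 530) (mv 557 (both (five 2 525 526) (five 1 524 556))))))))) (mv 431 (both (five 4 399 399) (mv 526 (both (five 6 430 558) (mv 525 (both (five 1 492 524) (mv 493 (both (five 3 492 492) (mv 494 (both (five 0 493 529) (mv 557 (both (five 2 524 556) (mv 589 (both (five 5 461 462) (five 5 493 621)))))))))))))))))) (mv 497 (both (mv 498 (both (five 2 495 499) (five 2 494 526))) (both (mv 494 (both (mv 493 (both (five 0 492 492) (five 0 493 529)))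 (both (mv 461 (both (five 3 461 462) (mv 493 (both (five 3 460 460) (mv 525 (both (five 2 492 524) (five 2 493 526))))))) (mv 526 (both (five 2 493 525) (mv 529 (both (five 0 494 530) (mv 558 (both (five 2 525 557) (mv 590 (both (five 5 462 463) (five 5 494 622)))))))))))) (mv 498 (both (five 2 495 499) (mv 462 (both (five 3 462 463) (mv 466 (both (five 1 463 467) (mv 494 (both (five 3 461 461) (mv 530 (both (five 0 494 529) (five 0 495 531)))))))))))))))))))) (both (mv 527 (both (mv 494 (both (mv 493 (both (five 0 492 492) (five 0 493 529))) (mv 497 (both (mv 498 (both (five 2 495 499) (five 2 494 526))) (mv 462 (both (five 3 461 461) (mv 430 (both (five 4 398 398) (mv 559 (both (five 7 430 463) (five 7 462 591))))))))))) (both (mv 497 (both (mv 498 (both (five 2 495 499) (five 2 494 526))) (both (mv 494 (both (mv 493 (both (five 0 492 492) (five 0 493 529))) (both (mv 461 (both (five 3 461 462) (mv 493 (both (five 3 460 460) (mv 525 (both (five 2 492 524) (five 2 493 526))))))) (mv 526 (both (five 2 493 525) (mv 529 (both (five 0 494 530) (mv 558 (both (five 2 525 557) (mv 590 (both (five 5 462 463)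 (five 5 494 622)))))))))))) (mv 498 (both (five 2 495 499) (mv 462 (both (five 3 462 463) (mv 466 (both (five 1 463 467) (mv 494 (both (five 3 461 461) (mv 530 (both (five 0 494 529) (five 0 495 531)))))))))))))) (both (mv 559 (both (mv 591 (both (five 5 463 464) (five 5 495 623))) (both (mv 463 (both (mv 462 (both (five 7 430 430) (mv 461 (both (five 0 460 460) (mv 497 (both (five 0 461 464) (five 3 462 498))))))) (both (mv 462 (both (five 7 430 430) (mv 460 (both (five 0 460 461) (mv 558 (both (five 6 462 590) (mv 557 (both (five 1 524 556) (mv 560 (both (five 7 463 592) (mv 525 (both (five 3 524 524) (mv 589 (both (five 2 556 588) (mv 493 (both (five 7 460 492) (five 5 461 494))))))))))))))))) (mv 432 (both (five 5 431 464) (mv 558 (both (five 6 462 590) (mv 560 (both (five 7 463 592) (mv 557 (both (five 1 525 529) (mv 524 (both (five 3 524 525) (mv 556 (both (five 3 523 523) (mv 588 (both (five 2 555 587) (five 2 556 589)))))))))))))))))) (mv 591 (both (five 5 495 623) (mv 462 (both (five 7 462 494) (mv 463 (both (five 7 430 430) (mv 592 (both (five 4 463 560) (five 4 495 624)))))))))))) (both (mv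 494 (both (mv 493 (both (five 0 492 492) (mv 461 (both (five 3 460 460) (mv 462 (both (five 3 461 497) (mv 525 (both (five 2 492 524) (mv 430 (both (five 6 397 398) (five 5 429 557))))))))))) (both (mv 526 (both (mv 497 (both (five 2 494 498) (five 1 493 525))) (both (mv 497 (both (five 2 494 498) (mv 462 (both (five 3 461 461) (mv 430 (both (five 4 398 398) (five 4 430 559))))))) (mv 525 (both (five 1 492 524) (mv 557 (both (five 2 524 556) (mv 462 (both (five 6 429 430) (mv 589 (both (five 6 461 558) (five 5 493 621)))))))))))) (both (mv 526 (both (mv 525 (both (five 1 492 524) (mv 557 (both (five 2 524 556) (mv 462 (both (five 6 429 430) (mv 589 (both (five 6 461 558) (five 5 493 621))))))))) (both (mv 493 (both (five 0 492 492) (mv 461 (both (five 3 460 460) (mv 429 (both (five 4 397 397) (mv 558 (both (five 7 429 462) (five 7 461 590))))))))) (both (mv 493 (both (five 0 492 492) (mv 461 (both (five 3 460 460) (mv 397 (both (five 4 397 429) (mv 525 (both (five 2 492 524) (mv 557 (both (five 2 524 556) (mv 558 (both (five 7 461 590) (mv 589 (both (five 5 493 621) (mv 588 (both (five 6 492 620) (mv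 559 (both (five 2 556 560) (mv 591 (both (five 5 463 464) (five 5 495 623))))))))))))))))))))) (mv 493 (both (five 0 492 492) (mv 525 (both (five 2 492 524) (mv 557 (both (five 2 524 556) (mv 589 (both (five 5 461 462) (five 5 493 621))))))))))))) (both (mv 493 (both (five 0 492 492) (mv 461 (both (five 3 460 460) (mv 462 (both (five 3 461 497) (mv 430 (both (five 4 398 398) (mv 559 (both (five 4 430 526) (five 7 462 591))))))))))) (both (mv 493 (both (five 0 492 492) (mv 461 (both (five 3 460 460) (mv 525 (both (five 2 492 524) (mv 526 (both (five 2 493 497) (mv 557 (both (five 2 524 556) (mv 558 (both (five 7 461 590) (mv 589 (both (five 5 493 621) (mv 588 (both (five 6 492 620) (mv 559 (both (five 2 556 560) (mv 591 (both (five 5 463 464) (five 5 495 623))))))))))))))))))))) (mv 493 (both (five 0 492 492) (mv 525 (both (five 2 492 524) (mv 526 (both (five 2 493 497) (mv 557 (both (five 2 524 556) (mv 589 (both (five 5 461 462) (five 5 493 621))))))))))))))))) (mv 559 (both (mv 591 (both (five 5 463 464) (five 5 495 623))) (both (mv 558 (both (mv 529 (both (five 2 526 530) (mv 557 (both (five 2 525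 526) (five 1 524 556))))) (both (mv 590 (both (five 6 462 463) (mv 622 (both (five 5 494 526) (five 5 526 654))))) (mv 432 (both (five 6 431 464) (mv 463 (both (five 6 462 590) (mv 560 (both (five 7 463 592) (mv 557 (both (five 1 525 529) (mv 524 (both (five 3 524 525) (mv 556 (both (five 3 523 523) (mv 588 (both (five 2 555 587) (five 2 556 589)))))))))))))))))) (mv 591 (both (five 5 495 623) (mv 590 (both (five 6 494 622) (mv 463 (both (five 6 462 558) (mv 592 (both (five 4 463 560) (five 4 495 624))))))))))))))))) (both (mv 463 (both (mv 462 (both (mv 461 (both (five 0 460 460) (mv 497 (both (five 0 461 464) (five 3 462 498))))) (both (mv 559 (both (mv 461 (both (five 0 460 460) (mv 560 (both (five 7 463 592) (mv 464 (both (five 6 463 591) (mv 428 (both (five 3 428 429) (mv 432 (both (five 1 429 433) (mv 368 (both (five 6 367 400) (mv 493 (both (five 2 460 492) (mv 494 (both (five 0 493 529) (mv 525 (both (five 2 492 524) (mv 430 (both (five 6 397 398) (five 5 429 557))))))))))))))))))))) (both (mv 460 (both (five 0 460 461) (mv 560 (both (five 7 463 592) (mv 464 (both (five 6 463 591) (mv 432 (both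 (five 5 431 527) (mv 400 (both (five 6 367 368) (mv 401 (both (five 5 368 369) (five 5 400 433))))))))))))) (both (mv 527 (both (five 7 430 430) (mv 591 (both (five 5 463 464) (five 5 495 623))))) (mv 460 (both (five 0 460 461) (mv 527 (both (five 7 430 430) (mv 558 (both (five 6 462 590) (mv 557 (both (five 1 524 556) (mv 560 (both (five 7 463 592) (mv 525 (both (five 3 524 524) (mv 589 (both (five 2 556 588) (mv 493 (both (five 7 460 492) (five 5 461 494))))))))))))))))))))) (both (mv 494 (both (mv 497 (both (five 3 462 498) (mv 526 (both (five 2 493 525) (mv 558 (both (five 5 462 590) (mv 557 (both (five 6 461 589) (mv 559 (both (five 4 462 591) (mv 527 (both (five 4 430 430) (five 1 524 556))))))))))))) (mv 493 (both (five 0 493 529) (mv 492 (both (five 1 460 464) (five 1 459 491))))))) (mv 461 (both (five 0 460 460) (mv 497 (both (five 3 461 494) (five 3 462 498))))))))) (both (mv 431 (both (five 4 399 399) (mv 527 (both (mv 430 (both (five 7 398 398) (mv 462 (both (five 7 430 559) (mv 461 (both (five 0 460 460) (mv 497 (both (five 0 461 464) (five 3 462 498))))))))) (both (mv 398 (both (five 7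 398 430) (mv 558 (both (five 6 430 526) (mv 559 (both (five 6 462 590) (mv 591 (both (five 5 463 464) (five 5 495 623))))))))) (mv 526 (both (five 6 430 558) (mv 497 (both (five 2 494 498) (five 1 493 525)))))))))) (both (mv 431 (both (five 4 399 399) (mv 560 (both (five 7 431 464) (five 7 463 592))))) (mv 431 (both (five 4 399 399) (mv 560 (both (five 4 431 527) (five 7 463 592))))))))) (both (mv 527 (both (mv 463 (both (mv 559 (both (mv 591 (both (five 5 463 464) (five 5 495 623))) (mv 558 (both (five 6 462 590) (mv 529 (both (five 2 526 530) (mv 557 (both (five 2 525 526) (five 1 524 556))))))))) (mv 431 (both (five 4 399 399) (five 4 431 560))))) (both (mv 526 (both (mv 525 (both (five 1 492 524) (mv 557 (both (five 2 524 556) (mv 529 (both (five 2 525 558) (mv 530 (both (five 3 494 494) (five 3 495 531))))))))) (both (mv 494 (both (mv 493 (both (five 0 492 492) (five 0 493 529))) (both (mv 529 (both (five 3 494 530) (mv 558 (both (five 2 525 557) (mv 463 (both (five 6 430 431) (five 5 462 590))))))) (mv 493 (both (five 0 492 492) (mv 461 (both (five 3 460 460) (mv 429 (both (five 4 397 397) (mv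 558 (both (five 7 429 462) (five 7 461 590)))))))))))) (both (mv 525 (both (five 1 492 524) (mv 493 (both (five 3 492 492) (mv 557 (both (five 2 524 556) (mv 558 (both (five 2 525 529) (mv 461 (both (five 4 429 429) (five 4 461 590))))))))))) (both (mv 494 (both (mv 525 (both (five 1 492 524) (mv 557 (both (five 2 524 556) (mv 462 (both (five 6 429 430) (mv 589 (both (five 6 461 558) (five 5 493 621))))))))) (both (mv 493 (both (five 0 492 492) (mv 461 (both (five 3 460 460) (mv 429 (both (five 4 397 397) (mv 558 (both (five 7 429 462) (five 7 461 590))))))))) (both (mv 493 (both (five 0 492 492) (mv 525 (both (five 2 492 524) (mv 557 (both (five 2 524 556) (mv 589 (both (five 5 461 462) (five 5 493 621))))))))) (mv 493 (both (five 0 492 492) (mv 460 (both (five 3 460 461) (mv 525 (both (five 2 492 524) (mv 557 (both (five 2 524 556) (mv 589 (both (five 5 493 621) (mv 588 (both (five 6 492 620) (mv 590 (both (five 4 493 622) (mv 463 (both (five 5 462 558) (mv 431 (both (five 4 399 399) (five 4 431 560))))))))))))))))))))))) (both (mv 525 (both (five 1 492 524) (mv 493 (both (five 3 492 492) (mv 494 (both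 (five 0 493 529) (mv 557 (both (five 2 524 556) (mv 589 (both (five 5 461 462) (five 5 493 621))))))))))) (mv 525 (both (five 1 492 524) (mv 493 (both (five 3 492 492) (mv 494 (both (five 0 493 529) (mv 461 (both (five 3 460 460) (mv 429 (both (five 4 397 397) (mv 558 (both (five 7 429 462) (five 7 461 590))))))))))))))))))) (both (mv 494 (both (mv 493 (both (five 0 492 492) (five 0 493 529))) (both (mv 526 (both (mv 529 (both (five 3 494 530) (mv 558 (both (five 2 525 557) (mv 590 (both (five 5 494 622) (mv 589 (both (five 6 493 621) (mv 591 (both (five 4 494 623) (mv 559 (both (five 4 462 462) (five 5 463 464))))))))))))) (mv 525 (both (five 1 493 497) (five 1 492 524))))) (mv 493 (both (five 0 492 492) (mv 461 (both (five 3 460 460) (mv 462 (both (five 3 461 497) (mv 525 (both (five 2 492 524) (mv 430 (both (five 6 397 398) (five 5 429 557)))))))))))))) (both (mv 463 (both (mv 431 (both (five 4 399 399) (five 4 431 560))) (both (mv 559 (both (mv 591 (both (five 5 495 623) (mv 592 (both (five 4 463 560) (five 4 495 624))))) (mv 462 (both (five 7 430 430) (mv 461 (both (five 0 460 460) (mv 464 (both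 (five 5 431 432) (mv 429 (both (five 3 428 428) (mv 493 (both (five 2 460 492) (mv 558 (both (five 6 462 590) (mv 526 (both (five 7 429 494) (five 4 429 525))))))))))))))))) (mv 431 (both (five 4 399 399) (mv 558 (both (five 6 430 526) (mv 559 (both (five 6 462 590) (mv 591 (both (five 5 463 464) (five 5 495 623)))))))))))) (both (mv 463 (both (mv 431 (both (five 4 399 399) (five 4 431 560))) (both (mv 559 (both (mv 591 (both (five 5 463 464) (five 5 495 623))) (both (mv 591 (both (five 5 495 623) (mv 592 (both (five 4 463 560) (five 4 495 624))))) (mv 432 (both (five 5 431 464) (mv 462 (both (five 7 430 430) (mv 460 (both (five 0 460 461) (mv 558 (both (five 6 462 590) (mv 557 (both (five 1 524 556) (mv 560 (both (five 7 463 592) (mv 525 (both (five 3 524 524) (mv 589 (both (five 2 556 588) (mv 493 (both (five 7 460 492) (five 5 461 494)))))))))))))))))))))) (mv 431 (both (five 4 399 399) (mv 430 (both (five 7 398 398) (mv 559 (both (five 7 430 462) (mv 591 (both (five 5 463 464) (five 5 495 623)))))))))))) (mv 463 (both (mv 431 (both (five 4 399 399) (five 4 431 560))) (both (mv 559 (both (mv 591 (both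 (five 5 495 623) (mv 592 (both (five 4 463 560) (five 4 495 624))))) (mv 462 (both (five 7 430 430) (mv 461 (both (five 0 460 460) (mv 464 (both (five 5 431 432) (mv 428 (both (five 3 428 429) (mv 493 (both (five 2 460 492) (mv 494 (both (five 0 493 529) (mv 525 (both (five 2 492 524) (mv 557 (both (five 5 461 589) (mv 556 (both (five 2 524 526) (five 6 460 588))))))))))))))))))))) (mv 431 (both (five 4 399 399) (mv 430 (both (five 7 398 398) (mv 559 (both (five 7 430 462) (mv 591 (both (five 5 463 464) (five 5 495 623)))))))))))))))))) (both (mv 529 (both (mv 560 (both (mv 463 (both (five 7 463 592) (mv 431 (both (five 4 399 399) (five 7 431 464))))) (both (mv 464 (both (mv 559 (both (five 6 463 591) (mv 432 (both (five 6 431 527) (mv 399 (both (five 7 399 431) (mv 400 (both (five 7 367 367) (mv 401 (both (five 5 368 369) (five 5 400 433))))))))))) (both (mv 559 (both (five 6 463 591) (mv 432 (both (five 6 431 527) (mv 400 (both (five 4 400 497) (mv 367 (both (five 7 367 399) (mv 368 (both (five 7 335 335) (five 6 367 463))))))))))) (both (mv 463 (both (five 7 431 431) (mv 493 (both (five 0 493 494)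 (mv 559 (both (five 6 463 591) (mv 558 (both (five 1 525 557) (mv 527 (both (five 6 462 590) (mv 462 (both (five 7 430 430) (mv 461 (both (five 0 460 460) (five 0 461 497))))))))))))))) (mv 432 (both (mv 399 (both (five 7 399 431) (mv 400 (both (five 7 367 367) (mv 401 (both (five 5 368 369) (five 5 400 433))))))) (both (mv 401 (both (five 5 400 433) (mv 400 (both (five 5 368 369) (mv 367 (both (five 7 367 399) (mv 368 (both (five 7 335 335) (five 6 367 463))))))))) (both (mv 401 (both (five 5 400 433) (mv 400 (both (five 5 368 369) (mv 463 (both (five 6 367 368) (five 7 431 431))))))) (mv 431 (both (five 7 399 399) (five 7 431 463))))))))))) (both (mv 592 (both (mv 591 (both (five 6 495 623) (mv 559 (both (five 6 463 464) (mv 593 (both (five 4 496 625) (mv 558 (both (five 0 557 557) (five 3 558 594))))))))) (mv 624 (both (five 5 496 497) (five 7 495 527))))) (mv 592 (both (five 7 463 463) (mv 624 (both (five 7 495 527) (mv 625 (both (five 4 496 593) (five 4 528 657))))))))))) (both (mv 463 (both (mv 527 (both (mv 530 (both (five 3 495 531) (mv 498 (both (five 1 495 499) (mv 559 (both (five 2 526 558)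 (mv 591 (both (five 5 463 464) (five 5 495 623))))))))) (both (mv 399 (both (five 4 399 431) (mv 530 (both (five 3 495 531) (mv 498 (both (five 1 495 499) (mv 497 (both (five 3 462 462) (mv 466 (both (five 1 463 467) (mv 434 (both (five 6 401 402) (mv 433 (both (five 7 401 401) (mv 435 (both (five 5 402 403) (mv 432 (both (five 3 399 400) (five 2 431 464))))))))))))))))))) (both (mv 431 (both (five 4 399 399) (mv 430 (both (five 7 398 398) (mv 559 (both (five 7 430 462) (mv 591 (both (five 5 463 464) (five 5 495 623))))))))) (mv 399 (both (five 4 399 431) (mv 530 (both (five 3 495 531) (mv 498 (both (five 1 495 499) (mv 462 (both (five 3 462 497) (mv 559 (both (five 7 430 430) (five 2 526 558))))))))))))))) (both (mv 498 (both (mv 462 (both (five 3 462 497) (mv 460 (both (five 0 460 461) (mv 530 (both (five 3 495 531) (mv 527 (both (five 1 495 499) (mv 559 (both (five 7 430 430) (five 2 526 558))))))))))) (both (mv 530 (both (five 3 495 531) (mv 527 (both (five 1 495 499) (mv 559 (both (five 2 526 558) (mv 591 (both (five 5 463 464) (five 5 495 623))))))))) (both (mv 497 (both (five 3 462 462) (mv 499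 (both (five 3 463 464) (five 2 496 500))))) (mv 497 (both (five 3 462 462) (mv 466 (both (five 1 463 467) (mv 434 (both (five 6 401 402) (mv 530 (both (five 0 495 531) (mv 433 (both (five 7 401 401) (mv 435 (both (five 5 402 403) (mv 464 (both (five 2 431 432) (mv 560 (both (five 7 463 592) (mv 559 (both (five 6 463 591) (mv 558 (both (five 2 526 527) (five 1 525 557))))))))))))))))))))))))) (both (mv 431 (both (five 4 399 399) (mv 560 (both (five 7 431 464) (five 7 463 592))))) (mv 431 (both (five 4 399 399) (mv 560 (both (five 4 431 527) (five 7 463 592))))))))) (both (mv 494 (both (five 0 493 493) (mv 530 (both (five 0 494 497) (five 3 495 531))))) (mv 494 (both (five 0 493 493) (mv 530 (both (five 3 494 527) (five 3 495 531))))))))) (both (mv 463 (both (mv 529 (both (mv 530 (both (five 3 495 531) (mv 527 (both (mv 559 (both (five 2 526 558) (mv 591 (both (five 5 463 464) (five 5 495 623))))) (both (mv 498 (both (five 1 495 499) (mv 526 (both (five 2 494 497) (mv 525 (both (five 1 492 524) (mv 557 (both (five 2 524 556) (five 2 525 558))))))))) (mv 498 (both (five 1 495 499) (mv 497 (both (five 2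 494 526) (mv 466 (both (five 1 463 467) (mv 402 (both (five 6 401 434) (mv 562 (both (five 0 527 563) (mv 592 (both (five 7 463 560) (mv 594 (both (five 7 497 626) (mv 593 (both (five 6 497 625) (mv 595 (both (five 4 498 627) (mv 623 (both (five 2 591 624) (mv 591 (both (five 5 495 559) (five 2 590 622)))))))))))))))))))))))))))) (both (mv 558 (both (mv 560 (both (five 7 463 592) (mv 559 (both (five 1 525 557) (mv 464 (both (five 6 463 591) (mv 432 (both (five 5 431 527) (mv 400 (both (five 6 367 368) (mv 401 (both (five 5 368 369) (five 5 400 433))))))))))))) (both (mv 494 (both (five 0 493 493) (mv 526 (both (five 5 462 590) (mv 497 (both (five 2 493 525) (mv 527 (both (five 1 494 498) (five 2 525 557))))))))) (both (mv 494 (both (five 0 493 493) (mv 526 (both (five 5 462 590) (mv 497 (both (five 2 493 525) (mv 560 (both (five 7 463 592) (mv 559 (both (five 1 525 557) (mv 464 (both (five 6 463 591) (mv 432 (both (five 4 400 400) (mv 433 (both (five 5 400 401) (mv 434 (both (five 2 431 435) (mv 498 (both (five 3 463 499) (mv 466 (both (five 6 401 402) (five 1 463 467))))))))))))))))))))))) (mv 494 (both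 (five 0 493 493) (mv 526 (both (five 5 462 590) (mv 497 (both (five 2 493 525) (mv 498 (both (five 2 494 527) (mv 499 (both (five 3 463 464) (five 2 496 500))))))))))))))) (both (mv 494 (both (five 0 493 493) (mv 530 (both (five 0 494 497) (five 3 495 531))))) (mv 494 (both (five 0 493 493) (mv 530 (both (five 3 494 527) (five 3 495 531))))))))) (both (mv 527 (both (mv 431 (both (five 4 399 399) (mv 526 (both (five 6 430 558) (mv 497 (both (five 2 494 498) (five 1 493 525))))))) (both (mv 559 (both (mv 591 (both (five 5 463 464) (five 5 495 623))) (mv 558 (both (five 6 462 590) (mv 529 (both (five 2 526 530) (mv 557 (both (five 2 525 526) (five 1 524 556))))))))) (both (mv 431 (both (five 4 399 399) (mv 398 (both (five 7 398 430) (mv 432 (both (five 5 399 400) (mv 559 (both (five 5 431 464) (mv 590 (both (five 6 462 558) (mv 591 (both (five 6 494 622) (five 5 495 623))))))))))))) (mv 526 (both (mv 497 (both (five 2 494 498) (five 1 493 525))) (both (mv 431 (both (five 4 399 399) (mv 400 (both (five 5 399 432) (mv 430 (both (five 7 398 398) (mv 525 (both (five 1 492 524) (mv 493 (both (five 3 492 492)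 (mv 494 (both (five 0 493 529) (mv 461 (both (five 3 460 460) (mv 429 (both (five 4 397 397) (mv 428 (both (five 7 396 396) (five 0 428 464))))))))))))))))))) (mv 431 (both (five 4 399 399) (mv 398 (both (five 7 398 430) (mv 432 (both (five 5 399 400) (mv 464 (both (five 5 431 559) (mv 433 (both (five 5 400 401) (mv 434 (both (five 2 431 435) (mv 402 (both (five 1 399 403) (mv 466 (both (five 0 431 467) (mv 498 (both (five 2 494 497) (mv 531 (both (five 4 402 499) (mv 530 (both (five 3 495 529) (five 4 434 563)))))))))))))))))))))))))))))) (both (mv 431 (both (five 4 399 399) (mv 560 (both (five 7 431 464) (five 7 463 592))))) (mv 431 (both (five 4 399 399) (mv 560 (both (five 4 431 527) (five 7 463 592))))))))) (both (mv 463 (both (mv 529 (both (mv 530 (both (five 3 495 531) (mv 527 (both (mv 559 (both (five 2 526 558) (mv 591 (both (five 5 463 464) (five 5 495 623))))) (both (mv 498 (both (five 1 495 499) (mv 526 (both (five 2 494 497) (mv 525 (both (five 1 492 524) (mv 557 (both (five 2 524 556) (five 2 525 558))))))))) (mv 498 (both (five 1 495 499) (mv 497 (both (five 2 494 526) (mv 466 (both (five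 1 463 467) (mv 402 (both (five 6 401 434) (mv 562 (both (five 0 527 563) (mv 592 (both (five 7 463 560) (mv 594 (both (five 7 497 626) (mv 593 (both (five 6 497 625) (mv 595 (both (five 4 498 627) (mv 623 (both (five 2 591 624) (mv 591 (both (five 5 495 559) (five 2 590 622)))))))))))))))))))))))))))) (both (mv 558 (both (mv 560 (both (five 7 463 592) (mv 559 (both (five 1 525 557) (mv 464 (both (five 6 463 591) (mv 432 (both (five 5 431 527) (mv 400 (both (five 6 367 368) (mv 401 (both (five 5 368 369) (five 5 400 433))))))))))))) (both (mv 494 (both (five 0 493 493) (mv 526 (both (five 5 462 590) (mv 497 (both (five 2 493 525) (mv 527 (both (five 1 494 498) (five 2 525 557))))))))) (both (mv 494 (both (five 0 493 493) (mv 526 (both (five 5 462 590) (mv 497 (both (five 2 493 525) (mv 560 (both (five 7 463 592) (mv 559 (both (five 1 525 557) (mv 464 (both (five 6 463 591) (mv 432 (both (five 4 400 400) (mv 433 (both (five 5 400 401) (mv 434 (both (five 2 431 435) (mv 498 (both (five 3 463 499) (mv 466 (both (five 6 401 402) (five 1 463 467))))))))))))))))))))))) (mv 494 (both (five 0 493 493) (mv 526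 (both (five 5 462 590) (mv 497 (both (five 2 493 525) (mv 498 (both (five 2 494 527) (mv 499 (both (five 3 463 464) (five 2 496 500))))))))))))))) (both (mv 494 (both (five 0 493 493) (mv 530 (both (five 0 494 497) (five 3 495 531))))) (mv 494 (both (five 0 493 493) (mv 530 (both (five 3 494 527) (five 3 495 531))))))))) (both (mv 431 (both (five 4 399 399) (mv 527 (both (mv 558 (both (five 6 430 526) (mv 559 (both (five 6 462 590) (mv 591 (both (five 5 463 464) (five 5 495 623))))))) (both (mv 430 (both (five 7 398 398) (mv 559 (both (five 7 430 462) (mv 591 (both (five 5 463 464) (five 5 495 623))))))) (mv 398 (both (five 7 398 430) (mv 526 (both (five 6 430 558) (mv 525 (both (five 1 492 524) (mv 493 (both (five 3 492 492) (mv 494 (both (five 0 493 529) (mv 557 (both (five 2 524 556) (mv 589 (both (five 5 461 462) (five 5 493 621)))))))))))))))))))) (both (mv 431 (both (five 4 399 399) (mv 560 (both (five 7 431 464) (five 7 463 592))))) (mv 431 (both (five 4 399 399) (mv 560 (both (five 4 431 527) (five 7 463 592))))))))) (both (mv 494 (both (mv 493 (both (five 0 493 529) (mv 460 (both (five 3 460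 461) (mv 492 (both (five 3 459 459) (five 0 492 527))))))) (both (mv 497 (both (mv 526 (both (five 2 493 525) (mv 498 (both (five 2 494 527) (mv 530 (both (five 0 494 529) (five 0 495 531))))))) (both (mv 462 (both (five 3 461 461) (mv 463 (both (five 3 462 498) (mv 431 (both (five 4 399 399) (mv 560 (both (five 7 431 464) (five 7 463 592))))))))) (mv 462 (both (five 3 461 461) (mv 430 (both (mv 398 (both (five 4 398 527) (mv 365 (both (five 7 365 397) (mv 366 (both (five 7 333 333) (five 4 366 463))))))) (both (mv 526 (both (five 2 493 525) (mv 397 (both (five 7 397 429) (mv 398 (both (five 7 365 365) (mv 399 (both (five 5 366 367) (five 5 398 431))))))))) (both (mv 526 (both (five 2 493 525) (mv 397 (both (five 7 397 429) (mv 431 (both (five 5 398 399) (mv 527 (both (five 4 430 559) (mv 463 (both (five 4 431 560) (mv 432 (both (five 5 399 400) (mv 433 (both (five 2 430 434) (mv 401 (both (five 1 398 402) (five 5 400 464))))))))))))))))) (mv 398 (both (five 4 398 527) (mv 366 (both (five 4 366 463) (mv 367 (both (five 5 334 335) (five 5 366 399)))))))))))))))) (both (mv 493 (both (mv 460 (both (five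 3 460 461) (mv 492 (both (five 3 459 459) (five 0 492 527))))) (both (mv 461 (both (five 3 460 460) (mv 462 (both (five 3 461 497) (mv 525 (both (five 2 492 524) (mv 430 (both (five 6 397 398) (five 5 429 557))))))))) (mv 492 (both (five 0 492 527) (mv 524 (both (five 2 491 523) (five 2 492 525)))))))) (both (mv 493 (both (five 0 493 529) (mv 460 (both (five 3 460 461) (mv 492 (both (five 3 459 459) (mv 524 (both (five 2 491 523) (five 2 492 525))))))))) (mv 493 (both (five 0 493 529) (mv 492 (both (five 0 492 527) (mv 524 (both (five 2 491 523) (five 2 492 525)))))))))))) (mv 463 (both (mv 497 (both (mv 462 (both (five 3 462 498) (mv 461 (both (five 0 460 460) (five 0 461 464))))) (both (mv 494 (both (mv 493 (both (five 0 493 529) (mv 460 (both (five 3 460 461) (mv 492 (both (five 3 459 459) (five 0 492 527))))))) (both (mv 461 (both (five 3 461 462) (mv 493 (both (five 3 460 460) (mv 525 (both (five 2 492 524) (five 2 493 526))))))) (both (mv 462 (both (five 3 461 461) (mv 526 (both (five 2 493 525) (mv 529 (both (five 0 494 530) (mv 558 (both (five 5 462 590) (mv 559 (both (five 4 462 591) (mv 430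 (both (five 7 430 527) (mv 397 (both (five 7 397 429) (mv 398 (both (five 7 365 365) (five 4 366 366))))))))))))))))) (mv 493 (both (five 0 493 529) (mv 492 (both (five 0 492 527) (mv 524 (both (five 2 491 523) (five 2 492 525))))))))))) (mv 498 (both (mv 527 (both (five 2 495 499) (five 2 494 526))) (both (mv 467 (both (five 1 463 466) (mv 499 (both (five 1 464 468) (mv 531 (both (five 0 495 530) (five 0 496 532))))))) (mv 466 (both (five 1 463 467) (mv 526 (both (five 2 494 527) (mv 494 (both (five 2 493 525) (mv 530 (both (five 0 494 529) (five 0 495 531))))))))))))))) (both (mv 431 (both (five 4 399 399) (mv 560 (both (five 7 431 464) (five 7 463 592))))) (mv 431 (both (five 4 399 399) (mv 560 (both (five 4 431 527) (five 7 463 592)))))))))))))))))))))))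

theorem L93 : W (S 878694100701304956511192169158242687862212665431883220280182872118455237980908336946979793684870563807462937680039967586724118902039808942127312687095760289792) (S 160526609033754555335092625077541993569070358322343211917172033995436378015146603951302697792075126449344513459006278280725839486485701423223737419168356092657582680127078518994661646938961145933261109723136) :=
  check_sound (Env.cons L92 Env.nil) (x := 495) (t := tL93) (by decide +kernel)

end P062.Cert
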