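import Vale.Agent.P062.Check
import Vale.Agent.P062.Cert.C16

/-! Snaky certificate, part 17 (machine generated, checked by the kernel) -/

set_option maxRecDepth 100000

namespace P062.Cert

open T

def tL94 : T :=
  (both (mv 431 (both (mv 432 (both (mv 433 (both (mv 430 (both (mv 397 (both (five 3 397 398) (mv 429 (both (five 3 396 396) (mv 461 (both (five 2 428 460) (five 2 429 462))))))) (mv 401 (both (five 1 398 402) (mv 465 (both (five 0 430 466) (five 6 400 497))))))) (both (mv 434 (both (mv 403 (both (five 1 399 402) (mv 435 (both (five 1 400 404) (mv 467 (both (five 0 431 466) (five 0 432 468))))))) (both (mv 399 (both (five 3 398 398) (mv 403 (both (five 1 399 402) (mv 435 (both (five 3 399 400) (five 1 400 404))))))) (both (mv 399 (both (five 3 398 398) (mv 435 (both (five 3 399 400) (mv 467 (both (five 0 431 466) (five 0 432 468))))))) (mv 497 (both (mv 398 (both (five 3 398 399) (mv 402 (both (five 1 399 403) (mv 466 (both (five 0 431 467) (mv 498 (both (five 6 401 529) (mv 527 (both (five 2 495 499) (five 2 494 526))))))))))) (both (mv 398 (both (five 3 398 399) (mv 401 (both (five 6 400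 465) (mv 466 (both (five 0 431 467) (mv 337 (both (five 4 337 369) (mv 498 (both (five 7 401 530) (mv 527 (both (five 2 495 499) (five 2 494 526))))))))))))) (mv 402 (both (five 1 399 403) (mv 465 (both (five 6 400 401) (five 5 401 529)))))))))))) (both (mv 434 (both (mv 403 (both (five 1 399 402) (mv 435 (both (five 1 400 404) (mv 467 (both (five 0 431 466) (five 0 432 468))))))) (both (mv 399 (both (five 3 398 398) (mv 403 (both (five 1 399 402) (mv 435 (both (five 3 399 400) (five 1 400 404))))))) (both (mv 399 (both (five 3 398 398) (mv 435 (both (five 3 399 400) (mv 467 (both (five 0 431 466) (five 0 432 468))))))) (mv 398 (both (five 3 398 399) (mv 402 (both (five 1 399 403) (mv 430 (both (five 3 397 397) (mv 466 (both (five 0 430 465) (five 0 431 467))))))))))))) (both (mv 430 (both (mv 397 (both (five 3 397 398) (mv 429 (both (five 3 396 396) (mv 461 (both (five 2 428 460) (five 2 429 462))))))) (both (mv 401 (both (five 1 398 402) (mv 429 (both (five 1 397 400) (mv 461 (both (five 2 428 460) (five 2 429 462))))))) (mv 398 (both (five 3 397 397) (mv 402 (both (five 1 398 401) (mv 434 (both (five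 3 398 399) (five 1 399 403)))))))))) (mv 465 (both (mv 497 (both (five 6 400 401) (mv 529 (both (five 7 400 400) (mv 530 (both (five 3 495 531) (five 4 433 562))))))) (mv 466 (both (five 0 430 430) (mv 467 (both (five 0 431 434) (five 3 432 468)))))))))))) (both (mv 464 (both (mv 400 (both (mv 401 (both (five 5 368 369) (five 5 400 433))) (both (mv 497 (both (five 4 400 529) (mv 368 (both (five 4 368 465) (mv 335 (both (five 7 335 367) (mv 336 (both (five 7 303 303) (mv 337 (both (five 5 304 305) (five 5 336 369))))))))))) (mv 433 (both (five 5 400 401) (mv 497 (both (five 4 400 529) (mv 465 (both (five 4 368 368) (mv 430 (both (five 0 429 429) (five 0 430 466)))))))))))) (both (mv 430 (both (mv 429 (both (five 0 429 465) (mv 396 (both (five 3 396 397) (mv 428 (both (five 3 395 395) (mv 460 (both (five 2 427 459) (five 2 428 461))))))))) (both (mv 433 (both (five 5 400 401) (mv 397 (both (five 3 397 398) (mv 429 (both (five 3 396 396) (mv 461 (both (five 2 428 460) (five 2 429 462))))))))) (both (mv 433 (both (five 5 400 401) (mv 397 (both (five 3 397 398) (mv 461 (both (five 2 429 462) (mv 466 (both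 (five 0 430 465) (mv 434 (both (five 0 431 467) (mv 403 (both (five 1 399 402) (mv 435 (both (five 1 400 404) (mv 339 (both (five 6 338 371) (mv 498 (both (five 5 402 530) (mv 527 (both (five 6 431 559) (mv 497 (both (five 2 495 499) (five 2 494 526))))))))))))))))))))))) (both (mv 429 (both (five 0 429 465) (mv 433 (both (five 5 400 401) (mv 461 (both (five 2 428 460) (five 2 429 462))))))) (mv 429 (both (five 0 429 465) (mv 397 (both (five 3 396 396) (mv 433 (both (five 3 397 398) (five 5 400 401)))))))))))) (mv 527 (both (five 6 399 400) (five 6 431 559)))))) (both (mv 464 (both (five 7 399 399) (mv 400 (both (mv 401 (both (five 5 368 369) (five 5 400 433))) (both (mv 497 (both (five 4 400 529) (mv 368 (both (five 4 368 465) (mv 335 (both (five 7 335 367) (mv 336 (both (five 7 303 303) (mv 337 (both (five 5 304 305) (five 5 336 369))))))))))) (mv 433 (both (five 5 400 401) (mv 497 (both (five 4 400 529) (mv 465 (both (five 4 368 368) (mv 430 (both (five 0 429 429) (five 0 430 466)))))))))))))) (both (mv 464 (both (five 7 399 399) (mv 527 (both (five 6 399 400) (five 6 431 559))))) (mv 464 (both (five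 7 399 399) (mv 430 (both (mv 429 (both (five 0 429 465) (mv 396 (both (five 3 396 397) (mv 428 (both (five 3 395 395) (mv 460 (both (five 2 427 459) (five 2 428 461))))))))) (both (mv 433 (both (five 5 400 401) (mv 397 (both (five 3 397 398) (mv 429 (both (five 3 396 396) (mv 461 (both (five 2 428 460) (five 2 429 462))))))))) (both (mv 433 (both (five 5 400 401) (mv 397 (both (five 3 397 398) (mv 461 (both (five 2 429 462) (mv 466 (both (five 0 430 465) (mv 434 (both (five 0 431 467) (mv 403 (both (five 1 399 402) (mv 435 (both (five 1 400 404) (mv 339 (both (five 6 338 371) (mv 498 (both (five 5 402 530) (mv 527 (both (five 6 431 559) (mv 497 (both (five 2 495 499) (five 2 494 526))))))))))))))))))))))) (both (mv 429 (both (five 0 429 465) (mv 433 (both (five 5 400 401) (mv 461 (both (five 2 428 460) (five 2 429 462))))))) (mv 429 (both (five 0 429 465) (mv 397 (both (five 3 396 396) (mv 433 (both (five 3 397 398) (five 5 400 401))))))))))))))))))) (both (mv 432 (both (mv 464 (both (mv 400 (both (mv 401 (both (five 5 368 369) (five 5 400 433))) (both (mv 497 (both (five 4 400 529) (mv 368 (both (five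 4 368 465) (mv 335 (both (five 7 335 367) (mv 336 (both (five 7 303 303) (mv 337 (both (five 5 304 305) (five 5 336 369))))))))))) (mv 433 (both (five 5 400 401) (mv 497 (both (five 4 400 529) (mv 465 (both (five 4 368 368) (mv 430 (both (five 0 429 429) (five 0 430 466)))))))))))) (both (mv 430 (both (mv 429 (both (five 0 429 465) (mv 396 (both (five 3 396 397) (mv 428 (both (five 3 395 395) (mv 460 (both (five 2 427 459) (five 2 428 461))))))))) (both (mv 433 (both (five 5 400 401) (mv 397 (both (five 3 397 398) (mv 429 (both (five 3 396 396) (mv 461 (both (five 2 428 460) (five 2 429 462))))))))) (both (mv 433 (both (five 5 400 401) (mv 397 (both (five 3 397 398) (mv 461 (both (five 2 429 462) (mv 466 (both (five 0 430 465) (mv 434 (both (five 0 431 467) (mv 403 (both (five 1 399 402) (mv 435 (both (five 1 400 404) (mv 339 (both (five 6 338 371) (mv 498 (both (five 5 402 530) (mv 527 (both (five 6 431 559) (mv 497 (both (five 2 495 499) (five 2 494 526))))))))))))))))))))))) (both (mv 429 (both (five 0 429 465) (mv 433 (both (five 5 400 401) (mv 461 (both (five 2 428 460) (five 2 429 462))))))) (mv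 429 (both (five 0 429 465) (mv 397 (both (five 3 396 396) (mv 433 (both (five 3 397 398) (five 5 400 401)))))))))))) (mv 527 (both (five 6 399 400) (five 6 431 559)))))) (both (mv 433 (both (mv 430 (both (mv 397 (both (five 3 397 398) (mv 429 (both (five 3 396 396) (mv 461 (both (five 2 428 460) (five 2 429 462))))))) (both (mv 397 (both (five 3 397 398) (mv 429 (both (five 3 396 396) (mv 465 (both (five 0 429 464) (five 0 430 466))))))) (mv 462 (both (five 2 429 461) (mv 434 (both (five 2 430 463) (mv 403 (both (five 1 399 402) (mv 435 (both (five 1 400 404) (mv 467 (both (five 0 431 466) (five 0 432 468)))))))))))))) (both (mv 434 (both (mv 403 (both (five 1 399 402) (mv 435 (both (five 1 400 404) (mv 467 (both (five 0 431 466) (five 0 432 468))))))) (both (mv 401 (both (five 5 400 464) (mv 403 (both (five 1 399 402) (mv 435 (both (five 1 400 404) (mv 436 (both (five 3 400 400) (mv 468 (both (five 0 432 467) (five 0 433 469))))))))))) (both (mv 401 (both (five 5 400 464) (mv 403 (both (five 1 399 402) (mv 435 (both (five 1 400 404) (mv 436 (both (five 3 400 400) (mv 462 (both (five 2 430 463) (mv 465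 (both (five 6 400 497) (mv 437 (both (five 2 433 466) (mv 469 (both (five 0 433 468) (five 0 434 470))))))))))))))))) (mv 401 (both (five 5 400 464) (mv 462 (both (five 2 430 463) (mv 465 (both (five 6 400 497) (mv 466 (both (five 0 431 467) (mv 369 (both (five 4 337 337) (five 4 369 498))))))))))))))) (both (mv 401 (both (five 5 400 464) (mv 402 (both (five 1 398 430) (mv 403 (both (five 2 399 400) (five 2 400 404))))))) (mv 465 (both (mv 497 (both (five 6 400 401) (mv 529 (both (five 7 400 400) (mv 530 (both (five 3 495 531) (five 4 433 562))))))) (mv 466 (both (five 0 430 430) (mv 467 (both (five 0 431 434) (five 3 432 468))))))))))) (both (mv 433 (both (mv 430 (both (mv 397 (both (five 3 397 398) (mv 429 (both (five 3 396 396) (mv 461 (both (five 2 428 460) (five 2 429 462))))))) (mv 401 (both (five 1 398 402) (mv 465 (both (five 0 430 466) (five 6 400 497))))))) (both (mv 434 (both (mv 403 (both (five 1 399 402) (mv 435 (both (five 1 400 404) (mv 467 (both (five 0 431 466) (five 0 432 468))))))) (mv 463 (both (five 2 430 462) (mv 527 (both (five 5 399 400) (mv 526 (both (five 6 430 558) (mv 497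 (both (five 2 494 498) (five 1 493 525))))))))))) (both (mv 430 (both (mv 397 (both (five 3 397 398) (mv 429 (both (five 3 396 396) (mv 461 (both (five 2 428 460) (five 2 429 462))))))) (both (mv 397 (both (five 3 397 398) (mv 401 (both (five 1 398 402) (mv 429 (both (five 3 396 396) (five 1 397 400))))))) (mv 462 (both (five 2 429 461) (mv 434 (both (five 2 430 463) (mv 403 (both (five 1 399 402) (mv 435 (both (five 1 400 404) (mv 467 (both (five 0 431 466) (five 0 432 468)))))))))))))) (both (mv 465 (both (mv 497 (both (five 6 400 401) (mv 529 (both (five 7 400 400) (mv 530 (both (five 3 495 531) (five 4 433 562))))))) (mv 466 (both (five 0 430 430) (mv 467 (both (five 0 431 434) (five 3 432 468))))))) (mv 430 (both (mv 397 (both (five 3 397 398) (mv 429 (both (five 3 396 396) (mv 461 (both (five 2 428 460) (five 2 429 462))))))) (both (mv 397 (both (five 3 397 398) (mv 401 (both (five 1 398 402) (mv 429 (both (five 3 396 396) (five 1 397 400))))))) (both (mv 401 (both (five 1 398 402) (mv 429 (both (five 1 397 400) (mv 461 (both (five 2 428 460) (five 2 429 462))))))) (mv 397 (both (five 3 397 398)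 (mv 401 (both (five 1 398 402) (mv 462 (both (five 2 429 461) (mv 463 (both (five 2 430 434) (mv 527 (both (five 5 399 400) (mv 526 (both (five 6 430 558) (mv 497 (both (five 2 494 498) (five 1 493 525)))))))))))))))))))))))) (both (mv 527 (both (mv 464 (both (five 6 431 559) (mv 430 (both (mv 429 (both (five 0 429 465) (mv 396 (both (five 3 396 397) (mv 428 (both (five 3 395 395) (five 0 428 463))))))) (both (mv 433 (both (five 5 400 401) (mv 462 (both (five 2 429 461) (mv 434 (both (five 2 430 463) (mv 403 (both (five 1 399 402) (mv 435 (both (five 1 400 404) (mv 467 (both (five 0 431 466) (five 0 432 468))))))))))))) (mv 401 (both (five 5 400 433) (mv 429 (both (five 0 429 465) (mv 396 (both (five 3 396 397) (mv 428 (both (five 3 395 395) (mv 460 (both (five 2 427 459) (five 2 428 461)))))))))))))))) (both (mv 526 (both (mv 497 (both (five 2 494 498) (five 1 493 525))) (mv 463 (both (five 6 430 558) (mv 430 (both (five 7 398 398) (mv 462 (both (five 7 430 559) (mv 433 (both (five 2 430 434) (five 2 429 461))))))))))) (both (mv 526 (both (mv 497 (both (five 2 494 498) (five 1 493 525))) (both (mv 525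 (both (five 1 492 524) (mv 493 (both (five 3 492 492) (mv 557 (both (five 2 524 556) (mv 558 (both (five 2 525 529) (mv 461 (both (five 4 429 429) (five 4 461 590))))))))))) (mv 497 (both (five 2 494 498) (mv 558 (both (five 6 430 463) (mv 529 (both (five 2 525 557) (mv 530 (both (five 3 495 531) (mv 562 (both (five 0 527 563) (mv 433 (both (five 4 433 465) (mv 401 (both (five 5 400 464) (mv 402 (both (five 1 398 430) (mv 403 (both (five 2 400 404) (five 1 399 434)))))))))))))))))))))) (both (mv 464 (both (five 6 431 559) (mv 430 (both (mv 429 (both (five 0 429 465) (mv 433 (both (five 5 400 401) (mv 461 (both (five 2 428 460) (five 2 429 462))))))) (both (mv 429 (both (five 0 429 465) (mv 396 (both (five 3 396 397) (mv 428 (both (five 3 395 395) (mv 460 (both (five 2 427 459) (five 2 428 461))))))))) (both (mv 433 (both (five 5 400 401) (mv 397 (both (five 3 397 398) (mv 429 (both (five 3 396 396) (mv 461 (both (five 2 428 460) (five 2 429 462))))))))) (both (mv 433 (both (five 5 400 401) (mv 397 (both (five 3 397 398) (mv 461 (both (five 2 429 462) (mv 466 (both (five 0 430 465) (mv 434 (both (five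 0 431 467) (mv 403 (both (five 1 399 402) (mv 435 (both (five 1 400 404) (mv 339 (both (five 6 338 371) (mv 498 (both (five 5 402 530) (mv 497 (both (five 2 495 499) (five 2 494 526))))))))))))))))))))) (mv 429 (both (five 0 429 465) (mv 397 (both (five 3 396 396) (mv 433 (both (five 3 397 398) (five 5 400 401)))))))))))))) (mv 559 (both (five 6 431 464) (mv 591 (both (five 5 495 623) (mv 590 (both (five 6 494 622) (mv 558 (both (five 6 462 463) (mv 529 (both (five 2 526 530) (mv 557 (both (five 2 525 526) (five 1 524 556)))))))))))))))))) (both (mv 527 (both (mv 559 (both (five 6 431 464) (mv 591 (both (five 5 495 623) (mv 590 (both (five 6 494 622) (mv 558 (both (five 6 462 463) (mv 529 (both (five 2 526 530) (mv 557 (both (five 2 525 526) (five 1 524 556))))))))))))) (both (mv 463 (both (five 5 399 400) (mv 526 (both (five 6 430 558) (mv 497 (both (five 2 494 498) (five 1 493 525))))))) (mv 464 (both (five 6 399 400) (five 6 431 559)))))) (both (mv 527 (both (mv 464 (both (five 6 399 400) (five 6 431 559))) (both (mv 463 (both (five 5 399 400) (mv 430 (both (five 7 398 398) (mv 462 (both (five 7 430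 559) (mv 433 (both (five 2 430 434) (five 2 429 461))))))))) (both (mv 559 (both (five 6 431 464) (mv 591 (both (five 5 495 623) (mv 590 (both (five 6 494 622) (mv 558 (both (five 6 462 463) (mv 529 (both (five 2 526 530) (mv 557 (both (five 2 525 526) (five 1 524 556))))))))))))) (mv 400 (both (five 5 399 463) (five 6 399 464))))))) (mv 527 (both (mv 464 (both (five 6 399 400) (five 6 431 559))) (both (mv 463 (both (five 5 399 400) (mv 526 (both (five 6 430 558) (mv 497 (both (five 2 494 498) (five 1 493 525))))))) (mv 526 (both (mv 497 (both (five 2 494 498) (five 1 493 525))) (mv 463 (both (five 6 430 558) (mv 430 (both (five 7 398 398) (mv 462 (both (five 7 430 559) (mv 433 (both (five 2 430 434) (five 2 429 461))))))))))))))))))))) (both (mv 399 (both (five 4 399 463) (mv 432 (both (five 7 399 464) (mv 433 (both (mv 430 (both (mv 397 (both (five 3 397 398) (mv 429 (both (five 3 396 396) (mv 461 (both (five 2 428 460) (five 2 429 462))))))) (mv 401 (both (five 1 398 402) (mv 465 (both (five 0 430 466) (five 6 400 497))))))) (both (mv 465 (both (mv 497 (both (five 6 400 401) (mv 529 (both (five 7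 400 400) (mv 530 (both (five 3 495 531) (five 4 433 562))))))) (mv 466 (both (five 0 430 430) (mv 467 (both (five 0 431 434) (five 3 432 468))))))) (mv 398 (both (five 3 398 434) (mv 397 (both (five 0 396 396) (five 0 397 400)))))))))))) (both (mv 463 (both (five 4 399 399) (mv 527 (both (mv 526 (both (five 6 430 558) (mv 497 (both (five 2 494 498) (five 1 493 525))))) (mv 430 (both (five 7 398 398) (mv 432 (both (five 5 399 400) (mv 462 (both (five 7 430 559) (mv 433 (both (five 2 430 434) (five 2 429 461))))))))))))) (both (mv 463 (both (five 4 399 399) (mv 527 (both (mv 558 (both (five 6 430 526) (mv 559 (both (five 6 462 590) (mv 591 (both (five 5 463 464) (five 5 495 623))))))) (both (mv 400 (both (five 5 399 432) (mv 430 (both (five 7 398 398) (mv 526 (both (five 6 430 558) (mv 525 (both (five 1 492 524) (mv 493 (both (five 3 492 492) (mv 557 (both (five 2 524 556) (mv 461 (both (five 5 429 462) (mv 428 (both (five 7 428 460) (mv 429 (both (five 7 396 396) (five 0 428 464))))))))))))))))))) (both (mv 430 (both (five 7 398 398) (mv 559 (both (five 7 430 462) (mv 590 (both (five 6 462 558) (mv 591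 (both (five 6 494 622) (five 5 495 623))))))))) (mv 430 (both (five 7 398 398) (mv 559 (both (five 7 430 462) (mv 591 (both (five 5 463 464) (five 5 495 623))))))))))))) (both (mv 463 (both (five 4 399 399) (mv 527 (both (mv 526 (both (five 6 430 558) (mv 497 (both (five 2 494 498) (five 1 493 525))))) (mv 432 (both (five 5 399 400) (mv 464 (both (five 5 431 559) (mv 433 (both (five 5 400 401) (mv 434 (both (five 2 431 435) (mv 462 (both (five 1 429 461) (five 1 430 465))))))))))))))) (both (mv 463 (both (five 4 399 399) (mv 527 (both (mv 526 (both (five 6 430 558) (mv 497 (both (five 2 494 498) (five 1 493 525))))) (mv 430 (both (five 7 398 398) (mv 432 (both (five 5 399 400) (mv 464 (both (five 5 431 559) (mv 429 (both (five 0 429 465) (mv 396 (both (five 3 396 397) (mv 428 (both (five 3 395 395) (mv 460 (both (five 2 427 459) (five 2 428 461))))))))))))))))))) (mv 463 (both (five 4 399 399) (mv 527 (both (mv 526 (both (five 6 430 558) (mv 497 (both (five 2 494 498) (five 1 493 525))))) (mv 430 (both (five 7 398 398) (mv 559 (both (five 7 430 462) (mv 591 (both (five 5 463 464) (five 5 495 623)))))))))))))))))))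 (both (mv 494 (both (mv 493 (both (five 0 493 529) (mv 460 (both (five 3 460 461) (mv 492 (both (five 3 459 459) (mv 524 (both (five 2 491 523) (five 2 492 525))))))))) (both (mv 497 (both (mv 466 (both (five 1 462 465) (mv 498 (both (five 1 463 467) (mv 530 (both (five 0 494 529) (five 0 495 531))))))) (both (mv 462 (both (five 3 461 461) (mv 463 (both (five 3 462 498) (mv 431 (both (five 4 399 399) (mv 526 (both (five 2 493 525) (five 5 430 558))))))))) (mv 462 (both (five 3 461 461) (mv 465 (both (five 1 462 466) (mv 433 (both (five 6 400 401) (mv 525 (both (five 2 493 526) (mv 529 (both (five 0 494 530) (mv 432 (both (five 7 400 400) (mv 434 (both (five 5 401 402) (mv 463 (both (five 2 430 431) (five 1 430 464)))))))))))))))))))) (both (mv 497 (both (mv 465 (both (five 1 462 466) (mv 401 (both (five 6 400 433) (mv 493 (both (five 1 461 464) (mv 525 (both (five 2 492 524) (five 2 493 526))))))))) (both (mv 461 (both (five 3 461 462) (mv 465 (both (five 1 462 466) (mv 493 (both (five 3 460 460) (five 1 461 464))))))) (mv 462 (both (five 3 461 461) (mv 463 (both (five 3 462 498) (mv 431 (both (five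 4 399 399) (mv 526 (both (five 2 493 525) (five 5 430 558)))))))))))) (both (mv 493 (both (five 0 493 529) (mv 465 (both (five 1 461 464) (mv 497 (both (five 1 462 466) (mv 525 (both (five 2 492 524) (five 2 493 526))))))))) (mv 493 (both (five 0 493 529) (mv 460 (both (five 3 460 461) (mv 464 (both (five 1 461 465) (mv 492 (both (five 3 459 459) (five 1 460 463)))))))))))))) (both (mv 527 (both (mv 559 (both (mv 591 (both (five 5 463 464) (five 5 495 623))) (mv 463 (both (mv 430 (both (five 7 430 462) (mv 431 (both (five 7 398 398) (five 4 399 399))))) (mv 558 (both (five 6 462 590) (mv 529 (both (five 2 526 530) (mv 557 (both (five 2 525 526) (five 1 524 556))))))))))) (both (mv 526 (both (mv 525 (both (five 1 492 524) (mv 557 (both (five 2 524 556) (mv 529 (both (five 2 525 558) (mv 530 (both (five 3 494 494) (five 3 495 531))))))))) (both (mv 525 (both (five 1 492 524) (mv 493 (both (five 3 492 492) (mv 557 (both (five 2 524 556) (mv 558 (both (five 2 525 529) (mv 461 (both (five 4 429 429) (five 4 461 590))))))))))) (both (mv 494 (both (mv 493 (both (five 0 492 492) (five 0 493 529))) (both (mv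 529 (both (five 3 494 530) (mv 558 (both (five 2 525 557) (mv 463 (both (five 6 430 431) (five 5 462 590))))))) (mv 493 (both (five 0 492 492) (mv 461 (both (five 3 460 460) (mv 429 (both (five 4 397 397) (mv 558 (both (five 7 429 462) (five 7 461 590)))))))))))) (both (mv 494 (both (mv 525 (both (five 1 492 524) (mv 557 (both (five 2 524 556) (mv 462 (both (five 6 429 430) (mv 589 (both (five 6 461 558) (five 5 493 621))))))))) (both (mv 493 (both (five 0 492 492) (mv 461 (both (five 3 460 460) (mv 429 (both (five 4 397 397) (mv 558 (both (five 7 429 462) (five 7 461 590))))))))) (both (mv 493 (both (five 0 492 492) (mv 525 (both (five 2 492 524) (mv 557 (both (five 2 524 556) (mv 589 (both (five 5 461 462) (five 5 493 621))))))))) (mv 493 (both (five 0 492 492) (mv 461 (both (five 3 460 460) (mv 397 (both (five 4 397 429) (mv 464 (both (five 1 461 465) (mv 400 (both (five 6 399 432) (mv 525 (both (five 2 492 524) (mv 557 (both (five 2 524 556) (mv 589 (both (five 5 493 621) (mv 590 (both (five 4 461 558) (five 4 493 622))))))))))))))))))))))) (both (mv 525 (both (five 1 492 524) (mv 493 (both (five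 3 492 492) (mv 494 (both (five 0 493 529) (mv 557 (both (five 2 524 556) (mv 589 (both (five 5 461 462) (five 5 493 621))))))))))) (mv 525 (both (five 1 492 524) (mv 493 (both (five 3 492 492) (mv 494 (both (five 0 493 529) (mv 461 (both (five 3 460 460) (mv 429 (both (five 4 397 397) (mv 558 (both (five 7 429 462) (five 7 461 590))))))))))))))))))) (both (mv 526 (both (mv 525 (both (five 1 492 524) (mv 557 (both (five 2 524 556) (mv 529 (both (five 2 525 558) (mv 530 (both (five 3 494 494) (five 3 495 531))))))))) (both (mv 525 (both (five 1 492 524) (mv 493 (both (five 3 492 492) (mv 557 (both (five 2 524 556) (mv 558 (both (five 2 525 529) (mv 461 (both (five 4 429 429) (five 4 461 590))))))))))) (both (mv 494 (both (mv 493 (both (five 0 492 492) (five 0 493 529))) (both (mv 529 (both (five 3 494 530) (mv 558 (both (five 2 525 557) (mv 463 (both (five 6 430 431) (five 5 462 590))))))) (mv 493 (both (five 0 492 492) (mv 461 (both (five 3 460 460) (mv 429 (both (five 4 397 397) (mv 558 (both (five 7 429 462) (five 7 461 590)))))))))))) (both (mv 494 (both (mv 525 (both (five 1 492 524) (mv 557 (both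 (five 2 524 556) (mv 462 (both (five 6 429 430) (mv 589 (both (five 6 461 558) (five 5 493 621))))))))) (both (mv 493 (both (five 0 492 492) (mv 461 (both (five 3 460 460) (mv 429 (both (five 4 397 397) (mv 558 (both (five 7 429 462) (five 7 461 590))))))))) (both (mv 493 (both (five 0 492 492) (mv 460 (both (five 3 460 461) (mv 525 (both (five 2 492 524) (mv 557 (both (five 2 524 556) (mv 589 (both (five 5 493 621) (mv 588 (both (five 6 492 620) (mv 590 (both (five 4 493 622) (mv 558 (both (five 5 462 463) (mv 587 (both (five 1 555 559) (five 1 554 586))))))))))))))))))) (mv 493 (both (five 0 492 492) (mv 525 (both (five 2 492 524) (mv 557 (both (five 2 524 556) (mv 589 (both (five 5 461 462) (five 5 493 621))))))))))))) (both (mv 525 (both (five 1 492 524) (mv 493 (both (five 3 492 492) (mv 494 (both (five 0 493 529) (mv 557 (both (five 2 524 556) (mv 589 (both (five 5 461 462) (five 5 493 621))))))))))) (mv 525 (both (five 1 492 524) (mv 493 (both (five 3 492 492) (mv 494 (both (five 0 493 529) (mv 461 (both (five 3 460 460) (mv 429 (both (five 4 397 397) (mv 558 (both (five 7 429 462) (five 7 461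 590))))))))))))))))))) (both (mv 559 (both (mv 591 (both (five 5 463 464) (five 5 495 623))) (both (mv 591 (both (five 5 495 623) (mv 462 (both (five 7 462 494) (mv 463 (both (five 7 430 430) (mv 590 (both (five 6 462 558) (five 6 494 622))))))))) (mv 463 (both (mv 430 (both (five 7 430 462) (mv 431 (both (five 7 398 398) (five 4 399 399))))) (both (mv 462 (both (five 7 430 430) (mv 461 (both (five 0 460 460) (mv 464 (both (five 5 431 432) (mv 429 (both (five 3 428 428) (mv 493 (both (five 2 460 492) (mv 558 (both (five 6 462 590) (mv 526 (both (five 7 429 494) (five 4 429 525))))))))))))))) (mv 431 (both (five 4 399 399) (mv 432 (both (five 5 399 400) (five 5 431 464))))))))))) (both (mv 529 (both (mv 530 (both (five 3 494 494) (five 3 495 531))) (both (mv 530 (both (five 3 495 531) (mv 498 (both (five 1 495 499) (mv 559 (both (five 2 526 558) (mv 591 (both (five 5 463 464) (five 5 495 623))))))))) (mv 526 (both (mv 493 (both (five 0 493 494) (mv 525 (both (five 3 492 492) (five 1 492 524))))) (both (mv 525 (both (five 1 492 524) (mv 557 (both (five 2 524 556) (five 2 525 558))))) (mv 494 (both (five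 0 493 493) (mv 558 (both (five 2 525 557) (mv 590 (both (five 5 494 622) (mv 589 (both (five 6 493 621) (mv 591 (both (five 4 494 623) (mv 559 (both (five 4 462 462) (five 5 463 464))))))))))))))))))) (both (mv 559 (both (mv 591 (both (five 5 463 464) (five 5 495 623))) (both (mv 591 (both (five 5 495 623) (mv 494 (both (five 7 462 462) (mv 493 (both (five 0 492 492) (five 0 493 529))))))) (mv 463 (both (mv 430 (both (five 7 430 462) (mv 431 (both (five 7 398 398) (five 4 399 399))))) (both (mv 462 (both (five 7 430 430) (mv 461 (both (five 0 460 460) (mv 464 (both (five 5 431 432) (mv 428 (both (five 3 428 429) (mv 493 (both (five 2 460 492) (mv 494 (both (five 1 461 465) (five 0 493 529))))))))))))) (mv 431 (both (five 4 399 399) (mv 432 (both (five 5 399 400) (five 5 431 464))))))))))) (mv 464 (both (mv 432 (both (five 6 399 400) (five 6 431 559))) (both (mv 559 (both (five 5 463 591) (mv 558 (both (mv 529 (both (five 2 526 530) (mv 557 (both (five 2 525 526) (five 1 524 556))))) (both (mv 463 (both (five 6 462 590) (mv 431 (both (five 4 399 399) (five 6 430 526))))) (mv 529 (both (five 2 526 530)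 (mv 493 (both (five 0 493 494) (mv 557 (both (five 1 524 556) (mv 590 (both (five 6 462 463) (mv 525 (both (five 4 461 461) (mv 589 (both (five 4 493 622) (mv 588 (both (five 1 555 587) (five 6 492 620)))))))))))))))))))) (mv 465 (both (mv 466 (both (five 2 463 467) (mv 494 (both (five 2 462 463) (five 1 461 493))))) (both (mv 432 (both (five 6 399 400) (mv 401 (both (five 5 400 433) (mv 431 (both (five 7 399 399) (mv 430 (both (five 0 429 429) (mv 463 (both (five 7 398 398) (mv 493 (both (five 1 461 494) (mv 526 (both (five 6 430 558) (mv 525 (both (five 3 492 492) (five 1 492 524))))))))))))))))) (mv 432 (both (five 6 399 400) (mv 431 (both (five 7 399 399) (mv 430 (both (five 0 429 429) (mv 433 (both (five 5 400 401) (five 0 430 466)))))))))))))))))))))) (both (mv 497 (both (mv 494 (both (mv 461 (both (five 3 461 462) (mv 493 (both (five 3 460 460) (mv 525 (both (five 2 492 524) (five 2 493 526))))))) (both (mv 461 (both (five 3 461 462) (mv 465 (both (five 1 462 466) (mv 493 (both (five 3 460 460) (five 1 461 464))))))) (both (mv 465 (both (five 1 462 466) (mv 401 (both (five 6 400 433) (mv 493 (both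 (five 1 461 464) (mv 525 (both (five 2 492 524) (five 2 493 526))))))))) (mv 463 (both (mv 431 (both (five 4 399 399) (mv 462 (both (five 3 461 461) (mv 526 (both (five 2 493 525) (five 5 430 558))))))) (both (mv 399 (both (five 4 399 431) (mv 462 (both (five 3 461 461) (mv 465 (both (five 1 462 466) (mv 433 (both (five 6 400 401) (mv 464 (both (five 1 430 434) (mv 430 (both (five 3 429 429) (mv 398 (both (five 4 366 366) (five 5 366 367))))))))))))))) (both (mv 431 (both (five 4 399 399) (mv 465 (both (five 1 462 466) (mv 526 (both (five 2 493 525) (mv 558 (both (five 6 430 527) (five 5 462 590))))))))) (mv 462 (both (five 3 461 461) (mv 465 (both (five 1 462 466) (mv 526 (both (five 2 493 525) (mv 558 (both (five 5 462 590) (mv 557 (both (five 6 461 589) (mv 559 (both (five 4 462 591) (mv 527 (both (five 4 430 430) (five 1 524 556))))))))))))))))))))))) (both (mv 494 (both (mv 465 (both (five 1 462 466) (mv 401 (both (five 6 400 433) (mv 493 (both (five 1 461 464) (mv 525 (both (five 2 492 524) (five 2 493 526))))))))) (both (mv 461 (both (five 3 461 462) (mv 465 (both (five 1 462 466) (mv 493 (both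 (five 3 460 460) (five 1 461 464))))))) (mv 462 (both (five 3 461 461) (mv 463 (both (five 3 462 498) (mv 431 (both (five 4 399 399) (mv 526 (both (five 2 493 525) (five 5 430 558)))))))))))) (both (mv 498 (both (mv 527 (both (five 2 495 499) (five 2 494 526))) (both (mv 467 (both (five 1 463 466) (mv 499 (both (five 1 464 468) (mv 531 (both (five 0 495 530) (five 0 496 532))))))) (mv 463 (both (five 3 462 462) (mv 431 (both (five 4 399 399) (mv 466 (both (five 1 463 467) (mv 527 (both (five 2 494 526) (mv 432 (both (five 5 399 400) (mv 559 (both (five 5 431 464) (mv 590 (both (five 6 462 558) (mv 591 (both (five 6 494 622) (five 5 495 623)))))))))))))))))))) (both (mv 498 (both (mv 499 (both (five 2 495 527) (mv 531 (both (five 0 495 530) (five 0 496 532))))) (mv 462 (both (five 3 462 463) (mv 466 (both (five 1 463 467) (mv 494 (both (five 3 461 461) (five 1 462 465))))))))) (both (mv 498 (both (mv 527 (both (five 2 495 499) (five 2 494 526))) (both (mv 467 (both (five 1 463 466) (mv 499 (both (five 1 464 468) (mv 531 (both (five 0 495 530) (five 0 496 532))))))) (mv 466 (both (five 1 463 467) (mv 494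 (both (five 1 462 465) (mv 526 (both (five 2 493 525) (five 2 494 527)))))))))) (mv 498 (both (mv 527 (both (five 2 495 499) (five 2 494 526))) (both (mv 463 (both (five 3 462 462) (mv 399 (both (five 4 399 431) (mv 499 (both (five 3 463 464) (mv 531 (both (five 0 495 530) (five 0 496 532))))))))) (mv 462 (both (five 3 462 463) (mv 494 (both (five 3 461 461) (mv 526 (both (five 2 493 525) (five 2 494 527)))))))))))))))) (both (mv 494 (both (mv 493 (both (five 0 493 529) (mv 460 (both (five 3 460 461) (mv 492 (both (five 3 459 459) (five 0 492 527))))))) (both (mv 497 (both (mv 526 (both (five 2 493 525) (mv 498 (both (five 2 494 527) (mv 530 (both (five 0 494 529) (five 0 495 531))))))) (both (mv 466 (both (five 1 462 465) (mv 498 (both (five 1 463 467) (mv 526 (both (five 2 493 525) (five 2 494 527))))))) (both (mv 466 (both (five 1 462 465) (mv 498 (both (five 1 463 467) (mv 530 (both (five 0 494 529) (five 0 495 531))))))) (mv 462 (both (five 3 461 461) (mv 527 (both (mv 398 (both (five 4 398 430) (mv 465 (both (five 1 462 466) (mv 433 (both (five 6 400 401) (mv 529 (both (five 0 494 530) (mv 402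 (both (five 5 401 434) (mv 432 (both (five 7 400 400) (mv 559 (both (five 6 431 464) (five 7 462 591))))))))))))))) (both (mv 430 (both (five 4 398 398) (mv 465 (both (five 1 462 466) (mv 401 (both (five 6 400 433) (mv 526 (both (five 2 493 525) (mv 429 (both (five 7 397 397) (mv 431 (both (five 5 398 399) (mv 432 (both (five 1 397 400) (five 0 429 464))))))))))))))) (mv 526 (both (five 2 493 525) (mv 529 (both (five 0 494 530) (mv 558 (both (five 2 525 557) (mv 590 (both (five 5 494 622) (mv 591 (both (five 4 462 559) (five 4 494 623)))))))))))))))))))) (both (mv 493 (both (mv 460 (both (five 3 460 461) (mv 492 (both (five 3 459 459) (five 0 492 527))))) (both (mv 461 (both (five 3 460 460) (mv 462 (both (five 3 461 497) (mv 525 (both (five 2 492 524) (mv 430 (both (five 6 397 398) (five 5 429 557))))))))) (mv 492 (both (five 0 492 527) (mv 524 (both (five 2 491 523) (five 2 492 525)))))))) (both (mv 493 (both (five 0 493 529) (mv 460 (both (five 3 460 461) (mv 492 (both (five 3 459 459) (mv 524 (both (five 2 491 523) (five 2 492 525))))))))) (mv 493 (both (five 0 493 529) (mv 492 (both (five 0 492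 527) (mv 524 (both (five 2 491 523) (five 2 492 525)))))))))))) (both (mv 494 (both (mv 493 (both (five 0 493 529) (mv 460 (both (five 3 460 461) (mv 492 (both (five 3 459 459) (five 0 492 527))))))) (both (mv 497 (both (mv 461 (both (five 3 461 462) (mv 493 (both (five 3 460 460) (mv 525 (both (five 2 492 524) (five 2 493 526))))))) (both (mv 461 (both (five 3 461 462) (mv 460 (both (five 3 460 493) (mv 466 (both (five 1 462 465) (mv 498 (both (five 1 463 467) (mv 499 (both (five 2 495 527) (mv 531 (both (five 0 495 530) (five 0 496 532))))))))))))) (mv 466 (both (five 1 462 465) (mv 498 (both (five 1 463 467) (mv 526 (both (five 2 493 525) (five 2 494 527)))))))))) (both (mv 497 (both (mv 526 (both (five 2 493 525) (mv 498 (both (five 2 494 527) (mv 530 (both (five 0 494 529) (five 0 495 531))))))) (both (mv 466 (both (five 1 462 465) (mv 498 (both (five 1 463 467) (mv 530 (both (five 0 494 529) (five 0 495 531))))))) (both (mv 466 (both (five 1 462 465) (mv 498 (both (five 1 463 467) (mv 526 (both (five 2 493 525) (five 2 494 527))))))) (mv 527 (both (mv 462 (both (five 3 461 461) (mv 430 (both (five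 4 398 398) (mv 559 (both (five 7 430 463) (five 7 462 591))))))) (both (mv 465 (both (five 1 462 466) (mv 526 (both (five 2 493 525) (mv 529 (both (five 0 494 530) (mv 558 (both (five 2 525 557) (mv 590 (both (five 5 462 463) (five 5 494 622))))))))))) (mv 462 (both (five 3 461 461) (mv 398 (both (five 4 398 430) (mv 465 (both (five 1 462 466) (mv 526 (both (five 2 493 525) (mv 529 (both (five 0 494 530) (mv 558 (both (five 2 525 557) (mv 590 (both (five 5 494 622) (mv 591 (both (five 4 462 559) (five 4 494 623)))))))))))))))))))))))) (both (mv 493 (both (five 0 493 529) (mv 460 (both (five 3 460 461) (mv 492 (both (five 3 459 459) (mv 524 (both (five 2 491 523) (five 2 492 525))))))))) (mv 493 (both (five 0 493 529) (mv 492 (both (five 0 492 527) (mv 524 (both (five 2 491 523) (five 2 492 525)))))))))))) (both (mv 497 (both (mv 498 (both (mv 462 (both (five 3 462 463) (mv 466 (both (five 1 463 467) (mv 494 (both (five 3 461 461) (five 1 462 465))))))) (mv 527 (both (five 2 495 499) (five 2 494 526))))) (both (mv 494 (both (mv 462 (both (five 3 461 461) (mv 465 (both (five 1 462 466) (mv 433 (both (five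 6 400 401) (mv 529 (both (five 0 494 530) (mv 432 (both (five 7 400 400) (mv 434 (both (five 5 401 402) (mv 463 (both (five 2 430 431) (five 1 430 464))))))))))))))) (both (mv 463 (both (mv 431 (both (five 4 399 399) (mv 462 (both (five 3 461 461) (mv 526 (both (five 2 493 525) (five 5 430 558))))))) (both (mv 399 (both (five 4 399 431) (mv 462 (both (five 3 461 461) (mv 465 (both (five 1 462 466) (mv 433 (both (five 6 400 401) (mv 464 (both (five 1 430 434) (mv 430 (both (five 3 429 429) (mv 398 (both (five 4 366 366) (five 5 366 367))))))))))))))) (both (mv 431 (both (five 4 399 399) (mv 465 (both (five 1 462 466) (mv 526 (both (five 2 493 525) (mv 558 (both (five 6 430 527) (five 5 462 590))))))))) (mv 462 (both (five 3 461 461) (mv 465 (both (five 1 462 466) (mv 526 (both (five 2 493 525) (mv 558 (both (five 5 462 590) (mv 557 (both (five 6 461 589) (mv 559 (both (five 4 462 591) (mv 527 (both (five 4 430 430) (five 1 524 556))))))))))))))))))) (both (mv 463 (both (mv 431 (both (five 4 399 399) (mv 526 (both (five 2 493 525) (mv 558 (both (five 6 430 527) (five 5 462 590))))))) (mv 465 (both (five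 1 462 466) (mv 433 (both (five 6 400 401) (mv 529 (both (five 0 494 530) (mv 432 (both (five 7 400 400) (mv 434 (both (five 5 401 402) (mv 435 (both (five 2 431 464) (mv 404 (both (five 1 400 403) (mv 436 (both (five 1 401 405) (mv 468 (both (five 0 432 467) (five 0 433 469))))))))))))))))))))) (both (mv 527 (both (mv 462 (both (five 3 461 461) (mv 430 (both (five 4 398 398) (mv 559 (both (five 7 430 463) (five 7 462 591))))))) (both (mv 526 (both (five 2 493 525) (mv 529 (both (five 3 494 530) (mv 558 (both (five 2 525 557) (mv 463 (both (five 6 430 431) (five 5 462 590))))))))) (mv 462 (both (five 3 461 461) (mv 430 (both (five 4 398 398) (mv 559 (both (five 4 430 526) (five 7 462 591)))))))))) (both (mv 462 (both (five 3 461 461) (mv 527 (both (mv 398 (both (five 4 398 430) (mv 465 (both (five 1 462 466) (mv 433 (both (five 6 400 401) (mv 529 (both (five 0 494 530) (mv 402 (both (five 5 401 434) (mv 432 (both (five 7 400 400) (mv 559 (both (five 6 431 464) (five 7 462 591))))))))))))))) (both (mv 430 (both (five 4 398 398) (mv 465 (both (five 1 462 466) (mv 401 (both (five 6 400 433) (mv 526 (both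 (five 2 493 525) (mv 429 (both (five 7 397 397) (mv 431 (both (five 5 398 399) (mv 432 (both (five 1 397 400) (five 0 429 464))))))))))))))) (mv 526 (both (five 2 493 525) (mv 529 (both (five 0 494 530) (mv 558 (both (five 2 525 557) (mv 590 (both (five 5 494 622) (mv 591 (both (five 4 462 559) (five 4 494 623)))))))))))))))) (mv 462 (both (five 3 461 461) (mv 465 (both (five 1 462 466) (mv 433 (both (five 6 400 401) (mv 526 (both (five 2 493 525) (mv 529 (both (five 0 494 530) (mv 434 (both (five 5 401 402) (mv 463 (both (five 1 430 464) (mv 558 (both (five 5 462 590) (mv 557 (both (five 2 525 527) (five 6 461 589))))))))))))))))))))))))) (both (mv 498 (both (mv 467 (both (five 1 463 466) (mv 499 (both (five 1 464 468) (mv 531 (both (five 0 495 530) (five 0 496 532))))))) (both (mv 462 (both (five 3 462 463) (mv 466 (both (five 1 463 467) (mv 494 (both (five 3 461 461) (five 1 462 465))))))) (mv 463 (both (five 3 462 462) (mv 399 (both (five 4 399 431) (mv 499 (both (five 3 463 464) (mv 531 (both (five 0 495 530) (five 0 496 532)))))))))))) (both (mv 498 (both (mv 527 (both (five 2 495 499) (five 2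 494 526))) (both (mv 467 (both (five 1 463 466) (mv 499 (both (five 1 464 468) (mv 531 (both (five 0 495 530) (five 0 496 532))))))) (mv 527 (both (five 2 494 526) (mv 559 (both (mv 591 (both (five 5 463 464) (five 5 495 623))) (mv 466 (both (five 1 463 467) (mv 530 (both (five 0 495 531) (mv 529 (both (five 2 526 558) (mv 402 (both (five 6 401 434) (mv 562 (both (five 0 527 563) (mv 594 (both (five 7 465 465) (five 7 497 626)))))))))))))))))))) (mv 498 (both (mv 527 (both (five 2 495 499) (five 2 494 526))) (both (mv 463 (both (five 3 462 462) (mv 399 (both (five 4 399 431) (mv 499 (both (five 3 463 464) (mv 531 (both (five 0 495 530) (five 0 496 532))))))))) (mv 462 (both (five 3 462 463) (mv 494 (both (five 3 461 461) (mv 526 (both (five 2 493 525) (five 2 494 527))))))))))))))) (both (mv 494 (both (mv 497 (both (mv 466 (both (five 1 462 465) (mv 498 (both (five 1 463 467) (mv 526 (both (five 2 493 525) (five 2 494 527))))))) (both (mv 462 (both (five 3 461 461) (mv 463 (both (five 3 462 498) (mv 399 (both (five 4 399 431) (mv 465 (both (five 1 462 466) (mv 433 (both (five 6 400 401) (mv 464 (both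 (five 1 430 434) (mv 430 (both (five 3 429 429) (mv 398 (both (five 4 366 366) (five 5 366 367))))))))))))))))) (both (mv 462 (both (five 3 461 461) (mv 463 (both (five 3 462 498) (mv 431 (both (five 4 399 399) (mv 526 (both (five 2 493 525) (five 5 430 558))))))))) (mv 463 (both (mv 431 (both (five 4 399 399) (mv 462 (both (five 3 461 461) (mv 526 (both (five 2 493 525) (five 5 430 558))))))) (both (mv 399 (both (five 4 399 431) (mv 462 (both (five 3 461 461) (mv 465 (both (five 1 462 466) (mv 433 (both (five 6 400 401) (mv 464 (both (five 1 430 434) (mv 430 (both (five 3 429 429) (mv 398 (both (five 4 366 366) (five 5 366 367))))))))))))))) (both (mv 431 (both (five 4 399 399) (mv 465 (both (five 1 462 466) (mv 526 (both (five 2 493 525) (mv 558 (both (five 6 430 527) (five 5 462 590))))))))) (mv 462 (both (five 3 461 461) (mv 465 (both (five 1 462 466) (mv 526 (both (five 2 493 525) (mv 558 (both (five 5 462 590) (mv 557 (both (five 6 461 589) (mv 559 (both (five 4 462 591) (mv 527 (both (five 4 430 430) (five 1 524 556))))))))))))))))))))))) (both (mv 493 (both (five 0 493 529) (mv 460 (both (five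 3 460 461) (mv 492 (both (five 3 459 459) (mv 524 (both (five 2 491 523) (five 2 492 525))))))))) (mv 493 (both (five 0 493 529) (mv 464 (both (five 1 461 465) (mv 492 (both (five 1 460 463) (five 0 492 527)))))))))) (both (mv 494 (both (mv 497 (both (mv 462 (both (five 3 461 461) (mv 465 (both (five 1 462 466) (mv 433 (both (five 6 400 401) (mv 529 (both (five 0 494 530) (mv 432 (both (five 7 400 400) (mv 434 (both (five 5 401 402) (mv 463 (both (five 2 430 431) (five 1 430 464))))))))))))))) (both (mv 463 (both (mv 431 (both (five 4 399 399) (mv 462 (both (five 3 461 461) (mv 526 (both (five 2 493 525) (five 5 430 558))))))) (both (mv 399 (both (five 4 399 431) (mv 462 (both (five 3 461 461) (mv 465 (both (five 1 462 466) (mv 433 (both (five 6 400 401) (mv 464 (both (five 1 430 434) (mv 430 (both (five 3 429 429) (mv 398 (both (five 4 366 366) (five 5 366 367))))))))))))))) (both (mv 431 (both (five 4 399 399) (mv 465 (both (five 1 462 466) (mv 526 (both (five 2 493 525) (mv 558 (both (five 6 430 527) (five 5 462 590))))))))) (mv 462 (both (five 3 461 461) (mv 465 (both (five 1 462 466) (mv 526 (both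 (five 2 493 525) (mv 558 (both (five 5 462 590) (mv 557 (both (five 6 461 589) (mv 559 (both (five 4 462 591) (mv 527 (both (five 4 430 430) (five 1 524 556))))))))))))))))))) (both (mv 463 (both (mv 431 (both (five 4 399 399) (mv 526 (both (five 2 493 525) (mv 558 (both (five 6 430 527) (five 5 462 590))))))) (mv 465 (both (five 1 462 466) (mv 433 (both (five 6 400 401) (mv 529 (both (five 0 494 530) (mv 432 (both (five 7 400 400) (mv 434 (both (five 5 401 402) (mv 435 (both (five 2 431 464) (mv 404 (both (five 1 400 403) (mv 436 (both (five 1 401 405) (mv 468 (both (five 0 432 467) (five 0 433 469))))))))))))))))))))) (both (mv 527 (both (mv 462 (both (five 3 461 461) (mv 430 (both (five 4 398 398) (mv 559 (both (five 7 430 463) (five 7 462 591))))))) (both (mv 526 (both (five 2 493 525) (mv 529 (both (five 3 494 530) (mv 558 (both (five 2 525 557) (mv 463 (both (five 6 430 431) (five 5 462 590))))))))) (mv 462 (both (five 3 461 461) (mv 430 (both (five 4 398 398) (mv 559 (both (five 4 430 526) (five 7 462 591)))))))))) (both (mv 462 (both (five 3 461 461) (mv 527 (both (mv 398 (both (five 4 398 430)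 (mv 465 (both (five 1 462 466) (mv 433 (both (five 6 400 401) (mv 529 (both (five 0 494 530) (mv 402 (both (five 5 401 434) (mv 432 (both (five 7 400 400) (mv 559 (both (five 6 431 464) (five 7 462 591))))))))))))))) (both (mv 430 (both (five 4 398 398) (mv 465 (both (five 1 462 466) (mv 401 (both (five 6 400 433) (mv 526 (both (five 2 493 525) (mv 429 (both (five 7 397 397) (mv 431 (both (five 5 398 399) (mv 432 (both (five 1 397 400) (five 0 429 464))))))))))))))) (mv 526 (both (five 2 493 525) (mv 529 (both (five 0 494 530) (mv 558 (both (five 2 525 557) (mv 590 (both (five 5 494 622) (mv 591 (both (five 4 462 559) (five 4 494 623)))))))))))))))) (mv 462 (both (five 3 461 461) (mv 465 (both (five 1 462 466) (mv 433 (both (five 6 400 401) (mv 526 (both (five 2 493 525) (mv 529 (both (five 0 494 530) (mv 434 (both (five 5 401 402) (mv 463 (both (five 1 430 464) (mv 558 (both (five 5 462 590) (mv 557 (both (five 2 525 527) (five 6 461 589))))))))))))))))))))))))) (both (mv 493 (both (mv 460 (both (five 3 460 461) (mv 492 (both (five 3 459 459) (five 0 492 527))))) (both (mv 460 (both (five 3 460 461)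 (mv 465 (both (five 1 461 464) (mv 497 (both (five 1 462 466) (mv 525 (both (five 2 492 524) (five 2 493 526))))))))) (mv 464 (both (five 1 461 465) (mv 492 (both (five 1 460 463) (five 0 492 527)))))))) (both (mv 493 (both (five 0 493 529) (mv 460 (both (five 3 460 461) (mv 492 (both (five 3 459 459) (mv 524 (both (five 2 491 523) (five 2 492 525))))))))) (mv 493 (both (five 0 493 529) (mv 464 (both (five 1 461 465) (mv 492 (both (five 1 460 463) (five 0 492 527))))))))))) (both (ref 0) (both (mv 494 (both (mv 493 (both (five 0 493 529) (mv 460 (both (five 3 460 461) (mv 492 (both (five 3 459 459) (five 0 492 527))))))) (both (mv 497 (both (mv 462 (both (five 3 461 461) (mv 463 (both (five 3 462 498) (mv 399 (both (five 4 399 431) (mv 465 (both (five 1 462 466) (mv 433 (both (five 6 400 401) (mv 464 (both (five 1 430 434) (mv 430 (both (five 3 429 429) (mv 398 (both (five 4 366 366) (five 5 366 367))))))))))))))))) (both (mv 498 (both (mv 530 (both (five 0 494 529) (five 0 495 531))) (both (mv 467 (both (five 1 463 466) (mv 499 (both (five 1 464 468) (mv 500 (both (five 2 496 529) (mv 532 (both (five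 0 496 531) (five 0 497 533))))))))) (both (mv 467 (both (five 1 463 466) (mv 499 (both (five 1 464 468) (mv 531 (both (five 0 495 530) (five 0 496 532))))))) (mv 467 (both (five 1 463 466) (mv 499 (both (five 1 464 468) (mv 529 (both (five 2 496 500) (five 0 494 530))))))))))) (both (mv 461 (both (five 3 461 462) (mv 530 (both (five 0 494 529) (mv 498 (both (five 0 495 531) (mv 499 (both (five 2 495 527) (mv 464 (both (five 3 463 463) (mv 468 (both (five 1 464 467) (mv 500 (both (five 3 464 465) (five 1 465 469))))))))))))))) (mv 462 (both (five 3 461 461) (mv 465 (both (five 1 462 466) (mv 433 (both (five 6 400 401) (mv 529 (both (five 0 494 530) (mv 432 (both (five 7 400 400) (mv 434 (both (five 5 401 402) (mv 463 (both (five 2 430 431) (five 1 430 464))))))))))))))))))) (both (mv 493 (both (mv 460 (both (five 3 460 461) (mv 492 (both (five 3 459 459) (five 0 492 527))))) (both (mv 461 (both (five 3 460 460) (mv 465 (both (five 1 461 464) (mv 497 (both (five 3 461 462) (five 1 462 466))))))) (mv 464 (both (five 1 461 465) (mv 492 (both (five 1 460 463) (five 0 492 527)))))))) (both (mv 493 (both (five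 0 493 529) (mv 460 (both (five 3 460 461) (mv 464 (both (five 1 461 465) (mv 492 (both (five 3 459 459) (five 1 460 463))))))))) (mv 493 (both (five 0 493 529) (mv 464 (both (five 1 461 465) (mv 492 (both (five 1 460 463) (five 0 492 527)))))))))))) (both (mv 494 (both (mv 493 (both (five 0 493 529) (mv 460 (both (five 3 460 461) (mv 492 (both (five 3 459 459) (five 0 492 527))))))) (both (mv 497 (both (mv 526 (both (five 2 493 525) (mv 498 (both (five 2 494 527) (mv 530 (both (five 0 494 529) (five 0 495 531))))))) (both (mv 466 (both (five 1 462 465) (mv 498 (both (five 1 463 467) (mv 526 (both (five 2 493 525) (five 2 494 527))))))) (both (mv 466 (both (five 1 462 465) (mv 498 (both (five 1 463 467) (mv 530 (both (five 0 494 529) (five 0 495 531))))))) (mv 463 (both (mv 431 (both (five 4 399 399) (mv 526 (both (five 2 493 525) (mv 558 (both (five 6 430 527) (five 5 462 590))))))) (mv 465 (both (five 1 462 466) (mv 433 (both (five 6 400 401) (mv 529 (both (five 0 494 530) (mv 432 (both (five 7 400 400) (mv 434 (both (five 5 401 402) (mv 435 (both (five 2 431 464) (mv 404 (both (five 1 400 403) (mv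 436 (both (five 1 401 405) (mv 468 (both (five 0 432 467) (five 0 433 469))))))))))))))))))))))))) (both (mv 493 (both (mv 460 (both (five 3 460 461) (mv 492 (both (five 3 459 459) (five 0 492 527))))) (both (mv 460 (both (five 3 460 461) (mv 465 (both (five 1 461 464) (mv 497 (both (five 1 462 466) (mv 525 (both (five 2 492 524) (five 2 493 526))))))))) (mv 464 (both (five 1 461 465) (mv 492 (both (five 1 460 463) (five 0 492 527)))))))) (mv 493 (both (five 0 493 529) (mv 460 (both (five 3 460 461) (mv 492 (both (five 3 459 459) (mv 524 (both (five 2 491 523) (five 2 492 525))))))))))))) (both (mv 527 (both (mv 559 (both (mv 591 (both (five 5 463 464) (five 5 495 623))) (mv 463 (both (mv 430 (both (five 7 430 462) (mv 431 (both (five 7 398 398) (five 4 399 399))))) (mv 558 (both (five 6 462 590) (mv 529 (both (five 2 526 530) (mv 557 (both (five 2 525 526) (five 1 524 556))))))))))) (both (mv 494 (both (mv 493 (both (five 0 492 492) (five 0 493 529))) (both (mv 493 (both (five 0 492 492) (mv 464 (both (five 1 461 465) (mv 432 (both (five 6 399 400) (five 6 431 559))))))) (mv 497 (both (mv 466 (both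 (five 1 462 465) (mv 498 (both (five 1 463 467) (mv 530 (both (five 0 494 529) (five 0 495 531))))))) (both (mv 465 (both (five 1 462 466) (mv 433 (both (five 6 400 401) (mv 529 (both (five 0 494 530) (mv 402 (both (five 5 401 434) (mv 432 (both (five 7 400 400) (mv 464 (both (five 6 431 559) (mv 431 (both (five 7 399 399) (mv 430 (both (five 0 429 429) (mv 398 (both (five 3 397 397) (five 4 398 462))))))))))))))))))) (mv 498 (both (five 2 495 499) (mv 463 (both (five 3 462 462) (mv 431 (both (five 4 399 399) (mv 398 (both (five 7 398 430) (mv 432 (both (five 5 399 400) (mv 559 (both (five 5 431 464) (mv 590 (both (five 6 462 558) (mv 591 (both (five 6 494 622) (five 5 495 623))))))))))))))))))))))) (both (mv 559 (both (mv 591 (both (five 5 463 464) (five 5 495 623))) (both (mv 591 (both (five 5 495 623) (mv 462 (both (five 7 462 494) (mv 463 (both (five 7 430 430) (mv 590 (both (five 6 462 558) (five 6 494 622))))))))) (mv 463 (both (mv 430 (both (five 7 430 462) (mv 431 (both (five 7 398 398) (five 4 399 399))))) (both (mv 462 (both (five 7 430 430) (mv 464 (both (five 5 431 432) (mv 497 (both (five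 3 462 498) (mv 526 (both (five 1 493 525) (mv 558 (both (five 6 462 590) (mv 557 (both (five 1 524 556) (mv 494 (both (five 6 461 589) (mv 493 (both (five 1 461 465) (five 1 460 492))))))))))))))))) (mv 431 (both (five 4 399 399) (mv 432 (both (five 5 399 400) (five 5 431 464))))))))))) (both (mv 497 (both (mv 498 (both (five 2 495 499) (five 2 494 526))) (both (mv 494 (both (mv 493 (both (five 0 492 492) (five 0 493 529))) (both (mv 493 (both (five 0 492 492) (mv 525 (both (five 2 492 524) (five 2 493 526))))) (mv 526 (both (five 2 493 525) (mv 529 (both (five 3 494 530) (mv 558 (both (five 2 525 557) (mv 463 (both (five 6 430 431) (five 5 462 590)))))))))))) (mv 498 (both (five 2 495 499) (mv 462 (both (five 3 462 463) (mv 466 (both (five 1 463 467) (mv 465 (both (five 1 462 494) (mv 401 (both (five 6 400 433) (mv 530 (both (five 0 495 531) (mv 562 (both (five 7 465 594) (mv 563 (both (five 0 527 529) (five 4 466 595)))))))))))))))))))) (both (mv 529 (both (mv 530 (both (five 3 494 494) (five 3 495 531))) (both (mv 530 (both (five 3 495 531) (mv 498 (both (five 1 495 499) (mv 559 (both (five 2 526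 558) (mv 591 (both (five 5 463 464) (five 5 495 623))))))))) (mv 526 (both (mv 493 (both (five 0 493 494) (mv 525 (both (five 3 492 492) (five 1 492 524))))) (both (mv 525 (both (five 1 492 524) (mv 557 (both (five 2 524 556) (five 2 525 558))))) (mv 494 (both (five 0 493 493) (mv 558 (both (five 2 525 557) (mv 590 (both (five 5 494 622) (mv 589 (both (five 6 493 621) (mv 591 (both (five 4 494 623) (mv 559 (both (five 4 462 462) (five 5 463 464))))))))))))))))))) (both (mv 494 (both (mv 493 (both (five 0 492 492) (five 0 493 529))) (both (mv 497 (both (mv 498 (both (five 2 495 499) (five 2 494 526))) (mv 465 (both (five 1 462 466) (mv 433 (both (five 6 400 401) (mv 529 (both (five 0 494 530) (mv 402 (both (five 5 401 434) (mv 432 (both (five 7 400 400) (mv 464 (both (five 6 431 559) (mv 431 (both (five 7 399 399) (mv 430 (both (five 0 429 429) (mv 398 (both (five 3 397 397) (five 4 398 462))))))))))))))))))))) (mv 493 (both (five 0 492 492) (mv 464 (both (five 1 461 465) (mv 432 (both (five 6 399 400) (five 6 431 559)))))))))) (mv 526 (both (mv 497 (both (five 2 494 498) (five 1 493 525))) (both (mv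 525 (both (five 1 492 524) (mv 557 (both (five 2 524 556) (mv 529 (both (five 2 525 558) (mv 530 (both (five 3 494 494) (five 3 495 531))))))))) (mv 529 (both (mv 530 (both (five 3 494 494) (five 3 495 531))) (both (mv 530 (both (five 3 495 531) (mv 498 (both (five 1 495 499) (mv 559 (both (five 2 526 558) (mv 591 (both (five 5 463 464) (five 5 495 623))))))))) (mv 493 (both (five 0 493 494) (mv 497 (both (five 2 494 498) (mv 558 (both (five 2 525 557) (mv 463 (both (five 6 430 431) (mv 559 (both (five 6 462 590) (mv 591 (both (five 5 463 464) (five 5 495 623)))))))))))))))))))))))))) (mv 527 (both (mv 494 (both (mv 493 (both (five 0 492 492) (five 0 493 529))) (mv 497 (both (mv 498 (both (five 2 495 499) (five 2 494 526))) (mv 462 (both (five 3 461 461) (mv 430 (both (five 4 398 398) (mv 559 (both (five 7 430 463) (five 7 462 591))))))))))) (both (mv 559 (both (mv 591 (both (five 5 463 464) (five 5 495 623))) (mv 463 (both (mv 430 (both (five 7 430 462) (mv 431 (both (five 7 398 398) (five 4 399 399))))) (mv 558 (both (five 6 462 590) (mv 529 (both (five 2 526 530) (mv 557 (both (five 2 525 526) (five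 1 524 556))))))))))) (both (mv 559 (both (mv 591 (both (five 5 463 464) (five 5 495 623))) (both (mv 463 (both (mv 430 (both (five 7 430 462) (mv 431 (both (five 7 398 398) (five 4 399 399))))) (both (mv 431 (both (five 4 399 399) (mv 432 (both (five 5 399 400) (five 5 431 464))))) (mv 462 (both (five 7 430 430) (mv 461 (both (five 0 460 460) (mv 497 (both (five 0 461 464) (five 3 462 498)))))))))) (mv 591 (both (five 5 495 623) (mv 462 (both (five 7 462 494) (mv 463 (both (five 7 430 430) (mv 590 (both (five 6 462 558) (five 6 494 622)))))))))))) (both (mv 526 (both (mv 525 (both (five 1 492 524) (mv 557 (both (five 2 524 556) (mv 529 (both (five 2 525 558) (mv 530 (both (five 3 494 494) (five 3 495 531))))))))) (both (mv 525 (both (five 1 492 524) (mv 493 (both (five 3 492 492) (mv 557 (both (five 2 524 556) (mv 558 (both (five 2 525 529) (mv 461 (both (five 4 429 429) (five 4 461 590))))))))))) (both (mv 494 (both (mv 493 (both (five 0 492 492) (five 0 493 529))) (both (mv 529 (both (five 3 494 530) (mv 558 (both (five 2 525 557) (mv 463 (both (five 6 430 431) (five 5 462 590))))))) (mv 493 (both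 (five 0 492 492) (mv 461 (both (five 3 460 460) (mv 429 (both (five 4 397 397) (mv 558 (both (five 7 429 462) (five 7 461 590)))))))))))) (both (mv 494 (both (mv 525 (both (five 1 492 524) (mv 557 (both (five 2 524 556) (mv 462 (both (five 6 429 430) (mv 589 (both (five 6 461 558) (five 5 493 621))))))))) (both (mv 493 (both (five 0 492 492) (mv 461 (both (five 3 460 460) (mv 429 (both (five 4 397 397) (mv 558 (both (five 7 429 462) (five 7 461 590))))))))) (both (mv 493 (both (five 0 492 492) (mv 525 (both (five 2 492 524) (mv 557 (both (five 2 524 556) (mv 589 (both (five 5 461 462) (five 5 493 621))))))))) (mv 493 (both (five 0 492 492) (mv 461 (both (five 3 460 460) (mv 397 (both (five 4 397 429) (mv 464 (both (five 1 461 465) (mv 400 (both (five 6 399 432) (mv 525 (both (five 2 492 524) (mv 557 (both (five 2 524 556) (mv 589 (both (five 5 493 621) (mv 590 (both (five 4 461 558) (five 4 493 622))))))))))))))))))))))) (both (mv 525 (both (five 1 492 524) (mv 493 (both (five 3 492 492) (mv 494 (both (five 0 493 529) (mv 557 (both (five 2 524 556) (mv 589 (both (five 5 461 462) (five 5 493 621)))))))))))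 (mv 525 (both (five 1 492 524) (mv 493 (both (five 3 492 492) (mv 494 (both (five 0 493 529) (mv 461 (both (five 3 460 460) (mv 429 (both (five 4 397 397) (mv 558 (both (five 7 429 462) (five 7 461 590))))))))))))))))))) (both (mv 494 (both (mv 493 (both (five 0 492 492) (five 0 493 529))) (mv 526 (both (mv 497 (both (five 2 494 498) (five 1 493 525))) (both (mv 497 (both (five 2 494 498) (mv 462 (both (five 3 461 461) (mv 430 (both (five 4 398 398) (five 4 430 559))))))) (mv 525 (both (five 1 492 524) (mv 557 (both (five 2 524 556) (mv 462 (both (five 6 429 430) (mv 589 (both (five 6 461 558) (five 5 493 621)))))))))))))) (mv 526 (both (mv 497 (both (five 2 494 498) (five 1 493 525))) (both (mv 525 (both (five 1 492 524) (mv 557 (both (five 2 524 556) (mv 529 (both (five 2 525 558) (mv 530 (both (five 3 494 494) (five 3 495 531))))))))) (mv 529 (both (mv 530 (both (five 3 494 494) (five 3 495 531))) (both (mv 530 (both (five 3 495 531) (mv 498 (both (five 1 495 499) (mv 559 (both (five 2 526 558) (mv 591 (both (five 5 463 464) (five 5 495 623))))))))) (mv 493 (both (five 0 493 494) (mv 497 (both (five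 2 494 498) (mv 558 (both (five 2 525 557) (mv 463 (both (five 6 430 431) (mv 559 (both (five 6 462 590) (mv 591 (both (five 5 463 464) (five 5 495 623))))))))))))))))))))))))))))))))))))))

theorem L94 : W (S 878694100701304956511192169158242687862212665431883220280182872118455237980908336946979793684870563807462937680039967586724118902039808942127312687095760289792) (S 343735512745705850924698524016187234249788011611544812760861660768832750112960307950592805566592271618599439023805250814653513237970008079308103403332423252520887179007089315796061662478336) :=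
  check_sound (Env.cons L92 Env.nil) (x := 495) (t := tL94) (by decide +kernel)

def tL95 : T :=
  (both (mv 498 (both (mv 499 (both (mv 500 (both (five 2 496 529) (mv 532 (both (five 0 496 531) (five 0 497 533))))) (both (mv 467 (both (five 1 464 468) (mv 466 (both (five 1 463 495) (mv 531 (both (five 0 496 532) (mv 434 (both (five 4 402 402) (five 7 434 563))))))))) (mv 467 (both (five 1 464 468) (mv 466 (both (five 1 463 495) (mv 500 (both (five 2 496 529) (mv 465 (both (five 3 464 464) (five 3 465 501)))))))))))) (both (mv 495 (both (mv 466 (both (five 1 463 467) (mv 465 (both (five 1 462 494) (mv 433 (both (five 6 400 401) (mv 560 (both (five 5 432 464) (five 5 464 592))))))))) (both (mv 530 (both (five 0 495 531) (mv 494 (both (five 0 494 529) (mv 461 (both (five 3 461 462) (mv 493 (both (five 3 460 460) (mv 525 (both (five 2 492 524) (five 2 493 526))))))))))) (mv 433 (both (mv 466 (both (five 1 463 467) (mv 530 (both (five 0 495 531) (mv 434 (both (five 7 401 401) (mv 402 (both (five 6 401 529) (mv 403 (both (five 5 370 371) (five 5 402 435))))))))))) (both (mv 465 (both (five 6 400 401) (mv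 560 (both (five 5 432 464) (five 5 464 592))))) (mv 466 (both (five 1 463 467) (mv 530 (both (five 0 495 531) (mv 465 (both (five 7 433 562) (mv 560 (both (five 5 432 464) (five 5 464 592))))))))))))))) (both (mv 499 (both (mv 500 (both (five 2 496 529) (mv 532 (both (five 0 496 531) (five 0 497 533))))) (both (mv 467 (both (five 1 464 468) (mv 435 (both (mv 403 (both (five 6 402 530) (mv 370 (both (five 7 370 402) (mv 371 (both (five 7 338 338) (five 6 370 466))))))) (both (mv 531 (both (five 0 496 532) (mv 402 (both (five 7 402 434) (mv 403 (both (five 7 370 370) (mv 404 (both (five 5 371 372) (five 5 403 436))))))))) (both (mv 531 (both (five 0 496 532) (mv 402 (both (five 7 402 434) (mv 404 (both (five 5 403 436) (mv 562 (both (five 6 434 530) (mv 563 (both (five 6 466 594) (mv 595 (both (five 7 466 466) (mv 596 (both (five 4 467 564) (five 4 499 628))))))))))))))) (mv 403 (both (five 6 402 530) (mv 371 (both (five 6 370 466) (mv 372 (both (five 5 339 340) (five 5 371 404))))))))))))) (mv 467 (both (five 1 464 468) (mv 500 (both (five 2 496 529) (mv 465 (both (five 3 464 464) (mv 401 (both (five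 6 400 433) (mv 501 (both (five 3 465 466) (mv 470 (both (five 1 466 469) (mv 502 (both (five 1 467 471) (mv 534 (both (five 0 498 533) (five 0 499 535)))))))))))))))))))) (both (mv 499 (both (mv 532 (both (five 0 496 531) (mv 500 (both (five 0 497 533) (mv 465 (both (five 3 464 464) (mv 401 (both (five 6 400 433) (mv 469 (both (five 1 465 468) (mv 501 (both (five 3 465 466) (five 1 466 470))))))))))))) (both (mv 468 (both (five 1 464 467) (mv 500 (both (five 1 465 469) (mv 465 (both (five 3 464 464) (mv 401 (both (five 6 400 433) (mv 501 (both (five 3 465 466) (mv 533 (both (five 0 497 532) (five 0 498 534))))))))))))) (both (mv 531 (both (five 0 496 532) (mv 495 (both (five 0 495 530) (mv 466 (both (five 1 463 467) (mv 465 (both (five 1 462 494) (mv 433 (both (five 6 400 401) (mv 560 (both (five 5 432 464) (five 5 464 592))))))))))))) (both (mv 468 (both (five 1 464 467) (mv 500 (both (five 1 465 469) (mv 465 (both (five 3 464 464) (mv 433 (both (five 6 400 401) (mv 466 (both (five 3 465 501) (mv 495 (both (five 1 462 494) (mv 530 (both (five 0 495 531) (five 7 433 562))))))))))))))) (mv 467 (both (five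 1 464 468) (mv 531 (both (five 0 496 532) (mv 530 (both (five 0 495 495) (mv 435 (both (five 6 402 403) (five 6 434 562)))))))))))))) (both (mv 465 (both (mv 433 (both (five 6 400 401) (mv 560 (both (five 5 432 464) (five 5 464 592))))) (both (mv 499 (both (mv 467 (both (five 1 464 468) (mv 495 (both (five 1 463 466) (mv 529 (both (five 2 496 500) (mv 494 (both (five 0 493 493) (five 0 494 530))))))))) (both (mv 467 (both (five 1 464 468) (mv 435 (both (mv 403 (both (five 6 402 530) (mv 370 (both (five 7 370 402) (mv 371 (both (five 7 338 338) (mv 372 (both (five 5 339 340) (five 5 371 404))))))))) (mv 466 (both (five 1 463 495) (mv 436 (both (five 1 432 464) (mv 437 (both (five 2 433 434) (five 2 434 438))))))))))) (mv 500 (both (five 3 464 464) (five 2 496 529)))))) (mv 433 (both (five 6 400 401) (mv 560 (both (five 6 432 529) (five 5 464 592)))))))) (both (mv 499 (both (mv 500 (both (five 2 496 529) (mv 532 (both (five 0 496 531) (five 0 497 533))))) (both (mv 467 (both (five 1 464 468) (mv 531 (both (five 0 496 532) (mv 530 (both (five 0 495 495) (mv 435 (both (five 6 402 403) (five 6 434 562)))))))))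 (mv 468 (both (five 1 464 467) (mv 500 (both (five 1 465 469) (five 2 496 529)))))))) (mv 465 (both (mv 433 (both (five 6 400 401) (mv 560 (both (five 5 432 464) (five 5 464 592))))) (both (mv 499 (both (mv 500 (both (five 3 464 464) (five 2 496 529))) (both (mv 531 (both (five 0 496 532) (mv 495 (both (five 0 495 530) (mv 494 (both (five 1 462 466) (mv 493 (both (five 1 461 464) (mv 525 (both (five 2 492 524) (five 2 493 526))))))))))) (mv 500 (both (five 2 496 529) (mv 532 (both (five 0 496 531) (five 0 497 533)))))))) (mv 433 (both (five 6 400 401) (mv 560 (both (five 6 432 529) (five 5 464 592))))))))))))))) (both (mv 495 (both (mv 431 (both (mv 529 (both (mv 494 (both (five 0 493 493) (five 0 494 530))) (both (mv 560 (both (mv 559 (both (mv 464 (both (five 7 431 463) (five 6 463 591))) (both (mv 494 (both (five 0 493 493) (mv 526 (both (five 2 493 525) (mv 558 (both (five 1 525 557) (mv 590 (both (five 5 462 463) (mv 589 (both (five 6 493 621) (mv 588 (both (five 1 555 587) (five 1 556 591))))))))))))) (both (mv 463 (both (five 7 431 464) (mv 494 (both (five 0 493 493) (mv 526 (both (five 2 493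 525) (mv 558 (both (five 1 525 557) (five 5 462 590))))))))) (mv 494 (both (five 0 493 493) (mv 526 (both (five 2 493 525) (mv 558 (both (five 1 525 557) (mv 591 (both (five 6 463 464) (mv 623 (both (five 4 494 590) (five 7 526 655))))))))))))))) (both (mv 493 (both (five 0 493 494) (mv 592 (both (five 5 496 624) (mv 591 (both (five 6 495 623) (mv 559 (both (five 6 463 464) (mv 593 (both (five 4 496 625) (mv 558 (both (five 0 557 557) (five 3 558 594))))))))))))) (mv 592 (both (five 7 463 463) (five 5 496 624)))))) (mv 531 (both (five 3 495 530) (mv 467 (both (mv 498 (both (five 1 463 466) (mv 499 (both (five 1 464 468) (five 2 496 500))))) (both (mv 560 (both (mv 464 (both (five 7 431 463) (mv 432 (both (five 4 400 400) (mv 433 (both (five 5 400 401) (mv 434 (both (five 0 431 466) (mv 402 (both (five 1 399 403) (mv 435 (both (five 0 432 468) (five 7 402 499))))))))))))) (both (mv 592 (both (five 5 496 624) (mv 591 (both (five 6 495 623) (mv 559 (both (five 6 463 464) (mv 593 (both (five 4 496 625) (mv 558 (both (five 0 557 557) (five 3 558 594))))))))))) (mv 592 (both (five 7 463 463) (five 5 496 624))))))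 (both (mv 560 (both (mv 464 (both (five 7 431 463) (mv 432 (both (five 4 400 400) (mv 433 (both (five 5 400 401) (mv 466 (both (five 0 431 434) (five 1 463 498))))))))) (both (mv 592 (both (five 5 496 624) (mv 591 (both (five 6 495 623) (mv 559 (both (five 6 463 464) (mv 593 (both (five 4 496 625) (mv 558 (both (five 0 557 557) (five 3 558 594))))))))))) (mv 592 (both (five 7 463 463) (five 5 496 624)))))) (mv 499 (both (mv 498 (both (five 1 464 468) (five 2 496 500))) (both (mv 563 (both (mv 436 (both (five 5 435 468) (mv 404 (both (five 5 403 435) (mv 594 (both (five 6 466 562) (mv 595 (both (five 6 498 626) (mv 628 (both (five 4 499 596) (mv 627 (both (five 4 531 660) (mv 500 (both (five 5 499 532) (mv 592 (both (five 0 592 593) (mv 560 (both (five 7 463 463) (five 5 496 624))))))))))))))))))) (both (mv 564 (both (five 4 467 596) (mv 594 (both (five 6 466 562) (mv 595 (both (five 6 498 626) (mv 565 (both (five 2 562 566) (mv 592 (both (five 1 560 593) (mv 560 (both (five 7 463 463) (five 5 496 624))))))))))))) (both (mv 436 (both (five 5 435 468) (mv 435 (both (five 5 403 404) (mv 402 (both (five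 7 402 434) (mv 370 (both (five 7 370 403) (mv 532 (both (five 4 435 564) (mv 594 (both (five 6 466 562) (mv 595 (both (five 6 498 626) (mv 627 (both (five 5 499 500) (mv 628 (both (five 4 531 660) (mv 592 (both (five 0 592 593) (mv 560 (both (five 7 463 463) (five 5 496 624))))))))))))))))))))))) (mv 436 (both (five 5 435 468) (mv 435 (both (five 5 403 404) (mv 564 (both (five 4 435 532) (five 4 467 596))))))))))) (both (mv 498 (both (five 2 496 500) (five 0 496 532))) (mv 498 (both (five 1 464 468) (five 0 496 532)))))))))))))))) (both (mv 498 (both (mv 467 (both (five 1 463 466) (mv 499 (both (five 1 464 468) (mv 531 (both (five 0 495 530) (five 0 496 532))))))) (both (mv 467 (both (five 1 463 466) (mv 499 (both (five 1 464 468) (mv 500 (both (five 2 496 529) (mv 532 (both (five 0 496 531) (five 0 497 533))))))))) (both (mv 467 (both (five 1 463 466) (mv 499 (both (five 1 464 468) (mv 529 (both (five 2 496 500) (mv 494 (both (five 0 493 493) (five 0 494 530))))))))) (both (mv 499 (both (mv 531 (both (five 0 495 530) (five 0 496 532))) (both (mv 529 (both (five 2 496 500) (mv 494 (both (five 0 493 493)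 (five 0 494 530))))) (mv 500 (both (five 2 496 529) (mv 532 (both (five 0 496 531) (five 0 497 533)))))))) (mv 530 (both (five 0 495 531) (mv 529 (both (five 0 494 494) (mv 432 (both (mv 464 (both (five 7 399 399) (five 4 400 400))) (both (mv 466 (both (five 1 463 467) (mv 434 (both (five 6 401 402) (mv 433 (both (five 7 401 401) (mv 399 (both (five 3 398 398) (mv 435 (both (five 3 399 400) (five 5 402 403))))))))))) (both (mv 399 (both (five 7 399 464) (mv 466 (both (five 1 463 467) (mv 434 (both (five 6 401 402) (mv 433 (both (five 3 398 398) (five 7 401 401))))))))) (mv 400 (both (five 4 400 464) (mv 466 (both (five 1 463 467) (mv 402 (both (five 6 401 434) (mv 401 (both (five 2 399 403) (mv 430 (both (five 1 397 429) (five 1 398 433)))))))))))))))))))))))) (both (mv 463 (both (five 4 399 399) (mv 560 (both (five 7 431 464) (five 7 463 592))))) (mv 498 (both (mv 467 (both (five 1 463 466) (mv 499 (both (five 1 464 468) (mv 531 (both (five 0 495 530) (five 0 496 532))))))) (both (mv 467 (both (five 1 463 466) (mv 499 (both (five 1 464 468) (mv 500 (both (five 2 496 529) (mv 532 (both (five 0 496 531)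 (five 0 497 533))))))))) (both (mv 467 (both (five 1 463 466) (mv 499 (both (five 1 464 468) (mv 529 (both (five 2 496 500) (mv 494 (both (five 0 493 493) (five 0 494 530))))))))) (both (mv 499 (both (mv 531 (both (five 0 495 530) (five 0 496 532))) (both (mv 529 (both (five 2 496 500) (mv 494 (both (five 0 493 493) (five 0 494 530))))) (mv 500 (both (five 2 496 529) (mv 532 (both (five 0 496 531) (five 0 497 533)))))))) (mv 399 (both (five 4 399 463) (mv 466 (both (five 1 463 467) (mv 530 (both (five 0 495 531) (mv 529 (both (five 0 494 494) (mv 434 (both (five 6 401 402) (mv 433 (both (five 7 401 401) (mv 432 (both (five 3 398 398) (mv 435 (both (five 3 399 400) (five 5 402 403)))))))))))))))))))))))))) (both (mv 498 (both (mv 467 (both (five 1 463 466) (mv 499 (both (five 1 464 468) (mv 531 (both (five 0 495 530) (five 0 496 532))))))) (mv 463 (both (five 3 462 462) (mv 431 (both (five 4 399 399) (mv 560 (both (five 7 431 464) (five 7 463 592))))))))) (both (mv 498 (both (mv 467 (both (five 1 463 466) (mv 499 (both (five 1 464 468) (mv 531 (both (five 0 495 530) (five 0 496 532))))))) (both (mv 467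 (both (five 1 463 466) (mv 499 (both (five 1 464 468) (mv 500 (both (five 2 496 529) (mv 532 (both (five 0 496 531) (five 0 497 533))))))))) (both (mv 467 (both (five 1 463 466) (mv 499 (both (five 1 464 468) (mv 529 (both (five 2 496 500) (mv 494 (both (five 0 493 493) (five 0 494 530))))))))) (mv 530 (both (five 0 495 531) (mv 494 (both (five 0 494 529) (mv 461 (both (five 3 461 462) (mv 493 (both (five 3 460 460) (mv 525 (both (five 2 492 524) (five 2 493 526))))))))))))))) (both (mv 494 (both (mv 461 (both (five 3 461 462) (mv 493 (both (five 3 460 460) (mv 525 (both (five 2 492 524) (five 2 493 526))))))) (both (mv 463 (both (mv 431 (both (five 4 399 399) (mv 560 (both (five 7 431 464) (five 7 463 592))))) (both (mv 462 (both (five 3 461 461) (mv 526 (both (five 2 493 525) (mv 529 (both (five 0 494 530) (mv 558 (both (five 5 462 590) (mv 557 (both (five 6 461 589) (mv 560 (both (five 1 525 559) (five 7 463 592))))))))))))) (mv 431 (both (five 4 399 399) (mv 462 (both (five 3 461 461) (mv 526 (both (five 2 493 525) (five 5 430 558)))))))))) (mv 529 (both (five 0 493 493) (five 0 494 530)))))) (mv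 463 (both (mv 431 (both (five 4 399 399) (mv 560 (both (five 7 431 464) (five 7 463 592))))) (both (mv 462 (both (five 3 462 498) (mv 461 (both (five 0 460 460) (five 0 461 464))))) (mv 399 (both (five 4 399 431) (mv 462 (both (five 3 462 498) (mv 461 (both (five 0 460 460) (five 3 461 494))))))))))))))) (both (mv 495 (both (mv 498 (both (mv 467 (both (five 1 463 466) (mv 499 (both (five 1 464 468) (mv 531 (both (five 0 495 530) (five 0 496 532))))))) (both (mv 463 (both (five 3 462 462) (mv 399 (both (five 4 399 431) (mv 466 (both (five 1 463 467) (mv 499 (both (five 3 463 464) (mv 500 (both (five 2 496 529) (mv 468 (both (five 1 465 469) (mv 501 (both (five 3 465 465) (mv 533 (both (five 0 497 532) (five 0 498 534))))))))))))))))) (both (mv 463 (both (five 3 462 462) (mv 399 (both (five 4 399 431) (mv 499 (both (five 3 463 464) (mv 531 (both (five 0 495 530) (five 0 496 532))))))))) (mv 465 (both (mv 401 (both (five 6 400 433) (mv 463 (both (five 3 462 462) (mv 431 (both (five 4 399 399) (mv 466 (both (five 1 463 467) (mv 464 (both (five 3 430 430) (mv 434 (both (five 1 431 435) (mv 402 (both (five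 7 369 369) (five 6 369 370))))))))))))))) (both (mv 463 (both (five 3 462 462) (mv 431 (both (five 4 399 399) (mv 466 (both (five 1 463 467) (mv 464 (both (five 3 430 430) (mv 434 (both (five 1 431 435) (mv 402 (both (five 6 369 370) (five 6 401 529))))))))))))) (mv 433 (both (five 6 400 401) (mv 530 (both (five 0 495 531) (mv 562 (both (five 4 433 529) (five 7 465 594)))))))))))))) (both (mv 494 (both (mv 529 (both (five 0 493 493) (five 0 494 530))) (both (mv 461 (both (five 3 461 462) (mv 493 (both (five 3 460 460) (mv 525 (both (five 2 492 524) (five 2 493 526))))))) (mv 462 (both (five 3 461 461) (mv 465 (both (five 1 462 466) (mv 433 (both (five 6 400 401) (mv 529 (both (five 0 494 530) (mv 432 (both (five 7 400 400) (mv 434 (both (five 5 401 402) (mv 463 (both (five 2 430 431) (five 1 430 464)))))))))))))))))) (both (mv 494 (both (mv 465 (both (five 1 462 466) (mv 401 (both (five 6 400 433) (mv 493 (both (five 1 461 464) (mv 525 (both (five 2 492 524) (five 2 493 526))))))))) (both (mv 461 (both (five 3 461 462) (mv 465 (both (five 1 462 466) (mv 493 (both (five 3 460 460) (five 1 461 464)))))))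 (mv 462 (both (five 3 461 461) (mv 463 (both (five 3 462 498) (mv 431 (both (five 4 399 399) (mv 526 (both (five 2 493 525) (five 5 430 558)))))))))))) (both (mv 494 (both (mv 529 (both (five 0 493 493) (five 0 494 530))) (mv 462 (both (five 3 461 461) (mv 463 (both (five 3 462 498) (mv 431 (both (five 4 399 399) (mv 526 (both (five 2 493 525) (five 5 430 558))))))))))) (mv 494 (both (mv 529 (both (five 0 493 493) (five 0 494 530))) (both (mv 465 (both (five 1 462 466) (mv 401 (both (five 6 400 433) (mv 493 (both (five 1 461 464) (mv 525 (both (five 2 492 524) (five 2 493 526))))))))) (mv 466 (both (five 1 462 465) (mv 498 (both (five 1 463 467) (mv 530 (both (five 0 494 529) (five 0 495 531))))))))))))))) (both (mv 560 (both (mv 465 (both (five 5 464 592) (mv 433 (both (five 6 400 401) (five 5 432 464))))) (both (mv 592 (both (mv 624 (both (five 5 496 529) (mv 625 (both (five 4 496 593) (five 4 528 657))))) (both (mv 591 (both (five 6 495 623) (mv 559 (both (five 6 463 464) (mv 593 (both (five 4 496 625) (mv 558 (both (five 0 557 557) (five 3 558 594))))))))) (mv 529 (both (five 5 496 624) (mv 591 (both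 (five 6 495 623) (mv 464 (both (five 6 463 559) (mv 431 (both (five 7 431 463) (mv 432 (both (five 7 399 399) (five 4 400 400)))))))))))))) (both (mv 464 (both (mv 431 (both (five 7 431 463) (mv 432 (both (five 7 399 399) (mv 400 (both (five 4 400 529) (mv 401 (both (five 5 368 369) (five 5 400 433))))))))) (both (mv 432 (both (mv 433 (both (five 5 400 401) (five 5 432 465))) (both (mv 400 (both (five 4 400 529) (mv 401 (both (five 5 368 369) (five 5 400 433))))) (mv 400 (both (five 4 400 529) (mv 368 (both (five 4 368 465) (mv 335 (both (five 7 335 367) (mv 336 (both (five 7 303 303) (mv 337 (both (five 5 304 305) (five 5 336 369)))))))))))))) (mv 463 (both (five 7 431 431) (mv 462 (both (five 0 461 461) (mv 498 (both (five 0 462 465) (five 3 463 499)))))))))) (mv 465 (both (five 5 464 592) (mv 433 (both (five 6 400 401) (five 6 432 529))))))))) (both (mv 498 (both (mv 499 (both (mv 500 (both (five 2 496 529) (mv 532 (both (five 0 496 531) (five 0 497 533))))) (both (mv 467 (both (five 1 464 468) (mv 531 (both (five 0 496 532) (mv 530 (both (five 0 495 495) (mv 435 (both (five 6 402 403) (five 6 434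 562))))))))) (mv 468 (both (five 1 464 467) (mv 500 (both (five 1 465 469) (five 2 496 529)))))))) (both (mv 499 (both (mv 500 (both (five 2 496 529) (mv 532 (both (five 0 496 531) (five 0 497 533))))) (both (mv 467 (both (five 1 464 468) (mv 435 (both (mv 403 (both (five 6 402 530) (mv 370 (both (five 7 370 402) (mv 371 (both (five 7 338 338) (five 6 370 466))))))) (both (mv 531 (both (five 0 496 532) (mv 402 (both (five 7 402 434) (mv 403 (both (five 7 370 370) (mv 404 (both (five 5 371 372) (five 5 403 436))))))))) (both (mv 531 (both (five 0 496 532) (mv 402 (both (five 7 402 434) (mv 404 (both (five 5 403 436) (mv 562 (both (five 6 434 530) (mv 563 (both (five 6 466 594) (mv 595 (both (five 7 466 466) (mv 596 (both (five 4 467 564) (five 4 499 628))))))))))))))) (mv 403 (both (five 6 402 530) (mv 371 (both (five 6 370 466) (mv 372 (both (five 5 339 340) (five 5 371 404))))))))))))) (mv 468 (both (five 1 464 467) (mv 500 (both (five 1 465 469) (five 2 496 529)))))))) (both (mv 495 (both (mv 462 (both (five 3 462 463) (mv 466 (both (five 1 463 467) (mv 494 (both (five 3 461 461) (five 1 462 465)))))))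 (both (mv 530 (both (five 0 495 531) (mv 494 (both (five 0 494 529) (mv 461 (both (five 3 461 462) (mv 493 (both (five 3 460 460) (mv 525 (both (five 2 492 524) (five 2 493 526))))))))))) (both (mv 433 (both (mv 466 (both (five 1 463 467) (mv 530 (both (five 0 495 531) (mv 434 (both (five 7 401 401) (mv 402 (both (five 6 401 529) (mv 403 (both (five 5 370 371) (five 5 402 435))))))))))) (both (mv 462 (both (five 3 462 463) (mv 465 (both (five 6 400 401) (mv 560 (both (five 6 432 529) (five 5 464 592))))))) (both (mv 462 (both (five 3 462 463) (mv 466 (both (five 1 463 467) (mv 530 (both (five 0 495 531) (mv 465 (both (five 7 433 562) (mv 560 (both (five 6 432 529) (five 5 464 592))))))))))) (mv 401 (both (five 6 400 465) (mv 466 (both (five 1 463 467) (mv 530 (both (five 7 401 434) (five 0 495 531))))))))))) (mv 466 (both (five 1 463 467) (mv 465 (both (five 1 462 494) (mv 433 (both (five 6 400 401) (mv 560 (both (five 6 432 529) (five 5 464 592))))))))))))) (both (mv 499 (both (mv 500 (both (five 2 496 529) (mv 532 (both (five 0 496 531) (five 0 497 533))))) (both (mv 467 (both (five 1 464 468) (mv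 466 (both (five 1 463 495) (mv 531 (both (five 0 496 532) (mv 434 (both (five 4 402 402) (five 7 434 563))))))))) (mv 468 (both (five 1 464 467) (mv 500 (both (five 1 465 469) (five 2 496 529)))))))) (both (mv 531 (both (mv 495 (both (five 0 495 530) (mv 462 (both (five 3 462 463) (mv 466 (both (five 1 463 467) (mv 494 (both (five 3 461 461) (five 1 462 465))))))))) (both (mv 499 (both (five 0 496 532) (mv 466 (both (mv 434 (both (five 4 402 402) (mv 563 (both (five 4 434 530) (five 7 466 595))))) (both (mv 467 (both (five 1 464 468) (mv 563 (both (five 7 466 595) (mv 562 (both (five 6 466 594) (mv 435 (both (five 5 434 530) (mv 403 (both (five 6 370 371) (mv 404 (both (five 5 371 372) (five 5 403 436))))))))))))) (both (mv 402 (both (five 4 402 434) (mv 468 (both (five 1 464 467) (mv 500 (both (five 1 465 469) (mv 404 (both (five 6 403 436) (mv 501 (both (five 3 465 465) (mv 502 (both (five 2 498 530) (mv 534 (both (five 0 498 533) (five 0 499 535))))))))))))))) (mv 434 (both (five 4 402 402) (mv 467 (both (five 1 464 468) (five 7 434 563))))))))))) (both (mv 499 (both (five 0 496 532) (mv 467 (both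 (five 1 464 468) (mv 466 (both (five 1 463 495) (mv 434 (both (five 4 402 402) (five 7 434 563))))))))) (mv 530 (both (five 0 495 495) (mv 532 (both (five 0 496 499) (five 3 497 533))))))))) (both (mv 495 (both (mv 462 (both (five 3 462 463) (mv 466 (both (five 1 463 467) (mv 494 (both (five 3 461 461) (five 1 462 465))))))) (both (mv 467 (both (five 1 463 466) (mv 499 (both (five 1 464 468) (mv 529 (both (five 2 496 500) (mv 494 (both (five 0 493 493) (five 0 494 530))))))))) (both (mv 462 (both (five 3 462 463) (mv 494 (both (five 3 461 461) (mv 529 (both (five 0 493 493) (five 0 494 530))))))) (mv 499 (both (mv 462 (both (five 3 462 463) (mv 500 (both (five 2 496 529) (mv 469 (both (five 1 465 468) (mv 501 (both (five 1 466 470) (mv 533 (both (five 0 497 532) (five 0 498 534))))))))))) (both (mv 467 (both (five 1 463 466) (five 1 464 468))) (mv 462 (both (five 3 462 463) (mv 466 (both (five 1 463 467) (mv 500 (both (five 2 496 529) (mv 501 (both (five 3 465 465) (mv 533 (both (five 0 497 532) (five 0 498 534)))))))))))))))))) (mv 465 (both (mv 433 (both (five 6 400 401) (mv 560 (both (five 6 432 529)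 (five 5 464 592))))) (both (mv 495 (both (mv 462 (both (five 3 462 463) (mv 531 (both (five 0 495 530) (mv 499 (both (five 0 496 532) (mv 500 (both (five 2 496 529) (mv 469 (both (five 1 465 468) (mv 501 (both (five 3 465 466) (five 1 466 470))))))))))))) (both (mv 462 (both (five 3 462 463) (mv 494 (both (five 3 461 461) (five 1 462 466))))) (mv 499 (both (mv 531 (both (five 0 495 530) (five 0 496 532))) (both (mv 529 (both (five 2 496 500) (mv 494 (both (five 0 493 493) (five 0 494 530))))) (mv 500 (both (five 2 496 529) (mv 532 (both (five 0 496 531) (five 0 497 533))))))))))) (mv 530 (both (mv 495 (both (five 0 495 531) (mv 462 (both (five 3 462 463) (mv 494 (both (five 3 461 461) (five 1 462 466))))))) (both (mv 433 (both (five 6 400 401) (mv 562 (both (five 7 433 466) (five 7 465 594))))) (mv 401 (both (five 6 400 433) (mv 531 (both (five 0 495 495) (mv 532 (both (five 0 496 499) (five 3 497 533)))))))))))))))))))) (both (mv 464 (both (mv 463 (both (mv 462 (both (five 0 461 461) (mv 498 (both (five 3 462 495) (five 3 463 499))))) (mv 431 (both (five 7 431 560) (mv 399 (both (five 4 367 367) (five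 7 399 432))))))) (both (mv 432 (both (mv 399 (both (five 7 399 431) (mv 400 (both (five 7 367 367) (mv 401 (both (five 5 368 369) (five 5 400 433))))))) (both (mv 399 (both (five 7 399 431) (mv 400 (both (five 7 367 367) (mv 368 (both (five 4 368 465) (mv 369 (both (five 5 336 337) (five 5 368 401))))))))) (both (mv 399 (both (five 7 399 431) (mv 400 (both (five 7 367 367) (mv 465 (both (five 4 368 368) (mv 560 (both (five 5 432 433) (five 5 464 592))))))))) (both (mv 400 (both (mv 401 (both (five 5 368 369) (five 5 400 433))) (both (mv 465 (both (five 4 368 368) (mv 560 (both (five 5 432 433) (five 5 464 592))))) (mv 368 (both (five 4 368 465) (mv 369 (both (five 5 336 337) (five 5 368 401)))))))) (mv 431 (both (five 7 399 399) (mv 433 (both (five 5 400 401) (mv 465 (both (five 5 432 560) (mv 430 (both (five 0 429 429) (five 0 430 466)))))))))))))) (both (mv 463 (both (mv 432 (both (mv 399 (both (five 7 399 431) (mv 400 (both (five 7 367 367) (mv 401 (both (five 5 368 369) (five 5 400 433))))))) (both (mv 401 (both (five 5 400 433) (mv 400 (both (five 5 368 369) (mv 368 (both (five 4 368 465) (five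 6 367 495))))))) (both (mv 399 (both (five 7 399 431) (mv 400 (both (five 7 367 367) (mv 368 (both (five 4 368 465) (five 6 367 495))))))) (mv 431 (both (five 7 399 399) (mv 433 (both (five 5 400 401) (mv 434 (both (five 2 431 435) (mv 402 (both (five 1 399 403) (mv 466 (both (five 0 431 467) (mv 465 (both (five 6 369 370) (five 0 430 430))))))))))))))))) (both (mv 462 (both (five 0 461 461) (mv 498 (both (five 3 462 495) (five 3 463 499))))) (mv 462 (both (five 0 461 461) (mv 498 (both (five 0 462 465) (five 3 463 499)))))))) (both (mv 463 (both (mv 431 (both (five 7 431 560) (mv 399 (both (five 4 367 367) (five 4 399 495))))) (mv 462 (both (five 0 461 461) (mv 498 (both (five 0 462 465) (five 3 463 499))))))) (mv 495 (both (mv 494 (both (mv 461 (both (five 3 461 462) (mv 493 (both (five 3 460 460) (mv 525 (both (five 2 492 524) (five 2 493 526))))))) (both (mv 525 (both (five 2 493 526) (mv 493 (both (five 2 492 524) (mv 460 (both (five 3 460 461) (mv 492 (both (five 3 459 459) (five 1 460 463))))))))) (both (mv 525 (both (five 2 493 526) (mv 493 (both (five 2 492 524) (mv 463 (both (five 1 460 492)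 (mv 498 (both (five 3 462 462) (mv 467 (both (five 1 463 466) (mv 499 (both (five 1 464 468) (mv 531 (both (five 0 495 530) (five 0 496 532))))))))))))))) (mv 462 (both (five 3 461 461) (mv 498 (both (five 3 462 463) (mv 467 (both (five 1 463 466) (mv 499 (both (five 1 464 468) (mv 531 (both (five 0 495 530) (five 0 496 532))))))))))))))) (both (mv 465 (both (mv 433 (both (five 6 400 401) (five 5 432 560))) (mv 466 (both (five 2 463 467) (five 1 462 494))))) (both (mv 498 (both (mv 463 (both (five 3 462 462) (five 3 463 499))) (both (mv 467 (both (five 1 463 466) (mv 499 (both (five 1 464 468) (mv 531 (both (five 0 495 530) (five 0 496 532))))))) (mv 463 (both (five 3 462 462) (mv 466 (both (five 1 463 467) (mv 530 (both (five 0 495 531) (mv 560 (both (five 7 463 592) (mv 433 (both (five 5 432 465) (mv 401 (both (five 5 400 432) (five 7 401 434)))))))))))))))) (mv 465 (both (mv 433 (both (five 6 400 401) (five 5 432 560))) (mv 494 (both (five 1 461 493) (mv 462 (both (five 3 461 461) (mv 498 (both (five 0 462 463) (mv 499 (both (five 3 464 500) (mv 531 (both (five 0 495 530) (five 0 496 532))))))))))))))))))))))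 (both (mv 560 (both (mv 465 (both (five 5 464 592) (mv 433 (both (five 6 400 401) (five 5 432 464))))) (both (mv 464 (both (mv 431 (both (five 7 431 463) (mv 432 (both (five 7 399 399) (mv 400 (both (five 4 400 529) (mv 401 (both (five 5 368 369) (five 5 400 433))))))))) (both (mv 431 (both (five 7 431 463) (mv 432 (both (five 7 399 399) (mv 400 (both (five 4 400 529) (mv 368 (both (five 4 368 465) (mv 369 (both (five 5 336 337) (five 5 368 401))))))))))) (both (mv 432 (both (mv 433 (both (five 5 400 401) (five 5 432 465))) (both (mv 400 (both (five 4 400 529) (mv 401 (both (five 5 368 369) (five 5 400 433))))) (mv 400 (both (five 4 400 529) (mv 368 (both (five 4 368 465) (mv 335 (both (five 7 335 367) (mv 336 (both (five 7 303 303) (mv 337 (both (five 5 304 305) (five 5 336 369)))))))))))))) (mv 463 (both (five 7 431 431) (mv 462 (both (five 0 461 461) (mv 465 (both (five 5 432 433) (mv 494 (both (five 2 461 493) (mv 466 (both (five 2 462 495) (mv 435 (both (five 1 431 434) (mv 467 (both (five 1 432 436) (five 2 464 468))))))))))))))))))) (both (mv 592 (both (mv 624 (both (five 5 496 529) (mv 625 (both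 (five 4 496 593) (five 4 528 657))))) (both (mv 591 (both (five 6 495 623) (mv 559 (both (five 6 463 464) (mv 593 (both (five 4 496 625) (mv 558 (both (five 0 557 557) (five 3 558 594))))))))) (mv 529 (both (five 5 496 624) (mv 591 (both (five 6 495 623) (mv 464 (both (five 6 463 559) (mv 431 (both (five 7 431 463) (mv 432 (both (five 7 399 399) (five 4 400 400)))))))))))))) (mv 465 (both (five 5 464 592) (mv 433 (both (five 6 400 401) (five 6 432 529))))))))) (both (mv 495 (both (mv 463 (both (mv 431 (both (five 4 399 399) (mv 560 (both (five 7 431 464) (five 7 463 592))))) (both (mv 462 (both (five 3 462 498) (mv 461 (both (five 0 460 460) (five 0 461 464))))) (mv 399 (both (five 4 399 431) (mv 462 (both (five 3 462 498) (mv 461 (both (five 0 460 460) (five 3 461 494)))))))))) (both (mv 498 (both (mv 467 (both (five 1 463 466) (mv 499 (both (five 1 464 468) (mv 531 (both (five 0 495 530) (five 0 496 532))))))) (mv 463 (both (five 3 462 462) (mv 431 (both (five 4 399 399) (mv 560 (both (five 7 431 464) (five 7 463 592))))))))) (both (mv 498 (both (mv 467 (both (five 1 463 466) (mv 499 (both (five 1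 464 468) (mv 531 (both (five 0 495 530) (five 0 496 532))))))) (both (mv 467 (both (five 1 463 466) (mv 499 (both (five 1 464 468) (mv 500 (both (five 2 496 529) (mv 532 (both (five 0 496 531) (five 0 497 533))))))))) (both (mv 467 (both (five 1 463 466) (mv 499 (both (five 1 464 468) (mv 529 (both (five 2 496 500) (mv 494 (both (five 0 493 493) (five 0 494 530))))))))) (mv 530 (both (five 0 495 531) (mv 494 (both (five 0 494 529) (mv 461 (both (five 3 461 462) (mv 493 (both (five 3 460 460) (mv 525 (both (five 2 492 524) (five 2 493 526))))))))))))))) (both (mv 494 (both (mv 461 (both (five 3 461 462) (mv 493 (both (five 3 460 460) (mv 525 (both (five 2 492 524) (five 2 493 526))))))) (both (mv 463 (both (mv 431 (both (five 4 399 399) (mv 560 (both (five 7 431 464) (five 7 463 592))))) (both (mv 462 (both (five 3 461 461) (mv 526 (both (five 2 493 525) (mv 529 (both (five 0 494 530) (mv 558 (both (five 5 462 590) (mv 557 (both (five 6 461 589) (mv 560 (both (five 1 525 559) (five 7 463 592))))))))))))) (mv 431 (both (five 4 399 399) (mv 462 (both (five 3 461 461) (mv 526 (both (five 2 493 525) (five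 5 430 558)))))))))) (mv 529 (both (five 0 493 493) (five 0 494 530)))))) (mv 494 (both (mv 529 (both (five 0 493 493) (five 0 494 530))) (both (mv 465 (both (five 1 462 466) (mv 493 (both (five 1 461 464) (mv 525 (both (five 2 492 524) (five 2 493 526))))))) (mv 466 (both (five 1 462 465) (mv 498 (both (five 1 463 467) (mv 530 (both (five 0 494 529) (five 0 495 531))))))))))))))) (mv 560 (both (mv 465 (both (five 5 464 592) (mv 433 (both (five 6 400 401) (five 5 432 464))))) (both (mv 464 (both (mv 431 (both (five 7 431 463) (mv 432 (both (five 7 399 399) (mv 433 (both (five 5 400 401) (five 5 432 465))))))) (both (mv 431 (both (five 7 431 463) (mv 432 (both (five 7 399 399) (mv 400 (both (five 4 400 529) (mv 401 (both (five 5 368 369) (five 5 400 433))))))))) (both (mv 432 (both (mv 433 (both (five 5 400 401) (five 5 432 465))) (both (mv 400 (both (five 4 400 529) (mv 401 (both (five 5 368 369) (five 5 400 433))))) (mv 400 (both (five 4 400 529) (mv 368 (both (five 4 368 465) (mv 335 (both (five 7 335 367) (mv 336 (both (five 7 303 303) (mv 337 (both (five 5 304 305) (five 5 336 369)))))))))))))) (both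 (mv 495 (both (mv 463 (both (five 7 431 431) (mv 498 (both (five 3 463 499) (mv 466 (both (five 1 463 467) (mv 530 (both (five 0 495 531) (mv 494 (both (five 0 494 529) (mv 493 (both (five 1 460 492) (mv 525 (both (five 2 492 524) (five 2 493 526))))))))))))))) (both (mv 465 (both (five 5 432 433) (mv 466 (both (five 2 463 467) (five 1 462 494))))) (both (mv 433 (both (five 5 432 465) (mv 463 (both (five 7 431 431) (mv 498 (both (five 3 463 499) (mv 466 (both (five 1 463 467) (mv 530 (both (five 0 495 531) (mv 434 (both (five 7 401 401) (mv 402 (both (five 6 401 529) (mv 403 (both (five 5 370 371) (five 5 402 435))))))))))))))))) (mv 433 (both (five 5 432 465) (mv 463 (both (five 7 431 431) (mv 498 (both (five 3 463 499) (mv 530 (both (five 0 495 531) (mv 494 (both (five 0 494 529) (mv 493 (both (five 1 460 492) (mv 525 (both (five 2 492 524) (five 2 493 526))))))))))))))))))) (mv 431 (both (five 7 431 463) (mv 432 (both (five 7 399 399) (mv 400 (both (five 4 400 529) (mv 368 (both (five 4 368 465) (mv 335 (both (five 7 335 367) (mv 336 (both (five 7 303 303) (mv 337 (both (five 5 304 305) (five 5 336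 369)))))))))))))))))))) (both (mv 592 (both (mv 624 (both (five 5 496 529) (mv 625 (both (five 4 496 593) (five 4 528 657))))) (both (mv 591 (both (five 6 495 623) (mv 559 (both (five 6 463 464) (mv 593 (both (five 4 496 625) (mv 558 (both (five 0 557 557) (five 3 558 594))))))))) (mv 529 (both (five 5 496 624) (mv 591 (both (five 6 495 623) (mv 464 (both (five 6 463 559) (mv 431 (both (five 7 431 463) (mv 432 (both (five 7 399 399) (five 4 400 400)))))))))))))) (mv 465 (both (five 5 464 592) (mv 433 (both (five 6 400 401) (five 6 432 529)))))))))))))))))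

theorem L95 : W (S 878694100701304956511192169158242687862212665431883220280182872118455237980908336946979793684870563807462937680039967586724118902039808942127312687095760289792) (S 5531576006056679151922645400087023062705406291089643645716643201690818135043281729911234477348379372885833929787180670241353378558274501584237002853367505683526414609468238537843165995443554881634304) :=
  check_sound Env.nil (x := 497) (t := tL95) (by decide +kernel)

def tL96 : T :=
  (both (mv 497 (both (mv 465 (both (five 6 400 401) (mv 560 (both (five 6 432 529) (five 5 464 592))))) (both (mv 527 (both (mv 498 (both (five 2 495 499) (mv 526 (both (five 2 494 495) (five 1 493 525))))) (both (mv 526 (both (five 1 493 525) (mv 529 (both (mv 558 (both (five 2 525 557) (mv 530 (both (five 2 526 559) (mv 531 (both (five 3 495 495) (five 3 496 532))))))) (both (mv 494 (both (five 3 493 493) (mv 462 (both (mv 430 (both (five 4 430 559) (mv 397 (both (five 7 397 429) (mv 398 (both (five 7 365 365) (mv 399 (both (five 5 366 367) (five 5 398 431))))))))) (both (mv 461 (both (five 3 461 495) (mv 558 (both (five 7 429 429) (five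 2 525 557))))) (mv 430 (both (five 4 430 559) (mv 495 (both (five 4 398 398) (five 3 461 461)))))))))) (both (mv 493 (both (five 3 493 494) (mv 558 (both (five 2 525 557) (mv 530 (both (five 2 526 559) (mv 531 (both (five 3 496 532) (mv 563 (both (five 0 527 562) (five 0 528 564))))))))))) (mv 494 (both (five 3 493 493) (mv 530 (both (five 0 494 495) (mv 531 (both (five 3 496 532) (mv 563 (both (five 0 527 562) (five 0 528 564))))))))))))))) (both (mv 498 (both (five 2 495 499) (mv 530 (both (mv 495 (both (five 0 495 531) (mv 466 (both (five 1 463 467) (mv 401 (both (five 7 401 434) (mv 494 (both (five 0 494 529) (mv 461 (both (five 3 461 462) (mv 493 (both (five 3 460 460) (five 0 492 492))))))))))))) (both (mv 529 (both (mv 531 (both (five 3 496 532) (mv 563 (both (five 0 527 562) (five 0 528 564))))) (both (mv 559 (both (five 2 526 558) (mv 562 (both (five 0 527 563) (mv 594 (both (five 7 497 626) (mv 593 (both (five 6 497 625) (mv 595 (both (five 4 498 627) (mv 592 (both (five 3 559 560) (mv 623 (both (five 5 495 591) (five 2 591 624))))))))))))))) (mv 531 (both (five 3 496 532) (mv 559 (both (five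 2 526 558) (five 2 527 560)))))))) (both (mv 529 (both (mv 559 (both (five 2 526 558) (mv 562 (both (five 0 527 563) (mv 594 (both (five 7 497 626) (mv 593 (both (five 6 497 625) (mv 595 (both (five 4 498 627) (mv 592 (both (five 3 559 560) (mv 623 (both (five 5 495 591) (five 2 591 624))))))))))))))) (mv 495 (both (five 0 494 494) (mv 466 (both (five 1 463 467) (mv 434 (both (five 7 401 401) (five 6 401 402))))))))) (mv 466 (both (mv 495 (both (five 1 463 467) (five 0 495 531))) (both (mv 434 (both (five 7 401 401) (mv 435 (both (five 5 402 403) (mv 467 (both (five 5 434 562) (mv 432 (both (five 0 431 431) (five 0 432 468))))))))) (mv 434 (both (five 7 401 401) (mv 531 (both (five 0 495 495) (five 4 434 563)))))))))))))) (mv 498 (both (five 2 495 499) (mv 526 (both (five 1 493 525) (five 1 494 529))))))))) (both (mv 527 (both (mv 498 (both (five 2 495 499) (mv 526 (both (five 2 494 495) (five 1 493 525))))) (both (mv 526 (both (five 1 493 525) (mv 529 (both (mv 558 (both (five 2 525 557) (mv 530 (both (five 2 526 559) (mv 531 (both (five 3 495 495) (five 3 496 532))))))) (both (mv 494 (both (five 3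 493 493) (mv 462 (both (mv 430 (both (five 4 430 559) (mv 397 (both (five 7 397 429) (mv 398 (both (five 7 365 365) (mv 399 (both (five 5 366 367) (five 5 398 431))))))))) (both (mv 461 (both (five 3 461 495) (mv 558 (both (five 7 429 429) (five 2 525 557))))) (mv 430 (both (five 4 430 559) (mv 495 (both (five 4 398 398) (five 3 461 461)))))))))) (both (mv 493 (both (five 3 493 494) (mv 558 (both (five 2 525 557) (mv 530 (both (five 2 526 559) (mv 531 (both (five 3 496 532) (mv 563 (both (five 0 527 562) (five 0 528 564))))))))))) (mv 494 (both (five 3 493 493) (mv 530 (both (five 0 494 495) (mv 531 (both (five 3 496 532) (mv 563 (both (five 0 527 562) (five 0 528 564))))))))))))))) (both (mv 498 (both (five 2 495 499) (mv 495 (both (mv 466 (both (five 1 463 467) (mv 530 (both (five 0 495 531) (mv 465 (both (five 7 433 562) (mv 560 (both (five 6 432 529) (five 5 464 592))))))))) (both (mv 466 (both (five 1 463 467) (mv 465 (both (five 1 462 494) (mv 560 (both (five 6 432 529) (five 5 464 592))))))) (both (mv 466 (both (five 1 463 467) (mv 465 (both (five 1 462 494) (mv 530 (both (five 0 495 531) (five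 7 433 562))))))) (mv 530 (both (five 0 495 531) (mv 494 (both (five 0 494 529) (mv 461 (both (five 3 461 462) (mv 493 (both (five 3 460 460) (five 0 492 492))))))))))))))) (mv 498 (both (five 2 495 499) (mv 526 (both (five 1 493 525) (five 1 494 529))))))))) (mv 498 (both (mv 499 (both (five 2 495 527) (mv 467 (both (five 1 464 468) (mv 466 (both (five 1 463 495) (mv 531 (both (five 0 496 532) (mv 434 (both (five 4 402 402) (five 7 434 563))))))))))) (both (mv 495 (both (mv 494 (both (mv 526 (both (five 2 493 525) (five 2 494 527))) (both (mv 461 (both (five 3 461 462) (mv 466 (both (five 1 463 467) (mv 493 (both (five 3 460 460) (mv 492 (both (five 0 492 527) (mv 524 (both (five 2 491 523) (five 2 492 525))))))))))) (both (mv 461 (both (five 3 461 462) (mv 493 (both (five 3 460 460) (mv 525 (both (five 2 492 524) (five 2 493 526))))))) (mv 461 (both (five 3 461 462) (mv 466 (both (five 1 463 467) (mv 493 (both (five 3 460 460) (mv 527 (both (five 0 492 492) (five 2 494 526))))))))))))) (both (mv 494 (both (mv 526 (both (five 2 493 525) (five 2 494 527))) (both (mv 401 (both (five 6 400 465) (mv 461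 (both (five 3 461 462) (mv 493 (both (five 3 460 460) (mv 492 (both (five 0 492 527) (mv 524 (both (five 2 491 523) (five 2 492 525))))))))))) (both (mv 461 (both (five 3 461 462) (mv 493 (both (five 3 460 460) (mv 525 (both (five 2 492 524) (five 2 493 526))))))) (mv 401 (both (five 6 400 465) (mv 461 (both (five 3 461 462) (mv 493 (both (five 3 460 460) (mv 527 (both (five 0 492 492) (five 2 494 526))))))))))))) (mv 401 (both (five 6 400 465) (mv 466 (both (five 1 463 467) (mv 530 (both (five 7 401 434) (five 0 495 531)))))))))) (both (mv 530 (both (mv 531 (both (five 0 495 495) (mv 532 (both (five 0 496 499) (five 3 497 533))))) (mv 465 (both (five 6 400 401) (mv 562 (both (five 7 433 466) (five 7 465 594))))))) (both (mv 401 (both (five 6 400 465) (mv 499 (both (five 2 495 527) (mv 468 (both (five 1 464 467) (mv 500 (both (five 1 465 469) (mv 532 (both (five 0 496 531) (five 0 497 533))))))))))) (mv 401 (both (five 6 400 465) (mv 499 (both (five 2 495 527) (mv 467 (both (five 1 464 468) (mv 466 (both (five 1 463 495) (mv 434 (both (five 7 401 530) (mv 369 (both (five 4 337 337) (five 7 369 402))))))))))))))))))))))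 (both (mv 560 (both (mv 592 (both (mv 623 (both (five 6 495 591) (mv 624 (both (five 6 527 655) (mv 625 (both (five 4 496 593) (five 4 528 657))))))) (both (mv 625 (both (five 4 496 593) (mv 624 (both (five 4 528 657) (mv 497 (both (five 5 496 529) (mv 527 (both (five 7 495 495) (mv 498 (both (five 2 495 499) (mv 525 (both (five 1 493 526) (mv 655 (both (five 6 527 623) (mv 656 (both (five 7 527 559) (five 6 559 687))))))))))))))))) (both (mv 625 (both (five 4 496 593) (mv 624 (both (five 4 528 657) (mv 497 (both (five 5 496 529) (mv 527 (both (five 7 495 495) (mv 498 (both (five 2 495 499) (mv 525 (both (five 1 493 526) (mv 559 (both (five 7 527 656) (mv 464 (both (five 6 431 432) (five 6 463 591))))))))))))))))) (both (mv 623 (both (five 6 495 591) (mv 624 (both (five 6 527 655) (mv 527 (both (five 7 495 495) (mv 529 (both (five 5 496 497) (mv 559 (both (five 7 527 656) (mv 530 (both (five 2 527 531) (five 2 526 558))))))))))))) (mv 591 (both (five 6 495 623) (mv 559 (both (five 6 463 464) (mv 593 (both (five 4 496 625) (mv 558 (both (five 0 557 557) (five 3 558 594)))))))))))))) (both (mv 592 (both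 (mv 623 (both (five 6 495 591) (mv 624 (both (five 6 527 655) (mv 625 (both (five 4 496 593) (five 4 528 657))))))) (both (mv 497 (both (five 5 464 465) (mv 624 (both (five 5 496 529) (mv 625 (both (five 4 496 593) (five 4 528 657))))))) (both (mv 497 (both (five 5 464 465) (mv 623 (both (five 6 495 591) (mv 624 (both (five 5 496 529) (five 6 527 655))))))) (mv 593 (both (five 4 496 625) (mv 594 (both (mv 559 (both (five 3 559 595) (mv 558 (both (five 0 557 557) (five 3 558 591))))) (both (mv 595 (both (five 3 559 559) (mv 564 (both (five 1 560 563) (mv 596 (both (five 1 561 565) (mv 628 (both (five 0 592 627) (five 0 593 629))))))))) (both (mv 591 (both (five 6 495 623) (mv 563 (both (five 1 559 562) (mv 595 (both (five 1 560 564) (mv 627 (both (five 0 591 626) (five 0 592 628))))))))) (mv 497 (both (five 5 464 465) (mv 591 (both (five 6 495 623) (mv 558 (both (five 3 558 559) (mv 557 (both (five 3 557 590) (mv 562 (both (five 1 559 563) (mv 626 (both (five 0 591 627) (mv 530 (both (five 7 497 529) (mv 499 (both (five 5 498 531) (mv 498 (both (five 5 466 467) (five 2 495 527)))))))))))))))))))))))))))))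 (both (mv 464 (both (five 5 432 465) (mv 559 (both (five 6 463 591) (mv 558 (both (mv 529 (both (five 1 525 557) (mv 530 (both (five 2 526 527) (five 2 527 531))))) (both (mv 557 (both (five 1 525 529) (mv 524 (both (five 3 524 525) (mv 556 (both (five 3 523 523) (mv 588 (both (five 2 555 587) (five 2 556 589))))))))) (both (mv 527 (both (five 6 431 432) (mv 526 (both (mv 525 (both (five 1 493 497) (five 0 524 524))) (both (mv 529 (both (five 2 526 530) (mv 494 (both (five 3 493 493) (mv 462 (both (five 4 430 430) (mv 461 (both (five 7 429 429) (mv 497 (both (five 3 461 495) (five 1 494 498))))))))))) (mv 525 (both (five 0 524 524) (mv 493 (both (five 3 492 492) (mv 529 (both (five 3 493 494) (five 2 526 530)))))))))))) (mv 527 (both (five 6 431 432) (mv 557 (both (five 1 524 556) (mv 525 (both (five 3 524 524) (mv 526 (both (five 1 493 497) (mv 492 (both (five 3 492 493) (mv 589 (both (five 2 556 588) (mv 494 (both (five 6 461 462) (five 5 493 621))))))))))))))))))))))) (both (mv 592 (both (mv 623 (both (five 6 495 591) (mv 624 (both (five 6 527 655) (mv 625 (both (five 4 496 593) (five 4 528 657)))))))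 (both (mv 464 (both (five 5 432 465) (mv 625 (both (five 4 496 593) (mv 624 (both (five 4 528 657) (mv 527 (both (five 7 495 495) (mv 559 (both (five 6 431 432) (five 7 527 656))))))))))) (mv 464 (both (five 5 432 465) (mv 591 (both (five 6 463 559) (five 6 495 623)))))))) (mv 465 (both (five 5 432 464) (mv 497 (both (five 6 432 529) (five 5 464 592)))))))))) (both (mv 432 (both (mv 434 (both (mv 435 (both (mv 404 (both (five 1 400 403) (mv 436 (both (five 1 401 405) (mv 468 (both (five 0 432 467) (five 0 433 469))))))) (both (mv 399 (both (five 3 399 400) (mv 431 (both (five 3 398 398) (mv 467 (both (five 0 431 466) (five 0 432 468))))))) (mv 399 (both (five 3 399 400) (mv 403 (both (five 1 400 404) (mv 431 (both (five 3 398 398) (five 1 399 402)))))))))) (both (mv 466 (both (mv 431 (both (five 0 431 467) (mv 398 (both (five 3 398 399) (mv 402 (both (five 1 399 403) (mv 430 (both (five 3 397 397) (five 1 398 401))))))))) (both (mv 498 (both (mv 401 (both (five 7 401 530) (mv 369 (both (five 4 337 337) (five 7 369 402))))) (both (mv 497 (both (mv 467 (both (five 1 463 495) (mv 468 (both (five 2 465 469)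 (five 1 464 499))))) (both (mv 495 (both (five 1 463 467) (mv 526 (both (five 2 494 527) (mv 494 (both (five 2 493 525) (mv 530 (both (five 0 494 529) (five 0 495 531))))))))) (mv 402 (both (five 6 401 529) (mv 499 (both (five 2 495 527) (five 4 402 531)))))))) (both (mv 402 (both (mv 369 (both (five 7 369 401) (mv 370 (both (five 7 337 337) (mv 371 (both (five 5 338 339) (five 5 370 403))))))) (mv 497 (both (five 6 401 529) (mv 499 (both (five 2 495 527) (five 4 402 531))))))) (mv 530 (both (five 7 401 401) (mv 531 (both (five 4 434 563) (mv 495 (both (five 0 495 497) (five 3 495 529))))))))))) (both (mv 402 (both (mv 403 (both (five 1 399 431) (mv 404 (both (five 2 400 401) (five 2 401 405))))) (both (mv 498 (both (mv 497 (both (five 6 401 529) (mv 499 (both (five 2 495 527) (five 4 402 531))))) (mv 401 (both (five 7 369 369) (five 7 401 530))))) (mv 403 (both (five 1 399 431) (mv 371 (both (five 5 370 498) (mv 339 (both (five 6 306 307) (five 5 338 370)))))))))) (both (mv 498 (both (mv 530 (both (five 7 401 401) (mv 531 (both (five 4 434 563) (mv 495 (both (five 0 495 497) (five 3 495 529))))))) (both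 (mv 467 (both (five 0 431 431) (mv 468 (both (five 3 433 469) (mv 497 (both (five 1 463 495) (five 1 464 499))))))) (mv 401 (both (five 7 401 530) (mv 337 (both (five 4 337 369) (mv 431 (both (five 0 431 467) (mv 398 (both (five 3 398 399) (mv 430 (both (five 3 397 397) (mv 429 (both (five 1 397 400) (mv 461 (both (five 2 428 460) (five 2 429 462)))))))))))))))))) (mv 402 (both (mv 403 (both (five 1 399 431) (mv 371 (both (five 5 370 498) (mv 339 (both (five 6 306 307) (five 5 338 370))))))) (both (mv 370 (both (mv 337 (both (five 7 337 369) (mv 338 (both (five 7 305 305) (mv 339 (both (five 5 306 307) (five 5 338 371))))))) (mv 499 (both (five 4 370 467) (mv 498 (both (five 4 402 531) (mv 497 (both (five 2 495 527) (five 6 401 529))))))))) (mv 431 (both (five 1 399 403) (five 0 431 467))))))))))) (both (mv 435 (both (mv 404 (both (five 1 400 403) (mv 436 (both (five 1 401 405) (mv 468 (both (five 0 432 467) (five 0 433 469))))))) (both (mv 400 (both (five 3 399 399) (mv 436 (both (five 3 400 401) (mv 468 (both (five 0 432 467) (five 0 433 469))))))) (both (mv 400 (both (five 3 399 399) (mv 404 (both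 (five 1 400 403) (mv 436 (both (five 3 400 401) (five 1 401 405))))))) (mv 403 (both (five 1 400 404) (mv 466 (both (mv 371 (both (five 6 338 339) (mv 498 (both (five 5 370 402) (five 5 402 530))))) (both (mv 371 (both (five 6 338 339) (mv 399 (both (five 3 399 400) (mv 467 (both (five 0 432 468) (mv 340 (both (five 5 339 372) (mv 370 (both (five 7 338 338) (mv 499 (both (five 7 370 402) (mv 500 (both (five 4 403 532) (mv 501 (both (five 3 466 502) (mv 531 (both (five 7 434 563) (mv 530 (both (five 1 496 529) (five 6 434 562))))))))))))))))))))) (both (mv 467 (both (five 0 432 468) (mv 498 (both (five 5 402 530) (mv 497 (both (five 1 463 495) (mv 402 (both (five 6 401 529) (mv 499 (both (five 2 495 527) (five 4 402 531))))))))))) (mv 371 (both (five 6 338 339) (mv 467 (both (five 0 432 468) (five 6 370 498))))))))))))))) (both (mv 435 (both (mv 399 (both (five 3 399 400) (mv 431 (both (five 3 398 398) (mv 467 (both (five 0 431 466) (five 0 432 468))))))) (both (mv 400 (both (five 3 399 399) (mv 436 (both (five 3 400 401) (mv 405 (both (five 1 401 404) (mv 437 (both (five 1 402 406) (mv 469 (both (five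 0 433 468) (five 0 434 470))))))))))) (both (mv 467 (both (five 0 432 468) (mv 466 (both (five 0 431 431) (mv 498 (both (mv 401 (both (five 7 401 530) (mv 369 (both (five 4 337 337) (five 7 369 402))))) (both (mv 497 (both (five 1 463 495) (mv 402 (both (five 6 401 529) (mv 499 (both (five 2 495 527) (five 4 402 531))))))) (mv 530 (both (five 7 401 401) (mv 531 (both (five 4 434 563) (mv 495 (both (five 0 495 497) (five 3 495 529)))))))))))))) (mv 400 (both (five 3 399 399) (mv 401 (both (five 3 400 436) (mv 466 (both (mv 431 (both (five 0 431 467) (mv 430 (both (five 1 398 402) (five 1 397 429))))) (both (mv 369 (both (five 4 337 337) (mv 498 (both (five 7 369 402) (five 7 401 530))))) (mv 337 (both (five 4 337 369) (mv 467 (both (five 0 431 431) (mv 498 (both (five 7 401 530) (mv 497 (both (five 1 463 495) (mv 499 (both (five 2 495 527) (mv 531 (both (five 0 496 532) (five 7 434 563)))))))))))))))))))))))) (both (mv 435 (both (mv 404 (both (five 1 400 403) (mv 436 (both (five 1 401 405) (mv 468 (both (five 0 432 467) (five 0 433 469))))))) (both (mv 400 (both (five 3 399 399) (mv 404 (both (five 1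 400 403) (mv 436 (both (five 3 400 401) (five 1 401 405))))))) (mv 399 (both (five 3 399 400) (mv 431 (both (five 3 398 398) (mv 467 (both (five 0 431 466) (five 0 432 468)))))))))) (both (mv 435 (both (mv 399 (both (five 3 399 400) (mv 403 (both (five 1 400 404) (mv 431 (both (five 3 398 398) (five 1 399 402))))))) (both (mv 400 (both (five 3 399 399) (mv 436 (both (five 3 400 401) (mv 405 (both (five 1 401 404) (mv 437 (both (five 1 402 406) (mv 469 (both (five 0 433 468) (five 0 434 470))))))))))) (both (mv 436 (both (mv 405 (both (five 1 401 404) (mv 437 (both (five 1 402 406) (mv 469 (both (five 0 433 468) (five 0 434 470))))))) (both (mv 469 (both (five 0 433 468) (mv 437 (both (five 0 434 470) (mv 402 (both (five 3 401 401) (mv 403 (both (five 1 399 431) (five 3 402 438))))))))) (mv 404 (both (five 1 400 403) (five 1 401 405)))))) (mv 431 (both (mv 398 (both (five 3 398 399) (mv 402 (both (five 1 399 403) (mv 430 (both (five 3 397 397) (five 1 398 401))))))) (both (mv 402 (both (five 1 399 403) (mv 401 (both (five 1 398 430) (mv 436 (both (five 3 400 400) (five 3 401 437))))))) (mv 399 (both (five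 3 398 398) (five 3 399 400)))))))))) (both (mv 467 (both (mv 466 (both (five 0 431 431) (mv 498 (both (mv 401 (both (five 7 401 530) (mv 369 (both (five 4 337 337) (five 7 369 402))))) (both (mv 497 (both (five 1 463 495) (mv 402 (both (five 6 401 529) (mv 499 (both (five 2 495 527) (five 4 402 531))))))) (mv 530 (both (five 7 401 401) (mv 531 (both (five 4 434 563) (mv 495 (both (five 0 495 497) (five 3 495 529)))))))))))) (both (mv 435 (both (five 0 432 468) (mv 403 (both (five 1 400 404) (mv 402 (both (five 1 399 431) (mv 370 (both (five 4 338 338) (five 7 370 499))))))))) (both (mv 435 (both (five 0 432 468) (mv 499 (both (mv 402 (both (five 7 402 531) (mv 370 (both (five 4 338 338) (five 4 370 466))))) (both (mv 403 (both (five 1 400 404) (mv 498 (both (five 6 402 530) (mv 371 (both (five 6 370 466) (mv 338 (both (five 7 338 370) (mv 306 (both (five 7 306 339) (mv 340 (both (five 5 339 372) (mv 497 (both (five 2 495 527) (mv 500 (both (five 2 496 529) (five 4 403 532))))))))))))))))) (mv 402 (both (five 7 402 531) (mv 403 (both (five 1 400 404) (mv 498 (both (five 6 402 530) (mv 497 (both (five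 2 495 527) (mv 500 (both (five 2 496 529) (five 4 403 532)))))))))))))))) (mv 435 (both (five 0 432 468) (mv 403 (both (five 1 400 404) (mv 466 (both (five 0 431 431) (mv 371 (both (five 6 338 339) (five 6 370 498))))))))))))) (both (mv 431 (both (mv 399 (both (five 3 398 398) (mv 435 (both (five 3 399 400) (mv 467 (both (five 0 431 466) (five 0 432 468))))))) (both (mv 402 (both (five 1 399 403) (mv 401 (both (five 1 398 430) (mv 466 (both (five 0 431 467) (mv 369 (both (five 4 337 337) (five 7 369 498))))))))) (mv 398 (both (five 3 398 399) (mv 402 (both (five 1 399 403) (mv 430 (both (five 3 397 397) (five 1 398 401)))))))))) (mv 431 (both (mv 399 (both (five 3 398 398) (mv 403 (both (five 1 399 402) (mv 435 (both (five 3 399 400) (five 1 400 404))))))) (both (mv 430 (both (mv 397 (both (five 3 397 398) (mv 429 (both (five 3 396 396) (mv 461 (both (five 2 428 460) (five 2 429 462))))))) (both (mv 461 (both (five 2 429 462) (mv 429 (both (five 2 428 460) (mv 396 (both (five 3 396 397) (mv 400 (both (five 1 397 401) (mv 399 (both (five 1 396 428) (five 3 399 435))))))))))) (both (mv 399 (both (five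 3 398 398) (mv 400 (both (five 3 399 435) (mv 429 (both (five 1 397 401) (five 1 396 428))))))) (mv 398 (both (five 3 397 397) (five 3 398 399))))))) (mv 402 (both (five 1 399 403) (mv 401 (both (five 1 398 430) (mv 466 (both (five 0 431 467) (mv 369 (both (five 4 337 337) (five 7 369 498))))))))))))))))))))) (both (mv 434 (both (mv 431 (both (mv 399 (both (five 3 398 398) (five 7 399 464))) (both (mv 529 (both (mv 527 (both (mv 526 (both (mv 493 (both (five 3 493 494) (mv 525 (both (five 3 492 492) (mv 557 (both (five 2 524 556) (five 2 525 558))))))) (mv 498 (both (five 1 494 497) (mv 530 (both (five 1 495 499) (mv 531 (both (five 3 495 495) (mv 563 (both (five 0 527 562) (five 0 528 564))))))))))) (both (mv 464 (both (five 6 431 559) (mv 497 (both (five 4 400 400) (mv 498 (both (five 2 495 499) (five 1 494 526))))))) (mv 464 (both (five 6 431 559) (mv 495 (both (five 6 399 400) (mv 530 (both (five 3 494 494) (five 3 495 531)))))))))) (both (mv 402 (both (five 1 399 403) (mv 466 (both (five 0 431 467) (mv 498 (both (five 6 401 497) (mv 531 (both (five 4 402 499) (mv 530 (both (five 3 495 495) (five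 4 434 563))))))))))) (both (mv 430 (both (mv 397 (both (five 3 397 398) (mv 429 (both (five 3 396 396) (mv 461 (both (five 2 428 460) (five 2 429 462))))))) (both (mv 397 (both (five 3 397 398) (mv 402 (both (five 1 399 403) (mv 429 (both (five 3 396 396) (mv 466 (both (five 0 431 467) (mv 497 (both (five 6 401 498) (mv 464 (both (five 4 400 400) (mv 527 (both (five 6 431 559) (mv 526 (both (five 1 493 525) (mv 494 (both (five 7 397 462) (five 3 493 493))))))))))))))))))) (both (mv 494 (both (mv 402 (both (five 1 399 403) (mv 462 (both (five 2 429 461) (mv 466 (both (five 0 431 467) (mv 497 (both (five 6 401 498) (mv 464 (both (five 4 400 400) (mv 559 (both (five 6 431 527) (mv 591 (both (five 6 463 560) (mv 526 (both (five 4 462 558) (mv 525 (both (five 2 493 495) (five 6 429 557))))))))))))))))))) (both (mv 402 (both (five 1 399 403) (mv 466 (both (five 0 431 467) (mv 497 (both (five 6 401 498) (mv 464 (both (five 4 400 400) (mv 527 (both (five 6 431 559) (mv 526 (both (five 3 493 493) (five 1 493 525))))))))))))) (both (mv 461 (both (five 2 429 462) (mv 429 (both (five 2 428 460) (mv 493 (both (five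 0 493 495) (mv 525 (both (five 5 397 398) (mv 556 (both (five 6 428 524) (mv 557 (both (five 6 460 588) (mv 558 (both (five 4 429 526) (five 4 461 590))))))))))))))) (both (mv 402 (both (five 1 399 403) (mv 461 (both (five 2 429 462) (mv 429 (both (five 2 428 460) (mv 466 (both (five 0 431 467) (mv 493 (both (five 0 493 495) (mv 497 (both (five 6 401 498) (mv 525 (both (five 5 397 398) (mv 556 (both (five 6 428 524) (mv 557 (both (five 6 460 588) (mv 558 (both (five 4 461 590) (mv 559 (both (five 1 524 527) (five 1 525 560))))))))))))))))))))))) (mv 402 (both (five 1 399 403) (mv 461 (both (five 2 429 462) (mv 429 (both (five 2 428 460) (mv 466 (both (five 0 431 467) (mv 493 (both (five 0 493 495) (mv 497 (both (five 6 401 498) (mv 464 (both (five 4 400 400) (mv 527 (both (five 3 493 526) (five 6 431 559)))))))))))))))))))))) (both (mv 402 (both (five 1 399 403) (mv 429 (both (mv 460 (both (five 2 428 461) (mv 428 (both (five 2 427 459) (mv 396 (both (five 3 395 395) (mv 466 (both (five 0 431 467) (mv 497 (both (five 6 401 498) (mv 464 (both (five 4 400 400) (mv 527 (both (five 6 431 559) (mv 525 (both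 (five 1 493 526) (mv 492 (both (five 4 396 493) (mv 523 (both (five 6 395 491) (mv 524 (both (five 6 427 555) (five 4 428 557))))))))))))))))))))))) (both (mv 398 (both (five 3 397 397) (mv 461 (both (five 2 428 460) (mv 334 (both (five 6 333 366) (mv 466 (both (five 0 431 467) (mv 493 (both (five 5 397 525) (mv 494 (both (five 0 493 495) (mv 497 (both (five 6 401 498) (mv 464 (both (five 4 400 400) (mv 527 (both (five 3 493 526) (five 6 431 559))))))))))))))))))) (mv 397 (both (five 3 396 396) (five 3 397 398)))))))) (both (mv 402 (both (five 1 399 403) (mv 461 (both (five 2 429 462) (mv 429 (both (five 2 428 460) (mv 396 (both (five 3 396 397) (mv 428 (both (five 3 395 395) (mv 332 (both (five 4 332 364) (mv 466 (both (five 0 431 467) (mv 493 (both (five 7 396 525) (mv 494 (both (five 0 493 495) (mv 497 (both (five 6 401 498) (mv 464 (both (five 4 400 400) (mv 527 (both (five 3 493 526) (five 6 431 559))))))))))))))))))))))))) (mv 398 (both (five 3 397 397) (mv 402 (both (five 1 399 403) (mv 462 (both (five 2 429 461) (mv 466 (both (five 0 431 467) (mv 497 (both (five 6 401 498) (mv 464 (both (five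 4 400 400) (mv 527 (both (five 6 431 559) (mv 494 (both (five 4 398 495) (mv 526 (both (five 3 493 493) (five 1 493 525))))))))))))))))))))))))) (both (mv 402 (both (five 1 399 403) (mv 466 (both (five 0 431 467) (mv 498 (both (five 6 401 497) (mv 531 (both (five 4 402 499) (mv 530 (both (five 4 434 563) (mv 559 (both (five 2 527 560) (mv 527 (both (five 6 431 464) (five 2 526 558))))))))))))))) (both (mv 527 (both (mv 464 (both (five 6 431 559) (mv 495 (both (five 6 399 400) (mv 530 (both (five 3 494 494) (five 3 495 531))))))) (both (mv 526 (both (mv 493 (both (five 3 493 494) (mv 525 (both (five 3 492 492) (mv 557 (both (five 2 524 556) (five 2 525 558))))))) (both (mv 402 (both (five 1 399 403) (mv 466 (both (five 0 431 467) (mv 557 (both (five 2 525 558) (mv 525 (both (five 2 524 556) (mv 492 (both (five 3 492 493) (mv 524 (both (five 3 491 491) (five 1 492 495))))))))))))) (both (mv 402 (both (five 1 399 403) (mv 466 (both (five 0 431 467) (mv 557 (both (five 2 525 558) (mv 525 (both (five 2 524 556) (mv 495 (both (five 1 492 524) (mv 530 (both (five 3 494 494) (five 3 495 531))))))))))))) (mv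 402 (both (five 1 399 403) (mv 466 (both (five 0 431 467) (mv 494 (both (five 3 493 493) (mv 530 (both (five 3 494 495) (mv 498 (both (five 1 495 499) (mv 563 (both (five 4 434 531) (five 0 527 562))))))))))))))))) (both (mv 526 (both (mv 493 (both (five 3 493 494) (mv 525 (both (five 3 492 492) (mv 557 (both (five 2 524 556) (five 2 525 558))))))) (both (mv 402 (both (five 1 399 403) (mv 464 (both (five 6 431 559) (mv 466 (both (five 0 431 467) (mv 495 (both (five 6 399 400) (mv 525 (both (five 1 492 524) (mv 557 (both (five 2 524 556) (five 2 525 558))))))))))))) (both (mv 402 (both (five 1 399 403) (mv 464 (both (five 6 431 559) (mv 466 (both (five 0 431 467) (mv 493 (both (five 3 493 494) (mv 495 (both (five 6 399 400) (mv 525 (both (five 3 492 492) (five 1 492 524))))))))))))) (mv 402 (both (five 1 399 403) (mv 466 (both (five 0 431 467) (mv 494 (both (five 3 493 493) (mv 557 (both (five 2 525 558) (mv 559 (both (five 6 431 464) (mv 462 (both (five 4 430 430) (mv 591 (both (five 7 462 495) (five 7 494 623))))))))))))))))))) (mv 402 (both (five 1 399 403) (mv 466 (both (five 0 431 467) (mv 559 (both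 (five 6 431 464) (mv 530 (both (five 2 526 558) (mv 498 (both (five 1 495 499) (mv 563 (both (five 4 434 531) (five 0 527 562))))))))))))))))) (mv 527 (both (mv 464 (both (five 6 431 559) (mv 400 (both (five 6 399 495) (five 4 400 497))))) (both (mv 526 (both (mv 402 (both (five 1 399 403) (mv 466 (both (five 0 431 467) (mv 494 (both (five 3 493 493) (mv 530 (both (five 3 494 495) (mv 557 (both (five 2 525 558) (mv 563 (both (five 0 527 562) (mv 531 (both (five 0 528 564) (mv 500 (both (five 1 496 499) (mv 532 (both (five 3 496 497) (five 1 497 501))))))))))))))))))) (both (mv 557 (both (five 2 525 558) (mv 525 (both (five 2 524 556) (mv 492 (both (five 3 492 493) (mv 524 (both (five 3 491 491) (five 1 492 495))))))))) (both (mv 557 (both (five 2 525 558) (mv 525 (both (five 2 524 556) (mv 495 (both (five 1 492 524) (mv 530 (both (five 3 494 494) (five 3 495 531))))))))) (mv 402 (both (five 1 399 403) (mv 466 (both (five 0 431 467) (mv 493 (both (five 3 493 494) (mv 525 (both (five 3 492 492) (five 1 493 497))))))))))))) (both (mv 402 (both (five 1 399 403) (mv 466 (both (five 0 431 467) (mv 559 (both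 (five 6 431 464) (mv 530 (both (five 2 526 558) (mv 563 (both (five 0 527 562) (mv 531 (both (five 0 528 564) (mv 500 (both (five 1 496 499) (mv 532 (both (five 3 496 497) (five 1 497 501))))))))))))))))) (mv 464 (both (five 6 431 559) (mv 495 (both (five 6 399 400) (mv 530 (both (five 3 494 494) (five 3 495 531))))))))))))))))) (both (mv 430 (both (mv 398 (both (five 3 397 397) (five 3 398 399))) (both (mv 461 (both (five 2 429 462) (mv 529 (both (mv 402 (both (five 1 399 403) (mv 466 (both (five 0 431 467) (mv 498 (both (five 6 401 497) (mv 531 (both (five 4 402 499) (mv 530 (both (five 3 495 495) (five 4 434 563))))))))))) (both (mv 429 (both (five 2 428 460) (mv 493 (both (mv 396 (both (five 3 396 397) (mv 428 (both (five 3 395 395) (five 7 396 525))))) (both (mv 494 (both (five 0 493 495) (mv 526 (both (five 4 397 397) (five 3 493 527))))) (mv 494 (both (five 0 493 495) (mv 526 (both (five 3 493 527) (mv 558 (both (five 4 429 525) (five 7 461 590)))))))))))) (mv 527 (both (mv 402 (both (five 1 399 403) (mv 466 (both (five 0 431 467) (mv 497 (both (five 6 401 498) (mv 526 (both (five 1 493 525) (mv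 558 (both (five 2 525 557) (mv 530 (both (five 2 526 559) (mv 531 (both (five 3 496 532) (mv 563 (both (five 0 527 562) (five 0 528 564))))))))))))))))) (both (mv 402 (both (five 1 399 403) (mv 429 (both (five 2 428 460) (mv 396 (both (five 3 396 397) (mv 395 (both (five 3 395 428) (mv 466 (both (five 0 431 467) (mv 498 (both (five 6 401 497) (mv 499 (both (five 1 495 530) (five 4 402 531))))))))))))))) (both (mv 429 (both (five 2 428 460) (mv 396 (both (five 3 396 397) (mv 428 (both (five 3 395 395) (mv 332 (both (five 4 332 364) (mv 399 (both (five 1 396 400) (mv 493 (both (five 7 396 525) (mv 526 (both (five 3 493 494) (mv 497 (both (five 1 494 498) (mv 558 (both (five 2 525 557) (mv 530 (both (five 2 526 559) (mv 531 (both (five 3 496 532) (mv 563 (both (five 0 527 562) (five 0 528 564))))))))))))))))))))))))) (both (mv 402 (both (five 1 399 403) (mv 429 (both (five 2 428 460) (mv 396 (both (five 3 396 397) (mv 428 (both (five 3 395 395) (mv 466 (both (five 0 431 467) (mv 493 (both (five 7 396 525) (mv 526 (both (five 3 493 494) (mv 558 (both (five 2 525 557) (mv 530 (both (five 2 526 559) (mv 498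 (both (five 1 495 499) (mv 563 (both (five 4 434 531) (five 0 527 562))))))))))))))))))))))) (mv 402 (both (five 1 399 403) (mv 429 (both (five 2 428 460) (mv 396 (both (five 3 396 397) (mv 428 (both (five 3 395 395) (mv 332 (both (five 4 332 364) (mv 399 (both (five 1 396 400) (mv 466 (both (five 0 431 467) (mv 525 (both (five 7 396 493) (mv 526 (both (five 1 493 497) (mv 557 (both (five 2 524 556) (five 2 525 558))))))))))))))))))))))))))))))) (both (mv 529 (both (mv 402 (both (five 1 399 403) (mv 466 (both (five 0 431 467) (mv 498 (both (five 6 401 497) (mv 531 (both (five 4 402 499) (mv 530 (both (five 3 495 495) (five 4 434 563))))))))))) (both (mv 399 (both (five 3 398 398) (mv 462 (both (five 2 429 461) (mv 335 (both (five 6 334 367) (mv 494 (both (five 5 398 526) (mv 495 (both (five 0 493 493) (mv 530 (both (five 0 494 497) (five 3 494 527))))))))))))) (both (mv 462 (both (five 2 429 461) (mv 494 (both (mv 399 (both (five 3 398 398) (five 5 398 526))) (both (mv 402 (both (five 1 399 403) (mv 466 (both (five 0 431 467) (mv 493 (both (five 0 493 495) (mv 497 (both (five 6 401 498) (mv 525 (both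 (five 6 397 398) (mv 526 (both (five 1 493 527) (five 6 429 557))))))))))))) (both (mv 398 (both (five 3 398 399) (mv 493 (both (five 0 493 495) (five 6 397 525))))) (mv 402 (both (five 1 399 403) (mv 466 (both (five 0 431 467) (mv 493 (both (five 0 493 495) (mv 526 (both (five 5 398 399) (five 3 493 527))))))))))))))) (both (mv 399 (both (five 3 398 398) (mv 402 (both (five 1 399 403) (mv 462 (both (five 2 429 461) (mv 466 (both (five 0 431 467) (mv 497 (both (five 6 401 498) (mv 526 (both (five 5 398 494) (mv 527 (both (five 1 493 525) (mv 558 (both (five 2 525 557) (mv 530 (both (five 2 526 559) (mv 531 (both (five 3 496 532) (mv 563 (both (five 0 527 562) (five 0 528 564))))))))))))))))))))))) (mv 399 (both (five 3 398 398) (mv 402 (both (five 1 399 403) (mv 462 (both (five 2 429 461) (mv 335 (both (five 6 334 367) (mv 466 (both (five 0 431 467) (mv 494 (both (five 5 398 526) (mv 495 (both (five 0 493 493) (mv 530 (both (five 3 494 527) (five 3 495 531)))))))))))))))))))))) (mv 397 (both (five 3 397 398) (mv 429 (both (five 3 396 396) (mv 461 (both (five 2 428 460) (five 2 429 462))))))))))) (mv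 529 (both (mv 402 (both (five 1 399 403) (mv 466 (both (five 0 431 467) (mv 498 (both (five 6 401 497) (mv 531 (both (five 4 402 499) (mv 530 (both (five 3 495 495) (five 4 434 563))))))))))) (both (mv 527 (both (mv 526 (both (mv 493 (both (five 3 493 494) (mv 525 (both (five 3 492 492) (mv 557 (both (five 2 524 556) (five 2 525 558))))))) (mv 498 (both (five 1 494 497) (mv 530 (both (five 1 495 499) (mv 531 (both (five 3 495 495) (mv 563 (both (five 0 527 562) (five 0 528 564))))))))))) (both (mv 464 (both (five 6 431 559) (mv 497 (both (five 4 400 400) (mv 498 (both (five 2 495 499) (five 1 494 526))))))) (mv 464 (both (five 6 431 559) (mv 495 (both (five 6 399 400) (mv 530 (both (five 3 494 494) (five 3 495 531)))))))))) (both (mv 402 (both (five 1 399 403) (mv 464 (both (five 7 399 399) (mv 400 (both (five 4 400 497) (mv 527 (both (five 6 399 495) (five 6 431 559))))))))) (both (mv 402 (both (five 1 399 403) (mv 466 (both (five 0 431 467) (mv 498 (both (five 6 401 497) (mv 531 (both (five 4 402 499) (mv 530 (both (five 4 434 563) (mv 559 (both (five 2 527 560) (mv 527 (both (five 6 431 464) (five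 2 526 558))))))))))))))) (mv 527 (both (mv 464 (both (five 6 431 559) (mv 495 (both (five 6 399 400) (mv 530 (both (five 3 494 494) (five 3 495 531))))))) (both (mv 526 (both (mv 493 (both (five 3 493 494) (mv 525 (both (five 3 492 492) (mv 557 (both (five 2 524 556) (five 2 525 558))))))) (both (mv 402 (both (five 1 399 403) (mv 466 (both (five 0 431 467) (mv 557 (both (five 2 525 558) (mv 525 (both (five 2 524 556) (mv 492 (both (five 3 492 493) (mv 524 (both (five 3 491 491) (five 1 492 495))))))))))))) (both (mv 402 (both (five 1 399 403) (mv 466 (both (five 0 431 467) (mv 557 (both (five 2 525 558) (mv 525 (both (five 2 524 556) (mv 495 (both (five 1 492 524) (mv 530 (both (five 3 494 494) (five 3 495 531))))))))))))) (mv 402 (both (five 1 399 403) (mv 466 (both (five 0 431 467) (mv 494 (both (five 3 493 493) (mv 530 (both (five 3 494 495) (mv 498 (both (five 1 495 499) (mv 563 (both (five 4 434 531) (five 0 527 562))))))))))))))))) (both (mv 526 (both (mv 493 (both (five 3 493 494) (mv 525 (both (five 3 492 492) (mv 557 (both (five 2 524 556) (five 2 525 558))))))) (both (mv 402 (both (five 1 399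 403) (mv 464 (both (five 6 431 559) (mv 466 (both (five 0 431 467) (mv 495 (both (five 6 399 400) (mv 525 (both (five 1 492 524) (mv 557 (both (five 2 524 556) (five 2 525 558))))))))))))) (both (mv 402 (both (five 1 399 403) (mv 464 (both (five 6 431 559) (mv 466 (both (five 0 431 467) (mv 493 (both (five 3 493 494) (mv 495 (both (five 6 399 400) (mv 525 (both (five 3 492 492) (five 1 492 524))))))))))))) (mv 402 (both (five 1 399 403) (mv 466 (both (five 0 431 467) (mv 494 (both (five 3 493 493) (mv 557 (both (five 2 525 558) (mv 559 (both (five 6 431 464) (mv 462 (both (five 4 430 430) (mv 591 (both (five 7 462 495) (five 7 494 623))))))))))))))))))) (mv 402 (both (five 1 399 403) (mv 466 (both (five 0 431 467) (mv 559 (both (five 6 431 464) (mv 530 (both (five 2 526 558) (mv 498 (both (five 1 495 499) (mv 563 (both (five 4 434 531) (five 0 527 562)))))))))))))))))))))))))) (both (mv 435 (both (mv 404 (both (five 1 400 403) (mv 436 (both (five 1 401 405) (mv 468 (both (five 0 432 467) (five 0 433 469))))))) (both (mv 527 (both (mv 400 (both (five 3 399 399) (mv 464 (both (five 6 399 495) (five 6 431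 559))))) (both (mv 498 (both (mv 497 (both (five 2 495 499) (mv 526 (both (five 2 494 495) (five 1 493 525))))) (mv 403 (both (five 1 400 404) (mv 466 (both (five 5 402 530) (mv 371 (both (five 6 338 339) (five 5 370 402))))))))) (mv 400 (both (five 3 399 399) (mv 403 (both (five 1 400 404) (mv 464 (both (five 6 431 559) (mv 497 (both (five 4 400 529) (mv 498 (both (five 2 495 499) (mv 466 (both (five 5 402 530) (mv 371 (both (five 6 338 339) (five 5 370 402)))))))))))))))))) (both (mv 527 (both (mv 400 (both (five 3 399 399) (mv 464 (both (five 6 399 495) (five 6 431 559))))) (both (mv 467 (both (five 0 432 468) (mv 499 (both (mv 402 (both (five 7 402 531) (mv 370 (both (five 4 338 338) (five 4 370 466))))) (both (mv 498 (both (five 2 495 497) (mv 530 (both (five 1 495 529) (mv 562 (both (five 5 434 466) (five 5 466 594))))))) (mv 531 (both (five 7 402 402) (mv 404 (both (five 5 403 436) (mv 530 (both (five 6 434 562) (mv 529 (both (five 3 495 495) (five 1 496 500)))))))))))))) (mv 400 (both (five 3 399 399) (mv 464 (both (five 6 431 559) (mv 467 (both (five 0 432 468) (mv 497 (both (five 4 400 529)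 (mv 499 (both (five 2 495 498) (mv 402 (both (five 7 402 531) (mv 370 (both (five 4 338 338) (five 4 370 466)))))))))))))))))) (mv 527 (both (mv 400 (both (five 3 399 399) (mv 464 (both (five 6 399 495) (five 6 431 559))))) (mv 499 (both (mv 467 (both (five 0 432 468) (mv 402 (both (five 7 402 531) (mv 370 (both (five 4 338 338) (five 7 370 403))))))) (both (mv 498 (both (five 2 495 497) (mv 530 (both (five 1 495 529) (mv 466 (both (five 5 402 403) (mv 531 (both (five 4 402 402) (five 4 434 563))))))))) (mv 467 (both (five 0 432 468) (mv 498 (both (five 2 495 497) (mv 530 (both (five 1 495 529) (mv 562 (both (five 5 434 466) (five 5 466 594)))))))))))))))))) (both (mv 527 (both (mv 435 (both (mv 404 (both (five 1 400 403) (mv 436 (both (five 1 401 405) (mv 468 (both (five 0 432 467) (five 0 433 469))))))) (both (mv 498 (both (mv 497 (both (five 2 495 499) (mv 526 (both (five 2 494 495) (five 1 493 525))))) (mv 403 (both (five 1 400 404) (mv 466 (both (five 5 402 530) (mv 371 (both (five 6 338 339) (five 5 370 402))))))))) (both (mv 467 (both (five 0 432 468) (mv 499 (both (mv 402 (both (five 7 402 531)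 (mv 370 (both (five 4 338 338) (five 4 370 466))))) (both (mv 498 (both (five 2 495 497) (mv 530 (both (five 1 495 529) (mv 562 (both (five 5 434 466) (five 5 466 594))))))) (mv 531 (both (five 7 402 402) (mv 404 (both (five 5 403 436) (mv 530 (both (five 6 434 562) (mv 529 (both (five 3 495 495) (five 1 496 500)))))))))))))) (mv 499 (both (mv 467 (both (five 0 432 468) (mv 402 (both (five 7 402 531) (mv 370 (both (five 4 338 338) (five 7 370 403))))))) (both (mv 498 (both (five 2 495 497) (mv 530 (both (five 1 495 529) (mv 466 (both (five 5 402 403) (mv 531 (both (five 4 402 402) (five 4 434 563))))))))) (mv 467 (both (five 0 432 468) (mv 498 (both (five 2 495 497) (mv 530 (both (five 1 495 529) (mv 562 (both (five 5 434 466) (five 5 466 594)))))))))))))))) (both (mv 435 (both (mv 404 (both (five 1 400 403) (mv 436 (both (five 1 401 405) (mv 468 (both (five 0 432 467) (five 0 433 469))))))) (both (mv 498 (both (mv 403 (both (five 1 400 404) (mv 466 (both (five 5 402 530) (mv 371 (both (five 6 338 339) (five 5 370 402))))))) (mv 464 (both (five 6 431 559) (mv 497 (both (five 2 495 499) (mv 526 (both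 (five 1 493 525) (five 1 494 529))))))))) (both (mv 498 (both (mv 497 (both (five 2 495 499) (mv 526 (both (five 1 493 525) (five 1 494 529))))) (both (mv 467 (both (five 0 432 468) (mv 466 (both (five 0 431 431) (mv 530 (both (five 5 434 562) (mv 531 (both (five 4 434 563) (mv 559 (both (five 6 431 464) (mv 529 (both (five 2 526 558) (five 2 527 560))))))))))))) (mv 464 (both (five 6 431 559) (mv 467 (both (five 0 432 468) (mv 431 (both (five 0 431 466) (mv 499 (both (five 2 495 497) (mv 531 (both (five 7 402 402) (mv 404 (both (five 5 403 436) (mv 562 (both (five 6 434 530) (mv 563 (both (five 6 466 594) (mv 564 (both (five 4 435 532) (five 4 467 596)))))))))))))))))))))) (mv 499 (both (mv 467 (both (five 0 432 468) (mv 402 (both (five 7 402 531) (mv 370 (both (five 4 338 338) (five 7 370 403))))))) (both (mv 498 (both (five 2 495 497) (mv 530 (both (five 1 495 529) (mv 466 (both (five 5 402 403) (mv 531 (both (five 4 402 402) (five 4 434 563))))))))) (mv 467 (both (five 0 432 468) (mv 498 (both (five 2 495 497) (mv 530 (both (five 1 495 529) (mv 562 (both (five 5 434 466) (five 5 466 594))))))))))))))))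 (both (mv 529 (both (mv 464 (both (five 6 431 559) (mv 495 (both (five 6 399 400) (mv 530 (both (five 3 494 494) (five 3 495 531))))))) (both (mv 526 (both (mv 493 (both (five 3 493 494) (mv 525 (both (five 3 492 492) (mv 557 (both (five 2 524 556) (five 2 525 558))))))) (both (mv 557 (both (five 2 525 558) (mv 525 (both (five 2 524 556) (mv 492 (both (five 3 492 493) (mv 524 (both (five 3 491 491) (five 1 492 495))))))))) (both (mv 557 (both (five 2 525 558) (mv 525 (both (five 2 524 556) (mv 495 (both (five 1 492 524) (mv 530 (both (five 3 494 494) (five 3 495 531))))))))) (mv 494 (both (five 3 493 493) (mv 530 (both (five 3 494 495) (mv 498 (both (five 1 495 499) (mv 563 (both (five 0 527 562) (mv 531 (both (five 4 434 466) (five 0 528 564))))))))))))))) (both (mv 526 (both (mv 493 (both (five 3 493 494) (mv 525 (both (five 3 492 492) (mv 557 (both (five 2 524 556) (five 2 525 558))))))) (both (mv 464 (both (five 6 431 559) (mv 495 (both (five 6 399 400) (mv 525 (both (five 1 492 524) (mv 557 (both (five 2 524 556) (five 2 525 558))))))))) (both (mv 464 (both (five 6 431 559) (mv 493 (both (five 3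 493 494) (mv 495 (both (five 6 399 400) (mv 525 (both (five 3 492 492) (five 1 492 524))))))))) (mv 494 (both (five 3 493 493) (mv 557 (both (five 2 525 558) (mv 559 (both (five 6 431 464) (mv 462 (both (five 4 430 430) (mv 591 (both (five 7 462 495) (five 7 494 623))))))))))))))) (mv 559 (both (five 6 431 464) (mv 530 (both (five 2 526 558) (mv 498 (both (five 1 495 499) (mv 563 (both (five 0 527 562) (mv 531 (both (five 4 434 466) (five 0 528 564))))))))))))))) (both (mv 435 (both (mv 404 (both (five 1 400 403) (mv 436 (both (five 1 401 405) (mv 468 (both (five 0 432 467) (five 0 433 469))))))) (both (mv 403 (both (five 1 400 404) (mv 402 (both (five 1 399 431) (mv 464 (both (five 6 431 559) (mv 400 (both (five 6 399 495) (mv 497 (both (five 4 400 529) (mv 498 (both (five 2 495 499) (mv 466 (both (five 5 370 371) (five 5 402 530))))))))))))))) (both (mv 467 (both (five 0 432 468) (mv 499 (both (mv 402 (both (five 7 402 531) (mv 370 (both (five 4 338 338) (five 4 370 466))))) (both (mv 498 (both (five 2 495 497) (mv 530 (both (five 1 495 529) (mv 562 (both (five 5 434 466) (five 5 466 594))))))) (mv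 531 (both (five 7 402 402) (mv 404 (both (five 5 403 436) (mv 530 (both (five 6 434 562) (mv 529 (both (five 3 495 495) (five 1 496 500)))))))))))))) (mv 499 (both (mv 467 (both (five 0 432 468) (mv 402 (both (five 7 402 531) (mv 370 (both (five 4 338 338) (five 7 370 403))))))) (both (mv 498 (both (five 2 495 497) (mv 530 (both (five 1 495 529) (mv 466 (both (five 5 402 403) (mv 531 (both (five 4 402 402) (five 4 434 563))))))))) (mv 467 (both (five 0 432 468) (mv 498 (both (five 2 495 497) (mv 530 (both (five 1 495 529) (mv 562 (both (five 5 434 466) (five 5 466 594)))))))))))))))) (both (mv 435 (both (mv 404 (both (five 1 400 403) (mv 436 (both (five 1 401 405) (mv 468 (both (five 0 432 467) (five 0 433 469))))))) (both (mv 498 (both (mv 497 (both (five 2 495 499) (mv 526 (both (five 2 494 495) (five 1 493 525))))) (mv 403 (both (five 1 400 404) (mv 466 (both (five 5 402 530) (mv 371 (both (five 6 338 339) (five 5 370 402))))))))) (both (mv 467 (both (five 0 432 468) (mv 531 (both (mv 464 (both (five 6 431 559) (mv 466 (both (five 0 431 431) (mv 495 (both (five 6 399 400) (mv 498 (both (five 1 463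 497) (mv 530 (both (five 5 434 562) (five 4 434 563))))))))))) (both (mv 499 (both (five 7 402 402) (mv 562 (both (five 6 434 530) (mv 563 (both (five 6 466 594) (mv 564 (both (five 4 435 532) (five 4 467 596))))))))) (mv 464 (both (five 6 431 559) (mv 466 (both (five 0 431 431) (mv 499 (both (five 7 402 402) (mv 436 (both (five 5 403 404) (mv 437 (both (five 2 434 438) (mv 405 (both (five 1 402 406) (mv 469 (both (five 0 434 470) (mv 498 (both (five 2 495 497) (mv 532 (both (five 4 435 564) (mv 501 (both (five 6 404 500) (mv 534 (both (five 4 405 502) (five 3 498 533)))))))))))))))))))))))))))) (mv 464 (both (five 6 431 559) (mv 467 (both (five 0 432 468) (mv 466 (both (five 0 431 431) (mv 495 (both (five 6 399 400) (mv 498 (both (five 1 463 497) (mv 403 (both (five 6 370 371) (five 5 402 530))))))))))))))))) (both (mv 526 (both (mv 529 (both (mv 464 (both (five 6 431 559) (mv 400 (both (five 6 399 495) (five 4 400 497))))) (both (mv 494 (both (five 3 493 493) (mv 530 (both (five 3 494 495) (mv 557 (both (five 2 525 558) (mv 563 (both (five 0 527 562) (mv 531 (both (five 0 528 564) (mv 500 (both (five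 1 496 499) (mv 532 (both (five 3 496 497) (five 1 497 501))))))))))))))) (both (mv 559 (both (five 6 431 464) (mv 530 (both (five 2 526 558) (mv 563 (both (five 0 527 562) (mv 531 (both (five 0 528 564) (mv 500 (both (five 1 496 499) (mv 532 (both (five 3 496 497) (five 1 497 501))))))))))))) (mv 464 (both (five 6 431 559) (mv 495 (both (five 6 399 400) (mv 530 (both (five 3 494 494) (five 3 495 531))))))))))) (both (mv 525 (both (five 1 493 497) (mv 492 (both (five 3 492 493) (mv 524 (both (five 3 491 491) (five 1 492 495))))))) (both (mv 464 (both (five 6 431 559) (mv 495 (both (five 6 399 400) (mv 525 (both (five 1 492 524) (mv 557 (both (five 2 524 556) (mv 529 (both (five 2 525 558) (mv 530 (both (five 3 494 494) (five 3 495 531))))))))))))) (mv 464 (both (five 6 431 559) (mv 525 (both (five 1 493 497) (mv 492 (both (five 3 492 493) (mv 524 (both (five 3 491 491) (mv 556 (both (five 2 523 555) (five 2 524 557))))))))))))))) (mv 497 (both (mv 464 (both (five 6 431 559) (mv 400 (both (five 6 399 495) (five 4 400 529))))) (both (mv 526 (both (five 1 493 525) (mv 498 (both (five 2 494 495) (five 1 494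 529))))) (both (mv 464 (both (five 6 431 559) (mv 526 (both (five 1 493 525) (mv 529 (both (five 4 400 400) (five 1 494 498))))))) (mv 464 (both (five 6 431 559) (mv 495 (both (five 6 399 400) (mv 526 (both (five 2 494 498) (five 1 493 525)))))))))))))))))) (both (mv 435 (both (mv 404 (both (five 1 400 403) (mv 436 (both (five 1 401 405) (mv 468 (both (five 0 432 467) (five 0 433 469))))))) (both (mv 399 (both (five 3 399 400) (mv 431 (both (five 3 398 398) (mv 467 (both (five 0 431 466) (five 0 432 468))))))) (mv 399 (both (five 3 399 400) (mv 403 (both (five 1 400 404) (mv 431 (both (five 3 398 398) (five 1 399 402)))))))))) (both (mv 399 (both (mv 431 (both (five 3 398 398) (five 7 399 464))) (both (mv 398 (both (five 3 398 431) (mv 400 (both (five 0 397 397) (five 3 399 435))))) (mv 400 (both (five 3 399 435) (mv 464 (both (five 7 367 367) (mv 527 (both (five 6 399 495) (five 6 431 559)))))))))) (mv 431 (both (mv 399 (both (five 3 398 398) (five 7 399 464))) (mv 403 (both (five 1 399 402) (mv 435 (both (five 1 400 404) (mv 467 (both (five 0 431 466) (five 0 432 468))))))))))))))) (both (mv 431 (both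 (mv 401 (both (five 5 400 464) (mv 402 (both (five 1 398 430) (mv 403 (both (five 2 399 400) (five 2 400 404))))))) (both (mv 434 (both (mv 403 (both (five 1 399 402) (mv 435 (both (five 1 400 404) (mv 467 (both (five 0 431 466) (five 0 432 468))))))) (both (mv 399 (both (five 3 398 398) (mv 435 (both (five 3 399 400) (mv 467 (both (five 0 431 466) (five 0 432 468))))))) (mv 398 (both (five 3 398 399) (mv 402 (both (five 1 399 403) (mv 430 (both (five 3 397 397) (five 1 398 401)))))))))) (both (mv 399 (both (five 7 399 464) (mv 398 (both (five 3 398 434) (mv 397 (both (five 0 396 396) (five 0 397 400))))))) (mv 401 (both (five 5 400 464) (mv 402 (both (five 1 398 430) (mv 403 (both (five 2 400 404) (five 1 399 434))))))))))) (both (mv 464 (both (five 5 400 401) (mv 527 (both (five 6 431 559) (mv 497 (both (mv 400 (both (five 6 399 495) (five 4 400 529))) (both (mv 498 (both (five 2 495 499) (mv 526 (both (five 2 494 495) (five 1 493 525))))) (mv 498 (both (five 2 495 499) (mv 526 (both (five 1 493 525) (five 1 494 529)))))))))))) (mv 434 (both (mv 431 (both (mv 399 (both (five 3 398 398) (five 7 399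 464))) (mv 403 (both (five 1 399 402) (mv 435 (both (five 1 400 404) (mv 467 (both (five 0 431 466) (five 0 432 468))))))))) (both (mv 467 (both (mv 466 (both (five 0 431 431) (mv 498 (both (mv 401 (both (five 7 401 530) (mv 369 (both (five 4 337 337) (five 7 369 402))))) (both (mv 497 (both (five 1 463 495) (mv 402 (both (five 6 401 529) (mv 499 (both (five 2 495 527) (five 4 402 531))))))) (mv 530 (both (five 7 401 401) (mv 531 (both (five 4 434 563) (mv 495 (both (five 0 495 497) (five 3 495 529)))))))))))) (both (mv 435 (both (five 0 432 468) (mv 403 (both (five 1 400 404) (mv 402 (both (five 1 399 431) (mv 370 (both (five 4 338 338) (five 7 370 499))))))))) (both (mv 435 (both (five 0 432 468) (mv 499 (both (mv 402 (both (five 7 402 531) (mv 370 (both (five 4 338 338) (five 4 370 466))))) (both (mv 403 (both (five 1 400 404) (mv 498 (both (five 6 402 530) (mv 371 (both (five 6 370 466) (mv 338 (both (five 7 338 370) (mv 306 (both (five 7 306 339) (mv 340 (both (five 5 339 372) (mv 497 (both (five 2 495 527) (mv 500 (both (five 2 496 529) (five 4 403 532))))))))))))))))) (mv 402 (both (five 7 402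 531) (mv 403 (both (five 1 400 404) (mv 498 (both (five 6 402 530) (mv 497 (both (five 2 495 527) (mv 500 (both (five 2 496 529) (five 4 403 532)))))))))))))))) (mv 435 (both (five 0 432 468) (mv 403 (both (five 1 400 404) (mv 466 (both (five 0 431 431) (mv 371 (both (five 6 338 339) (five 6 370 498))))))))))))) (both (mv 435 (both (mv 404 (both (five 1 400 403) (mv 436 (both (five 1 401 405) (mv 468 (both (five 0 432 467) (five 0 433 469))))))) (both (mv 401 (both (five 5 400 464) (mv 468 (both (five 0 432 467) (mv 436 (both (five 0 433 469) (mv 405 (both (five 1 401 404) (mv 437 (both (five 3 401 402) (five 1 402 406))))))))))) (both (mv 401 (both (five 5 400 464) (mv 404 (both (five 1 400 403) (mv 436 (both (five 1 401 405) (mv 437 (both (five 3 401 402) (mv 469 (both (five 0 433 468) (five 0 434 470))))))))))) (both (mv 436 (both (mv 468 (both (five 0 432 467) (five 0 433 469))) (both (mv 401 (both (five 5 400 464) (mv 437 (both (five 3 401 402) (mv 406 (both (five 1 402 405) (mv 438 (both (five 1 403 407) (mv 470 (both (five 0 434 469) (five 0 435 471))))))))))) (mv 401 (both (five 5 400 464) (mv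 402 (both (five 3 401 437) (mv 467 (both (five 0 432 468) (mv 370 (both (five 4 338 338) (mv 499 (both (five 7 370 403) (five 4 370 466)))))))))))))) (both (mv 466 (both (mv 401 (both (five 5 400 464) (mv 369 (both (five 4 337 337) (mv 498 (both (five 7 369 402) (five 7 401 530))))))) (both (mv 403 (both (five 1 400 404) (mv 371 (both (five 6 338 339) (mv 498 (both (five 5 370 402) (five 5 402 530))))))) (both (mv 401 (both (five 5 400 464) (mv 337 (both (five 4 337 369) (mv 404 (both (five 1 400 403) (mv 436 (both (five 1 401 405) (mv 437 (both (five 3 401 402) (mv 438 (both (five 2 434 467) (mv 470 (both (five 0 434 469) (five 0 435 471))))))))))))))) (mv 401 (both (five 5 400 464) (mv 337 (both (five 4 337 369) (mv 403 (both (five 1 400 404) (mv 371 (both (five 6 338 339) (mv 498 (both (five 6 370 467) (five 7 401 530))))))))))))))) (mv 466 (both (mv 401 (both (five 5 400 464) (mv 369 (both (five 4 337 337) (mv 498 (both (five 7 369 402) (five 7 401 530))))))) (both (mv 403 (both (five 1 400 404) (mv 371 (both (five 6 338 339) (mv 498 (both (five 5 370 402) (five 5 402 530))))))) (both (mv 401 (both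 (five 5 400 464) (mv 337 (both (five 4 337 369) (mv 403 (both (five 1 400 404) (mv 371 (both (five 6 338 339) (mv 467 (both (five 0 432 468) (mv 340 (both (five 5 339 372) (mv 370 (both (five 7 338 338) (mv 499 (both (five 7 370 402) (mv 500 (both (five 4 403 532) (mv 531 (both (five 7 434 563) (mv 530 (both (five 1 496 529) (five 6 434 562))))))))))))))))))))))) (mv 401 (both (five 5 400 464) (mv 337 (both (five 4 337 369) (mv 403 (both (five 1 400 404) (mv 371 (both (five 6 338 339) (mv 467 (both (five 0 432 468) (five 6 370 498))))))))))))))))))))) (both (mv 466 (both (mv 401 (both (five 5 400 464) (mv 369 (both (five 4 337 337) (mv 498 (both (five 7 369 402) (five 7 401 530))))))) (both (mv 431 (both (five 0 431 467) (mv 399 (both (five 3 398 398) (five 7 399 464))))) (mv 467 (both (five 0 431 431) (mv 498 (both (mv 401 (both (five 7 401 530) (mv 369 (both (five 4 337 337) (five 7 369 402))))) (both (mv 497 (both (five 1 463 495) (mv 402 (both (five 6 401 529) (mv 499 (both (five 2 495 527) (five 4 402 531))))))) (mv 530 (both (five 7 401 401) (mv 531 (both (five 4 434 563) (mv 495 (both (five 0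 495 497) (five 3 495 529))))))))))))))) (both (mv 431 (both (mv 399 (both (five 3 398 398) (five 7 399 464))) (both (mv 398 (both (five 3 398 399) (mv 402 (both (five 1 399 403) (mv 430 (both (five 3 397 397) (five 1 398 401))))))) (mv 401 (both (five 5 400 464) (mv 402 (both (five 1 399 403) (five 1 398 430)))))))) (mv 467 (both (mv 435 (both (five 0 432 468) (mv 403 (both (five 1 400 404) (mv 466 (both (five 0 431 431) (mv 371 (both (five 6 338 339) (five 6 370 498))))))))) (both (mv 401 (both (five 5 400 464) (mv 466 (both (five 0 431 431) (mv 498 (both (five 7 401 530) (mv 497 (both (five 1 463 495) (mv 499 (both (five 2 495 527) (mv 531 (both (five 0 496 532) (five 7 434 563))))))))))))) (both (mv 401 (both (five 5 400 464) (mv 468 (both (five 0 432 435) (mv 466 (both (five 3 433 469) (mv 498 (both (five 7 401 530) (mv 497 (both (five 1 463 495) (mv 499 (both (five 2 495 527) (mv 531 (both (five 0 496 532) (five 7 434 563))))))))))))))) (both (mv 435 (both (five 0 432 468) (mv 499 (both (mv 403 (both (five 1 400 404) (mv 498 (both (five 6 402 530) (mv 497 (both (five 2 495 527) (mv 500 (both (five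 2 496 529) (five 4 403 532))))))))) (both (mv 464 (both (five 5 400 401) (mv 399 (both (five 7 399 431) (mv 527 (both (five 6 431 559) (mv 498 (both (five 2 495 497) (mv 530 (both (five 1 495 529) (mv 562 (both (five 6 434 531) (five 5 466 594))))))))))))) (mv 401 (both (five 5 400 464) (mv 404 (both (five 1 400 403) (mv 436 (both (five 1 401 405) (five 5 403 531)))))))))))) (mv 401 (both (five 5 400 464) (mv 466 (both (five 0 431 431) (mv 468 (both (five 0 432 435) (five 3 433 469))))))))))))))))))))))) (both (mv 464 (both (mv 401 (both (five 5 400 432) (mv 465 (both (five 6 368 369) (five 5 432 560))))) (both (mv 560 (both (five 5 432 465) (mv 592 (both (mv 591 (both (five 6 463 559) (five 6 495 623))) (both (mv 625 (both (five 4 496 593) (mv 624 (both (five 4 528 657) (mv 527 (both (five 7 495 495) (mv 655 (both (five 6 527 623) (mv 656 (both (five 7 527 559) (five 6 559 687))))))))))) (both (mv 623 (both (five 6 495 591) (mv 624 (both (five 6 527 655) (mv 625 (both (five 4 496 593) (five 4 528 657))))))) (mv 559 (both (five 6 463 591) (mv 625 (both (five 4 496 593) (mv 624 (both (five 4 528 657)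 (mv 527 (both (five 7 495 495) (five 7 527 656))))))))))))))) (mv 432 (both (five 5 400 401) (mv 399 (both (five 7 399 431) (mv 400 (both (five 7 367 367) (mv 527 (both (five 6 399 495) (five 6 431 559)))))))))))) (both (mv 560 (both (mv 592 (both (mv 623 (both (five 6 495 591) (mv 624 (both (five 6 527 655) (mv 625 (both (five 4 496 593) (five 4 528 657))))))) (both (mv 625 (both (five 4 496 593) (mv 624 (both (five 4 528 657) (mv 527 (both (five 7 495 495) (mv 529 (both (five 5 496 497) (mv 559 (both (five 7 527 656) (mv 530 (both (five 2 527 531) (five 2 526 558))))))))))))) (both (mv 623 (both (five 6 495 591) (mv 624 (both (five 6 527 655) (mv 527 (both (five 7 495 495) (mv 529 (both (five 5 496 497) (mv 559 (both (five 7 527 656) (mv 530 (both (five 2 527 531) (five 2 526 558))))))))))))) (mv 591 (both (five 6 495 623) (mv 559 (both (five 6 463 464) (mv 593 (both (five 4 496 625) (mv 558 (both (five 0 557 557) (five 3 558 594))))))))))))) (both (mv 592 (both (mv 623 (both (five 6 495 591) (mv 624 (both (five 6 527 655) (mv 625 (both (five 4 496 593) (five 4 528 657))))))) (both (mv 497 (both (five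 5 464 465) (mv 624 (both (five 5 496 529) (mv 625 (both (five 4 496 593) (five 4 528 657))))))) (both (mv 497 (both (five 5 464 465) (mv 623 (both (five 6 495 591) (mv 624 (both (five 5 496 529) (five 6 527 655))))))) (mv 593 (both (five 4 496 625) (mv 594 (both (mv 559 (both (five 3 559 595) (mv 558 (both (five 0 557 557) (five 3 558 591))))) (both (mv 595 (both (five 3 559 559) (mv 564 (both (five 1 560 563) (mv 596 (both (five 1 561 565) (mv 628 (both (five 0 592 627) (five 0 593 629))))))))) (both (mv 591 (both (five 6 495 623) (mv 563 (both (five 1 559 562) (mv 595 (both (five 1 560 564) (mv 627 (both (five 0 591 626) (five 0 592 628))))))))) (mv 497 (both (five 5 464 465) (mv 591 (both (five 6 495 623) (mv 558 (both (five 3 558 559) (mv 557 (both (five 3 557 590) (mv 562 (both (five 1 559 563) (mv 626 (both (five 0 591 627) (mv 530 (both (five 7 497 529) (mv 499 (both (five 5 498 531) (mv 498 (both (five 5 466 467) (five 2 495 527))))))))))))))))))))))))))))) (both (mv 592 (both (mv 464 (both (five 5 432 465) (mv 591 (both (five 6 463 559) (five 6 495 623))))) (both (mv 625 (both (five 4 496 593)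 (mv 624 (both (five 4 528 657) (mv 527 (both (five 7 495 495) (mv 655 (both (five 6 527 623) (mv 656 (both (five 7 527 559) (five 6 559 687))))))))))) (both (mv 464 (both (five 5 432 465) (mv 559 (both (five 6 463 591) (mv 625 (both (five 4 496 593) (mv 624 (both (five 4 528 657) (mv 527 (both (five 7 495 495) (five 7 527 656))))))))))) (mv 623 (both (five 6 495 591) (mv 624 (both (five 6 527 655) (mv 625 (both (five 4 496 593) (five 4 528 657))))))))))) (mv 465 (both (five 5 432 464) (mv 497 (both (five 6 400 401) (five 6 432 529))))))))) (both (mv 401 (both (mv 464 (both (five 5 400 432) (mv 465 (both (five 6 368 369) (five 6 400 497))))) (both (mv 432 (both (five 5 400 464) (mv 402 (both (mv 403 (both (five 2 400 404) (mv 431 (both (five 2 399 400) (five 1 398 430))))) (both (mv 431 (both (five 1 398 430) (mv 434 (both (mv 466 (both (five 0 431 467) (mv 369 (both (five 4 337 337) (five 7 369 498))))) (both (mv 399 (both (five 3 398 398) (mv 400 (both (five 0 399 435) (mv 367 (both (five 3 366 366) (mv 303 (both (five 4 303 335) (mv 370 (both (five 1 367 371) (mv 338 (both (five 6 305 306) (mv 337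 (both (five 7 305 305) (mv 339 (both (five 5 306 307) (mv 336 (both (five 3 303 304) (five 2 335 368))))))))))))))))))) (mv 399 (both (five 3 398 398) (mv 435 (both (five 3 399 400) (mv 467 (both (five 0 431 466) (five 0 432 468)))))))))))) (both (mv 403 (both (five 2 400 404) (mv 400 (both (mv 367 (both (five 3 367 368) (mv 371 (both (five 1 368 372) (mv 399 (both (five 3 366 366) (five 1 367 370))))))) (both (mv 368 (both (five 3 367 367) (mv 336 (both (five 4 304 304) (mv 305 (both (five 5 304 337) (mv 335 (both (five 7 303 303) (mv 371 (both (five 1 368 372) (mv 370 (both (five 3 335 369) (mv 306 (both (five 6 305 338) (mv 435 (both (five 0 400 436) (mv 467 (both (five 7 370 499) (mv 468 (both (five 0 432 434) (five 4 371 500))))))))))))))))))))) (both (mv 367 (both (five 3 367 368) (mv 399 (both (five 3 366 366) (mv 398 (both (five 0 397 397) (five 0 398 434))))))) (mv 371 (both (five 1 368 372) (mv 370 (both (five 1 367 399) (mv 435 (both (five 0 400 436) (mv 467 (both (five 7 370 499) (mv 468 (both (five 0 432 434) (five 4 371 500))))))))))))))))) (mv 403 (both (five 2 400 404) (mv 431 (both (five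 1 398 430) (five 1 399 434))))))))))) (both (mv 465 (both (five 6 400 497) (mv 369 (both (five 6 368 464) (mv 336 (both (five 7 336 368) (mv 337 (both (five 7 304 304) (mv 338 (both (five 5 305 306) (five 5 337 370))))))))))) (both (mv 465 (both (five 6 400 497) (mv 369 (both (mv 336 (both (five 7 336 368) (mv 337 (both (five 7 304 304) (mv 338 (both (five 5 305 306) (five 5 337 370))))))) (both (mv 336 (both (five 7 336 368) (mv 337 (both (five 7 304 304) (mv 466 (both (five 4 337 434) (five 4 369 498))))))) (both (mv 338 (both (five 5 337 370) (mv 337 (both (five 5 305 306) (mv 466 (both (five 4 337 434) (five 4 369 498))))))) (mv 368 (both (five 7 336 336) (mv 367 (both (mv 366 (both (five 0 366 402) (mv 333 (both (five 3 333 334) (mv 365 (both (five 3 332 332) (five 0 365 400))))))) (both (mv 370 (both (five 5 337 338) (mv 399 (both (five 2 366 398) (mv 371 (both (five 2 367 400) (mv 339 (both (five 1 336 340) (mv 403 (both (five 0 368 404) (mv 466 (both (five 4 369 498) (mv 435 (both (five 6 338 434) (mv 468 (both (five 4 339 436) (mv 467 (both (five 3 432 432) (five 4 371 500)))))))))))))))))))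 (mv 338 (both (five 5 337 370) (mv 366 (both (five 0 366 402) (mv 333 (both (five 3 333 334) (mv 365 (both (five 3 332 332) (mv 397 (both (five 2 364 396) (five 2 365 398)))))))))))))))))))))) (mv 434 (both (mv 497 (both (five 6 400 465) (mv 498 (both (mv 499 (both (five 2 495 527) (mv 468 (both (five 1 464 467) (mv 500 (both (five 1 465 469) (mv 532 (both (five 0 496 531) (five 0 497 533))))))))) (both (mv 466 (both (five 7 401 530) (mv 402 (both (five 6 401 529) (mv 371 (both (five 5 370 403) (mv 370 (both (five 5 338 339) (mv 338 (both (five 6 305 306) (mv 467 (both (five 4 338 435) (five 1 463 495))))))))))))) (mv 466 (both (five 7 401 530) (mv 402 (both (five 6 401 529) (mv 499 (both (five 2 495 527) (five 4 402 531)))))))))))) (both (mv 435 (both (mv 432 (both (five 5 400 464) (mv 399 (both (five 3 399 400) (mv 431 (both (five 3 398 398) (mv 467 (both (five 0 431 466) (five 0 432 468))))))))) (both (mv 436 (both (five 3 400 400) (mv 465 (both (five 2 432 464) (five 6 400 497))))) (both (mv 432 (both (five 5 400 464) (mv 404 (both (five 1 400 403) (mv 436 (both (five 1 401 405) (mv 468 (both (five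 0 432 467) (five 0 433 469))))))))) (mv 400 (both (five 3 400 436) (mv 399 (both (five 0 398 398) (five 3 399 432))))))))) (both (mv 466 (both (mv 497 (both (five 6 400 465) (mv 498 (both (five 7 401 530) (mv 467 (both (five 1 463 495) (mv 468 (both (five 2 465 469) (five 1 464 499))))))))) (both (mv 432 (both (five 5 400 464) (mv 431 (both (five 0 431 467) (mv 402 (both (five 1 399 403) (five 1 398 430))))))) (mv 432 (both (five 5 400 464) (mv 465 (both (five 6 400 497) (mv 431 (both (five 0 430 430) (mv 399 (both (five 3 398 398) (mv 402 (both (five 1 399 403) (mv 370 (both (five 6 337 338) (mv 371 (both (five 5 338 339) (five 1 367 400)))))))))))))))))) (both (mv 435 (both (mv 400 (both (five 3 400 436) (mv 399 (both (five 0 398 398) (five 0 399 402))))) (both (mv 432 (both (five 5 400 464) (mv 404 (both (five 1 400 403) (mv 436 (both (five 1 401 405) (mv 468 (both (five 0 432 467) (five 0 433 469))))))))) (mv 432 (both (five 5 400 464) (mv 399 (both (five 3 399 400) (mv 403 (both (five 1 400 404) (mv 431 (both (five 3 398 398) (five 1 399 402)))))))))))) (both (mv 435 (both (mv 400 (both (five 3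 400 436) (mv 399 (both (five 0 398 398) (five 0 399 402))))) (both (mv 432 (both (five 5 400 464) (mv 465 (both (five 6 400 497) (mv 467 (both (five 0 432 468) (mv 431 (both (five 0 431 466) (mv 398 (both (five 3 398 399) (mv 430 (both (five 3 397 397) (five 1 398 402))))))))))))) (mv 436 (both (five 3 400 400) (mv 465 (both (five 2 432 464) (five 6 400 497)))))))) (both (mv 435 (both (mv 400 (both (five 3 400 436) (mv 399 (both (five 0 398 398) (five 0 399 402))))) (both (mv 432 (both (five 5 400 464) (mv 403 (both (five 1 400 404) (mv 402 (both (five 1 399 431) (mv 436 (both (five 3 401 437) (mv 468 (both (five 0 433 469) (mv 371 (both (five 4 339 339) (mv 497 (both (five 6 400 465) (mv 498 (both (five 5 370 466) (mv 499 (both (five 2 495 527) (mv 500 (both (five 2 496 529) (mv 532 (both (five 0 496 531) (five 0 497 533))))))))))))))))))))))) (both (mv 432 (both (five 5 400 464) (mv 399 (both (five 3 399 400) (mv 403 (both (five 1 400 404) (mv 431 (both (five 3 398 398) (five 1 399 402))))))))) (mv 436 (both (five 3 400 400) (mv 465 (both (five 2 432 464) (five 6 400 497))))))))) (mv 435 (both (mv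 400 (both (five 3 400 436) (mv 399 (both (five 0 398 398) (five 0 399 402))))) (both (mv 432 (both (five 5 400 464) (mv 403 (both (five 1 400 404) (mv 431 (both (five 1 399 402) (mv 398 (both (five 3 398 399) (mv 430 (both (five 3 397 397) (mv 466 (both (five 0 430 465) (five 0 431 467))))))))))))) (mv 436 (both (five 3 400 400) (mv 465 (both (five 2 432 464) (five 6 400 497)))))))))))))))))))) (mv 465 (both (mv 401 (both (five 6 400 497) (mv 369 (both (five 6 368 464) (mv 336 (both (five 7 336 368) (mv 337 (both (five 7 304 304) (mv 338 (both (five 5 305 306) (five 5 337 370))))))))))) (both (mv 464 (both (five 5 432 560) (mv 401 (both (five 6 368 369) (five 5 400 432))))) (both (mv 560 (both (five 5 432 464) (mv 497 (both (five 6 432 529) (five 5 464 592))))) (mv 497 (both (five 6 400 401) (mv 560 (both (five 6 432 529) (five 5 464 592)))))))))))))))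

theorem L96 : W (S 878694100701304956511192169158242687862212665431883220280182872118455237980908336946979793684870563807462937680039967586724118902039808942127312687095760289792) (S 642106434340993571432739219825481279924301429666767862413455784455498013404880230851474511945841412165775544884301202110065035231581400073322991047994600999331881058256958917139432675774340456527041122009088) :=
  check_sound Env.nil (x := 433) (t := tL96) (by decide +kernel)

def tL97 : T :=
  (both (mv 560 (both (mv 433 (both (five 5 432 465) (mv 432 (both (five 5 400 401) (mv 559 (both (five 6 431 527) (five 6 463 591))))))) (both (mv 465 (both (five 5 432 433) (mv 592 (both (five 5 464 497) (mv 623 (both (five 6 495 591) (mv 624 (both (five 6 527 655) (mv 625 (both (five 4 496 593) (five 4 528 657))))))))))) (both (mv 559 (both (five 6 463 591) (mv 558 (both (mv 529 (both (five 1 525 557) (mv 530 (both (five 2 526 527) (five 2 527 531))))) (both (mv 527 (both (five 6 431 432) (mv 526 (both (mv 525 (both (five 1 493 497) (five 0 524 524))) (both (mv 529 (both (five 2 526 530) (mv 494 (both (five 3 493 493) (mv 462 (both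 (five 4 430 430) (mv 461 (both (five 7 429 429) (mv 497 (both (five 0 461 463) (five 1 494 498))))))))))) (mv 525 (both (five 0 524 524) (mv 493 (both (five 3 492 492) (mv 529 (both (five 3 493 494) (five 2 526 530)))))))))))) (both (mv 557 (both (five 1 525 529) (mv 524 (both (five 3 524 525) (mv 556 (both (five 3 523 523) (mv 588 (both (five 2 555 587) (five 2 556 589))))))))) (mv 527 (both (five 6 431 432) (mv 557 (both (five 1 524 556) (mv 525 (both (five 3 524 524) (mv 526 (both (five 1 493 497) (mv 492 (both (five 3 492 493) (mv 589 (both (five 2 556 588) (mv 494 (both (five 6 461 462) (five 5 493 621))))))))))))))))))))) (mv 465 (both (five 5 432 433) (mv 497 (both (five 5 464 592) (mv 466 (both (mv 467 (both (five 2 464 468) (mv 435 (both (five 1 432 436) (mv 434 (both (five 1 431 463) (mv 370 (both (five 6 369 402) (mv 499 (both (five 0 464 500) (mv 531 (both (five 7 434 563) (mv 530 (both (five 6 434 562) (mv 529 (both (five 3 496 532) (five 2 527 559))))))))))))))))) (both (mv 498 (both (mv 463 (both (five 0 462 462) (mv 434 (both (five 1 431 435) (mv 402 (both (five 6 369 370) (five 6 401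 529))))))) (mv 499 (both (five 3 464 500) (five 2 495 527))))) (both (mv 467 (both (five 2 464 468) (mv 435 (both (five 1 432 436) (mv 434 (both (five 1 431 463) (mv 402 (both (five 6 369 370) (mv 498 (both (five 6 401 529) (mv 403 (both (five 6 370 371) (five 5 402 530))))))))))))) (both (mv 467 (both (five 2 464 468) (mv 435 (both (five 1 432 436) (mv 499 (both (five 0 464 500) (mv 498 (both (five 2 495 527) (mv 531 (both (five 0 496 532) (mv 434 (both (five 4 402 402) (five 7 434 563))))))))))))) (mv 467 (both (five 2 464 468) (mv 499 (both (five 0 464 500) (mv 498 (both (five 3 463 463) (five 2 495 527)))))))))))))))))))) (both (mv 465 (both (mv 433 (both (five 5 432 560) (mv 401 (both (five 6 368 369) (five 6 400 497))))) (both (mv 466 (both (mv 467 (both (mv 468 (both (five 2 464 497) (mv 500 (both (five 0 464 499) (five 0 465 501))))) (both (mv 498 (both (mv 435 (both (five 1 432 436) (mv 403 (both (five 6 370 371) (mv 530 (both (five 5 402 434) (five 5 434 562))))))) (both (mv 499 (both (five 0 464 500) (mv 497 (both (five 2 495 527) (mv 531 (both (five 0 496 532) (mv 434 (both (five 4 402 402)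 (five 7 434 563))))))))) (mv 435 (both (five 1 432 436) (mv 371 (both (five 6 370 403) (mv 499 (both (five 0 464 500) (mv 497 (both (five 2 495 527) (mv 401 (both (five 6 400 433) (mv 530 (both (five 5 434 562) (mv 531 (both (five 0 496 532) (mv 563 (both (five 7 466 595) (mv 564 (both (five 0 528 529) (five 4 467 596)))))))))))))))))))))) (both (mv 436 (both (five 1 432 435) (mv 468 (both (five 1 433 437) (mv 500 (both (five 0 464 499) (five 0 465 501))))))) (mv 436 (both (five 1 432 435) (mv 468 (both (five 1 433 437) (five 2 464 497))))))))) (both (mv 499 (both (mv 463 (both (five 0 463 498) (mv 430 (both (five 3 430 431) (mv 434 (both (five 1 431 435) (mv 462 (both (five 3 429 429) (five 1 430 433))))))))) (both (mv 467 (both (five 0 464 500) (mv 434 (both (mv 402 (both (five 4 370 370) (mv 531 (both (five 4 402 498) (five 7 434 563))))) (both (mv 436 (both (five 1 432 435) (mv 468 (both (five 1 433 437) (mv 372 (both (five 6 371 404) (mv 469 (both (five 3 433 433) (mv 470 (both (five 2 466 498) (mv 502 (both (five 0 466 501) (five 0 467 503))))))))))))) (mv 402 (both (five 4 370 370) (mv 435 (both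 (five 1 432 436) (five 7 402 531)))))))))) (both (mv 467 (both (five 0 464 500) (mv 435 (both (five 1 432 436) (mv 434 (both (five 1 431 463) (mv 402 (both (five 7 402 531) (mv 370 (both (five 4 338 338) (five 7 370 403))))))))))) (mv 498 (both (five 0 463 463) (mv 500 (both (five 0 464 467) (five 3 465 501))))))))) (both (mv 463 (both (mv 430 (both (five 3 430 431) (mv 434 (both (five 1 431 435) (mv 462 (both (five 3 429 429) (five 1 430 433))))))) (both (mv 430 (both (five 3 430 431) (mv 462 (both (five 3 429 429) (mv 497 (both (five 0 461 461) (five 0 462 498))))))) (both (mv 401 (both (mv 433 (both (five 6 368 369) (five 6 400 497))) (both (mv 430 (both (five 3 430 431) (mv 434 (both (five 1 431 435) (mv 498 (both (five 0 463 499) (mv 402 (both (five 7 369 369) (mv 497 (both (five 6 369 370) (five 6 401 529))))))))))) (both (mv 369 (both (five 6 368 433) (mv 430 (both (five 3 430 431) (mv 434 (both (five 1 431 435) (mv 498 (both (five 7 369 402) (five 0 463 499))))))))) (mv 430 (both (five 3 430 431) (mv 433 (both (five 6 400 497) (mv 434 (both (five 1 431 435) (mv 498 (both (five 0 463 499) (five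 7 401 530))))))))))))) (mv 434 (both (five 1 431 435) (mv 433 (both (five 1 430 462) (mv 401 (both (five 6 368 369) (five 6 400 497))))))))))) (both (mv 467 (both (mv 468 (both (five 2 464 497) (mv 500 (both (five 0 464 499) (five 0 465 501))))) (both (mv 435 (both (five 1 432 436) (mv 434 (both (five 1 431 463) (mv 499 (both (five 0 464 500) (mv 402 (both (five 7 402 531) (mv 370 (both (five 4 338 338) (five 7 370 403))))))))))) (mv 436 (both (five 1 432 435) (mv 468 (both (five 1 433 437) (five 2 464 497)))))))) (both (mv 463 (both (mv 430 (both (five 3 430 431) (mv 434 (both (five 1 431 435) (mv 462 (both (five 3 429 429) (five 1 430 433))))))) (both (mv 430 (both (five 3 430 431) (mv 462 (both (five 3 429 429) (mv 497 (both (five 0 461 461) (five 0 462 498))))))) (both (mv 467 (both (mv 430 (both (five 3 430 431) (mv 468 (both (five 2 464 497) (mv 437 (both (five 1 433 436) (mv 469 (both (five 1 434 438) (mv 501 (both (five 0 465 500) (five 0 466 502))))))))))) (both (mv 435 (both (five 1 431 434) (five 1 432 436))) (mv 430 (both (five 3 430 431) (mv 434 (both (five 1 431 435) (mv 468 (both (five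 2 464 497) (mv 469 (both (five 3 433 433) (mv 501 (both (five 0 465 500) (five 0 466 502)))))))))))))) (mv 434 (both (five 1 431 435) (mv 433 (both (five 1 430 462) (mv 401 (both (five 6 368 369) (five 6 400 497))))))))))) (both (mv 467 (both (mv 468 (both (five 2 464 497) (mv 500 (both (five 0 464 499) (five 0 465 501))))) (both (mv 436 (both (five 1 432 435) (mv 468 (both (five 1 433 437) (five 2 464 497))))) (both (mv 435 (both (five 1 432 436) (mv 499 (both (five 0 464 500) (mv 463 (both (five 0 463 498) (mv 430 (both (five 3 430 431) (mv 462 (both (five 3 429 429) (mv 461 (both (five 0 461 497) (mv 493 (both (five 2 460 492) (five 2 461 494))))))))))))))) (mv 436 (both (five 1 432 435) (mv 468 (both (five 1 433 437) (mv 500 (both (five 0 464 499) (five 0 465 501))))))))))) (mv 433 (both (mv 401 (both (five 6 368 369) (five 6 400 497))) (both (mv 463 (both (mv 430 (both (five 3 430 431) (mv 462 (both (five 3 429 429) (mv 497 (both (five 0 461 461) (five 0 462 498))))))) (both (mv 462 (both (five 1 430 434) (mv 429 (both (five 3 429 430) (mv 461 (both (five 3 428 428) (mv 493 (both (five 2 460 492)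 (five 2 461 494))))))))) (mv 499 (both (five 0 463 498) (mv 467 (both (five 0 464 500) (mv 468 (both (five 2 464 497) (mv 437 (both (five 1 433 436) (mv 469 (both (five 3 433 434) (five 1 434 438)))))))))))))) (mv 498 (both (mv 463 (both (five 0 463 499) (mv 462 (both (five 1 430 434) (mv 429 (both (five 3 429 430) (mv 461 (both (five 3 428 428) (mv 493 (both (five 2 460 492) (five 2 461 494))))))))))) (both (mv 401 (both (five 6 368 369) (mv 530 (both (five 7 401 434) (five 7 433 562))))) (mv 369 (both (five 6 368 401) (mv 499 (both (five 0 463 463) (mv 500 (both (five 0 464 467) (five 3 465 501)))))))))))))))))))) (both (mv 463 (both (mv 462 (both (mv 497 (both (five 0 461 461) (five 0 462 498))) (both (mv 429 (both (five 3 429 430) (mv 461 (both (five 3 428 428) (mv 493 (both (five 2 460 492) (five 2 461 494))))))) (mv 430 (both (five 3 429 429) (mv 431 (both (five 3 430 466) (mv 367 (both (five 4 367 399) (mv 494 (both (five 2 461 493) (mv 497 (both (five 0 462 498) (mv 526 (both (five 5 430 558) (mv 525 (both (five 1 493 527) (five 6 429 557)))))))))))))))))) (both (mv 462 (both (mv 497 (both (five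 0 461 461) (five 0 462 498))) (both (mv 429 (both (five 3 429 430) (mv 461 (both (five 3 428 428) (mv 493 (both (five 2 460 492) (five 2 461 494))))))) (mv 430 (both (five 3 429 429) (mv 494 (both (five 2 461 493) (mv 497 (both (five 0 462 498) (mv 560 (both (five 5 464 592) (mv 559 (both (five 6 463 591) (mv 526 (both (five 4 430 527) (mv 557 (both (five 6 429 525) (mv 558 (both (five 1 525 529) (five 6 461 589)))))))))))))))))))) (both (mv 431 (both (five 7 431 560) (mv 367 (both (five 4 367 399) (mv 430 (both (five 3 430 466) (mv 429 (both (five 0 428 428) (five 3 429 462))))))))) (both (mv 431 (both (five 7 431 560) (mv 367 (both (five 4 367 399) (mv 466 (both (five 3 430 430) (mv 435 (both (five 1 431 434) (mv 467 (both (five 1 432 436) (mv 499 (both (five 0 463 498) (five 0 464 500))))))))))))) (mv 560 (both (five 7 431 431) (mv 497 (both (five 5 464 592) (mv 462 (both (five 0 461 461) (five 0 462 498)))))))))))) (mv 466 (both (mv 499 (both (mv 463 (both (five 0 463 498) (mv 430 (both (five 3 430 431) (mv 434 (both (five 1 431 435) (mv 462 (both (five 3 429 429) (five 1 430 433))))))))) (both (mv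 467 (both (five 0 464 500) (mv 434 (both (mv 402 (both (five 4 370 370) (mv 531 (both (five 4 402 498) (five 7 434 563))))) (both (mv 436 (both (five 1 432 435) (mv 468 (both (five 1 433 437) (mv 372 (both (five 6 371 404) (mv 469 (both (five 3 433 433) (mv 470 (both (five 2 466 498) (mv 502 (both (five 0 466 501) (five 0 467 503))))))))))))) (mv 402 (both (five 4 370 370) (mv 435 (both (five 1 432 436) (five 7 402 531)))))))))) (both (mv 467 (both (five 0 464 500) (mv 435 (both (five 1 432 436) (mv 434 (both (five 1 431 463) (mv 402 (both (five 7 402 531) (mv 370 (both (five 4 338 338) (five 7 370 403))))))))))) (mv 498 (both (five 0 463 463) (mv 500 (both (five 0 464 467) (five 3 465 501))))))))) (both (mv 463 (both (mv 435 (both (five 1 431 434) (mv 467 (both (five 1 432 436) (mv 499 (both (five 0 463 498) (five 0 464 500))))))) (mv 431 (both (five 3 430 430) (five 7 431 560))))) (both (mv 467 (both (mv 436 (both (five 1 432 435) (mv 468 (both (five 1 433 437) (mv 500 (both (five 0 464 499) (five 0 465 501))))))) (both (mv 433 (both (five 5 432 560) (mv 369 (both (five 6 368 401) (mv 436 (both (five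 1 432 435) (mv 468 (both (five 1 433 437) (mv 469 (both (five 3 433 434) (mv 501 (both (five 0 465 500) (five 0 466 502))))))))))))) (both (mv 468 (both (mv 500 (both (five 0 464 499) (five 0 465 501))) (both (mv 433 (both (five 5 432 560) (mv 369 (both (five 6 368 401) (mv 469 (both (five 3 433 434) (mv 438 (both (five 1 434 437) (mv 470 (both (five 1 435 439) (mv 502 (both (five 0 466 501) (five 0 467 503))))))))))))) (mv 433 (both (five 5 432 560) (mv 369 (both (five 6 368 401) (mv 434 (both (five 3 433 469) (mv 499 (both (five 0 464 500) (mv 402 (both (five 4 370 370) (mv 531 (both (five 4 402 498) (five 7 434 563)))))))))))))))) (both (mv 498 (both (mv 435 (both (five 1 432 436) (mv 403 (both (five 6 370 371) (mv 530 (both (five 5 402 434) (five 5 434 562))))))) (both (mv 433 (both (five 5 432 560) (mv 401 (both (five 6 368 369) (mv 530 (both (five 7 401 434) (five 7 433 562))))))) (both (mv 433 (both (five 5 432 560) (mv 369 (both (five 6 368 401) (mv 436 (both (five 1 432 435) (mv 468 (both (five 1 433 437) (mv 469 (both (five 3 433 434) (mv 470 (both (five 2 466 499) (mv 502 (both (five 0 466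 501) (five 0 467 503))))))))))))))) (mv 433 (both (five 5 432 560) (mv 369 (both (five 6 368 401) (mv 435 (both (five 1 432 436) (mv 403 (both (five 6 370 371) (mv 530 (both (five 6 402 499) (five 7 433 562))))))))))))))) (mv 498 (both (mv 435 (both (five 1 432 436) (mv 403 (both (five 6 370 371) (mv 530 (both (five 5 402 434) (five 5 434 562))))))) (both (mv 433 (both (five 5 432 560) (mv 401 (both (five 6 368 369) (mv 530 (both (five 7 401 434) (five 7 433 562))))))) (both (mv 433 (both (five 5 432 560) (mv 369 (both (five 6 368 401) (mv 435 (both (five 1 432 436) (mv 403 (both (five 6 370 371) (mv 499 (both (five 0 464 500) (mv 372 (both (five 5 371 404) (mv 402 (both (five 7 370 370) (mv 531 (both (five 7 402 434) (mv 563 (both (five 7 466 595) (mv 564 (both (five 4 435 532) (five 4 467 596))))))))))))))))))))) (mv 433 (both (five 5 432 560) (mv 369 (both (five 6 368 401) (mv 435 (both (five 1 432 436) (mv 403 (both (five 6 370 371) (mv 530 (both (five 6 402 499) (five 7 433 562)))))))))))))))))))) (both (mv 463 (both (mv 431 (both (five 3 430 430) (five 7 431 560))) (both (mv 430 (both (five 3 430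 431) (mv 434 (both (five 1 431 435) (mv 462 (both (five 3 429 429) (five 1 430 433))))))) (both (mv 433 (both (five 5 432 560) (mv 369 (both (five 6 368 401) (mv 462 (both (five 1 430 434) (mv 429 (both (five 3 429 430) (mv 461 (both (five 3 428 428) (mv 493 (both (five 2 460 492) (five 2 461 494))))))))))))) (mv 560 (both (five 7 431 431) (five 5 432 433))))))) (both (mv 498 (both (mv 499 (both (five 0 463 463) (mv 500 (both (five 0 464 467) (five 3 465 501))))) (mv 433 (both (five 5 432 560) (mv 401 (both (five 6 368 369) (mv 530 (both (five 7 401 434) (five 7 433 562))))))))) (mv 499 (both (mv 498 (both (five 0 463 463) (mv 500 (both (five 0 464 467) (five 3 465 501))))) (both (mv 467 (both (five 0 464 500) (mv 436 (both (five 1 432 435) (mv 468 (both (five 1 433 437) (mv 560 (both (five 5 432 433) (mv 563 (both (five 5 435 531) (mv 591 (both (five 6 463 559) (mv 592 (both (five 6 495 623) (mv 593 (both (five 4 496 625) (mv 594 (both (five 1 559 562) (mv 595 (both (five 1 560 564) (mv 627 (both (five 0 591 626) (five 0 592 628))))))))))))))))))))))) (mv 463 (both (five 0 463 498) (mv 431 (both (five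 3 430 430) (five 7 431 560)))))))))))))))))) (both (mv 527 (both (mv 526 (both (mv 494 (both (mv 431 (both (mv 399 (both (five 7 399 432) (mv 463 (both (five 4 367 367) (five 7 431 560))))) (both (mv 430 (both (mv 399 (both (five 7 399 432) (five 5 398 462))) (both (mv 429 (both (mv 397 (both (five 7 397 462) (mv 396 (both (five 3 396 432) (mv 395 (both (five 0 394 394) (five 0 395 398))))))) (both (mv 432 (both (mv 461 (both (five 2 428 460) (mv 462 (both (five 2 429 433) (five 7 429 558))))) (both (mv 401 (both (five 1 397 400) (five 5 400 433))) (mv 400 (both (five 1 397 401) (mv 461 (both (five 2 428 460) (mv 558 (both (five 7 429 462) (mv 590 (both (five 7 461 493) (mv 621 (both (five 6 493 589) (mv 622 (both (five 6 525 653) (mv 623 (both (five 4 494 591) (five 4 526 655)))))))))))))))))) (both (mv 432 (both (mv 401 (both (five 1 397 400) (five 5 400 433))) (mv 396 (both (five 3 396 397) (mv 428 (both (five 3 395 395) (mv 460 (both (five 2 427 459) (five 2 428 461))))))))) (mv 428 (both (mv 395 (both (five 3 395 396) (mv 427 (both (five 3 394 394) (mv 459 (both (five 2 426 458) (five 2 427 460)))))))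 (both (mv 395 (both (five 3 395 396) (mv 397 (both (five 7 397 462) (mv 427 (both (five 3 394 394) (mv 426 (both (five 1 394 398) (mv 457 (both (five 2 425 458) (mv 425 (both (five 2 424 456) (mv 461 (both (five 0 425 460) (five 4 397 493))))))))))))))) (both (mv 395 (both (five 3 395 396) (mv 397 (both (five 7 397 462) (mv 427 (both (five 3 394 394) (mv 426 (both (five 1 394 398) (mv 458 (both (five 2 425 457) (five 2 426 459))))))))))) (mv 397 (both (five 7 397 462) (mv 460 (both (five 2 427 459) (mv 333 (both (five 6 332 365) (mv 492 (both (five 5 396 524) (mv 493 (both (five 4 397 461) (five 0 491 491))))))))))))))))))) (both (mv 462 (both (five 5 398 399) (mv 429 (both (five 7 397 397) (mv 428 (both (mv 395 (both (five 3 395 396) (mv 427 (both (five 3 394 394) (mv 459 (both (five 2 426 458) (five 2 427 460))))))) (both (mv 395 (both (five 3 395 396) (mv 427 (both (five 3 394 394) (mv 461 (both (five 0 426 426) (five 7 429 558))))))) (both (mv 459 (both (five 2 427 460) (mv 427 (both (five 2 426 458) (mv 461 (both (five 0 426 426) (five 7 429 558))))))) (mv 396 (both (five 3 395 395) (mv 460 (both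 (five 2 427 459) (mv 461 (both (five 7 429 558) (mv 364 (both (five 4 332 332) (five 4 364 493))))))))))))))))) (mv 432 (both (five 7 399 399) (mv 401 (both (five 5 400 433) (mv 400 (both (five 5 368 369) (five 1 397 429))))))))))) (mv 463 (both (five 7 431 560) (mv 462 (both (five 5 430 558) (mv 461 (both (five 0 461 497) (mv 428 (both (five 3 428 429) (mv 460 (both (five 3 427 427) (mv 492 (both (five 2 459 491) (five 2 460 493)))))))))))))))) (both (mv 462 (both (mv 431 (both (mv 399 (both (five 5 398 430) (five 7 399 432))) (mv 463 (both (five 5 430 558) (five 7 431 560))))) (both (mv 497 (both (mv 498 (both (five 2 495 499) (five 1 494 529))) (mv 461 (both (five 0 461 463) (mv 429 (both (five 7 429 558) (mv 397 (both (five 4 365 365) (five 7 397 430))))))))) (both (mv 432 (both (mv 399 (both (five 7 399 431) (mv 400 (both (five 7 367 367) (mv 401 (both (five 5 368 369) (five 5 400 433))))))) (both (mv 401 (both (five 5 400 433) (mv 400 (both (five 5 368 369) (mv 529 (both (five 4 400 497) (mv 558 (both (five 2 525 557) (mv 429 (both (five 7 429 461) (mv 430 (both (five 7 397 397) (five 1 397 431)))))))))))))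 (both (mv 401 (both (five 5 400 433) (mv 400 (both (five 5 368 369) (mv 399 (both (five 7 367 367) (mv 529 (both (five 4 400 497) (mv 558 (both (five 2 525 557) (mv 429 (both (five 7 429 461) (mv 430 (both (five 7 397 397) (five 2 397 398))))))))))))))) (both (mv 399 (both (five 7 399 431) (mv 367 (both (five 7 367 400) (mv 430 (both (five 5 366 398) (mv 429 (both (five 7 397 397) (mv 558 (both (five 7 429 461) (mv 557 (both (five 2 525 529) (five 6 461 589))))))))))))) (mv 431 (both (five 7 399 399) (mv 433 (both (five 5 400 401) (mv 430 (both (five 2 429 461) (mv 397 (both (five 3 397 398) (five 7 397 429)))))))))))))) (both (mv 431 (both (mv 399 (both (five 5 398 430) (five 7 399 432))) (both (mv 463 (both (five 7 431 560) (mv 461 (both (five 0 461 497) (mv 432 (both (five 1 429 433) (five 1 428 460))))))) (mv 399 (both (five 5 398 430) (mv 463 (both (five 4 367 367) (five 7 431 560)))))))) (mv 463 (both (mv 431 (both (five 7 431 560) (mv 399 (both (five 4 367 367) (five 7 399 432))))) (both (mv 461 (both (five 0 461 497) (mv 432 (both (five 1 429 433) (mv 558 (both (five 7 429 429) (mv 557 (both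 (five 2 525 529) (five 6 461 589))))))))) (mv 431 (both (five 5 430 558) (five 7 431 560))))))))))) (both (mv 529 (both (five 3 493 493) (mv 530 (both (mv 563 (both (five 0 527 562) (mv 531 (both (five 0 528 564) (mv 500 (both (five 1 496 499) (mv 532 (both (five 3 496 497) (five 1 497 501))))))))) (both (mv 499 (both (five 1 495 498) (mv 531 (both (five 1 496 500) (mv 563 (both (five 0 527 562) (five 0 528 564))))))) (both (mv 497 (both (five 1 494 498) (mv 531 (both (five 3 496 532) (mv 563 (both (five 0 527 562) (five 0 528 564))))))) (mv 498 (both (five 1 494 497) (five 1 495 499))))))))) (mv 431 (both (mv 399 (both (five 7 399 432) (mv 463 (both (five 4 367 367) (five 7 431 560))))) (both (mv 463 (both (five 7 431 560) (mv 462 (both (five 5 430 558) (mv 493 (both (five 3 493 529) (mv 492 (both (five 2 460 461) (five 1 459 491))))))))) (mv 432 (both (five 7 399 399) (mv 401 (both (five 5 400 433) (mv 400 (both (five 5 368 369) (mv 402 (both (five 2 399 403) (mv 429 (both (five 1 397 430) (mv 493 (both (five 3 493 529) (mv 461 (both (five 4 397 397) (mv 558 (both (five 7 429 462) (five 7 461 590))))))))))))))))))))))))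 (both (mv 493 (both (mv 492 (both (five 3 492 525) (mv 494 (both (five 0 491 491) (five 3 493 529))))) (both (mv 431 (both (mv 399 (both (five 7 399 432) (mv 463 (both (five 4 367 367) (five 7 431 560))))) (both (mv 432 (both (five 7 399 399) (mv 401 (both (five 5 400 433) (mv 400 (both (five 5 368 369) (mv 402 (both (five 2 399 403) (mv 429 (both (five 1 397 430) (mv 494 (both (five 3 493 529) (mv 461 (both (five 4 397 397) (mv 558 (both (five 7 429 462) (five 7 461 590))))))))))))))))) (mv 463 (both (five 7 431 560) (mv 494 (both (five 3 493 529) (mv 462 (both (five 5 430 558) (mv 492 (both (five 2 460 461) (five 1 459 491)))))))))))) (both (mv 525 (both (five 3 492 492) (mv 557 (both (five 2 524 556) (mv 558 (both (five 2 525 529) (mv 461 (both (five 4 429 429) (five 4 461 590))))))))) (both (mv 431 (both (mv 399 (both (five 7 399 432) (mv 463 (both (five 4 367 367) (five 7 431 560))))) (both (mv 432 (both (five 7 399 399) (mv 401 (both (five 5 400 433) (mv 400 (both (five 5 368 369) (mv 402 (both (five 2 399 403) (mv 429 (both (five 1 397 430) (mv 494 (both (five 3 493 529) (mv 461 (both (five 4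 397 397) (mv 558 (both (five 7 429 462) (five 7 461 590))))))))))))))))) (mv 463 (both (five 7 431 560) (mv 494 (both (five 3 493 529) (mv 558 (both (five 5 430 462) (mv 461 (both (five 7 461 590) (mv 429 (both (five 4 397 397) (five 4 429 525)))))))))))))) (mv 432 (both (mv 399 (both (five 7 399 431) (mv 400 (both (five 7 367 367) (mv 401 (both (five 5 368 369) (five 5 400 433))))))) (both (mv 401 (both (five 5 400 433) (mv 400 (both (five 5 368 369) (mv 399 (both (five 7 367 367) (mv 525 (both (five 3 492 492) (mv 556 (both (five 2 524 557) (mv 524 (both (five 2 523 555) (mv 429 (both (five 6 428 461) (mv 398 (both (five 2 397 430) (mv 365 (both (five 3 365 366) (mv 397 (both (five 3 364 364) (five 2 396 428))))))))))))))))))))) (both (mv 433 (both (five 5 400 401) (mv 525 (both (five 3 492 492) (mv 556 (both (five 2 524 557) (mv 524 (both (five 2 523 555) (mv 461 (both (five 6 428 429) (mv 462 (both (five 1 429 463) (mv 430 (both (five 2 429 431) (mv 398 (both (five 6 365 366) (five 6 397 494))))))))))))))))) (mv 431 (both (five 7 399 399) (mv 463 (both (five 7 431 560) (mv 492 (both (five 3 492 525)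 (mv 461 (both (five 2 460 462) (mv 494 (both (five 0 491 491) (mv 429 (both (five 4 397 397) (mv 430 (both (five 0 428 428) (five 2 428 460)))))))))))))))))))))))) (both (mv 525 (both (five 1 493 497) (mv 492 (both (five 3 492 493) (mv 524 (both (five 3 491 491) (mv 556 (both (five 2 523 555) (five 2 524 557))))))))) (mv 497 (both (five 1 493 525) (mv 498 (both (five 2 495 499) (five 1 494 529))))))))) (both (mv 526 (both (mv 497 (both (five 1 493 525) (mv 498 (both (five 2 495 499) (five 1 494 529))))) (both (mv 529 (both (mv 493 (both (five 3 493 494) (mv 558 (both (five 2 525 557) (mv 530 (both (five 2 526 559) (mv 563 (both (five 0 527 562) (mv 531 (both (five 0 528 564) (mv 500 (both (five 1 496 499) (mv 532 (both (five 3 496 497) (five 1 497 501))))))))))))))) (both (mv 493 (both (five 3 493 494) (mv 558 (both (five 2 525 557) (mv 530 (both (five 2 526 559) (mv 499 (both (five 1 495 498) (mv 531 (both (five 1 496 500) (mv 563 (both (five 0 527 562) (five 0 528 564))))))))))))) (both (mv 530 (both (mv 563 (both (five 0 527 562) (mv 531 (both (five 0 528 564) (mv 500 (both (five 1 496 499) (mv 532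 (both (five 3 496 497) (five 1 497 501))))))))) (both (mv 499 (both (five 1 495 498) (mv 531 (both (five 1 496 500) (mv 563 (both (five 0 527 562) (five 0 528 564))))))) (both (mv 497 (both (five 1 494 498) (mv 531 (both (five 3 496 532) (mv 563 (both (five 0 527 562) (five 0 528 564))))))) (mv 498 (both (five 1 494 497) (five 1 495 499))))))) (mv 559 (both (mv 591 (both (five 6 463 560) (five 5 495 623))) (mv 494 (both (five 3 493 493) (mv 462 (both (five 4 430 430) (mv 497 (both (five 1 494 498) (mv 461 (both (five 0 461 463) (mv 558 (both (five 7 429 429) (five 2 525 557))))))))))))))))) (both (mv 493 (both (mv 492 (both (five 3 492 525) (mv 494 (both (five 0 491 491) (five 3 493 529))))) (both (mv 529 (both (five 3 493 494) (mv 558 (both (five 2 525 557) (mv 530 (both (five 2 526 559) (mv 499 (both (five 1 495 498) (mv 531 (both (five 1 496 500) (mv 563 (both (five 0 527 562) (five 0 528 564))))))))))))) (both (mv 525 (both (five 3 492 492) (mv 557 (both (five 2 524 556) (mv 558 (both (five 2 525 529) (mv 461 (both (five 4 429 429) (five 4 461 590))))))))) (mv 525 (both (five 3 492 492) (mv 556 (both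 (five 2 524 557) (mv 524 (both (five 2 523 555) (mv 429 (both (five 6 428 461) (mv 559 (both (five 0 524 560) (mv 523 (both (five 0 523 558) (mv 490 (both (five 3 490 491) (mv 522 (both (five 3 489 489) (five 1 490 494))))))))))))))))))))) (mv 525 (both (five 1 493 497) (mv 492 (both (five 3 492 493) (mv 524 (both (five 3 491 491) (mv 556 (both (five 2 523 555) (five 2 524 557))))))))))))) (mv 432 (both (five 6 431 559) (mv 399 (both (five 7 399 431) (mv 400 (both (five 7 367 367) (mv 401 (both (five 5 368 369) (five 5 400 433)))))))))))) (both (mv 432 (both (mv 399 (both (five 7 399 431) (mv 400 (both (five 7 367 367) (mv 401 (both (five 5 368 369) (five 5 400 433))))))) (both (mv 400 (both (mv 399 (both (five 7 367 367) (five 7 399 431))) (both (mv 497 (both (five 4 400 529) (mv 368 (both (five 4 368 465) (mv 335 (both (five 7 335 367) (mv 336 (both (five 7 303 303) (mv 337 (both (five 5 304 305) (five 5 336 369))))))))))) (mv 431 (both (five 7 399 399) (mv 497 (both (five 4 400 529) (mv 368 (both (five 4 368 465) (mv 336 (both (five 6 335 463) (mv 337 (both (five 5 304 305) (five 5 336 369))))))))))))))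 (both (mv 401 (both (five 5 400 433) (mv 400 (both (five 5 368 369) (mv 367 (both (five 7 367 399) (mv 368 (both (five 7 335 335) (mv 497 (both (five 4 368 465) (five 4 400 529))))))))))) (both (mv 400 (both (mv 401 (both (five 5 368 369) (five 5 400 433))) (both (mv 497 (both (five 4 400 529) (mv 368 (both (five 4 368 465) (mv 335 (both (five 7 335 367) (mv 336 (both (five 7 303 303) (mv 337 (both (five 5 304 305) (five 5 336 369))))))))))) (mv 463 (both (mv 497 (both (five 4 400 529) (mv 462 (both (five 0 461 461) (mv 498 (both (five 0 462 465) (five 3 463 499))))))) (both (mv 433 (both (five 5 400 401) (mv 434 (both (five 2 431 435) (mv 462 (both (five 2 430 431) (five 1 429 461))))))) (mv 401 (both (five 5 400 433) (mv 497 (both (five 4 400 529) (mv 368 (both (five 4 368 465) (mv 335 (both (five 7 335 367) (mv 336 (both (five 7 303 303) (five 6 335 431))))))))))))))))) (mv 431 (both (five 7 399 399) (mv 430 (both (mv 429 (both (five 0 429 465) (mv 396 (both (five 3 396 397) (mv 428 (both (five 3 395 395) (five 0 428 463))))))) (both (mv 433 (both (five 5 400 401) (mv 462 (both (five 2 429 461) (mv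 434 (both (five 2 430 463) (mv 403 (both (five 1 399 402) (mv 435 (both (five 1 400 404) (mv 467 (both (five 0 431 466) (five 0 432 468))))))))))))) (mv 401 (both (five 5 400 433) (mv 429 (both (five 0 429 465) (mv 396 (both (five 3 396 397) (mv 428 (both (five 3 395 395) (mv 460 (both (five 2 427 459) (five 2 428 461))))))))))))))))))))) (both (mv 497 (both (mv 432 (both (mv 431 (both (five 7 399 399) (mv 559 (both (five 6 431 527) (mv 560 (both (five 7 431 463) (five 6 463 591))))))) (mv 400 (both (five 4 400 529) (mv 368 (both (five 4 368 465) (mv 369 (both (five 5 336 337) (five 5 368 401))))))))) (both (mv 560 (both (mv 592 (both (five 5 464 465) (mv 623 (both (five 6 495 591) (mv 624 (both (five 5 496 529) (five 6 527 655))))))) (both (mv 463 (both (five 7 431 431) (mv 462 (both (five 0 461 461) (mv 498 (both (five 0 462 465) (five 3 463 499))))))) (mv 431 (both (five 7 431 463) (mv 591 (both (five 6 463 559) (mv 592 (both (five 6 495 623) (mv 624 (both (five 5 496 529) (mv 625 (both (five 4 496 593) (five 4 528 657)))))))))))))) (both (mv 432 (both (mv 399 (both (five 7 399 431) (mv 527 (both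 (five 6 431 559) (mv 498 (both (five 2 495 499) (mv 526 (both (five 1 493 525) (five 1 494 529))))))))) (both (mv 400 (both (five 4 400 529) (mv 368 (both (five 4 368 465) (mv 369 (both (five 5 336 337) (five 5 368 401))))))) (mv 399 (both (five 7 399 431) (mv 400 (both (five 7 367 367) (mv 368 (both (five 4 368 465) (mv 369 (both (five 5 336 337) (five 5 368 401)))))))))))) (both (mv 463 (both (mv 462 (both (five 0 461 461) (mv 498 (both (five 0 462 465) (five 3 463 499))))) (mv 431 (both (five 7 431 560) (mv 399 (both (five 4 367 367) (five 7 399 432))))))) (mv 527 (both (mv 498 (both (five 2 495 499) (mv 526 (both (five 1 493 525) (five 1 494 529))))) (mv 559 (both (five 6 431 432) (mv 591 (both (five 6 463 560) (five 5 495 623)))))))))))) (both (mv 432 (both (mv 433 (both (five 5 400 401) (mv 559 (both (five 6 431 527) (mv 560 (both (five 5 432 465) (five 6 463 591))))))) (both (mv 399 (both (five 7 399 431) (mv 400 (both (five 7 367 367) (mv 369 (both (five 5 368 401) (mv 368 (both (five 5 336 337) (mv 497 (both (five 4 368 465) (five 4 400 529))))))))))) (both (mv 399 (both (five 7 399 431) (mv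 400 (both (five 7 367 367) (mv 497 (both (five 4 400 529) (mv 465 (both (five 4 368 368) (mv 560 (both (five 5 432 433) (five 5 464 592))))))))))) (mv 399 (both (five 7 399 431) (mv 400 (both (five 7 367 367) (mv 401 (both (five 5 368 369) (five 5 400 433))))))))))) (both (mv 432 (both (mv 433 (both (five 5 400 401) (mv 559 (both (five 6 431 527) (mv 560 (both (five 5 432 465) (five 6 463 591))))))) (both (mv 431 (both (five 7 399 399) (mv 559 (both (five 6 431 527) (mv 560 (both (five 7 431 463) (five 6 463 591))))))) (mv 399 (both (five 7 399 431) (mv 400 (both (five 7 367 367) (mv 401 (both (five 5 368 369) (five 5 400 433)))))))))) (mv 560 (both (mv 431 (both (five 7 431 463) (mv 432 (both (five 7 399 399) (mv 559 (both (five 6 431 527) (five 6 463 591))))))) (both (mv 465 (both (five 5 432 433) (mv 592 (both (five 5 464 497) (mv 623 (both (five 6 495 591) (mv 624 (both (five 6 527 655) (mv 625 (both (five 4 496 593) (five 4 528 657))))))))))) (mv 431 (both (five 7 431 463) (mv 432 (both (five 7 399 399) (mv 465 (both (five 5 432 433) (mv 429 (both (five 0 429 430) (mv 466 (both (five 3 431 467)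 (mv 497 (both (five 5 464 592) (mv 400 (both (five 4 368 368) (five 4 400 529)))))))))))))))))))))))))

theorem L97 : W (S 878694100701304956511192169158242687862212665431883220280182872118455237980908336946979793684870563807462937680039967586724118902039808942127312687095760289792) (S 784885786549833531320488544190045015298113042822317704829182315635174839420702084695508074289668935668725940674780061269931481541872213516403500561627429815059666587379242678688350151581784193630208) :=
  check_sound Env.nil (x := 464) (t := tL97) (by decide +kernel)

def tL98 : T :=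
  (both (mv 430 (both (mv 397 (both (five 7 397 429) (mv 398 (both (five 7 365 365) (mv 399 (both (five 5 366 367) (five 5 398 431))))))) (both (mv 525 (both (five 6 429 557) (mv 527 (both (five 4 430 559) (mv 495 (both (five 4 398 398) (five 1 492 524))))))) (mv 397 (both (five 7 397 429) (mv 399 (both (five 5 398 431) (mv 525 (both (five 6 429 557) (mv 527 (both (five 4 430 559) (mv 524 (both (five 1 492 495) (mv 491 (both (five 3 491 492) (mv 523 (both (five 3 490 490) (mv 555 (both (five 2 522 554) (five 2 523 556)))))))))))))))))))) (both (mv 558 (both (mv 429 (both (five 7 429 461) (mv 430 (both (five 7 397 397) (mv 431 (both (five 5 398 399) (five 5 430 463))))))) (mv 589 (both (five 6 461 557) (mv 590 (both (five 6 493 621) (mv 591 (both (five 4 462 559) (five 4 494 623))))))))) (both (mv 558 (both (mv 429 (both (five 7 429 461) (mv 430 (both (five 7 397 397) (mv 431 (both (five 5 398 399) (five 5 430 463))))))) (mv 557 (both (five 6 461 589) (mv 527 (both (five 2 525 529) (mv 556 (both (five 2 524 525) (five 1 523 555))))))))) (both (mv 558 (both (mv 429 (both (five 7 429 461) (mv 397 (both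 (five 7 397 430) (mv 591 (both (five 4 462 559) (mv 590 (both (five 4 494 623) (mv 495 (both (five 5 462 463) (mv 621 (both (five 6 493 589) (mv 622 (both (five 5 494 527) (five 6 525 653))))))))))))))) (both (mv 557 (both (five 6 461 589) (mv 527 (both (five 2 525 529) (mv 556 (both (five 2 524 525) (five 1 523 555))))))) (both (mv 429 (both (five 7 429 461) (mv 397 (both (five 7 397 430) (mv 591 (both (five 4 462 559) (mv 590 (both (five 4 494 623) (mv 495 (both (five 5 462 463) (mv 527 (both (five 5 494 622) (mv 557 (both (five 2 525 529) (mv 556 (both (five 2 524 525) (five 1 523 555))))))))))))))))) (mv 589 (both (five 6 461 557) (mv 590 (both (five 6 493 621) (mv 591 (both (five 4 462 559) (five 4 494 623))))))))))) (both (mv 558 (both (mv 429 (both (five 7 429 461) (mv 430 (both (five 7 397 397) (mv 431 (both (five 5 398 399) (five 5 430 463))))))) (both (mv 429 (both (five 7 429 461) (mv 430 (both (five 7 397 397) (mv 559 (both (five 4 430 527) (five 4 462 591))))))) (mv 591 (both (five 4 462 559) (mv 590 (both (five 4 494 623) (mv 495 (both (five 5 462 463) (mv 621 (both (five 6 493 589) (mv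 622 (both (five 5 494 527) (five 6 525 653)))))))))))))) (mv 558 (both (mv 591 (both (five 4 462 559) (mv 590 (both (five 4 494 623) (mv 495 (both (five 5 462 463) (mv 621 (both (five 6 493 589) (mv 622 (both (five 5 494 527) (five 6 525 653))))))))))) (both (mv 557 (both (five 6 461 589) (mv 527 (both (five 2 525 529) (mv 556 (both (five 2 524 525) (five 1 523 555))))))) (both (mv 463 (both (five 5 430 431) (mv 495 (both (five 5 462 590) (mv 559 (both (five 4 462 591) (mv 560 (both (five 7 463 592) (mv 529 (both (five 1 525 557) (mv 530 (both (five 2 526 527) (five 2 527 531))))))))))))) (mv 589 (both (five 6 461 557) (mv 590 (both (five 6 493 621) (mv 591 (both (five 4 462 559) (five 4 494 623))))))))))))))))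

theorem L98 : W (S 1098367625876631195638990211447803359827765831789854025350228590148069047476135421183724742106088204759328672100049959483405148627549761177659140858869700362240) (S 37375513600476177381669822548912320611657924558115898873521118983536399840873289671480224563937828042644174554343322659852404519657123537197560118082427891188164244392076816514578904488050656542720) :=
  check_sound Env.nil (x := 462) (t := tL98) (by decide +kernel)

end P062.Cert
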