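import Vale.Agent.P062.Check
import Vale.Agent.P062.Cert.C16
import Vale.Agent.P062.Cert.C17

/-! Snaky certificate, part 18 (machine generated, checked by the kernel) -/

set_option maxRecDepth 100000

namespace P062.Cert

open T

def tL99 : T :=
  (both (mv 526 (both (mv 527 (both (mv 497 (both (five 1 493 525) (mv 498 (both (five 2 495 499) (five 1 494 529))))) (both (mv 558 (both (mv 557 (both (five 2 525 529) (mv 556 (both (five 1 523 555) (five 1 524 559))))) (both (mv 590 (both (mv 621 (both (five 6 493 589) (mv 622 (both (five 6 525 653) (mv 623 (both (five 4 494 591) (five 4 526 655))))))) (both (mv 621 (both (five 6 493 589) (mv 622 (both (five 6 525 653) (mv 654 (both (five 5 526 559) (mv 655 (both (five 4 526 623) (five 4 558 687))))))))) (both (mv 621 (both (five 6 493 589) (mv 622 (both (five 6 525 653) (mv 559 (both (five 5 526 654) (mv 462 (both (five 4 430 430) (five 4 462 591))))))))) (mv 591 (both (five 4 494 623) (mv 462 (both (five 4 462 559) (mv 429 (both (five 7 429 461) (mv 430 (both (five 7 397 397) (mv 431 (both (five 5 398 399) (five 5 430 463))))))))))))))) (mv 557 (both (five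 2 525 529) (mv 462 (both (five 6 461 589) (mv 429 (both (five 7 429 461) (mv 430 (both (five 7 397 397) (mv 431 (both (five 5 398 399) (five 5 430 463)))))))))))))) (mv 525 (both (five 1 493 497) (mv 557 (both (five 2 524 556) (mv 462 (both (five 6 429 430) (mv 589 (both (five 6 461 558) (five 5 493 621)))))))))))) (both (ref 0) (both (mv 558 (both (mv 462 (both (mv 429 (both (five 7 429 461) (mv 430 (both (five 7 397 397) (mv 431 (both (five 5 398 399) (five 5 430 463))))))) (mv 589 (both (five 6 461 557) (mv 590 (both (five 6 493 621) (mv 591 (both (five 4 462 559) (five 4 494 623))))))))) (both (mv 495 (both (mv 590 (both (five 5 462 463) (mv 621 (both (five 6 493 589) (mv 622 (both (five 6 525 653) (mv 623 (both (five 4 494 591) (five 4 526 655))))))))) (mv 497 (both (five 2 493 525) (mv 465 (both (five 1 462 466) (mv 433 (both (five 6 400 401) (mv 529 (both (five 0 494 530) (five 6 432 560))))))))))) (both (mv 462 (both (mv 429 (both (five 7 429 461) (mv 430 (both (five 7 397 397) (mv 431 (both (five 5 398 399) (five 5 430 463))))))) (both (mv 557 (both (five 6 461 589) (mv 559 (both (five 4 462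 591) (mv 560 (both (five 1 525 529) (mv 525 (both (five 3 524 524) (mv 495 (both (five 2 493 497) (mv 592 (both (five 7 463 463) (five 0 557 593))))))))))))) (mv 429 (both (five 7 429 461) (mv 397 (both (five 7 397 430) (mv 557 (both (five 6 461 589) (mv 559 (both (five 4 462 591) (mv 560 (both (five 1 525 529) (mv 525 (both (five 3 524 524) (mv 497 (both (five 2 493 495) (mv 592 (both (five 5 464 465) (five 0 557 593)))))))))))))))))))) (both (mv 591 (both (mv 623 (both (five 4 494 590) (mv 559 (both (five 7 526 655) (mv 560 (both (five 6 495 592) (mv 557 (both (five 1 525 529) (mv 524 (both (five 3 524 525) (mv 556 (both (five 3 523 523) (mv 588 (both (five 2 555 587) (five 2 556 589))))))))))))))) (both (mv 462 (both (five 4 462 559) (mv 429 (both (five 7 429 461) (mv 430 (both (five 7 397 397) (mv 557 (both (five 6 429 525) (five 6 461 589))))))))) (both (mv 590 (both (five 4 494 623) (mv 589 (both (five 6 493 621) (mv 557 (both (five 6 461 462) (mv 556 (both (five 0 555 555) (five 3 556 592))))))))) (mv 559 (both (five 4 462 462) (mv 623 (both (five 4 494 590) (five 7 526 655))))))))) (mv 495 (both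 (mv 497 (both (five 2 493 525) (mv 465 (both (five 1 462 466) (mv 433 (both (five 6 400 401) (mv 529 (both (five 0 494 530) (five 6 432 560))))))))) (mv 463 (both (five 5 462 590) (mv 431 (both (five 4 399 399) (five 5 430 462)))))))))))) (both (mv 495 (both (mv 497 (both (mv 498 (both (five 2 494 527) (mv 530 (both (five 0 494 529) (five 0 495 531))))) (both (mv 466 (both (five 1 462 465) (mv 498 (both (five 1 463 467) (mv 499 (both (five 2 495 527) (mv 531 (both (five 0 495 530) (five 0 496 532))))))))) (mv 465 (both (five 1 462 466) (mv 433 (both (five 6 400 401) (mv 560 (both (five 6 432 529) (five 5 464 592)))))))))) (both (mv 463 (both (mv 431 (both (five 4 399 399) (mv 560 (both (five 4 431 527) (five 7 463 592))))) (both (mv 529 (both (mv 530 (both (five 3 494 527) (five 3 495 531))) (both (mv 558 (both (five 5 462 590) (mv 557 (both (five 2 525 527) (mv 560 (both (five 1 525 559) (five 7 463 592))))))) (mv 530 (both (five 3 495 531) (mv 558 (both (five 5 462 590) (mv 560 (both (five 7 463 592) (mv 557 (both (five 1 525 559) (mv 462 (both (five 6 461 589) (mv 461 (both (five 7 429 429) (five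 0 460 460)))))))))))))))) (mv 431 (both (five 6 398 399) (mv 558 (both (five 5 430 462) (five 5 462 590)))))))) (both (mv 497 (both (mv 465 (both (five 1 462 466) (mv 433 (both (five 6 400 401) (mv 560 (both (five 6 432 529) (five 5 464 592))))))) (mv 462 (both (five 3 461 461) (mv 463 (both (five 3 462 498) (mv 431 (both (five 4 399 399) (five 5 430 558))))))))) (both (mv 463 (both (mv 431 (both (five 4 399 399) (mv 560 (both (five 4 431 527) (five 7 463 592))))) (both (mv 497 (both (mv 462 (both (five 3 461 461) (five 3 462 498))) (both (mv 462 (both (five 3 461 461) (mv 558 (both (five 5 462 590) (mv 557 (both (five 6 461 589) (mv 559 (both (five 4 462 591) (mv 527 (both (five 4 430 430) (five 1 524 556))))))))))) (mv 466 (both (five 1 462 465) (mv 498 (both (five 1 463 467) (mv 499 (both (five 2 495 527) (mv 531 (both (five 0 495 530) (five 0 496 532)))))))))))) (mv 431 (both (five 6 398 399) (mv 558 (both (five 5 430 462) (five 5 462 590)))))))) (mv 497 (both (mv 498 (both (five 2 494 527) (mv 530 (both (five 0 494 529) (five 0 495 531))))) (both (mv 462 (both (five 3 461 461) (mv 465 (both (five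 1 462 466) (mv 433 (both (five 6 400 401) (mv 529 (both (five 0 494 530) (mv 432 (both (five 7 400 400) (mv 434 (both (five 5 401 402) (mv 431 (both (five 2 430 463) (mv 399 (both (five 3 398 398) (five 5 398 430))))))))))))))))) (mv 462 (both (five 3 461 461) (mv 463 (both (five 3 462 498) (mv 431 (both (five 4 399 399) (five 5 430 558))))))))))))))) (both (mv 497 (both (mv 525 (both (five 2 493 495) (five 1 493 527))) (both (mv 527 (both (five 1 493 525) (mv 498 (both (five 2 495 499) (five 1 494 529))))) (both (mv 495 (both (mv 498 (both (five 2 494 527) (mv 530 (both (five 0 494 529) (five 0 495 531))))) (both (mv 466 (both (five 1 462 465) (mv 498 (both (five 1 463 467) (mv 499 (both (five 2 495 527) (mv 531 (both (five 0 495 530) (five 0 496 532))))))))) (mv 465 (both (five 1 462 466) (mv 433 (both (five 6 400 401) (mv 560 (both (five 6 432 529) (five 5 464 592)))))))))) (mv 495 (both (five 2 493 525) (mv 465 (both (five 1 462 466) (mv 433 (both (five 6 400 401) (mv 529 (both (five 0 494 530) (five 6 432 560))))))))))))) (mv 462 (both (mv 558 (both (mv 429 (both (five 7 429 461) (mv 430 (both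 (five 7 397 397) (mv 431 (both (five 5 398 399) (five 5 430 463))))))) (mv 589 (both (five 6 461 557) (mv 590 (both (five 6 493 621) (mv 591 (both (five 4 462 559) (five 4 494 623))))))))) (both (mv 430 (both (mv 397 (both (five 7 397 429) (mv 398 (both (five 7 365 365) (mv 399 (both (five 5 366 367) (five 5 398 431))))))) (both (mv 525 (both (five 6 429 557) (mv 527 (both (five 4 430 559) (mv 495 (both (five 4 398 398) (five 1 492 524))))))) (mv 397 (both (five 7 397 429) (mv 399 (both (five 5 398 431) (mv 525 (both (five 6 429 557) (mv 527 (both (five 4 430 559) (mv 524 (both (five 1 492 495) (mv 491 (both (five 3 491 492) (mv 523 (both (five 3 490 490) (mv 555 (both (five 2 522 554) (five 2 523 556)))))))))))))))))))) (both (mv 558 (both (mv 589 (both (five 6 461 557) (mv 590 (both (five 6 493 621) (mv 591 (both (five 4 462 559) (five 4 494 623))))))) (both (mv 429 (both (five 7 429 461) (mv 463 (both (five 5 430 431) (mv 495 (both (five 5 462 590) (mv 497 (both (five 3 462 498) (five 2 493 525))))))))) (mv 429 (both (five 7 429 461) (mv 431 (both (five 5 430 463) (mv 557 (both (five 6 461 589) (mv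 559 (both (five 4 462 591) (mv 527 (both (five 1 524 556) (mv 497 (both (five 1 493 525) (mv 498 (both (five 2 494 495) (five 2 495 499)))))))))))))))))) (both (mv 497 (both (mv 525 (both (five 2 493 495) (five 1 493 527))) (both (mv 525 (both (five 1 493 527) (mv 557 (both (five 6 429 430) (mv 589 (both (five 6 461 558) (five 5 493 621))))))) (mv 461 (both (five 3 461 495) (mv 429 (both (five 7 429 558) (mv 397 (both (five 4 365 365) (five 7 397 430)))))))))) (both (mv 558 (both (mv 429 (both (five 7 429 461) (mv 430 (both (five 7 397 397) (mv 431 (both (five 5 398 399) (five 5 430 463))))))) (both (mv 429 (both (five 7 429 461) (mv 430 (both (five 7 397 397) (mv 559 (both (five 4 430 527) (five 4 462 591))))))) (mv 591 (both (five 4 462 559) (mv 590 (both (five 4 494 623) (mv 495 (both (five 5 462 463) (mv 621 (both (five 6 493 589) (mv 622 (both (five 5 494 527) (five 6 525 653)))))))))))))) (mv 497 (both (mv 525 (both (five 2 493 495) (five 1 493 527))) (both (mv 525 (both (five 1 493 527) (mv 557 (both (five 6 429 430) (mv 589 (both (five 6 461 558) (five 5 493 621))))))) (mv 495 (both (five 3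 461 461) (mv 463 (both (five 3 462 498) (mv 431 (both (five 4 399 399) (five 5 430 558)))))))))))))))))))))) (both (mv 526 (both (mv 527 (both (mv 497 (both (five 1 493 525) (mv 498 (both (five 2 495 499) (five 1 494 529))))) (both (mv 558 (both (mv 557 (both (five 2 525 529) (mv 556 (both (five 1 523 555) (five 1 524 559))))) (both (mv 590 (both (mv 621 (both (five 6 493 589) (mv 622 (both (five 6 525 653) (mv 623 (both (five 4 494 591) (five 4 526 655))))))) (both (mv 621 (both (five 6 493 589) (mv 622 (both (five 6 525 653) (mv 654 (both (five 5 526 559) (mv 655 (both (five 4 526 623) (five 4 558 687))))))))) (both (mv 621 (both (five 6 493 589) (mv 622 (both (five 6 525 653) (mv 559 (both (five 5 526 654) (mv 462 (both (five 4 430 430) (five 4 462 591))))))))) (mv 591 (both (five 4 494 623) (mv 462 (both (five 4 462 559) (mv 429 (both (five 7 429 461) (mv 430 (both (five 7 397 397) (mv 431 (both (five 5 398 399) (five 5 430 463))))))))))))))) (mv 557 (both (five 2 525 529) (mv 462 (both (five 6 461 589) (mv 429 (both (five 7 429 461) (mv 430 (both (five 7 397 397) (mv 431 (both (five 5 398 399)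 (five 5 430 463)))))))))))))) (mv 525 (both (five 1 493 497) (mv 557 (both (five 2 524 556) (mv 462 (both (five 6 429 430) (mv 589 (both (five 6 461 558) (five 5 493 621)))))))))))) (both (mv 558 (both (mv 462 (both (mv 429 (both (five 7 429 461) (mv 430 (both (five 7 397 397) (mv 431 (both (five 5 398 399) (five 5 430 463))))))) (mv 589 (both (five 6 461 557) (mv 590 (both (five 6 493 621) (mv 591 (both (five 4 462 559) (five 4 494 623))))))))) (both (mv 590 (both (mv 621 (both (five 6 493 589) (mv 622 (both (five 6 525 653) (mv 623 (both (five 4 494 591) (five 4 526 655))))))) (both (mv 493 (both (five 7 461 461) (mv 622 (both (five 7 493 525) (mv 623 (both (five 4 494 591) (five 4 526 655))))))) (both (mv 493 (both (five 7 461 461) (mv 621 (both (five 6 493 589) (mv 622 (both (five 7 493 525) (five 6 525 653))))))) (mv 589 (both (five 6 493 621) (mv 588 (both (mv 461 (both (five 7 461 493) (mv 587 (both (five 1 555 559) (mv 554 (both (five 3 554 555) (mv 586 (both (five 3 553 553) (five 1 554 557))))))))) (both (mv 461 (both (five 7 461 493) (mv 591 (both (five 4 494 623) (mv 556 (both (five 3 555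 555) (mv 557 (both (five 3 556 592) (mv 559 (both (five 2 556 560) (mv 523 (both (five 3 523 524) (mv 620 (both (five 2 587 619) (mv 652 (both (five 5 524 525) (five 5 556 684))))))))))))))))) (both (mv 461 (both (five 7 461 493) (mv 591 (both (five 4 494 623) (mv 555 (both (five 3 555 556) (mv 587 (both (five 3 554 554) (mv 619 (both (five 2 586 618) (five 2 587 620))))))))))) (mv 559 (both (five 1 555 587) (mv 560 (both (five 2 556 557) (five 1 556 591))))))))))))))) (both (mv 462 (both (mv 429 (both (five 7 429 461) (mv 430 (both (five 7 397 397) (mv 431 (both (five 5 398 399) (five 5 430 463))))))) (both (mv 431 (both (five 5 430 463) (mv 430 (both (five 5 398 399) (mv 557 (both (five 6 429 525) (five 6 461 589))))))) (both (mv 429 (both (five 7 429 461) (mv 430 (both (five 7 397 397) (mv 557 (both (five 6 429 525) (five 6 461 589))))))) (mv 461 (both (five 7 429 429) (mv 463 (both (five 5 430 431) (mv 557 (both (five 6 461 589) (mv 559 (both (five 4 462 591) (mv 560 (both (five 1 525 529) (mv 524 (both (five 3 524 525) (mv 556 (both (five 3 523 523) (mv 588 (both (five 2 555 587) (mv 492 (both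 (five 5 460 493) (mv 491 (both (five 7 459 459) (five 2 459 460))))))))))))))))))))))))) (both (mv 462 (both (mv 429 (both (five 7 429 461) (mv 430 (both (five 7 397 397) (mv 431 (both (five 5 398 399) (five 5 430 463))))))) (both (mv 431 (both (five 5 430 463) (mv 430 (both (five 5 398 399) (mv 397 (both (five 7 397 429) (mv 398 (both (five 7 365 365) (mv 525 (both (five 6 397 493) (five 6 429 557))))))))))) (both (mv 431 (both (five 5 430 463) (mv 430 (both (five 5 398 399) (mv 525 (both (five 6 429 557) (mv 493 (both (five 6 397 398) (mv 590 (both (five 7 461 461) (five 7 493 622))))))))))) (both (mv 429 (both (five 7 429 461) (mv 430 (both (five 7 397 397) (mv 525 (both (five 6 429 557) (mv 493 (both (five 6 397 398) (mv 590 (both (five 7 493 622) (mv 591 (both (five 4 462 559) (five 4 494 623))))))))))))) (mv 431 (both (five 5 430 463) (mv 461 (both (five 7 429 429) (mv 590 (both (five 7 461 493) (mv 591 (both (five 4 462 559) (five 4 494 623)))))))))))))) (both (mv 590 (both (mv 621 (both (five 6 493 589) (mv 622 (both (five 6 525 653) (mv 623 (both (five 4 494 591) (five 4 526 655))))))) (both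 (mv 493 (both (five 7 461 461) (mv 621 (both (five 6 493 589) (mv 622 (both (five 7 493 525) (five 6 525 653))))))) (mv 591 (both (five 4 494 623) (mv 462 (both (five 4 462 559) (mv 429 (both (five 7 429 461) (mv 430 (both (five 7 397 397) (mv 431 (both (five 5 398 399) (five 5 430 463)))))))))))))) (both (mv 462 (both (mv 429 (both (five 7 429 461) (mv 430 (both (five 7 397 397) (mv 431 (both (five 5 398 399) (five 5 430 463))))))) (both (mv 431 (both (five 5 430 463) (mv 430 (both (five 5 398 399) (mv 557 (both (five 6 429 525) (five 6 461 589))))))) (both (mv 429 (both (five 7 429 461) (mv 430 (both (five 7 397 397) (mv 557 (both (five 6 429 525) (five 6 461 589))))))) (mv 431 (both (five 5 430 463) (mv 461 (both (five 7 429 429) (mv 589 (both (five 6 461 557) (mv 590 (both (five 7 461 493) (five 6 493 621))))))))))))) (mv 590 (both (mv 621 (both (five 6 493 589) (mv 622 (both (five 6 525 653) (mv 623 (both (five 4 494 591) (five 4 526 655))))))) (both (mv 591 (both (five 4 494 623) (mv 462 (both (five 4 462 559) (mv 431 (both (five 5 430 463) (mv 430 (both (five 5 398 399) (mv 397 (both (five 7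 397 429) (mv 398 (both (five 7 365 365) (mv 525 (both (five 6 397 493) (five 6 429 557))))))))))))))) (both (mv 621 (both (five 6 493 589) (mv 622 (both (five 6 525 653) (mv 525 (both (five 7 493 493) (mv 654 (both (five 7 525 557) (mv 655 (both (five 4 526 623) (five 4 558 687))))))))))) (mv 621 (both (five 6 493 589) (mv 622 (both (five 6 525 653) (mv 525 (both (five 7 493 493) (mv 557 (both (five 7 525 654) (mv 462 (both (five 6 429 430) (mv 431 (both (five 5 430 463) (mv 559 (both (five 4 462 591) (mv 524 (both (five 0 523 523) (five 3 524 560)))))))))))))))))))))))))))) (both (mv 462 (both (mv 558 (both (mv 429 (both (five 7 429 461) (mv 430 (both (five 7 397 397) (mv 431 (both (five 5 398 399) (five 5 430 463))))))) (mv 589 (both (five 6 461 557) (mv 590 (both (five 6 493 621) (mv 591 (both (five 4 462 559) (five 4 494 623))))))))) (both (mv 527 (both (mv 430 (both (five 4 430 559) (mv 397 (both (five 7 397 429) (mv 398 (both (five 7 365 365) (mv 399 (both (five 5 366 367) (five 5 398 431))))))))) (mv 529 (both (five 3 493 493) (mv 530 (both (mv 563 (both (five 0 527 562) (mv 531 (both (five 0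 528 564) (mv 500 (both (five 1 496 499) (mv 532 (both (five 3 496 497) (five 1 497 501))))))))) (both (mv 499 (both (five 1 495 498) (mv 531 (both (five 1 496 500) (mv 563 (both (five 0 527 562) (five 0 528 564))))))) (both (mv 497 (both (five 1 494 498) (mv 531 (both (five 3 496 532) (mv 563 (both (five 0 527 562) (five 0 528 564))))))) (mv 498 (both (five 1 494 497) (five 1 495 499))))))))))) (both (mv 558 (both (mv 557 (both (five 6 461 589) (mv 527 (both (five 2 525 529) (mv 556 (both (five 1 523 555) (five 1 524 559))))))) (both (mv 461 (both (five 7 429 429) (mv 590 (both (five 7 461 493) (mv 591 (both (five 4 462 559) (five 4 494 623))))))) (mv 461 (both (five 7 429 429) (mv 589 (both (five 6 461 557) (mv 590 (both (five 7 461 493) (five 6 493 621)))))))))) (both (mv 431 (both (mv 399 (both (five 5 398 430) (mv 463 (both (five 6 366 367) (five 5 430 558))))) (both (mv 430 (both (five 5 398 399) (mv 461 (both (mv 432 (both (five 2 429 433) (mv 460 (both (five 1 427 459) (five 1 428 463))))) (both (mv 397 (both (five 7 397 429) (mv 398 (both (five 7 365 365) (mv 366 (both (five 6 365 493) (mv 334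 (both (five 4 334 463) (mv 335 (both (five 5 302 303) (five 5 334 367))))))))))) (mv 429 (both (five 7 397 397) (mv 432 (both (five 2 429 433) (five 2 428 460)))))))))) (both (mv 558 (both (five 5 430 463) (mv 461 (both (five 7 429 429) (mv 589 (both (five 6 461 557) (mv 590 (both (five 7 461 493) (five 6 493 621))))))))) (mv 430 (both (five 5 398 399) (mv 429 (both (five 7 397 397) (mv 461 (both (five 7 429 558) (mv 432 (both (five 2 429 433) (five 2 428 460))))))))))))) (mv 527 (both (mv 529 (both (five 3 493 493) (mv 530 (both (mv 563 (both (five 0 527 562) (mv 531 (both (five 0 528 564) (mv 500 (both (five 1 496 499) (mv 532 (both (five 3 496 497) (five 1 497 501))))))))) (both (mv 499 (both (five 1 495 498) (mv 531 (both (five 1 496 500) (mv 563 (both (five 0 527 562) (five 0 528 564))))))) (both (mv 497 (both (five 1 494 498) (mv 531 (both (five 3 496 532) (mv 563 (both (five 0 527 562) (five 0 528 564))))))) (mv 498 (both (five 1 494 497) (five 1 495 499))))))))) (mv 559 (both (five 4 430 430) (mv 591 (both (five 4 462 558) (five 7 494 623)))))))))))) (both (mv 527 (both (mv 497 (both (five 1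 493 525) (mv 498 (both (five 2 495 499) (five 1 494 529))))) (both (mv 529 (both (five 3 493 493) (mv 530 (both (mv 563 (both (five 0 527 562) (mv 531 (both (five 0 528 564) (mv 500 (both (five 1 496 499) (mv 532 (both (five 3 496 497) (five 1 497 501))))))))) (both (mv 499 (both (five 1 495 498) (mv 531 (both (five 1 496 500) (mv 563 (both (five 0 527 562) (five 0 528 564))))))) (both (mv 497 (both (five 1 494 498) (mv 531 (both (five 3 496 532) (mv 563 (both (five 0 527 562) (five 0 528 564))))))) (mv 498 (both (five 1 494 497) (five 1 495 499))))))))) (both (mv 493 (both (five 3 493 529) (mv 492 (both (five 0 491 491) (five 3 492 525))))) (mv 525 (both (five 1 493 497) (mv 492 (both (five 3 492 493) (mv 524 (both (five 3 491 491) (mv 556 (both (five 2 523 555) (five 2 524 557))))))))))))) (both (mv 462 (both (mv 430 (both (mv 397 (both (five 7 397 429) (mv 398 (both (five 7 365 365) (mv 399 (both (five 5 366 367) (five 5 398 431))))))) (mv 525 (both (five 6 429 557) (mv 527 (both (five 1 493 497) (five 4 430 559))))))) (both (mv 558 (both (mv 589 (both (five 6 461 557) (mv 590 (both (five 6 493 621)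 (mv 591 (both (five 4 462 559) (five 4 494 623))))))) (both (mv 461 (both (five 7 429 429) (mv 589 (both (five 6 461 557) (mv 590 (both (five 7 461 493) (five 6 493 621))))))) (both (mv 461 (both (five 7 429 429) (mv 590 (both (five 7 461 493) (mv 591 (both (five 4 462 559) (five 4 494 623))))))) (mv 429 (both (five 7 429 461) (mv 431 (both (five 5 430 463) (mv 557 (both (five 6 461 589) (mv 559 (both (five 4 462 591) (mv 527 (both (five 1 524 556) (mv 525 (both (five 1 493 497) (mv 524 (both (five 0 523 523) (five 3 524 560))))))))))))))))))) (both (mv 430 (both (mv 397 (both (five 7 397 429) (mv 398 (both (five 7 365 365) (mv 399 (both (five 5 366 367) (five 5 398 431))))))) (both (mv 399 (both (five 5 398 431) (mv 398 (both (five 5 366 367) (mv 525 (both (five 6 397 493) (mv 527 (both (five 1 493 497) (five 4 430 559))))))))) (both (mv 397 (both (five 7 397 429) (mv 398 (both (five 7 365 365) (mv 525 (both (five 6 397 493) (mv 527 (both (five 1 493 497) (five 4 430 559))))))))) (mv 397 (both (five 7 397 429) (mv 431 (both (five 5 398 399) (mv 463 (both (five 5 430 558) (mv 527 (both (five 4 430 559)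 (mv 525 (both (five 1 493 497) (mv 492 (both (five 3 492 493) (mv 524 (both (five 3 491 491) (mv 555 (both (five 2 523 556) (mv 523 (both (five 2 522 554) (mv 460 (both (five 6 427 428) (mv 461 (both (five 1 428 432) (five 1 427 459))))))))))))))))))))))))))) (both (mv 431 (both (mv 399 (both (five 5 398 430) (mv 463 (both (five 6 366 367) (five 5 430 558))))) (both (mv 430 (both (five 5 398 399) (mv 461 (both (mv 432 (both (five 2 429 433) (mv 460 (both (five 1 427 459) (five 1 428 463))))) (both (mv 397 (both (five 7 397 429) (mv 398 (both (five 7 365 365) (mv 366 (both (five 6 365 493) (mv 334 (both (five 4 334 463) (mv 335 (both (five 5 302 303) (five 5 334 367))))))))))) (mv 429 (both (five 7 397 397) (mv 432 (both (five 2 429 433) (five 2 428 460)))))))))) (both (mv 558 (both (five 5 430 463) (mv 461 (both (five 7 429 429) (mv 589 (both (five 6 461 557) (mv 590 (both (five 7 461 493) (five 6 493 621))))))))) (mv 430 (both (five 5 398 399) (mv 429 (both (five 7 397 397) (mv 461 (both (five 7 429 558) (mv 432 (both (five 2 429 433) (five 2 428 460))))))))))))) (both (mv 558 (both (mv 431 (both (five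 5 430 463) (mv 399 (both (five 5 398 430) (mv 591 (both (five 4 462 559) (mv 590 (both (five 4 494 623) (mv 493 (both (five 7 461 461) (mv 621 (both (five 6 493 589) (mv 622 (both (five 7 493 525) (five 6 525 653))))))))))))))) (both (mv 431 (both (five 5 430 463) (mv 430 (both (five 5 398 399) (mv 557 (both (five 6 429 525) (five 6 461 589))))))) (both (mv 431 (both (five 5 430 463) (mv 430 (both (five 5 398 399) (mv 525 (both (five 6 429 557) (mv 493 (both (five 6 397 398) (mv 590 (both (five 7 461 461) (five 7 493 622))))))))))) (mv 589 (both (five 6 461 557) (mv 590 (both (five 6 493 621) (mv 591 (both (five 4 462 559) (five 4 494 623))))))))))) (mv 558 (both (mv 429 (both (five 7 429 461) (mv 430 (both (five 7 397 397) (mv 559 (both (five 4 430 527) (five 4 462 591))))))) (both (mv 429 (both (five 7 429 461) (mv 430 (both (five 7 397 397) (mv 557 (both (five 6 429 525) (five 6 461 589))))))) (mv 589 (both (five 6 461 557) (mv 590 (both (five 6 493 621) (mv 591 (both (five 4 462 559) (five 4 494 623)))))))))))))))) (mv 527 (both (mv 497 (both (five 1 493 525) (mv 498 (both (five 2 495 499) (five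 1 494 529))))) (both (mv 525 (both (five 1 493 497) (mv 492 (both (five 3 492 493) (mv 524 (both (five 3 491 491) (mv 559 (both (five 0 524 560) (mv 462 (both (five 4 430 430) (mv 591 (both (five 4 462 558) (five 7 494 623))))))))))))) (both (mv 493 (both (five 3 493 529) (mv 492 (both (five 0 491 491) (five 3 492 525))))) (mv 529 (both (five 3 493 493) (mv 530 (both (mv 563 (both (five 0 527 562) (mv 531 (both (five 0 528 564) (mv 500 (both (five 1 496 499) (mv 532 (both (five 3 496 497) (five 1 497 501))))))))) (both (mv 499 (both (five 1 495 498) (mv 531 (both (five 1 496 500) (mv 563 (both (five 0 527 562) (five 0 528 564))))))) (both (mv 497 (both (five 1 494 498) (mv 531 (both (five 3 496 532) (mv 563 (both (five 0 527 562) (five 0 528 564))))))) (mv 498 (both (five 1 494 497) (five 1 495 499))))))))))))))))))) (both (mv 495 (both (mv 493 (both (mv 460 (both (five 3 460 461) (mv 492 (both (five 3 459 459) (five 0 492 527))))) (both (mv 461 (both (five 3 460 460) (mv 462 (both (five 3 461 497) (mv 525 (both (five 2 492 524) (mv 430 (both (five 6 397 398) (five 5 429 557))))))))) (mv 492 (both (five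 0 492 527) (mv 524 (both (five 2 491 523) (five 2 492 525)))))))) (both (mv 493 (both (mv 460 (both (five 3 460 461) (mv 492 (both (five 3 459 459) (five 0 492 527))))) (both (mv 461 (both (five 3 460 460) (mv 429 (both (mv 397 (both (five 4 397 526) (mv 364 (both (five 7 364 396) (mv 365 (both (five 7 332 332) (five 4 365 462))))))) (both (mv 525 (both (five 2 492 524) (mv 430 (both (five 5 397 398) (mv 557 (both (five 5 429 462) (mv 556 (both (five 6 460 588) (mv 558 (both (five 4 461 590) (mv 559 (both (five 1 524 527) (mv 592 (both (five 0 556 591) (mv 560 (both (five 7 463 463) (five 0 557 593))))))))))))))))) (mv 397 (both (five 4 397 526) (mv 364 (both (five 7 364 396) (mv 332 (both (five 7 332 365) (mv 398 (both (five 5 365 366) (mv 525 (both (five 5 397 430) (five 2 492 524)))))))))))))))) (both (mv 460 (both (five 3 460 461) (mv 492 (both (five 3 459 459) (mv 524 (both (five 2 491 523) (five 2 492 525))))))) (mv 492 (both (five 0 492 527) (mv 524 (both (five 2 491 523) (five 2 492 525))))))))) (both (mv 497 (both (mv 466 (both (five 1 462 465) (mv 498 (both (five 1 463 467) (mv 499 (both (five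 2 495 527) (mv 531 (both (five 0 495 530) (five 0 496 532))))))))) (both (mv 462 (both (five 3 461 461) (mv 463 (both (five 3 462 498) (mv 431 (both (five 4 399 399) (mv 526 (both (five 2 493 525) (five 5 430 558))))))))) (mv 463 (both (mv 431 (both (five 4 399 399) (mv 560 (both (five 4 431 527) (five 7 463 592))))) (both (mv 462 (both (five 3 461 461) (mv 465 (both (five 1 462 466) (mv 526 (both (five 2 493 525) (mv 558 (both (five 5 462 590) (mv 557 (both (five 6 461 589) (mv 559 (both (five 4 462 591) (mv 527 (both (five 4 430 430) (five 1 524 556))))))))))))))) (mv 431 (both (five 4 399 399) (mv 462 (both (five 3 461 461) (mv 526 (both (five 2 493 525) (five 5 430 558))))))))))))) (both (mv 525 (both (mv 497 (both (five 2 493 526) (mv 462 (both (five 3 461 461) (mv 498 (both (five 3 462 463) (mv 467 (both (five 1 463 466) (mv 499 (both (five 1 464 468) (mv 531 (both (five 0 495 530) (five 0 496 532))))))))))))) (both (mv 493 (both (five 2 492 524) (mv 462 (both (mv 430 (both (five 6 397 398) (mv 557 (both (five 6 429 526) (five 5 461 589))))) (both (mv 460 (both (five 3 460 461) (mv 492 (both (five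 3 459 459) (mv 396 (both (five 4 396 428) (mv 491 (both (five 1 459 463) (mv 490 (both (five 0 490 526) (mv 522 (both (five 2 489 521) (five 2 490 523))))))))))))) (mv 430 (both (five 6 397 398) (mv 461 (both (five 3 460 460) (five 5 429 557)))))))))) (both (mv 493 (both (five 2 492 524) (mv 461 (both (five 3 460 460) (mv 462 (both (five 3 461 497) (mv 430 (both (five 6 397 398) (five 5 429 557))))))))) (mv 524 (both (five 2 492 493) (mv 526 (both (five 2 493 497) (five 1 491 523))))))))) (both (mv 493 (both (mv 460 (both (five 3 460 461) (mv 492 (both (five 3 459 459) (five 0 492 527))))) (both (mv 460 (both (five 3 460 461) (mv 525 (both (five 2 492 524) (mv 497 (both (five 2 493 526) (mv 466 (both (five 1 462 465) (mv 498 (both (five 1 463 467) (mv 499 (both (five 2 495 527) (mv 531 (both (five 0 495 530) (five 0 496 532))))))))))))))) (both (mv 460 (both (five 3 460 461) (mv 492 (both (five 3 459 459) (mv 524 (both (five 2 491 523) (five 2 492 525))))))) (mv 492 (both (five 0 492 527) (mv 524 (both (five 2 491 523) (five 2 492 525))))))))) (both (mv 497 (both (mv 466 (both (five 1 462 465) (mv 498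 (both (five 1 463 467) (mv 499 (both (five 2 495 527) (mv 531 (both (five 0 495 530) (five 0 496 532))))))))) (both (mv 462 (both (five 3 461 461) (mv 498 (both (five 3 462 463) (mv 467 (both (five 1 463 466) (mv 499 (both (five 1 464 468) (mv 531 (both (five 0 495 530) (five 0 496 532))))))))))) (both (mv 493 (both (mv 465 (both (five 1 462 466) (mv 401 (both (five 6 400 433) (mv 492 (both (five 0 492 527) (mv 459 (both (five 3 459 460) (mv 491 (both (five 3 458 458) (mv 523 (both (five 2 490 522) (five 2 491 524))))))))))))) (both (mv 461 (both (five 3 460 460) (five 3 461 462))) (mv 462 (both (five 3 461 461) (mv 465 (both (five 1 462 466) (mv 401 (both (five 6 400 433) (mv 492 (both (five 0 492 527) (mv 491 (both (five 1 459 463) (mv 523 (both (five 2 490 522) (five 2 491 524)))))))))))))))) (mv 461 (both (five 3 461 462) (mv 493 (both (five 3 460 460) (mv 527 (both (five 0 492 492) (mv 498 (both (five 2 495 499) (five 2 494 526))))))))))))) (mv 463 (both (mv 431 (both (five 4 399 399) (mv 560 (both (five 4 431 527) (five 7 463 592))))) (both (mv 497 (both (mv 498 (both (five 3 462 462) (mv 527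 (both (five 2 495 499) (five 2 494 526))))) (both (mv 465 (both (five 1 462 466) (mv 401 (both (five 6 400 433) (mv 525 (both (five 2 493 526) (mv 493 (both (five 2 492 524) (mv 492 (both (five 0 492 527) (mv 459 (both (five 3 459 460) (mv 491 (both (five 3 458 458) (five 1 459 462))))))))))))))) (both (mv 466 (both (five 1 462 465) (mv 498 (both (five 1 463 467) (mv 499 (both (five 2 495 527) (mv 531 (both (five 0 495 530) (five 0 496 532))))))))) (mv 498 (both (five 3 462 462) (mv 467 (both (five 1 463 466) (mv 499 (both (five 1 464 468) (mv 531 (both (five 0 495 530) (five 0 496 532))))))))))))) (mv 526 (both (mv 431 (both (five 6 398 399) (mv 558 (both (five 5 430 462) (five 5 462 590))))) (mv 525 (both (five 2 493 497) (mv 524 (both (five 2 492 493) (five 1 491 523))))))))))))))))) (both (mv 526 (both (ref 0) (both (mv 558 (both (mv 462 (both (mv 429 (both (five 7 429 461) (mv 430 (both (five 7 397 397) (mv 431 (both (five 5 398 399) (five 5 430 463))))))) (both (mv 431 (both (five 5 430 463) (mv 430 (both (five 5 398 399) (mv 557 (both (five 6 429 525) (five 6 461 589))))))) (both (mv 429 (both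 (five 7 429 461) (mv 430 (both (five 7 397 397) (mv 557 (both (five 6 429 525) (five 6 461 589))))))) (mv 431 (both (five 5 430 463) (mv 461 (both (five 7 429 429) (mv 589 (both (five 6 461 557) (mv 590 (both (five 7 461 493) (five 6 493 621))))))))))))) (both (mv 590 (both (mv 621 (both (five 6 493 589) (mv 622 (both (five 6 525 653) (mv 623 (both (five 4 494 591) (five 4 526 655))))))) (mv 493 (both (five 7 461 461) (mv 527 (both (five 3 493 529) (mv 492 (both (five 0 491 491) (five 3 492 525))))))))) (both (mv 462 (both (mv 429 (both (five 7 429 461) (mv 430 (both (five 7 397 397) (mv 431 (both (five 5 398 399) (five 5 430 463))))))) (both (mv 431 (both (five 5 430 463) (mv 430 (both (five 5 398 399) (mv 557 (both (five 6 429 525) (five 6 461 589))))))) (both (mv 429 (both (five 7 429 461) (mv 430 (both (five 7 397 397) (mv 557 (both (five 6 429 525) (five 6 461 589))))))) (mv 461 (both (five 7 429 429) (mv 463 (both (five 5 430 431) (mv 557 (both (five 6 461 589) (mv 559 (both (five 4 462 591) (mv 560 (both (five 1 525 529) (mv 524 (both (five 3 524 525) (mv 556 (both (five 3 523 523) (mv 588 (both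 (five 2 555 587) (mv 492 (both (five 5 460 493) (mv 491 (both (five 7 459 459) (five 2 459 460))))))))))))))))))))))))) (both (mv 462 (both (mv 429 (both (five 7 429 461) (mv 430 (both (five 7 397 397) (mv 431 (both (five 5 398 399) (five 5 430 463))))))) (mv 589 (both (five 6 461 557) (mv 590 (both (five 6 493 621) (mv 591 (both (five 4 462 559) (five 4 494 623))))))))) (both (mv 462 (both (mv 429 (both (five 7 429 461) (mv 430 (both (five 7 397 397) (mv 431 (both (five 5 398 399) (five 5 430 463))))))) (both (mv 431 (both (five 5 430 463) (mv 430 (both (five 5 398 399) (mv 397 (both (five 7 397 429) (mv 398 (both (five 7 365 365) (mv 525 (both (five 6 397 493) (five 6 429 557))))))))))) (both (mv 431 (both (five 5 430 463) (mv 430 (both (five 5 398 399) (mv 525 (both (five 6 429 557) (mv 493 (both (five 6 397 398) (mv 590 (both (five 7 461 461) (five 7 493 622))))))))))) (both (mv 429 (both (five 7 429 461) (mv 430 (both (five 7 397 397) (mv 525 (both (five 6 429 557) (mv 493 (both (five 6 397 398) (mv 590 (both (five 7 493 622) (mv 591 (both (five 4 462 559) (five 4 494 623))))))))))))) (mv 431 (both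 (five 5 430 463) (mv 461 (both (five 7 429 429) (mv 590 (both (five 7 461 493) (mv 591 (both (five 4 462 559) (five 4 494 623)))))))))))))) (mv 590 (both (mv 621 (both (five 6 493 589) (mv 622 (both (five 6 525 653) (mv 623 (both (five 4 494 591) (five 4 526 655))))))) (both (mv 591 (both (five 4 494 623) (mv 462 (both (five 4 462 559) (mv 431 (both (five 5 430 463) (mv 430 (both (five 5 398 399) (mv 397 (both (five 7 397 429) (mv 398 (both (five 7 365 365) (mv 525 (both (five 6 397 493) (five 6 429 557))))))))))))))) (both (mv 621 (both (five 6 493 589) (mv 622 (both (five 6 525 653) (mv 525 (both (five 7 493 493) (mv 654 (both (five 7 525 557) (mv 655 (both (five 4 526 623) (five 4 558 687))))))))))) (mv 621 (both (five 6 493 589) (mv 622 (both (five 6 525 653) (mv 525 (both (five 7 493 493) (mv 557 (both (five 7 525 654) (mv 462 (both (five 6 429 430) (mv 431 (both (five 5 430 463) (mv 559 (both (five 4 462 591) (mv 524 (both (five 0 523 523) (five 3 524 560))))))))))))))))))))))))))) (both (mv 558 (both (mv 462 (both (mv 429 (both (five 7 429 461) (mv 430 (both (five 7 397 397) (mv 431 (both (five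 5 398 399) (five 5 430 463))))))) (both (mv 431 (both (five 5 430 463) (mv 430 (both (five 5 398 399) (mv 557 (both (five 6 429 525) (five 6 461 589))))))) (both (mv 429 (both (five 7 429 461) (mv 430 (both (five 7 397 397) (mv 557 (both (five 6 429 525) (five 6 461 589))))))) (mv 431 (both (five 5 430 463) (mv 461 (both (five 7 429 429) (mv 589 (both (five 6 461 557) (mv 590 (both (five 7 461 493) (five 6 493 621))))))))))))) (both (mv 590 (both (mv 621 (both (five 6 493 589) (mv 622 (both (five 6 525 653) (mv 623 (both (five 4 494 591) (five 4 526 655))))))) (mv 493 (both (five 7 461 461) (mv 495 (both (five 5 462 463) (five 0 493 529))))))) (both (mv 462 (both (mv 429 (both (five 7 429 461) (mv 430 (both (five 7 397 397) (mv 431 (both (five 5 398 399) (five 5 430 463))))))) (both (mv 431 (both (five 5 430 463) (mv 430 (both (five 5 398 399) (mv 557 (both (five 6 429 525) (five 6 461 589))))))) (both (mv 429 (both (five 7 429 461) (mv 430 (both (five 7 397 397) (mv 557 (both (five 6 429 525) (five 6 461 589))))))) (mv 461 (both (five 7 429 429) (mv 463 (both (five 5 430 431) (mv 557 (both (five 6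 461 589) (mv 559 (both (five 4 462 591) (mv 560 (both (five 1 525 529) (mv 524 (both (five 3 524 525) (mv 556 (both (five 3 523 523) (mv 588 (both (five 2 555 587) (mv 492 (both (five 5 460 493) (mv 491 (both (five 7 459 459) (five 2 459 460))))))))))))))))))))))))) (both (mv 590 (both (mv 621 (both (five 6 493 589) (mv 622 (both (five 6 525 653) (mv 623 (both (five 4 494 591) (five 4 526 655))))))) (both (mv 591 (both (five 4 494 623) (mv 462 (both (five 4 462 559) (mv 431 (both (five 5 430 463) (mv 430 (both (five 5 398 399) (mv 397 (both (five 7 397 429) (mv 398 (both (five 7 365 365) (mv 525 (both (five 6 397 493) (five 6 429 557))))))))))))))) (both (mv 621 (both (five 6 493 589) (mv 622 (both (five 6 525 653) (mv 525 (both (five 7 493 493) (mv 654 (both (five 7 525 557) (mv 655 (both (five 4 526 623) (five 4 558 687))))))))))) (mv 621 (both (five 6 493 589) (mv 622 (both (five 6 525 653) (mv 525 (both (five 7 493 493) (mv 557 (both (five 7 525 654) (mv 462 (both (five 6 429 430) (mv 431 (both (five 5 430 463) (mv 559 (both (five 4 462 591) (mv 524 (both (five 0 523 523) (five 3 524 560)))))))))))))))))))))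 (both (mv 591 (both (mv 623 (both (five 4 494 590) (mv 559 (both (five 7 526 655) (mv 560 (both (five 6 495 592) (mv 557 (both (five 1 525 529) (mv 524 (both (five 3 524 525) (mv 556 (both (five 3 523 523) (mv 588 (both (five 2 555 587) (five 2 556 589))))))))))))))) (both (mv 462 (both (five 4 462 559) (mv 429 (both (five 7 429 461) (mv 430 (both (five 7 397 397) (mv 557 (both (five 6 429 525) (five 6 461 589))))))))) (both (mv 590 (both (five 4 494 623) (mv 589 (both (five 6 493 621) (mv 557 (both (five 6 461 462) (mv 556 (both (five 0 555 555) (five 3 556 592))))))))) (mv 559 (both (five 4 462 462) (mv 623 (both (five 4 494 590) (five 7 526 655))))))))) (mv 462 (both (mv 429 (both (five 7 429 461) (mv 430 (both (five 7 397 397) (mv 431 (both (five 5 398 399) (five 5 430 463))))))) (both (mv 431 (both (five 5 430 463) (mv 430 (both (five 5 398 399) (mv 397 (both (five 7 397 429) (mv 398 (both (five 7 365 365) (mv 525 (both (five 6 397 493) (five 6 429 557))))))))))) (both (mv 431 (both (five 5 430 463) (mv 430 (both (five 5 398 399) (mv 525 (both (five 6 429 557) (mv 493 (both (five 6 397 398) (mv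 590 (both (five 7 461 461) (five 7 493 622))))))))))) (both (mv 429 (both (five 7 429 461) (mv 430 (both (five 7 397 397) (mv 525 (both (five 6 429 557) (mv 493 (both (five 6 397 398) (mv 590 (both (five 7 493 622) (mv 591 (both (five 4 462 559) (five 4 494 623))))))))))))) (mv 431 (both (five 5 430 463) (mv 461 (both (five 7 429 429) (mv 590 (both (five 7 461 493) (mv 591 (both (five 4 462 559) (five 4 494 623)))))))))))))))))))) (both (mv 462 (both (mv 558 (both (mv 429 (both (five 7 429 461) (mv 430 (both (five 7 397 397) (mv 559 (both (five 4 430 527) (five 4 462 591))))))) (both (mv 429 (both (five 7 429 461) (mv 430 (both (five 7 397 397) (mv 557 (both (five 6 429 525) (five 6 461 589))))))) (mv 589 (both (five 6 461 557) (mv 590 (both (five 6 493 621) (mv 591 (both (five 4 462 559) (five 4 494 623)))))))))) (both (mv 430 (both (mv 397 (both (five 7 397 429) (mv 398 (both (five 7 365 365) (mv 399 (both (five 5 366 367) (five 5 398 431))))))) (both (mv 525 (both (five 6 429 557) (mv 527 (both (five 4 430 559) (mv 495 (both (five 4 398 398) (five 1 492 524))))))) (mv 397 (both (five 7 397 429) (mv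 399 (both (five 5 398 431) (mv 525 (both (five 6 429 557) (mv 527 (both (five 4 430 559) (mv 524 (both (five 1 492 495) (mv 491 (both (five 3 491 492) (mv 523 (both (five 3 490 490) (mv 555 (both (five 2 522 554) (five 2 523 556)))))))))))))))))))) (both (mv 558 (both (mv 589 (both (five 6 461 557) (mv 590 (both (five 6 493 621) (mv 591 (both (five 4 462 559) (five 4 494 623))))))) (both (mv 461 (both (five 7 429 429) (mv 589 (both (five 6 461 557) (mv 590 (both (five 7 461 493) (five 6 493 621))))))) (both (mv 461 (both (five 7 429 429) (mv 590 (both (five 7 461 493) (mv 591 (both (five 4 462 559) (five 4 494 623))))))) (mv 429 (both (five 7 429 461) (mv 431 (both (five 5 430 463) (mv 557 (both (five 6 461 589) (mv 559 (both (five 4 462 591) (mv 556 (both (five 1 524 527) (mv 523 (both (five 3 523 524) (mv 555 (both (five 3 522 522) (mv 587 (both (five 2 554 586) (five 2 555 588))))))))))))))))))))) (both (mv 558 (both (mv 429 (both (five 7 429 461) (mv 430 (both (five 7 397 397) (mv 431 (both (five 5 398 399) (five 5 430 463))))))) (both (mv 431 (both (five 5 430 463) (mv 430 (both (five 5 398 399)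 (mv 557 (both (five 6 429 525) (five 6 461 589))))))) (mv 461 (both (five 7 429 429) (mv 589 (both (five 6 461 557) (mv 590 (both (five 7 461 493) (five 6 493 621)))))))))) (both (mv 558 (both (mv 429 (both (five 7 429 461) (mv 430 (both (five 7 397 397) (mv 431 (both (five 5 398 399) (five 5 430 463))))))) (both (mv 429 (both (five 7 429 461) (mv 430 (both (five 7 397 397) (mv 559 (both (five 4 430 527) (five 4 462 591))))))) (mv 591 (both (five 4 462 559) (mv 590 (both (five 4 494 623) (mv 495 (both (five 5 462 463) (mv 621 (both (five 6 493 589) (mv 622 (both (five 5 494 527) (five 6 525 653)))))))))))))) (mv 558 (both (mv 431 (both (five 5 430 463) (mv 399 (both (five 5 398 430) (mv 591 (both (five 4 462 559) (mv 590 (both (five 4 494 623) (mv 493 (both (five 7 461 461) (mv 621 (both (five 6 493 589) (mv 622 (both (five 7 493 525) (five 6 525 653))))))))))))))) (both (mv 431 (both (five 5 430 463) (mv 430 (both (five 5 398 399) (mv 557 (both (five 6 429 525) (five 6 461 589))))))) (both (mv 431 (both (five 5 430 463) (mv 430 (both (five 5 398 399) (mv 525 (both (five 6 429 557) (mv 493 (both (five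 6 397 398) (mv 590 (both (five 7 461 461) (five 7 493 622))))))))))) (mv 589 (both (five 6 461 557) (mv 590 (both (five 6 493 621) (mv 591 (both (five 4 462 559) (five 4 494 623))))))))))))))))) (both (mv 493 (both (mv 527 (both (five 3 493 529) (mv 492 (both (five 0 491 491) (five 3 492 525))))) (both (mv 495 (both (five 0 493 529) (mv 460 (both (five 3 460 461) (mv 492 (both (five 3 459 459) (mv 524 (both (five 2 491 523) (five 2 492 525))))))))) (both (mv 525 (both (mv 492 (both (five 3 492 527) (mv 490 (both (five 0 490 491) (mv 495 (both (five 2 492 524) (mv 460 (both (five 3 459 459) (five 3 460 461))))))))) (both (mv 495 (both (five 2 492 524) (mv 460 (both (five 3 460 461) (mv 492 (both (five 3 459 459) (mv 396 (both (five 4 396 428) (mv 491 (both (five 0 490 490) (mv 462 (both (five 1 459 463) (mv 430 (both (five 6 429 557) (mv 397 (both (five 7 397 429) (mv 398 (both (five 7 365 365) (mv 399 (both (five 5 366 367) (five 5 398 431))))))))))))))))))))) (both (mv 495 (both (five 2 492 524) (mv 461 (both (five 3 460 460) (mv 429 (both (five 4 397 397) (mv 396 (both (five 7 396 428) (mv 430 (both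 (five 5 397 398) (mv 462 (both (five 5 429 557) (mv 431 (both (five 5 398 399) (mv 432 (both (five 2 429 433) (mv 400 (both (five 1 397 401) (mv 527 (both (five 5 399 463) (five 4 430 559))))))))))))))))))))) (mv 492 (both (five 3 492 527) (mv 491 (both (five 0 490 490) (mv 462 (both (five 1 459 463) (mv 430 (both (five 6 429 557) (mv 397 (both (five 7 397 429) (mv 398 (both (five 7 365 365) (mv 399 (both (five 5 366 367) (five 5 398 431))))))))))))))))))) (mv 529 (both (five 0 493 495) (five 3 493 527))))))) (both (mv 493 (both (mv 529 (both (five 0 493 495) (five 3 493 527))) (both (mv 527 (both (five 3 493 529) (mv 492 (both (five 0 491 491) (five 3 492 525))))) (both (mv 495 (both (five 0 493 529) (mv 460 (both (five 3 460 461) (mv 492 (both (five 3 459 459) (mv 524 (both (five 2 491 523) (five 2 492 525))))))))) (mv 495 (both (mv 460 (both (five 3 460 461) (mv 492 (both (five 3 459 459) (five 0 492 527))))) (both (mv 461 (both (five 3 460 460) (mv 429 (both (five 4 397 397) (mv 558 (both (five 4 429 525) (five 7 461 590))))))) (mv 492 (both (five 0 492 527) (mv 524 (both (five 2 491 523) (five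 2 492 525)))))))))))) (both (mv 558 (both (mv 590 (both (mv 621 (both (five 6 493 589) (mv 622 (both (five 6 525 653) (mv 623 (both (five 4 494 591) (five 4 526 655))))))) (mv 493 (both (five 7 461 461) (mv 495 (both (five 5 462 463) (five 0 493 529))))))) (both (mv 462 (both (mv 429 (both (five 7 429 461) (mv 430 (both (five 7 397 397) (mv 431 (both (five 5 398 399) (five 5 430 463))))))) (mv 557 (both (five 6 461 589) (mv 527 (both (five 2 525 529) (mv 556 (both (five 1 523 555) (five 1 524 559))))))))) (both (mv 462 (both (mv 429 (both (five 7 429 461) (mv 430 (both (five 7 397 397) (mv 431 (both (five 5 398 399) (five 5 430 463))))))) (mv 589 (both (five 6 461 557) (mv 590 (both (five 6 493 621) (mv 591 (both (five 4 462 559) (five 4 494 623))))))))) (both (mv 493 (both (mv 529 (both (five 0 493 495) (five 3 493 527))) (mv 461 (both (five 7 461 590) (mv 429 (both (five 4 397 397) (five 7 429 462))))))) (mv 495 (both (mv 463 (both (five 5 462 590) (mv 431 (both (five 4 399 399) (five 5 430 462))))) (mv 493 (both (five 0 493 529) (mv 492 (both (five 0 492 527) (mv 459 (both (five 3 459 460) (mv 491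 (both (five 3 458 458) (mv 523 (both (five 2 490 522) (five 2 491 524)))))))))))))))))) (both (mv 527 (both (mv 525 (both (mv 557 (both (five 2 524 556) (mv 462 (both (five 6 429 430) (mv 589 (both (five 6 461 558) (five 5 493 621))))))) (both (mv 524 (both (five 1 492 495) (mv 491 (both (five 3 491 492) (mv 523 (both (five 3 490 490) (mv 555 (both (five 2 522 554) (five 2 523 556))))))))) (mv 495 (both (five 1 492 524) (mv 529 (both (five 3 494 530) (mv 558 (both (five 2 525 557) (mv 463 (both (five 6 430 431) (five 5 462 590)))))))))))) (both (mv 525 (both (mv 492 (both (five 3 492 493) (mv 524 (both (five 3 491 491) (five 1 492 495))))) (mv 557 (both (five 2 524 556) (mv 462 (both (five 6 429 430) (mv 589 (both (five 6 461 558) (five 5 493 621))))))))) (both (mv 493 (both (five 3 493 529) (mv 492 (both (five 0 491 491) (five 0 492 495))))) (mv 529 (both (five 3 493 493) (mv 558 (both (five 2 525 557) (mv 530 (both (five 2 526 559) (mv 499 (both (five 1 495 498) (mv 531 (both (five 1 496 500) (mv 563 (both (five 0 527 562) (five 0 528 564))))))))))))))))) (mv 558 (both (mv 493 (both (mv 529 (both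 (five 0 493 495) (five 3 493 527))) (mv 461 (both (five 7 461 590) (mv 429 (both (five 4 397 397) (five 7 429 462))))))) (both (mv 590 (both (mv 621 (both (five 6 493 589) (mv 622 (both (five 6 525 653) (mv 623 (both (five 4 494 591) (five 4 526 655))))))) (mv 493 (both (five 7 461 461) (mv 495 (both (five 5 462 463) (five 0 493 529))))))) (both (mv 462 (both (mv 429 (both (five 7 429 461) (mv 430 (both (five 7 397 397) (mv 431 (both (five 5 398 399) (five 5 430 463))))))) (mv 557 (both (five 6 461 589) (mv 527 (both (five 2 525 529) (mv 556 (both (five 1 523 555) (five 1 524 559))))))))) (mv 590 (both (mv 621 (both (five 6 493 589) (mv 622 (both (five 6 525 653) (mv 623 (both (five 4 494 591) (five 4 526 655))))))) (both (mv 495 (both (five 5 462 463) (mv 621 (both (five 6 493 589) (mv 622 (both (five 5 494 527) (five 6 525 653))))))) (mv 591 (both (five 4 494 623) (mv 462 (both (five 4 462 559) (mv 431 (both (five 5 430 463) (mv 430 (both (five 5 398 399) (mv 397 (both (five 7 397 429) (mv 398 (both (five 7 365 365) (mv 525 (both (five 6 397 493) (five 6 429 557))))))))))))))))))))))))))))))) (both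 (mv 495 (both (mv 493 (both (five 0 493 529) (mv 460 (both (five 3 460 461) (mv 492 (both (five 3 459 459) (mv 524 (both (five 2 491 523) (five 2 492 525))))))))) (both (mv 497 (both (mv 465 (both (five 1 462 466) (mv 433 (both (five 6 400 401) (mv 529 (both (five 0 494 530) (five 6 432 560))))))) (mv 462 (both (five 3 461 461) (mv 463 (both (five 3 462 498) (mv 431 (both (five 4 399 399) (mv 526 (both (five 2 493 525) (five 5 430 558))))))))))) (both (mv 525 (both (mv 497 (both (five 2 493 526) (mv 462 (both (five 3 461 461) (mv 498 (both (five 3 462 463) (mv 467 (both (five 1 463 466) (mv 499 (both (five 1 464 468) (mv 531 (both (five 0 495 530) (five 0 496 532))))))))))))) (both (mv 493 (both (five 2 492 524) (mv 462 (both (mv 430 (both (five 6 397 398) (mv 557 (both (five 6 429 526) (five 5 461 589))))) (both (mv 460 (both (five 3 460 461) (mv 492 (both (five 3 459 459) (mv 396 (both (five 4 396 428) (mv 491 (both (five 1 459 463) (mv 490 (both (five 0 490 526) (mv 522 (both (five 2 489 521) (five 2 490 523))))))))))))) (mv 430 (both (five 6 397 398) (mv 461 (both (five 3 460 460) (five 5 429 557))))))))))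 (both (mv 493 (both (five 2 492 524) (mv 461 (both (five 3 460 460) (mv 462 (both (five 3 461 497) (mv 430 (both (five 6 397 398) (five 5 429 557))))))))) (mv 524 (both (five 2 492 493) (mv 526 (both (five 2 493 497) (five 1 491 523))))))))) (mv 529 (both (five 0 493 493) (mv 530 (both (five 0 494 497) (five 3 495 531))))))))) (both (mv 495 (both (mv 529 (both (five 0 493 493) (mv 530 (both (five 0 494 497) (five 3 495 531))))) (both (mv 497 (both (mv 465 (both (five 1 462 466) (mv 433 (both (five 6 400 401) (mv 560 (both (five 6 432 529) (five 5 464 592))))))) (both (mv 466 (both (five 1 462 465) (mv 498 (both (five 1 463 467) (mv 499 (both (five 2 495 527) (mv 531 (both (five 0 495 530) (five 0 496 532))))))))) (mv 462 (both (five 3 461 461) (mv 463 (both (five 3 462 498) (mv 431 (both (five 4 399 399) (mv 560 (both (five 4 431 527) (five 7 463 592)))))))))))) (both (mv 493 (both (mv 460 (both (five 3 460 461) (mv 492 (both (five 3 459 459) (five 0 492 527))))) (both (mv 461 (both (five 3 460 460) (mv 462 (both (five 3 461 497) (mv 525 (both (five 2 492 524) (mv 430 (both (five 6 397 398) (five 5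 429 557))))))))) (mv 492 (both (five 0 492 527) (mv 524 (both (five 2 491 523) (five 2 492 525)))))))) (mv 493 (both (five 0 493 529) (mv 460 (both (five 3 460 461) (mv 492 (both (five 3 459 459) (five 0 492 527))))))))))) (both (mv 495 (both (mv 529 (both (five 0 493 493) (mv 530 (both (five 0 494 497) (five 3 495 531))))) (both (mv 497 (both (mv 526 (both (five 2 493 525) (mv 498 (both (five 2 494 527) (mv 530 (both (five 0 494 529) (five 0 495 531))))))) (both (mv 466 (both (five 1 462 465) (mv 498 (both (five 1 463 467) (mv 530 (both (five 0 494 529) (five 0 495 531))))))) (both (mv 466 (both (five 1 462 465) (mv 498 (both (five 1 463 467) (mv 526 (both (five 2 493 525) (five 2 494 527))))))) (mv 527 (both (mv 462 (both (five 3 461 461) (mv 430 (both (five 4 398 398) (mv 559 (both (five 7 430 463) (five 7 462 591))))))) (both (mv 465 (both (five 1 462 466) (mv 526 (both (five 2 493 525) (mv 529 (both (five 0 494 530) (mv 558 (both (five 2 525 557) (mv 590 (both (five 5 462 463) (five 5 494 622))))))))))) (mv 462 (both (five 3 461 461) (mv 398 (both (five 4 398 430) (mv 465 (both (five 1 462 466)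 (mv 526 (both (five 2 493 525) (mv 529 (both (five 0 494 530) (mv 558 (both (five 2 525 557) (mv 590 (both (five 5 494 622) (mv 591 (both (five 4 462 559) (five 4 494 623)))))))))))))))))))))))) (both (mv 493 (both (mv 460 (both (five 3 460 461) (mv 492 (both (five 3 459 459) (five 0 492 527))))) (both (mv 461 (both (five 3 460 460) (mv 462 (both (five 3 461 497) (mv 525 (both (five 2 492 524) (mv 430 (both (five 6 397 398) (five 5 429 557))))))))) (mv 492 (both (five 0 492 527) (mv 524 (both (five 2 491 523) (five 2 492 525)))))))) (mv 493 (both (five 0 493 529) (mv 460 (both (five 3 460 461) (mv 492 (both (five 3 459 459) (five 0 492 527))))))))))) (both (mv 495 (both (mv 529 (both (five 0 493 493) (mv 530 (both (five 0 494 497) (five 3 495 531))))) (both (mv 497 (both (mv 465 (both (five 1 462 466) (mv 433 (both (five 6 400 401) (mv 529 (both (five 0 494 530) (five 6 432 560))))))) (both (mv 466 (both (five 1 462 465) (mv 498 (both (five 1 463 467) (mv 526 (both (five 2 493 525) (five 2 494 527))))))) (mv 526 (both (five 2 493 525) (mv 498 (both (five 2 494 527) (mv 530 (both (five 0 494 529) (five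 0 495 531)))))))))) (both (mv 493 (both (mv 460 (both (five 3 460 461) (mv 492 (both (five 3 459 459) (five 0 492 527))))) (both (mv 460 (both (five 3 460 461) (mv 525 (both (five 2 492 524) (mv 497 (both (five 2 493 526) (mv 466 (both (five 1 462 465) (mv 498 (both (five 1 463 467) (mv 499 (both (five 2 495 527) (mv 531 (both (five 0 495 530) (five 0 496 532))))))))))))))) (both (mv 460 (both (five 3 460 461) (mv 492 (both (five 3 459 459) (mv 524 (both (five 2 491 523) (five 2 492 525))))))) (mv 492 (both (five 0 492 527) (mv 524 (both (five 2 491 523) (five 2 492 525))))))))) (mv 493 (both (five 0 493 529) (mv 460 (both (five 3 460 461) (mv 492 (both (five 3 459 459) (five 0 492 527))))))))))) (both (mv 495 (both (mv 529 (both (five 0 493 493) (mv 530 (both (five 0 494 497) (five 3 495 531))))) (both (mv 497 (both (mv 466 (both (five 1 462 465) (mv 498 (both (five 1 463 467) (mv 499 (both (five 2 495 527) (mv 531 (both (five 0 495 530) (five 0 496 532))))))))) (both (mv 462 (both (five 3 461 461) (mv 498 (both (five 3 462 463) (mv 467 (both (five 1 463 466) (mv 499 (both (five 1 464 468) (mv 531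 (both (five 0 495 530) (five 0 496 532))))))))))) (both (mv 493 (both (mv 465 (both (five 1 462 466) (mv 401 (both (five 6 400 433) (mv 492 (both (five 0 492 527) (mv 459 (both (five 3 459 460) (mv 491 (both (five 3 458 458) (mv 523 (both (five 2 490 522) (five 2 491 524))))))))))))) (both (mv 461 (both (five 3 460 460) (five 3 461 462))) (mv 462 (both (five 3 461 461) (mv 465 (both (five 1 462 466) (mv 401 (both (five 6 400 433) (mv 492 (both (five 0 492 527) (mv 491 (both (five 1 459 463) (mv 523 (both (five 2 490 522) (five 2 491 524)))))))))))))))) (mv 461 (both (five 3 461 462) (mv 493 (both (five 3 460 460) (mv 527 (both (five 0 492 492) (mv 498 (both (five 2 495 499) (five 2 494 526))))))))))))) (both (mv 497 (both (mv 465 (both (five 1 462 466) (mv 433 (both (five 6 400 401) (mv 560 (both (five 6 432 529) (five 5 464 592))))))) (both (mv 466 (both (five 1 462 465) (mv 498 (both (five 1 463 467) (mv 499 (both (five 2 495 527) (mv 531 (both (five 0 495 530) (five 0 496 532))))))))) (mv 462 (both (five 3 461 461) (mv 463 (both (five 3 462 498) (mv 431 (both (five 4 399 399) (mv 560 (both (five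 4 431 527) (five 7 463 592)))))))))))) (mv 493 (both (five 0 493 529) (mv 460 (both (five 3 460 461) (mv 492 (both (five 3 459 459) (five 0 492 527))))))))))) (both (mv 495 (both (mv 493 (both (five 0 493 529) (mv 460 (both (five 3 460 461) (mv 492 (both (five 3 459 459) (five 0 492 527))))))) (both (mv 497 (both (mv 465 (both (five 1 462 466) (mv 433 (both (five 6 400 401) (mv 560 (both (five 6 432 529) (five 5 464 592))))))) (mv 462 (both (five 3 461 461) (mv 463 (both (five 3 462 498) (mv 431 (both (five 4 399 399) (mv 526 (both (five 2 493 525) (five 5 430 558))))))))))) (both (mv 493 (both (mv 460 (both (five 3 460 461) (mv 492 (both (five 3 459 459) (five 0 492 527))))) (both (mv 461 (both (five 3 460 460) (mv 462 (both (five 3 461 497) (mv 525 (both (five 2 492 524) (mv 430 (both (five 6 397 398) (five 5 429 557))))))))) (mv 492 (both (five 0 492 527) (mv 524 (both (five 2 491 523) (five 2 492 525)))))))) (mv 493 (both (five 0 493 529) (mv 492 (both (five 0 492 527) (mv 524 (both (five 2 491 523) (five 2 492 525))))))))))) (both (mv 495 (both (mv 529 (both (five 0 493 493) (mv 530 (both (five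 0 494 497) (five 3 495 531))))) (both (mv 463 (both (mv 431 (both (five 4 399 399) (mv 560 (both (five 4 431 527) (five 7 463 592))))) (both (mv 497 (both (mv 498 (both (five 3 462 462) (mv 527 (both (five 2 495 499) (five 2 494 526))))) (both (mv 465 (both (five 1 462 466) (mv 401 (both (five 6 400 433) (mv 525 (both (five 2 493 526) (mv 493 (both (five 2 492 524) (mv 492 (both (five 0 492 527) (mv 459 (both (five 3 459 460) (mv 491 (both (five 3 458 458) (five 1 459 462))))))))))))))) (both (mv 466 (both (five 1 462 465) (mv 498 (both (five 1 463 467) (mv 499 (both (five 2 495 527) (mv 531 (both (five 0 495 530) (five 0 496 532))))))))) (mv 498 (both (five 3 462 462) (mv 467 (both (five 1 463 466) (mv 499 (both (five 1 464 468) (mv 531 (both (five 0 495 530) (five 0 496 532))))))))))))) (mv 526 (both (mv 431 (both (five 6 398 399) (mv 558 (both (five 5 430 462) (five 5 462 590))))) (mv 525 (both (five 2 493 497) (mv 524 (both (five 2 492 493) (five 1 491 523)))))))))) (both (mv 497 (both (mv 465 (both (five 1 462 466) (mv 433 (both (five 6 400 401) (mv 529 (both (five 0 494 530) (five 6 432 560)))))))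 (both (mv 466 (both (five 1 462 465) (mv 498 (both (five 1 463 467) (mv 526 (both (five 2 493 525) (five 2 494 527))))))) (mv 526 (both (five 2 493 525) (mv 498 (both (five 2 494 527) (mv 530 (both (five 0 494 529) (five 0 495 531)))))))))) (mv 493 (both (five 0 493 529) (mv 492 (both (five 0 492 527) (mv 524 (both (five 2 491 523) (five 2 492 525))))))))))) (both (mv 495 (both (mv 529 (both (five 0 493 493) (mv 530 (both (five 0 494 497) (five 3 495 531))))) (both (mv 497 (both (mv 465 (both (five 1 462 466) (mv 433 (both (five 6 400 401) (mv 529 (both (five 0 494 530) (five 6 432 560))))))) (both (mv 463 (both (mv 431 (both (five 4 399 399) (mv 560 (both (five 4 431 527) (five 7 463 592))))) (both (mv 462 (both (five 3 461 461) (mv 465 (both (five 1 462 466) (mv 526 (both (five 2 493 525) (mv 558 (both (five 5 462 590) (mv 557 (both (five 6 461 589) (mv 559 (both (five 4 462 591) (mv 527 (both (five 4 430 430) (five 1 524 556))))))))))))))) (mv 431 (both (five 4 399 399) (mv 462 (both (five 3 461 461) (mv 526 (both (five 2 493 525) (five 5 430 558)))))))))) (mv 527 (both (mv 462 (both (five 3 461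 461) (mv 430 (both (five 4 398 398) (mv 559 (both (five 7 430 463) (five 7 462 591))))))) (both (mv 526 (both (five 2 493 525) (mv 529 (both (five 3 494 530) (mv 558 (both (five 2 525 557) (mv 463 (both (five 6 430 431) (five 5 462 590))))))))) (mv 462 (both (five 3 461 461) (mv 430 (both (five 4 398 398) (mv 559 (both (five 4 430 526) (five 7 462 591))))))))))))) (both (mv 493 (both (mv 460 (both (five 3 460 461) (mv 492 (both (five 3 459 459) (five 0 492 527))))) (both (mv 461 (both (five 3 460 460) (mv 462 (both (five 3 461 497) (mv 525 (both (five 2 492 524) (mv 430 (both (five 6 397 398) (five 5 429 557))))))))) (mv 492 (both (five 0 492 527) (mv 524 (both (five 2 491 523) (five 2 492 525)))))))) (mv 493 (both (five 0 493 529) (mv 460 (both (five 3 460 461) (mv 492 (both (five 3 459 459) (five 0 492 527))))))))))) (both (mv 495 (both (mv 529 (both (five 0 493 493) (mv 530 (both (five 0 494 497) (five 3 495 531))))) (both (mv 497 (both (mv 461 (both (five 3 461 462) (mv 493 (both (five 3 460 460) (mv 525 (both (five 2 492 524) (five 2 493 526))))))) (both (mv 461 (both (five 3 461 462) (mv 460 (both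 (five 3 460 493) (mv 466 (both (five 1 462 465) (mv 498 (both (five 1 463 467) (mv 499 (both (five 2 495 527) (mv 531 (both (five 0 495 530) (five 0 496 532))))))))))))) (mv 466 (both (five 1 462 465) (mv 498 (both (five 1 463 467) (mv 526 (both (five 2 493 525) (five 2 494 527)))))))))) (both (mv 497 (both (mv 465 (both (five 1 462 466) (mv 433 (both (five 6 400 401) (mv 529 (both (five 0 494 530) (five 6 432 560))))))) (both (mv 466 (both (five 1 462 465) (mv 498 (both (five 1 463 467) (mv 526 (both (five 2 493 525) (five 2 494 527))))))) (mv 526 (both (five 2 493 525) (mv 498 (both (five 2 494 527) (mv 530 (both (five 0 494 529) (five 0 495 531)))))))))) (mv 493 (both (five 0 493 529) (mv 461 (both (five 3 460 460) (mv 429 (both (mv 397 (both (five 4 397 526) (mv 364 (both (five 7 364 396) (mv 365 (both (five 7 332 332) (five 4 365 462))))))) (both (mv 525 (both (five 2 492 524) (mv 430 (both (five 5 397 398) (mv 557 (both (five 5 429 462) (mv 556 (both (five 6 460 588) (mv 558 (both (five 4 461 590) (mv 559 (both (five 1 524 527) (mv 592 (both (five 0 556 591) (mv 560 (both (five 7 463 463) (five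 0 557 593))))))))))))))))) (mv 397 (both (five 4 397 526) (mv 364 (both (five 7 364 396) (mv 332 (both (five 7 332 365) (mv 398 (both (five 5 365 366) (mv 525 (both (five 5 397 430) (five 2 492 524)))))))))))))))))))))) (both (mv 495 (both (mv 529 (both (five 0 493 493) (mv 530 (both (five 0 494 497) (five 3 495 531))))) (both (mv 497 (both (mv 466 (both (five 1 462 465) (mv 498 (both (five 1 463 467) (mv 499 (both (five 2 495 527) (mv 531 (both (five 0 495 530) (five 0 496 532))))))))) (both (mv 462 (both (five 3 461 461) (mv 463 (both (five 3 462 498) (mv 431 (both (five 4 399 399) (mv 526 (both (five 2 493 525) (five 5 430 558))))))))) (mv 463 (both (mv 431 (both (five 4 399 399) (mv 560 (both (five 4 431 527) (five 7 463 592))))) (both (mv 462 (both (five 3 461 461) (mv 465 (both (five 1 462 466) (mv 526 (both (five 2 493 525) (mv 558 (both (five 5 462 590) (mv 557 (both (five 6 461 589) (mv 559 (both (five 4 462 591) (mv 527 (both (five 4 430 430) (five 1 524 556))))))))))))))) (mv 431 (both (five 4 399 399) (mv 462 (both (five 3 461 461) (mv 526 (both (five 2 493 525) (five 5 430 558)))))))))))))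 (mv 493 (both (five 0 493 529) (mv 492 (both (five 0 492 527) (mv 524 (both (five 2 491 523) (five 2 492 525)))))))))) (mv 495 (both (mv 529 (both (five 0 493 493) (mv 530 (both (five 0 494 497) (five 3 495 531))))) (both (mv 497 (both (mv 466 (both (five 1 462 465) (mv 498 (both (five 1 463 467) (mv 499 (both (five 2 495 527) (mv 531 (both (five 0 495 530) (five 0 496 532))))))))) (both (mv 462 (both (five 3 461 461) (mv 463 (both (five 3 462 498) (mv 431 (both (five 4 399 399) (mv 526 (both (five 2 493 525) (five 5 430 558))))))))) (mv 463 (both (mv 431 (both (five 4 399 399) (mv 560 (both (five 4 431 527) (five 7 463 592))))) (both (mv 462 (both (five 3 461 461) (mv 465 (both (five 1 462 466) (mv 526 (both (five 2 493 525) (mv 558 (both (five 5 462 590) (mv 557 (both (five 6 461 589) (mv 559 (both (five 4 462 591) (mv 527 (both (five 4 430 430) (five 1 524 556))))))))))))))) (mv 431 (both (five 4 399 399) (mv 462 (both (five 3 461 461) (mv 526 (both (five 2 493 525) (five 5 430 558))))))))))))) (mv 493 (both (five 0 493 529) (mv 460 (both (five 3 460 461) (mv 492 (both (five 3 459 459) (five 0 492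 527))))))))))))))))))))))))

theorem L99 : W (S 878694100701304956511192169158242687862212665431883220280182872118455237980908336946979793684870563807462937680039967586724118902039808942127312687095760289792) (S 722369737736605437997819451472167225665827982126268931732265900123420533254316347400113948136680087412893541215311486935544827571667795128677886472537358763131878305759400560239793486865266380010884299751424) :=
  check_sound (Env.cons L98 Env.nil) (x := 494) (t := tL99) (by decide +kernel)

def tL100 : T :=
  (both (mv 560 (both (mv 464 (both (mv 431 (both (five 7 431 463) (mv 432 (both (five 7 399 399) (mv 559 (both (five 6 431 527) (five 6 463 591))))))) (both (mv 465 (both (five 5 432 433) (mv 559 (both (five 6 463 591) (mv 432 (both (five 6 431 527) (mv 399 (both (five 7 399 431) (mv 400 (both (five 7 367 367) (mv 497 (both (five 4 368 368) (five 4 400 529))))))))))))) (both (mv 495 (both (mv 465 (both (five 5 432 433) (mv 466 (both (five 2 463 467) (mv 494 (both (five 2 462 463) (five 1 461 493))))))) (both (mv 529 (both (mv 493 (both (five 0 493 494) (mv 559 (both (five 6 463 591) (mv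 432 (both (five 6 431 527) (mv 400 (both (five 4 400 497) (mv 367 (both (five 7 367 399) (mv 368 (both (five 7 335 335) (five 6 367 463))))))))))))) (both (mv 530 (both (five 3 495 531) (mv 559 (both (five 6 463 591) (mv 527 (both (five 6 431 432) (five 2 526 558))))))) (mv 494 (both (five 0 493 493) (mv 530 (both (five 0 494 497) (five 3 495 531)))))))) (both (mv 463 (both (mv 465 (both (five 5 432 433) (mv 466 (both (five 2 463 467) (mv 434 (both (five 1 431 435) (mv 498 (both (five 0 463 499) (mv 462 (both (five 0 462 497) (mv 429 (both (five 3 429 430) (mv 461 (both (five 3 428 428) (five 0 460 460))))))))))))))) (both (mv 559 (both (five 6 463 591) (mv 432 (both (five 5 431 527) (mv 400 (both (five 6 367 368) (mv 367 (both (five 7 367 399) (mv 497 (both (five 4 400 529) (mv 462 (both (five 0 461 461) (five 3 462 498))))))))))))) (mv 433 (both (five 5 432 465) (mv 559 (both (five 6 463 591) (mv 527 (both (five 5 431 432) (mv 558 (both (five 6 462 590) (mv 529 (both (five 2 526 530) (five 1 525 557)))))))))))))) (mv 465 (both (five 5 432 433) (mv 466 (both (five 2 463 467) (mv 494 (both (five 1 461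 493) (five 1 462 497))))))))))) (mv 463 (both (five 7 431 431) (mv 462 (both (mv 461 (both (five 0 461 497) (mv 428 (both (five 3 428 429) (mv 460 (both (five 3 427 427) (five 0 460 495))))))) (both (mv 465 (both (five 5 432 433) (mv 429 (both (five 3 429 430) (mv 428 (both (five 3 428 461) (mv 494 (both (five 2 461 493) (mv 466 (both (five 2 462 495) (mv 435 (both (five 1 431 434) (mv 467 (both (five 1 432 436) (mv 499 (both (five 0 463 498) (five 0 464 500))))))))))))))))) (both (mv 465 (both (five 5 432 433) (mv 429 (both (five 3 429 430) (mv 493 (both (five 2 461 494) (mv 498 (both (five 0 462 497) (mv 466 (both (five 0 463 499) (mv 435 (both (five 1 431 434) (mv 467 (both (five 1 432 436) (five 2 463 495))))))))))))))) (both (mv 433 (both (five 5 432 465) (mv 461 (both (five 0 461 497) (mv 428 (both (five 3 428 429) (mv 460 (both (five 3 427 427) (mv 492 (both (five 2 459 491) (five 2 460 493))))))))))) (mv 433 (both (five 5 432 465) (mv 461 (both (five 0 461 497) (mv 460 (both (five 0 460 495) (mv 492 (both (five 2 459 491) (five 2 460 493)))))))))))))))))))) (both (mv 592 (both (mv 623 (both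 (five 6 495 591) (mv 624 (both (five 6 527 655) (mv 625 (both (five 4 496 593) (five 4 528 657))))))) (mv 495 (both (five 7 463 463) (mv 494 (both (mv 493 (both (five 0 493 529) (mv 460 (both (five 3 460 461) (mv 492 (both (five 3 459 459) (five 0 492 527))))))) (both (mv 497 (both (five 5 464 465) (mv 526 (both (five 2 493 525) (mv 498 (both (five 2 494 527) (mv 467 (both (five 1 463 466) (mv 499 (both (five 1 464 468) (mv 531 (both (five 0 495 530) (five 0 496 532))))))))))))) (mv 465 (both (five 5 464 497) (mv 493 (both (five 0 493 529) (mv 460 (both (five 3 460 461) (mv 492 (both (five 3 459 459) (mv 524 (both (five 2 491 523) (five 2 492 525)))))))))))))))))) (both (mv 592 (both (mv 623 (both (five 6 495 591) (mv 624 (both (five 6 527 655) (mv 625 (both (five 4 496 593) (five 4 528 657))))))) (both (mv 495 (both (five 7 463 463) (mv 624 (both (five 7 495 527) (mv 625 (both (five 4 496 593) (five 4 528 657))))))) (mv 463 (both (five 7 463 495) (mv 464 (both (five 7 431 431) (mv 591 (both (five 6 463 559) (five 6 495 623)))))))))) (both (mv 592 (both (mv 623 (both (five 6 495 591) (mv 624 (both (five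 6 527 655) (mv 625 (both (five 4 496 593) (five 4 528 657))))))) (both (mv 497 (both (five 5 464 465) (mv 624 (both (five 5 496 529) (mv 625 (both (five 4 496 593) (five 4 528 657))))))) (mv 465 (both (five 5 464 497) (mv 464 (both (five 5 432 433) (mv 591 (both (five 6 463 559) (five 6 495 623)))))))))) (mv 592 (both (mv 497 (both (five 5 464 465) (mv 624 (both (five 5 496 529) (mv 625 (both (five 4 496 593) (five 4 528 657))))))) (both (mv 495 (both (five 7 463 463) (mv 624 (both (five 7 495 527) (mv 625 (both (five 4 496 593) (five 4 528 657))))))) (mv 463 (both (five 7 463 495) (mv 464 (both (five 7 431 431) (mv 465 (both (five 5 432 433) (five 5 464 497))))))))))))))) (both (mv 560 (both (mv 592 (both (mv 623 (both (five 6 495 591) (mv 624 (both (five 6 527 655) (mv 625 (both (five 4 496 593) (five 4 528 657))))))) (both (mv 495 (both (five 7 463 463) (mv 624 (both (five 7 495 527) (mv 625 (both (five 4 496 593) (five 4 528 657))))))) (mv 463 (both (five 7 463 495) (mv 464 (both (five 7 431 431) (mv 591 (both (five 6 463 559) (five 6 495 623)))))))))) (both (mv 464 (both (mv 431 (both (five 7 431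 463) (mv 432 (both (five 7 399 399) (mv 559 (both (five 6 431 527) (five 6 463 591))))))) (both (mv 431 (both (five 7 431 463) (mv 432 (both (five 7 399 399) (mv 433 (both (five 5 400 401) (five 5 432 465))))))) (both (mv 433 (both (five 5 432 465) (mv 432 (both (five 5 400 401) (mv 559 (both (five 6 431 527) (five 6 463 591))))))) (mv 495 (both (mv 465 (both (five 5 432 433) (mv 466 (both (five 2 463 467) (mv 494 (both (five 2 462 463) (five 1 461 493))))))) (both (mv 529 (both (mv 463 (both (five 7 431 431) (mv 494 (both (five 0 493 493) (mv 559 (both (five 6 463 591) (mv 558 (both (five 1 525 557) (mv 590 (both (five 5 462 526) (five 6 462 527))))))))))) (both (mv 431 (both (five 7 431 463) (mv 530 (both (five 3 495 531) (mv 559 (both (five 6 463 591) (mv 558 (both (five 2 526 527) (five 1 525 557))))))))) (mv 494 (both (five 0 493 493) (mv 530 (both (five 0 494 497) (five 3 495 531)))))))) (both (mv 465 (both (five 5 432 433) (mv 466 (both (five 2 463 467) (mv 494 (both (five 1 461 493) (five 1 462 497))))))) (mv 529 (both (mv 530 (both (five 3 495 531) (mv 559 (both (five 6 463 591) (mv 558 (both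 (five 2 526 527) (five 1 525 557))))))) (mv 463 (both (five 7 431 431) (mv 465 (both (five 5 432 433) (mv 466 (both (five 2 463 467) (mv 434 (both (five 1 431 435) (mv 498 (both (five 0 463 499) (mv 402 (both (five 6 401 497) (mv 369 (both (five 7 369 401) (mv 370 (both (five 7 337 337) (mv 371 (both (five 5 338 339) (five 5 370 403))))))))))))))))))))))))))))) (both (mv 592 (both (mv 623 (both (five 6 495 591) (mv 624 (both (five 6 527 655) (mv 625 (both (five 4 496 593) (five 4 528 657))))))) (both (mv 497 (both (five 5 464 465) (mv 624 (both (five 5 496 529) (mv 625 (both (five 4 496 593) (five 4 528 657))))))) (both (mv 497 (both (five 5 464 465) (mv 623 (both (five 6 495 591) (mv 624 (both (five 5 496 529) (five 6 527 655))))))) (mv 593 (both (five 4 496 625) (mv 594 (both (mv 463 (both (five 7 463 495) (mv 465 (both (five 5 464 497) (mv 595 (both (five 3 559 559) (mv 564 (both (five 1 560 563) (mv 596 (both (five 1 561 565) (mv 628 (both (five 0 592 627) (five 0 593 629))))))))))))) (both (mv 463 (both (five 7 463 495) (mv 465 (both (five 5 464 497) (mv 591 (both (five 6 495 623) (mv 563 (both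 (five 1 559 562) (mv 595 (both (five 1 560 564) (mv 627 (both (five 0 591 626) (five 0 592 628))))))))))))) (both (mv 463 (both (five 7 463 495) (mv 497 (both (five 5 464 465) (mv 591 (both (five 6 495 623) (mv 558 (both (five 3 558 559) (mv 557 (both (five 3 557 590) (mv 562 (both (five 1 559 563) (mv 626 (both (five 0 591 627) (mv 530 (both (five 7 497 529) (mv 499 (both (five 5 498 531) (mv 498 (both (five 5 466 467) (five 2 495 527))))))))))))))))))))) (mv 559 (both (five 3 559 595) (mv 558 (both (five 0 557 557) (five 3 558 591))))))))))))))) (both (mv 592 (both (mv 623 (both (five 6 495 591) (mv 624 (both (five 6 527 655) (mv 625 (both (five 4 496 593) (five 4 528 657))))))) (both (mv 497 (both (five 5 464 465) (mv 624 (both (five 5 496 529) (mv 625 (both (five 4 496 593) (five 4 528 657))))))) (mv 465 (both (five 5 464 497) (mv 464 (both (five 5 432 433) (mv 591 (both (five 6 463 559) (five 6 495 623)))))))))) (mv 592 (both (mv 497 (both (five 5 464 465) (mv 624 (both (five 5 496 529) (mv 625 (both (five 4 496 593) (five 4 528 657))))))) (both (mv 495 (both (five 7 463 463) (mv 624 (both (five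 7 495 527) (mv 625 (both (five 4 496 593) (five 4 528 657))))))) (mv 463 (both (five 7 463 495) (mv 464 (both (five 7 431 431) (mv 465 (both (five 5 432 433) (five 5 464 497))))))))))))))) (both (mv 495 (both (mv 463 (both (mv 431 (both (five 4 399 399) (mv 527 (both (mv 430 (both (five 7 398 398) (mv 462 (both (five 7 430 559) (mv 461 (both (five 0 460 460) (mv 497 (both (five 0 461 464) (five 3 462 498))))))))) (both (mv 398 (both (five 7 398 430) (mv 558 (both (five 6 430 526) (mv 559 (both (five 6 462 590) (mv 591 (both (five 5 463 464) (five 5 495 623))))))))) (mv 526 (both (five 6 430 558) (mv 497 (both (five 2 494 498) (five 1 493 525)))))))))) (both (mv 559 (both (mv 560 (both (five 7 463 592) (mv 464 (both (five 6 463 591) (mv 465 (both (five 5 432 433) (mv 466 (both (five 2 463 467) (mv 434 (both (five 1 431 435) (mv 498 (both (five 0 463 499) (mv 462 (both (five 0 462 497) (mv 429 (both (five 3 429 430) (mv 461 (both (five 3 428 428) (five 0 460 460))))))))))))))))))) (both (mv 527 (both (mv 558 (both (five 6 462 590) (mv 529 (both (five 2 526 530) (mv 557 (both (five 2 525 526) (five 1 524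 556))))))) (mv 462 (both (five 7 430 430) (mv 461 (both (five 0 460 460) (mv 497 (both (five 0 461 464) (five 3 462 498))))))))) (both (mv 560 (both (five 7 463 592) (mv 591 (both (five 6 463 464) (mv 623 (both (five 5 495 527) (five 5 527 655))))))) (mv 527 (both (mv 558 (both (five 6 462 590) (mv 529 (both (five 2 526 530) (mv 557 (both (five 2 525 526) (five 1 524 556))))))) (mv 430 (both (five 7 430 462) (mv 591 (both (five 5 495 623) (mv 592 (both (five 4 463 560) (five 4 495 624))))))))))))) (both (mv 431 (both (five 4 399 399) (mv 560 (both (five 7 431 464) (five 7 463 592))))) (mv 431 (both (five 4 399 399) (mv 560 (both (five 4 431 527) (five 7 463 592))))))))) (both (mv 494 (both (mv 493 (both (five 0 493 529) (mv 460 (both (five 3 460 461) (mv 492 (both (five 3 459 459) (mv 524 (both (five 2 491 523) (five 2 492 525))))))))) (both (mv 497 (both (mv 465 (both (five 1 462 466) (mv 433 (both (five 6 400 401) (mv 529 (both (five 0 494 530) (five 6 432 560))))))) (both (mv 462 (both (five 3 461 461) (mv 463 (both (five 3 462 498) (mv 431 (both (five 4 399 399) (mv 560 (both (five 7 431 464) (five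 7 463 592))))))))) (mv 461 (both (five 3 461 462) (mv 466 (both (five 1 462 465) (mv 498 (both (five 1 463 467) (mv 530 (both (five 0 494 529) (five 0 495 531)))))))))))) (both (mv 497 (both (mv 465 (both (five 1 462 466) (mv 433 (both (five 6 400 401) (mv 560 (both (five 5 432 464) (five 5 464 592))))))) (mv 461 (both (five 3 461 462) (mv 493 (both (five 3 460 460) (mv 525 (both (five 2 492 524) (five 2 493 526))))))))) (mv 493 (both (five 0 493 529) (mv 464 (both (five 1 461 465) (mv 463 (both (five 1 460 492) (mv 431 (both (five 4 399 399) (five 7 431 560))))))))))))) (both (mv 463 (both (mv 431 (both (five 4 399 399) (mv 527 (both (mv 558 (both (five 6 430 526) (mv 559 (both (five 6 462 590) (mv 591 (both (five 5 463 464) (five 5 495 623))))))) (both (mv 430 (both (five 7 398 398) (mv 559 (both (five 7 430 462) (mv 591 (both (five 5 463 464) (five 5 495 623))))))) (mv 398 (both (five 7 398 430) (mv 526 (both (five 6 430 558) (mv 525 (both (five 1 492 524) (mv 493 (both (five 3 492 492) (mv 494 (both (five 0 493 529) (mv 557 (both (five 2 524 556) (mv 589 (both (five 5 461 462) (five 5 493 621))))))))))))))))))))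 (both (mv 559 (both (mv 527 (both (mv 591 (both (five 5 463 464) (five 5 495 623))) (mv 430 (both (five 7 430 462) (mv 558 (both (five 6 462 590) (mv 529 (both (five 2 526 530) (mv 557 (both (five 2 525 526) (five 1 524 556))))))))))) (both (mv 560 (both (five 7 463 592) (mv 464 (both (five 6 463 591) (mv 465 (both (five 5 432 433) (mv 466 (both (five 2 463 467) (five 2 462 494))))))))) (both (mv 558 (both (mv 527 (both (five 6 462 590) (mv 529 (both (five 2 526 530) (mv 557 (both (five 2 525 526) (five 1 524 556))))))) (both (mv 560 (both (five 7 463 592) (mv 557 (both (five 1 525 529) (mv 524 (both (five 3 524 525) (mv 556 (both (five 3 523 523) (mv 588 (both (five 2 555 587) (five 2 556 589))))))))))) (both (mv 527 (both (five 6 462 590) (mv 462 (both (five 7 430 430) (mv 460 (both (five 0 460 461) (mv 557 (both (five 1 524 556) (mv 560 (both (five 7 463 592) (mv 525 (both (five 3 524 524) (mv 589 (both (five 2 556 588) (mv 493 (both (five 7 460 492) (five 5 461 494))))))))))))))))) (mv 527 (both (five 6 462 590) (mv 462 (both (five 7 430 430) (mv 461 (both (five 0 460 460) (mv 529 (both (five 2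 526 530) (mv 494 (both (five 0 493 493) (mv 429 (both (five 7 429 526) (mv 365 (both (five 4 365 397) (mv 464 (both (five 3 428 428) (mv 465 (both (five 2 462 466) (mv 433 (both (five 1 430 434) (five 5 432 560))))))))))))))))))))))))) (mv 527 (both (mv 558 (both (five 6 462 590) (mv 529 (both (five 2 526 530) (mv 557 (both (five 2 525 526) (five 1 524 556))))))) (mv 430 (both (five 7 430 462) (mv 591 (both (five 5 495 623) (mv 592 (both (five 4 463 560) (five 4 495 624))))))))))))) (both (mv 431 (both (five 4 399 399) (mv 560 (both (five 7 431 464) (five 7 463 592))))) (mv 431 (both (five 4 399 399) (mv 560 (both (five 4 431 527) (five 7 463 592))))))))) (both (mv 494 (both (mv 497 (both (mv 526 (both (five 2 493 525) (mv 498 (both (five 2 494 527) (mv 530 (both (five 0 494 529) (five 0 495 531))))))) (both (mv 466 (both (five 1 462 465) (mv 498 (both (five 1 463 467) (mv 530 (both (five 0 494 529) (five 0 495 531))))))) (both (mv 461 (both (five 3 461 462) (mv 466 (both (five 1 462 465) (mv 498 (both (five 1 463 467) (mv 526 (both (five 2 493 525) (five 2 494 527))))))))) (mv 462 (both (five 3 461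 461) (mv 465 (both (five 1 462 466) (mv 433 (both (five 6 400 401) (mv 526 (both (five 2 493 525) (mv 529 (both (five 0 494 530) (mv 434 (both (five 5 401 402) (mv 463 (both (five 1 430 464) (mv 558 (both (five 5 462 590) (mv 557 (both (five 2 525 527) (five 6 461 589))))))))))))))))))))))) (both (mv 493 (both (mv 460 (both (five 3 460 461) (mv 492 (both (five 3 459 459) (five 0 492 527))))) (both (mv 460 (both (five 3 460 461) (mv 465 (both (five 1 461 464) (mv 497 (both (five 1 462 466) (mv 525 (both (five 2 492 524) (five 2 493 526))))))))) (mv 464 (both (five 1 461 465) (mv 492 (both (five 1 460 463) (five 0 492 527)))))))) (both (mv 493 (both (five 0 493 529) (mv 460 (both (five 3 460 461) (mv 492 (both (five 3 459 459) (mv 524 (both (five 2 491 523) (five 2 492 525))))))))) (mv 493 (both (five 0 493 529) (mv 464 (both (five 1 461 465) (mv 492 (both (five 1 460 463) (five 0 492 527))))))))))) (both (mv 497 (both (mv 494 (both (mv 465 (both (five 1 462 466) (mv 433 (both (five 6 400 401) (mv 560 (both (five 5 432 464) (five 5 464 592))))))) (mv 461 (both (five 3 461 462) (mv 493 (both (five 3 460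 460) (mv 525 (both (five 2 492 524) (five 2 493 526))))))))) (both (mv 498 (both (mv 467 (both (five 1 463 466) (mv 499 (both (five 1 464 468) (mv 531 (both (five 0 495 530) (five 0 496 532))))))) (mv 463 (both (five 3 462 462) (mv 431 (both (five 4 399 399) (mv 560 (both (five 7 431 464) (five 4 431 527))))))))) (both (mv 498 (both (mv 462 (both (five 3 462 463) (mv 466 (both (five 1 463 467) (mv 494 (both (five 3 461 461) (five 1 462 465))))))) (mv 527 (both (five 2 495 499) (five 2 494 526))))) (both (mv 498 (both (mv 527 (both (five 2 495 499) (five 2 494 526))) (mv 466 (both (five 1 463 467) (mv 465 (both (five 1 462 494) (mv 433 (both (five 6 400 401) (mv 560 (both (five 5 432 464) (five 5 464 592))))))))))) (mv 498 (both (mv 527 (both (five 2 495 499) (five 2 494 526))) (both (mv 531 (both (five 0 495 530) (mv 499 (both (five 0 496 532) (mv 464 (both (five 3 463 463) (mv 465 (both (five 3 464 500) (mv 433 (both (five 6 400 401) (five 5 432 560))))))))))) (mv 463 (both (five 3 462 462) (mv 431 (both (five 4 399 399) (mv 560 (both (five 7 431 464) (five 4 431 527))))))))))))))) (both (mv 494 (both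 (mv 497 (both (mv 465 (both (five 1 462 466) (mv 433 (both (five 6 400 401) (mv 560 (both (five 5 432 464) (five 5 464 592))))))) (both (mv 462 (both (five 3 461 461) (mv 463 (both (five 3 462 498) (mv 431 (both (five 4 399 399) (mv 560 (both (five 7 431 464) (five 7 463 592))))))))) (mv 466 (both (five 1 462 465) (mv 498 (both (five 1 463 467) (mv 526 (both (five 2 493 525) (five 2 494 527)))))))))) (both (mv 493 (both (five 0 493 529) (mv 460 (both (five 3 460 461) (mv 492 (both (five 3 459 459) (mv 524 (both (five 2 491 523) (five 2 492 525))))))))) (mv 493 (both (five 0 493 529) (mv 464 (both (five 1 461 465) (mv 492 (both (five 1 460 463) (five 0 492 527)))))))))) (both (mv 494 (both (mv 493 (both (five 0 493 529) (mv 460 (both (five 3 460 461) (mv 492 (both (five 3 459 459) (five 0 492 527))))))) (both (mv 497 (both (mv 465 (both (five 1 462 466) (mv 433 (both (five 6 400 401) (mv 529 (both (five 0 494 530) (five 6 432 560))))))) (both (mv 466 (both (five 1 462 465) (mv 498 (both (five 1 463 467) (mv 526 (both (five 2 493 525) (five 2 494 527))))))) (mv 526 (both (five 2 493 525) (mv 498 (both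 (five 2 494 527) (mv 530 (both (five 0 494 529) (five 0 495 531)))))))))) (both (mv 497 (both (mv 461 (both (five 3 461 462) (mv 493 (both (five 3 460 460) (mv 525 (both (five 2 492 524) (five 2 493 526))))))) (both (mv 461 (both (five 3 461 462) (mv 460 (both (five 3 460 493) (mv 466 (both (five 1 462 465) (mv 498 (both (five 1 463 467) (mv 499 (both (five 2 495 527) (mv 531 (both (five 0 495 530) (five 0 496 532))))))))))))) (mv 466 (both (five 1 462 465) (mv 498 (both (five 1 463 467) (mv 526 (both (five 2 493 525) (five 2 494 527)))))))))) (mv 493 (both (five 0 493 529) (mv 460 (both (five 3 460 461) (mv 492 (both (five 3 459 459) (mv 524 (both (five 2 491 523) (five 2 492 525))))))))))))) (both (mv 463 (both (mv 431 (both (five 4 399 399) (mv 527 (both (mv 430 (both (five 7 398 398) (mv 462 (both (five 7 430 559) (mv 461 (both (five 0 460 460) (mv 497 (both (five 0 461 464) (five 3 462 498))))))))) (both (mv 398 (both (five 7 398 430) (mv 558 (both (five 6 430 526) (mv 559 (both (five 6 462 590) (mv 591 (both (five 5 463 464) (five 5 495 623))))))))) (mv 526 (both (five 6 430 558) (mv 497 (both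 (five 2 494 498) (five 1 493 525)))))))))) (both (mv 497 (both (mv 462 (both (five 3 462 498) (mv 461 (both (five 0 460 460) (five 0 461 464))))) (both (mv 494 (both (mv 493 (both (five 0 493 529) (mv 460 (both (five 3 460 461) (mv 492 (both (five 3 459 459) (five 0 492 527))))))) (both (mv 461 (both (five 3 461 462) (mv 493 (both (five 3 460 460) (mv 525 (both (five 2 492 524) (five 2 493 526))))))) (mv 526 (both (five 2 493 525) (mv 529 (both (five 0 494 530) (mv 558 (both (five 5 462 590) (mv 557 (both (five 2 525 527) (mv 560 (both (five 1 525 559) (five 7 463 592)))))))))))))) (mv 498 (both (mv 527 (both (five 2 495 499) (five 2 494 526))) (both (mv 467 (both (five 1 463 466) (mv 499 (both (five 1 464 468) (mv 531 (both (five 0 495 530) (five 0 496 532))))))) (mv 466 (both (five 1 463 467) (mv 526 (both (five 2 494 527) (mv 494 (both (five 2 493 525) (mv 530 (both (five 0 494 529) (five 0 495 531))))))))))))))) (both (mv 431 (both (five 4 399 399) (mv 560 (both (five 7 431 464) (five 7 463 592))))) (mv 431 (both (five 4 399 399) (mv 560 (both (five 4 431 527) (five 7 463 592))))))))) (both (mv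 494 (both (mv 493 (both (five 0 493 529) (mv 460 (both (five 3 460 461) (mv 492 (both (five 3 459 459) (five 0 492 527))))))) (both (mv 497 (both (mv 465 (both (five 1 462 466) (mv 433 (both (five 6 400 401) (mv 529 (both (five 0 494 530) (five 6 432 560))))))) (both (mv 462 (both (five 3 461 461) (mv 463 (both (five 3 462 498) (mv 431 (both (five 4 399 399) (mv 560 (both (five 7 431 464) (five 7 463 592))))))))) (mv 461 (both (five 3 461 462) (mv 466 (both (five 1 462 465) (mv 498 (both (five 1 463 467) (mv 530 (both (five 0 494 529) (five 0 495 531)))))))))))) (both (mv 497 (both (mv 465 (both (five 1 462 466) (mv 433 (both (five 6 400 401) (mv 560 (both (five 5 432 464) (five 5 464 592))))))) (both (mv 462 (both (five 3 461 461) (mv 463 (both (five 3 462 498) (mv 431 (both (five 4 399 399) (mv 560 (both (five 7 431 464) (five 7 463 592))))))))) (mv 466 (both (five 1 462 465) (mv 498 (both (five 1 463 467) (mv 499 (both (five 2 495 527) (mv 531 (both (five 0 495 530) (five 0 496 532)))))))))))) (mv 493 (both (five 0 493 529) (mv 464 (both (five 1 461 465) (mv 492 (both (five 1 460 463) (five 0 492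 527))))))))))) (both (mv 494 (both (mv 497 (both (mv 465 (both (five 1 462 466) (mv 433 (both (five 6 400 401) (mv 560 (both (five 5 432 464) (five 5 464 592))))))) (both (mv 526 (both (five 2 493 525) (mv 498 (both (five 2 494 527) (mv 467 (both (five 1 463 466) (mv 499 (both (five 1 464 468) (mv 531 (both (five 0 495 530) (five 0 496 532))))))))))) (mv 526 (both (five 2 493 525) (mv 498 (both (five 2 494 527) (mv 531 (both (five 0 495 530) (mv 499 (both (five 0 496 532) (mv 464 (both (five 3 463 463) (mv 465 (both (five 3 464 500) (mv 433 (both (five 6 400 401) (five 5 432 560)))))))))))))))))) (both (mv 493 (both (five 0 493 529) (mv 464 (both (five 1 461 465) (mv 463 (both (five 1 460 492) (mv 431 (both (five 4 399 399) (five 7 431 560))))))))) (mv 493 (both (five 0 493 529) (mv 492 (both (five 0 492 527) (mv 524 (both (five 2 491 523) (five 2 492 525)))))))))) (mv 463 (both (mv 431 (both (five 4 399 399) (mv 527 (both (mv 430 (both (five 7 398 398) (mv 462 (both (five 7 430 559) (mv 461 (both (five 0 460 460) (mv 497 (both (five 0 461 464) (five 3 462 498))))))))) (both (mv 398 (both (five 7 398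 430) (mv 558 (both (five 6 430 526) (mv 559 (both (five 6 462 590) (mv 591 (both (five 5 463 464) (five 5 495 623))))))))) (mv 526 (both (five 6 430 558) (mv 497 (both (five 2 494 498) (five 1 493 525)))))))))) (both (mv 497 (both (mv 462 (both (five 3 462 498) (mv 461 (both (five 0 460 460) (five 0 461 464))))) (both (mv 494 (both (mv 493 (both (five 0 493 529) (mv 460 (both (five 3 460 461) (mv 492 (both (five 3 459 459) (five 0 492 527))))))) (both (mv 461 (both (five 3 461 462) (mv 493 (both (five 3 460 460) (mv 525 (both (five 2 492 524) (five 2 493 526))))))) (mv 526 (both (five 2 493 525) (mv 529 (both (five 0 494 530) (mv 558 (both (five 5 462 590) (mv 557 (both (five 2 525 527) (mv 560 (both (five 1 525 559) (five 7 463 592)))))))))))))) (mv 498 (both (mv 527 (both (five 2 495 499) (five 2 494 526))) (both (mv 464 (both (five 3 463 499) (mv 530 (both (five 0 495 531) (mv 494 (both (five 0 494 529) (mv 493 (both (five 1 461 465) (five 1 460 492))))))))) (mv 526 (both (five 2 494 527) (mv 494 (both (five 2 493 525) (mv 530 (both (five 0 494 529) (five 0 495 531))))))))))))) (both (mv 431 (both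 (five 4 399 399) (mv 560 (both (five 7 431 464) (five 7 463 592))))) (mv 431 (both (five 4 399 399) (mv 560 (both (five 4 431 527) (five 7 463 592)))))))))))))))))))) (both (mv 495 (both (mv 464 (both (mv 432 (both (mv 431 (both (five 7 399 399) (mv 430 (both (mv 429 (both (five 0 429 465) (mv 396 (both (five 3 396 397) (mv 428 (both (five 3 395 395) (five 0 428 463))))))) (both (mv 433 (both (five 5 400 401) (mv 462 (both (five 2 429 461) (mv 434 (both (five 2 430 463) (mv 403 (both (five 1 399 402) (mv 435 (both (five 1 400 404) (mv 467 (both (five 0 431 466) (five 0 432 468))))))))))))) (mv 401 (both (five 5 400 433) (mv 429 (both (five 0 429 465) (mv 396 (both (five 3 396 397) (mv 428 (both (five 3 395 395) (mv 460 (both (five 2 427 459) (five 2 428 461)))))))))))))))) (both (mv 400 (both (five 6 399 527) (mv 401 (both (five 5 368 369) (five 5 400 433))))) (mv 399 (both (five 7 399 431) (mv 400 (both (five 7 367 367) (five 6 399 527)))))))) (both (mv 432 (both (mv 400 (both (five 6 399 527) (mv 401 (both (five 5 368 369) (five 5 400 433))))) (both (mv 431 (both (five 7 399 399) (mv 433 (both (five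 5 400 401) (mv 465 (both (five 5 432 560) (mv 430 (both (five 0 429 429) (five 0 430 466))))))))) (mv 399 (both (five 7 399 431) (mv 400 (both (five 7 367 367) (five 6 399 527)))))))) (both (mv 560 (both (mv 465 (both (five 5 432 433) (mv 592 (both (five 5 464 497) (mv 623 (both (five 6 495 591) (mv 624 (both (five 6 527 655) (mv 625 (both (five 4 496 593) (five 4 528 657))))))))))) (both (mv 463 (both (five 7 431 431) (mv 465 (both (five 5 432 433) (mv 466 (both (five 2 463 467) (mv 434 (both (five 1 431 435) (mv 498 (both (five 0 463 499) (mv 462 (both (five 0 462 497) (mv 429 (both (five 3 429 430) (mv 461 (both (five 3 428 428) (five 0 460 460))))))))))))))))) (mv 463 (both (five 7 431 431) (five 7 463 592)))))) (both (mv 432 (both (mv 433 (both (five 5 400 401) (mv 560 (both (five 5 432 465) (mv 592 (both (five 7 463 463) (mv 624 (both (five 7 495 527) (mv 625 (both (five 4 496 593) (five 4 528 657))))))))))) (both (mv 400 (both (five 6 399 527) (mv 367 (both (five 7 367 399) (mv 368 (both (five 7 335 335) (five 6 367 463))))))) (mv 401 (both (five 5 400 433) (mv 400 (both (five 5 368 369) (mv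 367 (both (five 7 367 399) (mv 368 (both (five 7 335 335) (mv 497 (both (five 4 368 465) (five 4 400 529)))))))))))))) (both (mv 432 (both (mv 400 (both (five 6 399 527) (mv 401 (both (five 5 368 369) (five 5 400 433))))) (both (mv 431 (both (five 7 399 399) (mv 433 (both (five 5 400 401) (mv 463 (both (five 7 431 560) (mv 434 (both (five 2 431 435) (five 2 430 462))))))))) (mv 399 (both (five 7 399 431) (mv 400 (both (five 7 367 367) (five 6 399 527)))))))) (mv 431 (both (mv 432 (both (five 7 399 399) (mv 400 (both (five 6 399 527) (mv 369 (both (five 5 368 401) (mv 368 (both (five 5 336 337) (mv 497 (both (five 4 368 465) (five 4 400 529))))))))))) (both (mv 463 (both (five 7 431 560) (mv 527 (both (mv 526 (both (five 6 430 558) (mv 497 (both (five 2 494 498) (five 1 493 525))))) (mv 400 (both (five 5 399 432) (mv 430 (both (five 7 398 398) (mv 429 (both (five 0 428 428) (mv 465 (both (five 3 429 462) (five 3 430 466))))))))))))) (mv 463 (both (five 4 399 399) (five 7 431 560)))))))))))) (both (mv 464 (both (mv 432 (both (mv 400 (both (five 6 399 527) (mv 401 (both (five 5 368 369) (five 5 400 433)))))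 (both (mv 431 (both (five 7 399 399) (mv 433 (both (five 5 400 401) (mv 465 (both (five 5 432 560) (mv 430 (both (five 0 429 429) (five 0 430 466))))))))) (mv 399 (both (five 7 399 431) (mv 400 (both (five 7 367 367) (five 6 399 527)))))))) (both (mv 463 (both (mv 431 (both (five 4 399 399) (five 7 431 560))) (both (mv 560 (both (five 7 463 592) (mv 465 (both (five 5 432 433) (mv 466 (both (five 2 463 467) (five 2 462 494))))))) (mv 431 (both (five 4 399 399) (mv 430 (both (mv 429 (both (five 0 428 428) (mv 465 (both (five 3 429 462) (five 3 430 466))))) (both (mv 398 (both (five 7 398 527) (mv 366 (both (five 4 334 334) (five 4 366 462))))) (mv 398 (both (five 7 398 527) (mv 366 (both (five 4 334 334) (mv 429 (both (five 0 428 428) (mv 465 (both (five 3 430 466) (mv 493 (both (five 1 461 494) (mv 461 (both (five 5 365 397) (five 5 397 525))))))))))))))))))))) (both (mv 465 (both (mv 466 (both (five 2 463 467) (mv 494 (both (five 2 462 463) (five 1 461 493))))) (mv 433 (both (five 5 432 560) (mv 401 (both (five 6 368 369) (five 5 400 432))))))) (both (mv 432 (both (mv 431 (both (five 7 399 399) (mv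 430 (both (mv 429 (both (five 0 429 465) (mv 396 (both (five 3 396 397) (mv 428 (both (five 3 395 395) (five 0 428 463))))))) (both (mv 433 (both (five 5 400 401) (mv 462 (both (five 2 429 461) (mv 434 (both (five 2 430 463) (mv 403 (both (five 1 399 402) (mv 435 (both (five 1 400 404) (mv 467 (both (five 0 431 466) (five 0 432 468))))))))))))) (mv 401 (both (five 5 400 433) (mv 429 (both (five 0 429 465) (mv 396 (both (five 3 396 397) (mv 428 (both (five 3 395 395) (mv 460 (both (five 2 427 459) (five 2 428 461)))))))))))))))) (both (mv 400 (both (five 6 399 527) (mv 401 (both (five 5 368 369) (five 5 400 433))))) (mv 399 (both (five 7 399 431) (mv 400 (both (five 7 367 367) (five 6 399 527)))))))) (both (mv 432 (both (mv 400 (both (five 6 399 527) (mv 401 (both (five 5 368 369) (five 5 400 433))))) (both (mv 431 (both (five 7 399 399) (mv 433 (both (five 5 400 401) (mv 463 (both (five 7 431 560) (mv 434 (both (five 2 431 435) (five 2 430 462))))))))) (mv 399 (both (five 7 399 431) (mv 400 (both (five 7 367 367) (five 6 399 527)))))))) (mv 494 (both (mv 432 (both (mv 399 (both (five 7 399 431) (mv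 400 (both (five 7 367 367) (five 6 399 527))))) (both (mv 431 (both (five 7 399 399) (mv 463 (both (five 7 431 560) (mv 465 (both (five 2 462 466) (mv 430 (both (five 0 429 429) (mv 398 (both (five 7 398 527) (mv 366 (both (five 4 334 334) (five 4 366 462))))))))))))) (both (mv 400 (both (five 6 399 527) (mv 368 (both (five 6 367 463) (mv 369 (both (five 5 336 337) (five 5 368 401))))))) (mv 399 (both (five 7 399 431) (mv 400 (both (five 7 367 367) (mv 368 (both (five 6 367 463) (mv 369 (both (five 5 336 337) (five 5 368 401))))))))))))) (mv 493 (both (five 0 493 529) (mv 460 (both (five 3 460 461) (mv 492 (both (five 3 459 459) (mv 524 (both (five 2 491 523) (five 2 492 525))))))))))))))))) (both (mv 497 (both (mv 494 (both (mv 465 (both (five 1 462 466) (mv 433 (both (five 6 400 401) (mv 560 (both (five 5 432 464) (five 5 464 592))))))) (mv 461 (both (five 3 461 462) (mv 493 (both (five 3 460 460) (mv 525 (both (five 2 492 524) (five 2 493 526))))))))) (both (mv 498 (both (mv 467 (both (five 1 463 466) (mv 499 (both (five 1 464 468) (mv 531 (both (five 0 495 530) (five 0 496 532))))))) (mv 463 (both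 (five 3 462 462) (mv 431 (both (five 4 399 399) (mv 560 (both (five 7 431 464) (five 4 431 527))))))))) (both (mv 498 (both (mv 462 (both (five 3 462 463) (mv 466 (both (five 1 463 467) (mv 494 (both (five 3 461 461) (five 1 462 465))))))) (mv 527 (both (five 2 495 499) (five 2 494 526))))) (both (mv 498 (both (mv 527 (both (five 2 495 499) (five 2 494 526))) (mv 466 (both (five 1 463 467) (mv 465 (both (five 1 462 494) (mv 433 (both (five 6 400 401) (mv 560 (both (five 5 432 464) (five 5 464 592))))))))))) (mv 498 (both (mv 527 (both (five 2 495 499) (five 2 494 526))) (both (mv 531 (both (five 0 495 530) (mv 499 (both (five 0 496 532) (mv 464 (both (five 3 463 463) (mv 465 (both (five 3 464 500) (mv 433 (both (five 6 400 401) (five 5 432 560))))))))))) (mv 463 (both (five 3 462 462) (mv 431 (both (five 4 399 399) (mv 560 (both (five 7 431 464) (five 4 431 527))))))))))))))) (both (mv 494 (both (mv 493 (both (five 0 493 529) (mv 460 (both (five 3 460 461) (mv 492 (both (five 3 459 459) (mv 524 (both (five 2 491 523) (five 2 492 525))))))))) (both (mv 497 (both (mv 465 (both (five 1 462 466) (mv 433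 (both (five 6 400 401) (mv 529 (both (five 0 494 530) (five 6 432 560))))))) (both (mv 462 (both (five 3 461 461) (mv 463 (both (five 3 462 498) (mv 431 (both (five 4 399 399) (mv 560 (both (five 7 431 464) (five 7 463 592))))))))) (mv 461 (both (five 3 461 462) (mv 466 (both (five 1 462 465) (mv 498 (both (five 1 463 467) (mv 530 (both (five 0 494 529) (five 0 495 531)))))))))))) (both (mv 497 (both (mv 465 (both (five 1 462 466) (mv 433 (both (five 6 400 401) (mv 560 (both (five 5 432 464) (five 5 464 592))))))) (mv 461 (both (five 3 461 462) (mv 493 (both (five 3 460 460) (mv 525 (both (five 2 492 524) (five 2 493 526))))))))) (mv 493 (both (five 0 493 529) (mv 464 (both (five 1 461 465) (mv 463 (both (five 1 460 492) (mv 431 (both (five 4 399 399) (five 7 431 560))))))))))))) (both (mv 494 (both (mv 497 (both (mv 526 (both (five 2 493 525) (mv 498 (both (five 2 494 527) (mv 530 (both (five 0 494 529) (five 0 495 531))))))) (both (mv 466 (both (five 1 462 465) (mv 498 (both (five 1 463 467) (mv 530 (both (five 0 494 529) (five 0 495 531))))))) (both (mv 461 (both (five 3 461 462) (mv 466 (both (five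 1 462 465) (mv 498 (both (five 1 463 467) (mv 526 (both (five 2 493 525) (five 2 494 527))))))))) (mv 462 (both (five 3 461 461) (mv 465 (both (five 1 462 466) (mv 433 (both (five 6 400 401) (mv 526 (both (five 2 493 525) (mv 529 (both (five 0 494 530) (mv 434 (both (five 5 401 402) (mv 463 (both (five 1 430 464) (mv 558 (both (five 5 462 590) (mv 557 (both (five 2 525 527) (five 6 461 589))))))))))))))))))))))) (both (mv 493 (both (mv 460 (both (five 3 460 461) (mv 492 (both (five 3 459 459) (five 0 492 527))))) (both (mv 460 (both (five 3 460 461) (mv 465 (both (five 1 461 464) (mv 497 (both (five 1 462 466) (mv 525 (both (five 2 492 524) (five 2 493 526))))))))) (mv 464 (both (five 1 461 465) (mv 492 (both (five 1 460 463) (five 0 492 527)))))))) (both (mv 493 (both (five 0 493 529) (mv 460 (both (five 3 460 461) (mv 492 (both (five 3 459 459) (mv 524 (both (five 2 491 523) (five 2 492 525))))))))) (mv 493 (both (five 0 493 529) (mv 464 (both (five 1 461 465) (mv 492 (both (five 1 460 463) (five 0 492 527))))))))))) (both (mv 494 (both (mv 493 (both (five 0 493 529) (mv 460 (both (five 3 460 461)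 (mv 492 (both (five 3 459 459) (five 0 492 527))))))) (both (mv 497 (both (mv 465 (both (five 1 462 466) (mv 433 (both (five 6 400 401) (mv 529 (both (five 0 494 530) (five 6 432 560))))))) (both (mv 466 (both (five 1 462 465) (mv 498 (both (five 1 463 467) (mv 526 (both (five 2 493 525) (five 2 494 527))))))) (mv 526 (both (five 2 493 525) (mv 498 (both (five 2 494 527) (mv 530 (both (five 0 494 529) (five 0 495 531)))))))))) (both (mv 497 (both (mv 461 (both (five 3 461 462) (mv 493 (both (five 3 460 460) (mv 525 (both (five 2 492 524) (five 2 493 526))))))) (both (mv 461 (both (five 3 461 462) (mv 460 (both (five 3 460 493) (mv 466 (both (five 1 462 465) (mv 498 (both (five 1 463 467) (mv 499 (both (five 2 495 527) (mv 531 (both (five 0 495 530) (five 0 496 532))))))))))))) (mv 466 (both (five 1 462 465) (mv 498 (both (five 1 463 467) (mv 526 (both (five 2 493 525) (five 2 494 527)))))))))) (mv 493 (both (five 0 493 529) (mv 460 (both (five 3 460 461) (mv 492 (both (five 3 459 459) (mv 524 (both (five 2 491 523) (five 2 492 525))))))))))))) (both (mv 463 (both (mv 497 (both (mv 462 (both (five 3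 462 498) (mv 461 (both (five 0 460 460) (five 0 461 464))))) (both (mv 494 (both (mv 493 (both (five 0 493 529) (mv 460 (both (five 3 460 461) (mv 492 (both (five 3 459 459) (five 0 492 527))))))) (both (mv 461 (both (five 3 461 462) (mv 493 (both (five 3 460 460) (mv 525 (both (five 2 492 524) (five 2 493 526))))))) (both (mv 462 (both (five 3 461 461) (mv 526 (both (five 2 493 525) (mv 529 (both (five 0 494 530) (mv 558 (both (five 5 462 590) (mv 557 (both (five 2 525 527) (five 6 461 589))))))))))) (mv 493 (both (five 0 493 529) (mv 492 (both (five 0 492 527) (mv 524 (both (five 2 491 523) (five 2 492 525))))))))))) (mv 498 (both (mv 527 (both (five 2 495 499) (five 2 494 526))) (both (mv 467 (both (five 1 463 466) (mv 499 (both (five 1 464 468) (mv 531 (both (five 0 495 530) (five 0 496 532))))))) (mv 466 (both (five 1 463 467) (mv 526 (both (five 2 494 527) (mv 494 (both (five 2 493 525) (mv 530 (both (five 0 494 529) (five 0 495 531))))))))))))))) (both (mv 431 (both (five 4 399 399) (mv 560 (both (five 7 431 464) (five 7 463 592))))) (mv 431 (both (five 4 399 399) (mv 560 (both (five 4 431 527)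 (five 7 463 592)))))))) (both (mv 494 (both (mv 493 (both (five 0 493 529) (mv 460 (both (five 3 460 461) (mv 492 (both (five 3 459 459) (five 0 492 527))))))) (both (mv 497 (both (mv 465 (both (five 1 462 466) (mv 433 (both (five 6 400 401) (mv 529 (both (five 0 494 530) (five 6 432 560))))))) (both (mv 462 (both (five 3 461 461) (mv 463 (both (five 3 462 498) (mv 431 (both (five 4 399 399) (mv 560 (both (five 7 431 464) (five 7 463 592))))))))) (mv 461 (both (five 3 461 462) (mv 466 (both (five 1 462 465) (mv 498 (both (five 1 463 467) (mv 530 (both (five 0 494 529) (five 0 495 531)))))))))))) (both (mv 497 (both (mv 465 (both (five 1 462 466) (mv 433 (both (five 6 400 401) (mv 560 (both (five 5 432 464) (five 5 464 592))))))) (both (mv 462 (both (five 3 461 461) (mv 463 (both (five 3 462 498) (mv 431 (both (five 4 399 399) (mv 560 (both (five 7 431 464) (five 7 463 592))))))))) (mv 466 (both (five 1 462 465) (mv 498 (both (five 1 463 467) (mv 499 (both (five 2 495 527) (mv 531 (both (five 0 495 530) (five 0 496 532)))))))))))) (mv 493 (both (five 0 493 529) (mv 464 (both (five 1 461 465) (mv 492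 (both (five 1 460 463) (five 0 492 527))))))))))) (both (mv 494 (both (mv 497 (both (mv 465 (both (five 1 462 466) (mv 433 (both (five 6 400 401) (mv 560 (both (five 5 432 464) (five 5 464 592))))))) (both (mv 526 (both (five 2 493 525) (mv 498 (both (five 2 494 527) (mv 467 (both (five 1 463 466) (mv 499 (both (five 1 464 468) (mv 531 (both (five 0 495 530) (five 0 496 532))))))))))) (mv 526 (both (five 2 493 525) (mv 498 (both (five 2 494 527) (mv 531 (both (five 0 495 530) (mv 499 (both (five 0 496 532) (mv 464 (both (five 3 463 463) (mv 465 (both (five 3 464 500) (mv 433 (both (five 6 400 401) (five 5 432 560)))))))))))))))))) (both (mv 493 (both (five 0 493 529) (mv 464 (both (five 1 461 465) (mv 463 (both (five 1 460 492) (mv 431 (both (five 4 399 399) (five 7 431 560))))))))) (mv 493 (both (five 0 493 529) (mv 492 (both (five 0 492 527) (mv 524 (both (five 2 491 523) (five 2 492 525)))))))))) (mv 463 (both (mv 497 (both (mv 462 (both (five 3 462 498) (mv 461 (both (five 0 460 460) (five 0 461 464))))) (both (mv 494 (both (mv 493 (both (five 0 493 529) (mv 460 (both (five 3 460 461) (mv 492 (both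 (five 3 459 459) (five 0 492 527))))))) (both (mv 461 (both (five 3 461 462) (mv 493 (both (five 3 460 460) (mv 525 (both (five 2 492 524) (five 2 493 526))))))) (both (mv 462 (both (five 3 461 461) (mv 526 (both (five 2 493 525) (mv 529 (both (five 0 494 530) (mv 558 (both (five 5 462 590) (mv 557 (both (five 2 525 527) (five 6 461 589))))))))))) (mv 493 (both (five 0 493 529) (mv 492 (both (five 0 492 527) (mv 524 (both (five 2 491 523) (five 2 492 525))))))))))) (mv 498 (both (mv 527 (both (five 2 495 499) (five 2 494 526))) (both (mv 464 (both (five 3 463 499) (mv 530 (both (five 0 495 531) (mv 494 (both (five 0 494 529) (mv 493 (both (five 1 461 465) (five 1 460 492))))))))) (mv 526 (both (five 2 494 527) (mv 494 (both (five 2 493 525) (mv 530 (both (five 0 494 529) (five 0 495 531))))))))))))) (both (mv 431 (both (five 4 399 399) (mv 560 (both (five 4 431 527) (five 7 463 592))))) (mv 431 (both (five 4 399 399) (mv 560 (both (five 7 431 464) (five 7 463 592)))))))))))))))))) (both (mv 495 (both (mv 464 (both (mv 432 (both (mv 400 (both (five 6 399 527) (mv 401 (both (five 5 368 369) (five 5 400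 433))))) (both (mv 431 (both (five 7 399 399) (mv 433 (both (five 5 400 401) (mv 465 (both (five 5 432 560) (mv 430 (both (five 0 429 429) (five 0 430 466))))))))) (mv 399 (both (five 7 399 431) (mv 400 (both (five 7 367 367) (five 6 399 527)))))))) (both (mv 560 (both (mv 463 (both (five 7 431 431) (five 7 463 592))) (both (mv 465 (both (five 5 432 433) (mv 466 (both (five 2 463 467) (mv 592 (both (five 5 464 497) (mv 624 (both (five 7 495 527) (mv 625 (both (five 4 496 593) (five 4 528 657))))))))))) (mv 463 (both (five 7 431 431) (mv 465 (both (five 5 432 433) (mv 466 (both (five 2 463 467) (mv 434 (both (five 1 431 435) (mv 498 (both (five 0 463 499) (mv 462 (both (five 0 462 497) (mv 429 (both (five 3 429 430) (mv 461 (both (five 3 428 428) (five 0 460 460)))))))))))))))))))) (both (mv 432 (both (mv 399 (both (five 7 399 431) (mv 400 (both (five 7 367 367) (mv 401 (both (five 5 368 369) (five 5 400 433))))))) (both (mv 401 (both (five 5 400 433) (mv 400 (both (five 5 368 369) (mv 368 (both (five 6 367 463) (mv 497 (both (five 4 368 465) (five 4 400 529))))))))) (both (mv 399 (both (five 7 399 431)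 (mv 400 (both (five 7 367 367) (mv 368 (both (five 6 367 463) (mv 497 (both (five 4 368 465) (five 4 400 529))))))))) (mv 431 (both (five 7 399 399) (mv 433 (both (five 5 400 401) (mv 465 (both (five 5 432 560) (mv 430 (both (five 0 429 429) (five 0 430 466))))))))))))) (both (mv 432 (both (mv 400 (both (five 6 399 527) (mv 401 (both (five 5 368 369) (five 5 400 433))))) (both (mv 399 (both (five 7 399 431) (mv 400 (both (five 7 367 367) (mv 401 (both (five 5 368 369) (five 5 400 433))))))) (both (mv 463 (both (mv 433 (both (five 5 400 401) (mv 434 (both (five 2 431 435) (mv 462 (both (five 1 429 461) (five 1 430 465))))))) (mv 431 (both (five 7 399 399) (mv 527 (both (five 5 431 559) (mv 526 (both (five 6 430 558) (mv 497 (both (five 2 494 498) (five 1 493 525))))))))))) (mv 399 (both (five 7 399 431) (mv 400 (both (five 7 367 367) (five 6 399 527))))))))) (both (mv 432 (both (mv 433 (both (five 5 400 401) (mv 560 (both (five 5 432 465) (mv 592 (both (five 7 463 463) (mv 624 (both (five 7 495 527) (mv 625 (both (five 4 496 593) (five 4 528 657))))))))))) (both (mv 400 (both (five 6 399 527) (mv 367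 (both (five 7 367 399) (mv 368 (both (five 7 335 335) (five 6 367 463))))))) (mv 401 (both (five 5 400 433) (mv 400 (both (five 5 368 369) (mv 367 (both (five 7 367 399) (mv 368 (both (five 7 335 335) (mv 497 (both (five 4 368 465) (five 4 400 529)))))))))))))) (both (mv 432 (both (mv 400 (both (five 6 399 527) (mv 401 (both (five 5 368 369) (five 5 400 433))))) (both (mv 431 (both (five 7 399 399) (mv 433 (both (five 5 400 401) (mv 463 (both (five 7 431 560) (mv 434 (both (five 2 431 435) (five 2 430 462))))))))) (mv 399 (both (five 7 399 431) (mv 400 (both (five 7 367 367) (five 6 399 527)))))))) (mv 431 (both (mv 432 (both (five 7 399 399) (mv 400 (both (five 6 399 527) (mv 369 (both (five 5 368 401) (mv 368 (both (five 5 336 337) (mv 497 (both (five 4 368 465) (five 4 400 529))))))))))) (both (mv 463 (both (five 7 431 560) (mv 527 (both (mv 526 (both (five 6 430 558) (mv 497 (both (five 2 494 498) (five 1 493 525))))) (mv 400 (both (five 5 399 432) (mv 430 (both (five 7 398 398) (mv 429 (both (five 0 428 428) (mv 465 (both (five 3 429 462) (five 3 430 466))))))))))))) (mv 463 (both (five 4 399 399)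 (five 7 431 560))))))))))))) (both (mv 464 (both (mv 465 (both (mv 466 (both (five 2 463 467) (mv 494 (both (five 2 462 463) (five 1 461 493))))) (mv 433 (both (five 5 432 560) (mv 401 (both (five 6 368 369) (five 5 400 432))))))) (both (mv 432 (both (mv 400 (both (five 6 399 527) (mv 401 (both (five 5 368 369) (five 5 400 433))))) (both (mv 431 (both (five 7 399 399) (mv 433 (both (five 5 400 401) (mv 465 (both (five 5 432 560) (mv 430 (both (five 0 429 429) (five 0 430 466))))))))) (mv 399 (both (five 7 399 431) (mv 400 (both (five 7 367 367) (five 6 399 527)))))))) (both (mv 463 (both (mv 431 (both (five 4 399 399) (five 7 431 560))) (both (mv 560 (both (five 7 463 592) (mv 465 (both (five 5 432 433) (mv 466 (both (five 2 463 467) (five 2 462 494))))))) (mv 431 (both (five 4 399 399) (mv 430 (both (mv 429 (both (five 0 428 428) (mv 465 (both (five 3 429 462) (five 3 430 466))))) (both (mv 398 (both (five 7 398 527) (mv 366 (both (five 4 334 334) (five 4 366 462))))) (mv 398 (both (five 7 398 527) (mv 366 (both (five 4 334 334) (mv 429 (both (five 0 428 428) (mv 465 (both (five 3 430 466) (mv 493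 (both (five 1 461 494) (mv 461 (both (five 5 365 397) (five 5 397 525))))))))))))))))))))) (both (mv 432 (both (mv 400 (both (five 6 399 527) (mv 401 (both (five 5 368 369) (five 5 400 433))))) (both (mv 431 (both (five 7 399 399) (mv 433 (both (five 5 400 401) (mv 463 (both (five 7 431 560) (mv 434 (both (five 2 431 435) (five 2 430 462))))))))) (mv 399 (both (five 7 399 431) (mv 400 (both (five 7 367 367) (five 6 399 527)))))))) (both (mv 432 (both (mv 400 (both (five 6 399 527) (mv 401 (both (five 5 368 369) (five 5 400 433))))) (both (mv 399 (both (five 7 399 431) (mv 400 (both (five 7 367 367) (mv 401 (both (five 5 368 369) (five 5 400 433))))))) (both (mv 463 (both (mv 433 (both (five 5 400 401) (mv 434 (both (five 2 431 435) (mv 462 (both (five 1 429 461) (five 1 430 465))))))) (both (mv 431 (both (five 4 399 399) (mv 430 (both (mv 429 (both (five 0 428 428) (mv 465 (both (five 3 429 462) (five 3 430 466))))) (both (mv 398 (both (five 7 398 527) (mv 366 (both (five 4 334 334) (five 4 366 462))))) (mv 398 (both (five 7 398 527) (mv 366 (both (five 4 334 334) (mv 429 (both (five 0 428 428) (mv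 465 (both (five 3 430 466) (mv 493 (both (five 1 461 494) (mv 461 (both (five 5 365 397) (five 5 397 525)))))))))))))))))) (both (mv 401 (both (five 5 400 433) (mv 431 (both (five 7 399 399) (mv 527 (both (five 5 431 559) (mv 526 (both (five 6 430 558) (mv 525 (both (five 1 492 524) (mv 493 (both (five 3 492 492) (mv 494 (both (five 0 493 529) (mv 557 (both (five 2 524 556) (mv 589 (both (five 5 461 462) (five 5 493 621))))))))))))))))))) (mv 401 (both (five 5 400 433) (mv 431 (both (five 7 399 399) (mv 527 (both (five 5 431 559) (mv 398 (both (five 7 398 430) (mv 526 (both (five 6 430 558) (mv 525 (both (five 1 492 524) (mv 493 (both (five 3 492 492) (mv 494 (both (five 1 461 465) (five 0 493 529))))))))))))))))))))) (mv 399 (both (five 7 399 431) (mv 400 (both (five 7 367 367) (five 6 399 527))))))))) (mv 494 (both (mv 432 (both (mv 399 (both (five 7 399 431) (mv 400 (both (five 7 367 367) (five 6 399 527))))) (both (mv 431 (both (five 7 399 399) (mv 463 (both (five 7 431 560) (mv 465 (both (five 2 462 466) (mv 430 (both (five 0 429 429) (mv 398 (both (five 7 398 527) (mv 366 (both (five 4 334 334)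 (five 4 366 462))))))))))))) (both (mv 400 (both (five 6 399 527) (mv 368 (both (five 6 367 463) (mv 369 (both (five 5 336 337) (five 5 368 401))))))) (mv 399 (both (five 7 399 431) (mv 400 (both (five 7 367 367) (mv 368 (both (five 6 367 463) (mv 369 (both (five 5 336 337) (five 5 368 401))))))))))))) (mv 493 (both (five 0 493 529) (mv 460 (both (five 3 460 461) (mv 492 (both (five 3 459 459) (mv 524 (both (five 2 491 523) (five 2 492 525))))))))))))))))) (both (mv 494 (both (mv 493 (both (five 0 493 529) (mv 460 (both (five 3 460 461) (mv 492 (both (five 3 459 459) (mv 524 (both (five 2 491 523) (five 2 492 525))))))))) (both (mv 497 (both (mv 465 (both (five 1 462 466) (mv 433 (both (five 6 400 401) (mv 529 (both (five 0 494 530) (five 6 432 560))))))) (both (mv 462 (both (five 3 461 461) (mv 463 (both (five 3 462 498) (mv 431 (both (five 4 399 399) (mv 560 (both (five 7 431 464) (five 7 463 592))))))))) (mv 461 (both (five 3 461 462) (mv 466 (both (five 1 462 465) (mv 498 (both (five 1 463 467) (mv 530 (both (five 0 494 529) (five 0 495 531)))))))))))) (both (mv 497 (both (mv 465 (both (five 1 462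 466) (mv 433 (both (five 6 400 401) (mv 560 (both (five 5 432 464) (five 5 464 592))))))) (mv 461 (both (five 3 461 462) (mv 493 (both (five 3 460 460) (mv 525 (both (five 2 492 524) (five 2 493 526))))))))) (mv 493 (both (five 0 493 529) (mv 464 (both (five 1 461 465) (mv 463 (both (five 1 460 492) (mv 431 (both (five 4 399 399) (five 7 431 560))))))))))))) (both (mv 497 (both (mv 494 (both (mv 465 (both (five 1 462 466) (mv 433 (both (five 6 400 401) (mv 560 (both (five 5 432 464) (five 5 464 592))))))) (mv 461 (both (five 3 461 462) (mv 493 (both (five 3 460 460) (mv 525 (both (five 2 492 524) (five 2 493 526))))))))) (both (mv 498 (both (mv 467 (both (five 1 463 466) (mv 499 (both (five 1 464 468) (mv 531 (both (five 0 495 530) (five 0 496 532))))))) (mv 463 (both (five 3 462 462) (mv 431 (both (five 4 399 399) (mv 560 (both (five 7 431 464) (five 4 431 527))))))))) (both (mv 498 (both (mv 462 (both (five 3 462 463) (mv 466 (both (five 1 463 467) (mv 494 (both (five 3 461 461) (five 1 462 465))))))) (mv 527 (both (five 2 495 499) (five 2 494 526))))) (both (mv 498 (both (mv 527 (both (five 2 495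 499) (five 2 494 526))) (mv 466 (both (five 1 463 467) (mv 465 (both (five 1 462 494) (mv 433 (both (five 6 400 401) (mv 560 (both (five 5 432 464) (five 5 464 592))))))))))) (mv 498 (both (mv 527 (both (five 2 495 499) (five 2 494 526))) (both (mv 531 (both (five 0 495 530) (mv 499 (both (five 0 496 532) (mv 464 (both (five 3 463 463) (mv 465 (both (five 3 464 500) (mv 433 (both (five 6 400 401) (five 5 432 560))))))))))) (mv 463 (both (five 3 462 462) (mv 431 (both (five 4 399 399) (mv 560 (both (five 7 431 464) (five 4 431 527))))))))))))))) (both (mv 494 (both (mv 497 (both (mv 526 (both (five 2 493 525) (mv 498 (both (five 2 494 527) (mv 530 (both (five 0 494 529) (five 0 495 531))))))) (both (mv 466 (both (five 1 462 465) (mv 498 (both (five 1 463 467) (mv 530 (both (five 0 494 529) (five 0 495 531))))))) (both (mv 461 (both (five 3 461 462) (mv 466 (both (five 1 462 465) (mv 498 (both (five 1 463 467) (mv 526 (both (five 2 493 525) (five 2 494 527))))))))) (mv 462 (both (five 3 461 461) (mv 465 (both (five 1 462 466) (mv 433 (both (five 6 400 401) (mv 526 (both (five 2 493 525) (mv 529 (both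 (five 0 494 530) (mv 434 (both (five 5 401 402) (mv 463 (both (five 1 430 464) (mv 558 (both (five 5 462 590) (mv 557 (both (five 2 525 527) (five 6 461 589))))))))))))))))))))))) (both (mv 493 (both (mv 460 (both (five 3 460 461) (mv 492 (both (five 3 459 459) (five 0 492 527))))) (both (mv 460 (both (five 3 460 461) (mv 465 (both (five 1 461 464) (mv 497 (both (five 1 462 466) (mv 525 (both (five 2 492 524) (five 2 493 526))))))))) (mv 464 (both (five 1 461 465) (mv 492 (both (five 1 460 463) (five 0 492 527)))))))) (both (mv 493 (both (five 0 493 529) (mv 460 (both (five 3 460 461) (mv 492 (both (five 3 459 459) (mv 524 (both (five 2 491 523) (five 2 492 525))))))))) (mv 493 (both (five 0 493 529) (mv 464 (both (five 1 461 465) (mv 492 (both (five 1 460 463) (five 0 492 527))))))))))) (both (mv 494 (both (mv 493 (both (five 0 493 529) (mv 460 (both (five 3 460 461) (mv 492 (both (five 3 459 459) (five 0 492 527))))))) (both (mv 497 (both (mv 465 (both (five 1 462 466) (mv 433 (both (five 6 400 401) (mv 529 (both (five 0 494 530) (five 6 432 560))))))) (both (mv 466 (both (five 1 462 465) (mv 498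 (both (five 1 463 467) (mv 526 (both (five 2 493 525) (five 2 494 527))))))) (mv 526 (both (five 2 493 525) (mv 498 (both (five 2 494 527) (mv 530 (both (five 0 494 529) (five 0 495 531)))))))))) (both (mv 497 (both (mv 461 (both (five 3 461 462) (mv 493 (both (five 3 460 460) (mv 525 (both (five 2 492 524) (five 2 493 526))))))) (both (mv 461 (both (five 3 461 462) (mv 460 (both (five 3 460 493) (mv 466 (both (five 1 462 465) (mv 498 (both (five 1 463 467) (mv 499 (both (five 2 495 527) (mv 531 (both (five 0 495 530) (five 0 496 532))))))))))))) (mv 466 (both (five 1 462 465) (mv 498 (both (five 1 463 467) (mv 526 (both (five 2 493 525) (five 2 494 527)))))))))) (mv 493 (both (five 0 493 529) (mv 460 (both (five 3 460 461) (mv 492 (both (five 3 459 459) (mv 524 (both (five 2 491 523) (five 2 492 525))))))))))))) (both (mv 463 (both (mv 497 (both (mv 462 (both (five 3 462 498) (mv 461 (both (five 0 460 460) (five 0 461 464))))) (both (mv 494 (both (mv 493 (both (five 0 493 529) (mv 460 (both (five 3 460 461) (mv 492 (both (five 3 459 459) (five 0 492 527))))))) (both (mv 461 (both (five 3 461 462) (mv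 493 (both (five 3 460 460) (mv 525 (both (five 2 492 524) (five 2 493 526))))))) (both (mv 462 (both (five 3 461 461) (mv 526 (both (five 2 493 525) (mv 529 (both (five 0 494 530) (mv 558 (both (five 5 462 590) (mv 557 (both (five 2 525 527) (five 6 461 589))))))))))) (mv 493 (both (five 0 493 529) (mv 492 (both (five 0 492 527) (mv 524 (both (five 2 491 523) (five 2 492 525))))))))))) (mv 498 (both (mv 527 (both (five 2 495 499) (five 2 494 526))) (both (mv 467 (both (five 1 463 466) (mv 499 (both (five 1 464 468) (mv 531 (both (five 0 495 530) (five 0 496 532))))))) (mv 466 (both (five 1 463 467) (mv 526 (both (five 2 494 527) (mv 494 (both (five 2 493 525) (mv 530 (both (five 0 494 529) (five 0 495 531))))))))))))))) (both (mv 431 (both (five 4 399 399) (mv 560 (both (five 7 431 464) (five 7 463 592))))) (mv 431 (both (five 4 399 399) (mv 560 (both (five 4 431 527) (five 7 463 592)))))))) (both (mv 494 (both (mv 493 (both (five 0 493 529) (mv 460 (both (five 3 460 461) (mv 492 (both (five 3 459 459) (five 0 492 527))))))) (both (mv 497 (both (mv 465 (both (five 1 462 466) (mv 433 (both (five 6 400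 401) (mv 529 (both (five 0 494 530) (five 6 432 560))))))) (both (mv 462 (both (five 3 461 461) (mv 463 (both (five 3 462 498) (mv 431 (both (five 4 399 399) (mv 560 (both (five 7 431 464) (five 7 463 592))))))))) (mv 461 (both (five 3 461 462) (mv 466 (both (five 1 462 465) (mv 498 (both (five 1 463 467) (mv 530 (both (five 0 494 529) (five 0 495 531)))))))))))) (both (mv 497 (both (mv 465 (both (five 1 462 466) (mv 433 (both (five 6 400 401) (mv 560 (both (five 5 432 464) (five 5 464 592))))))) (both (mv 462 (both (five 3 461 461) (mv 463 (both (five 3 462 498) (mv 431 (both (five 4 399 399) (mv 560 (both (five 7 431 464) (five 7 463 592))))))))) (mv 466 (both (five 1 462 465) (mv 498 (both (five 1 463 467) (mv 499 (both (five 2 495 527) (mv 531 (both (five 0 495 530) (five 0 496 532)))))))))))) (mv 493 (both (five 0 493 529) (mv 464 (both (five 1 461 465) (mv 492 (both (five 1 460 463) (five 0 492 527))))))))))) (both (mv 494 (both (mv 497 (both (mv 465 (both (five 1 462 466) (mv 433 (both (five 6 400 401) (mv 560 (both (five 5 432 464) (five 5 464 592))))))) (both (mv 526 (both (five 2 493 525)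 (mv 498 (both (five 2 494 527) (mv 467 (both (five 1 463 466) (mv 499 (both (five 1 464 468) (mv 531 (both (five 0 495 530) (five 0 496 532))))))))))) (mv 526 (both (five 2 493 525) (mv 498 (both (five 2 494 527) (mv 531 (both (five 0 495 530) (mv 499 (both (five 0 496 532) (mv 464 (both (five 3 463 463) (mv 465 (both (five 3 464 500) (mv 433 (both (five 6 400 401) (five 5 432 560)))))))))))))))))) (both (mv 493 (both (five 0 493 529) (mv 464 (both (five 1 461 465) (mv 463 (both (five 1 460 492) (mv 431 (both (five 4 399 399) (five 7 431 560))))))))) (mv 493 (both (five 0 493 529) (mv 492 (both (five 0 492 527) (mv 524 (both (five 2 491 523) (five 2 492 525)))))))))) (mv 463 (both (mv 497 (both (mv 462 (both (five 3 462 498) (mv 461 (both (five 0 460 460) (five 0 461 464))))) (both (mv 494 (both (mv 493 (both (five 0 493 529) (mv 460 (both (five 3 460 461) (mv 492 (both (five 3 459 459) (five 0 492 527))))))) (both (mv 461 (both (five 3 461 462) (mv 493 (both (five 3 460 460) (mv 525 (both (five 2 492 524) (five 2 493 526))))))) (both (mv 462 (both (five 3 461 461) (mv 526 (both (five 2 493 525) (mv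 529 (both (five 0 494 530) (mv 558 (both (five 5 462 590) (mv 557 (both (five 2 525 527) (five 6 461 589))))))))))) (mv 493 (both (five 0 493 529) (mv 492 (both (five 0 492 527) (mv 524 (both (five 2 491 523) (five 2 492 525))))))))))) (mv 498 (both (mv 527 (both (five 2 495 499) (five 2 494 526))) (both (mv 464 (both (five 3 463 499) (mv 530 (both (five 0 495 531) (mv 494 (both (five 0 494 529) (mv 493 (both (five 1 461 465) (five 1 460 492))))))))) (mv 526 (both (five 2 494 527) (mv 494 (both (five 2 493 525) (mv 530 (both (five 0 494 529) (five 0 495 531))))))))))))) (both (mv 431 (both (five 4 399 399) (mv 560 (both (five 4 431 527) (five 7 463 592))))) (mv 431 (both (five 4 399 399) (mv 560 (both (five 7 431 464) (five 7 463 592)))))))))))))))))) (both (ref 0) (both (ref 1) (both (ref 2) (both (mv 464 (both (mv 432 (both (mv 433 (both (five 5 400 401) (mv 559 (both (five 6 431 527) (mv 560 (both (five 5 432 465) (five 6 463 591))))))) (both (mv 527 (both (five 6 431 559) (mv 400 (both (five 6 399 495) (mv 367 (both (five 7 367 399) (mv 368 (both (five 7 335 335) (mv 369 (both (five 5 336 337) (five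 5 368 401))))))))))) (both (mv 433 (both (five 5 400 401) (mv 434 (both (mv 435 (both (five 2 431 463) (mv 465 (both (five 2 432 436) (five 5 432 560))))) (both (mv 465 (both (five 5 432 560) (mv 466 (both (mv 467 (both (five 3 432 468) (five 2 463 495))) (both (mv 463 (both (five 1 430 462) (mv 495 (both (five 2 462 494) (mv 368 (both (five 6 367 400) (mv 498 (both (five 0 463 499) (mv 530 (both (five 7 433 562) (mv 531 (both (five 3 495 529) (five 4 434 563))))))))))))) (mv 462 (both (five 1 430 463) (mv 467 (both (five 3 432 468) (mv 499 (both (five 0 464 500) (mv 402 (both (five 4 370 370) (mv 531 (both (five 4 402 498) (five 7 434 563)))))))))))))))) (both (mv 435 (both (five 2 431 463) (mv 399 (both (five 3 399 400) (mv 404 (both (five 1 400 403) (mv 436 (both (five 1 401 405) (mv 468 (both (five 0 432 467) (five 0 433 469))))))))))) (mv 465 (both (five 5 432 560) (mv 435 (both (five 2 432 436) (mv 399 (both (five 3 399 400) (mv 403 (both (five 1 400 404) (mv 467 (both (five 0 432 468) (mv 466 (both (five 2 463 495) (mv 499 (both (five 0 464 500) (mv 402 (both (five 4 370 370) (mv 531 (both (five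 4 402 498) (five 7 434 563))))))))))))))))))))))))) (mv 527 (both (five 6 431 559) (mv 495 (both (five 6 399 400) (mv 526 (both (mv 525 (both (five 1 492 524) (mv 493 (both (five 3 492 492) (mv 494 (both (five 1 461 465) (five 0 493 529))))))) (both (mv 494 (both (mv 493 (both (five 0 492 492) (five 0 493 529))) (both (mv 529 (both (five 3 494 530) (mv 558 (both (five 2 525 557) (mv 590 (both (five 5 462 463) (five 5 494 622))))))) (mv 465 (both (five 1 461 493) (mv 466 (both (five 2 462 463) (five 2 463 467)))))))) (both (mv 525 (both (five 1 492 524) (mv 493 (both (five 3 492 492) (mv 557 (both (five 2 524 556) (mv 558 (both (five 2 525 529) (mv 461 (both (five 4 429 429) (five 4 461 590))))))))))) (both (mv 525 (both (five 1 492 524) (mv 557 (both (five 2 524 556) (mv 529 (both (five 2 525 558) (mv 530 (both (five 3 494 494) (five 3 495 531))))))))) (mv 525 (both (five 1 492 524) (mv 493 (both (five 3 492 492) (mv 465 (both (five 1 461 494) (mv 466 (both (five 2 463 467) (mv 556 (both (five 2 524 557) (mv 560 (both (five 5 432 433) (mv 592 (both (five 7 463 463) (five 7 495 624))))))))))))))))))))))))))))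 (both (mv 463 (both (mv 431 (both (five 7 431 560) (mv 399 (both (five 4 367 367) (five 4 399 495))))) (both (mv 462 (both (mv 493 (both (mv 465 (both (five 2 461 494) (mv 430 (both (five 3 429 429) (mv 434 (both (five 1 430 433) (mv 466 (both (five 3 430 431) (five 1 431 435))))))))) (both (mv 461 (both (five 2 460 492) (mv 430 (both (mv 398 (both (five 6 365 366) (mv 525 (both (five 6 397 494) (five 5 429 557))))) (both (mv 428 (both (five 3 428 429) (mv 460 (both (five 3 427 427) (mv 364 (both (five 4 364 396) (mv 459 (both (five 1 427 431) (mv 458 (both (five 0 458 494) (mv 490 (both (five 2 457 489) (five 2 458 491))))))))))))) (mv 398 (both (five 6 365 366) (mv 429 (both (five 3 428 428) (five 5 397 525)))))))))) (both (mv 461 (both (five 2 460 492) (mv 429 (both (five 3 428 428) (mv 430 (both (five 3 429 465) (mv 398 (both (five 6 365 366) (five 5 397 525))))))))) (mv 492 (both (five 2 460 461) (mv 494 (both (five 2 461 465) (five 1 459 491))))))))) (both (mv 495 (both (mv 527 (both (mv 559 (both (five 7 430 430) (five 5 463 591))) (both (mv 431 (both (five 4 399 399) (mv 398 (both (five 7 398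 430) (mv 526 (both (five 6 430 558) (mv 525 (both (five 1 492 524) (mv 493 (both (five 3 492 492) (mv 494 (both (five 0 493 529) (mv 557 (both (five 2 524 556) (five 5 461 589))))))))))))))) (mv 399 (both (five 4 399 431) (mv 559 (both (five 5 463 591) (mv 558 (both (five 6 462 590) (mv 529 (both (five 2 526 530) (mv 557 (both (five 2 525 526) (five 1 524 556)))))))))))))) (both (mv 461 (both (five 0 460 460) (mv 493 (both (five 2 460 492) (mv 494 (both (five 0 493 529) (mv 525 (both (five 2 492 524) (mv 430 (both (five 6 397 398) (five 5 429 557))))))))))) (both (mv 527 (both (mv 559 (both (five 7 430 430) (five 5 463 591))) (both (mv 431 (both (five 4 399 399) (mv 430 (both (five 7 398 398) (mv 428 (both (five 0 428 429) (mv 461 (both (five 0 460 460) (mv 493 (both (five 2 460 492) (mv 525 (both (five 5 429 557) (mv 526 (both (five 1 492 524) (five 6 430 558))))))))))))))) (mv 559 (both (five 5 463 591) (mv 558 (both (five 6 462 590) (mv 529 (both (five 2 526 530) (mv 557 (both (five 2 525 526) (five 1 524 556)))))))))))) (both (mv 527 (both (mv 559 (both (five 7 430 430) (five 5 463 591))) (both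 (mv 431 (both (five 4 399 399) (mv 430 (both (five 7 398 398) (mv 428 (both (five 0 428 429) (mv 460 (both (five 0 460 461) (mv 526 (both (five 6 430 558) (mv 525 (both (five 1 492 524) (mv 557 (both (five 6 429 494) (five 2 524 556))))))))))))))) (mv 559 (both (five 5 463 591) (mv 558 (both (five 6 462 590) (mv 529 (both (five 2 526 530) (mv 557 (both (five 2 525 526) (five 1 524 556)))))))))))) (both (mv 399 (both (five 4 399 431) (mv 461 (both (five 0 460 460) (mv 428 (both (five 3 428 429) (mv 493 (both (five 2 460 492) (mv 494 (both (five 0 493 529) (mv 525 (both (five 2 492 524) (mv 557 (both (five 5 461 589) (mv 556 (both (five 6 460 588) (mv 527 (both (five 2 524 526) (mv 558 (both (five 1 524 559) (five 4 461 590))))))))))))))))))))) (both (mv 494 (both (mv 399 (both (five 4 399 431) (mv 461 (both (five 0 460 460) (mv 429 (both (five 3 428 428) (mv 397 (both (five 4 365 365) (mv 526 (both (five 7 397 430) (five 7 429 558))))))))))) (both (mv 493 (both (five 1 460 492) (mv 525 (both (five 2 492 524) (mv 430 (both (five 6 397 398) (mv 557 (both (five 6 429 526) (five 5 461 589))))))))) (both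 (mv 399 (both (five 4 399 431) (mv 461 (both (five 0 460 460) (mv 428 (both (five 3 428 429) (mv 493 (both (five 2 460 492) (mv 525 (both (five 2 492 524) (mv 557 (both (five 5 461 589) (mv 556 (both (five 6 460 588) (mv 527 (both (five 2 524 526) (mv 558 (both (five 1 524 559) (five 4 461 590))))))))))))))))))) (mv 399 (both (five 4 399 431) (mv 461 (both (five 0 460 460) (mv 428 (both (five 3 428 429) (mv 493 (both (five 2 460 492) (mv 525 (both (five 2 492 524) (mv 430 (both (five 6 397 398) (five 5 429 557))))))))))))))))) (mv 399 (both (five 4 399 431) (mv 461 (both (five 0 460 460) (mv 429 (both (five 3 428 428) (mv 493 (both (five 2 460 492) (mv 494 (both (five 0 493 529) (mv 397 (both (five 4 365 365) (mv 526 (both (five 7 397 430) (five 7 429 558)))))))))))))))))))))) (both (mv 465 (both (mv 430 (both (five 3 429 429) (mv 434 (both (five 1 430 433) (mv 466 (both (five 3 430 431) (five 1 431 435))))))) (both (mv 434 (both (five 1 430 433) (mv 466 (both (five 1 431 435) (mv 467 (both (five 2 463 495) (mv 499 (both (five 0 463 498) (five 0 464 500))))))))) (both (mv 431 (both (mv 399 (both (five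 4 367 367) (five 4 399 495))) (both (mv 430 (both (five 3 429 429) (mv 433 (both (five 1 430 434) (mv 369 (both (five 6 368 401) (mv 494 (both (five 2 461 493) (mv 526 (both (five 5 430 558) (mv 525 (both (five 6 429 557) (mv 527 (both (five 4 430 559) (mv 495 (both (five 4 398 398) (five 1 492 524))))))))))))))))) (mv 399 (both (five 4 367 367) (mv 430 (both (five 3 429 429) (mv 494 (both (five 2 461 493) (five 5 398 526)))))))))) (mv 430 (both (five 3 429 429) (mv 431 (both (five 3 430 466) (mv 399 (both (five 4 367 367) (five 4 399 495))))))))))) (both (mv 465 (both (mv 430 (both (five 3 429 429) (mv 434 (both (five 1 430 433) (mv 466 (both (five 3 430 431) (five 1 431 435))))))) (both (mv 434 (both (five 1 430 433) (mv 466 (both (five 1 431 435) (mv 467 (both (five 2 463 495) (mv 499 (both (five 0 463 498) (five 0 464 500))))))))) (both (mv 461 (both (mv 433 (both (five 1 430 434) (mv 369 (both (five 6 368 401) (mv 460 (both (five 0 460 495) (mv 427 (both (five 3 427 428) (mv 459 (both (five 3 426 426) (mv 491 (both (five 2 458 490) (five 2 459 492))))))))))))) (both (mv 429 (both (five 3 428 428)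 (five 3 429 430))) (mv 430 (both (five 3 429 429) (mv 433 (both (five 1 430 434) (mv 369 (both (five 6 368 401) (mv 460 (both (five 0 460 495) (mv 459 (both (five 1 427 431) (mv 491 (both (five 2 458 490) (five 2 459 492)))))))))))))))) (mv 430 (both (five 3 429 429) (mv 431 (both (five 3 430 466) (mv 399 (both (five 4 367 367) (five 4 399 495))))))))))) (both (mv 461 (both (mv 428 (both (five 3 428 429) (mv 460 (both (five 3 427 427) (five 0 460 495))))) (both (mv 428 (both (five 3 428 429) (mv 460 (both (five 3 427 427) (mv 492 (both (five 2 459 491) (five 2 460 493))))))) (both (mv 428 (both (five 3 428 429) (mv 493 (both (five 2 460 492) (mv 465 (both (five 2 461 494) (mv 434 (both (five 1 430 433) (mv 466 (both (five 1 431 435) (mv 467 (both (five 2 463 495) (mv 499 (both (five 0 463 498) (five 0 464 500))))))))))))))) (mv 460 (both (five 0 460 495) (mv 492 (both (five 2 459 491) (five 2 460 493))))))))) (mv 495 (both (mv 461 (both (five 0 460 460) (mv 493 (both (five 2 460 492) (mv 494 (both (five 0 493 529) (mv 525 (both (five 2 492 524) (mv 430 (both (five 6 397 398) (five 5 429 557)))))))))))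 (both (mv 527 (both (mv 559 (both (five 7 430 430) (five 5 463 591))) (both (mv 431 (both (five 4 399 399) (mv 430 (both (five 7 398 398) (mv 461 (both (five 0 460 460) (mv 493 (both (five 2 460 492) (mv 525 (both (five 5 429 557) (mv 526 (both (five 1 492 524) (five 6 430 558))))))))))))) (mv 559 (both (five 5 463 591) (mv 558 (both (five 6 462 590) (mv 529 (both (five 2 526 530) (mv 557 (both (five 2 525 526) (five 1 524 556)))))))))))) (both (mv 527 (both (mv 559 (both (five 7 430 430) (five 5 463 591))) (both (mv 431 (both (five 4 399 399) (mv 430 (both (five 7 398 398) (mv 526 (both (five 6 430 558) (mv 525 (both (five 1 492 524) (mv 557 (both (five 6 429 494) (five 2 524 556))))))))))) (mv 559 (both (five 5 463 591) (mv 558 (both (five 6 462 590) (mv 529 (both (five 2 526 530) (mv 557 (both (five 2 525 526) (five 1 524 556)))))))))))) (mv 399 (both (five 4 399 431) (mv 461 (both (five 0 460 460) (mv 493 (both (five 2 460 492) (mv 465 (both (five 2 461 494) (mv 434 (both (five 1 430 433) (mv 466 (both (five 1 431 435) (five 2 463 467))))))))))))))))))))))) (both (mv 465 (both (mv 433 (both (five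 5 432 560) (mv 369 (both (five 6 368 401) (mv 434 (both (five 1 430 462) (mv 435 (both (five 2 432 436) (five 1 431 466))))))))) (both (mv 462 (both (mv 429 (both (five 3 429 430) (mv 461 (both (five 3 428 428) (mv 493 (both (five 2 460 492) (five 2 461 494))))))) (both (mv 429 (both (five 3 429 430) (mv 461 (both (five 3 428 428) (mv 460 (both (five 0 460 495) (mv 492 (both (five 2 459 491) (five 2 460 493))))))))) (both (mv 429 (both (five 3 429 430) (mv 461 (both (five 3 428 428) (mv 495 (both (five 0 460 460) (mv 466 (both (five 2 463 467) (five 2 462 494))))))))) (mv 494 (both (five 2 461 493) (mv 466 (both (five 2 462 495) (mv 435 (both (five 1 431 434) (mv 467 (both (five 1 432 436) (mv 499 (both (five 0 463 498) (five 0 464 500))))))))))))))) (both (mv 433 (both (five 5 432 560) (mv 369 (both (five 6 368 401) (mv 462 (both (five 1 430 434) (mv 429 (both (five 3 429 430) (mv 461 (both (five 3 428 428) (mv 493 (both (five 2 460 492) (five 2 461 494))))))))))))) (mv 560 (both (five 5 432 433) (mv 495 (both (five 7 463 592) (mv 466 (both (five 2 463 467) (five 2 462 494))))))))))) (mv 462 (both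 (mv 465 (both (mv 433 (both (five 1 430 434) (five 5 432 560))) (mv 429 (both (five 3 429 430) (mv 461 (both (five 3 428 428) (mv 493 (both (five 2 460 492) (five 2 461 494))))))))) (both (mv 493 (both (mv 465 (both (five 2 461 494) (mv 430 (both (five 3 429 429) (mv 434 (both (five 1 430 433) (mv 466 (both (five 3 430 431) (five 1 431 435))))))))) (both (mv 461 (both (five 2 460 492) (mv 430 (both (mv 398 (both (five 6 365 366) (mv 525 (both (five 6 397 494) (five 5 429 557))))) (both (mv 428 (both (five 3 428 429) (mv 460 (both (five 3 427 427) (mv 364 (both (five 4 364 396) (mv 459 (both (five 1 427 431) (mv 458 (both (five 0 458 494) (mv 490 (both (five 2 457 489) (five 2 458 491))))))))))))) (mv 398 (both (five 6 365 366) (mv 429 (both (five 3 428 428) (five 5 397 525)))))))))) (both (mv 461 (both (five 2 460 492) (mv 429 (both (five 3 428 428) (mv 430 (both (five 3 429 465) (mv 398 (both (five 6 365 366) (five 5 397 525))))))))) (mv 492 (both (five 2 460 461) (mv 494 (both (five 2 461 465) (five 1 459 491))))))))) (both (mv 461 (both (mv 428 (both (five 3 428 429) (mv 460 (both (five 3 427 427)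 (mv 492 (both (five 2 459 491) (five 2 460 493))))))) (both (mv 428 (both (five 3 428 429) (mv 431 (both (five 7 431 560) (mv 367 (both (five 4 367 399) (mv 460 (both (five 3 427 427) (mv 459 (both (five 1 427 430) (mv 491 (both (five 2 458 490) (five 2 459 492))))))))))))) (both (mv 460 (both (mv 492 (both (five 2 459 491) (five 2 460 493))) (both (mv 431 (both (five 7 431 560) (mv 367 (both (five 4 367 399) (mv 459 (both (five 1 427 430) (mv 426 (both (five 3 426 427) (mv 458 (both (five 3 425 425) (mv 490 (both (five 2 457 489) (five 2 458 491))))))))))))) (mv 431 (both (five 7 431 560) (mv 367 (both (five 4 367 399) (mv 430 (both (five 1 427 459) (mv 493 (both (five 2 460 492) (mv 398 (both (five 6 365 366) (mv 525 (both (five 6 397 494) (five 5 429 557)))))))))))))))) (both (mv 494 (both (mv 429 (both (five 3 428 428) (mv 397 (both (five 4 365 365) (mv 526 (both (five 7 397 430) (five 7 429 558))))))) (both (mv 431 (both (five 7 431 560) (mv 399 (both (five 6 366 367) (mv 526 (both (five 5 398 430) (five 5 430 558))))))) (both (mv 428 (both (five 3 428 429) (mv 431 (both (five 7 431 560) (mv 367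 (both (five 6 366 399) (mv 460 (both (five 3 427 427) (mv 459 (both (five 1 427 430) (mv 458 (both (five 0 458 493) (mv 490 (both (five 2 457 489) (five 2 458 491))))))))))))))) (mv 429 (both (five 3 428 428) (mv 365 (both (five 4 365 397) (mv 558 (both (five 7 429 526) (mv 560 (both (five 7 431 431) (mv 559 (both (five 6 463 591) (mv 529 (both (five 1 525 557) (mv 530 (both (five 2 526 527) (five 2 527 531))))))))))))))))))) (mv 494 (both (mv 429 (both (five 3 428 428) (mv 397 (both (five 4 365 365) (mv 526 (both (five 7 397 430) (five 7 429 558))))))) (both (mv 431 (both (five 7 431 560) (mv 399 (both (five 6 366 367) (mv 526 (both (five 5 398 430) (five 5 430 558))))))) (both (mv 429 (both (five 3 428 428) (mv 397 (both (five 4 365 365) (mv 431 (both (five 7 431 560) (mv 367 (both (five 6 366 399) (mv 493 (both (five 2 460 492) (mv 364 (both (five 7 364 396) (mv 398 (both (five 5 365 366) (mv 525 (both (five 5 397 430) (mv 556 (both (five 6 428 524) (mv 557 (both (five 6 460 588) (five 5 461 589))))))))))))))))))))) (mv 429 (both (five 3 428 428) (mv 365 (both (five 4 365 397) (mv 558 (both (five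 7 429 526) (mv 560 (both (five 7 431 431) (mv 559 (both (five 6 463 591) (mv 529 (both (five 1 525 557) (mv 530 (both (five 2 526 527) (five 2 527 531)))))))))))))))))))))))) (both (mv 494 (both (mv 431 (both (five 7 431 560) (mv 399 (both (five 6 366 367) (mv 526 (both (five 5 398 430) (five 5 430 558))))))) (mv 493 (both (five 2 461 465) (mv 492 (both (five 2 460 461) (five 1 459 491))))))) (both (mv 465 (both (mv 433 (both (five 1 430 434) (five 5 432 560))) (both (mv 430 (both (five 3 429 429) (mv 431 (both (five 3 430 466) (five 7 431 560))))) (mv 430 (both (five 3 429 429) (mv 434 (both (five 1 430 433) (mv 466 (both (five 3 430 431) (five 1 431 435)))))))))) (mv 560 (both (five 7 431 431) (mv 465 (both (five 5 432 433) (mv 493 (both (five 2 461 494) (mv 461 (both (five 2 460 492) (mv 428 (both (five 3 428 429) (mv 460 (both (five 3 427 427) (mv 557 (both (five 7 428 525) (mv 559 (both (five 6 463 591) (mv 558 (both (five 1 525 529) (mv 556 (both (five 1 524 527) (mv 588 (both (five 2 555 587) (five 2 556 589))))))))))))))))))))))))))))))))) (both (mv 432 (both (mv 399 (both (five 7 399 431) (mv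 400 (both (five 7 367 367) (mv 527 (both (five 6 399 495) (five 6 431 559))))))) (both (mv 401 (both (five 5 400 433) (mv 400 (both (five 5 368 369) (mv 527 (both (five 6 399 495) (five 6 431 559))))))) (mv 431 (both (five 7 399 399) (mv 430 (both (mv 429 (both (five 0 429 465) (mv 396 (both (five 3 396 397) (mv 428 (both (five 3 395 395) (five 0 428 463))))))) (both (mv 433 (both (five 5 400 401) (mv 462 (both (five 2 429 461) (mv 434 (both (five 2 430 463) (mv 403 (both (five 1 399 402) (mv 435 (both (five 1 400 404) (mv 467 (both (five 0 431 466) (five 0 432 468))))))))))))) (mv 401 (both (five 5 400 433) (mv 429 (both (five 0 429 465) (mv 396 (both (five 3 396 397) (mv 428 (both (five 3 395 395) (mv 460 (both (five 2 427 459) (five 2 428 461))))))))))))))))))) (both (mv 432 (both (mv 401 (both (five 5 400 433) (mv 400 (both (five 5 368 369) (mv 367 (both (five 7 367 399) (mv 368 (both (five 7 335 335) (mv 495 (both (five 6 367 463) (five 6 399 527))))))))))) (both (mv 399 (both (five 7 399 431) (mv 400 (both (five 7 367 367) (mv 369 (both (five 5 368 401) (mv 368 (both (five 5 336 337) (mv 495 (both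 (five 6 367 463) (five 6 399 527))))))))))) (both (mv 401 (both (five 5 400 433) (mv 400 (both (five 5 368 369) (mv 495 (both (five 6 399 527) (mv 463 (both (five 6 367 368) (mv 560 (both (five 7 431 431) (five 7 463 592))))))))))) (both (mv 399 (both (five 7 399 431) (mv 400 (both (five 7 367 367) (mv 495 (both (five 6 399 527) (mv 463 (both (five 6 367 368) (mv 560 (both (five 7 463 592) (mv 465 (both (five 5 432 433) (mv 466 (both (five 2 463 467) (five 2 462 494))))))))))))))) (mv 431 (both (five 7 399 399) (mv 433 (both (five 5 400 401) (mv 465 (both (five 5 432 560) (mv 430 (both (five 0 429 429) (five 0 430 466)))))))))))))) (both (mv 432 (both (mv 433 (both (five 5 400 401) (mv 559 (both (five 6 431 527) (mv 560 (both (five 5 432 465) (five 6 463 591))))))) (both (mv 399 (both (five 7 399 431) (mv 400 (both (five 7 367 367) (mv 527 (both (five 6 399 495) (five 6 431 559))))))) (mv 399 (both (five 7 399 431) (mv 400 (both (five 7 367 367) (mv 401 (both (five 5 368 369) (five 5 400 433)))))))))) (both (mv 432 (both (mv 433 (both (five 5 400 401) (mv 559 (both (five 6 431 527) (mv 560 (both (five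 5 432 465) (five 6 463 591))))))) (both (mv 431 (both (five 7 399 399) (mv 559 (both (five 6 431 527) (mv 560 (both (five 7 431 463) (five 6 463 591))))))) (mv 399 (both (five 7 399 431) (mv 400 (both (five 7 367 367) (mv 401 (both (five 5 368 369) (five 5 400 433)))))))))) (both (mv 433 (both (mv 401 (both (five 5 400 432) (mv 465 (both (five 6 368 369) (five 5 432 560))))) (both (mv 560 (both (five 5 432 465) (mv 463 (both (five 7 431 431) (mv 591 (both (five 6 463 559) (mv 592 (both (five 7 463 495) (five 6 495 623))))))))) (both (mv 432 (both (five 5 400 401) (mv 463 (both (mv 434 (both (five 2 431 435) (mv 462 (both (five 1 429 461) (five 1 430 465))))) (both (mv 399 (both (five 7 399 431) (mv 400 (both (five 7 367 367) (mv 368 (both (five 6 367 495) (mv 336 (both (five 4 336 465) (mv 337 (both (five 5 304 305) (five 5 336 369))))))))))) (mv 431 (both (five 7 399 399) (mv 434 (both (five 2 431 435) (five 2 430 462)))))))))) (mv 432 (both (five 5 400 401) (mv 431 (both (five 7 399 399) (mv 463 (both (five 7 431 560) (mv 434 (both (five 2 431 435) (five 2 430 462))))))))))))) (both (mv 432 (both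 (mv 527 (both (five 6 431 559) (mv 400 (both (five 6 399 495) (mv 367 (both (five 7 367 399) (mv 368 (both (five 7 335 335) (mv 369 (both (five 5 336 337) (five 5 368 401))))))))))) (both (mv 400 (both (mv 399 (both (five 7 367 367) (five 7 399 431))) (both (mv 369 (both (five 5 368 401) (mv 368 (both (five 5 336 337) (mv 335 (both (five 7 335 367) (mv 336 (both (five 7 303 303) (mv 463 (both (five 6 335 431) (five 6 367 495))))))))))) (both (mv 367 (both (five 7 367 399) (mv 368 (both (five 7 335 335) (mv 369 (both (five 5 336 337) (five 5 368 401))))))) (mv 431 (both (five 7 399 399) (mv 463 (both (five 7 431 560) (mv 368 (both (five 6 335 336) (five 6 367 495))))))))))) (both (mv 560 (both (mv 559 (both (five 6 431 527) (five 6 463 591))) (both (mv 463 (both (five 7 431 431) (mv 495 (both (five 7 463 592) (mv 400 (both (five 6 367 368) (five 6 399 527))))))) (mv 463 (both (five 7 431 431) (mv 591 (both (five 6 463 559) (mv 592 (both (five 7 463 495) (five 6 495 623)))))))))) (mv 431 (both (five 7 399 399) (mv 559 (both (five 6 431 527) (mv 560 (both (five 7 431 463) (five 6 463 591))))))))))) (both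 (mv 560 (both (mv 433 (both (five 5 432 465) (mv 432 (both (five 5 400 401) (mv 559 (both (five 6 431 527) (five 6 463 591))))))) (both (mv 433 (both (five 5 432 465) (mv 432 (both (five 5 400 401) (mv 463 (both (five 7 431 431) (mv 495 (both (five 7 463 592) (mv 400 (both (five 6 367 368) (five 6 399 527))))))))))) (mv 463 (both (five 7 431 431) (mv 591 (both (five 6 463 559) (mv 592 (both (five 7 463 495) (five 6 495 623)))))))))) (mv 560 (both (mv 431 (both (five 7 431 463) (mv 432 (both (five 7 399 399) (mv 559 (both (five 6 431 527) (five 6 463 591))))))) (both (mv 592 (both (mv 591 (both (five 6 463 559) (five 6 495 623))) (both (mv 433 (both (five 5 432 465) (mv 625 (both (five 4 496 593) (mv 624 (both (five 4 528 657) (mv 527 (both (five 7 495 495) (mv 559 (both (five 6 431 432) (five 7 527 656))))))))))) (mv 623 (both (five 6 495 591) (mv 624 (both (five 6 527 655) (mv 625 (both (five 4 496 593) (five 4 528 657)))))))))) (mv 463 (both (five 7 431 431) (mv 465 (both (five 5 432 433) (mv 495 (both (five 7 463 592) (mv 466 (both (five 2 463 467) (five 2 462 494)))))))))))))))))))))) (both (ref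 3) (both (ref 4) (both (ref 5) (both (ref 6) (both (ref 7) (both (mv 464 (both (mv 432 (both (mv 433 (both (five 5 400 401) (mv 559 (both (five 6 431 527) (mv 560 (both (five 5 432 465) (five 6 463 591))))))) (both (mv 399 (both (five 7 399 431) (mv 400 (both (five 7 367 367) (mv 527 (both (five 6 399 495) (five 6 431 559))))))) (mv 399 (both (five 7 399 431) (mv 400 (both (five 7 367 367) (mv 401 (both (five 5 368 369) (five 5 400 433)))))))))) (both (mv 560 (both (mv 463 (both (five 7 431 431) (mv 591 (both (five 6 463 559) (mv 592 (both (five 7 463 495) (five 6 495 623))))))) (both (mv 465 (both (five 5 432 433) (mv 592 (both (five 5 464 497) (mv 623 (both (five 6 495 591) (mv 624 (both (five 6 527 655) (mv 625 (both (five 4 496 593) (five 4 528 657))))))))))) (mv 463 (both (five 7 431 431) (mv 462 (both (mv 461 (both (five 0 461 497) (mv 428 (both (five 3 428 429) (mv 460 (both (five 3 427 427) (five 0 460 495))))))) (both (mv 465 (both (five 5 432 433) (mv 429 (both (five 3 429 430) (mv 428 (both (five 3 428 461) (mv 494 (both (five 2 461 493) (mv 466 (both (five 2 462 495) (mv 435 (both (five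 1 431 434) (mv 467 (both (five 1 432 436) (mv 499 (both (five 0 463 498) (five 0 464 500))))))))))))))))) (both (mv 465 (both (five 5 432 433) (mv 429 (both (five 3 429 430) (mv 493 (both (five 2 461 494) (mv 498 (both (five 0 462 497) (mv 466 (both (five 0 463 499) (mv 435 (both (five 1 431 434) (mv 467 (both (five 1 432 436) (five 2 463 495))))))))))))))) (both (mv 433 (both (five 5 432 465) (mv 461 (both (five 0 461 497) (mv 428 (both (five 3 428 429) (mv 460 (both (five 3 427 427) (mv 492 (both (five 2 459 491) (five 2 460 493))))))))))) (mv 433 (both (five 5 432 465) (mv 461 (both (five 0 461 497) (mv 460 (both (five 0 460 495) (mv 492 (both (five 2 459 491) (five 2 460 493))))))))))))))))))) (both (mv 432 (both (mv 399 (both (five 7 399 431) (mv 400 (both (five 7 367 367) (mv 527 (both (five 6 399 495) (five 6 431 559))))))) (both (mv 401 (both (five 5 400 433) (mv 400 (both (five 5 368 369) (mv 527 (both (five 6 399 495) (five 6 431 559))))))) (mv 431 (both (five 7 399 399) (mv 430 (both (mv 429 (both (five 0 429 465) (mv 396 (both (five 3 396 397) (mv 428 (both (five 3 395 395) (five 0 428 463)))))))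 (both (mv 433 (both (five 5 400 401) (mv 462 (both (five 2 429 461) (mv 434 (both (five 2 430 463) (mv 403 (both (five 1 399 402) (mv 435 (both (five 1 400 404) (mv 467 (both (five 0 431 466) (five 0 432 468))))))))))))) (mv 401 (both (five 5 400 433) (mv 429 (both (five 0 429 465) (mv 396 (both (five 3 396 397) (mv 428 (both (five 3 395 395) (mv 460 (both (five 2 427 459) (five 2 428 461))))))))))))))))))) (both (mv 560 (both (mv 433 (both (five 5 432 465) (mv 432 (both (five 5 400 401) (mv 559 (both (five 6 431 527) (five 6 463 591))))))) (both (mv 592 (both (mv 591 (both (five 6 463 559) (five 6 495 623))) (both (mv 625 (both (five 4 496 593) (mv 624 (both (five 4 528 657) (mv 527 (both (five 7 495 495) (mv 655 (both (five 6 527 623) (mv 656 (both (five 7 527 559) (five 6 559 687))))))))))) (both (mv 623 (both (five 6 495 591) (mv 624 (both (five 6 527 655) (mv 625 (both (five 4 496 593) (five 4 528 657))))))) (mv 559 (both (five 6 463 591) (mv 625 (both (five 4 496 593) (mv 624 (both (five 4 528 657) (mv 527 (both (five 7 495 495) (five 7 527 656))))))))))))) (both (mv 465 (both (five 5 432 433)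 (mv 592 (both (five 5 464 497) (mv 623 (both (five 6 495 591) (mv 624 (both (five 6 527 655) (mv 625 (both (five 4 496 593) (five 4 528 657))))))))))) (mv 433 (both (five 5 432 465) (mv 432 (both (five 5 400 401) (mv 527 (both (five 6 431 559) (mv 495 (both (five 6 399 400) (mv 592 (both (five 7 463 463) (five 7 495 624))))))))))))))) (both (mv 432 (both (mv 527 (both (five 6 431 559) (mv 400 (both (five 6 399 495) (mv 367 (both (five 7 367 399) (mv 368 (both (five 7 335 335) (mv 369 (both (five 5 336 337) (five 5 368 401))))))))))) (both (mv 400 (both (mv 399 (both (five 7 367 367) (five 7 399 431))) (both (mv 369 (both (five 5 368 401) (mv 368 (both (five 5 336 337) (mv 335 (both (five 7 335 367) (mv 336 (both (five 7 303 303) (mv 463 (both (five 6 335 431) (five 6 367 495))))))))))) (both (mv 367 (both (five 7 367 399) (mv 368 (both (five 7 335 335) (mv 369 (both (five 5 336 337) (five 5 368 401))))))) (mv 431 (both (five 7 399 399) (mv 463 (both (five 7 431 560) (mv 368 (both (five 6 335 336) (five 6 367 495))))))))))) (both (mv 560 (both (mv 559 (both (five 6 431 527) (five 6 463 591))) (both (mv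 463 (both (five 7 431 431) (mv 495 (both (five 7 463 592) (mv 400 (both (five 6 367 368) (five 6 399 527))))))) (mv 463 (both (five 7 431 431) (mv 591 (both (five 6 463 559) (mv 592 (both (five 7 463 495) (five 6 495 623)))))))))) (mv 431 (both (five 7 399 399) (mv 559 (both (five 6 431 527) (mv 560 (both (five 7 431 463) (five 6 463 591))))))))))) (both (mv 432 (both (mv 401 (both (five 5 400 433) (mv 400 (both (five 5 368 369) (mv 367 (both (five 7 367 399) (mv 368 (both (five 7 335 335) (mv 495 (both (five 6 367 463) (five 6 399 527))))))))))) (both (mv 399 (both (five 7 399 431) (mv 400 (both (five 7 367 367) (mv 369 (both (five 5 368 401) (mv 368 (both (five 5 336 337) (mv 495 (both (five 6 367 463) (five 6 399 527))))))))))) (both (mv 401 (both (five 5 400 433) (mv 400 (both (five 5 368 369) (mv 495 (both (five 6 399 527) (mv 463 (both (five 6 367 368) (mv 560 (both (five 7 431 431) (five 7 463 592))))))))))) (both (mv 399 (both (five 7 399 431) (mv 400 (both (five 7 367 367) (mv 495 (both (five 6 399 527) (mv 463 (both (five 6 367 368) (mv 560 (both (five 7 463 592) (mv 465 (both (five 5 432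 433) (mv 466 (both (five 2 463 467) (five 2 462 494))))))))))))))) (mv 431 (both (five 7 399 399) (mv 433 (both (five 5 400 401) (mv 465 (both (five 5 432 560) (mv 430 (both (five 0 429 429) (five 0 430 466)))))))))))))) (mv 432 (both (mv 433 (both (five 5 400 401) (mv 559 (both (five 6 431 527) (mv 560 (both (five 5 432 465) (five 6 463 591))))))) (both (mv 431 (both (five 7 399 399) (mv 559 (both (five 6 431 527) (mv 560 (both (five 7 431 463) (five 6 463 591))))))) (mv 399 (both (five 7 399 431) (mv 400 (both (five 7 367 367) (mv 401 (both (five 5 368 369) (five 5 400 433))))))))))))))))) (both (mv 560 (both (mv 592 (both (mv 623 (both (five 6 495 591) (mv 624 (both (five 6 527 655) (mv 625 (both (five 4 496 593) (five 4 528 657))))))) (both (mv 495 (both (five 7 463 463) (mv 624 (both (five 7 495 527) (mv 625 (both (five 4 496 593) (five 4 528 657))))))) (mv 463 (both (five 7 463 495) (mv 464 (both (five 7 431 431) (mv 591 (both (five 6 463 559) (five 6 495 623)))))))))) (both (mv 464 (both (mv 431 (both (five 7 431 463) (mv 432 (both (five 7 399 399) (mv 559 (both (five 6 431 527) (five 6 463 591)))))))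 (both (mv 431 (both (five 7 431 463) (mv 432 (both (five 7 399 399) (mv 433 (both (five 5 400 401) (five 5 432 465))))))) (both (mv 433 (both (five 5 432 465) (mv 432 (both (five 5 400 401) (mv 559 (both (five 6 431 527) (five 6 463 591))))))) (mv 463 (both (five 7 431 431) (mv 462 (both (mv 465 (both (five 5 432 433) (mv 429 (both (five 3 429 430) (mv 461 (both (five 3 428 428) (mv 460 (both (five 0 460 495) (mv 492 (both (five 2 459 491) (five 2 460 493))))))))))) (both (mv 465 (both (five 5 432 433) (mv 429 (both (five 3 429 430) (mv 498 (both (five 0 462 497) (mv 466 (both (five 0 463 499) (mv 435 (both (five 1 431 434) (mv 467 (both (five 1 432 436) (mv 530 (both (five 5 434 562) (mv 559 (both (five 6 463 591) (mv 529 (both (five 2 527 531) (mv 558 (both (five 2 526 527) (five 1 525 557))))))))))))))))))))) (mv 461 (both (five 0 461 497) (mv 460 (both (five 0 460 495) (mv 492 (both (five 2 459 491) (five 2 460 493)))))))))))))))) (both (mv 592 (both (mv 623 (both (five 6 495 591) (mv 624 (both (five 6 527 655) (mv 625 (both (five 4 496 593) (five 4 528 657))))))) (both (mv 497 (both (five 5 464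 465) (mv 624 (both (five 5 496 529) (mv 625 (both (five 4 496 593) (five 4 528 657))))))) (both (mv 497 (both (five 5 464 465) (mv 623 (both (five 6 495 591) (mv 624 (both (five 5 496 529) (five 6 527 655))))))) (mv 593 (both (five 4 496 625) (mv 594 (both (mv 559 (both (five 3 559 595) (mv 558 (both (five 0 557 557) (five 3 558 591))))) (both (mv 595 (both (five 3 559 559) (mv 564 (both (five 1 560 563) (mv 596 (both (five 1 561 565) (mv 628 (both (five 0 592 627) (five 0 593 629))))))))) (both (mv 591 (both (five 6 495 623) (mv 563 (both (five 1 559 562) (mv 595 (both (five 1 560 564) (mv 627 (both (five 0 591 626) (five 0 592 628))))))))) (mv 497 (both (five 5 464 465) (mv 591 (both (five 6 495 623) (mv 558 (both (five 3 558 559) (mv 557 (both (five 3 557 590) (mv 562 (both (five 1 559 563) (mv 626 (both (five 0 591 627) (mv 530 (both (five 7 497 529) (mv 499 (both (five 5 498 531) (mv 498 (both (five 5 466 467) (five 2 495 527))))))))))))))))))))))))))))) (both (mv 592 (both (mv 497 (both (five 5 464 465) (mv 624 (both (five 5 496 529) (mv 625 (both (five 4 496 593) (five 4 528 657))))))) (both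 (mv 495 (both (five 7 463 463) (mv 624 (both (five 7 495 527) (mv 625 (both (five 4 496 593) (five 4 528 657))))))) (mv 463 (both (five 7 463 495) (mv 464 (both (five 7 431 431) (mv 465 (both (five 5 432 433) (five 5 464 497)))))))))) (mv 592 (both (mv 623 (both (five 6 495 591) (mv 624 (both (five 6 527 655) (mv 625 (both (five 4 496 593) (five 4 528 657))))))) (both (mv 497 (both (five 5 464 465) (mv 624 (both (five 5 496 529) (mv 625 (both (five 4 496 593) (five 4 528 657))))))) (mv 465 (both (five 5 464 497) (mv 464 (both (five 5 432 433) (mv 591 (both (five 6 463 559) (five 6 495 623))))))))))))))) (both (mv 560 (both (mv 592 (both (mv 623 (both (five 6 495 591) (mv 624 (both (five 6 527 655) (mv 625 (both (five 4 496 593) (five 4 528 657))))))) (both (mv 495 (both (five 7 463 463) (mv 624 (both (five 7 495 527) (mv 625 (both (five 4 496 593) (five 4 528 657))))))) (mv 463 (both (five 7 463 495) (mv 464 (both (five 7 431 431) (mv 591 (both (five 6 463 559) (five 6 495 623)))))))))) (both (mv 464 (both (mv 431 (both (five 7 431 463) (mv 432 (both (five 7 399 399) (mv 559 (both (five 6 431 527) (five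 6 463 591))))))) (both (mv 431 (both (five 7 431 463) (mv 432 (both (five 7 399 399) (mv 433 (both (five 5 400 401) (five 5 432 465))))))) (both (mv 433 (both (five 5 432 465) (mv 432 (both (five 5 400 401) (mv 559 (both (five 6 431 527) (five 6 463 591))))))) (mv 463 (both (five 7 431 431) (mv 462 (both (mv 461 (both (five 0 461 497) (mv 428 (both (five 3 428 429) (mv 460 (both (five 3 427 427) (five 0 460 495))))))) (both (mv 465 (both (five 5 432 433) (mv 430 (both (five 3 429 429) (mv 494 (both (five 2 461 493) (mv 559 (both (five 6 463 591) (mv 526 (both (five 4 430 527) (mv 557 (both (five 6 429 525) (mv 558 (both (five 1 525 529) (five 6 461 589))))))))))))))) (mv 461 (both (five 0 461 497) (mv 460 (both (five 0 460 495) (mv 492 (both (five 2 459 491) (five 2 460 493)))))))))))))))) (both (mv 592 (both (mv 623 (both (five 6 495 591) (mv 624 (both (five 6 527 655) (mv 625 (both (five 4 496 593) (five 4 528 657))))))) (both (mv 497 (both (five 5 464 465) (mv 624 (both (five 5 496 529) (mv 625 (both (five 4 496 593) (five 4 528 657))))))) (both (mv 497 (both (five 5 464 465) (mv 623 (both (five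 6 495 591) (mv 624 (both (five 5 496 529) (five 6 527 655))))))) (mv 495 (both (five 7 463 463) (mv 494 (both (mv 529 (both (five 0 493 493) (mv 530 (both (five 0 494 497) (five 3 495 531))))) (both (mv 493 (both (five 0 493 529) (mv 460 (both (five 3 460 461) (mv 492 (both (five 3 459 459) (five 0 492 527))))))) (both (mv 493 (both (mv 460 (both (five 3 460 461) (mv 492 (both (five 3 459 459) (five 0 492 527))))) (both (mv 461 (both (five 3 460 460) (mv 462 (both (five 3 461 497) (mv 525 (both (five 2 492 524) (mv 430 (both (five 6 397 398) (five 5 429 557))))))))) (mv 492 (both (five 0 492 527) (mv 524 (both (five 2 491 523) (five 2 492 525)))))))) (mv 497 (both (five 5 464 465) (mv 462 (both (five 3 461 461) (mv 525 (both (five 2 493 526) (mv 529 (both (five 0 494 530) (mv 591 (both (five 6 495 623) (mv 559 (both (five 7 462 527) (mv 593 (both (five 4 496 625) (mv 558 (both (five 0 557 557) (five 3 558 594))))))))))))))))))))))))))) (both (mv 592 (both (mv 623 (both (five 6 495 591) (mv 624 (both (five 6 527 655) (mv 625 (both (five 4 496 593) (five 4 528 657))))))) (both (mv 497 (both (five 5 464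 465) (mv 624 (both (five 5 496 529) (mv 625 (both (five 4 496 593) (five 4 528 657))))))) (mv 465 (both (five 5 464 497) (mv 464 (both (five 5 432 433) (mv 591 (both (five 6 463 559) (five 6 495 623)))))))))) (mv 592 (both (mv 497 (both (five 5 464 465) (mv 624 (both (five 5 496 529) (mv 625 (both (five 4 496 593) (five 4 528 657))))))) (both (mv 495 (both (five 7 463 463) (mv 624 (both (five 7 495 527) (mv 625 (both (five 4 496 593) (five 4 528 657))))))) (mv 463 (both (five 7 463 495) (mv 464 (both (five 7 431 431) (mv 465 (both (five 5 432 433) (five 5 464 497))))))))))))))) (both (mv 560 (both (mv 592 (both (mv 623 (both (five 6 495 591) (mv 624 (both (five 6 527 655) (mv 625 (both (five 4 496 593) (five 4 528 657))))))) (both (mv 495 (both (five 7 463 463) (mv 624 (both (five 7 495 527) (mv 625 (both (five 4 496 593) (five 4 528 657))))))) (mv 463 (both (five 7 463 495) (mv 464 (both (five 7 431 431) (mv 591 (both (five 6 463 559) (five 6 495 623)))))))))) (both (mv 464 (both (mv 433 (both (five 5 432 465) (mv 432 (both (five 5 400 401) (mv 559 (both (five 6 431 527) (five 6 463 591))))))) (both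 (mv 559 (both (five 6 463 591) (mv 558 (both (mv 529 (both (five 1 525 557) (mv 530 (both (five 2 526 527) (five 2 527 531))))) (both (mv 557 (both (five 1 525 529) (mv 524 (both (five 3 524 525) (mv 556 (both (five 3 523 523) (mv 588 (both (five 2 555 587) (five 2 556 589))))))))) (both (mv 527 (both (five 6 431 432) (mv 526 (both (mv 525 (both (five 1 493 497) (five 0 524 524))) (both (mv 529 (both (five 2 526 530) (mv 494 (both (five 3 493 493) (mv 462 (both (five 4 430 430) (mv 461 (both (five 7 429 429) (mv 497 (both (five 3 461 495) (five 1 494 498))))))))))) (mv 525 (both (five 0 524 524) (mv 493 (both (five 3 492 492) (mv 529 (both (five 3 493 494) (five 2 526 530)))))))))))) (mv 527 (both (five 6 431 432) (mv 557 (both (five 1 524 556) (mv 525 (both (five 3 524 524) (mv 526 (both (five 1 493 497) (mv 492 (both (five 3 492 493) (mv 589 (both (five 2 556 588) (mv 494 (both (five 6 461 462) (five 5 493 621))))))))))))))))))))) (mv 463 (both (five 7 431 431) (mv 462 (both (mv 461 (both (five 0 461 497) (mv 428 (both (five 3 428 429) (mv 460 (both (five 3 427 427) (five 0 460 495))))))) (both (mv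 465 (both (five 5 432 433) (mv 429 (both (five 3 429 430) (mv 428 (both (five 3 428 461) (mv 494 (both (five 2 461 493) (mv 466 (both (five 2 462 495) (mv 435 (both (five 1 431 434) (mv 467 (both (five 1 432 436) (mv 499 (both (five 0 463 498) (five 0 464 500))))))))))))))))) (both (mv 465 (both (five 5 432 433) (mv 429 (both (five 3 429 430) (mv 493 (both (five 2 461 494) (mv 498 (both (five 0 462 497) (mv 466 (both (five 0 463 499) (mv 435 (both (five 1 431 434) (mv 467 (both (five 1 432 436) (five 2 463 495))))))))))))))) (both (mv 433 (both (five 5 432 465) (mv 461 (both (five 0 461 497) (mv 428 (both (five 3 428 429) (mv 460 (both (five 3 427 427) (mv 492 (both (five 2 459 491) (five 2 460 493))))))))))) (mv 433 (both (five 5 432 465) (mv 461 (both (five 0 461 497) (mv 460 (both (five 0 460 495) (mv 492 (both (five 2 459 491) (five 2 460 493))))))))))))))))))) (both (mv 592 (both (mv 497 (both (five 5 464 465) (mv 624 (both (five 5 496 529) (mv 625 (both (five 4 496 593) (five 4 528 657))))))) (both (mv 495 (both (five 7 463 463) (mv 624 (both (five 7 495 527) (mv 625 (both (five 4 496 593) (five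 4 528 657))))))) (mv 495 (both (five 7 463 463) (mv 494 (both (mv 493 (both (five 0 493 529) (mv 460 (both (five 3 460 461) (mv 492 (both (five 3 459 459) (five 0 492 527))))))) (both (mv 497 (both (five 5 464 465) (mv 526 (both (five 2 493 525) (mv 498 (both (five 2 494 527) (mv 467 (both (five 1 463 466) (mv 499 (both (five 1 464 468) (mv 531 (both (five 0 495 530) (five 0 496 532))))))))))))) (mv 465 (both (five 5 464 497) (mv 493 (both (five 0 493 529) (mv 460 (both (five 3 460 461) (mv 492 (both (five 3 459 459) (mv 524 (both (five 2 491 523) (five 2 492 525))))))))))))))))))) (mv 592 (both (mv 623 (both (five 6 495 591) (mv 624 (both (five 6 527 655) (mv 625 (both (five 4 496 593) (five 4 528 657))))))) (both (mv 497 (both (five 5 464 465) (mv 624 (both (five 5 496 529) (mv 625 (both (five 4 496 593) (five 4 528 657))))))) (mv 465 (both (five 5 464 497) (mv 464 (both (five 5 432 433) (mv 591 (both (five 6 463 559) (five 6 495 623)))))))))))))) (mv 560 (both (mv 592 (both (mv 623 (both (five 6 495 591) (mv 624 (both (five 6 527 655) (mv 625 (both (five 4 496 593) (five 4 528 657))))))) (both (mv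 495 (both (five 7 463 463) (mv 624 (both (five 7 495 527) (mv 625 (both (five 4 496 593) (five 4 528 657))))))) (mv 463 (both (five 7 463 495) (mv 464 (both (five 7 431 431) (mv 591 (both (five 6 463 559) (five 6 495 623)))))))))) (both (mv 464 (both (mv 431 (both (five 7 431 463) (mv 432 (both (five 7 399 399) (mv 559 (both (five 6 431 527) (five 6 463 591))))))) (both (mv 431 (both (five 7 431 463) (mv 432 (both (five 7 399 399) (mv 433 (both (five 5 400 401) (five 5 432 465))))))) (both (mv 433 (both (five 5 432 465) (mv 432 (both (five 5 400 401) (mv 559 (both (five 6 431 527) (five 6 463 591))))))) (mv 463 (both (five 7 431 431) (mv 462 (both (mv 461 (both (five 0 461 497) (mv 428 (both (five 3 428 429) (mv 460 (both (five 3 427 427) (five 0 460 495))))))) (both (mv 465 (both (five 5 432 433) (mv 429 (both (five 3 429 430) (mv 461 (both (five 3 428 428) (mv 495 (both (five 0 460 460) (mv 466 (both (five 2 463 467) (five 2 462 494))))))))))) (both (mv 465 (both (five 5 432 433) (mv 429 (both (five 3 429 430) (mv 498 (both (five 0 462 497) (mv 466 (both (five 0 463 499) (mv 435 (both (five 1 431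 434) (mv 467 (both (five 1 432 436) (mv 530 (both (five 5 434 562) (mv 559 (both (five 6 463 591) (mv 529 (both (five 2 527 531) (mv 558 (both (five 2 526 527) (five 1 525 557))))))))))))))))))))) (mv 433 (both (five 5 432 465) (mv 461 (both (five 0 461 497) (mv 460 (both (five 0 460 495) (mv 427 (both (five 3 427 428) (mv 459 (both (five 3 426 426) (mv 491 (both (five 2 458 490) (five 2 459 492))))))))))))))))))))))) (both (mv 592 (both (mv 623 (both (five 6 495 591) (mv 624 (both (five 6 527 655) (mv 625 (both (five 4 496 593) (five 4 528 657))))))) (both (mv 497 (both (five 5 464 465) (mv 624 (both (five 5 496 529) (mv 625 (both (five 4 496 593) (five 4 528 657))))))) (both (mv 497 (both (five 5 464 465) (mv 623 (both (five 6 495 591) (mv 624 (both (five 5 496 529) (five 6 527 655))))))) (mv 593 (both (five 4 496 625) (mv 594 (both (mv 559 (both (five 3 559 595) (mv 558 (both (five 0 557 557) (five 3 558 591))))) (both (mv 595 (both (five 3 559 559) (mv 564 (both (five 1 560 563) (mv 596 (both (five 1 561 565) (mv 628 (both (five 0 592 627) (five 0 593 629))))))))) (both (mv 591 (both (five 6 495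 623) (mv 563 (both (five 1 559 562) (mv 595 (both (five 1 560 564) (mv 627 (both (five 0 591 626) (five 0 592 628))))))))) (mv 497 (both (five 5 464 465) (mv 591 (both (five 6 495 623) (mv 558 (both (five 3 558 559) (mv 557 (both (five 3 557 590) (mv 562 (both (five 1 559 563) (mv 626 (both (five 0 591 627) (mv 530 (both (five 7 497 529) (mv 499 (both (five 5 498 531) (mv 498 (both (five 5 466 467) (five 2 495 527))))))))))))))))))))))))))))) (both (mv 592 (both (mv 497 (both (five 5 464 465) (mv 624 (both (five 5 496 529) (mv 625 (both (five 4 496 593) (five 4 528 657))))))) (both (mv 495 (both (five 7 463 463) (mv 624 (both (five 7 495 527) (mv 625 (both (five 4 496 593) (five 4 528 657))))))) (mv 463 (both (five 7 463 495) (mv 464 (both (five 7 431 431) (mv 465 (both (five 5 432 433) (five 5 464 497)))))))))) (mv 592 (both (mv 623 (both (five 6 495 591) (mv 624 (both (five 6 527 655) (mv 625 (both (five 4 496 593) (five 4 528 657))))))) (both (mv 497 (both (five 5 464 465) (mv 624 (both (five 5 496 529) (mv 625 (both (five 4 496 593) (five 4 528 657))))))) (mv 465 (both (five 5 464 497) (mv 464 (both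 (five 5 432 433) (mv 591 (both (five 6 463 559) (five 6 495 623)))))))))))))))))))))))))))))))))

theorem L100 : W (S 878694100496718043517683302282418331810487718418343092402491322775749527474899974671687634004666183037093927858109549828751614463963730408009475621262727315456) (S 882896351741303297370893241659833763652610464874507718621614049436086038488037169201181473869329423525298041532752971803766886488830095254760271959990113373407669469432664143117164735647133384895217648271360) :=
  check_sound (Env.cons L90 (Env.cons L91 (Env.cons L93 (Env.cons L94 (Env.cons L95 (Env.cons L96 (Env.cons L97 (Env.cons L99 Env.nil)))))))) (x := 496) (t := tL100) (by decide +kernel)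

def tL101 : T :=
  (both (mv 558 (both (mv 589 (both (five 6 461 557) (mv 590 (both (five 6 493 621) (mv 591 (both (five 4 462 559) (five 4 494 623))))))) (mv 429 (both (five 7 429 461) (mv 430 (both (five 7 397 397) (mv 431 (both (five 5 398 399) (five 5 430 463))))))))) (both (mv 558 (both (mv 429 (both (five 7 429 461) (mv 430 (both (five 7 397 397) (mv 431 (both (five 5 398 399) (five 5 430 463))))))) (mv 557 (both (five 6 461 589) (mv 527 (both (five 2 525 529) (mv 556 (both (five 2 524 525) (five 1 523 555))))))))) (both (mv 558 (both (mv 589 (both (five 6 461 557) (mv 590 (both (five 6 493 621) (mv 591 (both (five 4 462 559) (five 4 494 623))))))) (both (mv 429 (both (five 7 429 461) (mv 397 (both (five 7 397 430) (mv 591 (both (five 4 462 559) (mv 590 (both (five 4 494 623) (mv 495 (both (five 5 462 463) (mv 621 (both (five 6 493 589) (mv 622 (both (five 5 494 527) (five 6 525 653))))))))))))))) (both (mv 429 (both (five 7 429 461) (mv 430 (both (five 7 397 397) (mv 557 (both (five 6 429 525) (five 6 461 589))))))) (mv 429 (both (five 7 429 461) (mv 397 (both (five 7 397 430) (mv 591 (both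 (five 4 462 559) (mv 590 (both (five 4 494 623) (mv 495 (both (five 5 462 463) (mv 527 (both (five 5 494 622) (mv 525 (both (five 1 492 524) (mv 557 (both (five 2 525 529) (five 2 524 556))))))))))))))))))))) (both (mv 558 (both (mv 429 (both (five 7 429 461) (mv 430 (both (five 7 397 397) (mv 431 (both (five 5 398 399) (five 5 430 463))))))) (both (mv 429 (both (five 7 429 461) (mv 430 (both (five 7 397 397) (mv 559 (both (five 4 430 527) (five 4 462 591))))))) (mv 591 (both (five 4 462 559) (mv 590 (both (five 4 494 623) (mv 495 (both (five 5 462 463) (mv 621 (both (five 6 493 589) (mv 622 (both (five 5 494 527) (five 6 525 653)))))))))))))) (both (mv 430 (both (mv 397 (both (five 7 397 429) (mv 398 (both (five 7 365 365) (mv 399 (both (five 5 366 367) (five 5 398 431))))))) (mv 525 (both (five 6 429 557) (mv 527 (both (five 4 430 559) (mv 524 (both (five 1 492 495) (mv 491 (both (five 3 491 492) (mv 523 (both (five 3 490 490) (mv 555 (both (five 2 522 554) (five 2 523 556))))))))))))))) (mv 558 (both (mv 589 (both (five 6 461 557) (mv 590 (both (five 6 493 621) (mv 591 (both (five 4 462 559) (five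 4 494 623))))))) (both (mv 557 (both (five 6 461 589) (mv 527 (both (five 2 525 529) (mv 556 (both (five 2 524 525) (five 1 523 555))))))) (mv 463 (both (five 5 430 431) (mv 495 (both (five 5 462 590) (mv 559 (both (five 4 462 591) (mv 560 (both (five 7 463 592) (mv 525 (both (five 3 525 561) (mv 524 (both (five 0 523 523) (five 1 492 527)))))))))))))))))))))

theorem L101 : W (S 1098367625876631195638990211447803359827765831789854025350228590148069047476135421183724742106088204759328672100049959483405148627549761177659140858869700362240) (S 37375513600476177381669822556460245450756678056638391513285457137981222299980317907212520055599180494119477928816776414147470446684066090813960673584654462502994456089634920121330589120196719411200) :=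
  check_sound Env.nil (x := 462) (t := tL101) (by decide +kernel)

def tL102 : T :=
  (both (mv 591 (both (mv 558 (both (five 2 525 557) (mv 561 (both (five 0 526 562) (mv 590 (both (five 4 494 623) (mv 589 (both (five 6 493 621) (mv 592 (both (five 1 557 560) (mv 625 (both (five 7 496 593) (five 0 589 624))))))))))))) (both (mv 558 (both (five 2 525 557) (mv 462 (both (five 4 462 559) (mv 429 (both (five 7 429 461) (mv 430 (both (five 7 397 397) (mv 431 (both (five 5 398 399) (five 5 430 463))))))))))) (mv 561 (both (five 0 526 562) (mv 593 (both (five 7 496 625) (mv 623 (both (five 7 494 559) (mv 592 (both (five 6 495 560) (mv 594 (both (five 2 590 622) (mv 595 (both (five 2 591 624) (mv 627 (both (five 0 591 626) (five 0 592 628)))))))))))))))))) (both (mv 497 (both (five 1 494 498) (mv 561 (both (five 0 526 562) (mv 593 (both (five 7 496 625) (mv 592 (both (five 6 496 624) (mv 465 (both (five 5 464 560) (mv 433 (both (five 6 400 401) (mv 434 (both (five 5 401 402) (five 5 433 466))))))))))))))) (both (mv 462 (both (mv 430 (both (five 4 430 559) (mv 397 (both (five 7 397 429) (mv 398 (both (five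 7 365 365) (mv 399 (both (five 5 366 367) (five 5 398 431))))))))) (both (mv 497 (both (five 1 494 498) (mv 558 (both (five 2 525 557) (mv 429 (both (five 7 429 461) (mv 430 (both (five 7 397 397) (mv 431 (both (five 5 398 399) (five 5 430 463))))))))))) (both (mv 497 (both (five 1 494 498) (mv 558 (both (five 2 525 557) (mv 429 (both (five 7 429 461) (mv 431 (both (five 5 430 463) (mv 591 (both (five 4 462 559) (mv 590 (both (five 4 494 623) (mv 621 (both (five 6 493 589) (mv 622 (both (five 6 525 653) (mv 592 (both (five 2 589 593) (mv 560 (both (five 5 464 465) (five 5 496 624))))))))))))))))))))) (both (mv 430 (both (five 4 430 559) (mv 429 (both (five 7 397 397) (mv 558 (both (five 7 429 461) (five 2 525 557))))))) (mv 430 (both (five 4 430 559) (mv 431 (both (five 5 398 399) (mv 558 (both (five 5 430 463) (five 2 525 557)))))))))))) (both (mv 497 (both (five 1 494 498) (mv 558 (both (five 2 525 557) (mv 561 (both (five 0 526 562) (mv 593 (both (five 7 496 625) (mv 592 (both (five 6 496 624) (mv 594 (both (five 4 497 626) (mv 591 (both (five 3 558 559) (mv 623 (both (five 4 494 590) (five 2 590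 622))))))))))))))))) (both (mv 558 (both (five 2 525 557) (mv 590 (both (mv 621 (both (five 6 493 589) (mv 622 (both (five 6 525 653) (mv 623 (both (five 4 494 591) (five 4 526 655))))))) (both (mv 497 (both (five 1 494 498) (mv 561 (both (five 0 526 562) (mv 589 (both (five 6 493 621) (mv 560 (both (five 2 557 559) (mv 465 (both (five 6 432 433) (five 5 464 592))))))))))) (mv 497 (both (five 1 494 498) (mv 561 (both (five 0 526 562) (mv 591 (both (five 4 494 623) (mv 462 (both (five 4 462 559) (mv 429 (both (five 7 429 461) (mv 430 (both (five 7 397 397) (mv 431 (both (five 5 398 399) (five 5 430 463)))))))))))))))))))) (mv 497 (both (five 1 494 498) (mv 558 (both (five 2 525 557) (mv 561 (both (five 0 526 562) (mv 593 (both (five 7 496 625) (mv 594 (both (five 4 497 626) (mv 559 (both (five 0 558 560) (mv 462 (both (five 4 430 430) (five 4 462 591))))))))))))))))))))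

theorem L102 : W (S 1537714676124990217397831862589012525733009690999025571551474251535943811213585408519568559108421296277875636029104734397780955859531626381663878669501064019968) (S 186877569916857159361888578362602634248545248329382515218761553387376558044172817319099977924530246024388053380109682774061663723766126669823858853815337158760192017149653930626545385222756471144448) :=
  check_sound Env.nil (x := 529) (t := tL102) (by decide +kernel)

end P062.Cert
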