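import Vale.Agent.P062.Check
import Vale.Agent.P062.Cert.C18

/-! Snaky certificate, part 19 (machine generated, checked by the kernel) -/

set_option maxRecDepth 100000

namespace P062.Cert

open T

def tL103 : T :=
  (both (mv 526 (both (mv 497 (both (mv 525 (both (five 2 493 495) (five 1 493 527))) (both (mv 495 (both (mv 465 (both (five 1 462 466) (mv 433 (both (five 6 400 401) (mv 560 (both (five 6 432 529) (five 5 464 592))))))) (mv 462 (both (five 3 461 461) (mv 498 (both (five 3 462 463) (five 2 494 527))))))) (both (mv 495 (both (five 2 493 525) (mv 465 (both (five 1 462 466) (mv 433 (both (five 6 400 401) (mv 560 (both (five 6 432 529) (five 5 464 592))))))))) (mv 527 (both (five 1 493 525) (mv 498 (both (five 2 495 499) (five 1 494 529))))))))) (both (mv 558 (both (mv 590 (both (mv 621 (both (five 6 493 589) (mv 622 (both (five 6 525 653) (mv 623 (both (five 4 494 591) (five 4 526 655))))))) (mv 495 (both (five 5 462 463) (mv 497 (both (five 2 493 525) (mv 465 (both (five 1 462 466) (mv 433 (both (five 6 400 401) (mv 560 (both (five 6 432 529) (five 5 464 592))))))))))))) (both (mv 462 (both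 (mv 557 (both (five 6 461 589) (mv 559 (both (five 4 462 591) (mv 560 (both (five 1 525 529) (mv 525 (both (five 3 524 524) (five 3 525 561))))))))) (mv 429 (both (five 7 429 461) (mv 430 (both (five 7 397 397) (mv 431 (both (five 5 398 399) (five 5 430 463))))))))) (both (mv 591 (both (mv 462 (both (five 4 462 559) (mv 429 (both (five 7 429 461) (mv 430 (both (five 7 397 397) (mv 557 (both (five 6 429 525) (five 6 461 589))))))))) (both (mv 623 (both (five 4 494 590) (mv 559 (both (five 7 526 655) (mv 560 (both (five 6 495 592) (mv 525 (both (five 3 525 561) (mv 524 (both (five 0 523 523) (five 3 524 557))))))))))) (both (mv 590 (both (five 4 494 623) (mv 589 (both (five 6 493 621) (mv 557 (both (five 6 461 462) (mv 556 (both (five 0 555 555) (five 3 556 592))))))))) (mv 559 (both (five 4 462 462) (mv 623 (both (five 4 494 590) (five 7 526 655))))))))) (both (mv 462 (both (mv 463 (both (five 5 430 431) (mv 495 (both (five 5 462 590) (mv 497 (both (five 3 462 498) (five 2 493 525))))))) (both (mv 429 (both (five 7 429 461) (mv 430 (both (five 7 397 397) (mv 557 (both (five 6 429 525) (five 6 461 589)))))))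 (mv 429 (both (five 7 429 461) (mv 430 (both (five 7 397 397) (mv 431 (both (five 5 398 399) (five 5 430 463)))))))))) (both (mv 462 (both (mv 463 (both (five 5 430 431) (mv 495 (both (five 5 462 590) (mv 497 (both (five 3 462 498) (five 2 493 525))))))) (both (mv 429 (both (five 7 429 461) (mv 430 (both (five 7 397 397) (mv 399 (both (five 5 398 431) (mv 367 (both (five 5 366 398) (mv 525 (both (five 6 429 557) (mv 497 (both (five 2 493 495) (mv 559 (both (five 4 462 591) (mv 523 (both (five 0 523 524) (mv 560 (both (five 3 525 561) (mv 465 (both (five 5 464 592) (mv 433 (both (five 6 400 401) (five 6 432 529))))))))))))))))))))))) (both (mv 429 (both (five 7 429 461) (mv 397 (both (five 7 397 430) (mv 591 (both (five 4 462 559) (mv 590 (both (five 4 494 623) (mv 495 (both (five 5 462 463) (mv 497 (both (five 2 493 525) (mv 465 (both (five 1 462 466) (mv 433 (both (five 6 400 401) (mv 560 (both (five 6 432 529) (five 5 464 592))))))))))))))))))) (mv 429 (both (five 7 429 461) (mv 430 (both (five 7 397 397) (mv 431 (both (five 5 398 399) (five 5 430 463))))))))))) (mv 462 (both (mv 589 (both (five 6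 461 557) (mv 590 (both (five 6 493 621) (mv 591 (both (five 4 462 559) (five 4 494 623))))))) (mv 429 (both (five 7 429 461) (mv 430 (both (five 7 397 397) (mv 431 (both (five 5 398 399) (five 5 430 463))))))))))))))) (both (ref 0) (both (mv 527 (both (ref 1) (both (mv 497 (both (mv 498 (both (five 2 495 499) (five 1 494 529))) (both (mv 495 (both (mv 465 (both (five 1 462 466) (mv 433 (both (five 6 400 401) (mv 560 (both (five 6 432 529) (five 5 464 592))))))) (both (mv 462 (both (five 3 461 461) (mv 430 (both (five 4 398 398) (mv 397 (both (five 7 397 429) (mv 431 (both (five 5 398 399) (mv 463 (both (five 6 430 558) (five 4 431 560))))))))))) (mv 462 (both (five 3 461 461) (mv 430 (both (five 4 398 398) (mv 397 (both (five 7 397 429) (mv 431 (both (five 5 398 399) (mv 463 (both (five 5 430 558) (mv 432 (both (five 5 399 400) (mv 433 (both (five 2 430 434) (mv 401 (both (five 1 398 402) (five 6 400 465)))))))))))))))))))) (mv 498 (both (five 2 494 495) (five 2 495 499)))))) (both (mv 558 (both (mv 590 (both (mv 621 (both (five 6 493 589) (mv 622 (both (five 6 525 653) (mv 623 (both (five 4 494 591)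 (five 4 526 655))))))) (both (mv 495 (both (five 5 462 463) (five 5 494 622))) (mv 591 (both (five 4 494 623) (mv 462 (both (five 4 462 559) (mv 429 (both (five 7 429 461) (mv 430 (both (five 7 397 397) (mv 431 (both (five 5 398 399) (five 5 430 463)))))))))))))) (both (mv 557 (both (five 2 525 529) (mv 462 (both (five 6 461 589) (mv 429 (both (five 7 429 461) (mv 430 (both (five 7 397 397) (mv 431 (both (five 5 398 399) (five 5 430 463))))))))))) (mv 557 (both (five 2 525 529) (mv 556 (both (five 1 523 555) (five 1 524 559)))))))) (both (mv 497 (both (mv 498 (both (five 2 495 499) (five 1 494 529))) (both (mv 495 (both (mv 462 (both (five 3 461 461) (mv 430 (both (five 4 398 398) (five 4 430 559))))) (mv 465 (both (five 1 462 466) (mv 433 (both (five 6 400 401) (mv 560 (both (five 6 432 529) (five 5 464 592))))))))) (mv 498 (both (five 2 494 495) (five 2 495 499)))))) (both (mv 529 (both (mv 497 (both (five 1 494 498) (mv 561 (both (five 0 526 562) (mv 593 (both (five 7 496 625) (mv 592 (both (five 6 496 624) (mv 465 (both (five 5 464 560) (mv 433 (both (five 6 400 401) (mv 434 (both (five 5 401 402)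 (five 5 433 466))))))))))))))) (both (mv 558 (both (five 2 525 557) (mv 590 (both (mv 495 (both (five 5 462 463) (five 5 494 622))) (both (mv 621 (both (five 6 493 589) (mv 622 (both (five 6 525 653) (mv 623 (both (five 4 494 591) (five 4 526 655))))))) (mv 463 (both (five 5 462 495) (mv 561 (both (five 0 526 562) (mv 589 (both (five 6 493 621) (mv 560 (both (five 2 557 559) (mv 591 (both (five 1 557 592) (five 4 494 623)))))))))))))))) (both (mv 495 (both (mv 497 (both (five 2 494 498) (mv 465 (both (five 1 462 466) (mv 433 (both (five 6 400 401) (five 6 432 560))))))) (mv 558 (both (five 2 525 557) (mv 463 (both (five 6 430 431) (five 5 462 590))))))) (mv 497 (both (five 1 494 498) (mv 558 (both (five 2 525 557) (mv 561 (both (five 0 526 562) (mv 593 (both (five 7 496 625) (mv 592 (both (five 6 496 624) (mv 594 (both (five 4 497 626) (mv 591 (both (five 3 558 559) (mv 623 (both (five 4 494 590) (five 2 590 622))))))))))))))))))))) (mv 559 (both (mv 462 (both (five 4 430 430) (mv 558 (both (mv 557 (both (five 1 524 556) (five 6 461 589))) (mv 461 (both (five 7 429 429) (mv 463 (both (five 5 430 431)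 (mv 495 (both (five 0 460 460) (five 3 461 497))))))))))) (both (mv 591 (both (five 7 494 623) (mv 495 (both (mv 497 (both (five 2 494 498) (mv 465 (both (five 1 462 466) (mv 592 (both (five 5 464 560) (five 4 495 624))))))) (both (mv 590 (both (five 6 494 622) (mv 463 (both (five 5 462 558) (mv 431 (both (five 4 399 399) (five 4 431 560))))))) (mv 497 (both (five 2 494 498) (mv 465 (both (five 1 462 466) (mv 401 (both (five 6 400 433) (mv 590 (both (five 6 494 622) (mv 558 (both (five 5 462 463) (mv 556 (both (five 1 524 557) (mv 589 (both (five 6 493 621) (mv 588 (both (five 3 555 555) (five 1 555 587)))))))))))))))))))))) (both (mv 462 (both (five 4 430 430) (mv 591 (both (five 4 462 558) (five 7 494 623))))) (mv 462 (both (five 4 430 430) (mv 591 (both (five 7 462 495) (five 7 494 623))))))))))))))) (both (mv 527 (both (ref 1) (both (mv 525 (both (mv 556 (both (five 2 524 557) (mv 524 (both (five 2 523 555) (mv 560 (both (five 0 524 559) (five 0 525 561))))))) (both (mv 557 (both (five 2 524 556) (mv 462 (both (five 6 429 430) (mv 558 (both (five 2 525 529) (five 6 461 589))))))) (mv 560 (both (five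 0 525 561) (mv 559 (both (five 0 524 524) (mv 462 (both (five 4 430 430) (mv 591 (both (five 4 462 558) (five 7 494 623)))))))))))) (both (mv 497 (both (five 1 493 525) (mv 498 (both (five 2 495 499) (five 1 494 529))))) (mv 525 (both (five 1 493 497) (mv 556 (both (five 2 524 557) (mv 524 (both (five 2 523 555) (mv 560 (both (five 0 524 559) (five 0 525 561))))))))))))) (both (mv 527 (both (mv 497 (both (five 1 493 525) (mv 498 (both (five 2 495 499) (five 1 494 529))))) (both (mv 529 (both (mv 497 (both (five 1 494 498) (mv 561 (both (five 0 526 562) (mv 593 (both (five 7 496 625) (mv 592 (both (five 6 496 624) (mv 465 (both (five 5 464 560) (mv 433 (both (five 6 400 401) (mv 434 (both (five 5 401 402) (five 5 433 466))))))))))))))) (both (mv 558 (both (five 2 525 557) (mv 590 (both (mv 495 (both (five 5 462 463) (five 5 494 622))) (both (mv 621 (both (five 6 493 589) (mv 622 (both (five 6 525 653) (mv 623 (both (five 4 494 591) (five 4 526 655))))))) (mv 463 (both (five 5 462 495) (mv 561 (both (five 0 526 562) (mv 589 (both (five 6 493 621) (mv 560 (both (five 2 557 559) (mv 591 (both (five 1 557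 592) (five 4 494 623)))))))))))))))) (both (mv 495 (both (mv 497 (both (five 2 494 498) (mv 465 (both (five 1 462 466) (mv 433 (both (five 6 400 401) (five 6 432 560))))))) (mv 558 (both (five 2 525 557) (mv 463 (both (five 6 430 431) (five 5 462 590))))))) (mv 497 (both (five 1 494 498) (mv 558 (both (five 2 525 557) (mv 561 (both (five 0 526 562) (mv 593 (both (five 7 496 625) (mv 592 (both (five 6 496 624) (mv 594 (both (five 4 497 626) (mv 591 (both (five 3 558 559) (mv 623 (both (five 4 494 590) (five 2 590 622))))))))))))))))))))) (both (mv 525 (both (mv 495 (both (five 1 492 524) (mv 560 (both (five 0 525 561) (mv 592 (both (five 7 463 463) (five 7 495 624))))))) (both (mv 557 (both (five 2 524 556) (mv 529 (both (five 2 525 558) (mv 561 (both (five 0 525 560) (five 0 526 562))))))) (mv 524 (both (five 1 492 495) (mv 491 (both (five 3 491 492) (mv 523 (both (five 3 490 490) (mv 555 (both (five 2 522 554) (five 2 523 556)))))))))))) (mv 525 (both (five 1 493 497) (mv 556 (both (five 2 524 557) (mv 524 (both (five 2 523 555) (mv 560 (both (five 0 524 559) (five 0 525 561))))))))))))) (both (mv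 462 (both (mv 558 (both (mv 589 (both (five 6 461 557) (mv 590 (both (five 6 493 621) (mv 591 (both (five 4 462 559) (five 4 494 623))))))) (mv 429 (both (five 7 429 461) (mv 430 (both (five 7 397 397) (mv 431 (both (five 5 398 399) (five 5 430 463))))))))) (both (mv 430 (both (mv 397 (both (five 7 397 429) (mv 398 (both (five 7 365 365) (mv 399 (both (five 5 366 367) (five 5 398 431))))))) (mv 525 (both (five 6 429 557) (mv 527 (both (five 4 430 559) (mv 524 (both (five 1 492 495) (mv 491 (both (five 3 491 492) (mv 523 (both (five 3 490 490) (mv 555 (both (five 2 522 554) (five 2 523 556))))))))))))))) (both (mv 558 (both (mv 463 (both (five 5 430 431) (mv 495 (both (five 5 462 590) (mv 497 (both (five 3 462 498) (five 2 493 525))))))) (both (mv 589 (both (five 6 461 557) (mv 590 (both (five 6 493 621) (mv 591 (both (five 4 462 559) (five 4 494 623))))))) (mv 557 (both (five 6 461 589) (mv 527 (both (five 2 525 529) (mv 556 (both (five 2 524 525) (five 1 523 555)))))))))) (both (mv 558 (both (mv 589 (both (five 6 461 557) (mv 590 (both (five 6 493 621) (mv 591 (both (five 4 462 559) (five 4 494 623)))))))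 (both (mv 429 (both (five 7 429 461) (mv 397 (both (five 7 397 430) (mv 591 (both (five 4 462 559) (mv 590 (both (five 4 494 623) (mv 495 (both (five 5 462 463) (mv 621 (both (five 6 493 589) (mv 622 (both (five 5 494 527) (five 6 525 653))))))))))))))) (both (mv 429 (both (five 7 429 461) (mv 430 (both (five 7 397 397) (mv 557 (both (five 6 429 525) (five 6 461 589))))))) (mv 429 (both (five 7 429 461) (mv 397 (both (five 7 397 430) (mv 591 (both (five 4 462 559) (mv 590 (both (five 4 494 623) (mv 495 (both (five 5 462 463) (mv 527 (both (five 5 494 622) (mv 525 (both (five 1 492 524) (mv 557 (both (five 2 525 529) (five 2 524 556))))))))))))))))))))) (both (mv 558 (both (mv 429 (both (five 7 429 461) (mv 430 (both (five 7 397 397) (mv 431 (both (five 5 398 399) (five 5 430 463))))))) (both (mv 429 (both (five 7 429 461) (mv 430 (both (five 7 397 397) (mv 559 (both (five 4 430 527) (five 4 462 591))))))) (mv 591 (both (five 4 462 559) (mv 590 (both (five 4 494 623) (mv 495 (both (five 5 462 463) (mv 621 (both (five 6 493 589) (mv 622 (both (five 5 494 527) (five 6 525 653)))))))))))))) (mv 558 (both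 (mv 429 (both (five 7 429 461) (mv 430 (both (five 7 397 397) (mv 431 (both (five 5 398 399) (five 5 430 463))))))) (mv 557 (both (five 6 461 589) (mv 527 (both (five 2 525 529) (mv 556 (both (five 2 524 525) (five 1 523 555))))))))))))))) (both (mv 497 (both (mv 525 (both (five 2 493 495) (five 1 493 527))) (both (mv 465 (both (mv 433 (both (five 6 400 401) (mv 560 (both (five 6 432 529) (five 5 464 592))))) (mv 495 (both (five 1 462 466) (mv 462 (both (five 3 461 461) (mv 527 (both (five 2 494 498) (mv 430 (both (five 4 398 398) (five 4 430 559))))))))))) (both (mv 495 (both (five 2 493 525) (mv 465 (both (five 1 462 466) (mv 433 (both (five 6 400 401) (mv 560 (both (five 6 432 529) (five 5 464 592))))))))) (mv 527 (both (five 1 493 525) (mv 498 (both (five 2 495 499) (five 1 494 529))))))))) (mv 462 (both (mv 558 (both (mv 589 (both (five 6 461 557) (mv 590 (both (five 6 493 621) (mv 591 (both (five 4 462 559) (five 4 494 623))))))) (mv 429 (both (five 7 429 461) (mv 430 (both (five 7 397 397) (mv 431 (both (five 5 398 399) (five 5 430 463))))))))) (both (mv 558 (both (mv 589 (both (five 6 461 557)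 (mv 590 (both (five 6 493 621) (mv 591 (both (five 4 462 559) (five 4 494 623))))))) (mv 461 (both (five 7 429 429) (mv 463 (both (five 5 430 431) (mv 495 (both (five 0 460 460) (five 3 461 497))))))))) (both (mv 497 (both (mv 525 (both (five 2 493 495) (five 1 493 527))) (both (mv 525 (both (five 1 493 527) (mv 430 (both (five 6 429 557) (mv 397 (both (five 7 397 429) (mv 398 (both (five 7 365 365) (mv 399 (both (five 5 366 367) (five 5 398 431))))))))))) (mv 461 (both (five 3 461 495) (mv 429 (both (five 7 429 558) (mv 397 (both (five 4 365 365) (five 7 397 430)))))))))) (both (mv 527 (both (mv 525 (both (five 1 493 497) (mv 556 (both (five 2 524 557) (mv 524 (both (five 2 523 555) (mv 560 (both (five 0 524 559) (five 0 525 561))))))))) (both (mv 430 (both (five 4 430 559) (mv 397 (both (five 7 397 429) (mv 398 (both (five 7 365 365) (five 4 398 495))))))) (mv 497 (both (five 1 493 525) (mv 498 (both (five 2 494 495) (five 2 495 499)))))))) (both (mv 558 (both (mv 429 (both (five 7 429 461) (mv 430 (both (five 7 397 397) (mv 431 (both (five 5 398 399) (five 5 430 463))))))) (both (mv 429 (both (five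 7 429 461) (mv 430 (both (five 7 397 397) (mv 559 (both (five 4 430 527) (five 4 462 591))))))) (mv 591 (both (five 4 462 559) (mv 590 (both (five 4 494 623) (mv 495 (both (five 5 462 463) (mv 621 (both (five 6 493 589) (mv 622 (both (five 5 494 527) (five 6 525 653)))))))))))))) (mv 527 (both (mv 497 (both (five 1 493 525) (mv 498 (both (five 2 494 495) (five 2 495 499))))) (both (mv 430 (both (five 4 430 559) (mv 398 (both (five 4 398 495) (mv 399 (both (five 5 366 367) (five 5 398 431))))))) (mv 525 (both (five 1 493 497) (mv 556 (both (five 2 524 557) (mv 524 (both (five 2 523 555) (mv 560 (both (five 0 524 559) (five 0 525 561))))))))))))))))))))))))))) (both (mv 526 (both (mv 527 (both (ref 1) (both (mv 525 (both (mv 556 (both (five 2 524 557) (mv 524 (both (five 2 523 555) (mv 560 (both (five 0 524 559) (five 0 525 561))))))) (both (mv 557 (both (five 2 524 556) (mv 462 (both (five 6 429 430) (mv 558 (both (five 2 525 529) (five 6 461 589))))))) (mv 560 (both (five 0 525 561) (mv 559 (both (five 0 524 524) (mv 462 (both (five 4 430 430) (mv 591 (both (five 4 462 558) (five 7 494 623))))))))))))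 (both (mv 497 (both (five 1 493 525) (mv 498 (both (five 2 495 499) (five 1 494 529))))) (mv 525 (both (five 1 493 497) (mv 556 (both (five 2 524 557) (mv 524 (both (five 2 523 555) (mv 560 (both (five 0 524 559) (five 0 525 561))))))))))))) (both (mv 558 (both (mv 462 (both (mv 589 (both (five 6 461 557) (mv 590 (both (five 6 493 621) (mv 591 (both (five 4 462 559) (five 4 494 623))))))) (mv 429 (both (five 7 429 461) (mv 430 (both (five 7 397 397) (mv 431 (both (five 5 398 399) (five 5 430 463))))))))) (both (mv 590 (both (mv 621 (both (five 6 493 589) (mv 622 (both (five 6 525 653) (mv 623 (both (five 4 494 591) (five 4 526 655))))))) (both (mv 493 (both (five 7 461 461) (mv 621 (both (five 6 493 589) (mv 622 (both (five 7 493 525) (five 6 525 653))))))) (both (mv 493 (both (five 7 461 461) (mv 622 (both (five 7 493 525) (mv 623 (both (five 4 494 591) (five 4 526 655))))))) (mv 589 (both (five 6 493 621) (mv 559 (both (mv 461 (both (five 7 461 493) (mv 588 (both (five 1 555 587) (mv 591 (both (five 4 494 623) (mv 556 (both (five 3 555 555) (mv 557 (both (five 0 556 592) (mv 523 (both (five 3 523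 524) (mv 620 (both (five 2 587 619) (mv 652 (both (five 5 524 525) (five 5 556 684))))))))))))))))) (both (mv 461 (both (five 7 461 493) (mv 560 (both (five 2 557 561) (mv 557 (both (five 1 525 529) (mv 524 (both (five 3 524 525) (mv 556 (both (five 3 523 523) (mv 555 (both (five 0 554 554) (five 0 555 591))))))))))))) (both (mv 461 (both (five 7 461 493) (mv 560 (both (five 2 557 561) (mv 588 (both (five 1 555 587) (five 1 556 591))))))) (mv 560 (both (five 2 557 561) (mv 557 (both (five 1 525 529) (five 2 556 588))))))))))))))) (both (mv 462 (both (mv 557 (both (five 6 461 589) (mv 559 (both (five 4 462 591) (mv 560 (both (five 1 525 529) (mv 525 (both (five 3 524 524) (five 3 525 561))))))))) (mv 429 (both (five 7 429 461) (mv 430 (both (five 7 397 397) (mv 431 (both (five 5 398 399) (five 5 430 463))))))))) (both (mv 590 (both (mv 621 (both (five 6 493 589) (mv 622 (both (five 6 525 653) (mv 623 (both (five 4 494 591) (five 4 526 655))))))) (both (mv 493 (both (five 7 461 461) (mv 621 (both (five 6 493 589) (mv 622 (both (five 7 493 525) (five 6 525 653))))))) (mv 591 (both (five 4 494 623) (mv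 462 (both (five 4 462 559) (mv 429 (both (five 7 429 461) (mv 430 (both (five 7 397 397) (mv 431 (both (five 5 398 399) (five 5 430 463)))))))))))))) (both (mv 462 (both (mv 429 (both (five 7 429 461) (mv 430 (both (five 7 397 397) (mv 431 (both (five 5 398 399) (five 5 430 463))))))) (both (mv 431 (both (five 5 430 463) (mv 430 (both (five 5 398 399) (mv 397 (both (five 7 397 429) (mv 398 (both (five 7 365 365) (mv 525 (both (five 6 397 493) (five 6 429 557))))))))))) (both (mv 431 (both (five 5 430 463) (mv 430 (both (five 5 398 399) (mv 525 (both (five 6 429 557) (mv 493 (both (five 6 397 398) (mv 590 (both (five 7 461 461) (five 7 493 622))))))))))) (both (mv 429 (both (five 7 429 461) (mv 430 (both (five 7 397 397) (mv 525 (both (five 6 429 557) (mv 493 (both (five 6 397 398) (mv 590 (both (five 7 493 622) (mv 591 (both (five 4 462 559) (five 4 494 623))))))))))))) (mv 431 (both (five 5 430 463) (mv 461 (both (five 7 429 429) (mv 590 (both (five 7 461 493) (mv 591 (both (five 4 462 559) (five 4 494 623)))))))))))))) (both (mv 462 (both (mv 429 (both (five 7 429 461) (mv 430 (both (five 7 397 397)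 (mv 431 (both (five 5 398 399) (five 5 430 463))))))) (both (mv 431 (both (five 5 430 463) (mv 430 (both (five 5 398 399) (mv 397 (both (five 7 397 429) (mv 398 (both (five 7 365 365) (mv 525 (both (five 6 397 493) (five 6 429 557))))))))))) (both (mv 431 (both (five 5 430 463) (mv 430 (both (five 5 398 399) (mv 525 (both (five 6 429 557) (mv 493 (both (five 6 397 398) (mv 590 (both (five 7 461 461) (five 7 493 622))))))))))) (both (mv 429 (both (five 7 429 461) (mv 430 (both (five 7 397 397) (mv 557 (both (five 6 429 525) (five 6 461 589))))))) (mv 431 (both (five 5 430 463) (mv 461 (both (five 7 429 429) (mv 589 (both (five 6 461 557) (mv 590 (both (five 7 461 493) (five 6 493 621)))))))))))))) (mv 590 (both (mv 621 (both (five 6 493 589) (mv 622 (both (five 6 525 653) (mv 623 (both (five 4 494 591) (five 4 526 655))))))) (both (mv 621 (both (five 6 493 589) (mv 622 (both (five 6 525 653) (mv 525 (both (five 7 493 493) (mv 654 (both (five 7 525 557) (mv 655 (both (five 4 526 623) (five 4 558 687))))))))))) (both (mv 591 (both (five 4 494 623) (mv 462 (both (five 4 462 559) (mv 431 (both (five 5 430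 463) (mv 430 (both (five 5 398 399) (mv 397 (both (five 7 397 429) (mv 398 (both (five 7 365 365) (mv 525 (both (five 6 397 493) (five 6 429 557))))))))))))))) (mv 621 (both (five 6 493 589) (mv 622 (both (five 6 525 653) (mv 525 (both (five 7 493 493) (mv 557 (both (five 7 525 654) (mv 462 (both (five 6 429 430) (mv 431 (both (five 5 430 463) (mv 559 (both (five 4 462 591) (mv 524 (both (five 0 523 523) (five 3 524 560)))))))))))))))))))))))))))) (both (mv 462 (both (mv 558 (both (mv 589 (both (five 6 461 557) (mv 590 (both (five 6 493 621) (mv 591 (both (five 4 462 559) (five 4 494 623))))))) (mv 429 (both (five 7 429 461) (mv 430 (both (five 7 397 397) (mv 431 (both (five 5 398 399) (five 5 430 463))))))))) (both (mv 430 (both (mv 397 (both (five 7 397 429) (mv 398 (both (five 7 365 365) (mv 399 (both (five 5 366 367) (five 5 398 431))))))) (mv 527 (both (five 4 430 559) (mv 529 (both (five 3 493 493) (mv 497 (both (five 1 494 498) (mv 561 (both (five 0 526 562) (mv 593 (both (five 7 496 625) (mv 592 (both (five 6 496 624) (mv 465 (both (five 5 464 560) (mv 433 (both (five 6 400 401) (mv 434 (both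 (five 5 401 402) (five 5 433 466))))))))))))))))))))) (both (mv 558 (both (mv 589 (both (five 6 461 557) (mv 590 (both (five 6 493 621) (mv 591 (both (five 4 462 559) (five 4 494 623))))))) (both (mv 461 (both (five 7 429 429) (mv 590 (both (five 7 461 493) (mv 591 (both (five 4 462 559) (five 4 494 623))))))) (both (mv 461 (both (five 7 429 429) (mv 589 (both (five 6 461 557) (mv 590 (both (five 7 461 493) (five 6 493 621))))))) (mv 429 (both (five 7 429 461) (mv 431 (both (five 5 430 463) (mv 557 (both (five 6 461 589) (mv 527 (both (five 2 525 529) (mv 556 (both (five 1 523 555) (five 1 524 559))))))))))))))) (both (mv 431 (both (mv 399 (both (five 5 398 430) (mv 463 (both (five 6 366 367) (five 5 430 558))))) (both (mv 430 (both (five 5 398 399) (mv 461 (both (mv 432 (both (five 2 429 433) (mv 460 (both (five 1 427 459) (five 1 428 463))))) (both (mv 397 (both (five 7 397 429) (mv 398 (both (five 7 365 365) (mv 366 (both (five 6 365 493) (mv 334 (both (five 4 334 463) (mv 335 (both (five 5 302 303) (five 5 334 367))))))))))) (mv 429 (both (five 7 397 397) (mv 432 (both (five 2 429 433) (five 2 428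 460)))))))))) (both (mv 558 (both (five 5 430 463) (mv 461 (both (five 7 429 429) (mv 589 (both (five 6 461 557) (mv 590 (both (five 7 461 493) (five 6 493 621))))))))) (mv 430 (both (five 5 398 399) (mv 429 (both (five 7 397 397) (mv 461 (both (five 7 429 558) (mv 432 (both (five 2 429 433) (five 2 428 460))))))))))))) (mv 527 (both (mv 529 (both (five 3 493 493) (mv 497 (both (five 1 494 498) (mv 561 (both (five 0 526 562) (mv 593 (both (five 7 496 625) (mv 592 (both (five 6 496 624) (mv 465 (both (five 5 464 560) (mv 433 (both (five 6 400 401) (mv 434 (both (five 5 401 402) (five 5 433 466))))))))))))))))) (mv 559 (both (five 4 430 430) (mv 591 (both (five 4 462 558) (five 7 494 623)))))))))))) (both (mv 527 (both (mv 529 (both (five 3 493 493) (mv 497 (both (five 1 494 498) (mv 561 (both (five 0 526 562) (mv 593 (both (five 7 496 625) (mv 592 (both (five 6 496 624) (mv 465 (both (five 5 464 560) (mv 433 (both (five 6 400 401) (mv 434 (both (five 5 401 402) (five 5 433 466))))))))))))))))) (both (mv 493 (both (five 3 493 529) (mv 492 (both (five 0 491 491) (five 3 492 525))))) (mv 525 (both (five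 1 493 497) (mv 556 (both (five 2 524 557) (mv 524 (both (five 2 523 555) (mv 560 (both (five 0 524 559) (five 0 525 561)))))))))))) (both (mv 462 (both (mv 430 (both (mv 397 (both (five 7 397 429) (mv 398 (both (five 7 365 365) (mv 399 (both (five 5 366 367) (five 5 398 431))))))) (mv 525 (both (five 6 429 557) (mv 527 (both (five 1 493 497) (five 4 430 559))))))) (both (mv 558 (both (mv 589 (both (five 6 461 557) (mv 590 (both (five 6 493 621) (mv 591 (both (five 4 462 559) (five 4 494 623))))))) (both (mv 461 (both (five 7 429 429) (mv 590 (both (five 7 461 493) (mv 591 (both (five 4 462 559) (five 4 494 623))))))) (both (mv 461 (both (five 7 429 429) (mv 589 (both (five 6 461 557) (mv 590 (both (five 7 461 493) (five 6 493 621))))))) (mv 429 (both (five 7 429 461) (mv 431 (both (five 5 430 463) (mv 557 (both (five 6 461 589) (mv 559 (both (five 4 462 591) (mv 527 (both (five 1 524 556) (mv 525 (both (five 1 493 497) (mv 524 (both (five 0 523 523) (five 3 524 560))))))))))))))))))) (both (mv 430 (both (mv 397 (both (five 7 397 429) (mv 398 (both (five 7 365 365) (mv 399 (both (five 5 366 367) (five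 5 398 431))))))) (both (mv 399 (both (five 5 398 431) (mv 398 (both (five 5 366 367) (mv 525 (both (five 6 397 493) (mv 527 (both (five 1 493 497) (five 4 430 559))))))))) (both (mv 397 (both (five 7 397 429) (mv 398 (both (five 7 365 365) (mv 525 (both (five 6 397 493) (mv 527 (both (five 1 493 497) (five 4 430 559))))))))) (mv 397 (both (five 7 397 429) (mv 431 (both (five 5 398 399) (mv 463 (both (five 5 430 558) (mv 527 (both (five 4 430 559) (mv 525 (both (five 1 493 497) (mv 492 (both (five 3 492 493) (mv 524 (both (five 3 491 491) (mv 555 (both (five 2 523 556) (mv 523 (both (five 2 522 554) (mv 460 (both (five 6 427 428) (mv 461 (both (five 1 428 432) (five 1 427 459))))))))))))))))))))))))))) (both (mv 431 (both (mv 399 (both (five 5 398 430) (mv 463 (both (five 6 366 367) (five 5 430 558))))) (both (mv 430 (both (five 5 398 399) (mv 461 (both (mv 432 (both (five 2 429 433) (mv 460 (both (five 1 427 459) (five 1 428 463))))) (both (mv 397 (both (five 7 397 429) (mv 398 (both (five 7 365 365) (mv 366 (both (five 6 365 493) (mv 334 (both (five 4 334 463) (mv 335 (both (five 5 302 303) (five 5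 334 367))))))))))) (mv 429 (both (five 7 397 397) (mv 432 (both (five 2 429 433) (five 2 428 460)))))))))) (both (mv 558 (both (five 5 430 463) (mv 461 (both (five 7 429 429) (mv 589 (both (five 6 461 557) (mv 590 (both (five 7 461 493) (five 6 493 621))))))))) (mv 430 (both (five 5 398 399) (mv 429 (both (five 7 397 397) (mv 461 (both (five 7 429 558) (mv 432 (both (five 2 429 433) (five 2 428 460))))))))))))) (both (mv 558 (both (mv 589 (both (five 6 461 557) (mv 590 (both (five 6 493 621) (mv 591 (both (five 4 462 559) (five 4 494 623))))))) (both (mv 431 (both (five 5 430 463) (mv 399 (both (five 5 398 430) (mv 591 (both (five 4 462 559) (mv 590 (both (five 4 494 623) (mv 493 (both (five 7 461 461) (mv 621 (both (five 6 493 589) (mv 622 (both (five 7 493 525) (five 6 525 653))))))))))))))) (both (mv 431 (both (five 5 430 463) (mv 430 (both (five 5 398 399) (mv 525 (both (five 6 429 557) (mv 493 (both (five 6 397 398) (mv 590 (both (five 7 461 461) (five 7 493 622))))))))))) (mv 557 (both (five 6 461 589) (mv 559 (both (five 4 462 591) (mv 527 (both (five 1 524 556) (mv 525 (both (five 1 493 497)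 (mv 524 (both (five 0 523 523) (five 3 524 560))))))))))))))) (mv 558 (both (mv 589 (both (five 6 461 557) (mv 590 (both (five 6 493 621) (mv 591 (both (five 4 462 559) (five 4 494 623))))))) (both (mv 429 (both (five 7 429 461) (mv 430 (both (five 7 397 397) (mv 559 (both (five 4 430 527) (five 4 462 591))))))) (mv 429 (both (five 7 429 461) (mv 430 (both (five 7 397 397) (mv 557 (both (five 6 429 525) (five 6 461 589)))))))))))))))) (both (mv 527 (both (mv 497 (both (five 1 493 525) (mv 498 (both (five 2 495 499) (five 1 494 529))))) (both (mv 529 (both (five 3 493 493) (mv 497 (both (five 1 494 498) (mv 558 (both (five 2 525 557) (mv 561 (both (five 0 526 562) (mv 593 (both (five 7 496 625) (mv 592 (both (five 6 496 624) (mv 594 (both (five 4 497 626) (mv 591 (both (five 3 558 559) (mv 623 (both (five 4 494 590) (five 2 590 622))))))))))))))))))) (both (mv 525 (both (five 1 493 497) (mv 492 (both (five 3 492 493) (mv 491 (both (five 3 491 524) (mv 557 (both (five 2 524 556) (mv 462 (both (five 6 429 430) (mv 589 (both (five 6 461 558) (five 5 493 621))))))))))))) (mv 493 (both (five 3 493 529) (mv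 492 (both (five 0 491 491) (five 3 492 525))))))))) (both (mv 527 (both (mv 529 (both (five 3 493 493) (mv 497 (both (five 1 494 498) (mv 561 (both (five 0 526 562) (mv 593 (both (five 7 496 625) (mv 592 (both (five 6 496 624) (mv 465 (both (five 5 464 560) (mv 433 (both (five 6 400 401) (mv 434 (both (five 5 401 402) (five 5 433 466))))))))))))))))) (both (mv 493 (both (five 3 493 529) (mv 492 (both (five 0 491 491) (five 3 492 525))))) (mv 525 (both (five 1 493 497) (mv 560 (both (five 0 525 561) (mv 559 (both (five 0 524 524) (mv 462 (both (five 4 430 430) (mv 591 (both (five 4 462 558) (five 7 494 623)))))))))))))) (mv 527 (both (mv 497 (both (five 1 493 525) (mv 498 (both (five 2 495 499) (five 1 494 529))))) (both (mv 529 (both (five 3 493 493) (mv 497 (both (five 1 494 498) (mv 561 (both (five 0 526 562) (mv 593 (both (five 7 496 625) (mv 592 (both (five 6 496 624) (mv 465 (both (five 5 464 560) (mv 433 (both (five 6 400 401) (mv 434 (both (five 5 401 402) (five 5 433 466))))))))))))))))) (both (mv 525 (both (five 1 493 497) (mv 492 (both (five 3 492 493) (mv 491 (both (five 3 491 524) (mv 557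 (both (five 2 524 556) (mv 462 (both (five 6 429 430) (mv 589 (both (five 6 461 558) (five 5 493 621))))))))))))) (mv 493 (both (five 3 493 529) (mv 492 (both (five 0 491 491) (five 3 492 525))))))))))))))))) (both (mv 526 (both (ref 0) (both (mv 558 (both (mv 462 (both (mv 557 (both (five 6 461 589) (mv 559 (both (five 4 462 591) (mv 560 (both (five 1 525 529) (mv 525 (both (five 3 524 524) (five 3 525 561))))))))) (mv 429 (both (five 7 429 461) (mv 430 (both (five 7 397 397) (mv 431 (both (five 5 398 399) (five 5 430 463))))))))) (both (mv 590 (both (mv 621 (both (five 6 493 589) (mv 622 (both (five 6 525 653) (mv 623 (both (five 4 494 591) (five 4 526 655))))))) (mv 493 (both (five 7 461 461) (mv 495 (both (five 5 462 463) (five 0 493 529))))))) (both (mv 590 (both (mv 621 (both (five 6 493 589) (mv 622 (both (five 6 525 653) (mv 623 (both (five 4 494 591) (five 4 526 655))))))) (both (mv 621 (both (five 6 493 589) (mv 622 (both (five 6 525 653) (mv 525 (both (five 7 493 493) (mv 654 (both (five 7 525 557) (mv 655 (both (five 4 526 623) (five 4 558 687))))))))))) (both (mv 591 (both (five 4 494 623)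 (mv 462 (both (five 4 462 559) (mv 431 (both (five 5 430 463) (mv 430 (both (five 5 398 399) (mv 397 (both (five 7 397 429) (mv 398 (both (five 7 365 365) (mv 525 (both (five 6 397 493) (five 6 429 557))))))))))))))) (mv 621 (both (five 6 493 589) (mv 622 (both (five 6 525 653) (mv 525 (both (five 7 493 493) (mv 557 (both (five 7 525 654) (mv 462 (both (five 6 429 430) (mv 431 (both (five 5 430 463) (mv 559 (both (five 4 462 591) (mv 524 (both (five 0 523 523) (five 3 524 560))))))))))))))))))))) (both (mv 591 (both (mv 462 (both (five 4 462 559) (mv 429 (both (five 7 429 461) (mv 430 (both (five 7 397 397) (mv 557 (both (five 6 429 525) (five 6 461 589))))))))) (both (mv 623 (both (five 4 494 590) (mv 559 (both (five 7 526 655) (mv 560 (both (five 6 495 592) (mv 525 (both (five 3 525 561) (mv 524 (both (five 0 523 523) (five 3 524 557))))))))))) (both (mv 590 (both (five 4 494 623) (mv 589 (both (five 6 493 621) (mv 557 (both (five 6 461 462) (mv 556 (both (five 0 555 555) (five 3 556 592))))))))) (mv 559 (both (five 4 462 462) (mv 623 (both (five 4 494 590) (five 7 526 655))))))))) (both (mv 462 (both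 (mv 429 (both (five 7 429 461) (mv 430 (both (five 7 397 397) (mv 431 (both (five 5 398 399) (five 5 430 463))))))) (both (mv 431 (both (five 5 430 463) (mv 430 (both (five 5 398 399) (mv 397 (both (five 7 397 429) (mv 398 (both (five 7 365 365) (mv 525 (both (five 6 397 493) (five 6 429 557))))))))))) (both (mv 431 (both (five 5 430 463) (mv 430 (both (five 5 398 399) (mv 525 (both (five 6 429 557) (mv 493 (both (five 6 397 398) (mv 590 (both (five 7 461 461) (five 7 493 622))))))))))) (both (mv 429 (both (five 7 429 461) (mv 430 (both (five 7 397 397) (mv 525 (both (five 6 429 557) (mv 493 (both (five 6 397 398) (mv 590 (both (five 7 493 622) (mv 591 (both (five 4 462 559) (five 4 494 623))))))))))))) (mv 431 (both (five 5 430 463) (mv 461 (both (five 7 429 429) (mv 590 (both (five 7 461 493) (mv 591 (both (five 4 462 559) (five 4 494 623)))))))))))))) (mv 462 (both (mv 429 (both (five 7 429 461) (mv 430 (both (five 7 397 397) (mv 431 (both (five 5 398 399) (five 5 430 463))))))) (both (mv 431 (both (five 5 430 463) (mv 430 (both (five 5 398 399) (mv 397 (both (five 7 397 429) (mv 398 (both (five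 7 365 365) (mv 525 (both (five 6 397 493) (five 6 429 557))))))))))) (both (mv 431 (both (five 5 430 463) (mv 430 (both (five 5 398 399) (mv 525 (both (five 6 429 557) (mv 493 (both (five 6 397 398) (mv 590 (both (five 7 461 461) (five 7 493 622))))))))))) (both (mv 429 (both (five 7 429 461) (mv 430 (both (five 7 397 397) (mv 557 (both (five 6 429 525) (five 6 461 589))))))) (mv 431 (both (five 5 430 463) (mv 461 (both (five 7 429 429) (mv 589 (both (five 6 461 557) (mv 590 (both (five 7 461 493) (five 6 493 621)))))))))))))))))))) (both (mv 527 (both (mv 493 (both (five 3 493 529) (mv 492 (both (five 0 491 491) (five 3 492 525))))) (both (mv 525 (both (mv 556 (both (five 2 524 557) (mv 524 (both (five 2 523 555) (mv 560 (both (five 0 524 559) (five 0 525 561))))))) (both (mv 560 (both (five 0 525 561) (mv 559 (both (five 0 524 524) (mv 462 (both (five 4 430 430) (mv 591 (both (five 4 462 558) (five 7 494 623))))))))) (mv 557 (both (five 2 524 556) (mv 462 (both (five 6 429 430) (mv 589 (both (five 6 461 558) (five 5 493 621)))))))))) (mv 591 (both (mv 529 (both (five 3 493 493) (mv 558 (both (five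 2 525 557) (mv 561 (both (five 0 526 562) (mv 590 (both (five 4 494 623) (mv 589 (both (five 6 493 621) (mv 592 (both (five 1 557 560) (mv 625 (both (five 7 496 593) (five 0 589 624))))))))))))))) (both (mv 529 (both (five 3 493 493) (mv 558 (both (five 2 525 557) (mv 462 (both (five 4 462 559) (mv 429 (both (five 7 429 461) (mv 430 (both (five 7 397 397) (mv 431 (both (five 5 398 399) (five 5 430 463))))))))))))) (both (mv 559 (both (five 7 494 623) (mv 462 (both (five 4 430 430) (five 4 462 558))))) (mv 529 (both (five 3 493 493) (mv 561 (both (five 0 526 562) (mv 593 (both (five 7 496 625) (mv 623 (both (five 7 494 559) (mv 592 (both (five 6 495 560) (mv 594 (both (five 2 590 622) (mv 595 (both (five 2 591 624) (mv 627 (both (five 0 591 626) (five 0 592 628)))))))))))))))))))))))) (both (mv 493 (both (mv 529 (both (five 0 493 495) (five 3 493 527))) (both (mv 495 (both (five 0 493 529) (mv 460 (both (five 3 460 461) (mv 492 (both (five 3 459 459) (mv 524 (both (five 2 491 523) (five 2 492 525))))))))) (both (mv 527 (both (five 3 493 529) (mv 492 (both (five 0 491 491) (five 3 492 525))))) (mv 525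 (both (mv 492 (both (five 3 492 527) (mv 490 (both (five 0 490 491) (mv 495 (both (five 2 492 524) (mv 460 (both (five 3 459 459) (five 3 460 461))))))))) (both (mv 495 (both (five 2 492 524) (mv 460 (both (five 3 460 461) (mv 492 (both (five 3 459 459) (mv 396 (both (five 4 396 428) (mv 491 (both (five 0 490 490) (mv 462 (both (five 1 459 463) (mv 430 (both (five 6 429 557) (mv 397 (both (five 7 397 429) (mv 398 (both (five 7 365 365) (mv 399 (both (five 5 366 367) (five 5 398 431))))))))))))))))))))) (both (mv 492 (both (five 3 492 527) (mv 491 (both (five 0 490 490) (mv 462 (both (five 1 459 463) (mv 430 (both (five 6 429 557) (mv 397 (both (five 7 397 429) (mv 398 (both (five 7 365 365) (mv 399 (both (five 5 366 367) (five 5 398 431))))))))))))))) (mv 495 (both (five 2 492 524) (mv 461 (both (five 3 460 460) (mv 429 (both (five 4 397 397) (mv 396 (both (five 7 396 428) (mv 430 (both (five 5 397 398) (mv 462 (both (five 5 429 557) (mv 399 (both (five 5 398 431) (mv 527 (both (five 4 430 559) (mv 560 (both (five 0 525 561) (mv 592 (both (five 7 463 463) (five 7 495 624)))))))))))))))))))))))))))))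 (both (mv 558 (both (mv 590 (both (mv 621 (both (five 6 493 589) (mv 622 (both (five 6 525 653) (mv 623 (both (five 4 494 591) (five 4 526 655))))))) (mv 493 (both (five 7 461 461) (mv 495 (both (five 5 462 463) (five 0 493 529))))))) (both (mv 462 (both (mv 429 (both (five 7 429 461) (mv 430 (both (five 7 397 397) (mv 431 (both (five 5 398 399) (five 5 430 463))))))) (mv 557 (both (five 6 461 589) (mv 527 (both (five 2 525 529) (mv 556 (both (five 1 523 555) (five 1 524 559))))))))) (both (mv 493 (both (mv 529 (both (five 0 493 495) (five 3 493 527))) (mv 461 (both (five 7 461 590) (mv 429 (both (five 4 397 397) (five 7 429 462))))))) (mv 590 (both (mv 621 (both (five 6 493 589) (mv 622 (both (five 6 525 653) (mv 623 (both (five 4 494 591) (five 4 526 655))))))) (both (mv 495 (both (five 5 462 463) (mv 621 (both (five 6 493 589) (mv 622 (both (five 5 494 527) (five 6 525 653))))))) (mv 463 (both (five 5 462 495) (mv 462 (both (five 5 430 431) (mv 591 (both (five 4 462 559) (five 4 494 623)))))))))))))) (both (mv 558 (both (mv 590 (both (mv 621 (both (five 6 493 589) (mv 622 (both (five 6 525 653) (mv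 623 (both (five 4 494 591) (five 4 526 655))))))) (both (mv 495 (both (five 5 462 463) (mv 621 (both (five 6 493 589) (mv 622 (both (five 5 494 527) (five 6 525 653))))))) (mv 463 (both (five 5 462 495) (mv 462 (both (five 5 430 431) (mv 591 (both (five 4 462 559) (five 4 494 623)))))))))) (both (mv 462 (both (mv 429 (both (five 7 429 461) (mv 430 (both (five 7 397 397) (mv 431 (both (five 5 398 399) (five 5 430 463))))))) (mv 557 (both (five 6 461 589) (mv 559 (both (five 4 462 591) (mv 556 (both (five 1 524 527) (mv 523 (both (five 3 523 524) (mv 555 (both (five 3 522 522) (mv 587 (both (five 2 554 586) (five 2 555 588))))))))))))))) (both (mv 590 (both (mv 495 (both (five 5 462 463) (mv 621 (both (five 6 493 589) (mv 622 (both (five 5 494 527) (five 6 525 653))))))) (both (mv 493 (both (five 7 461 461) (mv 622 (both (five 7 493 525) (mv 623 (both (five 4 494 591) (five 4 526 655))))))) (mv 493 (both (five 7 461 461) (mv 495 (both (five 5 462 463) (mv 492 (both (five 0 492 527) (mv 524 (both (five 2 491 523) (five 2 492 525)))))))))))) (both (mv 462 (both (mv 429 (both (five 7 429 461) (mv 430 (both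 (five 7 397 397) (mv 431 (both (five 5 398 399) (five 5 430 463))))))) (both (mv 431 (both (five 5 430 463) (mv 430 (both (five 5 398 399) (mv 397 (both (five 7 397 429) (mv 398 (both (five 7 365 365) (mv 525 (both (five 6 397 493) (five 6 429 557))))))))))) (both (mv 431 (both (five 5 430 463) (mv 430 (both (five 5 398 399) (mv 525 (both (five 6 429 557) (mv 493 (both (five 6 397 398) (mv 590 (both (five 7 461 461) (five 7 493 622))))))))))) (both (mv 429 (both (five 7 429 461) (mv 430 (both (five 7 397 397) (mv 557 (both (five 6 429 525) (five 6 461 589))))))) (mv 431 (both (five 5 430 463) (mv 461 (both (five 7 429 429) (mv 589 (both (five 6 461 557) (mv 590 (both (five 7 461 493) (five 6 493 621)))))))))))))) (both (mv 591 (both (mv 462 (both (five 4 462 559) (mv 429 (both (five 7 429 461) (mv 430 (both (five 7 397 397) (mv 557 (both (five 6 429 525) (five 6 461 589))))))))) (both (mv 623 (both (five 4 494 590) (mv 559 (both (five 7 526 655) (mv 560 (both (five 6 495 592) (mv 525 (both (five 3 525 561) (mv 524 (both (five 0 523 523) (five 3 524 557))))))))))) (both (mv 590 (both (five 4 494 623)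 (mv 589 (both (five 6 493 621) (mv 557 (both (five 6 461 462) (mv 556 (both (five 0 555 555) (five 3 556 592))))))))) (mv 559 (both (five 4 462 462) (mv 623 (both (five 4 494 590) (five 7 526 655))))))))) (mv 462 (both (mv 429 (both (five 7 429 461) (mv 430 (both (five 7 397 397) (mv 431 (both (five 5 398 399) (five 5 430 463))))))) (both (mv 431 (both (five 5 430 463) (mv 430 (both (five 5 398 399) (mv 397 (both (five 7 397 429) (mv 398 (both (five 7 365 365) (mv 525 (both (five 6 397 493) (five 6 429 557))))))))))) (both (mv 431 (both (five 5 430 463) (mv 430 (both (five 5 398 399) (mv 525 (both (five 6 429 557) (mv 493 (both (five 6 397 398) (mv 590 (both (five 7 461 461) (five 7 493 622))))))))))) (both (mv 429 (both (five 7 429 461) (mv 430 (both (five 7 397 397) (mv 525 (both (five 6 429 557) (mv 493 (both (five 6 397 398) (mv 590 (both (five 7 493 622) (mv 591 (both (five 4 462 559) (five 4 494 623))))))))))))) (mv 431 (both (five 5 430 463) (mv 461 (both (five 7 429 429) (mv 590 (both (five 7 461 493) (mv 591 (both (five 4 462 559) (five 4 494 623)))))))))))))))))))) (both (mv 493 (both (mv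 529 (both (five 0 493 495) (five 3 493 527))) (both (mv 527 (both (five 3 493 529) (mv 492 (both (five 0 491 491) (five 3 492 525))))) (both (mv 495 (both (five 0 493 529) (mv 460 (both (five 3 460 461) (mv 492 (both (five 3 459 459) (mv 524 (both (five 2 491 523) (five 2 492 525))))))))) (mv 495 (both (mv 492 (both (five 0 492 527) (mv 524 (both (five 2 491 523) (five 2 492 525))))) (both (mv 461 (both (five 3 460 460) (mv 429 (both (five 4 397 397) (mv 525 (both (five 2 492 524) (five 4 429 558))))))) (mv 460 (both (five 3 460 461) (mv 492 (both (five 3 459 459) (five 0 492 527)))))))))))) (mv 527 (both (mv 525 (both (mv 556 (both (five 2 524 557) (mv 524 (both (five 2 523 555) (mv 560 (both (five 0 524 559) (five 0 525 561))))))) (both (mv 560 (both (five 0 525 561) (mv 559 (both (five 0 524 524) (mv 462 (both (five 4 430 430) (mv 591 (both (five 4 462 558) (five 7 494 623))))))))) (mv 557 (both (five 2 524 556) (mv 462 (both (five 6 429 430) (mv 589 (both (five 6 461 558) (five 5 493 621)))))))))) (mv 493 (both (five 3 493 529) (mv 492 (both (five 0 491 491) (five 0 492 495))))))))))))))) (both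 (mv 495 (both (mv 493 (both (five 0 493 529) (mv 492 (both (five 0 492 527) (mv 524 (both (five 2 491 523) (five 2 492 525))))))) (both (mv 497 (both (mv 465 (both (five 1 462 466) (mv 433 (both (five 6 400 401) (mv 560 (both (five 6 432 529) (five 5 464 592))))))) (both (mv 462 (both (five 3 461 461) (mv 463 (both (five 3 462 498) (mv 431 (both (five 4 399 399) (mv 560 (both (five 4 431 527) (five 7 463 592))))))))) (mv 461 (both (five 3 461 462) (mv 466 (both (five 1 462 465) (mv 498 (both (five 1 463 467) (mv 499 (both (five 2 495 527) (mv 500 (both (five 2 496 529) (mv 532 (both (five 0 496 531) (five 0 497 533)))))))))))))))) (both (mv 493 (both (mv 492 (both (five 0 492 527) (mv 524 (both (five 2 491 523) (five 2 492 525))))) (both (mv 461 (both (five 3 460 460) (mv 462 (both (five 3 461 497) (mv 525 (both (five 2 492 524) (mv 430 (both (five 6 397 398) (five 5 429 557))))))))) (mv 460 (both (five 3 460 461) (mv 492 (both (five 3 459 459) (five 0 492 527)))))))) (mv 493 (both (five 0 493 529) (mv 460 (both (five 3 460 461) (mv 492 (both (five 3 459 459) (mv 524 (both (five 2 491 523) (five 2 492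 525))))))))))))) (both (mv 495 (both (mv 493 (both (five 0 493 529) (mv 460 (both (five 3 460 461) (mv 492 (both (five 3 459 459) (mv 524 (both (five 2 491 523) (five 2 492 525))))))))) (both (mv 497 (both (mv 465 (both (five 1 462 466) (mv 433 (both (five 6 400 401) (mv 560 (both (five 6 432 529) (five 5 464 592))))))) (mv 462 (both (five 3 461 461) (mv 463 (both (five 3 462 498) (mv 431 (both (five 4 399 399) (mv 526 (both (five 2 493 525) (five 5 430 558))))))))))) (both (mv 525 (both (mv 497 (both (five 2 493 526) (mv 462 (both (five 3 461 461) (mv 466 (both (five 1 462 465) (mv 498 (both (five 3 462 463) (five 1 463 467))))))))) (both (mv 493 (both (five 2 492 524) (mv 462 (both (mv 430 (both (five 6 397 398) (mv 557 (both (five 6 429 526) (five 5 461 589))))) (both (mv 460 (both (five 3 460 461) (mv 492 (both (five 3 459 459) (mv 396 (both (five 4 396 428) (mv 491 (both (five 1 459 463) (mv 490 (both (five 0 490 526) (mv 522 (both (five 2 489 521) (five 2 490 523))))))))))))) (mv 430 (both (five 6 397 398) (mv 461 (both (five 3 460 460) (five 5 429 557)))))))))) (both (mv 493 (both (five 2 492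 524) (mv 461 (both (five 3 460 460) (mv 462 (both (five 3 461 497) (mv 430 (both (five 6 397 398) (five 5 429 557))))))))) (mv 524 (both (five 2 492 493) (mv 526 (both (five 2 493 497) (five 1 491 523))))))))) (both (mv 525 (both (mv 524 (both (five 2 492 493) (mv 526 (both (five 2 493 497) (five 1 491 523))))) (both (mv 497 (both (five 2 493 526) (mv 465 (both (five 1 462 466) (mv 433 (both (five 6 400 401) (mv 560 (both (five 6 432 529) (five 5 464 592))))))))) (mv 493 (both (five 2 492 524) (five 0 493 529)))))) (mv 497 (both (mv 465 (both (five 1 462 466) (mv 433 (both (five 6 400 401) (mv 560 (both (five 6 432 529) (five 5 464 592))))))) (both (mv 461 (both (five 3 461 462) (mv 493 (both (five 3 460 460) (five 0 493 529))))) (mv 462 (both (five 3 461 461) (mv 466 (both (five 1 462 465) (mv 498 (both (five 3 462 463) (five 1 463 467))))))))))))))) (both (mv 495 (both (mv 493 (both (mv 492 (both (five 0 492 527) (mv 524 (both (five 2 491 523) (five 2 492 525))))) (both (mv 461 (both (five 3 460 460) (mv 462 (both (five 3 461 497) (mv 525 (both (five 2 492 524) (mv 430 (both (five 6 397 398) (five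 5 429 557))))))))) (mv 460 (both (five 3 460 461) (mv 492 (both (five 3 459 459) (five 0 492 527)))))))) (both (mv 493 (both (mv 492 (both (five 0 492 527) (mv 524 (both (five 2 491 523) (five 2 492 525))))) (both (mv 461 (both (five 3 460 460) (mv 429 (both (mv 397 (both (five 4 397 526) (mv 364 (both (five 7 364 396) (mv 365 (both (five 7 332 332) (five 4 365 462))))))) (both (mv 525 (both (five 2 492 524) (mv 430 (both (five 5 397 398) (mv 557 (both (five 5 429 462) (mv 556 (both (five 6 460 588) (mv 558 (both (five 4 461 590) (mv 559 (both (five 1 524 527) (mv 592 (both (five 0 556 591) (mv 560 (both (five 7 463 463) (five 0 557 593))))))))))))))))) (mv 397 (both (five 4 397 526) (mv 364 (both (five 7 364 396) (mv 332 (both (five 7 332 365) (mv 398 (both (five 5 365 366) (mv 525 (both (five 5 397 430) (five 2 492 524)))))))))))))))) (both (mv 460 (both (five 3 460 461) (mv 492 (both (five 3 459 459) (mv 524 (both (five 2 491 523) (five 2 492 525))))))) (mv 460 (both (five 3 460 461) (mv 492 (both (five 3 459 459) (five 0 492 527))))))))) (both (mv 525 (both (mv 497 (both (five 2 493 526) (mv 462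 (both (five 3 461 461) (mv 466 (both (five 1 462 465) (mv 498 (both (five 3 462 463) (five 1 463 467))))))))) (both (mv 493 (both (five 2 492 524) (mv 462 (both (mv 430 (both (five 6 397 398) (mv 557 (both (five 6 429 526) (five 5 461 589))))) (both (mv 460 (both (five 3 460 461) (mv 492 (both (five 3 459 459) (mv 396 (both (five 4 396 428) (mv 491 (both (five 1 459 463) (mv 490 (both (five 0 490 526) (mv 522 (both (five 2 489 521) (five 2 490 523))))))))))))) (mv 430 (both (five 6 397 398) (mv 461 (both (five 3 460 460) (five 5 429 557)))))))))) (both (mv 493 (both (five 2 492 524) (mv 461 (both (five 3 460 460) (mv 462 (both (five 3 461 497) (mv 430 (both (five 6 397 398) (five 5 429 557))))))))) (mv 524 (both (five 2 492 493) (mv 526 (both (five 2 493 497) (five 1 491 523))))))))) (both (mv 493 (both (mv 492 (both (five 0 492 527) (mv 524 (both (five 2 491 523) (five 2 492 525))))) (both (mv 461 (both (five 3 460 460) (mv 525 (both (five 2 492 524) (mv 526 (both (five 2 493 497) (mv 429 (both (five 4 397 397) (five 4 429 558))))))))) (mv 460 (both (five 3 460 461) (mv 492 (both (five 3 459 459) (five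 0 492 527)))))))) (both (mv 497 (both (mv 462 (both (five 3 461 461) (mv 466 (both (five 1 462 465) (mv 498 (both (five 3 462 463) (five 1 463 467))))))) (both (mv 466 (both (five 1 462 465) (mv 498 (both (five 1 463 467) (mv 527 (both (five 2 495 499) (five 2 494 526))))))) (both (mv 462 (both (five 3 461 461) (mv 463 (both (five 3 462 498) (mv 431 (both (five 4 399 399) (mv 560 (both (five 4 431 527) (five 7 463 592))))))))) (mv 493 (both (mv 465 (both (five 1 462 466) (mv 401 (both (five 6 400 433) (mv 492 (both (five 0 492 527) (mv 459 (both (five 3 459 460) (mv 491 (both (five 3 458 458) (mv 523 (both (five 2 490 522) (five 2 491 524))))))))))))) (both (mv 461 (both (five 3 460 460) (five 3 461 462))) (mv 462 (both (five 3 461 461) (mv 465 (both (five 1 462 466) (mv 401 (both (five 6 400 433) (mv 492 (both (five 0 492 527) (mv 491 (both (five 1 459 463) (mv 523 (both (five 2 490 522) (five 2 491 524)))))))))))))))))))) (both (mv 463 (both (mv 431 (both (five 4 399 399) (mv 560 (both (five 4 431 527) (five 7 463 592))))) (both (mv 497 (both (mv 466 (both (five 1 462 465) (mv 498 (both (five 1 463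 467) (mv 526 (both (five 2 493 525) (five 2 494 527))))))) (both (mv 465 (both (five 1 462 466) (mv 401 (both (five 6 400 433) (mv 525 (both (five 2 493 526) (mv 493 (both (five 2 492 524) (mv 492 (both (five 0 492 527) (mv 459 (both (five 3 459 460) (mv 491 (both (five 3 458 458) (five 1 459 462))))))))))))))) (both (mv 466 (both (five 1 462 465) (mv 498 (both (five 3 462 462) (five 1 463 467))))) (mv 498 (both (five 3 462 462) (mv 499 (both (five 2 495 527) (mv 468 (both (five 1 464 467) (mv 500 (both (five 1 465 469) (mv 532 (both (five 0 496 531) (five 0 497 533))))))))))))))) (mv 526 (both (mv 497 (both (five 2 493 525) (mv 466 (both (five 1 462 465) (mv 498 (both (five 3 462 462) (five 1 463 467))))))) (both (mv 431 (both (five 6 398 399) (mv 558 (both (five 5 430 462) (five 5 462 590))))) (mv 399 (both (five 6 398 431) (mv 525 (both (five 2 493 497) (mv 524 (both (five 2 492 493) (five 1 491 523))))))))))))) (mv 497 (both (mv 462 (both (five 3 461 461) (mv 466 (both (five 1 462 465) (mv 498 (both (five 3 462 463) (five 1 463 467))))))) (both (mv 466 (both (five 1 462 465) (mv 498 (both (five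 1 463 467) (mv 526 (both (five 2 493 525) (five 2 494 527))))))) (both (mv 462 (both (five 3 461 461) (mv 463 (both (five 3 462 498) (mv 431 (both (five 4 399 399) (mv 560 (both (five 4 431 527) (five 7 463 592))))))))) (mv 463 (both (mv 431 (both (five 4 399 399) (mv 560 (both (five 4 431 527) (five 7 463 592))))) (both (mv 462 (both (five 3 461 461) (mv 465 (both (five 1 462 466) (mv 401 (both (five 6 400 433) (mv 526 (both (five 2 493 525) (mv 558 (both (five 5 462 590) (mv 557 (both (five 6 461 589) (mv 559 (both (five 4 462 591) (mv 527 (both (five 4 430 430) (five 1 524 556))))))))))))))))) (mv 431 (both (five 4 399 399) (mv 462 (both (five 3 461 461) (mv 526 (both (five 2 493 525) (five 5 430 558))))))))))))))))))))) (both (mv 495 (both (mv 493 (both (five 0 493 529) (mv 492 (both (five 0 492 527) (mv 524 (both (five 2 491 523) (five 2 492 525))))))) (both (mv 497 (both (mv 462 (both (five 3 461 461) (mv 466 (both (five 1 462 465) (mv 498 (both (five 3 462 463) (five 1 463 467))))))) (both (mv 466 (both (five 1 462 465) (mv 498 (both (five 1 463 467) (mv 526 (both (five 2 493 525) (five 2 494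 527))))))) (both (mv 462 (both (five 3 461 461) (mv 463 (both (five 3 462 498) (mv 431 (both (five 4 399 399) (mv 526 (both (five 2 493 525) (five 5 430 558))))))))) (mv 463 (both (mv 431 (both (five 4 399 399) (mv 462 (both (five 3 461 461) (mv 526 (both (five 2 493 525) (five 5 430 558))))))) (both (mv 431 (both (five 4 399 399) (mv 462 (both (five 3 461 461) (mv 465 (both (five 1 462 466) (mv 433 (both (five 6 400 401) (mv 432 (both (five 2 430 434) (mv 400 (both (five 5 399 527) (five 7 400 529))))))))))))) (both (mv 431 (both (five 4 399 399) (mv 465 (both (five 1 462 466) (mv 401 (both (five 6 400 433) (mv 526 (both (five 2 493 525) (mv 558 (both (five 6 430 527) (five 5 462 590))))))))))) (mv 462 (both (five 3 461 461) (mv 465 (both (five 1 462 466) (mv 401 (both (five 6 400 433) (mv 526 (both (five 2 493 525) (mv 558 (both (five 5 462 590) (mv 557 (both (five 6 461 589) (mv 559 (both (five 4 462 591) (mv 527 (both (five 4 430 430) (five 1 524 556))))))))))))))))))))))))) (both (mv 493 (both (mv 492 (both (five 0 492 527) (mv 524 (both (five 2 491 523) (five 2 492 525))))) (both (mv 461 (both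 (five 3 460 460) (mv 462 (both (five 3 461 497) (mv 525 (both (five 2 492 524) (mv 430 (both (five 6 397 398) (five 5 429 557))))))))) (mv 460 (both (five 3 460 461) (mv 492 (both (five 3 459 459) (five 0 492 527)))))))) (both (mv 493 (both (five 0 493 529) (mv 460 (both (five 3 460 461) (mv 492 (both (five 3 459 459) (mv 524 (both (five 2 491 523) (five 2 492 525))))))))) (mv 493 (both (five 0 493 529) (mv 460 (both (five 3 460 461) (mv 492 (both (five 3 459 459) (five 0 492 527)))))))))))) (both (mv 495 (both (mv 497 (both (mv 465 (both (five 1 462 466) (mv 433 (both (five 6 400 401) (mv 560 (both (five 6 432 529) (five 5 464 592))))))) (both (mv 526 (both (five 2 493 525) (mv 498 (both (five 2 494 527) (mv 467 (both (five 1 463 466) (mv 499 (both (five 1 464 468) (mv 500 (both (five 2 496 529) (mv 532 (both (five 0 496 531) (five 0 497 533))))))))))))) (both (mv 560 (both (mv 465 (both (five 5 464 592) (mv 433 (both (five 6 400 401) (five 6 432 529))))) (both (mv 526 (both (five 2 493 525) (mv 527 (both (five 2 494 498) (mv 463 (both (five 4 431 431) (mv 558 (both (five 5 462 590) (mv 529 (both (five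 2 525 557) (mv 561 (both (five 0 526 562) (mv 593 (both (five 7 496 625) (mv 594 (both (five 0 558 559) (five 4 497 626))))))))))))))))) (mv 592 (both (five 7 463 463) (five 5 464 465)))))) (mv 466 (both (five 1 462 465) (mv 498 (both (five 1 463 467) (mv 526 (both (five 2 493 525) (five 2 494 527))))))))))) (both (mv 493 (both (mv 492 (both (five 0 492 527) (mv 524 (both (five 2 491 523) (five 2 492 525))))) (both (mv 461 (both (five 3 460 460) (mv 525 (both (five 2 492 524) (mv 526 (both (five 2 493 497) (mv 429 (both (five 4 397 397) (five 4 429 558))))))))) (mv 460 (both (five 3 460 461) (mv 492 (both (five 3 459 459) (five 0 492 527)))))))) (both (mv 493 (both (five 0 493 529) (mv 460 (both (five 3 460 461) (mv 492 (both (five 3 459 459) (mv 524 (both (five 2 491 523) (five 2 492 525))))))))) (mv 493 (both (five 0 493 529) (mv 460 (both (five 3 460 461) (mv 492 (both (five 3 459 459) (five 0 492 527))))))))))) (both (mv 495 (both (mv 497 (both (mv 465 (both (five 1 462 466) (mv 433 (both (five 6 400 401) (mv 560 (both (five 6 432 529) (five 5 464 592))))))) (both (mv 462 (both (five 3 461 461)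 (mv 463 (both (five 3 462 498) (mv 431 (both (five 4 399 399) (mv 560 (both (five 4 431 527) (five 7 463 592))))))))) (mv 461 (both (five 3 461 462) (mv 466 (both (five 1 462 465) (mv 498 (both (five 1 463 467) (mv 499 (both (five 2 495 527) (mv 500 (both (five 2 496 529) (mv 532 (both (five 0 496 531) (five 0 497 533)))))))))))))))) (both (mv 497 (both (mv 462 (both (five 3 461 461) (mv 466 (both (five 1 462 465) (mv 498 (both (five 3 462 463) (five 1 463 467))))))) (both (mv 466 (both (five 1 462 465) (mv 498 (both (five 1 463 467) (mv 527 (both (five 2 495 499) (five 2 494 526))))))) (both (mv 462 (both (five 3 461 461) (mv 463 (both (five 3 462 498) (mv 431 (both (five 4 399 399) (mv 560 (both (five 4 431 527) (five 7 463 592))))))))) (mv 493 (both (mv 465 (both (five 1 462 466) (mv 401 (both (five 6 400 433) (mv 492 (both (five 0 492 527) (mv 459 (both (five 3 459 460) (mv 491 (both (five 3 458 458) (mv 523 (both (five 2 490 522) (five 2 491 524))))))))))))) (both (mv 461 (both (five 3 460 460) (five 3 461 462))) (mv 462 (both (five 3 461 461) (mv 465 (both (five 1 462 466) (mv 401 (both (five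 6 400 433) (mv 492 (both (five 0 492 527) (mv 491 (both (five 1 459 463) (mv 523 (both (five 2 490 522) (five 2 491 524)))))))))))))))))))) (both (mv 497 (both (mv 465 (both (five 1 462 466) (mv 433 (both (five 6 400 401) (mv 560 (both (five 6 432 529) (five 5 464 592))))))) (both (mv 461 (both (five 3 461 462) (mv 493 (both (five 3 460 460) (five 0 493 529))))) (mv 462 (both (five 3 461 461) (mv 466 (both (five 1 462 465) (mv 498 (both (five 3 462 463) (five 1 463 467)))))))))) (mv 493 (both (five 0 493 529) (mv 492 (both (five 0 492 527) (mv 459 (both (five 3 459 460) (mv 491 (both (five 3 458 458) (mv 523 (both (five 2 490 522) (five 2 491 524))))))))))))))) (both (mv 495 (both (mv 493 (both (five 0 493 529) (mv 492 (both (five 0 492 527) (mv 524 (both (five 2 491 523) (five 2 492 525))))))) (both (mv 497 (both (mv 465 (both (five 1 462 466) (mv 433 (both (five 6 400 401) (mv 560 (both (five 6 432 529) (five 5 464 592))))))) (mv 462 (both (five 3 461 461) (mv 526 (both (five 2 493 525) (mv 527 (both (five 2 494 498) (mv 430 (both (five 4 398 398) (five 4 430 559))))))))))) (both (mv 493 (both (mv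 492 (both (five 0 492 527) (mv 524 (both (five 2 491 523) (five 2 492 525))))) (both (mv 461 (both (five 3 460 460) (mv 462 (both (five 3 461 497) (mv 525 (both (five 2 492 524) (mv 430 (both (five 6 397 398) (five 5 429 557))))))))) (mv 460 (both (five 3 460 461) (mv 492 (both (five 3 459 459) (five 0 492 527)))))))) (both (mv 493 (both (five 0 493 529) (mv 460 (both (five 3 460 461) (mv 492 (both (five 3 459 459) (mv 524 (both (five 2 491 523) (five 2 492 525))))))))) (mv 493 (both (five 0 493 529) (mv 460 (both (five 3 460 461) (mv 492 (both (five 3 459 459) (five 0 492 527)))))))))))) (both (mv 495 (both (mv 497 (both (mv 465 (both (five 1 462 466) (mv 433 (both (five 6 400 401) (mv 560 (both (five 6 432 529) (five 5 464 592))))))) (both (mv 526 (both (five 2 493 525) (mv 498 (both (five 2 494 527) (mv 467 (both (five 1 463 466) (mv 499 (both (five 1 464 468) (mv 500 (both (five 2 496 529) (mv 532 (both (five 0 496 531) (five 0 497 533))))))))))))) (both (mv 560 (both (mv 465 (both (five 5 464 592) (mv 433 (both (five 6 400 401) (five 6 432 529))))) (both (mv 526 (both (five 2 493 525) (mv 527 (both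 (five 2 494 498) (mv 463 (both (five 4 431 431) (mv 558 (both (five 5 462 590) (mv 529 (both (five 2 525 557) (mv 561 (both (five 0 526 562) (mv 593 (both (five 7 496 625) (mv 594 (both (five 0 558 559) (five 4 497 626))))))))))))))))) (mv 592 (both (five 7 463 463) (five 5 464 465)))))) (mv 466 (both (five 1 462 465) (mv 498 (both (five 1 463 467) (mv 526 (both (five 2 493 525) (five 2 494 527))))))))))) (both (mv 463 (both (mv 431 (both (five 4 399 399) (mv 560 (both (five 4 431 527) (five 7 463 592))))) (both (mv 497 (both (mv 466 (both (five 1 462 465) (mv 498 (both (five 1 463 467) (mv 526 (both (five 2 493 525) (five 2 494 527))))))) (both (mv 465 (both (five 1 462 466) (mv 401 (both (five 6 400 433) (mv 525 (both (five 2 493 526) (mv 493 (both (five 2 492 524) (mv 492 (both (five 0 492 527) (mv 459 (both (five 3 459 460) (mv 491 (both (five 3 458 458) (five 1 459 462))))))))))))))) (both (mv 466 (both (five 1 462 465) (mv 498 (both (five 3 462 462) (five 1 463 467))))) (mv 498 (both (five 3 462 462) (mv 499 (both (five 2 495 527) (mv 468 (both (five 1 464 467) (mv 500 (both (five 1 465 469) (mv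 532 (both (five 0 496 531) (five 0 497 533))))))))))))))) (mv 526 (both (mv 497 (both (five 2 493 525) (mv 466 (both (five 1 462 465) (mv 498 (both (five 3 462 462) (five 1 463 467))))))) (both (mv 431 (both (five 6 398 399) (mv 558 (both (five 5 430 462) (five 5 462 590))))) (mv 399 (both (five 6 398 431) (mv 525 (both (five 2 493 497) (mv 524 (both (five 2 492 493) (five 1 491 523))))))))))))) (both (mv 525 (both (mv 524 (both (five 2 492 493) (mv 526 (both (five 2 493 497) (five 1 491 523))))) (both (mv 497 (both (five 2 493 526) (mv 465 (both (five 1 462 466) (mv 433 (both (five 6 400 401) (mv 560 (both (five 6 432 529) (five 5 464 592))))))))) (mv 493 (both (five 2 492 524) (five 0 493 529)))))) (mv 493 (both (five 0 493 529) (mv 492 (both (five 0 492 527) (mv 459 (both (five 3 459 460) (mv 491 (both (five 3 458 458) (mv 523 (both (five 2 490 522) (five 2 491 524))))))))))))))) (both (mv 495 (both (mv 525 (both (mv 524 (both (five 2 492 493) (mv 526 (both (five 2 493 497) (five 1 491 523))))) (both (mv 497 (both (five 2 493 526) (mv 465 (both (five 1 462 466) (mv 433 (both (five 6 400 401) (mv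 560 (both (five 6 432 529) (five 5 464 592))))))))) (mv 493 (both (five 2 492 524) (five 0 493 529)))))) (both (mv 493 (both (five 0 493 529) (mv 461 (both (five 3 460 460) (mv 429 (both (mv 397 (both (five 4 397 526) (mv 364 (both (five 7 364 396) (mv 365 (both (five 7 332 332) (five 4 365 462))))))) (both (mv 525 (both (five 2 492 524) (mv 430 (both (five 5 397 398) (mv 557 (both (five 5 429 462) (mv 556 (both (five 6 460 588) (mv 558 (both (five 4 461 590) (mv 559 (both (five 1 524 527) (mv 592 (both (five 0 556 591) (mv 560 (both (five 7 463 463) (five 0 557 593))))))))))))))))) (mv 397 (both (five 4 397 526) (mv 364 (both (five 7 364 396) (mv 332 (both (five 7 332 365) (mv 398 (both (five 5 365 366) (mv 525 (both (five 5 397 430) (five 2 492 524)))))))))))))))))) (both (mv 497 (both (mv 462 (both (five 3 461 461) (mv 466 (both (five 1 462 465) (mv 498 (both (five 3 462 463) (five 1 463 467))))))) (both (mv 466 (both (five 1 462 465) (mv 498 (both (five 1 463 467) (mv 526 (both (five 2 493 525) (five 2 494 527))))))) (both (mv 462 (both (five 3 461 461) (mv 463 (both (five 3 462 498) (mv 431 (both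 (five 4 399 399) (mv 560 (both (five 4 431 527) (five 7 463 592))))))))) (mv 463 (both (mv 431 (both (five 4 399 399) (mv 560 (both (five 4 431 527) (five 7 463 592))))) (both (mv 462 (both (five 3 461 461) (mv 465 (both (five 1 462 466) (mv 401 (both (five 6 400 433) (mv 526 (both (five 2 493 525) (mv 558 (both (five 5 462 590) (mv 557 (both (five 6 461 589) (mv 559 (both (five 4 462 591) (mv 527 (both (five 4 430 430) (five 1 524 556))))))))))))))))) (mv 431 (both (five 4 399 399) (mv 462 (both (five 3 461 461) (mv 526 (both (five 2 493 525) (five 5 430 558)))))))))))))) (both (mv 497 (both (mv 465 (both (five 1 462 466) (mv 433 (both (five 6 400 401) (mv 560 (both (five 6 432 529) (five 5 464 592))))))) (both (mv 461 (both (five 3 461 462) (mv 493 (both (five 3 460 460) (five 0 493 529))))) (mv 462 (both (five 3 461 461) (mv 466 (both (five 1 462 465) (mv 498 (both (five 3 462 463) (five 1 463 467)))))))))) (mv 497 (both (mv 462 (both (five 3 461 461) (mv 466 (both (five 1 462 465) (mv 498 (both (five 3 462 463) (five 1 463 467))))))) (both (mv 466 (both (five 1 462 465) (mv 498 (both (five 1 463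 467) (mv 526 (both (five 2 493 525) (five 2 494 527))))))) (both (mv 462 (both (five 3 461 461) (mv 463 (both (five 3 462 498) (mv 431 (both (five 4 399 399) (mv 526 (both (five 2 493 525) (five 5 430 558))))))))) (mv 463 (both (mv 431 (both (five 4 399 399) (mv 462 (both (five 3 461 461) (mv 526 (both (five 2 493 525) (five 5 430 558))))))) (both (mv 431 (both (five 4 399 399) (mv 462 (both (five 3 461 461) (mv 465 (both (five 1 462 466) (mv 433 (both (five 6 400 401) (mv 432 (both (five 2 430 434) (mv 400 (both (five 5 399 527) (five 7 400 529))))))))))))) (both (mv 431 (both (five 4 399 399) (mv 465 (both (five 1 462 466) (mv 401 (both (five 6 400 433) (mv 526 (both (five 2 493 525) (mv 558 (both (five 6 430 527) (five 5 462 590))))))))))) (mv 462 (both (five 3 461 461) (mv 465 (both (five 1 462 466) (mv 401 (both (five 6 400 433) (mv 526 (both (five 2 493 525) (mv 558 (both (five 5 462 590) (mv 557 (both (five 6 461 589) (mv 559 (both (five 4 462 591) (mv 527 (both (five 4 430 430) (five 1 524 556)))))))))))))))))))))))))))))) (both (mv 495 (both (mv 493 (both (five 0 493 529) (mv 492 (both (five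 0 492 527) (mv 524 (both (five 2 491 523) (five 2 492 525))))))) (both (mv 497 (both (mv 465 (both (five 1 462 466) (mv 433 (both (five 6 400 401) (mv 560 (both (five 6 432 529) (five 5 464 592))))))) (mv 462 (both (five 3 461 461) (mv 463 (both (five 3 462 498) (mv 431 (both (five 4 399 399) (mv 526 (both (five 2 493 525) (five 5 430 558))))))))))) (both (mv 497 (both (mv 462 (both (five 3 461 461) (mv 466 (both (five 1 462 465) (mv 498 (both (five 3 462 463) (five 1 463 467))))))) (both (mv 466 (both (five 1 462 465) (mv 498 (both (five 1 463 467) (mv 526 (both (five 2 493 525) (five 2 494 527))))))) (both (mv 462 (both (five 3 461 461) (mv 463 (both (five 3 462 498) (mv 431 (both (five 4 399 399) (mv 560 (both (five 4 431 527) (five 7 463 592))))))))) (mv 463 (both (mv 431 (both (five 4 399 399) (mv 560 (both (five 4 431 527) (five 7 463 592))))) (both (mv 462 (both (five 3 461 461) (mv 465 (both (five 1 462 466) (mv 401 (both (five 6 400 433) (mv 526 (both (five 2 493 525) (mv 558 (both (five 5 462 590) (mv 557 (both (five 6 461 589) (mv 559 (both (five 4 462 591) (mv 527 (both (five 4 430 430)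 (five 1 524 556))))))))))))))))) (mv 431 (both (five 4 399 399) (mv 462 (both (five 3 461 461) (mv 526 (both (five 2 493 525) (five 5 430 558)))))))))))))) (mv 497 (both (mv 465 (both (five 1 462 466) (mv 433 (both (five 6 400 401) (mv 560 (both (five 6 432 529) (five 5 464 592))))))) (both (mv 462 (both (five 3 461 461) (mv 463 (both (five 3 462 498) (mv 431 (both (five 4 399 399) (mv 560 (both (five 4 431 527) (five 7 463 592))))))))) (mv 461 (both (five 3 461 462) (mv 466 (both (five 1 462 465) (mv 498 (both (five 1 463 467) (mv 499 (both (five 2 495 527) (mv 500 (both (five 2 496 529) (mv 532 (both (five 0 496 531) (five 0 497 533)))))))))))))))))))) (mv 495 (both (mv 493 (both (five 0 493 529) (mv 460 (both (five 3 460 461) (mv 492 (both (five 3 459 459) (five 0 492 527))))))) (both (mv 497 (both (mv 465 (both (five 1 462 466) (mv 433 (both (five 6 400 401) (mv 560 (both (five 6 432 529) (five 5 464 592))))))) (mv 462 (both (five 3 461 461) (mv 463 (both (five 3 462 498) (mv 431 (both (five 4 399 399) (mv 526 (both (five 2 493 525) (five 5 430 558))))))))))) (both (mv 497 (both (mv 462 (both (five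 3 461 461) (mv 466 (both (five 1 462 465) (mv 498 (both (five 3 462 463) (five 1 463 467))))))) (both (mv 466 (both (five 1 462 465) (mv 498 (both (five 1 463 467) (mv 526 (both (five 2 493 525) (five 2 494 527))))))) (both (mv 462 (both (five 3 461 461) (mv 463 (both (five 3 462 498) (mv 431 (both (five 4 399 399) (mv 560 (both (five 4 431 527) (five 7 463 592))))))))) (mv 463 (both (mv 431 (both (five 4 399 399) (mv 560 (both (five 4 431 527) (five 7 463 592))))) (both (mv 462 (both (five 3 461 461) (mv 465 (both (five 1 462 466) (mv 401 (both (five 6 400 433) (mv 526 (both (five 2 493 525) (mv 558 (both (five 5 462 590) (mv 557 (both (five 6 461 589) (mv 559 (both (five 4 462 591) (mv 527 (both (five 4 430 430) (five 1 524 556))))))))))))))))) (mv 431 (both (five 4 399 399) (mv 462 (both (five 3 461 461) (mv 526 (both (five 2 493 525) (five 5 430 558)))))))))))))) (mv 497 (both (mv 465 (both (five 1 462 466) (mv 433 (both (five 6 400 401) (mv 560 (both (five 6 432 529) (five 5 464 592))))))) (both (mv 526 (both (five 2 493 525) (mv 498 (both (five 2 494 527) (mv 467 (both (five 1 463 466) (mv 499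 (both (five 1 464 468) (mv 500 (both (five 2 496 529) (mv 532 (both (five 0 496 531) (five 0 497 533))))))))))))) (both (mv 560 (both (mv 465 (both (five 5 464 592) (mv 433 (both (five 6 400 401) (five 6 432 529))))) (both (mv 526 (both (five 2 493 525) (mv 527 (both (five 2 494 498) (mv 463 (both (five 4 431 431) (mv 558 (both (five 5 462 590) (mv 529 (both (five 2 525 557) (mv 561 (both (five 0 526 562) (mv 593 (both (five 7 496 625) (mv 594 (both (five 0 558 559) (five 4 497 626))))))))))))))))) (mv 592 (both (five 7 463 463) (five 5 464 465)))))) (mv 466 (both (five 1 462 465) (mv 498 (both (five 1 463 467) (mv 526 (both (five 2 493 525) (five 2 494 527))))))))))))))))))))))))))))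

theorem L103 : W (S 878694100701304956511192169158242687862212665431883220280182872118455237980908336946979793684870563807462937680039967586724118902039808942127312687095760289792) (S 722369737736605440154868569886245240798644460693204406921928111377588617934824679223249676784381831787564572811517257213921629222440618384767873075997361116944449655205844687730922816694178709150703909076992) :=
  check_sound (Env.cons L101 (Env.cons L102 Env.nil)) (x := 494) (t := tL103) (by decide +kernel)

def tL104 : T :=
  (both (mv 397 (both (five 0 396 396) (mv 400 (both (mv 364 (both (five 3 364 365) (mv 369 (both (five 1 365 368) (mv 401 (both (five 1 366 370) (mv 402 (both (five 2 399 403) (five 2 398 430))))))))) (both (mv 365 (both (five 3 364 364) (mv 368 (both (five 1 365 369) (mv 336 (both (five 6 303 304) (mv 303 (both (five 7 303 335) (mv 337 (both (five 5 304 305) (mv 366 (both (five 1 333 367) (mv 302 (both (five 4 302 334) (mv 429 (both (five 2 396 428) (mv 461 (both (five 5 365 493) (mv 460 (both (five 2 428 430) (five 6 364 492))))))))))))))))))))) (both (mv 429 (both (five 2 396 428) (mv 430 (both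 (five 2 397 401) (mv 461 (both (five 2 428 460) (mv 366 (both (five 6 333 334) (five 5 365 493))))))))) (mv 365 (both (five 3 364 364) (mv 366 (both (five 3 365 401) (mv 302 (both (five 4 302 334) (mv 368 (both (five 1 365 369) (mv 336 (both (five 6 303 304) (mv 337 (both (five 5 304 305) (five 1 333 367))))))))))))))))))) (both (mv 463 (both (five 4 399 495) (mv 367 (both (mv 334 (both (five 7 334 366) (mv 335 (both (five 7 302 302) (mv 336 (both (five 5 303 304) (five 5 335 368))))))) (both (mv 336 (both (five 5 335 368) (mv 335 (both (five 5 303 304) (mv 303 (both (five 4 303 400) (five 6 302 430))))))) (both (mv 334 (both (five 7 334 366) (mv 335 (both (five 7 302 302) (mv 303 (both (five 4 303 400) (five 6 302 430))))))) (mv 336 (both (five 5 335 368) (mv 366 (both (five 7 334 334) (mv 462 (both (five 6 366 494) (mv 461 (both (five 1 428 460) (mv 430 (both (five 6 365 493) (mv 365 (both (five 7 333 333) (mv 364 (both (five 0 363 363) (five 0 364 400))))))))))))))))))))) (both (mv 368 (both (mv 397 (both (five 0 396 396) (mv 369 (both (five 1 365 400) (mv 367 (both (five 2 365 366) (five 2 366 370)))))))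 (both (mv 463 (both (five 4 399 495) (mv 336 (both (five 5 335 367) (five 6 335 400))))) (both (mv 397 (both (five 0 396 396) (mv 463 (both (five 4 399 495) (mv 367 (both (five 5 335 336) (mv 366 (both (five 7 334 334) (five 2 365 369))))))))) (mv 397 (both (five 0 396 396) (mv 400 (both (five 1 365 369) (mv 336 (both (five 6 303 304) (five 6 335 463))))))))))) (both (mv 463 (both (five 4 399 495) (mv 367 (both (mv 334 (both (five 7 334 366) (mv 335 (both (five 7 302 302) (mv 336 (both (five 5 303 304) (five 5 335 368))))))) (both (mv 336 (both (five 5 335 368) (mv 335 (both (five 5 303 304) (mv 430 (both (five 6 302 303) (five 6 334 462))))))) (both (mv 334 (both (five 7 334 366) (mv 335 (both (five 7 302 302) (mv 430 (both (five 6 302 303) (five 6 334 462))))))) (mv 336 (both (five 5 335 368) (mv 366 (both (five 7 334 334) (mv 396 (both (five 0 396 397) (mv 462 (both (five 6 366 494) (mv 461 (both (five 1 428 460) (mv 430 (both (five 6 365 493) (mv 365 (both (five 7 333 333) (mv 364 (both (five 0 363 363) (five 2 363 395))))))))))))))))))))))) (both (mv 397 (both (five 0 396 396) (mv 400 (both (mv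 369 (both (five 1 365 368) (mv 401 (both (five 1 366 370) (mv 402 (both (five 2 399 403) (five 2 398 430))))))) (both (mv 364 (both (five 3 364 365) (mv 429 (both (five 2 396 428) (mv 401 (both (five 2 397 430) (mv 370 (both (five 1 366 369) (mv 402 (both (five 1 367 371) (five 2 399 403))))))))))) (both (mv 364 (both (five 3 364 365) (mv 368 (both (five 1 365 369) (mv 336 (both (five 6 303 304) (five 6 335 463))))))) (mv 364 (both (five 3 364 365) (mv 429 (both (five 2 396 428) (mv 430 (both (five 2 397 401) (mv 461 (both (five 2 428 460) (mv 463 (both (five 4 399 495) (mv 336 (both (five 6 335 368) (mv 493 (both (five 5 397 525) (mv 492 (both (five 6 396 524) (mv 494 (both (five 4 397 526) (mv 462 (both (five 6 366 367) (five 1 459 491))))))))))))))))))))))))))) (both (mv 397 (both (five 0 396 396) (mv 400 (both (mv 368 (both (five 1 365 369) (mv 336 (both (five 6 303 304) (five 6 335 463))))) (mv 429 (both (five 2 396 428) (mv 430 (both (five 2 397 401) (mv 461 (both (five 2 428 460) (mv 366 (both (five 6 333 334) (five 5 365 493))))))))))))) (both (mv 463 (both (five 4 399 495) (mv 367 (both (mv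 396 (both (five 0 396 397) (mv 462 (both (five 6 366 494) (mv 335 (both (five 6 334 430) (mv 303 (both (five 4 303 400) (mv 304 (both (five 5 271 272) (five 5 303 336))))))))))) (both (mv 334 (both (five 7 334 366) (mv 335 (both (five 7 302 302) (mv 303 (both (five 4 303 400) (mv 304 (both (five 5 271 272) (five 5 303 336))))))))) (both (mv 366 (both (five 7 334 334) (mv 462 (both (five 6 366 494) (mv 461 (both (five 1 428 460) (mv 430 (both (five 6 365 493) (mv 365 (both (five 7 333 333) (mv 364 (both (five 0 363 363) (five 0 364 400))))))))))))) (mv 334 (both (five 7 334 366) (mv 335 (both (five 7 302 302) (mv 430 (both (five 6 302 303) (five 6 334 462))))))))))))) (mv 463 (both (five 4 399 495) (mv 367 (both (mv 334 (both (five 7 334 366) (mv 335 (both (five 7 302 302) (mv 303 (both (five 4 303 400) (five 6 302 430))))))) (both (mv 462 (both (five 6 366 494) (mv 335 (both (five 6 334 430) (mv 302 (both (five 7 302 334) (mv 303 (both (five 7 270 270) (five 4 303 400))))))))) (both (mv 396 (both (five 0 396 397) (mv 462 (both (five 6 366 494) (mv 335 (both (five 6 334 430) (mv 303 (both (five 4 303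 400) (mv 270 (both (five 7 270 302) (mv 271 (both (five 7 238 238) (five 6 270 366))))))))))))) (both (mv 366 (both (five 7 334 334) (mv 397 (both (five 0 396 396) (mv 368 (both (five 2 365 369) (mv 462 (both (five 6 366 494) (mv 461 (both (five 1 428 460) (mv 429 (both (five 5 365 493) (mv 400 (both (five 2 396 428) (mv 365 (both (five 3 364 364) (five 0 365 401))))))))))))))))) (mv 334 (both (five 7 334 366) (mv 335 (both (five 7 302 302) (mv 430 (both (five 6 302 303) (five 6 334 462)))))))))))))))))))))

theorem L104 : W (S 878694100701304956511192169174878706028228679528397159679869333925075366370328089294417282924973621332567015229288234620663779047264225123613685704055978983424) (S 384428669165507716046105130760087124452202977799551034545703631929181357555116952648630446040537760014519820104792900499004161093706979633350145478874160431104) :=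
  check_sound Env.nil (x := 398) (t := tL104) (by decide +kernel)

def tL105 : T :=
  (both (mv 431 (both (mv 495 (both (mv 494 (both (mv 493 (both (five 0 493 529) (mv 492 (both (five 0 492 527) (mv 524 (both (five 2 491 523) (five 2 492 525))))))) (both (mv 462 (both (mv 430 (both (mv 526 (both (five 5 398 399) (mv 397 (both (five 7 397 429) (mv 525 (both (five 6 429 557) (mv 524 (both (five 1 491 523) (five 1 492 527))))))))) (both (mv 399 (both (five 5 398 526) (mv 367 (both (five 6 334 335) (five 5 366 398))))) (mv 398 (both (five 4 398 527) (mv 397 (both (five 7 365 365) (mv 396 (both (five 0 395 395) (five 3 396 429)))))))))) (both (mv 461 (both (five 3 461 497) (mv 460 (both (five 0 459 459) (mv 430 (both (five 2 428 429) (mv 398 (both (five 4 398 527) (mv 365 (both (five 7 365 397) (mv 366 (both (five 7 333 333) (mv 367 (both (five 5 334 335) (five 5 366 399))))))))))))))) (both (mv 497 (both (five 3 461 461) (mv 466 (both (five 1 462 465) (mv 498 (both (five 1 463 467) (mv 526 (both (five 2 493 525) (five 2 494 527))))))))) (mv 461 (both (five 3 461 497) (mv 460 (both (five 0 459 459) (mv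 430 (both (five 2 428 429) (mv 399 (both (five 5 398 526) (mv 367 (both (five 6 334 335) (five 5 366 398))))))))))))))) (both (mv 493 (both (five 0 493 529) (mv 460 (both (five 3 460 461) (mv 492 (both (five 3 459 459) (mv 524 (both (five 2 491 523) (five 2 492 525))))))))) (mv 493 (both (five 0 493 529) (mv 460 (both (five 3 460 461) (mv 492 (both (five 3 459 459) (five 0 492 527))))))))))) (both (mv 494 (both (mv 493 (both (five 0 493 529) (mv 492 (both (five 0 492 527) (mv 524 (both (five 2 491 523) (five 2 492 525))))))) (both (mv 497 (both (mv 462 (both (five 3 461 461) (mv 466 (both (five 1 462 465) (mv 498 (both (five 3 462 463) (five 1 463 467))))))) (both (mv 466 (both (five 1 462 465) (mv 498 (both (five 1 463 467) (mv 526 (both (five 2 493 525) (five 2 494 527))))))) (both (mv 462 (both (five 3 461 461) (mv 526 (both (five 2 493 525) (mv 527 (both (five 2 494 498) (mv 430 (both (five 4 398 398) (five 4 430 559))))))))) (mv 462 (both (five 3 461 461) (mv 465 (both (five 1 462 466) (mv 526 (both (five 2 493 525) (mv 463 (both (five 5 430 558) (mv 527 (both (five 5 399 400) (mv 430 (both (five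 4 398 398) (five 4 430 559))))))))))))))))) (both (mv 493 (both (five 0 493 529) (mv 460 (both (five 3 460 461) (mv 492 (both (five 3 459 459) (mv 524 (both (five 2 491 523) (five 2 492 525))))))))) (mv 493 (both (five 0 493 529) (mv 460 (both (five 3 460 461) (mv 492 (both (five 3 459 459) (five 0 492 527))))))))))) (both (mv 494 (both (mv 493 (both (five 0 493 529) (mv 460 (both (five 3 460 461) (mv 492 (both (five 3 459 459) (mv 524 (both (five 2 491 523) (five 2 492 525))))))))) (both (mv 462 (both (mv 461 (both (five 3 461 497) (mv 460 (both (five 0 459 459) (mv 430 (both (five 2 428 429) (mv 399 (both (five 5 398 526) (mv 367 (both (five 6 334 335) (five 5 366 398))))))))))) (both (mv 399 (both (five 4 399 463) (mv 430 (both (five 5 398 526) (mv 367 (both (five 6 334 335) (five 5 366 398))))))) (mv 461 (both (five 3 461 497) (mv 460 (both (five 0 459 459) (five 1 428 463)))))))) (both (mv 463 (both (five 4 399 399) (mv 493 (both (five 0 493 529) (mv 524 (both (five 2 492 525) (mv 492 (both (five 2 491 523) (mv 459 (both (five 3 459 460) (mv 491 (both (five 3 458 458) (five 1 459 462)))))))))))))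 (mv 463 (both (five 4 399 399) (mv 493 (both (five 0 493 529) (mv 524 (both (five 2 492 525) (mv 492 (both (five 2 491 523) (mv 462 (both (five 1 459 491) (mv 497 (both (five 3 461 461) (five 3 462 498))))))))))))))))) (both (mv 463 (both (five 4 399 399) (mv 527 (both (five 5 399 400) (mv 398 (both (five 7 398 430) (mv 526 (both (five 6 430 558) (mv 525 (both (five 1 492 524) (mv 493 (both (five 3 492 492) (mv 494 (both (five 0 493 529) (mv 460 (both (five 3 460 461) (mv 557 (both (five 2 524 556) (mv 589 (both (five 5 461 462) (five 5 493 621))))))))))))))))))))) (both (mv 463 (both (five 4 399 399) (mv 527 (both (five 5 399 400) (mv 430 (both (five 7 398 398) (mv 462 (both (five 7 430 559) (mv 461 (both (five 1 428 460) (mv 497 (both (five 3 461 494) (five 3 462 498))))))))))))) (mv 463 (both (five 4 399 399) (mv 527 (both (five 5 399 400) (mv 526 (both (five 6 430 558) (mv 497 (both (five 1 493 525) (mv 498 (both (five 2 495 499) (five 1 494 529))))))))))))))))) (both (mv 433 (both (mv 434 (both (mv 403 (both (five 1 399 402) (mv 435 (both (five 1 400 404) (mv 467 (both (five 0 431 466) (five 0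 432 468))))))) (both (mv 467 (both (five 0 431 466) (mv 435 (both (five 0 432 468) (mv 404 (both (five 1 400 403) (mv 436 (both (five 1 401 405) (mv 401 (both (five 3 400 400) (mv 497 (both (five 6 400 465) (mv 499 (both (five 5 403 531) (mv 498 (both (five 2 495 527) (mv 500 (both (five 2 496 529) (mv 533 (both (five 0 497 532) (mv 501 (both (five 0 498 534) (mv 469 (both (five 7 404 437) (five 1 466 470))))))))))))))))))))))))) (both (mv 497 (both (mv 527 (both (mv 463 (both (five 2 430 462) (mv 400 (both (five 5 399 495) (mv 336 (both (five 6 335 368) (mv 467 (both (five 0 431 466) (mv 435 (both (five 0 432 468) (mv 436 (both (five 3 400 401) (mv 404 (both (five 1 401 405) (mv 499 (both (five 2 495 498) (five 5 403 531))))))))))))))))) (both (mv 463 (both (five 2 430 462) (mv 466 (both (five 0 431 467) (mv 495 (both (five 5 399 400) (mv 526 (both (five 1 493 525) (five 6 430 558))))))))) (both (mv 498 (both (five 2 495 499) (mv 526 (both (five 2 494 495) (five 1 493 525))))) (mv 462 (both (five 2 430 463) (mv 466 (both (five 0 431 467) (mv 498 (both (five 2 495 499) (mv 526 (both (five 1 493 525)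 (five 1 494 529))))))))))))) (both (mv 465 (both (mv 529 (both (five 7 400 400) (five 5 401 402))) (both (mv 463 (both (five 2 430 462) (mv 466 (both (five 0 431 467) (mv 370 (both (five 6 369 402) (mv 495 (both (five 1 462 494) (mv 527 (both (five 5 399 400) (mv 526 (both (five 1 493 525) (five 6 430 558))))))))))))) (both (mv 400 (both (five 7 400 529) (mv 336 (both (five 4 336 368) (mv 463 (both (five 2 430 462) (mv 466 (both (five 0 431 467) (mv 495 (both (five 1 462 494) (five 5 399 527))))))))))) (mv 402 (both (five 5 401 529) (mv 370 (both (five 6 337 338) (five 6 369 466))))))))) (both (mv 465 (both (five 6 400 401) (mv 529 (both (five 7 400 400) (five 5 401 402))))) (mv 401 (both (five 6 400 465) (mv 462 (both (five 2 430 463) (mv 466 (both (five 0 431 467) (mv 369 (both (five 4 337 337) (mv 498 (both (five 7 369 402) (mv 527 (both (five 2 495 499) (mv 526 (both (five 2 494 495) (five 1 493 525))))))))))))))))))) (both (mv 497 (both (mv 465 (both (five 6 400 401) (mv 529 (both (five 7 400 400) (five 5 401 402))))) (both (mv 527 (both (mv 402 (both (five 1 399 403) (mv 463 (both (five 2 430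 462) (mv 400 (both (five 5 399 495) (mv 368 (both (five 6 335 336) (mv 498 (both (five 2 495 499) (mv 466 (both (five 6 401 529) (mv 369 (both (five 7 369 401) (mv 370 (both (five 7 337 337) (mv 339 (both (five 5 338 371) (mv 338 (both (five 5 306 307) (five 1 335 367))))))))))))))))))))) (both (mv 402 (both (five 1 399 403) (mv 463 (both (five 2 430 462) (mv 495 (both (five 5 399 400) (mv 526 (both (five 1 493 525) (five 6 430 558))))))))) (mv 498 (both (five 2 495 499) (mv 526 (both (five 1 493 525) (five 1 494 529)))))))) (both (mv 462 (both (five 2 430 463) (mv 465 (both (five 6 400 401) (mv 529 (both (five 7 400 400) (mv 561 (both (five 5 433 466) (mv 593 (both (five 7 496 625) (mv 594 (both (five 4 465 562) (five 4 497 626))))))))))))) (both (mv 402 (both (five 1 399 403) (mv 462 (both (five 2 430 463) (mv 465 (both (five 5 401 529) (mv 370 (both (five 6 337 338) (five 6 369 466))))))))) (mv 402 (both (five 1 399 403) (mv 462 (both (five 2 430 463) (mv 465 (both (five 6 400 401) (mv 370 (both (five 6 337 338) (five 6 369 466)))))))))))))) (mv 435 (both (mv 403 (both (five 1 399 402) (five 1 400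 404))) (both (mv 462 (both (five 2 430 463) (mv 468 (both (five 0 432 467) (mv 436 (both (five 0 433 469) (mv 401 (both (five 3 400 400) (mv 405 (both (five 1 401 404) (mv 437 (both (five 3 401 402) (five 1 402 406))))))))))))) (both (mv 404 (both (five 1 400 403) (mv 436 (both (five 1 401 405) (mv 468 (both (five 0 432 467) (five 0 433 469))))))) (mv 402 (both (five 1 399 403) (mv 462 (both (five 2 430 463) (mv 468 (both (five 0 432 467) (mv 436 (both (five 0 433 469) (mv 401 (both (five 3 400 400) (five 3 401 437)))))))))))))))))))) (both (mv 430 (both (mv 401 (both (five 1 398 402) (mv 465 (both (five 0 430 466) (five 6 400 497))))) (mv 397 (both (five 3 397 398) (mv 429 (both (five 3 396 396) (mv 461 (both (five 2 428 460) (five 2 429 462))))))))) (both (mv 462 (both (mv 434 (both (five 2 430 463) (mv 403 (both (five 1 399 402) (mv 435 (both (five 1 400 404) (mv 467 (both (five 0 431 466) (five 0 432 468))))))))) (both (mv 461 (both (five 2 429 430) (mv 495 (both (mv 460 (both (five 1 428 463) (mv 494 (both (five 0 459 459) (five 3 460 493))))) (both (mv 494 (both (five 3 461 497) (mv 493 (both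 (five 3 460 460) (five 0 493 529))))) (both (mv 497 (both (five 3 461 494) (mv 463 (both (five 3 462 498) (mv 527 (both (five 5 399 400) (mv 526 (both (five 1 493 525) (five 6 430 558))))))))) (mv 463 (both (five 1 428 460) (mv 527 (both (five 5 399 400) (mv 526 (both (five 6 430 558) (mv 497 (both (five 1 493 525) (mv 498 (both (five 2 495 499) (five 1 494 529))))))))))))))))) (mv 430 (both (five 2 429 461) (mv 494 (both (mv 397 (both (five 3 397 398) (mv 429 (both (five 3 396 396) (five 7 397 526))))) (both (mv 527 (both (mv 465 (both (five 0 430 466) (mv 526 (both (five 4 430 559) (mv 497 (both (five 1 493 525) (mv 498 (both (five 2 495 499) (five 1 494 529))))))))) (both (mv 495 (both (five 4 398 398) (mv 493 (both (five 0 492 492) (five 0 493 529))))) (mv 398 (both (five 4 398 495) (mv 465 (both (five 0 430 466) (mv 525 (both (five 6 397 493) (mv 526 (both (five 1 493 497) (five 6 429 557)))))))))))) (both (mv 526 (both (mv 525 (both (five 6 429 557) (mv 527 (both (five 1 493 497) (five 4 430 559))))) (both (mv 397 (both (five 7 397 429) (mv 465 (both (five 0 430 466) (mv 525 (both (five 6 429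 557) (mv 495 (both (five 2 493 497) (mv 493 (both (five 2 492 524) (five 0 493 529))))))))))) (mv 397 (both (five 7 397 429) (mv 465 (both (five 0 430 466) (mv 527 (both (five 4 430 559) (mv 493 (both (five 3 493 529) (mv 492 (both (five 0 491 491) (five 0 492 495)))))))))))))) (mv 398 (both (five 3 397 397) (mv 465 (both (five 0 430 466) (mv 493 (both (five 6 397 525) (mv 495 (both (five 4 398 527) (five 0 493 529)))))))))))))))))) (both (mv 430 (both (mv 397 (both (five 3 397 398) (mv 429 (both (five 3 396 396) (mv 461 (both (five 2 428 460) (five 2 429 462))))))) (both (mv 397 (both (five 3 397 398) (mv 401 (both (five 1 398 402) (mv 429 (both (five 3 396 396) (five 1 397 400))))))) (mv 401 (both (five 1 398 402) (mv 462 (both (five 2 429 461) (mv 434 (both (five 2 430 463) (mv 467 (both (five 0 431 466) (mv 435 (both (five 0 432 468) (mv 404 (both (five 1 400 403) (mv 436 (both (five 3 400 400) (five 1 401 405)))))))))))))))))) (both (mv 430 (both (mv 462 (both (five 2 429 461) (mv 434 (both (five 2 430 463) (mv 466 (both (five 0 430 465) (five 0 431 467))))))) (both (mv 397 (both (five 3 397 398)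 (mv 429 (both (five 3 396 396) (mv 401 (both (five 1 397 400) (mv 465 (both (five 0 430 466) (five 6 400 497))))))))) (mv 397 (both (five 3 397 398) (mv 429 (both (five 3 396 396) (mv 461 (both (five 2 428 460) (five 2 429 462)))))))))) (both (mv 430 (both (mv 397 (both (five 3 397 398) (mv 429 (both (five 3 396 396) (mv 461 (both (five 2 428 460) (five 2 429 462))))))) (both (mv 397 (both (five 3 397 398) (mv 401 (both (five 1 398 402) (mv 429 (both (five 3 396 396) (five 1 397 400))))))) (mv 401 (both (five 1 398 402) (mv 462 (both (five 2 429 461) (mv 463 (both (five 2 430 434) (mv 497 (both (five 6 400 465) (mv 495 (both (five 3 462 498) (mv 527 (both (five 5 399 400) (five 7 430 559)))))))))))))))) (mv 465 (both (mv 401 (both (five 6 400 497) (mv 402 (both (five 1 398 430) (mv 403 (both (five 2 399 400) (five 2 400 404))))))) (both (mv 466 (both (five 0 430 430) (mv 467 (both (five 0 431 434) (five 3 432 468))))) (mv 497 (both (five 6 400 401) (mv 529 (both (five 7 400 400) (mv 434 (both (five 5 401 402) (mv 561 (both (five 5 433 466) (mv 593 (both (five 7 496 625) (mv 594 (both (five 4 465 562)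 (five 4 497 626))))))))))))))))))))))) (both (mv 495 (both (mv 497 (both (mv 434 (both (mv 498 (both (mv 527 (both (five 2 495 499) (five 2 494 526))) (mv 466 (both (five 1 463 467) (mv 402 (both (five 6 401 529) (mv 369 (both (five 7 369 401) (mv 370 (both (five 7 337 337) (five 6 369 465))))))))))) (both (mv 433 (both (mv 399 (both (five 3 398 398) (mv 403 (both (five 1 399 402) (mv 435 (both (five 3 399 400) (five 1 400 404))))))) (both (mv 399 (both (five 3 398 398) (mv 400 (both (five 3 399 435) (mv 465 (both (five 6 400 401) (five 7 400 529))))))) (mv 402 (both (five 1 399 403) (mv 465 (both (five 6 400 401) (five 5 401 529)))))))) (both (mv 433 (both (mv 399 (both (five 3 398 398) (mv 400 (both (five 3 399 435) (mv 465 (both (five 6 400 401) (five 7 400 529))))))) (both (mv 398 (both (five 3 398 399) (mv 467 (both (five 0 431 466) (mv 435 (both (five 0 432 468) (mv 404 (both (five 1 400 403) (mv 436 (both (five 1 401 405) (mv 499 (both (five 5 403 531) (mv 498 (both (five 2 495 527) (mv 500 (both (five 2 496 529) (mv 533 (both (five 0 497 532) (mv 501 (both (five 0 498 534) (mv 469 (both (five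 7 404 437) (five 1 466 470))))))))))))))))))))))) (both (mv 465 (both (five 6 400 401) (mv 529 (both (five 7 400 400) (mv 561 (both (five 5 433 466) (mv 593 (both (five 7 496 625) (mv 594 (both (five 4 465 562) (five 4 497 626))))))))))) (mv 398 (both (five 3 398 399) (mv 401 (both (five 6 400 465) (mv 467 (both (five 0 431 466) (mv 435 (both (five 0 432 468) (mv 404 (both (five 1 400 403) (mv 436 (both (five 3 400 400) (five 1 401 405))))))))))))))))) (both (mv 498 (both (mv 527 (both (five 2 495 499) (five 2 494 526))) (mv 466 (both (five 1 463 467) (mv 402 (both (five 6 401 529) (mv 403 (both (five 5 370 371) (five 1 399 433))))))))) (mv 433 (both (mv 399 (both (five 3 398 398) (mv 403 (both (five 1 399 402) (mv 435 (both (five 3 399 400) (five 1 400 404))))))) (both (mv 401 (both (five 6 400 465) (mv 467 (both (five 0 431 466) (mv 435 (both (five 0 432 468) (mv 404 (both (five 1 400 403) (mv 436 (both (five 3 400 400) (five 1 401 405))))))))))) (mv 398 (both (five 3 398 399) (mv 401 (both (five 6 400 465) (mv 466 (both (five 0 431 467) (mv 369 (both (five 4 337 337) (mv 498 (both (five 7 369 402)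 (mv 527 (both (five 2 495 499) (five 2 494 526))))))))))))))))))))) (both (mv 465 (both (mv 433 (both (five 6 400 401) (mv 434 (both (mv 399 (both (five 3 398 398) (mv 403 (both (five 1 399 402) (mv 435 (both (five 3 399 400) (five 1 400 404))))))) (both (mv 399 (both (five 3 398 398) (mv 400 (both (five 3 399 435) (five 7 400 529))))) (mv 402 (both (five 1 399 403) (five 5 401 529)))))))) (mv 466 (both (five 1 462 494) (mv 467 (both (five 2 464 468) (five 1 463 498))))))) (both (mv 494 (both (mv 461 (both (five 3 461 462) (mv 493 (both (five 3 460 460) (five 0 493 529))))) (both (mv 526 (both (five 2 493 525) (mv 558 (both (mv 465 (both (five 1 462 466) (mv 433 (both (five 6 400 401) (mv 434 (both (mv 399 (both (five 3 398 398) (mv 403 (both (five 1 399 402) (mv 435 (both (five 3 399 400) (five 1 400 404))))))) (both (mv 399 (both (five 3 398 398) (mv 400 (both (five 3 399 435) (five 7 400 529))))) (mv 402 (both (five 1 399 403) (five 5 401 529)))))))))) (mv 462 (both (five 3 461 461) (mv 589 (both (five 6 461 557) (mv 590 (both (five 6 493 621) (mv 591 (both (five 4 462 559) (five 4 494 623)))))))))))))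 (both (mv 493 (both (five 0 493 529) (mv 492 (both (five 0 492 527) (mv 524 (both (five 2 491 523) (five 2 492 525))))))) (mv 461 (both (five 3 461 462) (mv 465 (both (five 1 462 466) (mv 401 (both (five 6 400 433) (mv 493 (both (five 3 460 460) (mv 492 (both (five 0 492 527) (mv 524 (both (five 2 491 523) (five 2 492 525))))))))))))))))) (both (mv 494 (both (mv 461 (both (five 3 461 462) (mv 493 (both (five 3 460 460) (five 0 493 529))))) (both (mv 526 (both (five 2 493 525) (mv 558 (both (mv 462 (both (five 3 461 461) (mv 589 (both (five 6 461 557) (mv 590 (both (five 6 493 621) (mv 591 (both (five 4 462 559) (five 4 494 623))))))))) (both (mv 527 (both (five 2 494 498) (mv 557 (both (five 2 525 529) (mv 556 (both (five 1 523 555) (five 1 524 559))))))) (both (mv 462 (both (five 3 461 461) (mv 527 (both (five 2 494 498) (mv 590 (both (five 5 494 622) (mv 591 (both (five 4 462 559) (five 4 494 623))))))))) (mv 461 (both (five 3 461 462) (mv 527 (both (five 2 494 498) (mv 557 (both (five 2 525 529) (mv 556 (both (five 1 523 555) (mv 590 (both (five 5 494 622) (mv 589 (both (five 6 493 621) (mv 591 (both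 (five 3 556 592) (five 4 494 623))))))))))))))))))))) (both (mv 461 (both (five 3 461 462) (mv 493 (both (five 3 460 460) (mv 492 (both (five 0 492 527) (mv 524 (both (five 2 491 523) (five 2 492 525))))))))) (mv 493 (both (five 0 493 529) (mv 492 (both (five 0 492 527) (mv 524 (both (five 2 491 523) (five 2 492 525))))))))))) (mv 494 (both (mv 461 (both (five 3 461 462) (mv 493 (both (five 3 460 460) (mv 492 (both (five 0 492 527) (mv 524 (both (five 2 491 523) (five 2 492 525))))))))) (both (mv 466 (both (five 1 462 465) (mv 498 (both (five 1 463 467) (mv 527 (both (five 2 495 499) (five 2 494 526))))))) (mv 461 (both (five 3 461 462) (mv 465 (both (five 1 462 466) (mv 401 (both (five 6 400 433) (mv 493 (both (five 3 460 460) (mv 525 (both (five 2 492 524) (five 2 493 526))))))))))))))))))) (both (mv 494 (both (mv 493 (both (five 0 493 529) (mv 492 (both (five 0 492 527) (mv 524 (both (five 2 491 523) (five 2 492 525))))))) (both (mv 497 (both (mv 462 (both (five 3 461 461) (mv 466 (both (five 1 462 465) (mv 498 (both (five 3 462 463) (five 1 463 467))))))) (both (mv 466 (both (five 1 462 465) (mv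 498 (both (five 1 463 467) (mv 526 (both (five 2 493 525) (five 2 494 527))))))) (both (mv 526 (both (five 2 493 525) (mv 558 (both (mv 462 (both (five 3 461 461) (mv 589 (both (five 6 461 557) (mv 590 (both (five 6 493 621) (mv 591 (both (five 4 462 559) (five 4 494 623))))))))) (both (mv 527 (both (five 2 494 498) (mv 557 (both (five 2 525 529) (mv 556 (both (five 1 523 555) (five 1 524 559))))))) (both (mv 462 (both (five 3 461 461) (mv 527 (both (five 2 494 498) (mv 590 (both (five 5 494 622) (mv 591 (both (five 4 462 559) (five 4 494 623))))))))) (mv 461 (both (five 3 461 462) (mv 527 (both (five 2 494 498) (mv 557 (both (five 2 525 529) (mv 556 (both (five 1 523 555) (mv 590 (both (five 5 494 622) (mv 589 (both (five 6 493 621) (mv 591 (both (five 3 556 592) (five 4 494 623))))))))))))))))))))) (mv 462 (both (five 3 461 461) (mv 465 (both (five 1 462 466) (mv 401 (both (five 6 400 433) (mv 526 (both (five 2 493 525) (mv 558 (both (five 5 430 463) (mv 589 (both (five 6 461 557) (mv 590 (both (five 6 493 621) (mv 591 (both (five 4 462 559) (five 4 494 623))))))))))))))))))))) (both (mv 497 (both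 (mv 462 (both (five 3 461 461) (mv 466 (both (five 1 462 465) (mv 498 (both (five 3 462 463) (five 1 463 467))))))) (both (mv 466 (both (five 1 462 465) (mv 498 (both (five 1 463 467) (mv 526 (both (five 2 493 525) (five 2 494 527))))))) (mv 461 (both (five 3 461 462) (mv 493 (both (five 3 460 460) (mv 492 (both (five 0 492 527) (mv 524 (both (five 2 491 523) (five 2 492 525)))))))))))) (both (mv 493 (both (five 0 493 529) (mv 460 (both (five 3 460 461) (mv 492 (both (five 3 459 459) (mv 524 (both (five 2 491 523) (five 2 492 525))))))))) (mv 493 (both (five 0 493 529) (mv 460 (both (five 3 460 461) (mv 492 (both (five 3 459 459) (five 0 492 527)))))))))))) (both (mv 494 (both (mv 493 (both (five 0 493 529) (mv 460 (both (five 3 460 461) (mv 492 (both (five 3 459 459) (mv 524 (both (five 2 491 523) (five 2 492 525))))))))) (both (mv 433 (both (mv 399 (both (five 4 399 463) (mv 398 (both (five 3 398 434) (mv 397 (both (five 0 396 396) (five 0 397 400))))))) (both (mv 434 (both (mv 403 (both (five 1 399 402) (mv 435 (both (five 1 400 404) (mv 467 (both (five 0 431 466) (five 0 432 468))))))) (both (mv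 399 (both (five 3 398 398) (mv 403 (both (five 1 399 402) (mv 435 (both (five 3 399 400) (five 1 400 404))))))) (both (mv 399 (both (five 3 398 398) (mv 435 (both (five 3 399 400) (mv 467 (both (five 0 431 466) (five 0 432 468))))))) (mv 398 (both (five 3 398 399) (mv 402 (both (five 1 399 403) (mv 466 (both (five 0 431 467) (mv 465 (both (five 1 462 497) (mv 370 (both (five 6 337 338) (mv 369 (both (five 7 337 337) (mv 371 (both (five 5 338 339) (mv 401 (both (five 7 369 498) (mv 372 (both (five 2 369 373) (five 2 368 400))))))))))))))))))))))) (mv 497 (both (mv 465 (both (five 6 400 401) (five 1 462 466))) (mv 462 (both (five 3 461 461) (mv 526 (both (five 2 493 525) (mv 558 (both (five 5 430 463) (mv 589 (both (five 6 461 557) (mv 590 (both (five 6 493 621) (mv 591 (both (five 4 462 559) (five 4 494 623)))))))))))))))))) (both (mv 399 (both (five 4 399 463) (mv 493 (both (five 0 493 529) (mv 525 (both (five 2 492 524) (mv 497 (both (five 2 493 526) (mv 465 (both (five 1 462 466) (mv 433 (both (five 6 400 401) (mv 398 (both (five 3 398 434) (mv 397 (both (five 0 396 396) (five 0 397 400)))))))))))))))))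 (mv 399 (both (five 4 399 463) (mv 493 (both (five 0 493 529) (mv 461 (both (five 3 460 460) (mv 497 (both (five 3 461 462) (mv 465 (both (five 1 462 466) (mv 433 (both (five 6 400 401) (mv 398 (both (five 3 398 434) (mv 397 (both (five 0 396 396) (five 0 397 400))))))))))))))))))))) (both (mv 494 (both (mv 493 (both (five 0 493 529) (mv 492 (both (five 0 492 527) (mv 524 (both (five 2 491 523) (five 2 492 525))))))) (both (mv 497 (both (mv 462 (both (five 3 461 461) (mv 466 (both (five 1 462 465) (mv 498 (both (five 3 462 463) (five 1 463 467))))))) (both (mv 462 (both (five 3 461 461) (mv 463 (both (five 4 399 399) (five 3 462 498))))) (mv 465 (both (five 1 462 466) (mv 433 (both (five 6 400 401) (mv 434 (both (mv 399 (both (five 3 398 398) (mv 403 (both (five 1 399 402) (mv 435 (both (five 3 399 400) (five 1 400 404))))))) (both (mv 399 (both (five 3 398 398) (mv 400 (both (five 3 399 435) (five 7 400 529))))) (mv 402 (both (five 1 399 403) (five 5 401 529))))))))))))) (mv 463 (both (five 4 399 399) (mv 527 (both (five 5 399 400) (mv 493 (both (five 0 492 492) (mv 461 (both (five 3 460 460) (mv 462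 (both (five 3 461 497) (mv 433 (both (five 2 430 434) (mv 525 (both (five 2 492 524) (mv 557 (both (five 5 461 589) (mv 556 (both (five 6 460 588) (mv 558 (both (five 1 524 559) (five 4 461 590)))))))))))))))))))))))) (both (mv 463 (both (five 4 399 399) (mv 527 (both (five 5 399 400) (mv 526 (both (five 6 430 558) (mv 497 (both (five 2 494 498) (five 1 493 525))))))))) (both (mv 463 (both (five 4 399 399) (mv 527 (both (five 5 399 400) (mv 558 (both (five 6 430 526) (mv 559 (both (five 6 462 590) (mv 556 (both (five 1 524 557) (mv 591 (both (five 5 495 623) (mv 494 (both (five 7 462 462) (mv 493 (both (five 0 492 492) (five 0 493 529))))))))))))))))) (mv 494 (both (mv 493 (both (five 0 493 529) (mv 492 (both (five 0 492 527) (mv 524 (both (five 2 491 523) (five 2 492 525))))))) (both (mv 497 (both (mv 462 (both (five 3 461 461) (mv 466 (both (five 1 462 465) (mv 498 (both (five 3 462 463) (five 1 463 467))))))) (both (mv 462 (both (five 3 461 461) (mv 463 (both (five 4 399 399) (five 3 462 498))))) (mv 465 (both (five 1 462 466) (mv 433 (both (five 6 400 401) (mv 434 (both (mv 399 (both (five 3 398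 398) (mv 403 (both (five 1 399 402) (mv 435 (both (five 3 399 400) (five 1 400 404))))))) (both (mv 399 (both (five 3 398 398) (mv 400 (both (five 3 399 435) (five 7 400 529))))) (mv 402 (both (five 1 399 403) (five 5 401 529))))))))))))) (mv 497 (both (mv 462 (both (five 3 461 461) (mv 466 (both (five 1 462 465) (mv 498 (both (five 3 462 463) (five 1 463 467))))))) (both (mv 466 (both (five 1 462 465) (mv 498 (both (five 1 463 467) (mv 526 (both (five 2 493 525) (five 2 494 527))))))) (mv 461 (both (five 3 461 462) (mv 493 (both (five 3 460 460) (mv 492 (both (five 0 492 527) (mv 524 (both (five 2 491 523) (five 2 492 525)))))))))))))))))))))) (both (mv 433 (both (mv 430 (both (mv 401 (both (five 1 398 402) (mv 465 (both (five 0 430 466) (five 6 400 497))))) (mv 397 (both (five 3 397 398) (mv 429 (both (five 3 396 396) (mv 461 (both (five 2 428 460) (five 2 429 462))))))))) (both (mv 434 (both (mv 403 (both (five 1 399 402) (mv 435 (both (five 1 400 404) (mv 467 (both (five 0 431 466) (five 0 432 468))))))) (both (mv 399 (both (five 3 398 398) (mv 435 (both (five 3 399 400) (mv 467 (both (five 0 431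 466) (five 0 432 468))))))) (both (mv 399 (both (five 3 398 398) (mv 403 (both (five 1 399 402) (mv 435 (both (five 3 399 400) (five 1 400 404))))))) (mv 401 (both (mv 398 (both (five 3 398 399) (mv 402 (both (five 1 399 403) (mv 466 (both (five 0 431 467) (mv 369 (both (five 4 337 337) (five 7 369 498))))))))) (both (mv 399 (both (five 3 398 398) (mv 402 (both (five 1 399 403) (mv 462 (both (five 2 430 463) (mv 465 (both (five 6 400 497) (mv 370 (both (five 6 337 338) (mv 400 (both (five 1 367 371) (mv 336 (both (five 4 336 368) (mv 367 (both (five 3 366 366) (mv 335 (both (five 4 303 303) (five 5 303 304))))))))))))))))))) (mv 465 (both (five 6 400 497) (mv 466 (both (five 0 431 467) (mv 369 (both (five 4 337 337) (five 4 369 498)))))))))))))) (both (mv 434 (both (mv 403 (both (five 1 399 402) (mv 435 (both (five 1 400 404) (mv 467 (both (five 0 431 466) (five 0 432 468))))))) (both (mv 399 (both (five 3 398 398) (mv 403 (both (five 1 399 402) (mv 435 (both (five 3 399 400) (five 1 400 404))))))) (both (mv 399 (both (five 3 398 398) (mv 435 (both (five 3 399 400) (mv 467 (both (five 0 431 466) (five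 0 432 468))))))) (mv 398 (both (five 3 398 399) (mv 402 (both (five 1 399 403) (mv 430 (both (five 3 397 397) (mv 466 (both (five 0 430 465) (five 0 431 467))))))))))))) (both (mv 430 (both (mv 397 (both (five 3 397 398) (mv 429 (both (five 3 396 396) (mv 461 (both (five 2 428 460) (five 2 429 462))))))) (both (mv 401 (both (five 1 398 402) (mv 429 (both (five 1 397 400) (mv 461 (both (five 2 428 460) (five 2 429 462))))))) (both (mv 397 (both (five 3 397 398) (mv 401 (both (five 1 398 402) (mv 429 (both (five 3 396 396) (five 1 397 400))))))) (mv 398 (both (five 3 397 397) (mv 399 (both (five 3 398 434) (mv 401 (both (five 1 398 402) (mv 462 (both (five 2 429 461) (mv 367 (both (five 6 334 335) (five 5 366 494))))))))))))))) (both (mv 430 (both (mv 462 (both (five 2 429 461) (mv 434 (both (five 2 430 463) (mv 466 (both (five 0 430 465) (five 0 431 467))))))) (both (mv 397 (both (five 3 397 398) (mv 429 (both (five 3 396 396) (mv 401 (both (five 1 397 400) (mv 465 (both (five 0 430 466) (five 6 400 497))))))))) (mv 397 (both (five 3 397 398) (mv 429 (both (five 3 396 396) (mv 461 (both (five 2 428 460)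 (five 2 429 462)))))))))) (mv 465 (both (mv 466 (both (five 0 430 430) (mv 467 (both (five 0 431 434) (five 3 432 468))))) (both (mv 497 (both (five 6 400 401) (mv 529 (both (five 7 400 400) (mv 434 (both (five 5 401 402) (mv 466 (both (five 0 431 467) (five 5 433 561))))))))) (mv 401 (both (five 6 400 497) (mv 402 (both (five 1 398 430) (mv 403 (both (five 2 399 400) (five 2 400 404)))))))))))))))) (both (mv 433 (both (mv 430 (both (mv 401 (both (five 1 398 402) (mv 465 (both (five 0 430 466) (five 6 400 497))))) (mv 397 (both (five 3 397 398) (mv 429 (both (five 3 396 396) (mv 461 (both (five 2 428 460) (five 2 429 462))))))))) (both (mv 434 (both (mv 403 (both (five 1 399 402) (mv 435 (both (five 1 400 404) (mv 467 (both (five 0 431 466) (five 0 432 468))))))) (mv 399 (both (five 3 398 398) (mv 463 (both (five 2 430 462) (five 4 399 495))))))) (both (mv 434 (both (mv 403 (both (five 1 399 402) (mv 435 (both (five 1 400 404) (mv 467 (both (five 0 431 466) (five 0 432 468))))))) (both (mv 398 (both (five 3 398 399) (mv 430 (both (five 3 397 397) (mv 466 (both (five 0 430 465) (five 0 431 467)))))))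 (mv 398 (both (five 3 398 399) (mv 402 (both (five 1 399 403) (mv 430 (both (five 3 397 397) (five 1 398 401)))))))))) (both (mv 430 (both (mv 397 (both (five 3 397 398) (mv 429 (both (five 3 396 396) (mv 461 (both (five 2 428 460) (five 2 429 462))))))) (both (mv 398 (both (five 3 397 397) (mv 402 (both (five 1 398 401) (mv 434 (both (five 3 398 399) (five 1 399 403))))))) (mv 401 (both (five 1 398 402) (mv 462 (both (five 2 429 461) (mv 463 (both (five 2 430 434) (mv 399 (both (five 4 399 495) (mv 367 (both (five 6 334 335) (five 6 366 494)))))))))))))) (both (mv 434 (both (mv 403 (both (five 1 399 402) (mv 435 (both (five 1 400 404) (mv 467 (both (five 0 431 466) (five 0 432 468))))))) (both (mv 462 (both (five 2 430 463) (mv 430 (both (five 2 429 461) (mv 466 (both (five 0 430 465) (five 0 431 467))))))) (mv 402 (both (five 1 399 403) (mv 430 (both (five 1 398 401) (mv 462 (both (five 2 429 461) (five 2 430 463)))))))))) (mv 430 (both (mv 462 (both (five 2 429 461) (mv 434 (both (five 2 430 463) (mv 466 (both (five 0 430 465) (five 0 431 467))))))) (both (mv 398 (both (five 3 397 397) (mv 434 (both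 (five 3 398 399) (mv 466 (both (five 0 430 465) (five 0 431 467))))))) (mv 397 (both (five 3 397 398) (mv 429 (both (five 3 396 396) (mv 461 (both (five 2 428 460) (five 2 429 462)))))))))))))))) (both (mv 399 (both (mv 463 (both (five 4 399 495) (mv 367 (both (mv 334 (both (five 7 334 366) (mv 335 (both (five 7 302 302) (mv 336 (both (five 5 303 304) (five 5 335 368))))))) (mv 462 (both (five 6 366 494) (mv 433 (both (five 2 430 434) (mv 461 (both (five 2 429 430) (five 1 428 460))))))))))) (both (mv 398 (both (mv 433 (both (five 3 398 434) (mv 430 (both (mv 462 (both (five 2 429 461) (mv 367 (both (five 6 334 335) (five 5 366 494))))) (mv 401 (both (five 1 398 402) (mv 400 (both (five 2 397 429) (mv 365 (both (five 3 365 366) (mv 369 (both (five 1 366 370) (mv 337 (both (five 6 304 305) (mv 306 (both (five 5 305 338) (mv 336 (both (five 7 304 304) (mv 465 (both (five 4 336 368) (five 0 430 466))))))))))))))))))))) (both (mv 397 (both (five 0 396 396) (mv 400 (both (mv 364 (both (five 3 364 365) (mv 369 (both (five 1 365 368) (mv 401 (both (five 1 366 370) (mv 402 (both (five 2 399 403) (five 2 398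 430))))))))) (both (mv 365 (both (five 3 364 364) (mv 368 (both (five 1 365 369) (mv 336 (both (five 6 303 304) (mv 303 (both (five 7 303 335) (mv 337 (both (five 5 304 305) (mv 366 (both (five 1 333 367) (mv 302 (both (five 4 302 334) (mv 429 (both (five 2 396 428) (mv 461 (both (five 5 365 493) (mv 460 (both (five 2 428 430) (five 6 364 492))))))))))))))))))))) (both (mv 429 (both (five 2 396 428) (mv 430 (both (five 2 397 401) (mv 461 (both (five 2 428 460) (mv 366 (both (five 6 333 334) (five 5 365 493))))))))) (mv 365 (both (five 3 364 364) (mv 366 (both (five 3 365 401) (mv 302 (both (five 4 302 334) (mv 368 (both (five 1 365 369) (mv 336 (both (five 6 303 304) (mv 337 (both (five 5 304 305) (five 1 333 367))))))))))))))))))) (both (mv 397 (both (five 0 396 396) (mv 433 (both (five 0 397 400) (five 3 398 434))))) (mv 397 (both (five 0 396 396) (mv 433 (both (five 3 397 430) (five 3 398 434))))))))) (both (ref 0) (both (mv 463 (both (five 4 399 495) (mv 367 (both (mv 334 (both (five 7 334 366) (mv 335 (both (five 7 302 302) (mv 336 (both (five 5 303 304) (five 5 335 368))))))) (both (mv 335 (both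 (mv 303 (both (five 4 303 400) (mv 270 (both (five 7 270 302) (mv 271 (both (five 7 238 238) (mv 272 (both (five 5 239 240) (five 5 271 304))))))))) (both (mv 334 (both (five 7 302 302) (five 7 334 366))) (mv 303 (both (five 4 303 400) (mv 272 (both (five 5 271 304) (mv 271 (both (five 5 239 240) (mv 366 (both (five 7 334 334) (five 6 270 398)))))))))))) (both (mv 336 (both (five 5 335 368) (mv 335 (both (five 5 303 304) (mv 302 (both (five 7 302 334) (mv 303 (both (five 7 270 270) (five 4 303 400))))))))) (both (mv 398 (both (mv 397 (both (five 0 396 396) (mv 433 (both (five 0 397 400) (five 3 398 434))))) (both (mv 336 (both (five 5 335 368) (mv 335 (both (five 5 303 304) (mv 303 (both (five 4 303 400) (mv 270 (both (five 7 270 302) (mv 271 (both (five 7 238 238) (five 6 270 366))))))))))) (mv 368 (both (five 5 335 336) (mv 369 (both (five 2 366 370) (mv 397 (both (five 2 365 366) (five 1 364 396)))))))))) (mv 398 (both (mv 397 (both (five 0 396 396) (mv 433 (both (five 0 397 400) (five 3 398 434))))) (both (mv 366 (both (five 7 334 334) (mv 368 (both (five 5 335 336) (mv 369 (both (five 2 366 370)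 (mv 337 (both (five 1 334 338) (mv 401 (both (five 0 366 402) (mv 400 (both (five 6 304 305) (five 0 365 365))))))))))))) (mv 368 (both (five 5 335 336) (mv 369 (both (five 2 366 370) (mv 397 (both (five 2 365 366) (five 1 364 396))))))))))))))))) (both (mv 398 (both (mv 397 (both (five 0 396 396) (mv 400 (both (mv 368 (both (five 1 365 369) (mv 336 (both (five 6 303 304) (five 6 335 463))))) (mv 429 (both (five 2 396 428) (mv 430 (both (five 2 397 401) (mv 461 (both (five 2 428 460) (mv 366 (both (five 6 333 334) (five 5 365 493))))))))))))) (both (mv 433 (both (five 3 398 434) (mv 430 (both (mv 461 (both (five 2 429 462) (mv 429 (both (five 2 428 460) (mv 428 (both (five 1 396 400) (five 1 395 427))))))) (both (mv 401 (both (five 1 398 402) (mv 400 (both (five 2 397 429) (mv 365 (both (five 3 365 366) (mv 369 (both (five 1 366 370) (mv 337 (both (five 6 304 305) (mv 306 (both (five 5 305 338) (mv 336 (both (five 7 304 304) (mv 465 (both (five 4 336 368) (five 0 430 466))))))))))))))))) (mv 401 (both (five 1 398 402) (mv 462 (both (five 2 429 461) (mv 465 (both (five 0 430 466) (mv 494 (both (five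 5 398 526) (mv 493 (both (five 6 397 525) (mv 495 (both (five 4 398 527) (five 0 493 529)))))))))))))))))) (both (mv 397 (both (five 0 396 396) (mv 433 (both (five 3 397 430) (five 3 398 434))))) (mv 397 (both (five 0 396 396) (mv 433 (both (five 0 397 400) (five 3 398 434))))))))) (both (mv 463 (both (five 4 399 495) (mv 462 (both (mv 433 (both (five 2 430 434) (mv 461 (both (five 2 429 430) (five 1 428 460))))) (mv 367 (both (five 6 366 494) (mv 334 (both (five 7 334 366) (mv 335 (both (five 7 302 302) (mv 303 (both (five 4 303 400) (mv 304 (both (five 5 271 272) (five 5 303 336))))))))))))))) (both (mv 398 (both (mv 433 (both (five 3 398 434) (mv 430 (both (mv 462 (both (five 2 429 461) (mv 367 (both (five 6 334 335) (five 5 366 494))))) (mv 401 (both (five 1 398 402) (mv 400 (both (five 2 397 429) (mv 366 (both (five 3 365 365) (mv 334 (both (five 4 302 302) (five 4 334 463))))))))))))) (both (mv 463 (both (five 4 399 495) (mv 367 (both (mv 334 (both (five 7 334 366) (mv 335 (both (five 7 302 302) (mv 303 (both (five 4 303 400) (five 6 302 430))))))) (both (mv 462 (both (five 6 366 494) (mv 335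 (both (five 6 334 430) (mv 302 (both (five 7 302 334) (mv 303 (both (five 7 270 270) (five 4 303 400))))))))) (both (mv 396 (both (five 0 396 397) (mv 462 (both (five 6 366 494) (mv 335 (both (five 6 334 430) (mv 303 (both (five 4 303 400) (mv 270 (both (five 7 270 302) (mv 271 (both (five 7 238 238) (five 6 270 366))))))))))))) (both (mv 366 (both (five 7 334 334) (mv 397 (both (five 0 396 396) (mv 368 (both (five 2 365 369) (mv 462 (both (five 6 366 494) (mv 461 (both (five 1 428 460) (mv 429 (both (five 5 365 493) (mv 400 (both (five 2 396 428) (mv 365 (both (five 3 364 364) (five 0 365 401))))))))))))))))) (mv 334 (both (five 7 334 366) (mv 335 (both (five 7 302 302) (mv 430 (both (five 6 302 303) (five 6 334 462)))))))))))))) (both (mv 397 (both (five 0 396 396) (mv 433 (both (five 0 397 400) (five 3 398 434))))) (mv 397 (both (five 0 396 396) (mv 433 (both (five 3 397 430) (five 3 398 434))))))))) (both (mv 463 (both (five 4 399 495) (mv 462 (both (mv 433 (both (five 2 430 434) (mv 461 (both (five 2 429 430) (five 1 428 460))))) (mv 367 (both (five 6 366 494) (mv 336 (both (five 5 335 368) (mv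 335 (both (five 5 303 304) (mv 302 (both (five 7 302 334) (mv 303 (both (five 7 270 270) (five 4 303 400))))))))))))))) (mv 398 (both (mv 397 (both (five 0 396 396) (mv 400 (both (mv 369 (both (five 1 365 368) (mv 401 (both (five 1 366 370) (mv 402 (both (five 2 399 403) (five 2 398 430))))))) (both (mv 364 (both (five 3 364 365) (mv 429 (both (five 2 396 428) (mv 401 (both (five 2 397 430) (mv 370 (both (five 1 366 369) (mv 402 (both (five 1 367 371) (five 2 399 403))))))))))) (both (mv 364 (both (five 3 364 365) (mv 368 (both (five 1 365 369) (mv 336 (both (five 6 303 304) (five 6 335 463))))))) (mv 364 (both (five 3 364 365) (mv 429 (both (five 2 396 428) (mv 430 (both (five 2 397 401) (mv 461 (both (five 2 428 460) (mv 463 (both (five 4 399 495) (mv 336 (both (five 6 335 368) (mv 493 (both (five 5 397 525) (mv 492 (both (five 6 396 524) (mv 494 (both (five 4 397 526) (mv 462 (both (five 6 366 367) (five 1 459 491))))))))))))))))))))))))))) (both (mv 433 (both (five 3 398 434) (mv 430 (both (mv 462 (both (five 2 429 461) (mv 367 (both (five 6 334 335) (five 5 366 494))))) (mv 401 (both (five 1 398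 402) (mv 400 (both (five 2 397 429) (mv 365 (both (five 3 365 366) (mv 369 (both (five 1 366 370) (mv 337 (both (five 6 304 305) (mv 306 (both (five 5 305 338) (mv 336 (both (five 7 304 304) (mv 465 (both (five 4 336 368) (five 0 430 466))))))))))))))))))))) (both (mv 397 (both (five 0 396 396) (mv 433 (both (five 3 397 430) (five 3 398 434))))) (mv 397 (both (five 0 396 396) (mv 433 (both (five 0 397 400) (five 3 398 434)))))))))))))))))) (both (mv 433 (both (mv 434 (both (mv 403 (both (five 1 399 402) (mv 435 (both (five 1 400 404) (mv 467 (both (five 0 431 466) (five 0 432 468))))))) (both (mv 399 (both (five 3 398 398) (mv 403 (both (five 1 399 402) (mv 435 (both (five 3 399 400) (five 1 400 404))))))) (both (mv 399 (both (five 3 398 398) (mv 435 (both (five 3 399 400) (mv 467 (both (five 0 431 466) (five 0 432 468))))))) (mv 398 (both (five 3 398 399) (mv 402 (both (five 1 399 403) (mv 430 (both (five 3 397 397) (mv 466 (both (five 0 430 465) (five 0 431 467))))))))))))) (both (mv 430 (both (mv 401 (both (five 1 398 402) (mv 465 (both (five 0 430 466) (five 6 400 497))))) (mv 429 (both (mv 397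 (both (five 3 396 396) (five 3 397 398))) (both (mv 460 (both (five 2 428 461) (mv 428 (both (five 2 427 459) (mv 395 (both (five 3 395 396) (mv 399 (both (five 1 396 400) (mv 427 (both (five 3 394 394) (five 1 395 398))))))))))) (both (mv 396 (both (five 3 396 397) (mv 428 (both (five 3 395 395) (mv 460 (both (five 2 427 459) (five 2 428 461))))))) (mv 398 (both (five 3 397 397) (mv 460 (both (five 2 428 461) (mv 428 (both (five 2 427 459) (mv 399 (both (five 1 396 400) (five 1 395 427))))))))))))))) (both (mv 434 (both (mv 403 (both (five 1 399 402) (mv 435 (both (five 1 400 404) (mv 467 (both (five 0 431 466) (five 0 432 468))))))) (both (mv 399 (both (five 3 398 398) (mv 435 (both (five 3 399 400) (mv 467 (both (five 0 431 466) (five 0 432 468))))))) (both (mv 399 (both (five 3 398 398) (mv 403 (both (five 1 399 402) (mv 435 (both (five 3 399 400) (five 1 400 404))))))) (mv 497 (both (mv 465 (both (five 6 400 401) (mv 529 (both (five 7 400 400) (five 5 401 402))))) (both (mv 398 (both (five 3 398 399) (mv 402 (both (five 1 399 403) (mv 466 (both (five 0 431 467) (mv 498 (both (five 6 401 529) (mv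 527 (both (five 2 495 499) (mv 526 (both (five 2 494 495) (five 1 493 525))))))))))))) (both (mv 398 (both (five 3 398 399) (mv 465 (both (five 6 400 401) (mv 466 (both (five 0 431 467) (mv 529 (both (five 7 400 400) (five 5 433 561))))))))) (mv 398 (both (five 3 398 399) (mv 401 (both (five 6 400 465) (mv 466 (both (five 0 431 467) (mv 369 (both (five 4 337 337) (mv 498 (both (five 7 369 402) (mv 527 (both (five 2 495 499) (mv 526 (both (five 2 494 495) (five 1 493 525))))))))))))))))))))))) (both (mv 465 (both (mv 466 (both (five 0 430 430) (mv 467 (both (five 0 431 434) (five 3 432 468))))) (both (mv 497 (both (five 6 400 401) (mv 529 (both (five 7 400 400) (mv 434 (both (five 5 401 402) (mv 466 (both (five 0 431 467) (five 5 433 561))))))))) (mv 401 (both (five 6 400 497) (mv 402 (both (five 1 398 430) (mv 403 (both (five 2 399 400) (five 2 400 404)))))))))) (both (mv 430 (both (mv 398 (both (five 3 397 397) (mv 434 (both (five 3 398 399) (mv 466 (both (five 0 430 465) (five 0 431 467))))))) (both (mv 465 (both (five 0 430 466) (mv 401 (both (five 6 400 497) (mv 429 (both (five 1 397 400) (mv 396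 (both (five 3 396 397) (mv 428 (both (five 3 395 395) (mv 460 (both (five 2 427 459) (five 2 428 461))))))))))))) (both (mv 429 (both (mv 397 (both (five 3 396 396) (five 3 397 398))) (both (mv 460 (both (five 2 428 461) (mv 428 (both (five 2 427 459) (mv 395 (both (five 3 395 396) (mv 399 (both (five 1 396 400) (mv 427 (both (five 3 394 394) (five 1 395 398))))))))))) (both (mv 396 (both (five 3 396 397) (mv 428 (both (five 3 395 395) (mv 460 (both (five 2 427 459) (five 2 428 461))))))) (mv 398 (both (five 3 397 397) (mv 460 (both (five 2 428 461) (mv 428 (both (five 2 427 459) (mv 399 (both (five 1 396 400) (five 1 395 427))))))))))))) (mv 466 (both (five 0 430 465) (mv 434 (both (five 0 431 467) (mv 399 (both (five 3 398 398) (mv 400 (both (five 3 399 435) (mv 429 (both (five 1 397 401) (five 1 396 428))))))))))))))) (both (mv 434 (both (mv 403 (both (five 1 399 402) (mv 435 (both (five 1 400 404) (mv 467 (both (five 0 431 466) (five 0 432 468))))))) (both (mv 398 (both (five 3 398 399) (mv 430 (both (five 3 397 397) (mv 466 (both (five 0 430 465) (five 0 431 467))))))) (mv 398 (both (five 3 398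 399) (mv 402 (both (five 1 399 403) (mv 430 (both (five 3 397 397) (five 1 398 401)))))))))) (mv 430 (both (mv 429 (both (mv 397 (both (five 3 396 396) (five 3 397 398))) (both (mv 460 (both (five 2 428 461) (mv 428 (both (five 2 427 459) (mv 395 (both (five 3 395 396) (mv 399 (both (five 1 396 400) (mv 427 (both (five 3 394 394) (five 1 395 398))))))))))) (both (mv 396 (both (five 3 396 397) (mv 428 (both (five 3 395 395) (mv 460 (both (five 2 427 459) (five 2 428 461))))))) (mv 398 (both (five 3 397 397) (mv 460 (both (five 2 428 461) (mv 428 (both (five 2 427 459) (mv 399 (both (five 1 396 400) (five 1 395 427))))))))))))) (both (mv 401 (both (five 1 398 402) (mv 429 (both (five 1 397 400) (mv 396 (both (five 3 396 397) (mv 428 (both (five 3 395 395) (mv 460 (both (five 2 427 459) (five 2 428 461))))))))))) (both (mv 434 (both (mv 399 (both (five 3 398 398) (mv 403 (both (five 1 399 402) (mv 435 (both (five 3 399 400) (five 1 400 404))))))) (both (mv 399 (both (five 3 398 398) (mv 400 (both (five 3 399 435) (mv 429 (both (five 1 397 401) (five 1 396 428))))))) (mv 402 (both (five 1 398 401) (five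 1 399 403)))))) (mv 398 (both (five 3 397 397) (mv 402 (both (five 1 398 401) (mv 434 (both (five 3 398 399) (five 1 399 403)))))))))))))))))) (both (mv 495 (both (mv 463 (both (five 4 399 399) (mv 527 (both (five 5 399 400) (mv 526 (both (five 6 430 558) (mv 497 (both (five 2 494 498) (five 1 493 525))))))))) (both (mv 494 (both (mv 493 (both (five 0 493 529) (mv 492 (both (five 0 492 527) (mv 524 (both (five 2 491 523) (five 2 492 525))))))) (both (mv 497 (both (mv 466 (both (five 1 462 465) (mv 498 (both (five 1 463 467) (mv 499 (both (five 2 495 527) (mv 500 (both (five 2 496 529) (mv 532 (both (five 0 496 531) (five 0 497 533))))))))))) (both (mv 462 (both (five 3 461 461) (mv 526 (both (five 2 493 525) (mv 430 (both (five 5 398 399) (mv 527 (both (five 2 494 498) (five 4 430 559))))))))) (mv 462 (both (five 3 461 461) (mv 465 (both (five 1 462 466) (mv 401 (both (five 6 400 433) (mv 526 (both (five 2 493 525) (mv 430 (both (five 5 398 399) (mv 429 (both (five 7 397 397) (five 1 397 400)))))))))))))))) (both (mv 493 (both (mv 492 (both (five 0 492 527) (mv 524 (both (five 2 491 523) (five 2 492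 525))))) (both (mv 461 (both (five 3 460 460) (mv 525 (both (five 2 492 524) (mv 526 (both (five 2 493 497) (mv 429 (both (five 4 397 397) (five 4 429 558))))))))) (mv 460 (both (five 3 460 461) (mv 492 (both (five 3 459 459) (five 0 492 527)))))))) (both (mv 493 (both (five 0 493 529) (mv 460 (both (five 3 460 461) (mv 492 (both (five 3 459 459) (mv 524 (both (five 2 491 523) (five 2 492 525))))))))) (mv 493 (both (five 0 493 529) (mv 460 (both (five 3 460 461) (mv 492 (both (five 3 459 459) (five 0 492 527)))))))))))) (both (mv 494 (both (mv 493 (both (five 0 493 529) (mv 492 (both (five 0 492 527) (mv 524 (both (five 2 491 523) (five 2 492 525))))))) (both (mv 497 (both (mv 462 (both (five 3 461 461) (mv 466 (both (five 1 462 465) (mv 498 (both (five 3 462 463) (five 1 463 467))))))) (both (mv 466 (both (five 1 462 465) (mv 498 (both (five 1 463 467) (mv 526 (both (five 2 493 525) (five 2 494 527))))))) (mv 462 (both (five 3 461 461) (mv 526 (both (five 2 493 525) (mv 558 (both (five 5 430 463) (mv 589 (both (five 6 461 557) (mv 590 (both (five 6 493 621) (mv 591 (both (five 4 462 559) (five 4 494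 623)))))))))))))))) (both (mv 493 (both (five 0 493 529) (mv 460 (both (five 3 460 461) (mv 492 (both (five 3 459 459) (mv 524 (both (five 2 491 523) (five 2 492 525))))))))) (mv 493 (both (five 0 493 529) (mv 460 (both (five 3 460 461) (mv 492 (both (five 3 459 459) (five 0 492 527))))))))))) (both (mv 463 (both (five 4 399 399) (mv 462 (both (mv 461 (both (five 1 428 460) (mv 497 (both (five 3 461 494) (five 3 462 498))))) (both (mv 433 (both (five 2 430 434) (mv 497 (both (five 3 462 498) (mv 401 (both (five 6 400 465) (mv 402 (both (five 1 398 430) (mv 403 (both (five 2 399 400) (five 2 400 404))))))))))) (mv 433 (both (five 2 430 434) (mv 461 (both (five 2 429 430) (five 1 428 460)))))))))) (mv 463 (both (five 4 399 399) (mv 527 (both (five 5 399 400) (mv 558 (both (five 6 430 526) (mv 559 (both (five 6 462 590) (mv 556 (both (five 1 524 557) (mv 591 (both (five 5 495 623) (mv 494 (both (five 7 462 462) (mv 493 (both (five 0 492 492) (five 0 493 529)))))))))))))))))))))) (both (mv 433 (both (mv 434 (both (mv 403 (both (five 1 399 402) (mv 435 (both (five 1 400 404) (mv 467 (both (five 0 431 466)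 (five 0 432 468))))))) (mv 399 (both (five 3 398 398) (mv 463 (both (five 2 430 462) (five 4 399 495))))))) (both (mv 465 (both (mv 401 (both (five 6 400 497) (mv 430 (both (five 1 398 402) (five 0 430 466))))) (both (mv 495 (both (mv 463 (both (five 4 399 399) (mv 527 (both (five 5 399 400) (mv 526 (both (five 6 430 558) (mv 497 (both (five 2 494 498) (five 1 493 525))))))))) (both (mv 466 (both (five 0 430 430) (mv 467 (both (five 3 432 468) (mv 497 (both (five 1 462 494) (five 1 463 498))))))) (mv 463 (both (five 4 399 399) (mv 527 (both (five 5 399 400) (mv 558 (both (five 6 430 526) (mv 559 (both (five 6 462 590) (mv 556 (both (five 1 524 557) (mv 591 (both (five 5 495 623) (mv 494 (both (five 7 462 462) (mv 493 (both (five 0 492 492) (five 0 493 529)))))))))))))))))))) (both (mv 495 (both (mv 463 (both (five 4 399 399) (mv 527 (both (five 5 399 400) (mv 526 (both (five 6 430 558) (mv 497 (both (five 2 494 498) (five 1 493 525))))))))) (both (mv 463 (both (five 4 399 399) (mv 527 (both (five 5 399 400) (mv 558 (both (five 6 430 526) (mv 559 (both (five 6 462 590) (mv 556 (both (five 1 524 557)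 (mv 591 (both (five 5 495 623) (mv 494 (both (five 7 462 462) (mv 493 (both (five 0 492 492) (five 0 493 529))))))))))))))))) (mv 497 (both (five 6 400 401) (mv 466 (both (five 1 462 494) (mv 467 (both (five 2 464 468) (five 1 463 498)))))))))) (both (mv 430 (both (five 0 430 466) (mv 397 (both (five 3 397 398) (mv 401 (both (five 1 398 402) (mv 429 (both (five 3 396 396) (five 1 397 400))))))))) (mv 401 (both (five 6 400 497) (mv 402 (both (five 1 398 430) (mv 403 (both (five 2 399 400) (five 2 400 404)))))))))))) (both (mv 465 (both (mv 466 (both (five 0 430 430) (mv 467 (both (five 0 431 434) (five 3 432 468))))) (both (mv 497 (both (five 6 400 401) (mv 529 (both (five 7 400 400) (mv 434 (both (five 5 401 402) (mv 466 (both (five 0 431 467) (five 5 433 561))))))))) (mv 401 (both (five 6 400 497) (mv 402 (both (five 1 398 430) (mv 403 (both (five 2 399 400) (five 2 400 404)))))))))) (both (mv 434 (both (mv 399 (both (five 3 398 398) (mv 463 (both (five 2 430 462) (five 4 399 495))))) (both (mv 462 (both (five 2 430 463) (mv 466 (both (five 0 431 467) (mv 465 (both (five 0 430 430) (mv 401 (both (five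 6 400 497) (mv 369 (both (five 4 337 337) (five 4 369 498))))))))))) (mv 399 (both (five 3 398 398) (mv 435 (both (five 3 399 400) (mv 467 (both (five 0 431 466) (five 0 432 468)))))))))) (both (mv 434 (both (mv 399 (both (five 3 398 398) (mv 463 (both (five 2 430 462) (five 4 399 495))))) (both (mv 435 (both (mv 403 (both (five 1 399 402) (five 1 400 404))) (both (mv 462 (both (five 2 430 463) (mv 468 (both (five 0 432 467) (mv 436 (both (five 0 433 469) (mv 401 (both (five 3 400 400) (mv 405 (both (five 1 401 404) (mv 437 (both (five 3 401 402) (five 1 402 406))))))))))))) (both (mv 404 (both (five 1 400 403) (mv 436 (both (five 1 401 405) (mv 468 (both (five 0 432 467) (five 0 433 469))))))) (mv 402 (both (five 1 399 403) (mv 462 (both (five 2 430 463) (mv 468 (both (five 0 432 467) (mv 436 (both (five 0 433 469) (mv 401 (both (five 3 400 400) (five 3 401 437))))))))))))))) (mv 399 (both (five 3 398 398) (mv 403 (both (five 1 399 402) (mv 435 (both (five 3 399 400) (five 1 400 404)))))))))) (mv 434 (both (mv 399 (both (five 3 398 398) (mv 463 (both (five 2 430 462) (five 4 399 495))))) (both (mv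 402 (both (five 1 399 403) (mv 430 (both (five 1 398 401) (mv 397 (both (five 3 397 398) (mv 429 (both (five 3 396 396) (mv 462 (both (five 2 430 463) (mv 333 (both (five 4 333 365) (mv 465 (both (five 0 430 466) (mv 497 (both (five 5 401 529) (mv 526 (both (five 7 397 494) (mv 527 (both (five 1 493 525) (mv 498 (both (five 2 494 495) (five 2 495 499))))))))))))))))))))))) (both (mv 399 (both (five 3 398 398) (mv 403 (both (five 1 399 402) (mv 435 (both (five 3 399 400) (five 1 400 404))))))) (mv 402 (both (five 1 399 403) (mv 401 (both (five 1 398 430) (mv 463 (both (five 2 430 462) (mv 399 (both (five 4 399 495) (mv 465 (both (five 6 400 497) (mv 370 (both (five 6 337 338) (mv 400 (both (five 1 367 371) (mv 336 (both (five 4 336 368) (mv 367 (both (five 3 366 366) (mv 335 (both (five 4 303 303) (five 5 303 304))))))))))))))))))))))))))))))) (both (mv 495 (both (mv 463 (both (five 4 399 399) (mv 527 (both (five 5 399 400) (mv 526 (both (five 6 430 558) (mv 497 (both (five 2 494 498) (five 1 493 525))))))))) (both (mv 494 (both (mv 493 (both (five 0 493 529) (mv 492 (both (five 0 492 527) (mv 524 (both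 (five 2 491 523) (five 2 492 525))))))) (both (mv 497 (both (mv 466 (both (five 1 462 465) (mv 498 (both (five 1 463 467) (mv 526 (both (five 2 493 525) (five 2 494 527))))))) (both (mv 462 (both (five 3 461 461) (mv 526 (both (five 2 493 525) (mv 527 (both (five 2 494 498) (mv 430 (both (five 4 398 398) (five 4 430 559))))))))) (mv 465 (both (five 1 462 466) (mv 433 (both (five 6 400 401) (mv 434 (both (mv 399 (both (five 3 398 398) (mv 403 (both (five 1 399 402) (mv 435 (both (five 3 399 400) (five 1 400 404))))))) (both (mv 399 (both (five 3 398 398) (mv 400 (both (five 3 399 435) (five 7 400 529))))) (mv 402 (both (five 1 399 403) (five 5 401 529))))))))))))) (both (mv 493 (both (mv 492 (both (five 0 492 527) (mv 524 (both (five 2 491 523) (five 2 492 525))))) (both (mv 461 (both (five 3 460 460) (mv 462 (both (five 3 461 497) (mv 525 (both (five 2 492 524) (mv 430 (both (five 6 397 398) (five 5 429 557))))))))) (mv 460 (both (five 3 460 461) (mv 492 (both (five 3 459 459) (five 0 492 527)))))))) (both (mv 493 (both (five 0 493 529) (mv 460 (both (five 3 460 461) (mv 492 (both (five 3 459 459) (mv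 524 (both (five 2 491 523) (five 2 492 525))))))))) (mv 493 (both (five 0 493 529) (mv 460 (both (five 3 460 461) (mv 492 (both (five 3 459 459) (five 0 492 527)))))))))))) (both (mv 494 (both (mv 493 (both (five 0 493 529) (mv 492 (both (five 0 492 527) (mv 524 (both (five 2 491 523) (five 2 492 525))))))) (both (mv 497 (both (mv 462 (both (five 3 461 461) (mv 466 (both (five 1 462 465) (mv 498 (both (five 3 462 463) (five 1 463 467))))))) (both (mv 466 (both (five 1 462 465) (mv 498 (both (five 1 463 467) (mv 526 (both (five 2 493 525) (five 2 494 527))))))) (both (mv 462 (both (five 3 461 461) (mv 526 (both (five 2 493 525) (mv 527 (both (five 2 494 498) (mv 430 (both (five 4 398 398) (five 4 430 559))))))))) (mv 462 (both (five 3 461 461) (mv 465 (both (five 1 462 466) (mv 526 (both (five 2 493 525) (mv 463 (both (five 5 430 558) (mv 527 (both (five 5 399 400) (mv 430 (both (five 4 398 398) (five 4 430 559))))))))))))))))) (both (mv 493 (both (five 0 493 529) (mv 460 (both (five 3 460 461) (mv 492 (both (five 3 459 459) (mv 524 (both (five 2 491 523) (five 2 492 525))))))))) (mv 493 (both (five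 0 493 529) (mv 460 (both (five 3 460 461) (mv 492 (both (five 3 459 459) (five 0 492 527))))))))))) (both (mv 463 (both (five 4 399 399) (mv 462 (both (mv 461 (both (five 1 428 460) (mv 497 (both (five 3 461 494) (five 3 462 498))))) (both (mv 433 (both (five 2 430 434) (mv 497 (both (five 3 462 498) (mv 401 (both (five 6 400 465) (mv 402 (both (five 1 398 430) (mv 403 (both (five 2 399 400) (five 2 400 404))))))))))) (mv 433 (both (five 2 430 434) (mv 461 (both (five 2 429 430) (five 1 428 460)))))))))) (both (mv 494 (both (mv 493 (both (five 0 493 529) (mv 460 (both (five 3 460 461) (mv 492 (both (five 3 459 459) (mv 524 (both (five 2 491 523) (five 2 492 525))))))))) (both (mv 462 (both (mv 461 (both (five 3 461 497) (mv 460 (both (five 0 459 459) (mv 430 (both (five 2 428 429) (mv 399 (both (five 5 398 526) (mv 367 (both (five 6 334 335) (five 5 366 398))))))))))) (both (mv 399 (both (five 4 399 463) (mv 430 (both (five 5 398 526) (mv 367 (both (five 6 334 335) (five 5 366 398))))))) (mv 461 (both (five 3 461 497) (mv 460 (both (five 0 459 459) (five 1 428 463)))))))) (both (mv 463 (both (five 4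 399 399) (mv 493 (both (five 0 493 529) (mv 524 (both (five 2 492 525) (mv 492 (both (five 2 491 523) (mv 459 (both (five 3 459 460) (mv 491 (both (five 3 458 458) (five 1 459 462))))))))))))) (mv 463 (both (five 4 399 399) (mv 493 (both (five 0 493 529) (mv 524 (both (five 2 492 525) (mv 492 (both (five 2 491 523) (mv 462 (both (five 1 459 491) (mv 497 (both (five 3 461 461) (five 3 462 498))))))))))))))))) (mv 463 (both (five 4 399 399) (mv 527 (both (five 5 399 400) (mv 558 (both (five 6 430 526) (mv 559 (both (five 6 462 590) (mv 556 (both (five 1 524 557) (mv 591 (both (five 5 495 623) (mv 494 (both (five 7 462 462) (mv 493 (both (five 0 492 492) (five 0 493 529))))))))))))))))))))))) (mv 399 (both (mv 463 (both (five 4 399 495) (mv 367 (both (mv 334 (both (five 7 334 366) (mv 335 (both (five 7 302 302) (mv 336 (both (five 5 303 304) (five 5 335 368))))))) (mv 462 (both (five 6 366 494) (mv 433 (both (five 2 430 434) (mv 461 (both (five 2 429 430) (five 1 428 460))))))))))) (both (mv 398 (both (mv 433 (both (five 3 398 434) (mv 430 (both (mv 462 (both (five 2 429 461) (mv 367 (both (five 6 334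 335) (five 5 366 494))))) (both (mv 401 (both (five 1 398 402) (mv 400 (both (five 2 397 429) (mv 366 (both (five 3 365 365) (mv 302 (both (five 4 302 334) (mv 369 (both (five 1 366 370) (mv 337 (both (five 6 304 305) (mv 336 (both (five 7 304 304) (mv 338 (both (five 5 305 306) (mv 335 (both (five 3 302 303) (five 2 334 367))))))))))))))))))) (mv 401 (both (five 1 398 402) (mv 429 (both (five 1 397 400) (mv 461 (both (five 2 428 460) (five 2 429 462)))))))))))) (both (mv 397 (both (five 0 396 396) (mv 400 (both (mv 364 (both (five 3 364 365) (mv 369 (both (five 1 365 368) (mv 401 (both (five 1 366 370) (mv 402 (both (five 2 399 403) (five 2 398 430))))))))) (both (mv 365 (both (five 3 364 364) (mv 368 (both (five 1 365 369) (mv 336 (both (five 6 303 304) (mv 303 (both (five 7 303 335) (mv 337 (both (five 5 304 305) (mv 366 (both (five 1 333 367) (mv 302 (both (five 4 302 334) (mv 429 (both (five 2 396 428) (mv 461 (both (five 5 365 493) (mv 460 (both (five 2 428 430) (five 6 364 492))))))))))))))))))))) (both (mv 429 (both (five 2 396 428) (mv 430 (both (five 2 397 401) (mv 461 (both (five 2 428 460)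 (mv 366 (both (five 6 333 334) (five 5 365 493))))))))) (mv 365 (both (five 3 364 364) (mv 366 (both (five 3 365 401) (mv 302 (both (five 4 302 334) (mv 368 (both (five 1 365 369) (mv 336 (both (five 6 303 304) (mv 337 (both (five 5 304 305) (five 1 333 367))))))))))))))))))) (both (mv 397 (both (five 0 396 396) (mv 433 (both (five 0 397 400) (five 3 398 434))))) (mv 397 (both (five 0 396 396) (mv 433 (both (five 3 397 430) (five 3 398 434))))))))) (both (ref 0) (both (mv 463 (both (five 4 399 495) (mv 367 (both (mv 334 (both (five 7 334 366) (mv 335 (both (five 7 302 302) (mv 336 (both (five 5 303 304) (five 5 335 368))))))) (both (mv 335 (both (mv 303 (both (five 4 303 400) (mv 270 (both (five 7 270 302) (mv 271 (both (five 7 238 238) (mv 272 (both (five 5 239 240) (five 5 271 304))))))))) (both (mv 334 (both (five 7 302 302) (five 7 334 366))) (mv 303 (both (five 4 303 400) (mv 272 (both (five 5 271 304) (mv 271 (both (five 5 239 240) (mv 366 (both (five 7 334 334) (five 6 270 398)))))))))))) (both (mv 336 (both (five 5 335 368) (mv 335 (both (five 5 303 304) (mv 302 (both (five 7 302 334) (mv 303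 (both (five 7 270 270) (five 4 303 400))))))))) (both (mv 398 (both (mv 397 (both (five 0 396 396) (mv 433 (both (five 0 397 400) (five 3 398 434))))) (both (mv 336 (both (five 5 335 368) (mv 335 (both (five 5 303 304) (mv 303 (both (five 4 303 400) (mv 270 (both (five 7 270 302) (mv 271 (both (five 7 238 238) (five 6 270 366))))))))))) (mv 368 (both (five 5 335 336) (mv 369 (both (five 2 366 370) (mv 397 (both (five 2 365 366) (five 1 364 396)))))))))) (mv 398 (both (mv 397 (both (five 0 396 396) (mv 433 (both (five 0 397 400) (five 3 398 434))))) (both (mv 366 (both (five 7 334 334) (mv 368 (both (five 5 335 336) (mv 369 (both (five 2 366 370) (mv 337 (both (five 1 334 338) (mv 401 (both (five 0 366 402) (mv 400 (both (five 6 304 305) (five 0 365 365))))))))))))) (mv 368 (both (five 5 335 336) (mv 369 (both (five 2 366 370) (mv 397 (both (five 2 365 366) (five 1 364 396))))))))))))))))) (both (mv 398 (both (mv 433 (both (five 3 398 434) (mv 430 (both (mv 461 (both (five 2 429 462) (mv 429 (both (five 2 428 460) (mv 428 (both (five 1 396 400) (five 1 395 427))))))) (both (mv 401 (both (five 1 398 402)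 (mv 400 (both (five 2 397 429) (mv 366 (both (five 3 365 365) (mv 334 (both (five 4 302 302) (five 4 334 463))))))))) (mv 401 (both (five 1 398 402) (mv 462 (both (five 2 429 461) (mv 494 (both (five 5 398 526) (mv 493 (both (five 6 397 525) (mv 495 (both (five 4 398 527) (five 0 493 529)))))))))))))))) (both (mv 397 (both (five 0 396 396) (mv 400 (both (mv 368 (both (five 1 365 369) (mv 336 (both (five 6 303 304) (five 6 335 463))))) (mv 429 (both (five 2 396 428) (mv 430 (both (five 2 397 401) (mv 461 (both (five 2 428 460) (mv 366 (both (five 6 333 334) (five 5 365 493))))))))))))) (both (mv 397 (both (five 0 396 396) (mv 433 (both (five 3 397 430) (five 3 398 434))))) (mv 397 (both (five 0 396 396) (mv 433 (both (five 0 397 400) (five 3 398 434))))))))) (both (mv 463 (both (five 4 399 495) (mv 462 (both (mv 433 (both (five 2 430 434) (mv 461 (both (five 2 429 430) (five 1 428 460))))) (mv 367 (both (five 6 366 494) (mv 334 (both (five 7 334 366) (mv 335 (both (five 7 302 302) (mv 303 (both (five 4 303 400) (mv 304 (both (five 5 271 272) (five 5 303 336))))))))))))))) (both (mv 398 (both (mv 433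 (both (five 3 398 434) (mv 430 (both (mv 462 (both (five 2 429 461) (mv 367 (both (five 6 334 335) (five 5 366 494))))) (mv 401 (both (five 1 398 402) (mv 400 (both (five 2 397 429) (mv 366 (both (five 3 365 365) (mv 334 (both (five 4 302 302) (five 4 334 463))))))))))))) (both (mv 463 (both (five 4 399 495) (mv 367 (both (mv 334 (both (five 7 334 366) (mv 335 (both (five 7 302 302) (mv 303 (both (five 4 303 400) (five 6 302 430))))))) (both (mv 462 (both (five 6 366 494) (mv 335 (both (five 6 334 430) (mv 302 (both (five 7 302 334) (mv 303 (both (five 7 270 270) (five 4 303 400))))))))) (both (mv 396 (both (five 0 396 397) (mv 462 (both (five 6 366 494) (mv 335 (both (five 6 334 430) (mv 303 (both (five 4 303 400) (mv 270 (both (five 7 270 302) (mv 271 (both (five 7 238 238) (five 6 270 366))))))))))))) (both (mv 366 (both (five 7 334 334) (mv 397 (both (five 0 396 396) (mv 368 (both (five 2 365 369) (mv 462 (both (five 6 366 494) (mv 461 (both (five 1 428 460) (mv 429 (both (five 5 365 493) (mv 400 (both (five 2 396 428) (mv 365 (both (five 3 364 364) (five 0 365 401))))))))))))))))) (mv 334 (both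 (five 7 334 366) (mv 335 (both (five 7 302 302) (mv 430 (both (five 6 302 303) (five 6 334 462)))))))))))))) (both (mv 397 (both (five 0 396 396) (mv 433 (both (five 0 397 400) (five 3 398 434))))) (mv 397 (both (five 0 396 396) (mv 433 (both (five 3 397 430) (five 3 398 434))))))))) (both (mv 463 (both (five 4 399 495) (mv 462 (both (mv 433 (both (five 2 430 434) (mv 461 (both (five 2 429 430) (five 1 428 460))))) (mv 367 (both (five 6 366 494) (mv 336 (both (five 5 335 368) (mv 335 (both (five 5 303 304) (mv 302 (both (five 7 302 334) (mv 303 (both (five 7 270 270) (five 4 303 400))))))))))))))) (both (mv 398 (both (mv 462 (both (mv 433 (both (five 3 398 434) (mv 461 (both (five 2 429 430) (mv 495 (both (mv 460 (both (five 1 428 463) (mv 494 (both (five 0 459 459) (five 3 460 493))))) (both (mv 494 (both (five 3 461 497) (mv 493 (both (five 3 460 460) (five 0 493 529))))) (both (mv 497 (both (five 3 461 494) (mv 463 (both (five 3 462 498) (mv 527 (both (five 5 399 400) (mv 526 (both (five 1 493 525) (five 6 430 558))))))))) (mv 463 (both (five 1 428 460) (mv 527 (both (five 5 399 400) (mv 526 (both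 (five 6 430 558) (mv 497 (both (five 1 493 525) (mv 498 (both (five 2 495 499) (five 1 494 529))))))))))))))))))) (both (mv 433 (both (five 3 398 434) (mv 430 (both (five 2 429 461) (mv 367 (both (five 6 334 335) (five 5 366 494))))))) (both (mv 463 (both (five 4 399 495) (mv 367 (both (five 6 366 494) (mv 336 (both (five 5 335 368) (mv 335 (both (five 5 303 304) (mv 303 (both (five 4 303 400) (mv 270 (both (five 7 270 302) (mv 271 (both (five 7 238 238) (five 6 270 366))))))))))))))) (mv 433 (both (five 3 398 434) (mv 430 (both (five 2 429 461) (mv 335 (both (five 6 334 367) (mv 401 (both (five 1 398 402) (mv 400 (both (five 2 397 429) (mv 365 (both (five 3 365 366) (mv 369 (both (five 1 366 370) (mv 337 (both (five 6 304 305) (mv 306 (both (five 5 305 338) (mv 336 (both (five 7 304 304) (mv 368 (both (five 7 303 303) (five 6 335 463))))))))))))))))))))))))))) (both (mv 397 (both (five 0 396 396) (mv 400 (both (mv 369 (both (five 1 365 368) (mv 401 (both (five 1 366 370) (mv 402 (both (five 2 399 403) (five 2 398 430))))))) (both (mv 364 (both (five 3 364 365) (mv 429 (both (five 2 396 428) (mv 401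 (both (five 2 397 430) (mv 370 (both (five 1 366 369) (mv 402 (both (five 1 367 371) (five 2 399 403))))))))))) (both (mv 364 (both (five 3 364 365) (mv 368 (both (five 1 365 369) (mv 336 (both (five 6 303 304) (five 6 335 463))))))) (mv 364 (both (five 3 364 365) (mv 429 (both (five 2 396 428) (mv 430 (both (five 2 397 401) (mv 461 (both (five 2 428 460) (mv 463 (both (five 4 399 495) (mv 336 (both (five 6 335 368) (mv 493 (both (five 5 397 525) (mv 492 (both (five 6 396 524) (mv 494 (both (five 4 397 526) (mv 462 (both (five 6 366 367) (five 1 459 491))))))))))))))))))))))))))) (both (mv 397 (both (five 0 396 396) (mv 433 (both (five 3 397 430) (five 3 398 434))))) (mv 397 (both (five 0 396 396) (mv 433 (both (five 0 397 400) (five 3 398 434))))))))) (mv 463 (both (five 4 399 495) (mv 462 (both (mv 433 (both (five 2 430 434) (mv 461 (both (five 2 429 430) (five 1 428 460))))) (both (mv 367 (both (five 6 366 494) (mv 335 (both (five 6 334 430) (mv 303 (both (five 4 303 400) (mv 304 (both (five 5 271 272) (five 5 303 336))))))))) (mv 367 (both (five 6 366 494) (mv 398 (both (mv 397 (both (five 0 396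 396) (mv 433 (both (five 0 397 400) (five 3 398 434))))) (both (mv 366 (both (five 7 334 334) (mv 368 (both (five 5 335 336) (mv 369 (both (five 2 366 370) (mv 337 (both (five 1 334 338) (mv 401 (both (five 0 366 402) (mv 400 (both (five 6 304 305) (five 0 365 365))))))))))))) (mv 368 (both (five 5 335 336) (mv 369 (both (five 2 366 370) (mv 397 (both (five 2 365 366) (five 1 364 396)))))))))))))))))))))))))))))))))))))) (both (mv 464 (both (mv 401 (both (five 5 400 433) (mv 400 (both (five 5 368 369) (mv 529 (both (five 4 400 497) (five 4 432 561))))))) (both (mv 399 (both (five 7 399 431) (mv 400 (both (five 7 367 367) (mv 529 (both (five 4 400 497) (five 4 432 561))))))) (mv 431 (both (five 7 399 399) (mv 430 (both (mv 429 (both (five 0 429 465) (mv 396 (both (five 3 396 397) (mv 428 (both (five 3 395 395) (mv 460 (both (five 2 427 459) (five 2 428 461))))))))) (both (mv 433 (both (five 5 400 401) (mv 397 (both (five 3 397 398) (mv 429 (both (five 3 396 396) (mv 461 (both (five 2 428 460) (five 2 429 462))))))))) (both (mv 433 (both (five 5 400 401) (mv 462 (both (five 2 429 461) (mv 434 (both (five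 2 430 463) (mv 466 (both (five 0 430 465) (five 0 431 467))))))))) (mv 401 (both (five 5 400 433) (mv 429 (both (five 0 429 465) (mv 396 (both (five 3 396 397) (mv 428 (both (five 3 395 395) (five 0 428 463)))))))))))))))))) (both (mv 464 (both (mv 401 (both (five 5 400 433) (mv 400 (both (five 5 368 369) (mv 529 (both (five 4 400 497) (five 4 432 561))))))) (both (mv 401 (both (five 5 400 433) (mv 400 (both (five 5 368 369) (mv 527 (both (five 6 399 495) (five 6 431 559))))))) (both (mv 527 (both (five 6 431 559) (mv 400 (both (five 6 399 495) (mv 529 (both (five 4 400 497) (five 4 432 561))))))) (mv 497 (both (mv 463 (both (mv 433 (both (five 5 400 401) (mv 434 (both (five 2 431 435) (mv 498 (both (five 3 463 499) (mv 529 (both (five 4 432 561) (mv 402 (both (five 5 401 465) (five 6 401 466))))))))))) (both (mv 462 (both (five 0 461 461) (mv 498 (both (five 0 462 465) (five 3 462 495))))) (both (mv 433 (both (five 5 400 401) (mv 434 (both (five 2 431 435) (mv 462 (both (five 0 461 461) (five 1 430 465))))))) (mv 401 (both (five 5 400 433) (mv 462 (both (five 0 461 461) (mv 498 (both (five 3 462 495)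 (five 3 463 499))))))))))) (both (mv 527 (both (five 6 431 559) (mv 498 (both (five 2 495 499) (mv 526 (both (five 2 494 495) (five 1 493 525))))))) (both (mv 463 (both (mv 433 (both (five 5 400 401) (mv 434 (both (five 2 431 435) (mv 462 (both (five 0 461 461) (five 1 430 465))))))) (mv 527 (both (five 6 431 559) (mv 526 (both (five 1 493 525) (mv 529 (both (five 4 432 561) (mv 494 (both (five 3 493 493) (mv 558 (both (five 2 525 557) (mv 590 (both (five 5 462 495) (mv 621 (both (five 6 493 589) (mv 622 (both (five 6 525 653) (mv 623 (both (five 4 494 591) (five 4 526 655))))))))))))))))))))) (mv 401 (both (five 5 400 433) (mv 527 (both (five 6 431 559) (mv 498 (both (five 2 495 499) (mv 526 (both (five 1 493 525) (five 1 494 529))))))))))))))))) (both (mv 464 (both (mv 399 (both (five 7 399 431) (mv 400 (both (five 7 367 367) (mv 529 (both (five 4 400 497) (five 4 432 561))))))) (both (mv 399 (both (five 7 399 431) (mv 400 (both (five 7 367 367) (mv 527 (both (five 6 399 495) (five 6 431 559))))))) (both (mv 527 (both (five 6 431 559) (mv 400 (both (five 6 399 495) (mv 529 (both (five 4 400 497) (five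 4 432 561))))))) (mv 527 (both (five 6 431 559) (mv 526 (both (mv 399 (both (five 7 399 431) (mv 529 (both (five 4 432 561) (mv 493 (both (five 3 493 494) (mv 525 (both (five 3 492 492) (mv 557 (both (five 2 524 556) (five 2 525 558))))))))))) (both (mv 497 (both (five 1 493 525) (mv 498 (both (five 2 494 495) (five 2 495 499))))) (mv 431 (both (five 7 399 399) (mv 529 (both (five 4 432 561) (mv 494 (both (five 3 493 493) (mv 497 (both (five 1 494 498) (mv 558 (both (five 2 525 557) (mv 463 (both (five 5 430 462) (five 6 430 495)))))))))))))))))))))) (both (mv 464 (both (mv 401 (both (five 5 400 433) (mv 400 (both (five 5 368 369) (mv 527 (both (five 6 399 495) (five 6 431 559))))))) (both (mv 399 (both (five 7 399 431) (mv 400 (both (five 7 367 367) (mv 527 (both (five 6 399 495) (five 6 431 559))))))) (mv 431 (both (five 7 399 399) (mv 430 (both (mv 429 (both (five 0 429 465) (mv 396 (both (five 3 396 397) (mv 428 (both (five 3 395 395) (mv 460 (both (five 2 427 459) (five 2 428 461))))))))) (both (mv 433 (both (five 5 400 401) (mv 397 (both (five 3 397 398) (mv 429 (both (five 3 396 396) (mv 461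 (both (five 2 428 460) (five 2 429 462))))))))) (both (mv 433 (both (five 5 400 401) (mv 462 (both (five 2 429 461) (mv 434 (both (five 2 430 463) (mv 466 (both (five 0 430 465) (five 0 431 467))))))))) (mv 401 (both (five 5 400 433) (mv 429 (both (five 0 429 465) (mv 396 (both (five 3 396 397) (mv 428 (both (five 3 395 395) (five 0 428 463)))))))))))))))))) (both (mv 464 (both (mv 431 (both (five 7 399 399) (mv 430 (both (mv 429 (both (five 0 429 465) (mv 396 (both (five 3 396 397) (mv 428 (both (five 3 395 395) (mv 460 (both (five 2 427 459) (five 2 428 461))))))))) (both (mv 433 (both (five 5 400 401) (mv 397 (both (five 3 397 398) (mv 429 (both (five 3 396 396) (mv 461 (both (five 2 428 460) (five 2 429 462))))))))) (both (mv 433 (both (five 5 400 401) (mv 462 (both (five 2 429 461) (mv 434 (both (five 2 430 463) (mv 466 (both (five 0 430 465) (five 0 431 467))))))))) (mv 401 (both (five 5 400 433) (mv 429 (both (five 0 429 465) (mv 396 (both (five 3 396 397) (mv 428 (both (five 3 395 395) (five 0 428 463))))))))))))))) (both (mv 497 (both (mv 463 (both (mv 433 (both (five 5 400 401) (mv 434 (both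 (five 2 431 435) (mv 498 (both (five 3 463 499) (mv 529 (both (five 4 432 561) (mv 402 (both (five 5 401 465) (five 6 401 466))))))))))) (both (mv 462 (both (five 0 461 461) (mv 498 (both (five 0 462 465) (five 3 462 495))))) (both (mv 433 (both (five 5 400 401) (mv 434 (both (five 2 431 435) (mv 462 (both (five 0 461 461) (five 1 430 465))))))) (mv 401 (both (five 5 400 433) (mv 462 (both (five 0 461 461) (mv 498 (both (five 3 462 495) (five 3 463 499))))))))))) (both (mv 527 (both (five 6 431 559) (mv 498 (both (five 2 495 499) (mv 526 (both (five 2 494 495) (five 1 493 525))))))) (both (mv 463 (both (mv 433 (both (five 5 400 401) (mv 434 (both (five 2 431 435) (mv 462 (both (five 0 461 461) (five 1 430 465))))))) (mv 527 (both (five 6 431 559) (mv 526 (both (five 1 493 525) (mv 529 (both (five 4 432 561) (mv 494 (both (five 3 493 493) (mv 558 (both (five 2 525 557) (mv 590 (both (five 5 462 495) (mv 621 (both (five 6 493 589) (mv 622 (both (five 6 525 653) (mv 623 (both (five 4 494 591) (five 4 526 655))))))))))))))))))))) (mv 401 (both (five 5 400 433) (mv 527 (both (five 6 431 559) (mv 498 (both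 (five 2 495 499) (mv 526 (both (five 1 493 525) (five 1 494 529))))))))))))) (both (mv 527 (both (five 6 431 559) (mv 526 (both (mv 399 (both (five 7 399 431) (mv 529 (both (five 4 432 561) (mv 493 (both (five 3 493 494) (mv 525 (both (five 3 492 492) (mv 557 (both (five 2 524 556) (five 2 525 558))))))))))) (both (mv 497 (both (five 1 493 525) (mv 498 (both (five 2 494 495) (five 2 495 499))))) (mv 431 (both (five 7 399 399) (mv 529 (both (five 4 432 561) (mv 494 (both (five 3 493 493) (mv 497 (both (five 1 494 498) (mv 558 (both (five 2 525 557) (mv 463 (both (five 5 430 462) (five 6 430 495)))))))))))))))))) (both (mv 431 (both (five 7 399 399) (mv 430 (both (mv 429 (both (five 0 429 465) (mv 396 (both (five 3 396 397) (mv 428 (both (five 3 395 395) (mv 460 (both (five 2 427 459) (five 2 428 461))))))))) (both (mv 433 (both (five 5 400 401) (mv 397 (both (five 3 397 398) (mv 429 (both (five 3 396 396) (mv 461 (both (five 2 428 460) (five 2 429 462))))))))) (both (mv 433 (both (five 5 400 401) (mv 398 (both (five 3 397 397) (mv 462 (both (five 2 429 461) (mv 465 (both (five 0 430 466) (mv 527 (both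 (five 6 431 559) (mv 494 (both (five 4 398 495) (mv 525 (both (five 6 397 493) (mv 526 (both (five 1 493 497) (five 6 429 557))))))))))))))))) (both (mv 429 (both (five 0 429 465) (mv 397 (both (five 3 396 396) (mv 433 (both (five 3 397 398) (five 5 400 401))))))) (mv 429 (both (five 0 429 465) (mv 433 (both (five 5 400 401) (mv 461 (both (five 2 428 460) (five 2 429 462)))))))))))))) (mv 431 (both (five 7 399 399) (mv 430 (both (mv 429 (both (five 0 429 465) (mv 396 (both (five 3 396 397) (mv 428 (both (five 3 395 395) (five 0 428 463))))))) (both (mv 433 (both (five 5 400 401) (mv 397 (both (five 3 397 398) (mv 429 (both (five 3 396 396) (mv 428 (both (five 0 428 463) (mv 460 (both (five 2 427 459) (five 2 428 461))))))))))) (both (mv 433 (both (five 5 400 401) (mv 397 (both (five 3 397 398) (mv 466 (both (five 0 430 465) (mv 434 (both (five 0 431 467) (mv 402 (both (five 1 399 403) (mv 463 (both (five 2 431 435) (mv 527 (both (five 6 431 559) (mv 529 (both (five 4 432 561) (mv 497 (both (five 6 401 498) (mv 526 (both (five 1 493 525) (mv 494 (both (five 3 493 493) (mv 558 (both (five 2 525 557) (mv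 590 (both (five 5 462 495) (mv 621 (both (five 6 493 589) (mv 622 (both (five 6 525 653) (mv 623 (both (five 4 494 591) (five 4 526 655))))))))))))))))))))))))))))))))) (both (mv 429 (both (five 0 429 465) (mv 397 (both (five 3 396 396) (mv 433 (both (five 3 397 398) (five 5 400 401))))))) (mv 401 (both (five 5 400 433) (mv 429 (both (five 0 429 465) (mv 428 (both (five 0 428 463) (mv 460 (both (five 2 427 459) (five 2 428 461))))))))))))))))))))) (both (mv 464 (both (mv 399 (both (five 7 399 431) (mv 400 (both (five 7 367 367) (mv 401 (both (five 5 368 369) (five 5 400 433))))))) (both (mv 399 (both (five 7 399 431) (mv 400 (both (five 7 367 367) (mv 529 (both (five 4 400 497) (five 4 432 561))))))) (both (mv 401 (both (five 5 400 433) (mv 400 (both (five 5 368 369) (mv 529 (both (five 4 400 497) (five 4 432 561))))))) (mv 431 (both (five 7 399 399) (mv 430 (both (mv 429 (both (five 0 429 465) (mv 396 (both (five 3 396 397) (mv 428 (both (five 3 395 395) (mv 460 (both (five 2 427 459) (five 2 428 461))))))))) (both (mv 433 (both (five 5 400 401) (mv 397 (both (five 3 397 398) (mv 429 (both (five 3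 396 396) (mv 461 (both (five 2 428 460) (five 2 429 462))))))))) (both (mv 433 (both (five 5 400 401) (mv 398 (both (five 3 397 397) (mv 462 (both (five 2 429 461) (mv 465 (both (five 0 430 466) (mv 527 (both (five 6 431 559) (mv 494 (both (five 4 398 495) (mv 525 (both (five 6 397 493) (mv 526 (both (five 1 493 497) (five 6 429 557))))))))))))))))) (both (mv 429 (both (five 0 429 465) (mv 397 (both (five 3 396 396) (mv 433 (both (five 3 397 398) (five 5 400 401))))))) (mv 429 (both (five 0 429 465) (mv 433 (both (five 5 400 401) (mv 461 (both (five 2 428 460) (five 2 429 462)))))))))))))))))) (mv 464 (both (mv 399 (both (five 7 399 431) (mv 400 (both (five 7 367 367) (mv 401 (both (five 5 368 369) (five 5 400 433))))))) (both (mv 401 (both (five 5 400 433) (mv 400 (both (five 5 368 369) (mv 529 (both (five 4 400 497) (five 4 432 561))))))) (both (mv 399 (both (five 7 399 431) (mv 400 (both (five 7 367 367) (mv 529 (both (five 4 400 497) (five 4 432 561))))))) (mv 431 (both (five 7 399 399) (mv 430 (both (mv 429 (both (five 0 429 465) (mv 396 (both (five 3 396 397) (mv 428 (both (five 3 395 395) (five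 0 428 463))))))) (both (mv 433 (both (five 5 400 401) (mv 397 (both (five 3 397 398) (mv 429 (both (five 3 396 396) (mv 428 (both (five 0 428 463) (mv 460 (both (five 2 427 459) (five 2 428 461))))))))))) (both (mv 433 (both (five 5 400 401) (mv 397 (both (five 3 397 398) (mv 466 (both (five 0 430 465) (mv 434 (both (five 0 431 467) (mv 402 (both (five 1 399 403) (mv 463 (both (five 2 431 435) (mv 527 (both (five 6 431 559) (mv 529 (both (five 4 432 561) (mv 497 (both (five 6 401 498) (mv 526 (both (five 1 493 525) (mv 494 (both (five 3 493 493) (mv 558 (both (five 2 525 557) (mv 590 (both (five 5 462 495) (mv 621 (both (five 6 493 589) (mv 622 (both (five 6 525 653) (mv 623 (both (five 4 494 591) (five 4 526 655))))))))))))))))))))))))))))))))) (both (mv 429 (both (five 0 429 465) (mv 397 (both (five 3 396 396) (mv 433 (both (five 3 397 398) (five 5 400 401))))))) (mv 401 (both (five 5 400 433) (mv 429 (both (five 0 429 465) (mv 428 (both (five 0 428 463) (mv 460 (both (five 2 427 459) (five 2 428 461)))))))))))))))))))))))))))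

theorem L105 : W (S 878694100701304956511192169158242687862212665431883220280182872118455237980908336946979793684870563807462937680039967586724118902039808942127312687095760289792) (S 186877568176424184371246853170042651894215128012167988665195328645692191491096317725765291055801244581374179713291387420519395000343888698016478876375934653727730045000711403489852154162533325864960) :=
  check_sound (Env.cons L104 Env.nil) (x := 432) (t := tL105) (by decide +kernel)

def tL106 : T :=
  (both (ref 0) (both (ref 1) (both (mv 464 (both (mv 432 (both (mv 401 (both (five 5 400 433) (mv 400 (both (five 5 368 369) (mv 527 (both (five 6 399 495) (five 6 431 559))))))) (both (mv 399 (both (five 7 399 431) (mv 400 (both (five 7 367 367) (mv 527 (both (five 6 399 495) (five 6 431 559))))))) (mv 431 (both (five 7 399 399) (mv 430 (both (mv 429 (both (five 0 429 465) (mv 396 (both (five 3 396 397) (mv 428 (both (five 3 395 395) (mv 460 (both (five 2 427 459) (five 2 428 461))))))))) (both (mv 433 (both (five 5 400 401) (mv 397 (both (five 3 397 398) (mv 429 (both (five 3 396 396) (mv 461 (both (five 2 428 460) (five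 2 429 462))))))))) (both (mv 433 (both (five 5 400 401) (mv 462 (both (five 2 429 461) (mv 434 (both (five 2 430 463) (mv 466 (both (five 0 430 465) (five 0 431 467))))))))) (mv 401 (both (five 5 400 433) (mv 429 (both (five 0 429 465) (mv 396 (both (five 3 396 397) (mv 428 (both (five 3 395 395) (five 0 428 463)))))))))))))))))) (both (mv 560 (both (mv 591 (both (five 6 463 559) (mv 592 (both (five 6 495 623) (mv 593 (both (five 4 464 561) (five 4 496 625))))))) (both (mv 433 (both (five 5 432 465) (mv 463 (both (five 7 431 431) (mv 592 (both (five 7 463 495) (mv 593 (both (five 4 464 561) (five 4 496 625))))))))) (both (mv 433 (both (five 5 432 465) (mv 463 (both (five 7 431 431) (mv 591 (both (five 6 463 559) (mv 592 (both (five 7 463 495) (five 6 495 623))))))))) (mv 465 (both (five 5 432 433) (mv 466 (both (mv 467 (both (five 2 463 495) (mv 436 (both (five 1 432 435) (mv 468 (both (five 1 433 437) (mv 500 (both (five 0 464 499) (five 0 465 501))))))))) (both (mv 463 (both (five 7 431 431) (mv 434 (both (five 1 431 435) (mv 499 (both (five 0 463 498) (mv 467 (both (five 0 464 500) (mv 370 (both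 (five 4 370 402) (mv 559 (both (five 6 463 591) (mv 561 (both (five 4 464 593) (mv 563 (both (five 7 434 531) (mv 562 (both (five 3 527 527) (mv 595 (both (five 0 559 594) (five 0 560 596))))))))))))))))))))) (mv 463 (both (five 7 431 431) (mv 494 (both (five 2 462 495) (mv 462 (both (five 2 461 493) (mv 429 (both (five 3 429 430) (mv 461 (both (five 3 428 428) (mv 365 (both (five 4 365 397) (mv 526 (both (five 7 429 558) (mv 559 (both (five 6 463 591) (mv 561 (both (five 4 464 593) (mv 527 (both (five 0 525 525) (five 3 526 562)))))))))))))))))))))))))))))) (both (mv 560 (both (mv 591 (both (five 6 463 559) (mv 592 (both (five 6 495 623) (mv 593 (both (five 4 464 561) (five 4 496 625))))))) (both (mv 433 (both (five 5 432 465) (mv 432 (both (five 5 400 401) (mv 561 (both (five 4 432 529) (five 4 464 593))))))) (mv 433 (both (five 5 432 465) (mv 432 (both (five 5 400 401) (mv 559 (both (five 6 431 527) (five 6 463 591)))))))))) (both (mv 432 (both (mv 399 (both (five 7 399 431) (mv 400 (both (five 7 367 367) (mv 401 (both (five 5 368 369) (five 5 400 433))))))) (both (mv 401 (both (five 5 400 433) (mv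 400 (both (five 5 368 369) (mv 367 (both (five 7 367 399) (mv 368 (both (five 7 335 335) (mv 495 (both (five 6 367 463) (five 6 399 527))))))))))) (both (mv 399 (both (five 7 399 431) (mv 400 (both (five 7 367 367) (mv 369 (both (five 5 368 401) (mv 368 (both (five 5 336 337) (mv 495 (both (five 6 367 463) (five 6 399 527))))))))))) (both (mv 401 (both (five 5 400 433) (mv 400 (both (five 5 368 369) (mv 495 (both (five 6 399 527) (mv 463 (both (five 6 367 368) (mv 560 (both (five 7 431 431) (five 7 463 592))))))))))) (both (mv 399 (both (five 7 399 431) (mv 400 (both (five 7 367 367) (mv 495 (both (five 6 399 527) (mv 463 (both (five 6 367 368) (mv 529 (both (five 4 432 561) (mv 494 (both (five 0 493 493) (mv 465 (both (five 2 462 466) (mv 560 (both (five 5 432 433) (five 7 463 592))))))))))))))))) (mv 431 (both (five 7 399 399) (mv 430 (both (mv 429 (both (five 0 429 465) (mv 396 (both (five 3 396 397) (mv 428 (both (five 3 395 395) (mv 460 (both (five 2 427 459) (five 2 428 461))))))))) (both (mv 433 (both (five 5 400 401) (mv 397 (both (five 3 397 398) (mv 429 (both (five 3 396 396) (mv 461 (both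 (five 2 428 460) (five 2 429 462))))))))) (both (mv 433 (both (five 5 400 401) (mv 462 (both (five 2 429 461) (mv 434 (both (five 2 430 463) (mv 466 (both (five 0 430 465) (five 0 431 467))))))))) (mv 401 (both (five 5 400 433) (mv 429 (both (five 0 429 465) (mv 396 (both (five 3 396 397) (mv 428 (both (five 3 395 395) (five 0 428 463))))))))))))))))))))) (mv 560 (both (mv 591 (both (five 6 463 559) (mv 592 (both (five 6 495 623) (mv 593 (both (five 4 464 561) (five 4 496 625))))))) (both (mv 463 (both (five 7 431 431) (mv 591 (both (five 6 463 559) (mv 592 (both (five 7 463 495) (five 6 495 623))))))) (mv 431 (both (five 7 431 463) (mv 432 (both (five 7 399 399) (mv 561 (both (five 4 432 529) (five 4 464 593))))))))))))))) (both (mv 560 (both (mv 592 (both (mv 623 (both (five 6 495 591) (mv 624 (both (five 6 527 655) (mv 625 (both (five 4 496 593) (five 4 528 657))))))) (both (mv 463 (both (five 7 463 495) (mv 497 (both (five 5 464 465) (mv 623 (both (five 6 495 591) (mv 624 (both (five 5 496 529) (five 6 527 655))))))))) (both (mv 463 (both (five 7 463 495) (mv 497 (both (five 5 464 465) (mv 624 (both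 (five 5 496 529) (mv 625 (both (five 4 496 593) (five 4 528 657))))))))) (mv 495 (both (five 7 463 463) (mv 494 (both (mv 493 (both (five 0 493 529) (mv 460 (both (five 3 460 461) (mv 492 (both (five 3 459 459) (mv 524 (both (five 2 491 523) (five 2 492 525))))))))) (both (mv 497 (both (five 5 464 465) (mv 462 (both (five 3 461 461) (mv 526 (both (five 2 493 525) (mv 591 (both (five 6 495 623) (mv 558 (both (five 4 462 559) (mv 557 (both (five 6 461 589) (mv 593 (both (five 3 557 590) (five 4 496 625))))))))))))))) (both (mv 493 (both (five 0 493 529) (mv 461 (both (five 3 460 460) (mv 497 (both (five 3 461 462) (five 5 464 465))))))) (mv 493 (both (five 0 493 529) (mv 497 (both (five 5 464 465) (mv 525 (both (five 2 492 524) (five 2 493 526))))))))))))))))) (both (mv 464 (both (mv 433 (both (five 5 432 465) (mv 432 (both (five 5 400 401) (mv 561 (both (five 4 432 529) (five 4 464 593))))))) (both (mv 431 (both (five 7 431 463) (mv 432 (both (five 7 399 399) (mv 561 (both (five 4 432 529) (five 4 464 593))))))) (mv 463 (both (five 7 431 431) (mv 462 (both (mv 461 (both (five 0 461 497) (mv 428 (both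 (five 3 428 429) (mv 460 (both (five 3 427 427) (five 0 460 495))))))) (both (mv 465 (both (five 5 432 433) (mv 494 (both (five 2 461 493) (mv 466 (both (five 2 462 495) (mv 435 (both (five 1 431 434) (mv 467 (both (five 1 432 436) (mv 499 (both (five 0 463 498) (five 0 464 500))))))))))))) (mv 433 (both (five 5 432 465) (mv 461 (both (five 0 461 497) (mv 428 (both (five 3 428 429) (mv 460 (both (five 3 427 427) (mv 492 (both (five 2 459 491) (five 2 460 493))))))))))))))))))) (both (mv 592 (both (mv 623 (both (five 6 495 591) (mv 624 (both (five 6 527 655) (mv 625 (both (five 4 496 593) (five 4 528 657))))))) (both (mv 463 (both (five 7 463 495) (mv 464 (both (five 7 431 431) (mv 591 (both (five 6 463 559) (five 6 495 623))))))) (mv 463 (both (five 7 463 495) (mv 464 (both (five 7 431 431) (mv 593 (both (five 4 464 561) (five 4 496 625)))))))))) (both (mv 464 (both (mv 463 (both (five 7 431 431) (mv 591 (both (five 6 463 559) (mv 592 (both (five 7 463 495) (five 6 495 623))))))) (both (mv 433 (both (five 5 432 465) (mv 432 (both (five 5 400 401) (mv 399 (both (five 7 399 431) (mv 400 (both (five 7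 367 367) (mv 529 (both (five 4 400 497) (five 4 432 561))))))))))) (mv 433 (both (five 5 432 465) (mv 432 (both (five 5 400 401) (mv 529 (both (five 4 432 561) (mv 497 (both (five 4 400 400) (mv 591 (both (five 6 463 559) (mv 592 (both (five 6 495 623) (five 5 496 624)))))))))))))))) (mv 592 (both (mv 623 (both (five 6 495 591) (mv 624 (both (five 6 527 655) (mv 625 (both (five 4 496 593) (five 4 528 657))))))) (both (mv 497 (both (five 5 464 465) (mv 623 (both (five 6 495 591) (mv 624 (both (five 5 496 529) (five 6 527 655))))))) (mv 465 (both (five 5 464 497) (mv 464 (both (five 5 432 433) (mv 593 (both (five 4 464 561) (five 4 496 625))))))))))))))) (both (mv 464 (both (mv 560 (both (mv 591 (both (five 6 463 559) (mv 592 (both (five 6 495 623) (mv 593 (both (five 4 464 561) (five 4 496 625))))))) (both (mv 433 (both (five 5 432 465) (mv 432 (both (five 5 400 401) (mv 561 (both (five 4 432 529) (five 4 464 593))))))) (mv 433 (both (five 5 432 465) (mv 432 (both (five 5 400 401) (mv 559 (both (five 6 431 527) (five 6 463 591)))))))))) (both (mv 560 (both (mv 591 (both (five 6 463 559) (mv 592 (both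 (five 6 495 623) (mv 593 (both (five 4 464 561) (five 4 496 625))))))) (both (mv 431 (both (five 7 431 463) (mv 465 (both (five 5 432 433) (mv 591 (both (five 6 463 559) (mv 592 (both (five 5 464 497) (five 6 495 623))))))))) (both (mv 431 (both (five 7 431 463) (mv 465 (both (five 5 432 433) (mv 592 (both (five 5 464 497) (mv 593 (both (five 4 464 561) (five 4 496 625))))))))) (mv 463 (both (five 7 431 431) (mv 462 (both (mv 461 (both (five 0 461 497) (mv 428 (both (five 3 428 429) (mv 460 (both (five 3 427 427) (mv 492 (both (five 2 459 491) (five 2 460 493))))))))) (both (mv 465 (both (five 5 432 433) (mv 429 (both (five 3 429 430) (mv 461 (both (five 3 428 428) (mv 493 (both (five 2 460 492) (five 2 461 494))))))))) (both (mv 465 (both (five 5 432 433) (mv 430 (both (five 3 429 429) (mv 494 (both (five 2 461 493) (mv 497 (both (five 0 462 498) (mv 559 (both (five 6 463 591) (mv 526 (both (five 4 430 527) (mv 525 (both (five 6 429 557) (mv 561 (both (five 3 525 558) (five 4 464 593))))))))))))))))) (both (mv 461 (both (five 0 461 497) (mv 429 (both (five 3 428 428) (mv 465 (both (five 3 429 430)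 (five 5 432 433))))))) (mv 461 (both (five 0 461 497) (mv 465 (both (five 5 432 433) (mv 493 (both (five 2 460 492) (five 2 461 494)))))))))))))))))) (both (mv 432 (both (mv 399 (both (five 7 399 431) (mv 400 (both (five 7 367 367) (mv 529 (both (five 4 400 497) (five 4 432 561))))))) (both (mv 401 (both (five 5 400 433) (mv 400 (both (five 5 368 369) (mv 529 (both (five 4 400 497) (five 4 432 561))))))) (mv 431 (both (five 7 399 399) (mv 430 (both (mv 429 (both (five 0 429 465) (mv 396 (both (five 3 396 397) (mv 428 (both (five 3 395 395) (mv 460 (both (five 2 427 459) (five 2 428 461))))))))) (both (mv 433 (both (five 5 400 401) (mv 397 (both (five 3 397 398) (mv 429 (both (five 3 396 396) (mv 461 (both (five 2 428 460) (five 2 429 462))))))))) (both (mv 433 (both (five 5 400 401) (mv 462 (both (five 2 429 461) (mv 434 (both (five 2 430 463) (mv 466 (both (five 0 430 465) (five 0 431 467))))))))) (mv 401 (both (five 5 400 433) (mv 429 (both (five 0 429 465) (mv 396 (both (five 3 396 397) (mv 428 (both (five 3 395 395) (five 0 428 463)))))))))))))))))) (both (mv 560 (both (mv 591 (both (five 6 463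 559) (mv 592 (both (five 6 495 623) (mv 593 (both (five 4 464 561) (five 4 496 625))))))) (both (mv 431 (both (five 7 431 463) (mv 432 (both (five 7 399 399) (mv 561 (both (five 4 432 529) (five 4 464 593))))))) (mv 431 (both (five 7 431 463) (mv 432 (both (five 7 399 399) (mv 559 (both (five 6 431 527) (five 6 463 591)))))))))) (mv 432 (both (mv 399 (both (five 7 399 431) (mv 400 (both (five 7 367 367) (mv 401 (both (five 5 368 369) (five 5 400 433))))))) (both (mv 399 (both (five 7 399 431) (mv 400 (both (five 7 367 367) (mv 369 (both (five 5 368 401) (mv 368 (both (five 5 336 337) (mv 497 (both (five 4 368 465) (five 4 400 529))))))))))) (both (mv 401 (both (five 5 400 433) (mv 400 (both (five 5 368 369) (mv 367 (both (five 7 367 399) (mv 368 (both (five 7 335 335) (mv 497 (both (five 4 368 465) (five 4 400 529))))))))))) (both (mv 399 (both (five 7 399 431) (mv 400 (both (five 7 367 367) (mv 497 (both (five 4 400 529) (mv 465 (both (five 4 368 368) (mv 560 (both (five 5 432 433) (five 5 464 592))))))))))) (both (mv 401 (both (five 5 400 433) (mv 400 (both (five 5 368 369) (mv 497 (both (five 4 400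 529) (mv 465 (both (five 4 368 368) (mv 527 (both (five 6 431 559) (mv 498 (both (five 2 495 499) (mv 463 (both (five 0 462 462) (mv 560 (both (five 7 431 431) (five 5 464 592))))))))))))))))) (mv 431 (both (five 7 399 399) (mv 430 (both (mv 429 (both (five 0 429 465) (mv 396 (both (five 3 396 397) (mv 428 (both (five 3 395 395) (mv 460 (both (five 2 427 459) (five 2 428 461))))))))) (both (mv 433 (both (five 5 400 401) (mv 397 (both (five 3 397 398) (mv 429 (both (five 3 396 396) (mv 461 (both (five 2 428 460) (five 2 429 462))))))))) (both (mv 433 (both (five 5 400 401) (mv 462 (both (five 2 429 461) (mv 434 (both (five 2 430 463) (mv 466 (both (five 0 430 465) (five 0 431 467))))))))) (mv 401 (both (five 5 400 433) (mv 429 (both (five 0 429 465) (mv 396 (both (five 3 396 397) (mv 428 (both (five 3 395 395) (five 0 428 463)))))))))))))))))))))))))) (both (mv 560 (both (mv 592 (both (mv 623 (both (five 6 495 591) (mv 624 (both (five 6 527 655) (mv 625 (both (five 4 496 593) (five 4 528 657))))))) (both (mv 463 (both (five 7 463 495) (mv 464 (both (five 7 431 431) (mv 591 (both (five 6 463 559) (five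 6 495 623))))))) (mv 463 (both (five 7 463 495) (mv 464 (both (five 7 431 431) (mv 593 (both (five 4 464 561) (five 4 496 625)))))))))) (both (mv 592 (both (mv 495 (both (five 7 463 463) (mv 623 (both (five 6 495 591) (mv 624 (both (five 7 495 527) (five 6 527 655))))))) (both (mv 623 (both (five 6 495 591) (mv 624 (both (five 6 527 655) (mv 625 (both (five 4 496 593) (five 4 528 657))))))) (both (mv 495 (both (five 7 463 463) (mv 624 (both (five 7 495 527) (mv 625 (both (five 4 496 593) (five 4 528 657))))))) (mv 591 (both (five 6 495 623) (mv 590 (both (mv 463 (both (five 7 463 495) (mv 465 (both (five 5 464 497) (mv 593 (both (five 4 496 625) (mv 557 (both (five 3 557 558) (mv 589 (both (five 3 556 556) (mv 621 (both (five 2 588 620) (five 2 589 622))))))))))))) (both (mv 463 (both (five 7 463 495) (mv 465 (both (five 5 464 497) (mv 593 (both (five 4 496 625) (mv 557 (both (five 3 557 558) (mv 562 (both (five 1 558 561) (mv 594 (both (five 1 559 563) (mv 595 (both (five 3 559 559) (mv 627 (both (five 0 591 626) (five 0 592 628))))))))))))))))) (mv 561 (both (five 1 557 589) (mv 562 (both (five 2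 558 559) (five 2 559 563)))))))))))))) (both (mv 464 (both (mv 433 (both (five 5 432 465) (mv 432 (both (five 5 400 401) (mv 559 (both (five 6 431 527) (five 6 463 591))))))) (both (mv 431 (both (five 7 431 463) (mv 432 (both (five 7 399 399) (mv 559 (both (five 6 431 527) (five 6 463 591))))))) (mv 463 (both (five 7 431 431) (mv 462 (both (mv 461 (both (five 0 461 497) (mv 428 (both (five 3 428 429) (mv 460 (both (five 3 427 427) (five 0 460 495))))))) (both (mv 465 (both (five 5 432 433) (mv 494 (both (five 2 461 493) (mv 466 (both (five 2 462 495) (mv 435 (both (five 1 431 434) (mv 467 (both (five 1 432 436) (mv 499 (both (five 0 463 498) (five 0 464 500))))))))))))) (mv 433 (both (five 5 432 465) (mv 461 (both (five 0 461 497) (mv 428 (both (five 3 428 429) (mv 460 (both (five 3 427 427) (mv 492 (both (five 2 459 491) (five 2 460 493))))))))))))))))))) (both (mv 592 (both (mv 623 (both (five 6 495 591) (mv 624 (both (five 6 527 655) (mv 625 (both (five 4 496 593) (five 4 528 657))))))) (both (mv 465 (both (five 5 464 497) (mv 464 (both (five 5 432 433) (mv 593 (both (five 4 464 561) (five 4 496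 625))))))) (mv 465 (both (five 5 464 497) (mv 464 (both (five 5 432 433) (mv 591 (both (five 6 463 559) (five 6 495 623)))))))))) (mv 464 (both (mv 463 (both (five 7 431 431) (mv 592 (both (five 7 463 495) (mv 593 (both (five 4 464 561) (five 4 496 625))))))) (both (mv 465 (both (five 5 432 433) (mv 592 (both (five 5 464 497) (mv 593 (both (five 4 464 561) (five 4 496 625))))))) (mv 431 (both (five 7 431 463) (mv 432 (both (five 7 399 399) (mv 433 (both (five 5 400 401) (five 5 432 465))))))))))))))) (both (mv 560 (both (mv 592 (both (mv 623 (both (five 6 495 591) (mv 624 (both (five 6 527 655) (mv 625 (both (five 4 496 593) (five 4 528 657))))))) (both (mv 463 (both (five 7 463 495) (mv 464 (both (five 7 431 431) (mv 591 (both (five 6 463 559) (five 6 495 623))))))) (mv 463 (both (five 7 463 495) (mv 464 (both (five 7 431 431) (mv 593 (both (five 4 464 561) (five 4 496 625)))))))))) (both (mv 464 (both (mv 463 (both (five 7 431 431) (mv 462 (both (mv 461 (both (five 0 461 497) (mv 428 (both (five 3 428 429) (mv 460 (both (five 3 427 427) (five 0 460 495))))))) (both (mv 465 (both (five 5 432 433) (mv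 494 (both (five 2 461 493) (mv 466 (both (five 2 462 495) (mv 435 (both (five 1 431 434) (mv 467 (both (five 1 432 436) (mv 499 (both (five 0 463 498) (five 0 464 500))))))))))))) (mv 433 (both (five 5 432 465) (mv 461 (both (five 0 461 497) (mv 428 (both (five 3 428 429) (mv 460 (both (five 3 427 427) (mv 492 (both (five 2 459 491) (five 2 460 493)))))))))))))))) (both (mv 559 (both (five 6 463 591) (mv 558 (both (mv 557 (both (five 1 525 529) (mv 524 (both (five 3 524 525) (mv 556 (both (five 3 523 523) (five 1 524 527))))))) (both (mv 561 (both (five 4 464 593) (mv 526 (both (five 3 525 525) (mv 527 (both (five 3 526 562) (mv 590 (both (five 2 557 589) (mv 622 (both (five 5 494 495) (five 5 526 654))))))))))) (mv 557 (both (five 1 525 529) (mv 561 (both (five 4 464 593) (mv 589 (both (five 2 556 588) (five 2 557 590)))))))))))) (mv 463 (both (five 7 431 431) (mv 462 (both (mv 461 (both (five 0 461 497) (mv 428 (both (five 3 428 429) (mv 460 (both (five 3 427 427) (mv 492 (both (five 2 459 491) (five 2 460 493))))))))) (both (mv 465 (both (five 5 432 433) (mv 429 (both (five 3 429 430) (mv 461 (both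 (five 3 428 428) (mv 493 (both (five 2 460 492) (five 2 461 494))))))))) (both (mv 465 (both (five 5 432 433) (mv 430 (both (five 3 429 429) (mv 494 (both (five 2 461 493) (mv 497 (both (five 0 462 498) (mv 559 (both (five 6 463 591) (mv 526 (both (five 4 430 527) (mv 525 (both (five 6 429 557) (mv 561 (both (five 3 525 558) (five 4 464 593))))))))))))))))) (both (mv 461 (both (five 0 461 497) (mv 429 (both (five 3 428 428) (mv 465 (both (five 3 429 430) (five 5 432 433))))))) (mv 461 (both (five 0 461 497) (mv 465 (both (five 5 432 433) (mv 493 (both (five 2 460 492) (five 2 461 494))))))))))))))))) (both (mv 592 (both (mv 623 (both (five 6 495 591) (mv 624 (both (five 6 527 655) (mv 625 (both (five 4 496 593) (five 4 528 657))))))) (both (mv 463 (both (five 7 463 495) (mv 497 (both (five 5 464 465) (mv 623 (both (five 6 495 591) (mv 624 (both (five 5 496 529) (five 6 527 655))))))))) (both (mv 463 (both (five 7 463 495) (mv 497 (both (five 5 464 465) (mv 624 (both (five 5 496 529) (mv 625 (both (five 4 496 593) (five 4 528 657))))))))) (mv 495 (both (five 7 463 463) (mv 494 (both (mv 493 (both (five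 0 493 529) (mv 460 (both (five 3 460 461) (mv 492 (both (five 3 459 459) (mv 524 (both (five 2 491 523) (five 2 492 525))))))))) (both (mv 497 (both (five 5 464 465) (mv 462 (both (five 3 461 461) (mv 526 (both (five 2 493 525) (mv 591 (both (five 6 495 623) (mv 558 (both (five 4 462 559) (mv 557 (both (five 6 461 589) (mv 593 (both (five 3 557 590) (five 4 496 625))))))))))))))) (both (mv 493 (both (five 0 493 529) (mv 461 (both (five 3 460 460) (mv 497 (both (five 3 461 462) (five 5 464 465))))))) (mv 493 (both (five 0 493 529) (mv 497 (both (five 5 464 465) (mv 525 (both (five 2 492 524) (five 2 493 526))))))))))))))))) (both (mv 592 (both (mv 623 (both (five 6 495 591) (mv 624 (both (five 6 527 655) (mv 625 (both (five 4 496 593) (five 4 528 657))))))) (both (mv 497 (both (five 5 464 465) (mv 623 (both (five 6 495 591) (mv 624 (both (five 5 496 529) (five 6 527 655))))))) (mv 465 (both (five 5 464 497) (mv 464 (both (five 5 432 433) (mv 593 (both (five 4 464 561) (five 4 496 625)))))))))) (both (mv 592 (both (mv 495 (both (five 7 463 463) (mv 624 (both (five 7 495 527) (mv 625 (both (five 4 496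 593) (five 4 528 657))))))) (both (mv 497 (both (five 5 464 465) (mv 624 (both (five 5 496 529) (mv 625 (both (five 4 496 593) (five 4 528 657))))))) (mv 463 (both (five 7 463 495) (mv 464 (both (five 7 431 431) (mv 465 (both (five 5 432 433) (five 5 464 497)))))))))) (mv 592 (both (mv 495 (both (five 7 463 463) (mv 623 (both (five 6 495 591) (mv 624 (both (five 7 495 527) (five 6 527 655))))))) (both (mv 497 (both (five 5 464 465) (mv 623 (both (five 6 495 591) (mv 624 (both (five 5 496 529) (five 6 527 655))))))) (mv 463 (both (five 7 463 495) (mv 464 (both (five 7 431 431) (mv 465 (both (five 5 432 433) (five 5 464 497)))))))))))))))) (both (mv 464 (both (mv 432 (both (mv 401 (both (five 5 400 433) (mv 400 (both (five 5 368 369) (mv 527 (both (five 6 399 495) (five 6 431 559))))))) (both (mv 399 (both (five 7 399 431) (mv 400 (both (five 7 367 367) (mv 527 (both (five 6 399 495) (five 6 431 559))))))) (mv 431 (both (five 7 399 399) (mv 430 (both (mv 429 (both (five 0 429 465) (mv 396 (both (five 3 396 397) (mv 428 (both (five 3 395 395) (mv 460 (both (five 2 427 459) (five 2 428 461))))))))) (both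 (mv 433 (both (five 5 400 401) (mv 397 (both (five 3 397 398) (mv 429 (both (five 3 396 396) (mv 461 (both (five 2 428 460) (five 2 429 462))))))))) (both (mv 433 (both (five 5 400 401) (mv 462 (both (five 2 429 461) (mv 434 (both (five 2 430 463) (mv 466 (both (five 0 430 465) (five 0 431 467))))))))) (mv 401 (both (five 5 400 433) (mv 429 (both (five 0 429 465) (mv 396 (both (five 3 396 397) (mv 428 (both (five 3 395 395) (five 0 428 463)))))))))))))))))) (both (mv 560 (both (mv 559 (both (five 6 463 591) (mv 558 (both (mv 557 (both (five 1 525 529) (mv 524 (both (five 3 524 525) (mv 556 (both (five 3 523 523) (five 1 524 527))))))) (both (mv 561 (both (five 4 464 593) (mv 526 (both (five 3 525 525) (mv 527 (both (five 3 526 562) (mv 590 (both (five 2 557 589) (mv 622 (both (five 5 494 495) (five 5 526 654))))))))))) (mv 557 (both (five 1 525 529) (mv 561 (both (five 4 464 593) (mv 589 (both (five 2 556 588) (five 2 557 590)))))))))))) (both (mv 463 (both (five 7 431 431) (mv 462 (both (mv 461 (both (five 0 461 497) (mv 428 (both (five 3 428 429) (mv 460 (both (five 3 427 427) (five 0 460 495)))))))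 (both (mv 465 (both (five 5 432 433) (mv 494 (both (five 2 461 493) (mv 466 (both (five 2 462 495) (mv 435 (both (five 1 431 434) (mv 467 (both (five 1 432 436) (mv 499 (both (five 0 463 498) (five 0 464 500))))))))))))) (mv 433 (both (five 5 432 465) (mv 461 (both (five 0 461 497) (mv 428 (both (five 3 428 429) (mv 460 (both (five 3 427 427) (mv 492 (both (five 2 459 491) (five 2 460 493)))))))))))))))) (mv 463 (both (five 7 431 431) (mv 462 (both (mv 461 (both (five 0 461 497) (mv 428 (both (five 3 428 429) (mv 460 (both (five 3 427 427) (mv 492 (both (five 2 459 491) (five 2 460 493))))))))) (both (mv 465 (both (five 5 432 433) (mv 429 (both (five 3 429 430) (mv 461 (both (five 3 428 428) (mv 493 (both (five 2 460 492) (five 2 461 494))))))))) (both (mv 465 (both (five 5 432 433) (mv 430 (both (five 3 429 429) (mv 494 (both (five 2 461 493) (mv 497 (both (five 0 462 498) (mv 559 (both (five 6 463 591) (mv 526 (both (five 4 430 527) (mv 525 (both (five 6 429 557) (mv 561 (both (five 3 525 558) (five 4 464 593))))))))))))))))) (both (mv 461 (both (five 0 461 497) (mv 429 (both (five 3 428 428) (mv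 465 (both (five 3 429 430) (five 5 432 433))))))) (mv 461 (both (five 0 461 497) (mv 465 (both (five 5 432 433) (mv 493 (both (five 2 460 492) (five 2 461 494))))))))))))))))) (both (mv 432 (both (mv 399 (both (five 7 399 431) (mv 400 (both (five 7 367 367) (mv 529 (both (five 4 400 497) (five 4 432 561))))))) (both (mv 401 (both (five 5 400 433) (mv 400 (both (five 5 368 369) (mv 529 (both (five 4 400 497) (five 4 432 561))))))) (mv 431 (both (five 7 399 399) (mv 430 (both (mv 429 (both (five 0 429 465) (mv 396 (both (five 3 396 397) (mv 428 (both (five 3 395 395) (mv 460 (both (five 2 427 459) (five 2 428 461))))))))) (both (mv 433 (both (five 5 400 401) (mv 397 (both (five 3 397 398) (mv 429 (both (five 3 396 396) (mv 461 (both (five 2 428 460) (five 2 429 462))))))))) (both (mv 433 (both (five 5 400 401) (mv 462 (both (five 2 429 461) (mv 434 (both (five 2 430 463) (mv 466 (both (five 0 430 465) (five 0 431 467))))))))) (mv 401 (both (five 5 400 433) (mv 429 (both (five 0 429 465) (mv 396 (both (five 3 396 397) (mv 428 (both (five 3 395 395) (five 0 428 463)))))))))))))))))) (both (mv 432 (both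 (mv 401 (both (five 5 400 433) (mv 400 (both (five 5 368 369) (mv 529 (both (five 4 400 497) (five 4 432 561))))))) (both (mv 527 (both (five 6 431 559) (mv 400 (both (five 6 399 495) (mv 529 (both (five 4 400 497) (five 4 432 561))))))) (both (mv 401 (both (five 5 400 433) (mv 400 (both (five 5 368 369) (mv 527 (both (five 6 399 495) (five 6 431 559))))))) (mv 401 (both (five 5 400 433) (mv 559 (both (five 6 431 527) (mv 560 (both (five 6 463 591) (mv 561 (both (five 4 432 529) (five 4 464 593))))))))))))) (mv 432 (both (mv 399 (both (five 7 399 431) (mv 400 (both (five 7 367 367) (mv 529 (both (five 4 400 497) (five 4 432 561))))))) (both (mv 399 (both (five 7 399 431) (mv 400 (both (five 7 367 367) (mv 527 (both (five 6 399 495) (five 6 431 559))))))) (mv 559 (both (five 6 431 527) (mv 560 (both (five 6 463 591) (mv 561 (both (five 4 432 529) (five 4 464 593))))))))))))))) (both (mv 464 (both (mv 560 (both (mv 591 (both (five 6 463 559) (mv 592 (both (five 6 495 623) (mv 593 (both (five 4 464 561) (five 4 496 625))))))) (both (mv 433 (both (five 5 432 465) (mv 432 (both (five 5 400 401) (mv 561 (both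 (five 4 432 529) (five 4 464 593))))))) (mv 433 (both (five 5 432 465) (mv 432 (both (five 5 400 401) (mv 559 (both (five 6 431 527) (five 6 463 591)))))))))) (both (mv 560 (both (mv 465 (both (five 5 432 433) (mv 591 (both (five 6 463 559) (mv 592 (both (five 5 464 497) (five 6 495 623))))))) (both (mv 465 (both (five 5 432 433) (mv 592 (both (five 5 464 497) (mv 593 (both (five 4 464 561) (five 4 496 625))))))) (mv 559 (both (five 6 463 591) (mv 558 (both (mv 557 (both (five 1 525 529) (mv 524 (both (five 3 524 525) (mv 556 (both (five 3 523 523) (five 1 524 527))))))) (both (mv 561 (both (five 4 464 593) (mv 526 (both (five 3 525 525) (mv 527 (both (five 3 526 562) (mv 590 (both (five 2 557 589) (mv 622 (both (five 5 494 495) (five 5 526 654))))))))))) (mv 557 (both (five 1 525 529) (mv 561 (both (five 4 464 593) (mv 589 (both (five 2 556 588) (five 2 557 590))))))))))))))) (both (mv 432 (both (mv 399 (both (five 7 399 431) (mv 400 (both (five 7 367 367) (mv 401 (both (five 5 368 369) (five 5 400 433))))))) (both (mv 399 (both (five 7 399 431) (mv 400 (both (five 7 367 367) (mv 527 (both (five 6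 399 495) (five 6 431 559))))))) (both (mv 401 (both (five 5 400 433) (mv 400 (both (five 5 368 369) (mv 527 (both (five 6 399 495) (five 6 431 559))))))) (mv 431 (both (five 7 399 399) (mv 430 (both (mv 429 (both (five 0 429 465) (mv 396 (both (five 3 396 397) (mv 428 (both (five 3 395 395) (mv 460 (both (five 2 427 459) (five 2 428 461))))))))) (both (mv 433 (both (five 5 400 401) (mv 397 (both (five 3 397 398) (mv 429 (both (five 3 396 396) (mv 461 (both (five 2 428 460) (five 2 429 462))))))))) (both (mv 433 (both (five 5 400 401) (mv 398 (both (five 3 397 397) (mv 462 (both (five 2 429 461) (mv 465 (both (five 0 430 466) (mv 527 (both (five 6 431 559) (mv 494 (both (five 4 398 495) (mv 525 (both (five 6 397 493) (mv 526 (both (five 1 493 497) (five 6 429 557))))))))))))))))) (both (mv 429 (both (five 0 429 465) (mv 397 (both (five 3 396 396) (mv 433 (both (five 3 397 398) (five 5 400 401))))))) (mv 429 (both (five 0 429 465) (mv 433 (both (five 5 400 401) (mv 461 (both (five 2 428 460) (five 2 429 462)))))))))))))))))) (both (mv 432 (both (mv 399 (both (five 7 399 431) (mv 400 (both (five 7 367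 367) (mv 529 (both (five 4 400 497) (five 4 432 561))))))) (both (mv 399 (both (five 7 399 431) (mv 400 (both (five 7 367 367) (mv 527 (both (five 6 399 495) (five 6 431 559))))))) (mv 559 (both (five 6 431 527) (mv 560 (both (five 6 463 591) (mv 561 (both (five 4 432 529) (five 4 464 593)))))))))) (mv 432 (both (mv 399 (both (five 7 399 431) (mv 400 (both (five 7 367 367) (mv 401 (both (five 5 368 369) (five 5 400 433))))))) (both (mv 399 (both (five 7 399 431) (mv 400 (both (five 7 367 367) (mv 529 (both (five 4 400 497) (five 4 432 561))))))) (both (mv 401 (both (five 5 400 433) (mv 400 (both (five 5 368 369) (mv 529 (both (five 4 400 497) (five 4 432 561))))))) (mv 399 (both (five 7 399 431) (mv 433 (both (five 5 400 401) (mv 560 (both (five 5 432 465) (mv 561 (both (five 4 432 529) (five 4 464 593)))))))))))))))))) (both (mv 464 (both (mv 560 (both (mv 591 (both (five 6 463 559) (mv 592 (both (five 6 495 623) (mv 593 (both (five 4 464 561) (five 4 496 625))))))) (both (mv 463 (both (five 7 431 431) (mv 592 (both (five 7 463 495) (mv 593 (both (five 4 464 561) (five 4 496 625))))))) (both (mv 463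 (both (five 7 431 431) (mv 591 (both (five 6 463 559) (mv 592 (both (five 7 463 495) (five 6 495 623))))))) (mv 559 (both (five 6 463 591) (mv 558 (both (mv 557 (both (five 1 525 529) (mv 524 (both (five 3 524 525) (mv 556 (both (five 3 523 523) (five 1 524 527))))))) (both (mv 561 (both (five 4 464 593) (mv 526 (both (five 3 525 525) (mv 527 (both (five 3 526 562) (mv 590 (both (five 2 557 589) (mv 622 (both (five 5 494 495) (five 5 526 654))))))))))) (mv 557 (both (five 1 525 529) (mv 561 (both (five 4 464 593) (mv 589 (both (five 2 556 588) (five 2 557 590)))))))))))))))) (both (mv 432 (both (mv 399 (both (five 7 399 431) (mv 400 (both (five 7 367 367) (mv 401 (both (five 5 368 369) (five 5 400 433))))))) (both (mv 401 (both (five 5 400 433) (mv 400 (both (five 5 368 369) (mv 529 (both (five 4 400 497) (five 4 432 561))))))) (mv 527 (both (five 6 431 559) (mv 526 (both (mv 399 (both (five 7 399 431) (mv 529 (both (five 4 432 561) (mv 493 (both (five 3 493 494) (mv 525 (both (five 3 492 492) (mv 557 (both (five 2 524 556) (five 2 525 558))))))))))) (both (mv 497 (both (five 1 493 525) (mv 498 (both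 (five 2 494 495) (five 2 495 499))))) (mv 431 (both (five 7 399 399) (mv 529 (both (five 4 432 561) (mv 494 (both (five 3 493 493) (mv 497 (both (five 1 494 498) (mv 558 (both (five 2 525 557) (mv 463 (both (five 5 430 462) (five 6 430 495))))))))))))))))))))) (both (mv 432 (both (mv 401 (both (five 5 400 433) (mv 400 (both (five 5 368 369) (mv 529 (both (five 4 400 497) (five 4 432 561))))))) (both (mv 527 (both (five 6 431 559) (mv 400 (both (five 6 399 495) (mv 529 (both (five 4 400 497) (five 4 432 561))))))) (both (mv 401 (both (five 5 400 433) (mv 400 (both (five 5 368 369) (mv 527 (both (five 6 399 495) (five 6 431 559))))))) (mv 401 (both (five 5 400 433) (mv 559 (both (five 6 431 527) (mv 560 (both (five 6 463 591) (mv 561 (both (five 4 432 529) (five 4 464 593))))))))))))) (both (mv 432 (both (mv 399 (both (five 7 399 431) (mv 400 (both (five 7 367 367) (mv 401 (both (five 5 368 369) (five 5 400 433))))))) (both (mv 401 (both (five 5 400 433) (mv 400 (both (five 5 368 369) (mv 529 (both (five 4 400 497) (five 4 432 561))))))) (both (mv 399 (both (five 7 399 431) (mv 400 (both (five 7 367 367)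 (mv 529 (both (five 4 400 497) (five 4 432 561))))))) (mv 401 (both (five 5 400 433) (mv 431 (both (five 7 399 399) (mv 560 (both (five 7 431 463) (mv 561 (both (five 4 432 529) (five 4 464 593))))))))))))) (mv 432 (both (mv 399 (both (five 7 399 431) (mv 400 (both (five 7 367 367) (mv 401 (both (five 5 368 369) (five 5 400 433))))))) (both (mv 401 (both (five 5 400 433) (mv 400 (both (five 5 368 369) (mv 527 (both (five 6 399 495) (five 6 431 559))))))) (both (mv 399 (both (five 7 399 431) (mv 400 (both (five 7 367 367) (mv 527 (both (five 6 399 495) (five 6 431 559))))))) (mv 401 (both (five 5 400 433) (mv 431 (both (five 7 399 399) (mv 559 (both (five 6 431 527) (mv 560 (both (five 7 431 463) (five 6 463 591)))))))))))))))))) (both (mv 560 (both (mv 592 (both (mv 495 (both (five 7 463 463) (mv 624 (both (five 7 495 527) (mv 625 (both (five 4 496 593) (five 4 528 657))))))) (both (mv 497 (both (five 5 464 465) (mv 624 (both (five 5 496 529) (mv 625 (both (five 4 496 593) (five 4 528 657))))))) (mv 463 (both (five 7 463 495) (mv 464 (both (five 7 431 431) (mv 465 (both (five 5 432 433) (five 5 464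 497)))))))))) (both (mv 464 (both (mv 433 (both (five 5 432 465) (mv 432 (both (five 5 400 401) (mv 559 (both (five 6 431 527) (five 6 463 591))))))) (both (mv 431 (both (five 7 431 463) (mv 432 (both (five 7 399 399) (mv 559 (both (five 6 431 527) (five 6 463 591))))))) (mv 463 (both (five 7 431 431) (mv 462 (both (mv 461 (both (five 0 461 497) (mv 428 (both (five 3 428 429) (mv 460 (both (five 3 427 427) (five 0 460 495))))))) (both (mv 465 (both (five 5 432 433) (mv 494 (both (five 2 461 493) (mv 466 (both (five 2 462 495) (mv 435 (both (five 1 431 434) (mv 467 (both (five 1 432 436) (mv 499 (both (five 0 463 498) (five 0 464 500))))))))))))) (mv 433 (both (five 5 432 465) (mv 461 (both (five 0 461 497) (mv 428 (both (five 3 428 429) (mv 460 (both (five 3 427 427) (mv 492 (both (five 2 459 491) (five 2 460 493))))))))))))))))))) (both (mv 592 (both (mv 623 (both (five 6 495 591) (mv 624 (both (five 6 527 655) (mv 625 (both (five 4 496 593) (five 4 528 657))))))) (both (mv 463 (both (five 7 463 495) (mv 497 (both (five 5 464 465) (mv 623 (both (five 6 495 591) (mv 624 (both (five 5 496 529) (five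 6 527 655))))))))) (both (mv 463 (both (five 7 463 495) (mv 497 (both (five 5 464 465) (mv 624 (both (five 5 496 529) (mv 625 (both (five 4 496 593) (five 4 528 657))))))))) (mv 495 (both (five 7 463 463) (mv 494 (both (mv 493 (both (five 0 493 529) (mv 460 (both (five 3 460 461) (mv 492 (both (five 3 459 459) (mv 524 (both (five 2 491 523) (five 2 492 525))))))))) (both (mv 497 (both (five 5 464 465) (mv 462 (both (five 3 461 461) (mv 526 (both (five 2 493 525) (mv 591 (both (five 6 495 623) (mv 558 (both (five 4 462 559) (mv 557 (both (five 6 461 589) (mv 593 (both (five 3 557 590) (five 4 496 625))))))))))))))) (both (mv 493 (both (five 0 493 529) (mv 461 (both (five 3 460 460) (mv 497 (both (five 3 461 462) (five 5 464 465))))))) (mv 493 (both (five 0 493 529) (mv 497 (both (five 5 464 465) (mv 525 (both (five 2 492 524) (five 2 493 526))))))))))))))))) (both (mv 592 (both (mv 623 (both (five 6 495 591) (mv 624 (both (five 6 527 655) (mv 625 (both (five 4 496 593) (five 4 528 657))))))) (both (mv 497 (both (five 5 464 465) (mv 624 (both (five 5 496 529) (mv 625 (both (five 4 496 593) (five 4 528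 657))))))) (mv 465 (both (five 5 464 497) (mv 464 (both (five 5 432 433) (mv 591 (both (five 6 463 559) (five 6 495 623)))))))))) (mv 592 (both (mv 623 (both (five 6 495 591) (mv 624 (both (five 6 527 655) (mv 625 (both (five 4 496 593) (five 4 528 657))))))) (both (mv 495 (both (five 7 463 463) (mv 624 (both (five 7 495 527) (mv 625 (both (five 4 496 593) (five 4 528 657))))))) (mv 463 (both (five 7 463 495) (mv 464 (both (five 7 431 431) (mv 591 (both (five 6 463 559) (five 6 495 623))))))))))))))) (both (mv 560 (both (mv 592 (both (mv 623 (both (five 6 495 591) (mv 624 (both (five 6 527 655) (mv 625 (both (five 4 496 593) (five 4 528 657))))))) (both (mv 497 (both (five 5 464 465) (mv 623 (both (five 6 495 591) (mv 624 (both (five 5 496 529) (five 6 527 655))))))) (mv 465 (both (five 5 464 497) (mv 464 (both (five 5 432 433) (mv 593 (both (five 4 464 561) (five 4 496 625)))))))))) (both (mv 464 (both (mv 433 (both (five 5 432 465) (mv 432 (both (five 5 400 401) (mv 561 (both (five 4 432 529) (five 4 464 593))))))) (both (mv 431 (both (five 7 431 463) (mv 432 (both (five 7 399 399) (mv 561 (both (five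 4 432 529) (five 4 464 593))))))) (mv 463 (both (five 7 431 431) (mv 462 (both (mv 461 (both (five 0 461 497) (mv 428 (both (five 3 428 429) (mv 460 (both (five 3 427 427) (five 0 460 495))))))) (both (mv 465 (both (five 5 432 433) (mv 494 (both (five 2 461 493) (mv 466 (both (five 2 462 495) (mv 435 (both (five 1 431 434) (mv 467 (both (five 1 432 436) (mv 499 (both (five 0 463 498) (five 0 464 500))))))))))))) (mv 433 (both (five 5 432 465) (mv 461 (both (five 0 461 497) (mv 428 (both (five 3 428 429) (mv 460 (both (five 3 427 427) (mv 492 (both (five 2 459 491) (five 2 460 493))))))))))))))))))) (both (mv 592 (both (mv 495 (both (five 7 463 463) (mv 623 (both (five 6 495 591) (mv 624 (both (five 7 495 527) (five 6 527 655))))))) (both (mv 623 (both (five 6 495 591) (mv 624 (both (five 6 527 655) (mv 625 (both (five 4 496 593) (five 4 528 657))))))) (both (mv 495 (both (five 7 463 463) (mv 624 (both (five 7 495 527) (mv 625 (both (five 4 496 593) (five 4 528 657))))))) (mv 495 (both (five 7 463 463) (mv 494 (both (mv 493 (both (five 0 493 529) (mv 492 (both (five 0 492 527) (mv 524 (both (five 2 491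 523) (five 2 492 525))))))) (both (mv 497 (both (five 5 464 465) (mv 461 (both (five 3 461 462) (mv 526 (both (five 2 493 525) (mv 498 (both (five 2 494 527) (mv 466 (both (five 1 463 467) (mv 591 (both (five 6 495 623) (mv 593 (both (five 4 496 625) (mv 561 (both (five 5 465 529) (mv 562 (both (five 2 559 563) (five 1 558 590))))))))))))))))))) (both (mv 493 (both (mv 492 (both (five 0 492 527) (mv 524 (both (five 2 491 523) (five 2 492 525))))) (both (mv 461 (both (five 3 460 460) (mv 462 (both (five 3 461 497) (mv 525 (both (five 2 492 524) (mv 430 (both (five 6 397 398) (five 5 429 557))))))))) (mv 460 (both (five 3 460 461) (mv 492 (both (five 3 459 459) (five 0 492 527)))))))) (mv 493 (both (five 0 493 529) (mv 461 (both (five 3 460 460) (mv 497 (both (five 3 461 462) (five 5 464 465))))))))))))))))) (both (mv 592 (both (mv 495 (both (five 7 463 463) (mv 623 (both (five 6 495 591) (mv 624 (both (five 7 495 527) (five 6 527 655))))))) (both (mv 623 (both (five 6 495 591) (mv 624 (both (five 6 527 655) (mv 625 (both (five 4 496 593) (five 4 528 657))))))) (mv 463 (both (five 7 463 495) (mv 464 (both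 (five 7 431 431) (mv 593 (both (five 4 464 561) (five 4 496 625)))))))))) (mv 592 (both (mv 495 (both (five 7 463 463) (mv 623 (both (five 6 495 591) (mv 624 (both (five 7 495 527) (five 6 527 655))))))) (both (mv 497 (both (five 5 464 465) (mv 623 (both (five 6 495 591) (mv 624 (both (five 5 496 529) (five 6 527 655))))))) (mv 463 (both (five 7 463 495) (mv 464 (both (five 7 431 431) (mv 465 (both (five 5 432 433) (five 5 464 497))))))))))))))) (both (mv 560 (both (mv 592 (both (mv 623 (both (five 6 495 591) (mv 624 (both (five 6 527 655) (mv 625 (both (five 4 496 593) (five 4 528 657))))))) (both (mv 497 (both (five 5 464 465) (mv 623 (both (five 6 495 591) (mv 624 (both (five 5 496 529) (five 6 527 655))))))) (mv 465 (both (five 5 464 497) (mv 464 (both (five 5 432 433) (mv 593 (both (five 4 464 561) (five 4 496 625)))))))))) (both (mv 464 (both (mv 433 (both (five 5 432 465) (mv 432 (both (five 5 400 401) (mv 561 (both (five 4 432 529) (five 4 464 593))))))) (both (mv 433 (both (five 5 432 465) (mv 432 (both (five 5 400 401) (mv 559 (both (five 6 431 527) (five 6 463 591))))))) (mv 559 (both (five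 6 463 591) (mv 558 (both (mv 557 (both (five 1 525 529) (mv 524 (both (five 3 524 525) (mv 556 (both (five 3 523 523) (five 1 524 527))))))) (both (mv 561 (both (five 4 464 593) (mv 526 (both (five 3 525 525) (mv 527 (both (five 3 526 562) (mv 590 (both (five 2 557 589) (mv 622 (both (five 5 494 495) (five 5 526 654))))))))))) (mv 557 (both (five 1 525 529) (mv 561 (both (five 4 464 593) (mv 589 (both (five 2 556 588) (five 2 557 590))))))))))))))) (both (mv 592 (both (mv 623 (both (five 6 495 591) (mv 624 (both (five 6 527 655) (mv 625 (both (five 4 496 593) (five 4 528 657))))))) (both (mv 463 (both (five 7 463 495) (mv 497 (both (five 5 464 465) (mv 623 (both (five 6 495 591) (mv 624 (both (five 5 496 529) (five 6 527 655))))))))) (both (mv 463 (both (five 7 463 495) (mv 497 (both (five 5 464 465) (mv 624 (both (five 5 496 529) (mv 625 (both (five 4 496 593) (five 4 528 657))))))))) (mv 495 (both (five 7 463 463) (mv 494 (both (mv 493 (both (five 0 493 529) (mv 460 (both (five 3 460 461) (mv 492 (both (five 3 459 459) (mv 524 (both (five 2 491 523) (five 2 492 525))))))))) (both (mv 497 (both (five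 5 464 465) (mv 462 (both (five 3 461 461) (mv 526 (both (five 2 493 525) (mv 591 (both (five 6 495 623) (mv 558 (both (five 4 462 559) (mv 557 (both (five 6 461 589) (mv 593 (both (five 3 557 590) (five 4 496 625))))))))))))))) (both (mv 493 (both (five 0 493 529) (mv 461 (both (five 3 460 460) (mv 497 (both (five 3 461 462) (five 5 464 465))))))) (mv 493 (both (five 0 493 529) (mv 497 (both (five 5 464 465) (mv 525 (both (five 2 492 524) (five 2 493 526))))))))))))))))) (both (mv 592 (both (mv 495 (both (five 7 463 463) (mv 623 (both (five 6 495 591) (mv 624 (both (five 7 495 527) (five 6 527 655))))))) (both (mv 495 (both (five 7 463 463) (mv 624 (both (five 7 495 527) (mv 625 (both (five 4 496 593) (five 4 528 657))))))) (both (mv 623 (both (five 6 495 591) (mv 624 (both (five 6 527 655) (mv 625 (both (five 4 496 593) (five 4 528 657))))))) (mv 463 (both (five 7 463 495) (mv 591 (both (five 6 495 623) (mv 464 (both (five 6 463 559) (mv 593 (both (five 4 464 561) (five 4 496 625))))))))))))) (both (mv 592 (both (mv 495 (both (five 7 463 463) (mv 624 (both (five 7 495 527) (mv 625 (both (five 4 496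 593) (five 4 528 657))))))) (both (mv 497 (both (five 5 464 465) (mv 624 (both (five 5 496 529) (mv 655 (both (five 6 527 623) (mv 656 (both (five 6 559 687) (mv 657 (both (five 4 528 625) (five 4 560 689))))))))))) (both (mv 465 (both (five 5 464 497) (mv 433 (both (five 5 432 464) (mv 495 (both (five 7 463 463) (mv 624 (both (five 7 495 527) (mv 655 (both (five 6 527 623) (mv 656 (both (five 6 559 687) (mv 561 (both (five 5 528 529) (mv 688 (both (five 5 560 593) (mv 689 (both (five 4 560 657) (five 4 592 721))))))))))))))))))) (mv 465 (both (five 5 464 497) (mv 464 (both (five 5 432 433) (mv 593 (both (five 4 464 561) (five 4 496 625))))))))))) (mv 592 (both (mv 495 (both (five 7 463 463) (mv 623 (both (five 6 495 591) (mv 624 (both (five 7 495 527) (five 6 527 655))))))) (both (mv 497 (both (five 5 464 465) (mv 624 (both (five 5 496 529) (mv 655 (both (five 6 527 623) (mv 656 (both (five 6 559 687) (mv 657 (both (five 4 528 625) (five 4 560 689))))))))))) (both (mv 463 (both (five 7 463 495) (mv 497 (both (five 5 464 465) (mv 624 (both (five 5 496 529) (mv 657 (both (five 4 528 625) (mv 656 (both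 (five 4 560 689) (mv 559 (both (five 7 527 527) (mv 591 (both (five 6 463 464) (five 7 559 688))))))))))))))) (mv 465 (both (five 5 464 497) (mv 464 (both (five 5 432 433) (mv 591 (both (five 6 463 559) (five 6 495 623))))))))))))))))) (both (mv 560 (both (mv 464 (both (mv 431 (both (five 7 431 463) (mv 432 (both (five 7 399 399) (mv 561 (both (five 4 432 529) (five 4 464 593))))))) (both (mv 431 (both (five 7 431 463) (mv 432 (both (five 7 399 399) (mv 559 (both (five 6 431 527) (five 6 463 591))))))) (mv 559 (both (five 6 463 591) (mv 558 (both (mv 557 (both (five 1 525 529) (mv 524 (both (five 3 524 525) (mv 556 (both (five 3 523 523) (five 1 524 527))))))) (both (mv 561 (both (five 4 464 593) (mv 526 (both (five 3 525 525) (mv 527 (both (five 3 526 562) (mv 590 (both (five 2 557 589) (mv 622 (both (five 5 494 495) (five 5 526 654))))))))))) (mv 557 (both (five 1 525 529) (mv 561 (both (five 4 464 593) (mv 589 (both (five 2 556 588) (five 2 557 590))))))))))))))) (both (mv 592 (both (mv 623 (both (five 6 495 591) (mv 624 (both (five 6 527 655) (mv 625 (both (five 4 496 593) (five 4 528 657)))))))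 (both (mv 463 (both (five 7 463 495) (mv 497 (both (five 5 464 465) (mv 623 (both (five 6 495 591) (mv 624 (both (five 5 496 529) (five 6 527 655))))))))) (both (mv 463 (both (five 7 463 495) (mv 497 (both (five 5 464 465) (mv 624 (both (five 5 496 529) (mv 625 (both (five 4 496 593) (five 4 528 657))))))))) (mv 495 (both (five 7 463 463) (mv 494 (both (mv 493 (both (five 0 493 529) (mv 460 (both (five 3 460 461) (mv 492 (both (five 3 459 459) (mv 524 (both (five 2 491 523) (five 2 492 525))))))))) (both (mv 497 (both (five 5 464 465) (mv 462 (both (five 3 461 461) (mv 526 (both (five 2 493 525) (mv 591 (both (five 6 495 623) (mv 558 (both (five 4 462 559) (mv 557 (both (five 6 461 589) (mv 593 (both (five 3 557 590) (five 4 496 625))))))))))))))) (both (mv 493 (both (five 0 493 529) (mv 461 (both (five 3 460 460) (mv 497 (both (five 3 461 462) (five 5 464 465))))))) (mv 493 (both (five 0 493 529) (mv 497 (both (five 5 464 465) (mv 525 (both (five 2 492 524) (five 2 493 526))))))))))))))))) (both (mv 592 (both (mv 497 (both (five 5 464 465) (mv 624 (both (five 5 496 529) (mv 625 (both (five 4 496 593)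 (five 4 528 657))))))) (both (mv 497 (both (five 5 464 465) (mv 623 (both (five 6 495 591) (mv 624 (both (five 5 496 529) (five 6 527 655))))))) (mv 591 (both (five 6 495 623) (mv 464 (both (five 6 463 559) (mv 593 (both (five 4 464 561) (five 4 496 625)))))))))) (both (mv 592 (both (mv 495 (both (five 7 463 463) (mv 623 (both (five 6 495 591) (mv 624 (both (five 7 495 527) (five 6 527 655))))))) (both (mv 623 (both (five 6 495 591) (mv 624 (both (five 6 527 655) (mv 625 (both (five 4 496 593) (five 4 528 657))))))) (mv 463 (both (five 7 463 495) (mv 464 (both (five 7 431 431) (mv 593 (both (five 4 464 561) (five 4 496 625)))))))))) (both (mv 592 (both (mv 497 (both (five 5 464 465) (mv 624 (both (five 5 496 529) (mv 655 (both (five 6 527 623) (mv 656 (both (five 6 559 687) (mv 657 (both (five 4 528 625) (five 4 560 689))))))))))) (both (mv 495 (both (five 7 463 463) (mv 624 (both (five 7 495 527) (mv 655 (both (five 6 527 623) (mv 656 (both (five 6 559 687) (mv 561 (both (five 5 528 529) (mv 688 (both (five 5 560 593) (mv 689 (both (five 4 560 657) (five 4 592 721))))))))))))))) (mv 463 (both (five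 7 463 495) (mv 464 (both (five 7 431 431) (mv 593 (both (five 4 464 561) (five 4 496 625)))))))))) (mv 592 (both (mv 497 (both (five 5 464 465) (mv 624 (both (five 5 496 529) (mv 655 (both (five 6 527 623) (mv 656 (both (five 6 559 687) (mv 657 (both (five 4 528 625) (five 4 560 689))))))))))) (both (mv 497 (both (five 5 464 465) (mv 624 (both (five 5 496 529) (mv 657 (both (five 4 528 625) (mv 656 (both (five 4 560 689) (mv 559 (both (five 7 527 527) (mv 591 (both (five 6 463 464) (five 7 559 688))))))))))))) (mv 463 (both (five 7 463 495) (mv 464 (both (five 7 431 431) (mv 591 (both (five 6 463 559) (five 6 495 623)))))))))))))))) (both (mv 464 (both (mv 432 (both (mv 399 (both (five 7 399 431) (mv 400 (both (five 7 367 367) (mv 401 (both (five 5 368 369) (five 5 400 433))))))) (both (mv 399 (both (five 7 399 431) (mv 400 (both (five 7 367 367) (mv 529 (both (five 4 400 497) (five 4 432 561))))))) (both (mv 401 (both (five 5 400 433) (mv 400 (both (five 5 368 369) (mv 529 (both (five 4 400 497) (five 4 432 561))))))) (mv 399 (both (five 7 399 431) (mv 433 (both (five 5 400 401) (mv 560 (both (five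 5 432 465) (mv 561 (both (five 4 432 529) (five 4 464 593))))))))))))) (both (mv 560 (both (mv 463 (both (five 7 431 431) (mv 592 (both (five 7 463 495) (mv 593 (both (five 4 464 561) (five 4 496 625))))))) (both (mv 465 (both (five 5 432 433) (mv 592 (both (five 5 464 497) (mv 593 (both (five 4 464 561) (five 4 496 625))))))) (mv 463 (both (five 7 431 431) (mv 462 (both (mv 461 (both (five 0 461 497) (mv 428 (both (five 3 428 429) (mv 460 (both (five 3 427 427) (five 0 460 495))))))) (both (mv 465 (both (five 5 432 433) (mv 494 (both (five 2 461 493) (mv 466 (both (five 2 462 495) (mv 435 (both (five 1 431 434) (mv 467 (both (five 1 432 436) (mv 499 (both (five 0 463 498) (five 0 464 500))))))))))))) (mv 433 (both (five 5 432 465) (mv 461 (both (five 0 461 497) (mv 428 (both (five 3 428 429) (mv 460 (both (five 3 427 427) (mv 492 (both (five 2 459 491) (five 2 460 493))))))))))))))))))) (both (mv 432 (both (mv 401 (both (five 5 400 433) (mv 400 (both (five 5 368 369) (mv 527 (both (five 6 399 495) (five 6 431 559))))))) (both (mv 399 (both (five 7 399 431) (mv 400 (both (five 7 367 367) (mv 527 (both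 (five 6 399 495) (five 6 431 559))))))) (mv 431 (both (five 7 399 399) (mv 430 (both (mv 429 (both (five 0 429 465) (mv 396 (both (five 3 396 397) (mv 428 (both (five 3 395 395) (mv 460 (both (five 2 427 459) (five 2 428 461))))))))) (both (mv 433 (both (five 5 400 401) (mv 397 (both (five 3 397 398) (mv 429 (both (five 3 396 396) (mv 461 (both (five 2 428 460) (five 2 429 462))))))))) (both (mv 433 (both (five 5 400 401) (mv 462 (both (five 2 429 461) (mv 434 (both (five 2 430 463) (mv 466 (both (five 0 430 465) (five 0 431 467))))))))) (mv 401 (both (five 5 400 433) (mv 429 (both (five 0 429 465) (mv 396 (both (five 3 396 397) (mv 428 (both (five 3 395 395) (five 0 428 463)))))))))))))))))) (both (mv 432 (both (mv 527 (both (five 6 431 559) (mv 400 (both (five 6 399 495) (mv 529 (both (five 4 400 497) (five 4 432 561))))))) (both (mv 401 (both (five 5 400 433) (mv 400 (both (five 5 368 369) (mv 527 (both (five 6 399 495) (five 6 431 559))))))) (mv 433 (both (five 5 400 401) (mv 560 (both (five 5 432 465) (mv 561 (both (five 4 432 529) (five 4 464 593)))))))))) (mv 432 (both (mv 527 (both (five 6 431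 559) (mv 400 (both (five 6 399 495) (mv 529 (both (five 4 400 497) (five 4 432 561))))))) (both (mv 399 (both (five 7 399 431) (mv 400 (both (five 7 367 367) (mv 527 (both (five 6 399 495) (five 6 431 559))))))) (mv 431 (both (five 7 399 399) (mv 560 (both (five 7 431 463) (mv 561 (both (five 4 432 529) (five 4 464 593))))))))))))))) (both (mv 464 (both (mv 432 (both (mv 399 (both (five 7 399 431) (mv 400 (both (five 7 367 367) (mv 401 (both (five 5 368 369) (five 5 400 433))))))) (both (mv 401 (both (five 5 400 433) (mv 400 (both (five 5 368 369) (mv 527 (both (five 6 399 495) (five 6 431 559))))))) (both (mv 399 (both (five 7 399 431) (mv 400 (both (five 7 367 367) (mv 527 (both (five 6 399 495) (five 6 431 559))))))) (mv 401 (both (five 5 400 433) (mv 431 (both (five 7 399 399) (mv 559 (both (five 6 431 527) (mv 560 (both (five 7 431 463) (five 6 463 591))))))))))))) (both (mv 560 (both (mv 463 (both (five 7 431 431) (mv 591 (both (five 6 463 559) (mv 592 (both (five 7 463 495) (five 6 495 623))))))) (both (mv 465 (both (five 5 432 433) (mv 591 (both (five 6 463 559) (mv 592 (both (five 5 464 497)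 (five 6 495 623))))))) (mv 463 (both (five 7 431 431) (mv 462 (both (mv 461 (both (five 0 461 497) (mv 428 (both (five 3 428 429) (mv 460 (both (five 3 427 427) (five 0 460 495))))))) (both (mv 465 (both (five 5 432 433) (mv 494 (both (five 2 461 493) (mv 466 (both (five 2 462 495) (mv 435 (both (five 1 431 434) (mv 467 (both (five 1 432 436) (mv 499 (both (five 0 463 498) (five 0 464 500))))))))))))) (mv 433 (both (five 5 432 465) (mv 461 (both (five 0 461 497) (mv 428 (both (five 3 428 429) (mv 460 (both (five 3 427 427) (mv 492 (both (five 2 459 491) (five 2 460 493))))))))))))))))))) (both (mv 432 (both (mv 401 (both (five 5 400 433) (mv 400 (both (five 5 368 369) (mv 529 (both (five 4 400 497) (five 4 432 561))))))) (both (mv 527 (both (five 6 431 559) (mv 400 (both (five 6 399 495) (mv 529 (both (five 4 400 497) (five 4 432 561))))))) (both (mv 401 (both (five 5 400 433) (mv 400 (both (five 5 368 369) (mv 527 (both (five 6 399 495) (five 6 431 559))))))) (mv 433 (both (five 5 400 401) (mv 529 (both (five 4 432 561) (mv 559 (both (five 6 431 527) (mv 560 (both (five 5 432 465) (five 6 463 591)))))))))))))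 (both (mv 432 (both (mv 399 (both (five 7 399 431) (mv 400 (both (five 7 367 367) (mv 529 (both (five 4 400 497) (five 4 432 561))))))) (both (mv 527 (both (five 6 431 559) (mv 400 (both (five 6 399 495) (mv 529 (both (five 4 400 497) (five 4 432 561))))))) (mv 431 (both (five 7 399 399) (mv 559 (both (five 6 431 527) (mv 560 (both (five 7 431 463) (five 6 463 591)))))))))) (mv 432 (both (mv 399 (both (five 7 399 431) (mv 400 (both (five 7 367 367) (mv 529 (both (five 4 400 497) (five 4 432 561))))))) (both (mv 401 (both (five 5 400 433) (mv 400 (both (five 5 368 369) (mv 529 (both (five 4 400 497) (five 4 432 561))))))) (mv 431 (both (five 7 399 399) (mv 430 (both (mv 429 (both (five 0 429 465) (mv 396 (both (five 3 396 397) (mv 428 (both (five 3 395 395) (mv 460 (both (five 2 427 459) (five 2 428 461))))))))) (both (mv 433 (both (five 5 400 401) (mv 397 (both (five 3 397 398) (mv 429 (both (five 3 396 396) (mv 461 (both (five 2 428 460) (five 2 429 462))))))))) (both (mv 433 (both (five 5 400 401) (mv 462 (both (five 2 429 461) (mv 434 (both (five 2 430 463) (mv 466 (both (five 0 430 465) (five 0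 431 467))))))))) (mv 401 (both (five 5 400 433) (mv 429 (both (five 0 429 465) (mv 396 (both (five 3 396 397) (mv 428 (both (five 3 395 395) (five 0 428 463))))))))))))))))))))))) (mv 464 (both (mv 560 (both (mv 591 (both (five 6 463 559) (mv 592 (both (five 6 495 623) (mv 593 (both (five 4 464 561) (five 4 496 625))))))) (both (mv 433 (both (five 5 432 465) (mv 432 (both (five 5 400 401) (mv 561 (both (five 4 432 529) (five 4 464 593))))))) (mv 433 (both (five 5 432 465) (mv 432 (both (five 5 400 401) (mv 559 (both (five 6 431 527) (five 6 463 591)))))))))) (both (mv 560 (both (mv 591 (both (five 6 463 559) (mv 592 (both (five 6 495 623) (mv 593 (both (five 4 464 561) (five 4 496 625))))))) (both (mv 463 (both (five 7 431 431) (mv 592 (both (five 7 463 495) (mv 593 (both (five 4 464 561) (five 4 496 625))))))) (both (mv 463 (both (five 7 431 431) (mv 591 (both (five 6 463 559) (mv 592 (both (five 7 463 495) (five 6 495 623))))))) (mv 559 (both (five 6 463 591) (mv 558 (both (mv 557 (both (five 1 525 529) (mv 524 (both (five 3 524 525) (mv 556 (both (five 3 523 523) (five 1 524 527))))))) (both (mv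 561 (both (five 4 464 593) (mv 526 (both (five 3 525 525) (mv 527 (both (five 3 526 562) (mv 590 (both (five 2 557 589) (mv 622 (both (five 5 494 495) (five 5 526 654))))))))))) (mv 557 (both (five 1 525 529) (mv 561 (both (five 4 464 593) (mv 589 (both (five 2 556 588) (five 2 557 590)))))))))))))))) (both (mv 432 (both (mv 399 (both (five 7 399 431) (mv 400 (both (five 7 367 367) (mv 401 (both (five 5 368 369) (five 5 400 433))))))) (both (mv 401 (both (five 5 400 433) (mv 400 (both (five 5 368 369) (mv 529 (both (five 4 400 497) (five 4 432 561))))))) (both (mv 399 (both (five 7 399 431) (mv 400 (both (five 7 367 367) (mv 529 (both (five 4 400 497) (five 4 432 561))))))) (mv 431 (both (five 7 399 399) (mv 430 (both (mv 433 (both (five 5 400 401) (mv 397 (both (five 3 397 398) (mv 429 (both (five 3 396 396) (mv 428 (both (five 0 428 463) (mv 460 (both (five 2 427 459) (five 2 428 461))))))))))) (both (mv 433 (both (five 5 400 401) (mv 397 (both (five 3 397 398) (mv 466 (both (five 0 430 465) (mv 434 (both (five 0 431 467) (mv 402 (both (five 1 399 403) (mv 463 (both (five 2 431 435) (mv 527 (both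 (five 6 431 559) (mv 529 (both (five 4 432 561) (mv 497 (both (five 6 401 498) (mv 526 (both (five 1 493 525) (mv 558 (both (five 6 430 495) (five 2 525 557))))))))))))))))))))))) (both (mv 429 (both (five 0 429 465) (mv 397 (both (five 3 396 396) (mv 433 (both (five 3 397 398) (five 5 400 401))))))) (mv 429 (both (five 0 429 465) (mv 428 (both (five 0 428 463) (mv 460 (both (five 2 427 459) (five 2 428 461))))))))))))))))) (both (mv 432 (both (mv 399 (both (five 7 399 431) (mv 400 (both (five 7 367 367) (mv 401 (both (five 5 368 369) (five 5 400 433))))))) (both (mv 401 (both (five 5 400 433) (mv 400 (both (five 5 368 369) (mv 527 (both (five 6 399 495) (five 6 431 559))))))) (both (mv 399 (both (five 7 399 431) (mv 400 (both (five 7 367 367) (mv 527 (both (five 6 399 495) (five 6 431 559))))))) (mv 401 (both (five 5 400 433) (mv 431 (both (five 7 399 399) (mv 559 (both (five 6 431 527) (mv 560 (both (five 7 431 463) (five 6 463 591))))))))))))) (mv 432 (both (mv 399 (both (five 7 399 431) (mv 400 (both (five 7 367 367) (mv 401 (both (five 5 368 369) (five 5 400 433))))))) (both (mv 399 (both (five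 7 399 431) (mv 400 (both (five 7 367 367) (mv 529 (both (five 4 400 497) (five 4 432 561))))))) (both (mv 401 (both (five 5 400 433) (mv 400 (both (five 5 368 369) (mv 529 (both (five 4 400 497) (five 4 432 561))))))) (mv 399 (both (five 7 399 431) (mv 433 (both (five 5 400 401) (mv 560 (both (five 5 432 465) (mv 561 (both (five 4 432 529) (five 4 464 593))))))))))))))))))))))))))))))))))

theorem L106 : W (S 878694100496718043517683302282418331810487718418343092402491322775749527474899974671687634004666183037093927858109549828751614463963730408009475621262727315456) (S 11031304530778982935857949307339932605783513886571273587925064606069339546862825980341732093595244297634757221825088815992737305072167229071852154786069474668578327315201134781774899740582476094883582941276427939479552) :=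
  check_sound (Env.cons L103 (Env.cons L105 Env.nil)) (x := 496) (t := tL106) (by decide +kernel)

end P062.Cert
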