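import Vale.Agent.P062.Check

/-! Snaky certificate, part 20 (machine generated, checked by the kernel) -/

set_option maxRecDepth 100000

namespace P062.Cert

open T

def tL107 : T :=
  (both (mv 590 (both (mv 621 (both (five 6 493 589) (mv 622 (both (five 6 525 653) (mv 623 (both (five 4 494 591) (five 4 526 655))))))) (mv 461 (both (five 7 461 493) (mv 462 (both (five 7 429 429) (mv 463 (both (five 5 430 431) (five 5 462 495))))))))) (both (mv 590 (both (mv 461 (both (five 7 461 493) (mv 462 (both (five 7 429 429) (mv 463 (both (five 5 430 431) (five 5 462 495))))))) (mv 589 (both (five 6 493 621) (mv 559 (both (five 2 557 561) (mv 588 (both (five 2 556 557) (five 1 555 587))))))))) (both (mv 590 (both (mv 621 (both (five 6 493 589) (mv 622 (both (five 6 525 653) (mv 623 (both (five 4 494 591) (five 4 526 655))))))) (both (mv 461 (both (five 7 461 493) (mv 429 (both (five 7 429 462) (mv 623 (both (five 4 494 591) (mv 622 (both (five 4 526 655) (mv 527 (both (five 5 494 495) (mv 653 (both (five 6 525 621) (mv 654 (both (five 5 526 559) (five 6 557 685))))))))))))))) (both (mv 461 (both (five 7 461 493)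 (mv 462 (both (five 7 429 429) (mv 589 (both (five 6 461 557) (five 6 493 621))))))) (mv 461 (both (five 7 461 493) (mv 429 (both (five 7 429 462) (mv 623 (both (five 4 494 591) (mv 622 (both (five 4 526 655) (mv 527 (both (five 5 494 495) (mv 559 (both (five 5 526 654) (mv 557 (both (five 1 524 556) (mv 589 (both (five 2 557 561) (five 2 556 588))))))))))))))))))))) (both (mv 590 (both (mv 461 (both (five 7 461 493) (mv 462 (both (five 7 429 429) (mv 463 (both (five 5 430 431) (five 5 462 495))))))) (both (mv 461 (both (five 7 461 493) (mv 462 (both (five 7 429 429) (mv 591 (both (five 4 462 559) (five 4 494 623))))))) (mv 623 (both (five 4 494 591) (mv 622 (both (five 4 526 655) (mv 527 (both (five 5 494 495) (mv 653 (both (five 6 525 621) (mv 654 (both (five 5 526 559) (five 6 557 685)))))))))))))) (both (mv 462 (both (mv 429 (both (five 7 429 461) (mv 430 (both (five 7 397 397) (mv 431 (both (five 5 398 399) (five 5 430 463))))))) (mv 557 (both (five 6 461 589) (mv 559 (both (five 4 462 591) (mv 556 (both (five 1 524 527) (mv 523 (both (five 3 523 524) (mv 555 (both (five 3 522 522) (mv 587 (both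 (five 2 554 586) (five 2 555 588))))))))))))))) (mv 590 (both (mv 621 (both (five 6 493 589) (mv 622 (both (five 6 525 653) (mv 623 (both (five 4 494 591) (five 4 526 655))))))) (both (mv 589 (both (five 6 493 621) (mv 559 (both (five 2 557 561) (mv 588 (both (five 2 556 557) (five 1 555 587))))))) (mv 495 (both (five 5 462 463) (mv 527 (both (five 5 494 622) (mv 591 (both (five 4 494 623) (mv 592 (both (five 7 495 624) (mv 557 (both (five 3 557 593) (mv 556 (both (five 0 555 555) (five 1 524 559)))))))))))))))))))))

theorem L107 : W (S 4717453032125294315922840780632440241499174440283660183493186740810144356459872974451283374811683001932668197584822215947350168073345508870656455824302714581140153303040) (S 160526608585248391881366797750119867735132710706862727247604987920039109240521366855160936160542581906644278020861870674907537289634575504348527113276222003910819490974290026500687232275658322957592376115200) :=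
  check_sound Env.nil (x := 494) (t := tL107) (by decide +kernel)

def tL108 : T :=
  (both (mv 623 (both (mv 590 (both (five 2 557 589) (mv 593 (both (five 0 558 594) (mv 622 (both (five 4 526 655) (mv 621 (both (five 6 525 653) (mv 624 (both (five 1 589 592) (mv 657 (both (five 7 528 625) (five 0 621 656))))))))))))) (both (mv 590 (both (five 2 557 589) (mv 494 (both (five 4 494 591) (mv 461 (both (five 7 461 493) (mv 462 (both (five 7 429 429) (mv 463 (both (five 5 430 431) (five 5 462 495))))))))))) (mv 593 (both (five 0 558 594) (mv 625 (both (five 7 528 657) (mv 655 (both (five 7 526 591) (mv 624 (both (five 6 527 592) (mv 626 (both (five 2 622 654) (mv 627 (both (five 2 623 656) (mv 659 (both (five 0 623 658) (five 0 624 660)))))))))))))))))) (both (mv 529 (both (five 1 526 530) (mv 593 (both (five 0 558 594) (mv 625 (both (five 7 528 657) (mv 624 (both (five 6 528 656) (mv 497 (both (five 5 496 592) (mv 465 (both (five 6 432 433) (mv 466 (both (five 5 433 434) (five 5 465 498))))))))))))))) (both (mv 494 (both (mv 462 (both (five 4 462 591) (mv 429 (both (five 7 429 461) (mv 430 (both (five 7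 397 397) (mv 431 (both (five 5 398 399) (five 5 430 463))))))))) (both (mv 529 (both (five 1 526 530) (mv 590 (both (five 2 557 589) (mv 461 (both (five 7 461 493) (mv 462 (both (five 7 429 429) (mv 463 (both (five 5 430 431) (five 5 462 495))))))))))) (both (mv 529 (both (five 1 526 530) (mv 590 (both (five 2 557 589) (mv 461 (both (five 7 461 493) (mv 463 (both (five 5 462 495) (mv 623 (both (five 4 494 591) (mv 622 (both (five 4 526 655) (mv 653 (both (five 6 525 621) (mv 654 (both (five 6 557 685) (mv 624 (both (five 2 621 625) (mv 592 (both (five 5 496 497) (five 5 528 656))))))))))))))))))))) (both (mv 462 (both (five 4 462 591) (mv 461 (both (five 7 429 429) (mv 590 (both (five 7 461 493) (five 2 557 589))))))) (mv 462 (both (five 4 462 591) (mv 463 (both (five 5 430 431) (mv 590 (both (five 5 462 495) (five 2 557 589)))))))))))) (both (mv 529 (both (five 1 526 530) (mv 590 (both (five 2 557 589) (mv 593 (both (five 0 558 594) (mv 625 (both (five 7 528 657) (mv 624 (both (five 6 528 656) (mv 626 (both (five 4 529 658) (mv 623 (both (five 3 590 591) (mv 655 (both (five 4 526 622) (five 2 622 654)))))))))))))))))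 (both (mv 590 (both (five 2 557 589) (mv 622 (both (mv 653 (both (five 6 525 621) (mv 654 (both (five 6 557 685) (mv 655 (both (five 4 526 623) (five 4 558 687))))))) (both (mv 529 (both (five 1 526 530) (mv 593 (both (five 0 558 594) (mv 621 (both (five 6 525 653) (mv 592 (both (five 2 589 591) (mv 497 (both (five 6 464 465) (five 5 496 624))))))))))) (mv 529 (both (five 1 526 530) (mv 593 (both (five 0 558 594) (mv 623 (both (five 4 526 655) (mv 494 (both (five 4 494 591) (mv 461 (both (five 7 461 493) (mv 462 (both (five 7 429 429) (mv 463 (both (five 5 430 431) (five 5 462 495)))))))))))))))))))) (mv 529 (both (five 1 526 530) (mv 590 (both (five 2 557 589) (mv 593 (both (five 0 558 594) (mv 625 (both (five 7 528 657) (mv 626 (both (five 4 529 658) (mv 591 (both (five 0 590 592) (mv 494 (both (five 4 462 462) (five 4 494 623))))))))))))))))))))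

theorem L108 : W (S 6604434244536064992043618071126574686957635050491880397681289890932956437655947400494346737400512385703402385100204138397235460388307905186937172950019062602964850966528) (S 802633051148854938562771672863311543540951377150896538738803157420940336036767973757716801340179362837580707680673344407529402780925091999486863857656917920088584620338034769758865218991460718537771851972608) :=
  check_sound Env.nil (x := 561) (t := tL108) (by decide +kernel)

def tL109 : T :=
  (both (mv 558 (both (mv 529 (both (mv 557 (both (five 2 525 527) (five 1 525 559))) (both (mv 527 (both (mv 497 (both (five 1 494 498) (mv 465 (both (five 6 432 433) (mv 592 (both (five 6 464 561) (five 5 496 624))))))) (mv 494 (both (five 3 493 493) (mv 530 (both (five 3 494 495) (five 2 526 559))))))) (both (mv 527 (both (five 2 525 557) (mv 497 (both (five 1 494 498) (mv 465 (both (five 6 432 433) (mv 592 (both (five 6 464 561) (five 5 496 624))))))))) (mv 559 (both (five 1 525 557) (mv 530 (both (five 2 527 531) (five 1 526 561))))))))) (both (mv 590 (both (mv 622 (both (mv 653 (both (five 6 525 621) (mv 654 (both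 (five 6 557 685) (mv 655 (both (five 4 526 623) (five 4 558 687))))))) (mv 527 (both (five 5 494 495) (mv 529 (both (five 2 525 557) (mv 497 (both (five 1 494 498) (mv 465 (both (five 6 432 433) (mv 592 (both (five 6 464 561) (five 5 496 624))))))))))))) (both (mv 494 (both (mv 589 (both (five 6 493 621) (mv 591 (both (five 4 494 623) (mv 592 (both (five 1 557 561) (mv 557 (both (five 3 556 556) (five 3 557 593))))))))) (mv 461 (both (five 7 461 493) (mv 462 (both (five 7 429 429) (mv 463 (both (five 5 430 431) (five 5 462 495))))))))) (both (mv 623 (both (mv 655 (both (five 4 526 622) (mv 591 (both (five 7 558 687) (mv 592 (both (five 6 527 624) (mv 557 (both (five 3 557 593) (mv 556 (both (five 0 555 555) (five 3 556 589))))))))))) (both (mv 494 (both (five 4 494 591) (mv 461 (both (five 7 461 493) (mv 462 (both (five 7 429 429) (mv 589 (both (five 6 461 557) (five 6 493 621))))))))) (both (mv 622 (both (five 4 526 655) (mv 621 (both (five 6 525 653) (mv 589 (both (five 6 493 494) (mv 588 (both (five 0 587 587) (five 3 588 624))))))))) (mv 591 (both (five 4 494 494) (mv 655 (both (five 4 526 622) (five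 7 558 687))))))))) (both (mv 494 (both (mv 495 (both (five 5 462 463) (mv 527 (both (five 5 494 622) (mv 529 (both (five 3 494 530) (five 2 525 557))))))) (both (mv 461 (both (five 7 461 493) (mv 462 (both (five 7 429 429) (mv 589 (both (five 6 461 557) (five 6 493 621))))))) (mv 461 (both (five 7 461 493) (mv 462 (both (five 7 429 429) (mv 463 (both (five 5 430 431) (five 5 462 495)))))))))) (both (mv 494 (both (mv 495 (both (five 5 462 463) (mv 527 (both (five 5 494 622) (mv 529 (both (five 3 494 530) (five 2 525 557))))))) (both (mv 461 (both (five 7 461 493) (mv 462 (both (five 7 429 429) (mv 431 (both (five 5 430 463) (mv 399 (both (five 5 398 430) (mv 557 (both (five 6 461 589) (mv 529 (both (five 2 525 527) (mv 591 (both (five 4 494 623) (mv 555 (both (five 0 555 556) (mv 592 (both (five 3 557 593) (mv 497 (both (five 5 496 624) (mv 465 (both (five 6 432 433) (five 6 464 561))))))))))))))))))))))) (both (mv 461 (both (five 7 461 493) (mv 429 (both (five 7 429 462) (mv 623 (both (five 4 494 591) (mv 622 (both (five 4 526 655) (mv 527 (both (five 5 494 495) (mv 529 (both (five 2 525 557) (mv 497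 (both (five 1 494 498) (mv 465 (both (five 6 432 433) (mv 592 (both (five 6 464 561) (five 5 496 624))))))))))))))))))) (mv 461 (both (five 7 461 493) (mv 462 (both (five 7 429 429) (mv 463 (both (five 5 430 431) (five 5 462 495))))))))))) (mv 494 (both (mv 621 (both (five 6 493 589) (mv 622 (both (five 6 525 653) (mv 623 (both (five 4 494 591) (five 4 526 655))))))) (mv 461 (both (five 7 461 493) (mv 462 (both (five 7 429 429) (mv 463 (both (five 5 430 431) (five 5 462 495))))))))))))))) (both (ref 0) (both (mv 559 (both (ref 1) (both (mv 529 (both (mv 530 (both (five 2 527 531) (five 1 526 561))) (both (mv 527 (both (mv 497 (both (five 1 494 498) (mv 465 (both (five 6 432 433) (mv 592 (both (five 6 464 561) (five 5 496 624))))))) (both (mv 494 (both (five 3 493 493) (mv 462 (both (five 4 430 430) (mv 429 (both (five 7 429 461) (mv 463 (both (five 5 430 431) (mv 495 (both (five 6 462 590) (five 4 463 592))))))))))) (mv 494 (both (five 3 493 493) (mv 462 (both (five 4 430 430) (mv 429 (both (five 7 429 461) (mv 463 (both (five 5 430 431) (mv 495 (both (five 5 462 590) (mv 464 (both (five 5 431 432) (mv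 465 (both (five 2 462 466) (mv 433 (both (five 1 430 434) (five 6 432 497)))))))))))))))))))) (mv 530 (both (five 2 526 527) (five 2 527 531)))))) (both (mv 590 (both (mv 494 (both (mv 461 (both (five 7 461 493) (mv 462 (both (five 7 429 429) (mv 463 (both (five 5 430 431) (five 5 462 495))))))) (mv 623 (both (five 4 494 591) (mv 622 (both (five 4 526 655) (mv 653 (both (five 6 525 621) (mv 654 (both (five 5 526 527) (five 6 557 685))))))))))) (both (mv 589 (both (five 2 557 561) (mv 494 (both (five 6 493 621) (mv 461 (both (five 7 461 493) (mv 462 (both (five 7 429 429) (mv 463 (both (five 5 430 431) (five 5 462 495))))))))))) (mv 589 (both (five 2 557 561) (mv 588 (both (five 1 555 587) (five 1 556 591)))))))) (both (mv 529 (both (mv 530 (both (five 2 527 531) (five 1 526 561))) (both (mv 527 (both (mv 494 (both (five 3 493 493) (mv 462 (both (five 4 430 430) (five 4 462 591))))) (mv 497 (both (five 1 494 498) (mv 465 (both (five 6 432 433) (mv 592 (both (five 6 464 561) (five 5 496 624))))))))) (mv 530 (both (five 2 526 527) (five 2 527 531)))))) (both (mv 561 (both (mv 529 (both (five 1 526 530)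 (mv 593 (both (five 0 558 594) (mv 625 (both (five 7 528 657) (mv 624 (both (five 6 528 656) (mv 497 (both (five 5 496 592) (mv 465 (both (five 6 432 433) (mv 466 (both (five 5 433 434) (five 5 465 498))))))))))))))) (both (mv 590 (both (five 2 557 589) (mv 622 (both (mv 653 (both (five 6 525 621) (mv 654 (both (five 6 557 685) (mv 655 (both (five 4 526 623) (five 4 558 687))))))) (both (mv 495 (both (five 5 494 527) (mv 593 (both (five 0 558 594) (mv 621 (both (five 6 525 653) (mv 592 (both (five 2 589 591) (mv 623 (both (five 1 589 624) (five 4 526 655))))))))))) (mv 527 (both (five 5 494 495) (five 5 526 654)))))))) (both (mv 527 (both (mv 529 (both (five 2 526 530) (mv 497 (both (five 1 494 498) (mv 465 (both (five 6 432 433) (five 6 464 592))))))) (mv 590 (both (five 2 557 589) (mv 495 (both (five 6 462 463) (five 5 494 622))))))) (mv 529 (both (five 1 526 530) (mv 590 (both (five 2 557 589) (mv 593 (both (five 0 558 594) (mv 625 (both (five 7 528 657) (mv 624 (both (five 6 528 656) (mv 626 (both (five 4 529 658) (mv 623 (both (five 3 590 591) (mv 655 (both (five 4 526 622) (five 2 622 654)))))))))))))))))))))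 (mv 591 (both (mv 494 (both (five 4 462 462) (mv 590 (both (mv 589 (both (five 1 556 588) (five 6 493 621))) (mv 493 (both (five 7 461 461) (mv 495 (both (five 5 462 463) (mv 527 (both (five 0 492 492) (five 3 493 529))))))))))) (both (mv 623 (both (five 7 526 655) (mv 527 (both (mv 529 (both (five 2 526 530) (mv 497 (both (five 1 494 498) (mv 624 (both (five 5 496 592) (five 4 527 656))))))) (both (mv 622 (both (five 6 526 654) (mv 495 (both (five 5 494 590) (mv 463 (both (five 4 431 431) (five 4 463 592))))))) (mv 529 (both (five 2 526 530) (mv 497 (both (five 1 494 498) (mv 433 (both (five 6 432 465) (mv 622 (both (five 6 526 654) (mv 590 (both (five 5 494 495) (mv 588 (both (five 1 556 589) (mv 621 (both (five 6 525 653) (mv 620 (both (five 3 587 587) (five 1 587 619)))))))))))))))))))))) (both (mv 494 (both (five 4 462 462) (mv 623 (both (five 4 494 590) (five 7 526 655))))) (mv 494 (both (five 4 462 462) (mv 623 (both (five 7 494 527) (five 7 526 655))))))))))))))) (both (mv 559 (both (ref 1) (both (mv 557 (both (mv 588 (both (five 2 556 589) (mv 556 (both (five 2 555 587) (mv 592 (both (five 0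 556 591) (five 0 557 593))))))) (both (mv 589 (both (five 2 556 588) (mv 494 (both (five 6 461 462) (mv 590 (both (five 2 557 561) (five 6 493 621))))))) (mv 592 (both (five 0 557 593) (mv 591 (both (five 0 556 556) (mv 494 (both (five 4 462 462) (mv 623 (both (five 4 494 590) (five 7 526 655)))))))))))) (both (mv 529 (both (five 1 525 557) (mv 530 (both (five 2 527 531) (five 1 526 561))))) (mv 557 (both (five 1 525 529) (mv 588 (both (five 2 556 589) (mv 556 (both (five 2 555 587) (mv 592 (both (five 0 556 591) (five 0 557 593))))))))))))) (both (mv 559 (both (mv 529 (both (five 1 525 557) (mv 530 (both (five 2 527 531) (five 1 526 561))))) (both (mv 561 (both (mv 529 (both (five 1 526 530) (mv 593 (both (five 0 558 594) (mv 625 (both (five 7 528 657) (mv 624 (both (five 6 528 656) (mv 497 (both (five 5 496 592) (mv 465 (both (five 6 432 433) (mv 466 (both (five 5 433 434) (five 5 465 498))))))))))))))) (both (mv 590 (both (five 2 557 589) (mv 622 (both (mv 653 (both (five 6 525 621) (mv 654 (both (five 6 557 685) (mv 655 (both (five 4 526 623) (five 4 558 687))))))) (both (mv 495 (both (five 5 494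 527) (mv 593 (both (five 0 558 594) (mv 621 (both (five 6 525 653) (mv 592 (both (five 2 589 591) (mv 623 (both (five 1 589 624) (five 4 526 655))))))))))) (mv 527 (both (five 5 494 495) (five 5 526 654)))))))) (both (mv 527 (both (mv 529 (both (five 2 526 530) (mv 497 (both (five 1 494 498) (mv 465 (both (five 6 432 433) (five 6 464 592))))))) (mv 590 (both (five 2 557 589) (mv 495 (both (five 6 462 463) (five 5 494 622))))))) (mv 529 (both (five 1 526 530) (mv 590 (both (five 2 557 589) (mv 593 (both (five 0 558 594) (mv 625 (both (five 7 528 657) (mv 624 (both (five 6 528 656) (mv 626 (both (five 4 529 658) (mv 623 (both (five 3 590 591) (mv 655 (both (five 4 526 622) (five 2 622 654))))))))))))))))))))) (both (mv 557 (both (mv 527 (both (five 1 524 556) (mv 592 (both (five 0 557 593) (mv 624 (both (five 7 495 495) (five 7 527 656))))))) (both (mv 589 (both (five 2 556 588) (mv 561 (both (five 2 557 590) (mv 593 (both (five 0 557 592) (five 0 558 594))))))) (mv 556 (both (five 1 524 527) (mv 523 (both (five 3 523 524) (mv 555 (both (five 3 522 522) (mv 587 (both (five 2 554 586) (five 2 555 588))))))))))))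 (mv 557 (both (five 1 525 529) (mv 588 (both (five 2 556 589) (mv 556 (both (five 2 555 587) (mv 592 (both (five 0 556 591) (five 0 557 593))))))))))))) (both (mv 494 (both (mv 590 (both (mv 621 (both (five 6 493 589) (mv 622 (both (five 6 525 653) (mv 623 (both (five 4 494 591) (five 4 526 655))))))) (mv 461 (both (five 7 461 493) (mv 462 (both (five 7 429 429) (mv 463 (both (five 5 430 431) (five 5 462 495))))))))) (both (mv 462 (both (mv 429 (both (five 7 429 461) (mv 430 (both (five 7 397 397) (mv 431 (both (five 5 398 399) (five 5 430 463))))))) (mv 557 (both (five 6 461 589) (mv 559 (both (five 4 462 591) (mv 556 (both (five 1 524 527) (mv 523 (both (five 3 523 524) (mv 555 (both (five 3 522 522) (mv 587 (both (five 2 554 586) (five 2 555 588))))))))))))))) (both (mv 590 (both (mv 495 (both (five 5 462 463) (mv 527 (both (five 5 494 622) (mv 529 (both (five 3 494 530) (five 2 525 557))))))) (both (mv 621 (both (five 6 493 589) (mv 622 (both (five 6 525 653) (mv 623 (both (five 4 494 591) (five 4 526 655))))))) (mv 589 (both (five 6 493 621) (mv 559 (both (five 2 557 561) (mv 588 (both (five 2 556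 557) (five 1 555 587)))))))))) (both (mv 590 (both (mv 621 (both (five 6 493 589) (mv 622 (both (five 6 525 653) (mv 623 (both (five 4 494 591) (five 4 526 655))))))) (both (mv 461 (both (five 7 461 493) (mv 429 (both (five 7 429 462) (mv 623 (both (five 4 494 591) (mv 622 (both (five 4 526 655) (mv 527 (both (five 5 494 495) (mv 653 (both (five 6 525 621) (mv 654 (both (five 5 526 559) (five 6 557 685))))))))))))))) (both (mv 461 (both (five 7 461 493) (mv 462 (both (five 7 429 429) (mv 589 (both (five 6 461 557) (five 6 493 621))))))) (mv 461 (both (five 7 461 493) (mv 429 (both (five 7 429 462) (mv 623 (both (five 4 494 591) (mv 622 (both (five 4 526 655) (mv 527 (both (five 5 494 495) (mv 559 (both (five 5 526 654) (mv 557 (both (five 1 524 556) (mv 589 (both (five 2 557 561) (five 2 556 588))))))))))))))))))))) (both (mv 590 (both (mv 461 (both (five 7 461 493) (mv 462 (both (five 7 429 429) (mv 463 (both (five 5 430 431) (five 5 462 495))))))) (both (mv 461 (both (five 7 461 493) (mv 462 (both (five 7 429 429) (mv 591 (both (five 4 462 559) (five 4 494 623))))))) (mv 623 (both (five 4 494 591)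 (mv 622 (both (five 4 526 655) (mv 527 (both (five 5 494 495) (mv 653 (both (five 6 525 621) (mv 654 (both (five 5 526 559) (five 6 557 685)))))))))))))) (mv 590 (both (mv 461 (both (five 7 461 493) (mv 462 (both (five 7 429 429) (mv 463 (both (five 5 430 431) (five 5 462 495))))))) (mv 589 (both (five 6 493 621) (mv 559 (both (five 2 557 561) (mv 588 (both (five 2 556 557) (five 1 555 587))))))))))))))) (both (mv 529 (both (mv 557 (both (five 2 525 527) (five 1 525 559))) (both (mv 497 (both (mv 465 (both (five 6 432 433) (mv 592 (both (five 6 464 561) (five 5 496 624))))) (mv 527 (both (five 1 494 498) (mv 494 (both (five 3 493 493) (mv 559 (both (five 2 526 530) (mv 462 (both (five 4 430 430) (five 4 462 591))))))))))) (both (mv 527 (both (five 2 525 557) (mv 497 (both (five 1 494 498) (mv 465 (both (five 6 432 433) (mv 592 (both (five 6 464 561) (five 5 496 624))))))))) (mv 559 (both (five 1 525 557) (mv 530 (both (five 2 527 531) (five 1 526 561))))))))) (mv 494 (both (mv 590 (both (mv 621 (both (five 6 493 589) (mv 622 (both (five 6 525 653) (mv 623 (both (five 4 494 591) (five 4 526 655)))))))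 (mv 461 (both (five 7 461 493) (mv 462 (both (five 7 429 429) (mv 463 (both (five 5 430 431) (five 5 462 495))))))))) (both (mv 590 (both (mv 621 (both (five 6 493 589) (mv 622 (both (five 6 525 653) (mv 623 (both (five 4 494 591) (five 4 526 655))))))) (mv 493 (both (five 7 461 461) (mv 495 (both (five 5 462 463) (mv 527 (both (five 0 492 492) (five 3 493 529))))))))) (both (mv 529 (both (mv 557 (both (five 2 525 527) (five 1 525 559))) (both (mv 557 (both (five 1 525 559) (mv 462 (both (five 6 461 589) (mv 429 (both (five 7 429 461) (mv 430 (both (five 7 397 397) (mv 431 (both (five 5 398 399) (five 5 430 463))))))))))) (mv 493 (both (five 3 493 527) (mv 461 (both (five 7 461 590) (mv 429 (both (five 4 397 397) (five 7 429 462)))))))))) (both (mv 559 (both (mv 557 (both (five 1 525 529) (mv 588 (both (five 2 556 589) (mv 556 (both (five 2 555 587) (mv 592 (both (five 0 556 591) (five 0 557 593))))))))) (both (mv 462 (both (five 4 462 591) (mv 429 (both (five 7 429 461) (mv 430 (both (five 7 397 397) (five 4 430 527))))))) (mv 529 (both (five 1 525 557) (mv 530 (both (five 2 526 527) (five 2 527 531))))))))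 (both (mv 590 (both (mv 461 (both (five 7 461 493) (mv 462 (both (five 7 429 429) (mv 463 (both (five 5 430 431) (five 5 462 495))))))) (both (mv 461 (both (five 7 461 493) (mv 462 (both (five 7 429 429) (mv 591 (both (five 4 462 559) (five 4 494 623))))))) (mv 623 (both (five 4 494 591) (mv 622 (both (five 4 526 655) (mv 527 (both (five 5 494 495) (mv 653 (both (five 6 525 621) (mv 654 (both (five 5 526 559) (five 6 557 685)))))))))))))) (mv 559 (both (mv 529 (both (five 1 525 557) (mv 530 (both (five 2 526 527) (five 2 527 531))))) (both (mv 462 (both (five 4 462 591) (mv 430 (both (five 4 430 527) (mv 431 (both (five 5 398 399) (five 5 430 463))))))) (mv 557 (both (five 1 525 529) (mv 588 (both (five 2 556 589) (mv 556 (both (five 2 555 587) (mv 592 (both (five 0 556 591) (five 0 557 593))))))))))))))))))))))))))) (both (mv 558 (both (mv 559 (both (ref 1) (both (mv 557 (both (mv 588 (both (five 2 556 589) (mv 556 (both (five 2 555 587) (mv 592 (both (five 0 556 591) (five 0 557 593))))))) (both (mv 589 (both (five 2 556 588) (mv 494 (both (five 6 461 462) (mv 590 (both (five 2 557 561) (five 6 493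 621))))))) (mv 592 (both (five 0 557 593) (mv 591 (both (five 0 556 556) (mv 494 (both (five 4 462 462) (mv 623 (both (five 4 494 590) (five 7 526 655)))))))))))) (both (mv 529 (both (five 1 525 557) (mv 530 (both (five 2 527 531) (five 1 526 561))))) (mv 557 (both (five 1 525 529) (mv 588 (both (five 2 556 589) (mv 556 (both (five 2 555 587) (mv 592 (both (five 0 556 591) (five 0 557 593))))))))))))) (both (mv 590 (both (mv 494 (both (mv 621 (both (five 6 493 589) (mv 622 (both (five 6 525 653) (mv 623 (both (five 4 494 591) (five 4 526 655))))))) (mv 461 (both (five 7 461 493) (mv 462 (both (five 7 429 429) (mv 463 (both (five 5 430 431) (five 5 462 495))))))))) (both (mv 622 (both (mv 653 (both (five 6 525 621) (mv 654 (both (five 6 557 685) (mv 655 (both (five 4 526 623) (five 4 558 687))))))) (both (mv 525 (both (five 7 493 493) (mv 653 (both (five 6 525 621) (mv 654 (both (five 7 525 557) (five 6 557 685))))))) (both (mv 525 (both (five 7 493 493) (mv 654 (both (five 7 525 557) (mv 655 (both (five 4 526 623) (five 4 558 687))))))) (mv 621 (both (five 6 525 653) (mv 591 (both (mv 493 (both (five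 7 493 525) (mv 620 (both (five 1 587 619) (mv 623 (both (five 4 526 655) (mv 588 (both (five 3 587 587) (mv 589 (both (five 0 588 624) (mv 555 (both (five 3 555 556) (mv 652 (both (five 2 619 651) (mv 684 (both (five 5 556 557) (five 5 588 716))))))))))))))))) (both (mv 493 (both (five 7 493 525) (mv 592 (both (five 2 589 593) (mv 589 (both (five 1 557 561) (mv 556 (both (five 3 556 557) (mv 588 (both (five 3 555 555) (mv 587 (both (five 0 586 586) (five 0 587 623))))))))))))) (both (mv 592 (both (five 2 589 593) (mv 589 (both (five 1 557 561) (five 2 588 620))))) (mv 493 (both (five 7 493 525) (mv 592 (both (five 2 589 593) (mv 620 (both (five 1 587 619) (five 1 588 623))))))))))))))))) (both (mv 494 (both (mv 589 (both (five 6 493 621) (mv 591 (both (five 4 494 623) (mv 592 (both (five 1 557 561) (mv 557 (both (five 3 556 556) (five 3 557 593))))))))) (mv 461 (both (five 7 461 493) (mv 462 (both (five 7 429 429) (mv 463 (both (five 5 430 431) (five 5 462 495))))))))) (both (mv 494 (both (mv 461 (both (five 7 461 493) (mv 462 (both (five 7 429 429) (mv 463 (both (five 5 430 431) (five 5 462 495)))))))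 (both (mv 463 (both (five 5 462 495) (mv 462 (both (five 5 430 431) (mv 589 (both (five 6 461 557) (five 6 493 621))))))) (both (mv 461 (both (five 7 461 493) (mv 462 (both (five 7 429 429) (mv 589 (both (five 6 461 557) (five 6 493 621))))))) (mv 463 (both (five 5 462 495) (mv 493 (both (five 7 461 461) (mv 621 (both (five 6 493 589) (mv 622 (both (five 7 493 525) (five 6 525 653))))))))))))) (both (mv 494 (both (mv 461 (both (five 7 461 493) (mv 462 (both (five 7 429 429) (mv 463 (both (five 5 430 431) (five 5 462 495))))))) (both (mv 463 (both (five 5 462 495) (mv 462 (both (five 5 430 431) (mv 429 (both (five 7 429 461) (mv 430 (both (five 7 397 397) (mv 557 (both (five 6 429 525) (five 6 461 589))))))))))) (both (mv 463 (both (five 5 462 495) (mv 462 (both (five 5 430 431) (mv 557 (both (five 6 461 589) (mv 525 (both (five 6 429 430) (mv 622 (both (five 7 493 493) (five 7 525 654))))))))))) (both (mv 461 (both (five 7 461 493) (mv 462 (both (five 7 429 429) (mv 557 (both (five 6 461 589) (mv 525 (both (five 6 429 430) (mv 622 (both (five 7 525 654) (mv 623 (both (five 4 494 591) (five 4 526 655)))))))))))))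 (mv 463 (both (five 5 462 495) (mv 493 (both (five 7 461 461) (mv 622 (both (five 7 493 525) (mv 623 (both (five 4 494 591) (five 4 526 655)))))))))))))) (both (mv 622 (both (mv 653 (both (five 6 525 621) (mv 654 (both (five 6 557 685) (mv 655 (both (five 4 526 623) (five 4 558 687))))))) (both (mv 525 (both (five 7 493 493) (mv 653 (both (five 6 525 621) (mv 654 (both (five 7 525 557) (five 6 557 685))))))) (mv 623 (both (five 4 526 655) (mv 494 (both (five 4 494 591) (mv 461 (both (five 7 461 493) (mv 462 (both (five 7 429 429) (mv 463 (both (five 5 430 431) (five 5 462 495)))))))))))))) (mv 622 (both (mv 653 (both (five 6 525 621) (mv 654 (both (five 6 557 685) (mv 655 (both (five 4 526 623) (five 4 558 687))))))) (both (mv 653 (both (five 6 525 621) (mv 654 (both (five 6 557 685) (mv 557 (both (five 7 525 525) (mv 686 (both (five 7 557 589) (mv 687 (both (five 4 558 655) (five 4 590 719))))))))))) (both (mv 623 (both (five 4 526 655) (mv 494 (both (five 4 494 591) (mv 463 (both (five 5 462 495) (mv 462 (both (five 5 430 431) (mv 429 (both (five 7 429 461) (mv 430 (both (five 7 397 397) (mv 557 (both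 (five 6 429 525) (five 6 461 589))))))))))))))) (mv 653 (both (five 6 525 621) (mv 654 (both (five 6 557 685) (mv 557 (both (five 7 525 525) (mv 589 (both (five 7 557 686) (mv 494 (both (five 6 461 462) (mv 463 (both (five 5 462 495) (mv 591 (both (five 4 494 623) (mv 556 (both (five 0 555 555) (five 3 556 592)))))))))))))))))))))))))))) (both (mv 494 (both (mv 590 (both (mv 621 (both (five 6 493 589) (mv 622 (both (five 6 525 653) (mv 623 (both (five 4 494 591) (five 4 526 655))))))) (mv 461 (both (five 7 461 493) (mv 462 (both (five 7 429 429) (mv 463 (both (five 5 430 431) (five 5 462 495))))))))) (both (mv 462 (both (mv 429 (both (five 7 429 461) (mv 430 (both (five 7 397 397) (mv 431 (both (five 5 398 399) (five 5 430 463))))))) (mv 559 (both (five 4 462 591) (mv 561 (both (five 3 525 525) (mv 529 (both (five 1 526 530) (mv 593 (both (five 0 558 594) (mv 625 (both (five 7 528 657) (mv 624 (both (five 6 528 656) (mv 497 (both (five 5 496 592) (mv 465 (both (five 6 432 433) (mv 466 (both (five 5 433 434) (five 5 465 498))))))))))))))))))))) (both (mv 590 (both (mv 621 (both (five 6 493 589) (mv 622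 (both (five 6 525 653) (mv 623 (both (five 4 494 591) (five 4 526 655))))))) (both (mv 493 (both (five 7 461 461) (mv 622 (both (five 7 493 525) (mv 623 (both (five 4 494 591) (five 4 526 655))))))) (both (mv 493 (both (five 7 461 461) (mv 621 (both (five 6 493 589) (mv 622 (both (five 7 493 525) (five 6 525 653))))))) (mv 461 (both (five 7 461 493) (mv 463 (both (five 5 462 495) (mv 589 (both (five 6 493 621) (mv 559 (both (five 2 557 561) (mv 588 (both (five 1 555 587) (five 1 556 591))))))))))))))) (both (mv 463 (both (mv 431 (both (five 5 430 462) (mv 495 (both (five 6 398 399) (five 5 462 590))))) (both (mv 462 (both (five 5 430 431) (mv 493 (both (mv 464 (both (five 2 461 465) (mv 492 (both (five 1 459 491) (five 1 460 495))))) (both (mv 429 (both (five 7 429 461) (mv 430 (both (five 7 397 397) (mv 398 (both (five 6 397 525) (mv 366 (both (five 4 366 495) (mv 367 (both (five 5 334 335) (five 5 366 399))))))))))) (mv 461 (both (five 7 429 429) (mv 464 (both (five 2 461 465) (five 2 460 492)))))))))) (both (mv 590 (both (five 5 462 495) (mv 493 (both (five 7 461 461) (mv 621 (both (five 6 493 589)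 (mv 622 (both (five 7 493 525) (five 6 525 653))))))))) (mv 462 (both (five 5 430 431) (mv 461 (both (five 7 429 429) (mv 493 (both (five 7 461 590) (mv 464 (both (five 2 461 465) (five 2 460 492))))))))))))) (mv 559 (both (mv 561 (both (five 3 525 525) (mv 529 (both (five 1 526 530) (mv 593 (both (five 0 558 594) (mv 625 (both (five 7 528 657) (mv 624 (both (five 6 528 656) (mv 497 (both (five 5 496 592) (mv 465 (both (five 6 432 433) (mv 466 (both (five 5 433 434) (five 5 465 498))))))))))))))))) (mv 591 (both (five 4 462 462) (mv 623 (both (five 4 494 590) (five 7 526 655)))))))))))) (both (mv 559 (both (mv 561 (both (five 3 525 525) (mv 529 (both (five 1 526 530) (mv 593 (both (five 0 558 594) (mv 625 (both (five 7 528 657) (mv 624 (both (five 6 528 656) (mv 497 (both (five 5 496 592) (mv 465 (both (five 6 432 433) (mv 466 (both (five 5 433 434) (five 5 465 498))))))))))))))))) (both (mv 525 (both (five 3 525 561) (mv 524 (both (five 0 523 523) (five 3 524 557))))) (mv 557 (both (five 1 525 529) (mv 588 (both (five 2 556 589) (mv 556 (both (five 2 555 587) (mv 592 (both (five 0 556 591) (five 0 557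 593)))))))))))) (both (mv 494 (both (mv 462 (both (mv 429 (both (five 7 429 461) (mv 430 (both (five 7 397 397) (mv 431 (both (five 5 398 399) (five 5 430 463))))))) (mv 557 (both (five 6 461 589) (mv 559 (both (five 1 525 529) (five 4 462 591))))))) (both (mv 590 (both (mv 621 (both (five 6 493 589) (mv 622 (both (five 6 525 653) (mv 623 (both (five 4 494 591) (five 4 526 655))))))) (both (mv 493 (both (five 7 461 461) (mv 621 (both (five 6 493 589) (mv 622 (both (five 7 493 525) (five 6 525 653))))))) (both (mv 493 (both (five 7 461 461) (mv 622 (both (five 7 493 525) (mv 623 (both (five 4 494 591) (five 4 526 655))))))) (mv 461 (both (five 7 461 493) (mv 463 (both (five 5 462 495) (mv 589 (both (five 6 493 621) (mv 591 (both (five 4 494 623) (mv 559 (both (five 1 556 588) (mv 557 (both (five 1 525 529) (mv 556 (both (five 0 555 555) (five 3 556 592))))))))))))))))))) (both (mv 462 (both (mv 429 (both (five 7 429 461) (mv 430 (both (five 7 397 397) (mv 431 (both (five 5 398 399) (five 5 430 463))))))) (both (mv 431 (both (five 5 430 463) (mv 430 (both (five 5 398 399) (mv 557 (both (five 6 429 525)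 (mv 559 (both (five 1 525 529) (five 4 462 591))))))))) (both (mv 429 (both (five 7 429 461) (mv 430 (both (five 7 397 397) (mv 557 (both (five 6 429 525) (mv 559 (both (five 1 525 529) (five 4 462 591))))))))) (mv 429 (both (five 7 429 461) (mv 463 (both (five 5 430 431) (mv 495 (both (five 5 462 590) (mv 559 (both (five 4 462 591) (mv 557 (both (five 1 525 529) (mv 524 (both (five 3 524 525) (mv 556 (both (five 3 523 523) (mv 587 (both (five 2 555 588) (mv 555 (both (five 2 554 586) (mv 492 (both (five 6 459 460) (mv 493 (both (five 1 460 464) (five 1 459 491))))))))))))))))))))))))))) (both (mv 463 (both (mv 431 (both (five 5 430 462) (mv 495 (both (five 6 398 399) (five 5 462 590))))) (both (mv 462 (both (five 5 430 431) (mv 493 (both (mv 464 (both (five 2 461 465) (mv 492 (both (five 1 459 491) (five 1 460 495))))) (both (mv 429 (both (five 7 429 461) (mv 430 (both (five 7 397 397) (mv 398 (both (five 6 397 525) (mv 366 (both (five 4 366 495) (mv 367 (both (five 5 334 335) (five 5 366 399))))))))))) (mv 461 (both (five 7 429 429) (mv 464 (both (five 2 461 465) (five 2 460 492)))))))))) (both (mv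 590 (both (five 5 462 495) (mv 493 (both (five 7 461 461) (mv 621 (both (five 6 493 589) (mv 622 (both (five 7 493 525) (five 6 525 653))))))))) (mv 462 (both (five 5 430 431) (mv 461 (both (five 7 429 429) (mv 493 (both (five 7 461 590) (mv 464 (both (five 2 461 465) (five 2 460 492))))))))))))) (both (mv 590 (both (mv 621 (both (five 6 493 589) (mv 622 (both (five 6 525 653) (mv 623 (both (five 4 494 591) (five 4 526 655))))))) (both (mv 463 (both (five 5 462 495) (mv 462 (both (five 5 430 431) (mv 589 (both (five 6 461 557) (five 6 493 621))))))) (both (mv 463 (both (five 5 462 495) (mv 431 (both (five 5 430 462) (mv 623 (both (five 4 494 591) (mv 622 (both (five 4 526 655) (mv 525 (both (five 7 493 493) (mv 653 (both (five 6 525 621) (mv 654 (both (five 7 525 557) (five 6 557 685))))))))))))))) (mv 463 (both (five 5 462 495) (mv 462 (both (five 5 430 431) (mv 557 (both (five 6 461 589) (mv 525 (both (five 6 429 430) (mv 622 (both (five 7 493 493) (five 7 525 654))))))))))))))) (mv 590 (both (mv 621 (both (five 6 493 589) (mv 622 (both (five 6 525 653) (mv 623 (both (five 4 494 591) (five 4 526 655)))))))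 (both (mv 461 (both (five 7 461 493) (mv 462 (both (five 7 429 429) (mv 589 (both (five 6 461 557) (five 6 493 621))))))) (mv 461 (both (five 7 461 493) (mv 462 (both (five 7 429 429) (mv 591 (both (five 4 462 559) (five 4 494 623)))))))))))))))) (both (mv 559 (both (mv 529 (both (five 1 525 557) (mv 530 (both (five 2 527 531) (five 1 526 561))))) (both (mv 561 (both (five 3 525 525) (mv 529 (both (five 1 526 530) (mv 590 (both (five 2 557 589) (mv 593 (both (five 0 558 594) (mv 625 (both (five 7 528 657) (mv 624 (both (five 6 528 656) (mv 626 (both (five 4 529 658) (mv 623 (both (five 3 590 591) (mv 655 (both (five 4 526 622) (five 2 622 654))))))))))))))))))) (both (mv 557 (both (five 1 525 529) (mv 524 (both (five 3 524 525) (mv 523 (both (five 3 523 556) (mv 589 (both (five 2 556 588) (mv 494 (both (five 6 461 462) (mv 621 (both (five 6 493 590) (five 5 525 653))))))))))))) (mv 525 (both (five 3 525 561) (mv 524 (both (five 0 523 523) (five 3 524 557))))))))) (both (mv 559 (both (mv 561 (both (five 3 525 525) (mv 529 (both (five 1 526 530) (mv 593 (both (five 0 558 594) (mv 625 (both (five 7 528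 657) (mv 624 (both (five 6 528 656) (mv 497 (both (five 5 496 592) (mv 465 (both (five 6 432 433) (mv 466 (both (five 5 433 434) (five 5 465 498))))))))))))))))) (both (mv 525 (both (five 3 525 561) (mv 524 (both (five 0 523 523) (five 3 524 557))))) (mv 557 (both (five 1 525 529) (mv 592 (both (five 0 557 593) (mv 591 (both (five 0 556 556) (mv 494 (both (five 4 462 462) (mv 623 (both (five 4 494 590) (five 7 526 655)))))))))))))) (mv 559 (both (mv 529 (both (five 1 525 557) (mv 530 (both (five 2 527 531) (five 1 526 561))))) (both (mv 561 (both (five 3 525 525) (mv 529 (both (five 1 526 530) (mv 593 (both (five 0 558 594) (mv 625 (both (five 7 528 657) (mv 624 (both (five 6 528 656) (mv 497 (both (five 5 496 592) (mv 465 (both (five 6 432 433) (mv 466 (both (five 5 433 434) (five 5 465 498))))))))))))))))) (both (mv 557 (both (five 1 525 529) (mv 524 (both (five 3 524 525) (mv 523 (both (five 3 523 556) (mv 589 (both (five 2 556 588) (mv 494 (both (five 6 461 462) (mv 621 (both (five 6 493 590) (five 5 525 653))))))))))))) (mv 525 (both (five 3 525 561) (mv 524 (both (five 0 523 523) (five 3 524 557)))))))))))))))))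 (both (mv 558 (both (ref 0) (both (mv 590 (both (mv 494 (both (mv 461 (both (five 7 461 493) (mv 462 (both (five 7 429 429) (mv 463 (both (five 5 430 431) (five 5 462 495))))))) (both (mv 463 (both (five 5 462 495) (mv 462 (both (five 5 430 431) (mv 589 (both (five 6 461 557) (five 6 493 621))))))) (both (mv 461 (both (five 7 461 493) (mv 462 (both (five 7 429 429) (mv 589 (both (five 6 461 557) (five 6 493 621))))))) (mv 463 (both (five 5 462 495) (mv 493 (both (five 7 461 461) (mv 621 (both (five 6 493 589) (mv 622 (both (five 7 493 525) (five 6 525 653))))))))))))) (both (mv 494 (both (mv 589 (both (five 6 493 621) (mv 591 (both (five 4 494 623) (mv 592 (both (five 1 557 561) (mv 557 (both (five 3 556 556) (five 3 557 593))))))))) (mv 461 (both (five 7 461 493) (mv 462 (both (five 7 429 429) (mv 463 (both (five 5 430 431) (five 5 462 495))))))))) (both (mv 622 (both (mv 653 (both (five 6 525 621) (mv 654 (both (five 6 557 685) (mv 655 (both (five 4 526 623) (five 4 558 687))))))) (mv 525 (both (five 7 493 493) (mv 527 (both (five 5 494 495) (five 0 525 561))))))) (both (mv 622 (both (mv 653 (both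 (five 6 525 621) (mv 654 (both (five 6 557 685) (mv 655 (both (five 4 526 623) (five 4 558 687))))))) (both (mv 653 (both (five 6 525 621) (mv 654 (both (five 6 557 685) (mv 557 (both (five 7 525 525) (mv 686 (both (five 7 557 589) (mv 687 (both (five 4 558 655) (five 4 590 719))))))))))) (both (mv 623 (both (five 4 526 655) (mv 494 (both (five 4 494 591) (mv 463 (both (five 5 462 495) (mv 462 (both (five 5 430 431) (mv 429 (both (five 7 429 461) (mv 430 (both (five 7 397 397) (mv 557 (both (five 6 429 525) (five 6 461 589))))))))))))))) (mv 653 (both (five 6 525 621) (mv 654 (both (five 6 557 685) (mv 557 (both (five 7 525 525) (mv 589 (both (five 7 557 686) (mv 494 (both (five 6 461 462) (mv 463 (both (five 5 462 495) (mv 591 (both (five 4 494 623) (mv 556 (both (five 0 555 555) (five 3 556 592))))))))))))))))))))) (both (mv 623 (both (mv 655 (both (five 4 526 622) (mv 591 (both (five 7 558 687) (mv 592 (both (five 6 527 624) (mv 557 (both (five 3 557 593) (mv 556 (both (five 0 555 555) (five 3 556 589))))))))))) (both (mv 494 (both (five 4 494 591) (mv 461 (both (five 7 461 493) (mv 462 (both (five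 7 429 429) (mv 589 (both (five 6 461 557) (five 6 493 621))))))))) (both (mv 622 (both (five 4 526 655) (mv 621 (both (five 6 525 653) (mv 589 (both (five 6 493 494) (mv 588 (both (five 0 587 587) (five 3 588 624))))))))) (mv 591 (both (five 4 494 494) (mv 655 (both (five 4 526 622) (five 7 558 687))))))))) (mv 494 (both (mv 461 (both (five 7 461 493) (mv 462 (both (five 7 429 429) (mv 463 (both (five 5 430 431) (five 5 462 495))))))) (both (mv 463 (both (five 5 462 495) (mv 462 (both (five 5 430 431) (mv 429 (both (five 7 429 461) (mv 430 (both (five 7 397 397) (mv 557 (both (five 6 429 525) (five 6 461 589))))))))))) (both (mv 463 (both (five 5 462 495) (mv 462 (both (five 5 430 431) (mv 557 (both (five 6 461 589) (mv 525 (both (five 6 429 430) (mv 622 (both (five 7 493 493) (five 7 525 654))))))))))) (both (mv 461 (both (five 7 461 493) (mv 462 (both (five 7 429 429) (mv 557 (both (five 6 461 589) (mv 525 (both (five 6 429 430) (mv 622 (both (five 7 525 654) (mv 623 (both (five 4 494 591) (five 4 526 655))))))))))))) (mv 463 (both (five 5 462 495) (mv 493 (both (five 7 461 461) (mv 622 (both (five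 7 493 525) (mv 623 (both (five 4 494 591) (five 4 526 655)))))))))))))))))))) (both (mv 559 (both (mv 525 (both (five 3 525 561) (mv 524 (both (five 0 523 523) (five 3 524 557))))) (both (mv 557 (both (mv 588 (both (five 2 556 589) (mv 556 (both (five 2 555 587) (mv 592 (both (five 0 556 591) (five 0 557 593))))))) (both (mv 592 (both (five 0 557 593) (mv 591 (both (five 0 556 556) (mv 494 (both (five 4 462 462) (mv 623 (both (five 4 494 590) (five 7 526 655))))))))) (mv 589 (both (five 2 556 588) (mv 494 (both (five 6 461 462) (mv 621 (both (five 6 493 590) (five 5 525 653)))))))))) (mv 623 (both (mv 561 (both (five 3 525 525) (mv 590 (both (five 2 557 589) (mv 593 (both (five 0 558 594) (mv 622 (both (five 4 526 655) (mv 621 (both (five 6 525 653) (mv 624 (both (five 1 589 592) (mv 657 (both (five 7 528 625) (five 0 621 656))))))))))))))) (both (mv 561 (both (five 3 525 525) (mv 590 (both (five 2 557 589) (mv 494 (both (five 4 494 591) (mv 461 (both (five 7 461 493) (mv 462 (both (five 7 429 429) (mv 463 (both (five 5 430 431) (five 5 462 495))))))))))))) (both (mv 591 (both (five 7 526 655) (mv 494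 (both (five 4 462 462) (five 4 494 590))))) (mv 561 (both (five 3 525 525) (mv 593 (both (five 0 558 594) (mv 625 (both (five 7 528 657) (mv 655 (both (five 7 526 591) (mv 624 (both (five 6 527 592) (mv 626 (both (five 2 622 654) (mv 627 (both (five 2 623 656) (mv 659 (both (five 0 623 658) (five 0 624 660)))))))))))))))))))))))) (both (mv 525 (both (mv 561 (both (five 0 525 527) (five 3 525 559))) (both (mv 527 (both (five 0 525 561) (mv 492 (both (five 3 492 493) (mv 524 (both (five 3 491 491) (mv 556 (both (five 2 523 555) (five 2 524 557))))))))) (both (mv 559 (both (five 3 525 561) (mv 524 (both (five 0 523 523) (five 3 524 557))))) (mv 557 (both (mv 524 (both (five 3 524 559) (mv 522 (both (five 0 522 523) (mv 527 (both (five 2 524 556) (mv 492 (both (five 3 491 491) (five 3 492 493))))))))) (both (mv 527 (both (five 2 524 556) (mv 492 (both (five 3 492 493) (mv 524 (both (five 3 491 491) (mv 428 (both (five 4 428 460) (mv 523 (both (five 0 522 522) (mv 494 (both (five 1 491 495) (mv 462 (both (five 6 461 589) (mv 429 (both (five 7 429 461) (mv 430 (both (five 7 397 397) (mv 431 (both (five 5 398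 399) (five 5 430 463))))))))))))))))))))) (both (mv 524 (both (five 3 524 559) (mv 523 (both (five 0 522 522) (mv 494 (both (five 1 491 495) (mv 462 (both (five 6 461 589) (mv 429 (both (five 7 429 461) (mv 430 (both (five 7 397 397) (mv 431 (both (five 5 398 399) (five 5 430 463))))))))))))))) (mv 527 (both (five 2 524 556) (mv 493 (both (five 3 492 492) (mv 461 (both (five 4 429 429) (mv 428 (both (five 7 428 460) (mv 462 (both (five 5 429 430) (mv 494 (both (five 5 461 589) (mv 431 (both (five 5 430 463) (mv 559 (both (five 4 462 591) (mv 592 (both (five 0 557 593) (mv 624 (both (five 7 495 495) (five 7 527 656))))))))))))))))))))))))))))) (both (mv 590 (both (mv 622 (both (mv 653 (both (five 6 525 621) (mv 654 (both (five 6 557 685) (mv 655 (both (five 4 526 623) (five 4 558 687))))))) (mv 525 (both (five 7 493 493) (mv 527 (both (five 5 494 495) (five 0 525 561))))))) (both (mv 494 (both (mv 461 (both (five 7 461 493) (mv 462 (both (five 7 429 429) (mv 463 (both (five 5 430 431) (five 5 462 495))))))) (mv 589 (both (five 6 493 621) (mv 559 (both (five 2 557 561) (mv 588 (both (five 1 555 587) (five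 1 556 591))))))))) (both (mv 525 (both (mv 561 (both (five 0 525 527) (five 3 525 559))) (mv 493 (both (five 7 493 622) (mv 461 (both (five 4 429 429) (five 7 461 494))))))) (mv 622 (both (mv 653 (both (five 6 525 621) (mv 654 (both (five 6 557 685) (mv 655 (both (five 4 526 623) (five 4 558 687))))))) (both (mv 527 (both (five 5 494 495) (mv 653 (both (five 6 525 621) (mv 654 (both (five 5 526 559) (five 6 557 685))))))) (mv 495 (both (five 5 494 527) (mv 494 (both (five 5 462 463) (mv 623 (both (five 4 494 591) (five 4 526 655)))))))))))))) (both (mv 590 (both (mv 494 (both (mv 461 (both (five 7 461 493) (mv 462 (both (five 7 429 429) (mv 463 (both (five 5 430 431) (five 5 462 495))))))) (both (mv 463 (both (five 5 462 495) (mv 462 (both (five 5 430 431) (mv 589 (both (five 6 461 557) (five 6 493 621))))))) (both (mv 461 (both (five 7 461 493) (mv 462 (both (five 7 429 429) (mv 589 (both (five 6 461 557) (five 6 493 621))))))) (mv 463 (both (five 5 462 495) (mv 493 (both (five 7 461 461) (mv 621 (both (five 6 493 589) (mv 622 (both (five 7 493 525) (five 6 525 653))))))))))))) (both (mv 494 (both (mv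 461 (both (five 7 461 493) (mv 462 (both (five 7 429 429) (mv 463 (both (five 5 430 431) (five 5 462 495))))))) (both (mv 461 (both (five 7 461 493) (mv 462 (both (five 7 429 429) (mv 589 (both (five 6 461 557) (five 6 493 621))))))) (both (mv 463 (both (five 5 462 495) (mv 462 (both (five 5 430 431) (mv 589 (both (five 6 461 557) (five 6 493 621))))))) (mv 461 (both (five 7 461 493) (mv 463 (both (five 5 462 495) (mv 589 (both (five 6 493 621) (mv 591 (both (five 4 494 623) (mv 588 (both (five 1 556 559) (mv 555 (both (five 3 555 556) (mv 587 (both (five 3 554 554) (mv 619 (both (five 2 586 618) (five 2 587 620))))))))))))))))))))) (both (mv 622 (both (mv 527 (both (five 5 494 495) (mv 653 (both (five 6 525 621) (mv 654 (both (five 5 526 559) (five 6 557 685))))))) (both (mv 525 (both (five 7 493 493) (mv 654 (both (five 7 525 557) (mv 655 (both (five 4 526 623) (five 4 558 687))))))) (mv 525 (both (five 7 493 493) (mv 527 (both (five 5 494 495) (mv 524 (both (five 0 524 559) (mv 556 (both (five 2 523 555) (five 2 524 557)))))))))))) (both (mv 622 (both (mv 653 (both (five 6 525 621) (mv 654 (both (five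 6 557 685) (mv 655 (both (five 4 526 623) (five 4 558 687))))))) (both (mv 527 (both (five 5 494 495) (mv 653 (both (five 6 525 621) (mv 654 (both (five 5 526 559) (five 6 557 685))))))) (mv 495 (both (five 5 494 527) (mv 494 (both (five 5 462 463) (mv 623 (both (five 4 494 591) (five 4 526 655)))))))))) (both (mv 623 (both (mv 655 (both (five 4 526 622) (mv 591 (both (five 7 558 687) (mv 592 (both (five 6 527 624) (mv 557 (both (five 3 557 593) (mv 556 (both (five 0 555 555) (five 3 556 589))))))))))) (both (mv 494 (both (five 4 494 591) (mv 461 (both (five 7 461 493) (mv 462 (both (five 7 429 429) (mv 589 (both (five 6 461 557) (five 6 493 621))))))))) (both (mv 622 (both (five 4 526 655) (mv 621 (both (five 6 525 653) (mv 589 (both (five 6 493 494) (mv 588 (both (five 0 587 587) (five 3 588 624))))))))) (mv 591 (both (five 4 494 494) (mv 655 (both (five 4 526 622) (five 7 558 687))))))))) (mv 494 (both (mv 461 (both (five 7 461 493) (mv 462 (both (five 7 429 429) (mv 463 (both (five 5 430 431) (five 5 462 495))))))) (both (mv 463 (both (five 5 462 495) (mv 462 (both (five 5 430 431) (mv 429 (both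 (five 7 429 461) (mv 430 (both (five 7 397 397) (mv 557 (both (five 6 429 525) (five 6 461 589))))))))))) (both (mv 463 (both (five 5 462 495) (mv 462 (both (five 5 430 431) (mv 557 (both (five 6 461 589) (mv 525 (both (five 6 429 430) (mv 622 (both (five 7 493 493) (five 7 525 654))))))))))) (both (mv 461 (both (five 7 461 493) (mv 462 (both (five 7 429 429) (mv 557 (both (five 6 461 589) (mv 525 (both (five 6 429 430) (mv 622 (both (five 7 525 654) (mv 623 (both (five 4 494 591) (five 4 526 655))))))))))))) (mv 463 (both (five 5 462 495) (mv 493 (both (five 7 461 461) (mv 622 (both (five 7 493 525) (mv 623 (both (five 4 494 591) (five 4 526 655)))))))))))))))))))) (both (mv 525 (both (mv 561 (both (five 0 525 527) (five 3 525 559))) (both (mv 559 (both (five 3 525 561) (mv 524 (both (five 0 523 523) (five 3 524 557))))) (both (mv 527 (both (five 0 525 561) (mv 492 (both (five 3 492 493) (mv 524 (both (five 3 491 491) (mv 556 (both (five 2 523 555) (five 2 524 557))))))))) (mv 527 (both (mv 524 (both (five 0 524 559) (mv 556 (both (five 2 523 555) (five 2 524 557))))) (both (mv 493 (both (five 3 492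 492) (mv 461 (both (five 4 429 429) (mv 557 (both (five 2 524 556) (five 4 461 590))))))) (mv 492 (both (five 3 492 493) (mv 524 (both (five 3 491 491) (five 0 524 559)))))))))))) (mv 559 (both (mv 557 (both (mv 588 (both (five 2 556 589) (mv 556 (both (five 2 555 587) (mv 592 (both (five 0 556 591) (five 0 557 593))))))) (both (mv 592 (both (five 0 557 593) (mv 591 (both (five 0 556 556) (mv 494 (both (five 4 462 462) (mv 623 (both (five 4 494 590) (five 7 526 655))))))))) (mv 589 (both (five 2 556 588) (mv 494 (both (five 6 461 462) (mv 621 (both (five 6 493 590) (five 5 525 653)))))))))) (mv 525 (both (five 3 525 561) (mv 524 (both (five 0 523 523) (five 0 524 527))))))))))))))) (both (mv 527 (both (mv 525 (both (five 0 525 561) (mv 524 (both (five 0 524 559) (mv 556 (both (five 2 523 555) (five 2 524 557))))))) (both (mv 529 (both (mv 497 (both (five 1 494 498) (mv 465 (both (five 6 432 433) (mv 592 (both (five 6 464 561) (five 5 496 624))))))) (both (mv 494 (both (five 3 493 493) (mv 495 (both (five 3 494 530) (mv 463 (both (five 4 431 431) (mv 592 (both (five 4 463 559) (five 7 495 624)))))))))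 (mv 493 (both (five 3 493 494) (mv 498 (both (five 1 494 497) (mv 530 (both (five 1 495 499) (mv 531 (both (five 2 527 559) (mv 532 (both (five 2 528 561) (mv 564 (both (five 0 528 563) (five 0 529 565)))))))))))))))) (both (mv 525 (both (mv 524 (both (five 0 524 559) (mv 556 (both (five 2 523 555) (five 2 524 557))))) (both (mv 493 (both (five 3 492 492) (mv 494 (both (five 3 493 529) (mv 557 (both (five 2 524 556) (mv 462 (both (five 6 429 430) (five 5 461 589))))))))) (mv 492 (both (five 3 492 493) (mv 524 (both (five 3 491 491) (five 0 524 559)))))))) (mv 525 (both (five 0 525 561) (mv 492 (both (five 3 492 493) (mv 524 (both (five 3 491 491) (mv 556 (both (five 2 523 555) (five 2 524 557))))))))))))) (both (mv 527 (both (mv 525 (both (five 0 525 561) (mv 492 (both (five 3 492 493) (mv 524 (both (five 3 491 491) (mv 556 (both (five 2 523 555) (five 2 524 557))))))))) (both (mv 529 (both (mv 497 (both (five 1 494 498) (mv 465 (both (five 6 432 433) (mv 592 (both (five 6 464 561) (five 5 496 624))))))) (mv 494 (both (five 3 493 493) (mv 495 (both (five 3 494 530) (mv 463 (both (five 4 431 431) (mv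 558 (both (five 2 525 557) (five 5 462 590))))))))))) (both (mv 557 (both (mv 529 (both (five 2 525 558) (mv 494 (both (five 3 493 493) (mv 498 (both (five 1 494 497) (mv 530 (both (five 3 494 495) (five 1 495 499))))))))) (both (mv 525 (both (five 2 524 556) (mv 494 (both (mv 462 (both (five 6 429 430) (mv 589 (both (five 6 461 558) (five 5 493 621))))) (both (mv 492 (both (five 3 492 493) (mv 524 (both (five 3 491 491) (mv 428 (both (five 4 428 460) (mv 523 (both (five 1 491 495) (mv 522 (both (five 0 522 558) (mv 554 (both (five 2 521 553) (five 2 522 555))))))))))))) (mv 462 (both (five 6 429 430) (mv 493 (both (five 3 492 492) (five 5 461 589)))))))))) (both (mv 525 (both (five 2 524 556) (mv 493 (both (five 3 492 492) (mv 494 (both (five 3 493 529) (mv 462 (both (five 6 429 430) (five 5 461 589))))))))) (mv 556 (both (five 2 524 525) (mv 558 (both (five 2 525 529) (five 1 523 555))))))))) (both (mv 557 (both (mv 556 (both (five 2 524 525) (mv 558 (both (five 2 525 529) (five 1 523 555))))) (both (mv 529 (both (five 2 525 558) (mv 497 (both (five 1 494 498) (mv 465 (both (five 6 432 433) (mv 592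 (both (five 6 464 561) (five 5 496 624))))))))) (mv 525 (both (five 2 524 556) (five 0 525 561)))))) (mv 529 (both (mv 497 (both (five 1 494 498) (mv 465 (both (five 6 432 433) (mv 592 (both (five 6 464 561) (five 5 496 624))))))) (both (mv 493 (both (five 3 493 494) (mv 525 (both (five 3 492 492) (five 0 525 561))))) (mv 494 (both (five 3 493 493) (mv 498 (both (five 1 494 497) (mv 530 (both (five 3 494 495) (five 1 495 499))))))))))))))) (both (mv 527 (both (mv 525 (both (mv 524 (both (five 0 524 559) (mv 556 (both (five 2 523 555) (five 2 524 557))))) (both (mv 493 (both (five 3 492 492) (mv 494 (both (five 3 493 529) (mv 557 (both (five 2 524 556) (mv 462 (both (five 6 429 430) (five 5 461 589))))))))) (mv 492 (both (five 3 492 493) (mv 524 (both (five 3 491 491) (five 0 524 559)))))))) (both (mv 525 (both (mv 524 (both (five 0 524 559) (mv 556 (both (five 2 523 555) (five 2 524 557))))) (both (mv 493 (both (five 3 492 492) (mv 461 (both (mv 429 (both (five 4 429 558) (mv 396 (both (five 7 396 428) (mv 397 (both (five 7 364 364) (five 4 397 494))))))) (both (mv 557 (both (five 2 524 556) (mv 462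 (both (five 5 429 430) (mv 589 (both (five 5 461 494) (mv 588 (both (five 6 492 620) (mv 590 (both (five 4 493 622) (mv 591 (both (five 1 556 559) (mv 624 (both (five 0 588 623) (mv 592 (both (five 7 495 495) (five 0 589 625))))))))))))))))) (mv 429 (both (five 4 429 558) (mv 396 (both (five 7 396 428) (mv 364 (both (five 7 364 397) (mv 430 (both (five 5 397 398) (mv 557 (both (five 5 429 462) (five 2 524 556)))))))))))))))) (both (mv 492 (both (five 3 492 493) (mv 524 (both (five 3 491 491) (mv 556 (both (five 2 523 555) (five 2 524 557))))))) (mv 492 (both (five 3 492 493) (mv 524 (both (five 3 491 491) (five 0 524 559))))))))) (both (mv 557 (both (mv 529 (both (five 2 525 558) (mv 494 (both (five 3 493 493) (mv 498 (both (five 1 494 497) (mv 530 (both (five 3 494 495) (five 1 495 499))))))))) (both (mv 525 (both (five 2 524 556) (mv 494 (both (mv 462 (both (five 6 429 430) (mv 589 (both (five 6 461 558) (five 5 493 621))))) (both (mv 492 (both (five 3 492 493) (mv 524 (both (five 3 491 491) (mv 428 (both (five 4 428 460) (mv 523 (both (five 1 491 495) (mv 522 (both (five 0 522 558) (mv 554 (both (five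 2 521 553) (five 2 522 555))))))))))))) (mv 462 (both (five 6 429 430) (mv 493 (both (five 3 492 492) (five 5 461 589)))))))))) (both (mv 525 (both (five 2 524 556) (mv 493 (both (five 3 492 492) (mv 494 (both (five 3 493 529) (mv 462 (both (five 6 429 430) (five 5 461 589))))))))) (mv 556 (both (five 2 524 525) (mv 558 (both (five 2 525 529) (five 1 523 555))))))))) (both (mv 525 (both (mv 524 (both (five 0 524 559) (mv 556 (both (five 2 523 555) (five 2 524 557))))) (both (mv 493 (both (five 3 492 492) (mv 557 (both (five 2 524 556) (mv 558 (both (five 2 525 529) (mv 461 (both (five 4 429 429) (five 4 461 590))))))))) (mv 492 (both (five 3 492 493) (mv 524 (both (five 3 491 491) (five 0 524 559)))))))) (both (mv 529 (both (mv 494 (both (five 3 493 493) (mv 498 (both (five 1 494 497) (mv 530 (both (five 3 494 495) (five 1 495 499))))))) (both (mv 498 (both (five 1 494 497) (mv 530 (both (five 1 495 499) (mv 559 (both (five 2 527 531) (five 2 526 558))))))) (both (mv 494 (both (five 3 493 493) (mv 495 (both (five 3 494 530) (mv 463 (both (five 4 431 431) (mv 592 (both (five 4 463 559) (five 7 495 624)))))))))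 (mv 525 (both (mv 497 (both (five 1 494 498) (mv 433 (both (five 6 432 465) (mv 524 (both (five 0 524 559) (mv 491 (both (five 3 491 492) (mv 523 (both (five 3 490 490) (mv 555 (both (five 2 522 554) (five 2 523 556))))))))))))) (both (mv 493 (both (five 3 492 492) (five 3 493 494))) (mv 494 (both (five 3 493 493) (mv 497 (both (five 1 494 498) (mv 433 (both (five 6 432 465) (mv 524 (both (five 0 524 559) (mv 523 (both (five 1 491 495) (mv 555 (both (five 2 522 554) (five 2 523 556)))))))))))))))))))) (both (mv 495 (both (mv 463 (both (five 4 431 431) (mv 592 (both (five 4 463 559) (five 7 495 624))))) (both (mv 529 (both (mv 498 (both (five 1 494 497) (mv 530 (both (five 1 495 499) (mv 558 (both (five 2 525 557) (five 2 526 559))))))) (both (mv 497 (both (five 1 494 498) (mv 433 (both (five 6 432 465) (mv 557 (both (five 2 525 558) (mv 525 (both (five 2 524 556) (mv 524 (both (five 0 524 559) (mv 491 (both (five 3 491 492) (mv 523 (both (five 3 490 490) (five 1 491 494))))))))))))))) (both (mv 498 (both (five 1 494 497) (mv 530 (both (five 3 494 494) (five 1 495 499))))) (mv 530 (both (five 3 494 494)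 (mv 531 (both (five 2 527 559) (mv 500 (both (five 1 496 499) (mv 532 (both (five 1 497 501) (mv 564 (both (five 0 528 563) (five 0 529 565))))))))))))))) (mv 558 (both (mv 529 (both (five 2 525 557) (mv 498 (both (five 1 494 497) (mv 530 (both (five 3 494 494) (five 1 495 499))))))) (both (mv 463 (both (five 6 430 431) (mv 590 (both (five 5 462 494) (five 5 494 622))))) (mv 431 (both (five 6 430 463) (mv 557 (both (five 2 525 529) (mv 556 (both (five 2 524 525) (five 1 523 555))))))))))))) (mv 529 (both (mv 494 (both (five 3 493 493) (mv 498 (both (five 1 494 497) (mv 530 (both (five 3 494 495) (five 1 495 499))))))) (both (mv 498 (both (five 1 494 497) (mv 530 (both (five 1 495 499) (mv 558 (both (five 2 525 557) (five 2 526 559))))))) (both (mv 494 (both (five 3 493 493) (mv 495 (both (five 3 494 530) (mv 463 (both (five 4 431 431) (mv 592 (both (five 4 463 559) (five 7 495 624))))))))) (mv 495 (both (mv 463 (both (five 4 431 431) (mv 592 (both (five 4 463 559) (five 7 495 624))))) (both (mv 494 (both (five 3 493 493) (mv 497 (both (five 1 494 498) (mv 433 (both (five 6 432 465) (mv 558 (both (five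 2 525 557) (mv 590 (both (five 5 494 622) (mv 589 (both (five 6 493 621) (mv 591 (both (five 4 494 623) (mv 559 (both (five 4 462 462) (five 1 556 588))))))))))))))))) (mv 463 (both (five 4 431 431) (mv 494 (both (five 3 493 493) (mv 558 (both (five 2 525 557) (five 5 462 590))))))))))))))))))))) (both (mv 527 (both (mv 525 (both (five 0 525 561) (mv 524 (both (five 0 524 559) (mv 556 (both (five 2 523 555) (five 2 524 557))))))) (both (mv 529 (both (mv 494 (both (five 3 493 493) (mv 498 (both (five 1 494 497) (mv 530 (both (five 3 494 495) (five 1 495 499))))))) (both (mv 498 (both (five 1 494 497) (mv 530 (both (five 1 495 499) (mv 558 (both (five 2 525 557) (five 2 526 559))))))) (both (mv 494 (both (five 3 493 493) (mv 495 (both (five 3 494 530) (mv 463 (both (five 4 431 431) (mv 558 (both (five 2 525 557) (five 5 462 590))))))))) (mv 495 (both (mv 463 (both (five 4 431 431) (mv 494 (both (five 3 493 493) (mv 558 (both (five 2 525 557) (five 5 462 590))))))) (both (mv 463 (both (five 4 431 431) (mv 494 (both (five 3 493 493) (mv 497 (both (five 1 494 498) (mv 465 (both (five 6 432 433) (mv 464 (both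 (five 2 462 466) (mv 432 (both (five 5 431 559) (five 7 432 561))))))))))))) (both (mv 463 (both (five 4 431 431) (mv 497 (both (five 1 494 498) (mv 433 (both (five 6 432 465) (mv 558 (both (five 2 525 557) (mv 590 (both (five 6 462 559) (five 5 494 622))))))))))) (mv 494 (both (five 3 493 493) (mv 497 (both (five 1 494 498) (mv 433 (both (five 6 432 465) (mv 558 (both (five 2 525 557) (mv 590 (both (five 5 494 622) (mv 589 (both (five 6 493 621) (mv 591 (both (five 4 494 623) (mv 559 (both (five 4 462 462) (five 1 556 588))))))))))))))))))))))))) (both (mv 525 (both (mv 524 (both (five 0 524 559) (mv 556 (both (five 2 523 555) (five 2 524 557))))) (both (mv 493 (both (five 3 492 492) (mv 494 (both (five 3 493 529) (mv 557 (both (five 2 524 556) (mv 462 (both (five 6 429 430) (five 5 461 589))))))))) (mv 492 (both (five 3 492 493) (mv 524 (both (five 3 491 491) (five 0 524 559)))))))) (both (mv 525 (both (five 0 525 561) (mv 492 (both (five 3 492 493) (mv 524 (both (five 3 491 491) (mv 556 (both (five 2 523 555) (five 2 524 557))))))))) (mv 525 (both (five 0 525 561) (mv 492 (both (five 3 492 493) (mv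 524 (both (five 3 491 491) (five 0 524 559)))))))))))) (both (mv 527 (both (mv 529 (both (mv 497 (both (five 1 494 498) (mv 465 (both (five 6 432 433) (mv 592 (both (five 6 464 561) (five 5 496 624))))))) (both (mv 558 (both (five 2 525 557) (mv 530 (both (five 2 526 559) (mv 499 (both (five 1 495 498) (mv 531 (both (five 1 496 500) (mv 532 (both (five 2 528 561) (mv 564 (both (five 0 528 563) (five 0 529 565))))))))))))) (both (mv 592 (both (mv 497 (both (five 5 496 624) (mv 465 (both (five 6 432 433) (five 6 464 561))))) (both (mv 558 (both (five 2 525 557) (mv 559 (both (five 2 526 530) (mv 495 (both (five 4 463 463) (mv 590 (both (five 5 494 622) (mv 561 (both (five 2 557 589) (mv 593 (both (five 0 558 594) (mv 625 (both (five 7 528 657) (mv 626 (both (five 0 590 591) (five 4 529 658))))))))))))))))) (mv 624 (both (five 7 495 495) (five 5 496 497)))))) (mv 498 (both (five 1 494 497) (mv 530 (both (five 1 495 499) (mv 558 (both (five 2 525 557) (five 2 526 559))))))))))) (both (mv 525 (both (mv 524 (both (five 0 524 559) (mv 556 (both (five 2 523 555) (five 2 524 557))))) (both (mv 493 (both (five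 3 492 492) (mv 557 (both (five 2 524 556) (mv 558 (both (five 2 525 529) (mv 461 (both (five 4 429 429) (five 4 461 590))))))))) (mv 492 (both (five 3 492 493) (mv 524 (both (five 3 491 491) (five 0 524 559)))))))) (both (mv 525 (both (five 0 525 561) (mv 492 (both (five 3 492 493) (mv 524 (both (five 3 491 491) (mv 556 (both (five 2 523 555) (five 2 524 557))))))))) (mv 525 (both (five 0 525 561) (mv 492 (both (five 3 492 493) (mv 524 (both (five 3 491 491) (five 0 524 559))))))))))) (both (mv 527 (both (mv 529 (both (mv 497 (both (five 1 494 498) (mv 465 (both (five 6 432 433) (mv 592 (both (five 6 464 561) (five 5 496 624))))))) (both (mv 494 (both (five 3 493 493) (mv 495 (both (five 3 494 530) (mv 463 (both (five 4 431 431) (mv 592 (both (five 4 463 559) (five 7 495 624))))))))) (mv 493 (both (five 3 493 494) (mv 498 (both (five 1 494 497) (mv 530 (both (five 1 495 499) (mv 531 (both (five 2 527 559) (mv 532 (both (five 2 528 561) (mv 564 (both (five 0 528 563) (five 0 529 565)))))))))))))))) (both (mv 529 (both (mv 494 (both (five 3 493 493) (mv 498 (both (five 1 494 497) (mv 530 (both (five 3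 494 495) (five 1 495 499))))))) (both (mv 498 (both (five 1 494 497) (mv 530 (both (five 1 495 499) (mv 559 (both (five 2 527 531) (five 2 526 558))))))) (both (mv 494 (both (five 3 493 493) (mv 495 (both (five 3 494 530) (mv 463 (both (five 4 431 431) (mv 592 (both (five 4 463 559) (five 7 495 624))))))))) (mv 525 (both (mv 497 (both (five 1 494 498) (mv 433 (both (five 6 432 465) (mv 524 (both (five 0 524 559) (mv 491 (both (five 3 491 492) (mv 523 (both (five 3 490 490) (mv 555 (both (five 2 522 554) (five 2 523 556))))))))))))) (both (mv 493 (both (five 3 492 492) (five 3 493 494))) (mv 494 (both (five 3 493 493) (mv 497 (both (five 1 494 498) (mv 433 (both (five 6 432 465) (mv 524 (both (five 0 524 559) (mv 523 (both (five 1 491 495) (mv 555 (both (five 2 522 554) (five 2 523 556)))))))))))))))))))) (both (mv 529 (both (mv 497 (both (five 1 494 498) (mv 465 (both (five 6 432 433) (mv 592 (both (five 6 464 561) (five 5 496 624))))))) (both (mv 493 (both (five 3 493 494) (mv 525 (both (five 3 492 492) (five 0 525 561))))) (mv 494 (both (five 3 493 493) (mv 498 (both (five 1 494 497) (mv 530 (both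 (five 3 494 495) (five 1 495 499)))))))))) (mv 525 (both (five 0 525 561) (mv 524 (both (five 0 524 559) (mv 491 (both (five 3 491 492) (mv 523 (both (five 3 490 490) (mv 555 (both (five 2 522 554) (five 2 523 556))))))))))))))) (both (mv 527 (both (mv 525 (both (five 0 525 561) (mv 524 (both (five 0 524 559) (mv 556 (both (five 2 523 555) (five 2 524 557))))))) (both (mv 529 (both (mv 497 (both (five 1 494 498) (mv 465 (both (five 6 432 433) (mv 592 (both (five 6 464 561) (five 5 496 624))))))) (mv 494 (both (five 3 493 493) (mv 558 (both (five 2 525 557) (mv 559 (both (five 2 526 530) (mv 462 (both (five 4 430 430) (five 4 462 591))))))))))) (both (mv 525 (both (mv 524 (both (five 0 524 559) (mv 556 (both (five 2 523 555) (five 2 524 557))))) (both (mv 493 (both (five 3 492 492) (mv 494 (both (five 3 493 529) (mv 557 (both (five 2 524 556) (mv 462 (both (five 6 429 430) (five 5 461 589))))))))) (mv 492 (both (five 3 492 493) (mv 524 (both (five 3 491 491) (five 0 524 559)))))))) (both (mv 525 (both (five 0 525 561) (mv 492 (both (five 3 492 493) (mv 524 (both (five 3 491 491) (mv 556 (both (five 2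 523 555) (five 2 524 557))))))))) (mv 525 (both (five 0 525 561) (mv 492 (both (five 3 492 493) (mv 524 (both (five 3 491 491) (five 0 524 559)))))))))))) (both (mv 527 (both (mv 529 (both (mv 497 (both (five 1 494 498) (mv 465 (both (five 6 432 433) (mv 592 (both (five 6 464 561) (five 5 496 624))))))) (both (mv 558 (both (five 2 525 557) (mv 530 (both (five 2 526 559) (mv 499 (both (five 1 495 498) (mv 531 (both (five 1 496 500) (mv 532 (both (five 2 528 561) (mv 564 (both (five 0 528 563) (five 0 529 565))))))))))))) (both (mv 592 (both (mv 497 (both (five 5 496 624) (mv 465 (both (five 6 432 433) (five 6 464 561))))) (both (mv 558 (both (five 2 525 557) (mv 559 (both (five 2 526 530) (mv 495 (both (five 4 463 463) (mv 590 (both (five 5 494 622) (mv 561 (both (five 2 557 589) (mv 593 (both (five 0 558 594) (mv 625 (both (five 7 528 657) (mv 626 (both (five 0 590 591) (five 4 529 658))))))))))))))))) (mv 624 (both (five 7 495 495) (five 5 496 497)))))) (mv 498 (both (five 1 494 497) (mv 530 (both (five 1 495 499) (mv 558 (both (five 2 525 557) (five 2 526 559))))))))))) (both (mv 495 (both (mv 463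 (both (five 4 431 431) (mv 592 (both (five 4 463 559) (five 7 495 624))))) (both (mv 529 (both (mv 498 (both (five 1 494 497) (mv 530 (both (five 1 495 499) (mv 558 (both (five 2 525 557) (five 2 526 559))))))) (both (mv 497 (both (five 1 494 498) (mv 433 (both (five 6 432 465) (mv 557 (both (five 2 525 558) (mv 525 (both (five 2 524 556) (mv 524 (both (five 0 524 559) (mv 491 (both (five 3 491 492) (mv 523 (both (five 3 490 490) (five 1 491 494))))))))))))))) (both (mv 498 (both (five 1 494 497) (mv 530 (both (five 3 494 494) (five 1 495 499))))) (mv 530 (both (five 3 494 494) (mv 531 (both (five 2 527 559) (mv 500 (both (five 1 496 499) (mv 532 (both (five 1 497 501) (mv 564 (both (five 0 528 563) (five 0 529 565))))))))))))))) (mv 558 (both (mv 529 (both (five 2 525 557) (mv 498 (both (five 1 494 497) (mv 530 (both (five 3 494 494) (five 1 495 499))))))) (both (mv 463 (both (five 6 430 431) (mv 590 (both (five 5 462 494) (five 5 494 622))))) (mv 431 (both (five 6 430 463) (mv 557 (both (five 2 525 529) (mv 556 (both (five 2 524 525) (five 1 523 555))))))))))))) (both (mv 557 (both (mv 556 (both (five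 2 524 525) (mv 558 (both (five 2 525 529) (five 1 523 555))))) (both (mv 529 (both (five 2 525 558) (mv 497 (both (five 1 494 498) (mv 465 (both (five 6 432 433) (mv 592 (both (five 6 464 561) (five 5 496 624))))))))) (mv 525 (both (five 2 524 556) (five 0 525 561)))))) (mv 525 (both (five 0 525 561) (mv 524 (both (five 0 524 559) (mv 491 (both (five 3 491 492) (mv 523 (both (five 3 490 490) (mv 555 (both (five 2 522 554) (five 2 523 556))))))))))))))) (both (mv 527 (both (mv 557 (both (mv 556 (both (five 2 524 525) (mv 558 (both (five 2 525 529) (five 1 523 555))))) (both (mv 529 (both (five 2 525 558) (mv 497 (both (five 1 494 498) (mv 465 (both (five 6 432 433) (mv 592 (both (five 6 464 561) (five 5 496 624))))))))) (mv 525 (both (five 2 524 556) (five 0 525 561)))))) (both (mv 525 (both (five 0 525 561) (mv 493 (both (five 3 492 492) (mv 461 (both (mv 429 (both (five 4 429 558) (mv 396 (both (five 7 396 428) (mv 397 (both (five 7 364 364) (five 4 397 494))))))) (both (mv 557 (both (five 2 524 556) (mv 462 (both (five 5 429 430) (mv 589 (both (five 5 461 494) (mv 588 (both (five 6 492 620) (mv 590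 (both (five 4 493 622) (mv 591 (both (five 1 556 559) (mv 624 (both (five 0 588 623) (mv 592 (both (five 7 495 495) (five 0 589 625))))))))))))))))) (mv 429 (both (five 4 429 558) (mv 396 (both (five 7 396 428) (mv 364 (both (five 7 364 397) (mv 430 (both (five 5 397 398) (mv 557 (both (five 5 429 462) (five 2 524 556)))))))))))))))))) (both (mv 529 (both (mv 494 (both (five 3 493 493) (mv 498 (both (five 1 494 497) (mv 530 (both (five 3 494 495) (five 1 495 499))))))) (both (mv 498 (both (five 1 494 497) (mv 530 (both (five 1 495 499) (mv 558 (both (five 2 525 557) (five 2 526 559))))))) (both (mv 494 (both (five 3 493 493) (mv 495 (both (five 3 494 530) (mv 463 (both (five 4 431 431) (mv 592 (both (five 4 463 559) (five 7 495 624))))))))) (mv 495 (both (mv 463 (both (five 4 431 431) (mv 592 (both (five 4 463 559) (five 7 495 624))))) (both (mv 494 (both (five 3 493 493) (mv 497 (both (five 1 494 498) (mv 433 (both (five 6 432 465) (mv 558 (both (five 2 525 557) (mv 590 (both (five 5 494 622) (mv 589 (both (five 6 493 621) (mv 591 (both (five 4 494 623) (mv 559 (both (five 4 462 462) (five 1 556 588)))))))))))))))))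 (mv 463 (both (five 4 431 431) (mv 494 (both (five 3 493 493) (mv 558 (both (five 2 525 557) (five 5 462 590)))))))))))))) (both (mv 529 (both (mv 497 (both (five 1 494 498) (mv 465 (both (five 6 432 433) (mv 592 (both (five 6 464 561) (five 5 496 624))))))) (both (mv 493 (both (five 3 493 494) (mv 525 (both (five 3 492 492) (five 0 525 561))))) (mv 494 (both (five 3 493 493) (mv 498 (both (five 1 494 497) (mv 530 (both (five 3 494 495) (five 1 495 499)))))))))) (mv 529 (both (mv 494 (both (five 3 493 493) (mv 498 (both (five 1 494 497) (mv 530 (both (five 3 494 495) (five 1 495 499))))))) (both (mv 498 (both (five 1 494 497) (mv 530 (both (five 1 495 499) (mv 558 (both (five 2 525 557) (five 2 526 559))))))) (both (mv 494 (both (five 3 493 493) (mv 495 (both (five 3 494 530) (mv 463 (both (five 4 431 431) (mv 558 (both (five 2 525 557) (five 5 462 590))))))))) (mv 495 (both (mv 463 (both (five 4 431 431) (mv 494 (both (five 3 493 493) (mv 558 (both (five 2 525 557) (five 5 462 590))))))) (both (mv 463 (both (five 4 431 431) (mv 494 (both (five 3 493 493) (mv 497 (both (five 1 494 498) (mv 465 (both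 (five 6 432 433) (mv 464 (both (five 2 462 466) (mv 432 (both (five 5 431 559) (five 7 432 561))))))))))))) (both (mv 463 (both (five 4 431 431) (mv 497 (both (five 1 494 498) (mv 433 (both (five 6 432 465) (mv 558 (both (five 2 525 557) (mv 590 (both (five 6 462 559) (five 5 494 622))))))))))) (mv 494 (both (five 3 493 493) (mv 497 (both (five 1 494 498) (mv 433 (both (five 6 432 465) (mv 558 (both (five 2 525 557) (mv 590 (both (five 5 494 622) (mv 589 (both (five 6 493 621) (mv 591 (both (five 4 494 623) (mv 559 (both (five 4 462 462) (five 1 556 588)))))))))))))))))))))))))))))) (both (mv 527 (both (mv 525 (both (five 0 525 561) (mv 524 (both (five 0 524 559) (mv 556 (both (five 2 523 555) (five 2 524 557))))))) (both (mv 529 (both (mv 497 (both (five 1 494 498) (mv 465 (both (five 6 432 433) (mv 592 (both (five 6 464 561) (five 5 496 624))))))) (mv 494 (both (five 3 493 493) (mv 495 (both (five 3 494 530) (mv 463 (both (five 4 431 431) (mv 558 (both (five 2 525 557) (five 5 462 590))))))))))) (both (mv 529 (both (mv 494 (both (five 3 493 493) (mv 498 (both (five 1 494 497) (mv 530 (both (five 3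 494 495) (five 1 495 499))))))) (both (mv 498 (both (five 1 494 497) (mv 530 (both (five 1 495 499) (mv 558 (both (five 2 525 557) (five 2 526 559))))))) (both (mv 494 (both (five 3 493 493) (mv 495 (both (five 3 494 530) (mv 463 (both (five 4 431 431) (mv 592 (both (five 4 463 559) (five 7 495 624))))))))) (mv 495 (both (mv 463 (both (five 4 431 431) (mv 592 (both (five 4 463 559) (five 7 495 624))))) (both (mv 494 (both (five 3 493 493) (mv 497 (both (five 1 494 498) (mv 433 (both (five 6 432 465) (mv 558 (both (five 2 525 557) (mv 590 (both (five 5 494 622) (mv 589 (both (five 6 493 621) (mv 591 (both (five 4 494 623) (mv 559 (both (five 4 462 462) (five 1 556 588))))))))))))))))) (mv 463 (both (five 4 431 431) (mv 494 (both (five 3 493 493) (mv 558 (both (five 2 525 557) (five 5 462 590)))))))))))))) (mv 529 (both (mv 497 (both (five 1 494 498) (mv 465 (both (five 6 432 433) (mv 592 (both (five 6 464 561) (five 5 496 624))))))) (both (mv 494 (both (five 3 493 493) (mv 495 (both (five 3 494 530) (mv 463 (both (five 4 431 431) (mv 592 (both (five 4 463 559) (five 7 495 624))))))))) (mv 493 (both (five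 3 493 494) (mv 498 (both (five 1 494 497) (mv 530 (both (five 1 495 499) (mv 531 (both (five 2 527 559) (mv 532 (both (five 2 528 561) (mv 564 (both (five 0 528 563) (five 0 529 565)))))))))))))))))))) (mv 527 (both (mv 525 (both (five 0 525 561) (mv 492 (both (five 3 492 493) (mv 524 (both (five 3 491 491) (five 0 524 559))))))) (both (mv 529 (both (mv 497 (both (five 1 494 498) (mv 465 (both (five 6 432 433) (mv 592 (both (five 6 464 561) (five 5 496 624))))))) (mv 494 (both (five 3 493 493) (mv 495 (both (five 3 494 530) (mv 463 (both (five 4 431 431) (mv 558 (both (five 2 525 557) (five 5 462 590))))))))))) (both (mv 529 (both (mv 494 (both (five 3 493 493) (mv 498 (both (five 1 494 497) (mv 530 (both (five 3 494 495) (five 1 495 499))))))) (both (mv 498 (both (five 1 494 497) (mv 530 (both (five 1 495 499) (mv 558 (both (five 2 525 557) (five 2 526 559))))))) (both (mv 494 (both (five 3 493 493) (mv 495 (both (five 3 494 530) (mv 463 (both (five 4 431 431) (mv 592 (both (five 4 463 559) (five 7 495 624))))))))) (mv 495 (both (mv 463 (both (five 4 431 431) (mv 592 (both (five 4 463 559) (five 7 495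 624))))) (both (mv 494 (both (five 3 493 493) (mv 497 (both (five 1 494 498) (mv 433 (both (five 6 432 465) (mv 558 (both (five 2 525 557) (mv 590 (both (five 5 494 622) (mv 589 (both (five 6 493 621) (mv 591 (both (five 4 494 623) (mv 559 (both (five 4 462 462) (five 1 556 588))))))))))))))))) (mv 463 (both (five 4 431 431) (mv 494 (both (five 3 493 493) (mv 558 (both (five 2 525 557) (five 5 462 590)))))))))))))) (mv 529 (both (mv 497 (both (five 1 494 498) (mv 465 (both (five 6 432 433) (mv 592 (both (five 6 464 561) (five 5 496 624))))))) (both (mv 558 (both (five 2 525 557) (mv 530 (both (five 2 526 559) (mv 499 (both (five 1 495 498) (mv 531 (both (five 1 496 500) (mv 532 (both (five 2 528 561) (mv 564 (both (five 0 528 563) (five 0 529 565))))))))))))) (both (mv 592 (both (mv 497 (both (five 5 496 624) (mv 465 (both (five 6 432 433) (five 6 464 561))))) (both (mv 558 (both (five 2 525 557) (mv 559 (both (five 2 526 530) (mv 495 (both (five 4 463 463) (mv 590 (both (five 5 494 622) (mv 561 (both (five 2 557 589) (mv 593 (both (five 0 558 594) (mv 625 (both (five 7 528 657) (mv 626 (both (five 0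 590 591) (five 4 529 658))))))))))))))))) (mv 624 (both (five 7 495 495) (five 5 496 497)))))) (mv 498 (both (five 1 494 497) (mv 530 (both (five 1 495 499) (mv 558 (both (five 2 525 557) (five 2 526 559))))))))))))))))))))))))))))

theorem L109 : W (S 3773962425700235452738272624505952193199339552226928146794549392648115485167898379561026699849346401546134558067857772757880134458676407096525164659442171664912122642432) (S 3102554399198817427520845682839713749465822879808870417172757263629788621371911056757548044631490411104163059713677391873413473417420365264594359412887588579578442717827579081859645945601700389381769224865038186053632) :=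
  check_sound (Env.cons L107 (Env.cons L108 Env.nil)) (x := 526) (t := tL109) (by decide +kernel)

def tL110 : T :=
  (both (mv 494 (both (mv 526 (both (mv 462 (both (mv 558 (both (mv 557 (both (five 6 461 589) (mv 559 (both (five 1 525 529) (five 4 462 591))))) (mv 429 (both (five 7 429 461) (mv 430 (both (five 7 397 397) (mv 431 (both (five 5 398 399) (five 5 430 463))))))))) (both (mv 430 (both (mv 431 (both (five 5 398 399) (mv 527 (both (five 4 430 559) (mv 529 (both (five 3 493 493) (mv 497 (both (five 1 494 498) (mv 433 (both (five 6 432 465) (mv 432 (both (five 2 429 461) (mv 402 (both (five 1 398 401) (mv 434 (both (five 1 399 403) (five 2 430 463))))))))))))))))) (both (mv 398 (both (mv 397 (both (five 7 365 365) (five 7 397 429))) (both (mv 527 (both (five 4 430 559) (mv 493 (both (five 3 493 529) (mv 366 (both (five 6 365 461) (mv 333 (both (five 7 333 365) (mv 334 (both (five 7 301 301) (mv 335 (both (five 5 302 303) (five 5 334 367))))))))))))) (mv 366 (both (mv 335 (both (five 5 334 367) (mv 334 (both (five 5 302 303) (mv 301 (both (five 7 301 333) (mv 269 (both (five 7 269 302) (mv 397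 (both (five 7 397 429) (mv 431 (both (five 4 334 463) (mv 395 (both (five 0 395 396) (mv 433 (both (five 3 397 432) (mv 527 (both (five 4 430 559) (mv 529 (both (five 3 493 493) (mv 497 (both (five 6 432 465) (five 1 494 498))))))))))))))))))))))) (both (mv 493 (both (five 6 365 461) (mv 527 (both (five 3 493 529) (five 4 430 559))))) (mv 335 (both (five 5 334 367) (mv 334 (both (five 5 302 303) (mv 429 (both (five 7 397 397) (five 6 333 461))))))))))))) (both (mv 397 (both (five 7 397 429) (mv 398 (both (five 7 365 365) (mv 367 (both (five 5 366 399) (mv 366 (both (five 5 334 335) (mv 493 (both (five 6 365 461) (mv 527 (both (five 3 493 529) (five 4 430 559))))))))))))) (mv 397 (both (five 7 397 429) (mv 398 (both (five 7 365 365) (mv 399 (both (five 5 366 367) (five 5 398 431))))))))))) (both (mv 431 (both (mv 399 (both (five 5 398 430) (mv 463 (both (five 6 366 367) (five 5 430 558))))) (both (mv 558 (both (five 5 430 463) (mv 461 (both (five 7 429 429) (mv 589 (both (five 6 461 557) (mv 590 (both (five 7 461 493) (five 6 493 621))))))))) (both (mv 430 (both (five 5 398 399) (mv 461 (both (mv 432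 (both (five 2 429 433) (mv 460 (both (five 1 427 459) (five 1 428 463))))) (both (mv 397 (both (five 7 397 429) (mv 398 (both (five 7 365 365) (mv 366 (both (five 6 365 493) (mv 334 (both (five 4 334 463) (mv 335 (both (five 5 302 303) (five 5 334 367))))))))))) (mv 429 (both (five 7 397 397) (mv 432 (both (five 2 429 433) (five 2 428 460)))))))))) (mv 430 (both (five 5 398 399) (mv 429 (both (five 7 397 397) (mv 461 (both (five 7 429 558) (mv 432 (both (five 2 429 433) (five 2 428 460))))))))))))) (both (mv 559 (both (mv 527 (both (five 4 430 430) (mv 529 (both (five 3 493 493) (mv 498 (both (five 1 494 497) (mv 530 (both (five 1 495 499) (five 2 527 531))))))))) (both (mv 558 (both (five 4 462 591) (mv 529 (both (five 1 525 557) (mv 530 (both (five 2 527 531) (five 1 526 561))))))) (mv 430 (both (five 4 430 527) (mv 399 (both (five 5 398 431) (mv 367 (both (five 5 366 398) (mv 558 (both (five 4 462 591) (mv 589 (both (five 6 461 557) (mv 590 (both (five 2 557 561) (five 6 493 621)))))))))))))))) (mv 558 (both (mv 557 (both (five 6 461 589) (mv 559 (both (five 1 525 529) (five 4 462 591))))) (both (mv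 461 (both (five 7 429 429) (mv 589 (both (five 6 461 557) (mv 590 (both (five 7 461 493) (five 6 493 621))))))) (mv 461 (both (five 7 429 429) (mv 493 (both (five 7 461 590) (mv 529 (both (five 3 493 527) (mv 559 (both (five 4 462 591) (mv 530 (both (five 2 527 531) (five 1 526 561))))))))))))))))))) (both (mv 558 (both (mv 462 (both (mv 429 (both (five 7 429 461) (mv 430 (both (five 7 397 397) (mv 431 (both (five 5 398 399) (five 5 430 463))))))) (mv 557 (both (five 6 461 589) (mv 559 (both (five 1 525 529) (five 4 462 591))))))) (both (mv 462 (both (mv 429 (both (five 7 429 461) (mv 430 (both (five 7 397 397) (mv 431 (both (five 5 398 399) (five 5 430 463))))))) (both (mv 431 (both (five 5 430 463) (mv 430 (both (five 5 398 399) (mv 557 (both (five 6 429 525) (five 6 461 589))))))) (mv 461 (both (five 7 429 429) (mv 589 (both (five 6 461 557) (mv 590 (both (five 7 461 493) (five 6 493 621)))))))))) (both (mv 559 (both (mv 529 (both (five 1 525 557) (mv 530 (both (five 2 527 531) (five 1 526 561))))) (both (mv 557 (both (five 1 525 529) (mv 524 (both (five 3 524 525) (mv 523 (both (five 3 523 556) (mv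 589 (both (five 2 556 588) (mv 621 (both (five 6 493 590) (five 5 525 653))))))))))) (both (mv 561 (both (five 3 525 525) (mv 529 (both (five 1 526 530) (mv 593 (both (five 0 558 594) (five 7 496 625))))))) (mv 525 (both (five 3 525 561) (mv 524 (both (five 0 523 523) (five 3 524 557))))))))) (both (mv 590 (both (mv 621 (both (five 6 493 589) (mv 622 (both (five 6 525 653) (mv 623 (both (five 4 494 591) (five 4 526 655))))))) (both (mv 461 (both (five 7 461 493) (mv 462 (both (five 7 429 429) (mv 591 (both (five 4 462 559) (five 4 494 623))))))) (mv 493 (both (five 7 461 461) (mv 621 (both (five 6 493 589) (mv 622 (both (five 7 493 525) (five 6 525 653)))))))))) (mv 559 (both (mv 529 (both (five 1 525 557) (mv 530 (both (five 2 527 531) (five 1 526 561))))) (mv 591 (both (five 4 462 462) (mv 623 (both (five 4 494 590) (five 7 526 655)))))))))))) (both (mv 558 (both (mv 462 (both (mv 429 (both (five 7 429 461) (mv 430 (both (five 7 397 397) (mv 431 (both (five 5 398 399) (five 5 430 463))))))) (both (mv 431 (both (five 5 430 463) (mv 430 (both (five 5 398 399) (mv 557 (both (five 6 429 525) (five 6 461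 589))))))) (mv 461 (both (five 7 429 429) (mv 589 (both (five 6 461 557) (mv 590 (both (five 7 461 493) (five 6 493 621)))))))))) (both (mv 462 (both (mv 429 (both (five 7 429 461) (mv 430 (both (five 7 397 397) (mv 431 (both (five 5 398 399) (five 5 430 463))))))) (mv 557 (both (five 6 461 589) (mv 559 (both (five 4 462 591) (mv 556 (both (five 1 524 527) (mv 523 (both (five 3 523 524) (mv 555 (both (five 3 522 522) (mv 587 (both (five 2 554 586) (five 2 555 588))))))))))))))) (both (mv 590 (both (mv 621 (both (five 6 493 589) (mv 622 (both (five 6 525 653) (mv 623 (both (five 4 494 591) (five 4 526 655))))))) (both (mv 461 (both (five 7 461 493) (mv 462 (both (five 7 429 429) (mv 591 (both (five 4 462 559) (five 4 494 623))))))) (mv 493 (both (five 7 461 461) (mv 621 (both (five 6 493 589) (mv 622 (both (five 7 493 525) (five 6 525 653)))))))))) (mv 525 (both (mv 561 (both (five 0 525 527) (five 3 525 559))) (both (mv 559 (both (five 3 525 561) (mv 524 (both (five 0 523 523) (five 3 524 557))))) (both (mv 527 (both (five 0 525 561) (mv 492 (both (five 3 492 493) (mv 524 (both (five 3 491 491) (mv 556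 (both (five 2 523 555) (five 2 524 557))))))))) (mv 527 (both (five 1 493 497) (mv 524 (both (five 0 524 559) (mv 556 (both (five 2 523 555) (five 2 524 557))))))))))))))) (both (mv 462 (both (mv 431 (both (mv 399 (both (five 5 398 430) (mv 463 (both (five 6 366 367) (five 5 430 558))))) (both (mv 558 (both (five 5 430 463) (mv 461 (both (five 7 429 429) (mv 589 (both (five 6 461 557) (mv 590 (both (five 7 461 493) (five 6 493 621))))))))) (both (mv 430 (both (five 5 398 399) (mv 461 (both (mv 432 (both (five 2 429 433) (mv 460 (both (five 1 427 459) (five 1 428 463))))) (both (mv 397 (both (five 7 397 429) (mv 398 (both (five 7 365 365) (mv 366 (both (five 6 365 493) (mv 334 (both (five 4 334 463) (mv 335 (both (five 5 302 303) (five 5 334 367))))))))))) (mv 429 (both (five 7 397 397) (mv 432 (both (five 2 429 433) (five 2 428 460)))))))))) (mv 430 (both (five 5 398 399) (mv 429 (both (five 7 397 397) (mv 461 (both (five 7 429 558) (mv 432 (both (five 2 429 433) (five 2 428 460))))))))))))) (both (mv 525 (both (mv 430 (both (five 6 429 557) (mv 397 (both (five 7 397 429) (mv 398 (both (five 7 365 365)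 (mv 399 (both (five 5 366 367) (five 5 398 431))))))))) (mv 527 (both (five 1 493 497) (five 0 525 561))))) (both (mv 558 (both (mv 461 (both (five 7 429 429) (mv 589 (both (five 6 461 557) (mv 590 (both (five 7 461 493) (five 6 493 621))))))) (both (mv 431 (both (five 5 430 463) (mv 461 (both (five 7 429 429) (mv 493 (both (five 7 461 590) (mv 527 (both (five 3 493 529) (mv 525 (both (five 3 492 492) (five 0 525 561))))))))))) (mv 431 (both (five 5 430 463) (mv 557 (both (five 6 461 589) (mv 527 (both (five 2 525 529) (mv 525 (both (five 2 524 556) (five 0 525 561)))))))))))) (both (mv 430 (both (mv 399 (both (five 5 398 431) (mv 398 (both (five 5 366 367) (mv 525 (both (five 6 397 493) (mv 527 (both (five 1 493 497) (five 0 525 561))))))))) (both (mv 397 (both (five 7 397 429) (mv 398 (both (five 7 365 365) (mv 525 (both (five 6 397 493) (mv 527 (both (five 1 493 497) (five 0 525 561))))))))) (mv 429 (both (five 7 397 397) (mv 431 (both (five 5 398 399) (mv 461 (both (five 7 429 558) (mv 432 (both (five 2 429 433) (five 2 428 460)))))))))))) (both (mv 525 (both (mv 527 (both (five 1 493 497) (five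 0 525 561))) (mv 430 (both (five 6 429 557) (mv 398 (both (five 6 397 493) (mv 399 (both (five 5 366 367) (five 5 398 431))))))))) (mv 525 (both (mv 527 (both (five 1 493 497) (five 0 525 561))) (mv 430 (both (five 6 429 557) (mv 397 (both (five 7 397 429) (mv 398 (both (five 7 365 365) (five 6 397 493))))))))))))))) (both (mv 558 (both (mv 527 (both (mv 557 (both (five 2 525 529) (mv 462 (both (five 6 461 589) (mv 429 (both (five 7 429 461) (mv 430 (both (five 7 397 397) (mv 431 (both (five 5 398 399) (five 5 430 463))))))))))) (mv 525 (both (five 1 493 497) (five 0 525 561))))) (both (mv 559 (both (mv 591 (both (five 4 462 462) (mv 623 (both (five 4 494 590) (five 7 526 655))))) (mv 525 (both (five 3 525 561) (mv 524 (both (five 0 523 523) (five 0 524 527))))))) (both (mv 559 (both (mv 529 (both (five 1 525 557) (mv 530 (both (five 2 527 531) (five 1 526 561))))) (both (mv 557 (both (five 1 525 529) (mv 524 (both (five 3 524 525) (mv 523 (both (five 3 523 556) (mv 589 (both (five 2 556 588) (mv 621 (both (five 6 493 590) (five 5 525 653))))))))))) (both (mv 561 (both (five 3 525 525) (mv 529 (both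 (five 1 526 530) (mv 593 (both (five 0 558 594) (five 7 496 625))))))) (mv 525 (both (five 3 525 561) (mv 524 (both (five 0 523 523) (five 3 524 557))))))))) (mv 462 (both (mv 429 (both (five 7 429 461) (mv 430 (both (five 7 397 397) (mv 431 (both (five 5 398 399) (five 5 430 463))))))) (mv 557 (both (five 6 461 589) (mv 559 (both (five 1 525 529) (five 4 462 591))))))))))) (both (mv 527 (both (mv 493 (both (five 3 493 529) (mv 492 (both (five 0 491 491) (five 3 492 525))))) (both (mv 529 (both (five 3 493 493) (mv 498 (both (five 1 494 497) (mv 530 (both (five 1 495 499) (mv 558 (both (five 2 525 557) (five 2 526 559))))))))) (mv 525 (both (five 1 493 497) (mv 524 (both (five 0 524 559) (mv 556 (both (five 2 523 555) (five 2 524 557)))))))))) (mv 527 (both (mv 525 (both (five 1 493 497) (five 0 525 561))) (both (mv 529 (both (five 3 493 493) (mv 498 (both (five 1 494 497) (mv 530 (both (five 1 495 499) (mv 531 (both (five 2 527 559) (mv 532 (both (five 2 528 561) (mv 564 (both (five 0 528 563) (five 0 529 565))))))))))))) (mv 493 (both (five 3 493 529) (mv 492 (both (five 0 491 491) (five 3 492 525)))))))))))))))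 (both (mv 495 (both (mv 493 (both (mv 460 (both (five 3 460 461) (mv 492 (both (five 3 459 459) (five 0 492 527))))) (both (mv 526 (both (mv 461 (both (five 3 460 460) (mv 429 (both (five 4 397 397) (mv 558 (both (five 7 429 462) (five 7 461 590))))))) (both (mv 525 (both (five 2 492 524) (mv 527 (both (five 0 525 561) (mv 557 (both (five 2 524 556) (mv 462 (both (five 6 429 430) (five 5 461 589))))))))) (mv 460 (both (five 3 460 461) (mv 525 (both (five 2 492 524) (mv 527 (both (five 0 525 561) (mv 431 (both (five 4 431 463) (mv 557 (both (five 2 524 556) (mv 589 (both (five 5 493 621) (mv 588 (both (five 6 492 620) (mv 559 (both (five 2 556 558) (mv 590 (both (five 1 556 591) (five 4 493 622)))))))))))))))))))))) (both (mv 460 (both (five 3 460 461) (mv 492 (both (five 3 459 459) (mv 524 (both (five 2 491 523) (five 2 492 525))))))) (mv 492 (both (five 0 492 527) (mv 524 (both (five 2 491 523) (five 2 492 525))))))))) (both (mv 525 (both (mv 497 (both (five 2 493 526) (mv 462 (both (five 3 461 461) (mv 466 (both (five 1 462 465) (mv 498 (both (five 3 462 463) (five 1 463 467))))))))) (both (mv 493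 (both (five 2 492 524) (mv 462 (both (mv 430 (both (five 6 397 398) (mv 557 (both (five 6 429 526) (five 5 461 589))))) (both (mv 460 (both (five 3 460 461) (mv 492 (both (five 3 459 459) (mv 396 (both (five 4 396 428) (mv 491 (both (five 1 459 463) (mv 490 (both (five 0 490 526) (mv 522 (both (five 2 489 521) (five 2 490 523))))))))))))) (mv 430 (both (five 6 397 398) (mv 461 (both (five 3 460 460) (five 5 429 557)))))))))) (both (mv 493 (both (five 2 492 524) (mv 461 (both (five 3 460 460) (mv 462 (both (five 3 461 497) (mv 430 (both (five 6 397 398) (five 5 429 557))))))))) (mv 524 (both (five 2 492 493) (mv 526 (both (five 2 493 497) (five 1 491 523))))))))) (both (mv 497 (both (mv 462 (both (five 3 461 461) (mv 466 (both (five 1 462 465) (mv 498 (both (five 3 462 463) (five 1 463 467))))))) (both (mv 466 (both (five 1 462 465) (mv 498 (both (five 1 463 467) (mv 499 (both (five 2 495 527) (mv 531 (both (five 0 495 530) (five 0 496 532))))))))) (both (mv 493 (both (mv 465 (both (five 1 462 466) (mv 401 (both (five 6 400 433) (mv 492 (both (five 0 492 527) (mv 459 (both (five 3 459 460) (mv 491 (both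 (five 3 458 458) (mv 523 (both (five 2 490 522) (five 2 491 524))))))))))))) (both (mv 461 (both (five 3 460 460) (five 3 461 462))) (mv 462 (both (five 3 461 461) (mv 465 (both (five 1 462 466) (mv 401 (both (five 6 400 433) (mv 492 (both (five 0 492 527) (mv 491 (both (five 1 459 463) (mv 523 (both (five 2 490 522) (five 2 491 524)))))))))))))))) (mv 462 (both (five 3 461 461) (mv 463 (both (five 3 462 498) (mv 431 (both (five 4 399 399) (five 4 431 527))))))))))) (both (mv 493 (both (mv 460 (both (five 3 460 461) (mv 492 (both (five 3 459 459) (five 0 492 527))))) (both (mv 460 (both (five 3 460 461) (mv 492 (both (five 3 459 459) (mv 524 (both (five 2 491 523) (five 2 492 525))))))) (both (mv 460 (both (five 3 460 461) (mv 525 (both (five 2 492 524) (mv 497 (both (five 2 493 526) (mv 466 (both (five 1 462 465) (mv 498 (both (five 1 463 467) (mv 499 (both (five 2 495 527) (mv 531 (both (five 0 495 530) (five 0 496 532))))))))))))))) (mv 492 (both (five 0 492 527) (mv 524 (both (five 2 491 523) (five 2 492 525))))))))) (both (mv 527 (both (mv 559 (both (mv 591 (both (five 7 462 462) (five 5 495 623)))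 (both (mv 463 (both (five 4 431 431) (mv 462 (both (five 7 430 430) (mv 493 (both (five 0 492 492) (mv 497 (both (five 3 462 498) (mv 465 (both (five 1 462 466) (mv 401 (both (five 6 400 433) (mv 525 (both (five 2 492 524) (mv 557 (both (five 5 461 589) (mv 558 (both (five 1 524 556) (five 6 462 590))))))))))))))))))) (mv 463 (both (five 4 431 431) (mv 492 (both (five 0 492 493) (mv 590 (both (five 6 462 558) (mv 591 (both (five 6 494 622) (five 5 495 623)))))))))))) (both (mv 493 (both (five 0 492 492) (mv 525 (both (five 2 492 524) (mv 526 (both (five 1 493 497) (five 0 525 561))))))) (both (mv 559 (both (mv 591 (both (five 7 462 462) (five 5 495 623))) (both (mv 463 (both (five 4 431 431) (mv 462 (both (five 7 430 430) (mv 492 (both (five 0 492 493) (mv 497 (both (five 3 462 498) (mv 465 (both (five 1 462 466) (mv 401 (both (five 6 400 433) (mv 558 (both (five 6 462 590) (mv 557 (both (five 1 524 556) (mv 589 (both (five 6 461 526) (five 2 556 588))))))))))))))))))) (mv 463 (both (five 4 431 431) (mv 492 (both (five 0 492 493) (mv 590 (both (five 6 462 558) (mv 591 (both (five 6 494 622) (five 5 495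 623)))))))))))) (both (mv 559 (both (mv 591 (both (five 7 462 462) (five 5 495 623))) (both (mv 463 (both (five 4 431 431) (mv 430 (both (five 7 430 462) (mv 558 (both (five 6 462 590) (mv 557 (both (five 1 524 556) (mv 525 (both (five 3 524 524) (mv 526 (both (five 1 493 497) (five 0 525 561))))))))))))) (mv 431 (both (five 4 431 463) (mv 591 (both (five 5 495 623) (mv 590 (both (five 6 494 622) (mv 589 (both (five 1 556 588) (mv 558 (both (five 2 557 561) (mv 526 (both (five 6 493 621) (mv 497 (both (five 2 494 498) (five 2 493 525)))))))))))))))))) (mv 431 (both (five 4 431 463) (mv 493 (both (five 0 492 492) (mv 525 (both (five 2 492 524) (mv 526 (both (five 0 525 561) (mv 557 (both (five 2 524 556) (mv 462 (both (five 6 429 430) (five 5 461 589)))))))))))))))))) (mv 497 (both (mv 466 (both (five 1 462 465) (mv 498 (both (five 1 463 467) (mv 526 (both (five 2 493 525) (five 2 494 527))))))) (both (mv 462 (both (five 3 461 461) (mv 466 (both (five 1 462 465) (mv 498 (both (five 3 462 463) (five 1 463 467))))))) (both (mv 463 (both (mv 431 (both (five 4 399 399) (five 4 431 527))) (both (mv 462 (both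 (five 3 461 461) (mv 465 (both (five 1 462 466) (mv 401 (both (five 6 400 433) (mv 526 (both (five 2 493 525) (mv 558 (both (five 5 462 590) (mv 557 (both (five 6 461 589) (mv 559 (both (five 4 462 591) (mv 527 (both (five 4 430 430) (five 1 524 556))))))))))))))))) (mv 431 (both (five 4 399 399) (mv 462 (both (five 3 461 461) (mv 526 (both (five 2 493 525) (five 5 430 558)))))))))) (mv 462 (both (five 3 461 461) (mv 463 (both (five 3 462 498) (mv 431 (both (five 4 399 399) (five 4 431 527))))))))))))))))) (both (mv 495 (both (mv 525 (both (mv 497 (both (five 2 493 526) (mv 462 (both (five 3 461 461) (mv 466 (both (five 1 462 465) (mv 498 (both (five 3 462 463) (five 1 463 467))))))))) (both (mv 493 (both (five 2 492 524) (mv 462 (both (mv 430 (both (five 6 397 398) (mv 557 (both (five 6 429 526) (five 5 461 589))))) (both (mv 460 (both (five 3 460 461) (mv 492 (both (five 3 459 459) (mv 396 (both (five 4 396 428) (mv 491 (both (five 1 459 463) (mv 490 (both (five 0 490 526) (mv 522 (both (five 2 489 521) (five 2 490 523))))))))))))) (mv 430 (both (five 6 397 398) (mv 461 (both (five 3 460 460) (five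 5 429 557)))))))))) (both (mv 493 (both (five 2 492 524) (mv 461 (both (five 3 460 460) (mv 462 (both (five 3 461 497) (mv 430 (both (five 6 397 398) (five 5 429 557))))))))) (mv 524 (both (five 2 492 493) (mv 526 (both (five 2 493 497) (five 1 491 523))))))))) (both (mv 497 (both (mv 462 (both (five 3 461 461) (mv 466 (both (five 1 462 465) (mv 498 (both (five 3 462 463) (five 1 463 467))))))) (both (mv 462 (both (five 3 461 461) (mv 463 (both (five 3 462 498) (mv 399 (both (five 4 399 431) (mv 526 (both (five 2 493 525) (mv 529 (both (five 0 494 530) (mv 558 (both (five 5 462 590) (mv 557 (both (five 1 525 559) (five 6 461 589))))))))))))))) (mv 465 (both (five 1 462 466) (mv 433 (both (five 6 400 401) (five 6 432 529)))))))) (both (mv 493 (both (five 0 493 529) (mv 460 (both (five 3 460 461) (mv 492 (both (five 3 459 459) (mv 524 (both (five 2 491 523) (five 2 492 525))))))))) (mv 529 (both (five 0 493 493) (mv 530 (both (five 0 494 497) (five 3 495 531))))))))) (both (mv 526 (both (mv 558 (both (mv 527 (both (mv 557 (both (five 2 525 529) (mv 462 (both (five 6 461 589) (mv 429 (both (five 7 429 461)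 (mv 430 (both (five 7 397 397) (mv 431 (both (five 5 398 399) (five 5 430 463))))))))))) (mv 525 (both (five 1 493 497) (five 0 525 561))))) (both (mv 559 (both (mv 591 (both (five 4 462 462) (mv 623 (both (five 4 494 590) (five 7 526 655))))) (mv 525 (both (five 3 525 561) (mv 524 (both (five 0 523 523) (five 0 524 527))))))) (both (mv 559 (both (mv 529 (both (five 1 525 557) (mv 530 (both (five 2 527 531) (five 1 526 561))))) (both (mv 557 (both (five 1 525 529) (mv 524 (both (five 3 524 525) (mv 523 (both (five 3 523 556) (mv 589 (both (five 2 556 588) (mv 621 (both (five 6 493 590) (five 5 525 653))))))))))) (both (mv 561 (both (five 3 525 525) (mv 529 (both (five 1 526 530) (mv 593 (both (five 0 558 594) (five 7 496 625))))))) (mv 525 (both (five 3 525 561) (mv 524 (both (five 0 523 523) (five 3 524 557))))))))) (mv 462 (both (mv 429 (both (five 7 429 461) (mv 430 (both (five 7 397 397) (mv 431 (both (five 5 398 399) (five 5 430 463))))))) (mv 557 (both (five 6 461 589) (mv 559 (both (five 1 525 529) (five 4 462 591))))))))))) (both (mv 558 (both (mv 462 (both (mv 429 (both (five 7 429 461) (mv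 430 (both (five 7 397 397) (mv 431 (both (five 5 398 399) (five 5 430 463))))))) (both (mv 429 (both (five 7 429 461) (mv 430 (both (five 7 397 397) (mv 557 (both (five 6 429 525) (five 6 461 589))))))) (both (mv 431 (both (five 5 430 463) (mv 430 (both (five 5 398 399) (mv 557 (both (five 6 429 525) (five 6 461 589))))))) (mv 429 (both (five 7 429 461) (mv 463 (both (five 5 430 431) (mv 495 (both (five 5 462 590) (mv 497 (both (five 3 462 498) (five 2 493 525))))))))))))) (both (mv 559 (both (mv 529 (both (five 1 525 557) (mv 530 (both (five 2 527 531) (five 1 526 561))))) (both (mv 557 (both (five 1 525 529) (mv 524 (both (five 3 524 525) (mv 523 (both (five 3 523 556) (mv 589 (both (five 2 556 588) (mv 621 (both (five 6 493 590) (five 5 525 653))))))))))) (both (mv 561 (both (five 3 525 525) (mv 529 (both (five 1 526 530) (mv 593 (both (five 0 558 594) (five 7 496 625))))))) (mv 525 (both (five 3 525 561) (mv 524 (both (five 0 523 523) (five 3 524 557))))))))) (both (mv 462 (both (mv 429 (both (five 7 429 461) (mv 430 (both (five 7 397 397) (mv 431 (both (five 5 398 399) (five 5 430 463))))))) (mv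 557 (both (five 6 461 589) (mv 559 (both (five 1 525 529) (five 4 462 591))))))) (mv 462 (both (mv 429 (both (five 7 429 461) (mv 430 (both (five 7 397 397) (mv 431 (both (five 5 398 399) (five 5 430 463))))))) (both (mv 429 (both (five 7 429 461) (mv 397 (both (five 7 397 430) (mv 559 (both (five 4 462 591) (mv 561 (both (five 3 525 525) (mv 529 (both (five 1 526 530) (mv 593 (both (five 0 558 594) (five 7 496 625))))))))))))) (mv 463 (both (five 5 430 431) (mv 495 (both (five 5 462 590) (mv 497 (both (five 3 462 498) (five 2 493 525)))))))))))))) (both (mv 558 (both (mv 559 (both (mv 529 (both (five 1 525 557) (mv 530 (both (five 2 527 531) (five 1 526 561))))) (mv 591 (both (five 4 462 462) (mv 623 (both (five 4 494 590) (five 7 526 655))))))) (both (mv 590 (both (mv 495 (both (five 5 462 463) (mv 527 (both (five 5 494 622) (mv 529 (both (five 3 494 530) (five 2 525 557))))))) (both (mv 621 (both (five 6 493 589) (mv 622 (both (five 6 525 653) (mv 623 (both (five 4 494 591) (five 4 526 655))))))) (mv 589 (both (five 6 493 621) (mv 559 (both (five 2 557 561) (mv 588 (both (five 2 556 557) (five 1 555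 587)))))))))) (both (mv 462 (both (mv 429 (both (five 7 429 461) (mv 430 (both (five 7 397 397) (mv 431 (both (five 5 398 399) (five 5 430 463))))))) (both (mv 429 (both (five 7 429 461) (mv 430 (both (five 7 397 397) (mv 399 (both (five 5 398 431) (mv 398 (both (five 5 366 367) (mv 400 (both (five 2 397 401) (mv 427 (both (five 1 395 428) (mv 527 (both (five 4 398 495) (mv 557 (both (five 2 525 529) (five 6 461 589))))))))))))))))) (mv 589 (both (five 6 461 557) (mv 590 (both (five 6 493 621) (mv 495 (both (five 5 462 463) (mv 527 (both (five 5 494 622) (mv 497 (both (five 2 494 498) (mv 465 (both (five 1 462 466) (mv 433 (both (five 6 400 401) (five 6 432 529)))))))))))))))))) (both (mv 462 (both (mv 429 (both (five 7 429 461) (mv 430 (both (five 7 397 397) (mv 431 (both (five 5 398 399) (five 5 430 463))))))) (mv 557 (both (five 6 461 589) (mv 559 (both (five 4 462 591) (mv 556 (both (five 1 524 527) (mv 523 (both (five 3 523 524) (mv 555 (both (five 3 522 522) (mv 587 (both (five 2 554 586) (five 2 555 588))))))))))))))) (mv 462 (both (mv 429 (both (five 7 429 461) (mv 430 (both (five 7 397 397)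 (mv 559 (both (five 4 430 527) (five 4 462 591))))))) (both (mv 431 (both (five 5 430 463) (mv 430 (both (five 5 398 399) (mv 559 (both (five 4 430 527) (five 4 462 591))))))) (mv 429 (both (five 7 429 461) (mv 463 (both (five 5 430 431) (mv 495 (both (five 5 462 590) (mv 497 (both (five 3 462 498) (mv 465 (both (five 1 462 466) (mv 433 (both (five 6 400 401) (five 6 432 529))))))))))))))))))))) (both (mv 558 (both (mv 462 (both (mv 429 (both (five 7 429 461) (mv 430 (both (five 7 397 397) (mv 431 (both (five 5 398 399) (five 5 430 463))))))) (mv 557 (both (five 6 461 589) (mv 527 (both (five 2 525 529) (mv 525 (both (five 2 524 556) (five 0 525 561))))))))) (both (mv 590 (both (mv 495 (both (five 5 462 463) (mv 527 (both (five 5 494 622) (mv 529 (both (five 3 494 530) (five 2 525 557))))))) (both (mv 621 (both (five 6 493 589) (mv 622 (both (five 6 525 653) (mv 623 (both (five 4 494 591) (five 4 526 655))))))) (mv 589 (both (five 6 493 621) (mv 559 (both (five 2 557 561) (mv 588 (both (five 2 556 557) (five 1 555 587)))))))))) (both (mv 559 (both (mv 591 (both (five 4 462 462) (mv 623 (both (five 4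 494 590) (five 7 526 655))))) (mv 525 (both (five 3 525 561) (mv 524 (both (five 0 523 523) (five 0 524 527))))))) (mv 462 (both (mv 429 (both (five 7 429 461) (mv 430 (both (five 7 397 397) (mv 431 (both (five 5 398 399) (five 5 430 463))))))) (mv 557 (both (five 6 461 589) (mv 559 (both (five 1 525 529) (five 4 462 591))))))))))) (both (mv 527 (both (mv 525 (both (five 1 493 497) (five 0 525 561))) (both (mv 529 (both (mv 498 (both (five 1 494 497) (mv 530 (both (five 3 494 495) (five 1 495 499))))) (both (mv 497 (both (five 1 494 498) (mv 465 (both (five 6 432 433) (mv 466 (both (five 1 462 495) (mv 467 (both (five 2 464 468) (mv 558 (both (five 2 525 557) (mv 561 (both (five 5 433 434) (mv 593 (both (five 7 496 625) (mv 594 (both (five 0 558 559) (five 4 497 626))))))))))))))))) (both (mv 498 (both (five 1 494 497) (mv 530 (both (five 1 495 499) (mv 558 (both (five 2 525 557) (five 2 526 559))))))) (mv 495 (both (five 3 494 530) (mv 463 (both (five 4 431 431) (mv 558 (both (five 2 525 557) (five 5 462 590))))))))))) (both (mv 525 (both (five 0 525 561) (mv 524 (both (five 0 524 559) (mv 556 (both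 (five 2 523 555) (five 2 524 557))))))) (mv 525 (both (five 1 493 497) (mv 524 (both (five 0 524 559) (mv 556 (both (five 2 523 555) (five 2 524 557))))))))))) (both (mv 525 (both (mv 527 (both (five 1 493 497) (five 0 525 561))) (both (mv 558 (both (mv 559 (both (five 3 525 561) (mv 524 (both (five 0 523 523) (five 3 524 557))))) (mv 495 (both (five 2 493 497) (mv 463 (both (five 5 462 590) (mv 431 (both (five 4 399 399) (five 5 430 462))))))))) (both (mv 527 (both (five 0 525 561) (mv 524 (both (five 0 524 559) (mv 556 (both (five 2 523 555) (five 2 524 557))))))) (mv 527 (both (five 1 493 497) (mv 524 (both (five 0 524 559) (mv 556 (both (five 2 523 555) (five 2 524 557))))))))))) (both (mv 527 (both (mv 525 (both (five 1 493 497) (mv 524 (both (five 0 524 559) (mv 556 (both (five 2 523 555) (five 2 524 557))))))) (both (mv 559 (both (mv 462 (both (five 4 430 430) (mv 591 (both (five 7 462 495) (five 7 494 623))))) (both (mv 525 (both (five 0 524 524) (mv 557 (both (five 2 524 556) (mv 529 (both (five 2 525 558) (mv 530 (both (five 3 494 495) (five 2 527 531))))))))) (mv 430 (both (five 4 430 462)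 (mv 525 (both (five 0 524 524) (mv 557 (both (five 2 524 556) (mv 558 (both (five 2 525 529) (mv 589 (both (five 2 556 588) (mv 621 (both (five 6 493 590) (five 5 525 653)))))))))))))))) (both (mv 495 (both (mv 497 (both (five 2 494 498) (mv 465 (both (five 1 462 466) (mv 433 (both (five 6 400 401) (five 6 432 529))))))) (both (mv 463 (both (five 4 431 431) (mv 529 (both (five 3 494 530) (mv 558 (both (five 2 525 557) (five 5 462 590))))))) (mv 431 (both (five 4 431 463) (mv 497 (both (five 2 494 498) (mv 462 (both (five 3 461 461) (mv 430 (both (five 4 398 398) (five 5 398 399)))))))))))) (mv 497 (both (five 1 493 525) (mv 498 (both (five 2 494 495) (five 2 495 499))))))))) (both (mv 527 (both (mv 525 (both (five 1 493 497) (five 0 525 561))) (both (mv 529 (both (mv 498 (both (five 1 494 497) (mv 530 (both (five 1 495 499) (mv 531 (both (five 2 527 559) (mv 532 (both (five 2 528 561) (mv 564 (both (five 0 528 563) (five 0 529 565))))))))))) (both (mv 530 (both (five 3 494 495) (mv 531 (both (five 2 527 559) (mv 532 (both (five 2 528 561) (mv 564 (both (five 0 528 563) (five 0 529 565))))))))) (mv 497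 (both (five 1 494 498) (mv 465 (both (five 6 432 433) (mv 495 (both (five 1 462 466) (mv 431 (both (five 4 431 463) (mv 462 (both (five 3 461 461) (mv 430 (both (five 4 398 398) (five 5 398 399)))))))))))))))) (both (mv 525 (both (five 0 525 561) (mv 524 (both (five 1 492 495) (five 0 524 559))))) (mv 497 (both (five 1 493 525) (mv 498 (both (five 2 494 495) (five 2 495 499))))))))) (both (mv 527 (both (mv 525 (both (five 1 493 497) (five 0 525 561))) (both (mv 529 (both (mv 498 (both (five 1 494 497) (mv 530 (both (five 3 494 495) (five 1 495 499))))) (both (mv 497 (both (five 1 494 498) (mv 465 (both (five 6 432 433) (mv 466 (both (five 1 462 495) (mv 467 (both (five 2 464 468) (mv 558 (both (five 2 525 557) (mv 561 (both (five 5 433 434) (mv 593 (both (five 7 496 625) (mv 594 (both (five 0 558 559) (five 4 497 626))))))))))))))))) (mv 558 (both (five 2 525 557) (mv 559 (both (five 2 526 530) (mv 462 (both (five 4 430 430) (five 4 462 591)))))))))) (both (mv 525 (both (five 0 525 561) (mv 524 (both (five 1 492 495) (five 0 524 559))))) (mv 497 (both (five 1 493 525) (mv 498 (both (five 2 494 495) (five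 2 495 499))))))))) (mv 527 (both (mv 525 (both (five 1 493 497) (five 0 525 561))) (both (mv 495 (both (mv 497 (both (five 2 494 498) (mv 465 (both (five 1 462 466) (mv 433 (both (five 6 400 401) (five 6 432 529))))))) (both (mv 463 (both (five 4 431 431) (mv 529 (both (five 3 494 530) (mv 558 (both (five 2 525 557) (five 5 462 590))))))) (mv 431 (both (five 4 431 463) (mv 497 (both (five 2 494 498) (mv 462 (both (five 3 461 461) (mv 430 (both (five 4 398 398) (five 5 398 399)))))))))))) (mv 525 (both (five 0 525 561) (mv 557 (both (five 2 524 556) (mv 462 (both (five 6 429 430) (mv 589 (both (five 6 461 558) (five 5 493 621)))))))))))))))))))))) (both (mv 526 (both (mv 558 (both (mv 462 (both (mv 429 (both (five 7 429 461) (mv 430 (both (five 7 397 397) (mv 431 (both (five 5 398 399) (five 5 430 463))))))) (mv 557 (both (five 6 461 589) (mv 527 (both (five 2 525 529) (mv 525 (both (five 2 524 556) (five 0 525 561))))))))) (both (mv 590 (both (mv 495 (both (five 5 462 463) (mv 527 (both (five 5 494 622) (mv 529 (both (five 3 494 530) (five 2 525 557))))))) (both (mv 621 (both (five 6 493 589) (mv 622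 (both (five 6 525 653) (mv 623 (both (five 4 494 591) (five 4 526 655))))))) (mv 589 (both (five 6 493 621) (mv 559 (both (five 2 557 561) (mv 588 (both (five 2 556 557) (five 1 555 587)))))))))) (both (mv 559 (both (mv 591 (both (five 4 462 462) (mv 623 (both (five 4 494 590) (five 7 526 655))))) (mv 525 (both (five 3 525 561) (mv 524 (both (five 0 523 523) (five 0 524 527))))))) (mv 462 (both (mv 429 (both (five 7 429 461) (mv 430 (both (five 7 397 397) (mv 431 (both (five 5 398 399) (five 5 430 463))))))) (mv 557 (both (five 6 461 589) (mv 559 (both (five 1 525 529) (five 4 462 591))))))))))) (both (mv 558 (both (mv 462 (both (mv 429 (both (five 7 429 461) (mv 430 (both (five 7 397 397) (mv 431 (both (five 5 398 399) (five 5 430 463))))))) (mv 557 (both (five 6 461 589) (mv 559 (both (five 1 525 529) (five 4 462 591))))))) (both (mv 462 (both (mv 429 (both (five 7 429 461) (mv 430 (both (five 7 397 397) (mv 431 (both (five 5 398 399) (five 5 430 463))))))) (both (mv 431 (both (five 5 430 463) (mv 430 (both (five 5 398 399) (mv 557 (both (five 6 429 525) (five 6 461 589))))))) (mv 461 (both (five 7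 429 429) (mv 589 (both (five 6 461 557) (mv 590 (both (five 7 461 493) (five 6 493 621)))))))))) (both (mv 559 (both (mv 529 (both (five 1 525 557) (mv 530 (both (five 2 527 531) (five 1 526 561))))) (both (mv 557 (both (five 1 525 529) (mv 524 (both (five 3 524 525) (mv 523 (both (five 3 523 556) (mv 589 (both (five 2 556 588) (mv 621 (both (five 6 493 590) (five 5 525 653))))))))))) (both (mv 561 (both (five 3 525 525) (mv 529 (both (five 1 526 530) (mv 593 (both (five 0 558 594) (five 7 496 625))))))) (mv 525 (both (five 3 525 561) (mv 524 (both (five 0 523 523) (five 3 524 557))))))))) (both (mv 590 (both (mv 621 (both (five 6 493 589) (mv 622 (both (five 6 525 653) (mv 623 (both (five 4 494 591) (five 4 526 655))))))) (both (mv 461 (both (five 7 461 493) (mv 462 (both (five 7 429 429) (mv 591 (both (five 4 462 559) (five 4 494 623))))))) (mv 493 (both (five 7 461 461) (mv 621 (both (five 6 493 589) (mv 622 (both (five 7 493 525) (five 6 525 653)))))))))) (mv 559 (both (mv 529 (both (five 1 525 557) (mv 530 (both (five 2 527 531) (five 1 526 561))))) (mv 591 (both (five 4 462 462) (mv 623 (both (five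 4 494 590) (five 7 526 655)))))))))))) (both (mv 529 (both (mv 493 (both (five 0 493 495) (five 3 493 527))) (both (mv 530 (both (mv 531 (both (five 2 527 559) (mv 532 (both (five 2 528 561) (mv 564 (both (five 0 528 563) (five 0 529 565))))))) (both (mv 527 (both (five 3 494 495) (mv 558 (both (five 2 525 557) (five 2 526 559))))) (mv 495 (both (five 3 494 527) (five 3 495 531)))))) (both (mv 558 (both (mv 559 (both (five 1 525 557) (mv 530 (both (five 2 527 531) (five 1 526 561))))) (mv 590 (both (mv 621 (both (five 6 493 589) (mv 622 (both (five 6 525 653) (mv 623 (both (five 4 494 591) (five 4 526 655))))))) (mv 461 (both (five 7 461 493) (mv 462 (both (five 7 429 429) (mv 463 (both (five 5 430 431) (five 5 462 495))))))))))) (mv 527 (both (five 3 493 493) (mv 558 (both (five 2 525 557) (mv 559 (both (five 2 526 530) (mv 462 (both (five 4 430 430) (five 4 462 591))))))))))))) (both (mv 558 (both (mv 559 (both (mv 591 (both (five 4 462 462) (mv 623 (both (five 4 494 590) (five 7 526 655))))) (mv 525 (both (five 3 525 561) (mv 524 (both (five 0 523 523) (five 0 524 527))))))) (both (mv 462 (both (mv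 429 (both (five 7 429 461) (mv 430 (both (five 7 397 397) (mv 431 (both (five 5 398 399) (five 5 430 463))))))) (mv 557 (both (five 6 461 589) (mv 559 (both (five 4 462 591) (mv 556 (both (five 1 524 527) (mv 523 (both (five 3 523 524) (mv 555 (both (five 3 522 522) (mv 587 (both (five 2 554 586) (five 2 555 588))))))))))))))) (both (mv 525 (both (mv 561 (both (five 0 525 527) (five 3 525 559))) (both (mv 559 (both (five 3 525 561) (mv 524 (both (five 0 523 523) (five 3 524 557))))) (both (mv 527 (both (five 0 525 561) (mv 492 (both (five 3 492 493) (mv 524 (both (five 3 491 491) (mv 556 (both (five 2 523 555) (five 2 524 557))))))))) (mv 527 (both (mv 524 (both (five 0 524 559) (mv 556 (both (five 2 523 555) (five 2 524 557))))) (both (mv 493 (both (five 3 492 492) (mv 461 (both (five 4 429 429) (mv 557 (both (five 2 524 556) (five 4 461 590))))))) (mv 492 (both (five 3 492 493) (mv 524 (both (five 3 491 491) (five 0 524 559)))))))))))) (mv 462 (both (mv 429 (both (five 7 429 461) (mv 430 (both (five 7 397 397) (mv 431 (both (five 5 398 399) (five 5 430 463))))))) (both (mv 431 (both (five 5 430 463)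 (mv 430 (both (five 5 398 399) (mv 557 (both (five 6 429 525) (five 6 461 589))))))) (mv 461 (both (five 7 429 429) (mv 589 (both (five 6 461 557) (mv 590 (both (five 7 461 493) (five 6 493 621)))))))))))))) (both (mv 527 (both (mv 493 (both (five 3 493 529) (mv 492 (both (five 0 491 491) (five 3 492 525))))) (both (mv 493 (both (five 3 493 529) (mv 492 (both (five 0 491 491) (five 0 492 495))))) (mv 525 (both (five 0 525 561) (mv 524 (both (five 1 492 495) (five 0 524 559)))))))) (both (mv 527 (both (mv 525 (both (five 0 525 561) (mv 557 (both (five 2 524 556) (mv 462 (both (five 6 429 430) (mv 589 (both (five 6 461 558) (five 5 493 621))))))))) (mv 493 (both (five 3 493 529) (mv 492 (both (five 0 491 491) (five 0 492 495))))))) (mv 527 (both (mv 493 (both (five 3 493 529) (mv 492 (both (five 0 491 491) (five 3 492 525))))) (both (mv 559 (both (mv 462 (both (five 4 430 430) (mv 591 (both (five 7 462 495) (five 7 494 623))))) (both (mv 525 (both (five 0 524 524) (mv 557 (both (five 2 524 556) (mv 529 (both (five 2 525 558) (mv 530 (both (five 3 494 495) (five 2 527 531))))))))) (mv 430 (both (five 4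 430 462) (mv 525 (both (five 0 524 524) (mv 557 (both (five 2 524 556) (mv 558 (both (five 2 525 529) (mv 589 (both (five 2 556 588) (mv 621 (both (five 6 493 590) (five 5 525 653)))))))))))))))) (both (mv 495 (both (mv 431 (both (five 4 431 463) (mv 493 (both (five 0 492 492) (mv 461 (both (five 3 460 460) (mv 429 (both (five 4 397 397) (mv 558 (both (five 7 429 462) (five 7 461 590))))))))))) (both (mv 525 (both (five 1 492 524) (mv 557 (both (five 2 524 556) (mv 462 (both (five 6 429 430) (mv 589 (both (five 6 461 558) (five 5 493 621))))))))) (both (mv 431 (both (five 4 431 463) (mv 493 (both (five 0 492 492) (mv 460 (both (five 3 460 461) (mv 525 (both (five 2 492 524) (mv 557 (both (five 2 524 556) (mv 462 (both (five 6 429 430) (five 5 461 589))))))))))))) (mv 431 (both (five 4 431 463) (mv 493 (both (five 0 492 492) (mv 460 (both (five 3 460 461) (mv 525 (both (five 2 492 524) (mv 557 (both (five 2 524 556) (mv 589 (both (five 5 493 621) (mv 588 (both (five 6 492 620) (mv 559 (both (five 2 556 558) (mv 590 (both (five 1 556 591) (five 4 493 622))))))))))))))))))))))) (mv 493 (both (five 3 493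 529) (mv 492 (both (five 0 491 491) (five 0 492 495)))))))))))))))) (both (mv 495 (both (mv 529 (both (five 0 493 493) (mv 530 (both (five 0 494 497) (five 3 495 531))))) (both (mv 497 (both (mv 462 (both (five 3 461 461) (mv 466 (both (five 1 462 465) (mv 498 (both (five 3 462 463) (five 1 463 467))))))) (both (mv 466 (both (five 1 462 465) (mv 498 (both (five 1 463 467) (mv 499 (both (five 2 495 527) (mv 531 (both (five 0 495 530) (five 0 496 532))))))))) (both (mv 493 (both (mv 465 (both (five 1 462 466) (mv 401 (both (five 6 400 433) (mv 492 (both (five 0 492 527) (mv 459 (both (five 3 459 460) (mv 491 (both (five 3 458 458) (mv 523 (both (five 2 490 522) (five 2 491 524))))))))))))) (both (mv 461 (both (five 3 460 460) (five 3 461 462))) (mv 462 (both (five 3 461 461) (mv 465 (both (five 1 462 466) (mv 401 (both (five 6 400 433) (mv 492 (both (five 0 492 527) (mv 491 (both (five 1 459 463) (mv 523 (both (five 2 490 522) (five 2 491 524)))))))))))))))) (mv 462 (both (five 3 461 461) (mv 463 (both (five 3 462 498) (mv 431 (both (five 4 399 399) (five 4 431 527))))))))))) (both (mv 497 (both (mv 465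 (both (five 1 462 466) (mv 433 (both (five 6 400 401) (five 6 432 529))))) (mv 462 (both (five 3 461 461) (mv 463 (both (five 3 462 498) (mv 431 (both (five 4 399 399) (five 4 431 527))))))))) (mv 493 (both (five 0 493 529) (mv 460 (both (five 3 460 461) (mv 492 (both (five 3 459 459) (five 0 492 527))))))))))) (both (mv 495 (both (mv 529 (both (five 0 493 493) (mv 530 (both (five 0 494 497) (five 3 495 531))))) (both (mv 493 (both (mv 460 (both (five 3 460 461) (mv 492 (both (five 3 459 459) (five 0 492 527))))) (both (mv 460 (both (five 3 460 461) (mv 492 (both (five 3 459 459) (mv 524 (both (five 2 491 523) (five 2 492 525))))))) (both (mv 460 (both (five 3 460 461) (mv 525 (both (five 2 492 524) (mv 497 (both (five 2 493 526) (mv 466 (both (five 1 462 465) (mv 498 (both (five 1 463 467) (mv 499 (both (five 2 495 527) (mv 531 (both (five 0 495 530) (five 0 496 532))))))))))))))) (mv 492 (both (five 0 492 527) (mv 524 (both (five 2 491 523) (five 2 492 525))))))))) (both (mv 497 (both (mv 465 (both (five 1 462 466) (mv 433 (both (five 6 400 401) (five 6 432 529))))) (both (mv 466 (both (five 1 462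 465) (mv 498 (both (five 1 463 467) (mv 526 (both (five 2 493 525) (five 2 494 527))))))) (mv 526 (both (five 2 493 525) (mv 498 (both (five 2 494 527) (mv 530 (both (five 0 494 529) (five 0 495 531)))))))))) (mv 493 (both (five 0 493 529) (mv 460 (both (five 3 460 461) (mv 492 (both (five 3 459 459) (five 0 492 527))))))))))) (both (mv 495 (both (mv 497 (both (mv 465 (both (five 1 462 466) (mv 433 (both (five 6 400 401) (five 6 432 529))))) (mv 462 (both (five 3 461 461) (mv 463 (both (five 3 462 498) (mv 431 (both (five 4 399 399) (five 4 431 527))))))))) (both (mv 493 (both (five 0 493 529) (mv 460 (both (five 3 460 461) (mv 492 (both (five 3 459 459) (mv 524 (both (five 2 491 523) (five 2 492 525))))))))) (mv 527 (both (mv 559 (both (mv 591 (both (five 7 462 462) (five 5 495 623))) (both (mv 463 (both (five 4 431 431) (mv 462 (both (five 7 430 430) (mv 493 (both (five 0 492 492) (mv 497 (both (five 3 462 498) (mv 465 (both (five 1 462 466) (mv 401 (both (five 6 400 433) (mv 525 (both (five 2 492 524) (mv 557 (both (five 5 461 589) (mv 558 (both (five 1 524 556) (five 6 462 590)))))))))))))))))))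 (mv 463 (both (five 4 431 431) (mv 492 (both (five 0 492 493) (mv 590 (both (five 6 462 558) (mv 591 (both (five 6 494 622) (five 5 495 623)))))))))))) (both (mv 493 (both (five 0 492 492) (mv 525 (both (five 2 492 524) (mv 526 (both (five 1 493 497) (five 0 525 561))))))) (both (mv 559 (both (mv 591 (both (five 7 462 462) (five 5 495 623))) (both (mv 463 (both (five 4 431 431) (mv 462 (both (five 7 430 430) (mv 492 (both (five 0 492 493) (mv 497 (both (five 3 462 498) (mv 465 (both (five 1 462 466) (mv 401 (both (five 6 400 433) (mv 558 (both (five 6 462 590) (mv 557 (both (five 1 524 556) (mv 589 (both (five 6 461 526) (five 2 556 588))))))))))))))))))) (mv 463 (both (five 4 431 431) (mv 492 (both (five 0 492 493) (mv 590 (both (five 6 462 558) (mv 591 (both (five 6 494 622) (five 5 495 623)))))))))))) (both (mv 559 (both (mv 591 (both (five 7 462 462) (five 5 495 623))) (both (mv 463 (both (five 4 431 431) (mv 430 (both (five 7 430 462) (mv 558 (both (five 6 462 590) (mv 557 (both (five 1 524 556) (mv 525 (both (five 3 524 524) (mv 526 (both (five 1 493 497) (five 0 525 561))))))))))))) (mv 431 (both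 (five 4 431 463) (mv 591 (both (five 5 495 623) (mv 590 (both (five 6 494 622) (mv 589 (both (five 1 556 588) (mv 558 (both (five 2 557 561) (mv 526 (both (five 6 493 621) (mv 497 (both (five 2 494 498) (five 2 493 525)))))))))))))))))) (mv 431 (both (five 4 431 463) (mv 493 (both (five 0 492 492) (mv 525 (both (five 2 492 524) (mv 526 (both (five 0 525 561) (mv 557 (both (five 2 524 556) (mv 462 (both (five 6 429 430) (five 5 461 589))))))))))))))))))))) (both (mv 495 (both (mv 529 (both (five 0 493 493) (mv 530 (both (five 0 494 497) (five 3 495 531))))) (both (mv 527 (both (mv 559 (both (mv 591 (both (five 7 462 462) (five 5 495 623))) (both (mv 463 (both (five 4 431 431) (mv 462 (both (five 7 430 430) (mv 493 (both (five 0 492 492) (mv 497 (both (five 3 462 498) (mv 465 (both (five 1 462 466) (mv 401 (both (five 6 400 433) (mv 525 (both (five 2 492 524) (mv 557 (both (five 5 461 589) (mv 558 (both (five 1 524 556) (five 6 462 590))))))))))))))))))) (mv 463 (both (five 4 431 431) (mv 492 (both (five 0 492 493) (mv 590 (both (five 6 462 558) (mv 591 (both (five 6 494 622) (five 5 495 623))))))))))))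 (both (mv 493 (both (five 0 492 492) (mv 525 (both (five 2 492 524) (mv 526 (both (five 1 493 497) (five 0 525 561))))))) (both (mv 559 (both (mv 591 (both (five 7 462 462) (five 5 495 623))) (both (mv 463 (both (five 4 431 431) (mv 462 (both (five 7 430 430) (mv 492 (both (five 0 492 493) (mv 497 (both (five 3 462 498) (mv 465 (both (five 1 462 466) (mv 401 (both (five 6 400 433) (mv 558 (both (five 6 462 590) (mv 557 (both (five 1 524 556) (mv 589 (both (five 6 461 526) (five 2 556 588))))))))))))))))))) (mv 463 (both (five 4 431 431) (mv 492 (both (five 0 492 493) (mv 590 (both (five 6 462 558) (mv 591 (both (five 6 494 622) (five 5 495 623)))))))))))) (both (mv 559 (both (mv 591 (both (five 7 462 462) (five 5 495 623))) (both (mv 463 (both (five 4 431 431) (mv 430 (both (five 7 430 462) (mv 558 (both (five 6 462 590) (mv 557 (both (five 1 524 556) (mv 525 (both (five 3 524 524) (mv 526 (both (five 1 493 497) (five 0 525 561))))))))))))) (mv 431 (both (five 4 431 463) (mv 591 (both (five 5 495 623) (mv 590 (both (five 6 494 622) (mv 589 (both (five 1 556 588) (mv 558 (both (five 2 557 561) (mv 526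 (both (five 6 493 621) (mv 497 (both (five 2 494 498) (five 2 493 525)))))))))))))))))) (mv 431 (both (five 4 431 463) (mv 493 (both (five 0 492 492) (mv 525 (both (five 2 492 524) (mv 526 (both (five 0 525 561) (mv 557 (both (five 2 524 556) (mv 462 (both (five 6 429 430) (five 5 461 589)))))))))))))))))) (both (mv 497 (both (mv 465 (both (five 1 462 466) (mv 433 (both (five 6 400 401) (five 6 432 529))))) (both (mv 466 (both (five 1 462 465) (mv 498 (both (five 1 463 467) (mv 526 (both (five 2 493 525) (five 2 494 527))))))) (mv 526 (both (five 2 493 525) (mv 498 (both (five 2 494 527) (mv 530 (both (five 0 494 529) (five 0 495 531)))))))))) (mv 493 (both (five 0 493 529) (mv 492 (both (five 0 492 527) (mv 524 (both (five 2 491 523) (five 2 492 525))))))))))) (mv 495 (both (mv 529 (both (five 0 493 493) (mv 530 (both (five 0 494 497) (five 3 495 531))))) (both (mv 497 (both (mv 466 (both (five 1 462 465) (mv 498 (both (five 1 463 467) (mv 526 (both (five 2 493 525) (five 2 494 527))))))) (both (mv 462 (both (five 3 461 461) (mv 466 (both (five 1 462 465) (mv 498 (both (five 3 462 463) (five 1 463 467)))))))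 (both (mv 463 (both (mv 431 (both (five 4 399 399) (five 4 431 527))) (both (mv 462 (both (five 3 461 461) (mv 465 (both (five 1 462 466) (mv 401 (both (five 6 400 433) (mv 526 (both (five 2 493 525) (mv 558 (both (five 5 462 590) (mv 557 (both (five 6 461 589) (mv 559 (both (five 4 462 591) (mv 527 (both (five 4 430 430) (five 1 524 556))))))))))))))))) (mv 431 (both (five 4 399 399) (mv 462 (both (five 3 461 461) (mv 526 (both (five 2 493 525) (five 5 430 558)))))))))) (mv 462 (both (five 3 461 461) (mv 463 (both (five 3 462 498) (mv 431 (both (five 4 399 399) (five 4 431 527))))))))))) (mv 493 (both (five 0 493 529) (mv 460 (both (five 3 460 461) (mv 492 (both (five 3 459 459) (five 0 492 527)))))))))))))))))))) (both (mv 464 (both (mv 433 (both (five 5 432 465) (mv 432 (both (five 5 400 401) (mv 561 (both (five 4 432 529) (five 4 464 593))))))) (both (mv 431 (both (five 7 431 463) (mv 432 (both (five 7 399 399) (mv 561 (both (five 4 432 529) (five 4 464 593))))))) (mv 463 (both (five 7 431 431) (mv 462 (both (mv 461 (both (five 0 461 497) (mv 428 (both (five 3 428 429) (mv 460 (both (five 3 427 427)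 (five 0 460 495))))))) (both (mv 465 (both (five 5 432 433) (mv 494 (both (five 2 461 493) (mv 466 (both (five 2 462 495) (mv 435 (both (five 1 431 434) (mv 467 (both (five 1 432 436) (mv 499 (both (five 0 463 498) (five 0 464 500))))))))))))) (mv 433 (both (five 5 432 465) (mv 461 (both (five 0 461 497) (mv 428 (both (five 3 428 429) (mv 460 (both (five 3 427 427) (mv 492 (both (five 2 459 491) (five 2 460 493))))))))))))))))))) (both (mv 464 (both (mv 433 (both (five 5 432 465) (mv 432 (both (five 5 400 401) (mv 559 (both (five 6 431 527) (five 6 463 591))))))) (both (mv 431 (both (five 7 431 463) (mv 432 (both (five 7 399 399) (mv 559 (both (five 6 431 527) (five 6 463 591))))))) (mv 463 (both (five 7 431 431) (mv 462 (both (mv 461 (both (five 0 461 497) (mv 428 (both (five 3 428 429) (mv 460 (both (five 3 427 427) (five 0 460 495))))))) (both (mv 465 (both (five 5 432 433) (mv 494 (both (five 2 461 493) (mv 466 (both (five 2 462 495) (mv 435 (both (five 1 431 434) (mv 467 (both (five 1 432 436) (mv 499 (both (five 0 463 498) (five 0 464 500))))))))))))) (mv 433 (both (five 5 432 465) (mv 461 (both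 (five 0 461 497) (mv 428 (both (five 3 428 429) (mv 460 (both (five 3 427 427) (mv 492 (both (five 2 459 491) (five 2 460 493))))))))))))))))))) (both (mv 464 (both (mv 431 (both (five 7 431 463) (mv 432 (both (five 7 399 399) (mv 433 (both (five 5 400 401) (five 5 432 465))))))) (both (mv 431 (both (five 7 431 463) (mv 432 (both (five 7 399 399) (mv 561 (both (five 4 432 529) (five 4 464 593))))))) (both (mv 433 (both (five 5 432 465) (mv 432 (both (five 5 400 401) (mv 561 (both (five 4 432 529) (five 4 464 593))))))) (mv 463 (both (five 7 431 431) (mv 462 (both (mv 461 (both (five 0 461 497) (mv 428 (both (five 3 428 429) (mv 460 (both (five 3 427 427) (mv 492 (both (five 2 459 491) (five 2 460 493))))))))) (both (mv 465 (both (five 5 432 433) (mv 429 (both (five 3 429 430) (mv 461 (both (five 3 428 428) (mv 493 (both (five 2 460 492) (five 2 461 494))))))))) (both (mv 465 (both (five 5 432 433) (mv 430 (both (five 3 429 429) (mv 494 (both (five 2 461 493) (mv 497 (both (five 0 462 498) (mv 559 (both (five 6 463 591) (mv 526 (both (five 4 430 527) (mv 525 (both (five 6 429 557) (mv 561 (both (five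 3 525 558) (five 4 464 593))))))))))))))))) (both (mv 461 (both (five 0 461 497) (mv 429 (both (five 3 428 428) (mv 465 (both (five 3 429 430) (five 5 432 433))))))) (mv 461 (both (five 0 461 497) (mv 465 (both (five 5 432 433) (mv 493 (both (five 2 460 492) (five 2 461 494)))))))))))))))))) (both (mv 464 (both (mv 431 (both (five 7 431 463) (mv 432 (both (five 7 399 399) (mv 561 (both (five 4 432 529) (five 4 464 593))))))) (both (mv 559 (both (five 6 463 591) (mv 432 (both (five 6 431 527) (mv 561 (both (five 4 432 529) (five 4 464 593))))))) (both (mv 431 (both (five 7 431 463) (mv 432 (both (five 7 399 399) (mv 559 (both (five 6 431 527) (five 6 463 591))))))) (mv 559 (both (five 6 463 591) (mv 558 (both (mv 561 (both (five 4 464 593) (mv 525 (both (five 3 525 526) (mv 557 (both (five 3 524 524) (mv 589 (both (five 2 556 588) (five 2 557 590))))))))) (both (mv 529 (both (five 1 525 557) (mv 530 (both (five 2 526 527) (five 2 527 531))))) (mv 463 (both (five 7 431 431) (mv 561 (both (five 4 464 593) (mv 526 (both (five 3 525 525) (mv 529 (both (five 1 526 530) (mv 590 (both (five 2 557 589) (mv 495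 (both (five 5 462 494) (five 6 462 527)))))))))))))))))))))) (both (mv 464 (both (mv 433 (both (five 5 432 465) (mv 432 (both (five 5 400 401) (mv 561 (both (five 4 432 529) (five 4 464 593))))))) (both (mv 433 (both (five 5 432 465) (mv 432 (both (five 5 400 401) (mv 559 (both (five 6 431 527) (five 6 463 591))))))) (both (mv 559 (both (five 6 463 591) (mv 432 (both (five 6 431 527) (mv 561 (both (five 4 432 529) (five 4 464 593))))))) (mv 529 (both (mv 495 (both (mv 494 (both (five 0 493 493) (mv 530 (both (five 0 494 497) (five 3 495 531))))) (both (mv 465 (both (five 5 432 433) (mv 466 (both (five 2 463 467) (mv 530 (both (five 3 495 531) (mv 561 (both (five 4 464 593) (mv 434 (both (five 5 433 497) (five 6 433 498))))))))))) (both (mv 465 (both (five 5 432 433) (mv 466 (both (five 2 463 467) (mv 494 (both (five 1 461 493) (five 1 462 497))))))) (mv 433 (both (five 5 432 465) (mv 494 (both (five 0 493 493) (mv 530 (both (five 3 494 527) (five 3 495 531))))))))))) (both (mv 559 (both (five 6 463 591) (mv 530 (both (five 2 527 531) (mv 558 (both (five 2 526 527) (five 1 525 557))))))) (both (mv 495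 (both (mv 465 (both (five 5 432 433) (mv 466 (both (five 2 463 467) (mv 494 (both (five 1 461 493) (five 1 462 497))))))) (mv 559 (both (five 6 463 591) (mv 558 (both (five 1 525 557) (mv 561 (both (five 4 464 593) (mv 526 (both (five 3 525 525) (mv 590 (both (five 2 557 589) (mv 622 (both (five 5 494 527) (mv 653 (both (five 6 525 621) (mv 654 (both (five 6 557 685) (mv 655 (both (five 4 526 623) (five 4 558 687))))))))))))))))))))) (mv 433 (both (five 5 432 465) (mv 559 (both (five 6 463 591) (mv 530 (both (five 2 527 531) (mv 558 (both (five 1 525 557) (five 1 526 561))))))))))))))))) (both (mv 464 (both (mv 559 (both (five 6 463 591) (mv 558 (both (mv 561 (both (five 4 464 593) (mv 525 (both (five 3 525 526) (mv 557 (both (five 3 524 524) (mv 589 (both (five 2 556 588) (five 2 557 590))))))))) (both (mv 529 (both (five 1 525 557) (mv 530 (both (five 2 526 527) (five 2 527 531))))) (mv 463 (both (five 7 431 431) (mv 561 (both (five 4 464 593) (mv 526 (both (five 3 525 525) (mv 529 (both (five 1 526 530) (mv 590 (both (five 2 557 589) (mv 495 (both (five 5 462 494) (five 6 462 527))))))))))))))))))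 (both (mv 529 (both (mv 495 (both (mv 494 (both (five 0 493 493) (mv 530 (both (five 0 494 497) (five 3 495 531))))) (both (mv 465 (both (five 5 432 433) (mv 466 (both (five 2 463 467) (mv 530 (both (five 3 495 531) (mv 561 (both (five 4 464 593) (mv 434 (both (five 5 433 497) (five 6 433 498))))))))))) (both (mv 465 (both (five 5 432 433) (mv 466 (both (five 2 463 467) (mv 494 (both (five 1 461 493) (five 1 462 497))))))) (mv 433 (both (five 5 432 465) (mv 494 (both (five 0 493 493) (mv 530 (both (five 3 494 527) (five 3 495 531))))))))))) (both (mv 559 (both (five 6 463 591) (mv 530 (both (five 2 527 531) (mv 558 (both (five 2 526 527) (five 1 525 557))))))) (both (mv 495 (both (mv 465 (both (five 5 432 433) (mv 466 (both (five 2 463 467) (mv 494 (both (five 1 461 493) (five 1 462 497))))))) (mv 559 (both (five 6 463 591) (mv 558 (both (five 1 525 557) (mv 561 (both (five 4 464 593) (mv 526 (both (five 3 525 525) (mv 590 (both (five 2 557 589) (mv 622 (both (five 5 494 527) (mv 653 (both (five 6 525 621) (mv 654 (both (five 6 557 685) (mv 655 (both (five 4 526 623) (five 4 558 687)))))))))))))))))))))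 (mv 433 (both (five 5 432 465) (mv 559 (both (five 6 463 591) (mv 530 (both (five 2 527 531) (mv 558 (both (five 1 525 557) (five 1 526 561))))))))))))) (both (mv 463 (both (five 7 431 431) (mv 462 (both (mv 461 (both (five 0 461 497) (mv 428 (both (five 3 428 429) (mv 460 (both (five 3 427 427) (five 0 460 495))))))) (both (mv 465 (both (five 5 432 433) (mv 494 (both (five 2 461 493) (mv 466 (both (five 2 462 495) (mv 435 (both (five 1 431 434) (mv 467 (both (five 1 432 436) (mv 499 (both (five 0 463 498) (five 0 464 500))))))))))))) (mv 433 (both (five 5 432 465) (mv 461 (both (five 0 461 497) (mv 428 (both (five 3 428 429) (mv 460 (both (five 3 427 427) (mv 492 (both (five 2 459 491) (five 2 460 493)))))))))))))))) (both (mv 463 (both (five 7 431 431) (mv 462 (both (mv 461 (both (five 0 461 497) (mv 428 (both (five 3 428 429) (mv 460 (both (five 3 427 427) (mv 492 (both (five 2 459 491) (five 2 460 493))))))))) (both (mv 465 (both (five 5 432 433) (mv 429 (both (five 3 429 430) (mv 461 (both (five 3 428 428) (mv 493 (both (five 2 460 492) (five 2 461 494))))))))) (both (mv 465 (both (five 5 432 433)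 (mv 430 (both (five 3 429 429) (mv 494 (both (five 2 461 493) (mv 497 (both (five 0 462 498) (mv 559 (both (five 6 463 591) (mv 526 (both (five 4 430 527) (mv 525 (both (five 6 429 557) (mv 561 (both (five 3 525 558) (five 4 464 593))))))))))))))))) (both (mv 461 (both (five 0 461 497) (mv 429 (both (five 3 428 428) (mv 465 (both (five 3 429 430) (five 5 432 433))))))) (mv 461 (both (five 0 461 497) (mv 465 (both (five 5 432 433) (mv 493 (both (five 2 460 492) (five 2 461 494)))))))))))))) (mv 463 (both (five 7 431 431) (mv 462 (both (mv 461 (both (five 0 461 497) (mv 428 (both (five 3 428 429) (mv 460 (both (five 3 427 427) (five 0 460 495))))))) (both (mv 465 (both (five 5 432 433) (mv 429 (both (five 3 429 430) (mv 461 (both (five 3 428 428) (mv 460 (both (five 0 460 495) (mv 492 (both (five 2 459 491) (five 2 460 493))))))))))) (both (mv 465 (both (five 5 432 433) (mv 429 (both (five 3 429 430) (mv 498 (both (five 0 462 497) (mv 466 (both (five 0 463 499) (mv 434 (both (five 1 431 435) (mv 495 (both (five 2 463 467) (mv 559 (both (five 6 463 591) (mv 561 (both (five 4 464 593) (mv 529 (both (five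 6 433 530) (mv 558 (both (five 1 525 557) (mv 526 (both (five 3 525 525) (mv 590 (both (five 2 557 589) (mv 622 (both (five 5 494 527) (mv 653 (both (five 6 525 621) (mv 654 (both (five 6 557 685) (mv 655 (both (five 4 526 623) (five 4 558 687))))))))))))))))))))))))))))))))) (both (mv 461 (both (five 0 461 497) (mv 429 (both (five 3 428 428) (mv 465 (both (five 3 429 430) (five 5 432 433))))))) (mv 433 (both (five 5 432 465) (mv 461 (both (five 0 461 497) (mv 460 (both (five 0 460 495) (mv 492 (both (five 2 459 491) (five 2 460 493))))))))))))))))))))) (mv 464 (both (mv 431 (both (five 7 431 463) (mv 432 (both (five 7 399 399) (mv 433 (both (five 5 400 401) (five 5 432 465))))))) (both (mv 433 (both (five 5 432 465) (mv 432 (both (five 5 400 401) (mv 561 (both (five 4 432 529) (five 4 464 593))))))) (both (mv 431 (both (five 7 431 463) (mv 432 (both (five 7 399 399) (mv 561 (both (five 4 432 529) (five 4 464 593))))))) (mv 463 (both (five 7 431 431) (mv 462 (both (mv 461 (both (five 0 461 497) (mv 428 (both (five 3 428 429) (mv 460 (both (five 3 427 427) (five 0 460 495))))))) (both (mv 465 (both (five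 5 432 433) (mv 429 (both (five 3 429 430) (mv 461 (both (five 3 428 428) (mv 460 (both (five 0 460 495) (mv 492 (both (five 2 459 491) (five 2 460 493))))))))))) (both (mv 465 (both (five 5 432 433) (mv 429 (both (five 3 429 430) (mv 498 (both (five 0 462 497) (mv 466 (both (five 0 463 499) (mv 434 (both (five 1 431 435) (mv 495 (both (five 2 463 467) (mv 559 (both (five 6 463 591) (mv 561 (both (five 4 464 593) (mv 529 (both (five 6 433 530) (mv 558 (both (five 1 525 557) (mv 526 (both (five 3 525 525) (mv 590 (both (five 2 557 589) (mv 622 (both (five 5 494 527) (mv 653 (both (five 6 525 621) (mv 654 (both (five 6 557 685) (mv 655 (both (five 4 526 623) (five 4 558 687))))))))))))))))))))))))))))))))) (both (mv 461 (both (five 0 461 497) (mv 429 (both (five 3 428 428) (mv 465 (both (five 3 429 430) (five 5 432 433))))))) (mv 433 (both (five 5 432 465) (mv 461 (both (five 0 461 497) (mv 460 (both (five 0 460 495) (mv 492 (both (five 2 459 491) (five 2 460 493)))))))))))))))))))))))))))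

theorem L110 : W (S 3773962425700235452738272624505952193199339552226928146794549392648115485167898379561026699849346401546134558067857772757880134458676407096525164659442171664912122642432) (S 802633041879727580129433123020814151633853831208455783943028155522900087670481455450231262136827849721693006793198013793426212851700310813124282952174348053067190806793567802744785947784674839642241478164480) :=
  check_sound Env.nil (x := 496) (t := tL110) (by decide +kernel)

def tL111 : T :=
  (both (ref 0) (both (ref 1) (both (mv 496 (both (mv 464 (both (mv 433 (both (five 5 432 465) (mv 432 (both (five 5 400 401) (mv 559 (both (five 6 431 527) (five 6 463 591))))))) (both (mv 431 (both (five 7 431 463) (mv 432 (both (five 7 399 399) (mv 559 (both (five 6 431 527) (five 6 463 591))))))) (mv 463 (both (five 7 431 431) (mv 462 (both (mv 461 (both (five 0 461 497) (mv 428 (both (five 3 428 429) (mv 460 (both (five 3 427 427) (five 0 460 495))))))) (both (mv 465 (both (five 5 432 433) (mv 494 (both (five 2 461 493) (mv 466 (both (five 2 462 495) (mv 435 (both (five 1 431 434) (mv 467 (both (five 1 432 436) (mv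 499 (both (five 0 463 498) (five 0 464 500))))))))))))) (mv 433 (both (five 5 432 465) (mv 461 (both (five 0 461 497) (mv 428 (both (five 3 428 429) (mv 460 (both (five 3 427 427) (mv 492 (both (five 2 459 491) (five 2 460 493))))))))))))))))))) (both (mv 592 (both (mv 623 (both (five 6 495 591) (mv 624 (both (five 6 527 655) (mv 625 (both (five 4 496 593) (five 4 528 657))))))) (both (mv 465 (both (five 5 464 497) (mv 495 (both (five 7 463 463) (mv 624 (both (five 7 495 527) (mv 625 (both (five 4 496 593) (five 4 528 657))))))))) (both (mv 465 (both (five 5 464 497) (mv 495 (both (five 7 463 463) (mv 623 (both (five 6 495 591) (mv 624 (both (five 7 495 527) (five 6 527 655))))))))) (mv 497 (both (five 5 464 465) (mv 498 (both (mv 499 (both (five 2 495 527) (mv 468 (both (five 1 464 467) (mv 500 (both (five 1 465 469) (mv 532 (both (five 0 496 531) (five 0 497 533))))))))) (both (mv 495 (both (five 7 463 463) (mv 467 (both (five 1 463 466) (mv 499 (both (five 1 464 468) (mv 531 (both (five 0 495 530) (five 0 496 532))))))))) (both (mv 495 (both (five 7 463 463) (mv 466 (both (five 1 463 467) (mv 526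 (both (five 2 494 527) (mv 494 (both (five 2 493 525) (mv 461 (both (five 3 461 462) (mv 493 (both (five 3 460 460) (mv 397 (both (five 4 397 429) (mv 558 (both (five 7 461 590) (mv 591 (both (five 6 495 623) (mv 593 (both (five 4 496 625) (mv 559 (both (five 0 557 557) (five 3 558 594))))))))))))))))))))))) (mv 495 (both (five 7 463 463) (mv 499 (both (five 2 495 527) (mv 531 (both (five 0 495 530) (five 0 496 532))))))))))))))))) (both (mv 592 (both (mv 623 (both (five 6 495 591) (mv 624 (both (five 6 527 655) (mv 625 (both (five 4 496 593) (five 4 528 657))))))) (both (mv 465 (both (five 5 464 497) (mv 464 (both (five 5 432 433) (mv 593 (both (five 4 464 561) (five 4 496 625))))))) (mv 465 (both (five 5 464 497) (mv 464 (both (five 5 432 433) (mv 591 (both (five 6 463 559) (five 6 495 623)))))))))) (both (mv 464 (both (mv 431 (both (five 7 431 463) (mv 432 (both (five 7 399 399) (mv 433 (both (five 5 400 401) (five 5 432 465))))))) (both (mv 433 (both (five 5 432 465) (mv 432 (both (five 5 400 401) (mv 399 (both (five 7 399 431) (mv 400 (both (five 7 367 367) (mv 527 (both (five 6 399 495) (five 6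 431 559))))))))))) (both (mv 431 (both (five 7 431 463) (mv 432 (both (five 7 399 399) (mv 401 (both (five 5 400 433) (mv 400 (both (five 5 368 369) (mv 527 (both (five 6 399 495) (five 6 431 559))))))))))) (both (mv 433 (both (five 5 432 465) (mv 432 (both (five 5 400 401) (mv 527 (both (five 6 431 559) (mv 495 (both (five 6 399 400) (mv 592 (both (five 7 463 463) (five 7 495 624))))))))))) (both (mv 431 (both (five 7 431 463) (mv 432 (both (five 7 399 399) (mv 527 (both (five 6 431 559) (mv 495 (both (five 6 399 400) (mv 561 (both (five 4 464 593) (mv 526 (both (five 0 525 525) (mv 497 (both (five 2 494 498) (mv 592 (both (five 5 464 465) (five 7 495 624))))))))))))))))) (mv 463 (both (five 7 431 431) (mv 462 (both (mv 461 (both (five 0 461 497) (mv 428 (both (five 3 428 429) (mv 460 (both (five 3 427 427) (five 0 460 495))))))) (both (mv 465 (both (five 5 432 433) (mv 494 (both (five 2 461 493) (mv 466 (both (five 2 462 495) (mv 435 (both (five 1 431 434) (mv 467 (both (five 1 432 436) (mv 499 (both (five 0 463 498) (five 0 464 500))))))))))))) (mv 433 (both (five 5 432 465) (mv 461 (both (five 0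 461 497) (mv 428 (both (five 3 428 429) (mv 460 (both (five 3 427 427) (mv 492 (both (five 2 459 491) (five 2 460 493)))))))))))))))))))))) (mv 592 (both (mv 623 (both (five 6 495 591) (mv 624 (both (five 6 527 655) (mv 625 (both (five 4 496 593) (five 4 528 657))))))) (both (mv 495 (both (five 7 463 463) (mv 623 (both (five 6 495 591) (mv 624 (both (five 7 495 527) (five 6 527 655))))))) (mv 463 (both (five 7 463 495) (mv 464 (both (five 7 431 431) (mv 593 (both (five 4 464 561) (five 4 496 625))))))))))))))) (both (mv 592 (both (mv 624 (both (mv 655 (both (five 6 527 623) (mv 656 (both (five 6 559 687) (mv 657 (both (five 4 528 625) (five 4 560 689))))))) (both (mv 495 (both (five 7 495 527) (mv 529 (both (five 5 496 497) (mv 655 (both (five 6 527 623) (mv 656 (both (five 5 528 561) (five 6 559 687))))))))) (both (mv 495 (both (five 7 495 527) (mv 529 (both (five 5 496 497) (mv 656 (both (five 5 528 561) (mv 657 (both (five 4 528 625) (five 4 560 689))))))))) (mv 527 (both (five 7 495 495) (mv 526 (both (mv 525 (both (five 0 525 561) (mv 492 (both (five 3 492 493) (mv 524 (both (five 3 491 491) (mv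 556 (both (five 2 523 555) (five 2 524 557))))))))) (both (mv 529 (both (five 5 496 497) (mv 494 (both (five 3 493 493) (mv 558 (both (five 2 525 557) (mv 623 (both (five 6 527 655) (mv 590 (both (five 4 494 591) (mv 589 (both (five 6 493 621) (mv 625 (both (five 3 589 622) (five 4 528 657))))))))))))))) (both (mv 525 (both (five 0 525 561) (mv 493 (both (five 3 492 492) (mv 529 (both (five 3 493 494) (five 5 496 497))))))) (mv 525 (both (five 0 525 561) (mv 529 (both (five 5 496 497) (mv 557 (both (five 2 524 556) (five 2 525 558))))))))))))))))) (both (mv 496 (both (mv 465 (both (five 5 464 497) (mv 464 (both (five 5 432 433) (mv 593 (both (five 4 464 561) (five 4 496 625))))))) (both (mv 463 (both (five 7 463 495) (mv 464 (both (five 7 431 431) (mv 593 (both (five 4 464 561) (five 4 496 625))))))) (mv 495 (both (five 7 463 463) (mv 494 (both (mv 529 (both (five 0 493 493) (mv 530 (both (five 0 494 497) (five 3 495 531))))) (both (mv 493 (both (five 0 493 529) (mv 460 (both (five 3 460 461) (mv 492 (both (five 3 459 459) (five 0 492 527))))))) (both (mv 497 (both (mv 461 (both (five 3 461 462) (mv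 460 (both (five 3 460 493) (mv 466 (both (five 1 462 465) (mv 498 (both (five 1 463 467) (mv 499 (both (five 2 495 527) (mv 531 (both (five 0 495 530) (five 0 496 532))))))))))))) (both (mv 466 (both (five 1 462 465) (mv 498 (both (five 1 463 467) (mv 526 (both (five 2 493 525) (five 2 494 527))))))) (mv 461 (both (five 3 461 462) (mv 493 (both (five 3 460 460) (mv 525 (both (five 2 492 524) (five 2 493 526)))))))))) (mv 497 (both (mv 465 (both (five 1 462 466) (mv 433 (both (five 6 400 401) (five 6 432 529))))) (both (mv 466 (both (five 1 462 465) (mv 498 (both (five 1 463 467) (mv 526 (both (five 2 493 525) (five 2 494 527))))))) (mv 526 (both (five 2 493 525) (mv 498 (both (five 2 494 527) (mv 530 (both (five 0 494 529) (five 0 495 531))))))))))))))))))) (both (mv 624 (both (mv 655 (both (five 6 527 623) (mv 656 (both (five 6 559 687) (mv 657 (both (five 4 528 625) (five 4 560 689))))))) (both (mv 495 (both (five 7 495 527) (mv 496 (both (five 7 463 463) (mv 623 (both (five 6 495 591) (five 6 527 655))))))) (mv 495 (both (five 7 495 527) (mv 496 (both (five 7 463 463) (mv 625 (both (five 4 496 593)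 (five 4 528 657)))))))))) (both (mv 496 (both (mv 495 (both (five 7 463 463) (mv 623 (both (five 6 495 591) (mv 624 (both (five 7 495 527) (five 6 527 655))))))) (both (mv 465 (both (five 5 464 497) (mv 464 (both (five 5 432 433) (mv 431 (both (five 7 431 463) (mv 432 (both (five 7 399 399) (mv 561 (both (five 4 432 529) (five 4 464 593))))))))))) (mv 465 (both (five 5 464 497) (mv 464 (both (five 5 432 433) (mv 561 (both (five 4 464 593) (mv 529 (both (five 4 432 432) (mv 623 (both (five 6 495 591) (mv 624 (both (five 6 527 655) (five 5 528 656)))))))))))))))) (mv 624 (both (mv 655 (both (five 6 527 623) (mv 656 (both (five 6 559 687) (mv 657 (both (five 4 528 625) (five 4 560 689))))))) (both (mv 529 (both (five 5 496 497) (mv 655 (both (five 6 527 623) (mv 656 (both (five 5 528 561) (five 6 559 687))))))) (mv 497 (both (five 5 496 529) (mv 496 (both (five 5 464 465) (mv 625 (both (five 4 496 593) (five 4 528 657))))))))))))))) (both (mv 496 (both (mv 592 (both (mv 623 (both (five 6 495 591) (mv 624 (both (five 6 527 655) (mv 625 (both (five 4 496 593) (five 4 528 657))))))) (both (mv 465 (both (five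 5 464 497) (mv 464 (both (five 5 432 433) (mv 593 (both (five 4 464 561) (five 4 496 625))))))) (mv 465 (both (five 5 464 497) (mv 464 (both (five 5 432 433) (mv 591 (both (five 6 463 559) (five 6 495 623)))))))))) (both (mv 592 (both (mv 623 (both (five 6 495 591) (mv 624 (both (five 6 527 655) (mv 625 (both (five 4 496 593) (five 4 528 657))))))) (both (mv 463 (both (five 7 463 495) (mv 497 (both (five 5 464 465) (mv 623 (both (five 6 495 591) (mv 624 (both (five 5 496 529) (five 6 527 655))))))))) (both (mv 463 (both (five 7 463 495) (mv 497 (both (five 5 464 465) (mv 624 (both (five 5 496 529) (mv 625 (both (five 4 496 593) (five 4 528 657))))))))) (mv 495 (both (five 7 463 463) (mv 494 (both (mv 529 (both (five 0 493 493) (mv 530 (both (five 0 494 497) (five 3 495 531))))) (both (mv 493 (both (five 0 493 529) (mv 460 (both (five 3 460 461) (mv 492 (both (five 3 459 459) (mv 524 (both (five 2 491 523) (five 2 492 525))))))))) (both (mv 497 (both (five 5 464 465) (mv 461 (both (five 3 461 462) (mv 493 (both (five 3 460 460) (mv 525 (both (five 2 492 524) (five 2 493 526))))))))) (mv 497 (both (five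 5 464 465) (mv 462 (both (five 3 461 461) (mv 526 (both (five 2 493 525) (mv 529 (both (five 0 494 530) (mv 591 (both (five 6 495 623) (mv 558 (both (five 4 462 559) (mv 557 (both (five 6 461 589) (mv 593 (both (five 3 557 590) (five 4 496 625))))))))))))))))))))))))))) (both (mv 464 (both (mv 433 (both (five 5 432 465) (mv 432 (both (five 5 400 401) (mv 561 (both (five 4 432 529) (five 4 464 593))))))) (both (mv 431 (both (five 7 431 463) (mv 432 (both (five 7 399 399) (mv 561 (both (five 4 432 529) (five 4 464 593))))))) (mv 463 (both (five 7 431 431) (mv 462 (both (mv 461 (both (five 0 461 497) (mv 428 (both (five 3 428 429) (mv 460 (both (five 3 427 427) (five 0 460 495))))))) (both (mv 465 (both (five 5 432 433) (mv 494 (both (five 2 461 493) (mv 466 (both (five 2 462 495) (mv 435 (both (five 1 431 434) (mv 467 (both (five 1 432 436) (mv 499 (both (five 0 463 498) (five 0 464 500))))))))))))) (mv 433 (both (five 5 432 465) (mv 461 (both (five 0 461 497) (mv 428 (both (five 3 428 429) (mv 460 (both (five 3 427 427) (mv 492 (both (five 2 459 491) (five 2 460 493))))))))))))))))))) (both (mv 592 (both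 (mv 623 (both (five 6 495 591) (mv 624 (both (five 6 527 655) (mv 625 (both (five 4 496 593) (five 4 528 657))))))) (both (mv 463 (both (five 7 463 495) (mv 464 (both (five 7 431 431) (mv 593 (both (five 4 464 561) (five 4 496 625))))))) (mv 463 (both (five 7 463 495) (mv 464 (both (five 7 431 431) (mv 591 (both (five 6 463 559) (five 6 495 623)))))))))) (mv 464 (both (mv 431 (both (five 7 431 463) (mv 432 (both (five 7 399 399) (mv 433 (both (five 5 400 401) (five 5 432 465))))))) (both (mv 431 (both (five 7 431 463) (mv 432 (both (five 7 399 399) (mv 401 (both (five 5 400 433) (mv 400 (both (five 5 368 369) (mv 529 (both (five 4 400 497) (five 4 432 561))))))))))) (both (mv 433 (both (five 5 432 465) (mv 432 (both (five 5 400 401) (mv 399 (both (five 7 399 431) (mv 400 (both (five 7 367 367) (mv 529 (both (five 4 400 497) (five 4 432 561))))))))))) (both (mv 431 (both (five 7 431 463) (mv 432 (both (five 7 399 399) (mv 529 (both (five 4 432 561) (mv 497 (both (five 4 400 400) (mv 592 (both (five 5 464 465) (five 5 496 624))))))))))) (both (mv 433 (both (five 5 432 465) (mv 432 (both (five 5 400 401)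 (mv 529 (both (five 4 432 561) (mv 497 (both (five 4 400 400) (mv 559 (both (five 6 463 591) (mv 530 (both (five 2 527 531) (mv 495 (both (five 0 494 494) (mv 592 (both (five 7 463 463) (five 5 496 624))))))))))))))))) (mv 463 (both (five 7 431 431) (mv 462 (both (mv 461 (both (five 0 461 497) (mv 428 (both (five 3 428 429) (mv 460 (both (five 3 427 427) (five 0 460 495))))))) (both (mv 465 (both (five 5 432 433) (mv 494 (both (five 2 461 493) (mv 466 (both (five 2 462 495) (mv 435 (both (five 1 431 434) (mv 467 (both (five 1 432 436) (mv 499 (both (five 0 463 498) (five 0 464 500))))))))))))) (mv 433 (both (five 5 432 465) (mv 461 (both (five 0 461 497) (mv 428 (both (five 3 428 429) (mv 460 (both (five 3 427 427) (mv 492 (both (five 2 459 491) (five 2 460 493))))))))))))))))))))))))))) (both (mv 592 (both (mv 624 (both (mv 655 (both (five 6 527 623) (mv 656 (both (five 6 559 687) (mv 657 (both (five 4 528 625) (five 4 560 689))))))) (both (mv 495 (both (five 7 495 527) (mv 496 (both (five 7 463 463) (mv 623 (both (five 6 495 591) (five 6 527 655))))))) (mv 495 (both (five 7 495 527) (mv 496 (both (five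 7 463 463) (mv 625 (both (five 4 496 593) (five 4 528 657)))))))))) (both (mv 624 (both (mv 527 (both (five 7 495 495) (mv 655 (both (five 6 527 623) (mv 656 (both (five 7 527 559) (five 6 559 687))))))) (both (mv 655 (both (five 6 527 623) (mv 656 (both (five 6 559 687) (mv 657 (both (five 4 528 625) (five 4 560 689))))))) (both (mv 527 (both (five 7 495 495) (mv 656 (both (five 7 527 559) (mv 657 (both (five 4 528 625) (five 4 560 689))))))) (mv 623 (both (five 6 527 655) (mv 622 (both (mv 495 (both (five 7 495 527) (mv 497 (both (five 5 496 529) (mv 625 (both (five 4 528 657) (mv 589 (both (five 3 589 590) (mv 621 (both (five 3 588 588) (mv 653 (both (five 2 620 652) (five 2 621 654))))))))))))) (both (mv 495 (both (five 7 495 527) (mv 497 (both (five 5 496 529) (mv 625 (both (five 4 528 657) (mv 589 (both (five 3 589 590) (mv 594 (both (five 1 590 593) (mv 626 (both (five 1 591 595) (mv 627 (both (five 3 591 591) (mv 659 (both (five 0 623 658) (five 0 624 660))))))))))))))))) (mv 593 (both (five 1 589 621) (mv 594 (both (five 2 590 591) (five 2 591 595)))))))))))))) (both (mv 496 (both (mv 465 (both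 (five 5 464 497) (mv 464 (both (five 5 432 433) (mv 591 (both (five 6 463 559) (five 6 495 623))))))) (both (mv 463 (both (five 7 463 495) (mv 464 (both (five 7 431 431) (mv 591 (both (five 6 463 559) (five 6 495 623))))))) (mv 495 (both (five 7 463 463) (mv 494 (both (mv 529 (both (five 0 493 493) (mv 530 (both (five 0 494 497) (five 3 495 531))))) (both (mv 493 (both (five 0 493 529) (mv 460 (both (five 3 460 461) (mv 492 (both (five 3 459 459) (five 0 492 527))))))) (both (mv 497 (both (mv 461 (both (five 3 461 462) (mv 460 (both (five 3 460 493) (mv 466 (both (five 1 462 465) (mv 498 (both (five 1 463 467) (mv 499 (both (five 2 495 527) (mv 531 (both (five 0 495 530) (five 0 496 532))))))))))))) (both (mv 466 (both (five 1 462 465) (mv 498 (both (five 1 463 467) (mv 526 (both (five 2 493 525) (five 2 494 527))))))) (mv 461 (both (five 3 461 462) (mv 493 (both (five 3 460 460) (mv 525 (both (five 2 492 524) (five 2 493 526)))))))))) (mv 497 (both (mv 465 (both (five 1 462 466) (mv 433 (both (five 6 400 401) (five 6 432 529))))) (both (mv 466 (both (five 1 462 465) (mv 498 (both (five 1 463 467) (mv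 526 (both (five 2 493 525) (five 2 494 527))))))) (mv 526 (both (five 2 493 525) (mv 498 (both (five 2 494 527) (mv 530 (both (five 0 494 529) (five 0 495 531))))))))))))))))))) (both (mv 624 (both (mv 655 (both (five 6 527 623) (mv 656 (both (five 6 559 687) (mv 657 (both (five 4 528 625) (five 4 560 689))))))) (both (mv 497 (both (five 5 496 529) (mv 496 (both (five 5 464 465) (mv 625 (both (five 4 496 593) (five 4 528 657))))))) (mv 497 (both (five 5 496 529) (mv 496 (both (five 5 464 465) (mv 623 (both (five 6 495 591) (five 6 527 655)))))))))) (mv 496 (both (mv 495 (both (five 7 463 463) (mv 624 (both (five 7 495 527) (mv 625 (both (five 4 496 593) (five 4 528 657))))))) (both (mv 497 (both (five 5 464 465) (mv 624 (both (five 5 496 529) (mv 625 (both (five 4 496 593) (five 4 528 657))))))) (mv 463 (both (five 7 463 495) (mv 464 (both (five 7 431 431) (mv 465 (both (five 5 432 433) (five 5 464 497))))))))))))))) (both (mv 592 (both (mv 624 (both (mv 655 (both (five 6 527 623) (mv 656 (both (five 6 559 687) (mv 657 (both (five 4 528 625) (five 4 560 689))))))) (both (mv 495 (both (five 7 495 527)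 (mv 496 (both (five 7 463 463) (mv 623 (both (five 6 495 591) (five 6 527 655))))))) (mv 495 (both (five 7 495 527) (mv 496 (both (five 7 463 463) (mv 625 (both (five 4 496 593) (five 4 528 657)))))))))) (both (mv 496 (both (mv 495 (both (five 7 463 463) (mv 494 (both (mv 529 (both (five 0 493 493) (mv 530 (both (five 0 494 497) (five 3 495 531))))) (both (mv 493 (both (five 0 493 529) (mv 460 (both (five 3 460 461) (mv 492 (both (five 3 459 459) (five 0 492 527))))))) (both (mv 497 (both (mv 461 (both (five 3 461 462) (mv 460 (both (five 3 460 493) (mv 466 (both (five 1 462 465) (mv 498 (both (five 1 463 467) (mv 499 (both (five 2 495 527) (mv 531 (both (five 0 495 530) (five 0 496 532))))))))))))) (both (mv 466 (both (five 1 462 465) (mv 498 (both (five 1 463 467) (mv 526 (both (five 2 493 525) (five 2 494 527))))))) (mv 461 (both (five 3 461 462) (mv 493 (both (five 3 460 460) (mv 525 (both (five 2 492 524) (five 2 493 526)))))))))) (mv 497 (both (mv 465 (both (five 1 462 466) (mv 433 (both (five 6 400 401) (five 6 432 529))))) (both (mv 466 (both (five 1 462 465) (mv 498 (both (five 1 463 467) (mv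 526 (both (five 2 493 525) (five 2 494 527))))))) (mv 526 (both (five 2 493 525) (mv 498 (both (five 2 494 527) (mv 530 (both (five 0 494 529) (five 0 495 531)))))))))))))))) (both (mv 591 (both (five 6 495 623) (mv 590 (both (mv 589 (both (five 1 557 561) (mv 556 (both (five 3 556 557) (mv 588 (both (five 3 555 555) (five 1 556 559))))))) (both (mv 593 (both (five 4 496 625) (mv 558 (both (five 3 557 557) (mv 559 (both (five 3 558 594) (mv 622 (both (five 2 589 621) (mv 654 (both (five 5 526 527) (five 5 558 686))))))))))) (mv 589 (both (five 1 557 561) (mv 593 (both (five 4 496 625) (mv 621 (both (five 2 588 620) (five 2 589 622)))))))))))) (mv 495 (both (five 7 463 463) (mv 494 (both (mv 529 (both (five 0 493 493) (mv 530 (both (five 0 494 497) (five 3 495 531))))) (both (mv 493 (both (five 0 493 529) (mv 460 (both (five 3 460 461) (mv 492 (both (five 3 459 459) (mv 524 (both (five 2 491 523) (five 2 492 525))))))))) (both (mv 497 (both (five 5 464 465) (mv 461 (both (five 3 461 462) (mv 493 (both (five 3 460 460) (mv 525 (both (five 2 492 524) (five 2 493 526))))))))) (mv 497 (both (five 5 464 465)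 (mv 462 (both (five 3 461 461) (mv 526 (both (five 2 493 525) (mv 529 (both (five 0 494 530) (mv 591 (both (five 6 495 623) (mv 558 (both (five 4 462 559) (mv 557 (both (five 6 461 589) (mv 593 (both (five 3 557 590) (five 4 496 625)))))))))))))))))))))))))) (both (mv 624 (both (mv 655 (both (five 6 527 623) (mv 656 (both (five 6 559 687) (mv 657 (both (five 4 528 625) (five 4 560 689))))))) (both (mv 495 (both (five 7 495 527) (mv 529 (both (five 5 496 497) (mv 655 (both (five 6 527 623) (mv 656 (both (five 5 528 561) (five 6 559 687))))))))) (both (mv 495 (both (five 7 495 527) (mv 529 (both (five 5 496 497) (mv 656 (both (five 5 528 561) (mv 657 (both (five 4 528 625) (five 4 560 689))))))))) (mv 527 (both (five 7 495 495) (mv 526 (both (mv 525 (both (five 0 525 561) (mv 492 (both (five 3 492 493) (mv 524 (both (five 3 491 491) (mv 556 (both (five 2 523 555) (five 2 524 557))))))))) (both (mv 529 (both (five 5 496 497) (mv 494 (both (five 3 493 493) (mv 558 (both (five 2 525 557) (mv 623 (both (five 6 527 655) (mv 590 (both (five 4 494 591) (mv 589 (both (five 6 493 621) (mv 625 (both (five 3 589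 622) (five 4 528 657))))))))))))))) (both (mv 525 (both (five 0 525 561) (mv 493 (both (five 3 492 492) (mv 529 (both (five 3 493 494) (five 5 496 497))))))) (mv 525 (both (five 0 525 561) (mv 529 (both (five 5 496 497) (mv 557 (both (five 2 524 556) (five 2 525 558))))))))))))))))) (both (mv 624 (both (mv 655 (both (five 6 527 623) (mv 656 (both (five 6 559 687) (mv 657 (both (five 4 528 625) (five 4 560 689))))))) (both (mv 529 (both (five 5 496 497) (mv 655 (both (five 6 527 623) (mv 656 (both (five 5 528 561) (five 6 559 687))))))) (mv 497 (both (five 5 496 529) (mv 496 (both (five 5 464 465) (mv 625 (both (five 4 496 593) (five 4 528 657)))))))))) (both (mv 624 (both (mv 527 (both (five 7 495 495) (mv 656 (both (five 7 527 559) (mv 657 (both (five 4 528 625) (five 4 560 689))))))) (both (mv 529 (both (five 5 496 497) (mv 656 (both (five 5 528 561) (mv 657 (both (five 4 528 625) (five 4 560 689))))))) (mv 495 (both (five 7 495 527) (mv 496 (both (five 7 463 463) (mv 497 (both (five 5 464 465) (five 5 496 529)))))))))) (mv 624 (both (mv 527 (both (five 7 495 495) (mv 655 (both (five 6 527 623) (mv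 656 (both (five 7 527 559) (five 6 559 687))))))) (both (mv 529 (both (five 5 496 497) (mv 655 (both (five 6 527 623) (mv 656 (both (five 5 528 561) (five 6 559 687))))))) (mv 495 (both (five 7 495 527) (mv 496 (both (five 7 463 463) (mv 497 (both (five 5 464 465) (five 5 496 529)))))))))))))))) (both (mv 496 (both (mv 592 (both (mv 497 (both (five 5 464 465) (mv 623 (both (five 6 495 591) (mv 624 (both (five 5 496 529) (five 6 527 655))))))) (both (mv 497 (both (five 5 464 465) (mv 624 (both (five 5 496 529) (mv 625 (both (five 4 496 593) (five 4 528 657))))))) (mv 591 (both (five 6 495 623) (mv 590 (both (mv 589 (both (five 1 557 561) (mv 556 (both (five 3 556 557) (mv 588 (both (five 3 555 555) (five 1 556 559))))))) (both (mv 593 (both (five 4 496 625) (mv 558 (both (five 3 557 557) (mv 559 (both (five 3 558 594) (mv 622 (both (five 2 589 621) (mv 654 (both (five 5 526 527) (five 5 558 686))))))))))) (mv 589 (both (five 1 557 561) (mv 593 (both (five 4 496 625) (mv 621 (both (five 2 588 620) (five 2 589 622))))))))))))))) (both (mv 464 (both (mv 431 (both (five 7 431 463) (mv 432 (both (five 7 399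 399) (mv 433 (both (five 5 400 401) (five 5 432 465))))))) (both (mv 431 (both (five 7 431 463) (mv 432 (both (five 7 399 399) (mv 561 (both (five 4 432 529) (five 4 464 593))))))) (both (mv 433 (both (five 5 432 465) (mv 432 (both (five 5 400 401) (mv 561 (both (five 4 432 529) (five 4 464 593))))))) (mv 463 (both (five 7 431 431) (mv 462 (both (mv 461 (both (five 0 461 497) (mv 428 (both (five 3 428 429) (mv 460 (both (five 3 427 427) (mv 492 (both (five 2 459 491) (five 2 460 493))))))))) (both (mv 465 (both (five 5 432 433) (mv 429 (both (five 3 429 430) (mv 461 (both (five 3 428 428) (mv 493 (both (five 2 460 492) (five 2 461 494))))))))) (both (mv 465 (both (five 5 432 433) (mv 430 (both (five 3 429 429) (mv 494 (both (five 2 461 493) (mv 497 (both (five 0 462 498) (mv 559 (both (five 6 463 591) (mv 526 (both (five 4 430 527) (mv 525 (both (five 6 429 557) (mv 561 (both (five 3 525 558) (five 4 464 593))))))))))))))))) (both (mv 461 (both (five 0 461 497) (mv 429 (both (five 3 428 428) (mv 465 (both (five 3 429 430) (five 5 432 433))))))) (mv 461 (both (five 0 461 497) (mv 465 (both (five 5 432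 433) (mv 493 (both (five 2 460 492) (five 2 461 494)))))))))))))))))) (both (mv 464 (both (mv 431 (both (five 7 431 463) (mv 432 (both (five 7 399 399) (mv 433 (both (five 5 400 401) (five 5 432 465))))))) (both (mv 431 (both (five 7 431 463) (mv 432 (both (five 7 399 399) (mv 559 (both (five 6 431 527) (five 6 463 591))))))) (both (mv 433 (both (five 5 432 465) (mv 432 (both (five 5 400 401) (mv 559 (both (five 6 431 527) (five 6 463 591))))))) (mv 431 (both (five 7 431 463) (mv 465 (both (five 5 432 433) (mv 591 (both (five 6 463 559) (mv 592 (both (five 5 464 497) (five 6 495 623))))))))))))) (both (mv 464 (both (mv 431 (both (five 7 431 463) (mv 432 (both (five 7 399 399) (mv 561 (both (five 4 432 529) (five 4 464 593))))))) (both (mv 431 (both (five 7 431 463) (mv 432 (both (five 7 399 399) (mv 559 (both (five 6 431 527) (five 6 463 591))))))) (mv 591 (both (five 6 463 559) (mv 592 (both (five 6 495 623) (mv 593 (both (five 4 464 561) (five 4 496 625)))))))))) (mv 464 (both (mv 431 (both (five 7 431 463) (mv 432 (both (five 7 399 399) (mv 433 (both (five 5 400 401) (five 5 432 465))))))) (both (mv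 431 (both (five 7 431 463) (mv 432 (both (five 7 399 399) (mv 561 (both (five 4 432 529) (five 4 464 593))))))) (both (mv 433 (both (five 5 432 465) (mv 432 (both (five 5 400 401) (mv 561 (both (five 4 432 529) (five 4 464 593))))))) (mv 431 (both (five 7 431 463) (mv 465 (both (five 5 432 433) (mv 592 (both (five 5 464 497) (mv 593 (both (five 4 464 561) (five 4 496 625)))))))))))))))))) (both (mv 496 (both (mv 592 (both (mv 623 (both (five 6 495 591) (mv 624 (both (five 6 527 655) (mv 625 (both (five 4 496 593) (five 4 528 657))))))) (both (mv 495 (both (five 7 463 463) (mv 624 (both (five 7 495 527) (mv 625 (both (five 4 496 593) (five 4 528 657))))))) (both (mv 495 (both (five 7 463 463) (mv 623 (both (five 6 495 591) (mv 624 (both (five 7 495 527) (five 6 527 655))))))) (mv 591 (both (five 6 495 623) (mv 590 (both (mv 589 (both (five 1 557 561) (mv 556 (both (five 3 556 557) (mv 588 (both (five 3 555 555) (five 1 556 559))))))) (both (mv 593 (both (five 4 496 625) (mv 558 (both (five 3 557 557) (mv 559 (both (five 3 558 594) (mv 622 (both (five 2 589 621) (mv 654 (both (five 5 526 527) (five 5 558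 686))))))))))) (mv 589 (both (five 1 557 561) (mv 593 (both (five 4 496 625) (mv 621 (both (five 2 588 620) (five 2 589 622)))))))))))))))) (both (mv 464 (both (mv 431 (both (five 7 431 463) (mv 432 (both (five 7 399 399) (mv 561 (both (five 4 432 529) (five 4 464 593))))))) (both (mv 559 (both (five 6 463 591) (mv 432 (both (five 6 431 527) (mv 561 (both (five 4 432 529) (five 4 464 593))))))) (both (mv 431 (both (five 7 431 463) (mv 432 (both (five 7 399 399) (mv 559 (both (five 6 431 527) (five 6 463 591))))))) (mv 559 (both (five 6 463 591) (mv 558 (both (mv 561 (both (five 4 464 593) (mv 525 (both (five 3 525 526) (mv 557 (both (five 3 524 524) (mv 589 (both (five 2 556 588) (five 2 557 590))))))))) (both (mv 529 (both (five 1 525 557) (mv 530 (both (five 2 526 527) (five 2 527 531))))) (mv 463 (both (five 7 431 431) (mv 561 (both (five 4 464 593) (mv 526 (both (five 3 525 525) (mv 529 (both (five 1 526 530) (mv 590 (both (five 2 557 589) (mv 495 (both (five 5 462 494) (five 6 462 527)))))))))))))))))))))) (both (mv 464 (both (mv 431 (both (five 7 431 463) (mv 432 (both (five 7 399 399) (mv 433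 (both (five 5 400 401) (five 5 432 465))))))) (both (mv 433 (both (five 5 432 465) (mv 432 (both (five 5 400 401) (mv 561 (both (five 4 432 529) (five 4 464 593))))))) (both (mv 431 (both (five 7 431 463) (mv 432 (both (five 7 399 399) (mv 561 (both (five 4 432 529) (five 4 464 593))))))) (mv 433 (both (five 5 432 465) (mv 463 (both (five 7 431 431) (mv 592 (both (five 7 463 495) (mv 593 (both (five 4 464 561) (five 4 496 625))))))))))))) (both (mv 464 (both (mv 431 (both (five 7 431 463) (mv 432 (both (five 7 399 399) (mv 433 (both (five 5 400 401) (five 5 432 465))))))) (both (mv 433 (both (five 5 432 465) (mv 432 (both (five 5 400 401) (mv 559 (both (five 6 431 527) (five 6 463 591))))))) (both (mv 431 (both (five 7 431 463) (mv 432 (both (five 7 399 399) (mv 559 (both (five 6 431 527) (five 6 463 591))))))) (mv 433 (both (five 5 432 465) (mv 463 (both (five 7 431 431) (mv 591 (both (five 6 463 559) (mv 592 (both (five 7 463 495) (five 6 495 623))))))))))))) (mv 464 (both (mv 433 (both (five 5 432 465) (mv 432 (both (five 5 400 401) (mv 561 (both (five 4 432 529) (five 4 464 593))))))) (both (mv 433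 (both (five 5 432 465) (mv 432 (both (five 5 400 401) (mv 559 (both (five 6 431 527) (five 6 463 591))))))) (mv 591 (both (five 6 463 559) (mv 592 (both (five 6 495 623) (mv 593 (both (five 4 464 561) (five 4 496 625))))))))))))))) (both (mv 592 (both (mv 624 (both (mv 527 (both (five 7 495 495) (mv 656 (both (five 7 527 559) (mv 657 (both (five 4 528 625) (five 4 560 689))))))) (both (mv 529 (both (five 5 496 497) (mv 656 (both (five 5 528 561) (mv 657 (both (five 4 528 625) (five 4 560 689))))))) (mv 495 (both (five 7 495 527) (mv 496 (both (five 7 463 463) (mv 497 (both (five 5 464 465) (five 5 496 529)))))))))) (both (mv 496 (both (mv 465 (both (five 5 464 497) (mv 464 (both (five 5 432 433) (mv 591 (both (five 6 463 559) (five 6 495 623))))))) (both (mv 463 (both (five 7 463 495) (mv 464 (both (five 7 431 431) (mv 591 (both (five 6 463 559) (five 6 495 623))))))) (mv 495 (both (five 7 463 463) (mv 494 (both (mv 529 (both (five 0 493 493) (mv 530 (both (five 0 494 497) (five 3 495 531))))) (both (mv 493 (both (five 0 493 529) (mv 460 (both (five 3 460 461) (mv 492 (both (five 3 459 459) (five 0 492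 527))))))) (both (mv 497 (both (mv 461 (both (five 3 461 462) (mv 460 (both (five 3 460 493) (mv 466 (both (five 1 462 465) (mv 498 (both (five 1 463 467) (mv 499 (both (five 2 495 527) (mv 531 (both (five 0 495 530) (five 0 496 532))))))))))))) (both (mv 466 (both (five 1 462 465) (mv 498 (both (five 1 463 467) (mv 526 (both (five 2 493 525) (five 2 494 527))))))) (mv 461 (both (five 3 461 462) (mv 493 (both (five 3 460 460) (mv 525 (both (five 2 492 524) (five 2 493 526)))))))))) (mv 497 (both (mv 465 (both (five 1 462 466) (mv 433 (both (five 6 400 401) (five 6 432 529))))) (both (mv 466 (both (five 1 462 465) (mv 498 (both (five 1 463 467) (mv 526 (both (five 2 493 525) (five 2 494 527))))))) (mv 526 (both (five 2 493 525) (mv 498 (both (five 2 494 527) (mv 530 (both (five 0 494 529) (five 0 495 531))))))))))))))))))) (both (mv 624 (both (mv 655 (both (five 6 527 623) (mv 656 (both (five 6 559 687) (mv 657 (both (five 4 528 625) (five 4 560 689))))))) (both (mv 495 (both (five 7 495 527) (mv 529 (both (five 5 496 497) (mv 655 (both (five 6 527 623) (mv 656 (both (five 5 528 561) (five 6 559 687)))))))))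 (both (mv 495 (both (five 7 495 527) (mv 529 (both (five 5 496 497) (mv 656 (both (five 5 528 561) (mv 657 (both (five 4 528 625) (five 4 560 689))))))))) (mv 527 (both (five 7 495 495) (mv 526 (both (mv 525 (both (five 0 525 561) (mv 492 (both (five 3 492 493) (mv 524 (both (five 3 491 491) (mv 556 (both (five 2 523 555) (five 2 524 557))))))))) (both (mv 529 (both (five 5 496 497) (mv 494 (both (five 3 493 493) (mv 558 (both (five 2 525 557) (mv 623 (both (five 6 527 655) (mv 590 (both (five 4 494 591) (mv 589 (both (five 6 493 621) (mv 625 (both (five 3 589 622) (five 4 528 657))))))))))))))) (both (mv 525 (both (five 0 525 561) (mv 493 (both (five 3 492 492) (mv 529 (both (five 3 493 494) (five 5 496 497))))))) (mv 525 (both (five 0 525 561) (mv 529 (both (five 5 496 497) (mv 557 (both (five 2 524 556) (five 2 525 558))))))))))))))))) (both (mv 624 (both (mv 655 (both (five 6 527 623) (mv 656 (both (five 6 559 687) (mv 657 (both (five 4 528 625) (five 4 560 689))))))) (both (mv 529 (both (five 5 496 497) (mv 656 (both (five 5 528 561) (mv 657 (both (five 4 528 625) (five 4 560 689))))))) (mv 497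 (both (five 5 496 529) (mv 496 (both (five 5 464 465) (mv 623 (both (five 6 495 591) (five 6 527 655)))))))))) (mv 624 (both (mv 655 (both (five 6 527 623) (mv 656 (both (five 6 559 687) (mv 657 (both (five 4 528 625) (five 4 560 689))))))) (both (mv 527 (both (five 7 495 495) (mv 656 (both (five 7 527 559) (mv 657 (both (five 4 528 625) (five 4 560 689))))))) (mv 495 (both (five 7 495 527) (mv 496 (both (five 7 463 463) (mv 623 (both (five 6 495 591) (five 6 527 655))))))))))))))) (both (mv 592 (both (mv 624 (both (mv 655 (both (five 6 527 623) (mv 656 (both (five 6 559 687) (mv 657 (both (five 4 528 625) (five 4 560 689))))))) (both (mv 529 (both (five 5 496 497) (mv 655 (both (five 6 527 623) (mv 656 (both (five 5 528 561) (five 6 559 687))))))) (mv 497 (both (five 5 496 529) (mv 496 (both (five 5 464 465) (mv 625 (both (five 4 496 593) (five 4 528 657)))))))))) (both (mv 496 (both (mv 465 (both (five 5 464 497) (mv 464 (both (five 5 432 433) (mv 593 (both (five 4 464 561) (five 4 496 625))))))) (both (mv 463 (both (five 7 463 495) (mv 464 (both (five 7 431 431) (mv 593 (both (five 4 464 561) (five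 4 496 625))))))) (mv 495 (both (five 7 463 463) (mv 494 (both (mv 529 (both (five 0 493 493) (mv 530 (both (five 0 494 497) (five 3 495 531))))) (both (mv 493 (both (five 0 493 529) (mv 460 (both (five 3 460 461) (mv 492 (both (five 3 459 459) (five 0 492 527))))))) (both (mv 497 (both (mv 461 (both (five 3 461 462) (mv 460 (both (five 3 460 493) (mv 466 (both (five 1 462 465) (mv 498 (both (five 1 463 467) (mv 499 (both (five 2 495 527) (mv 531 (both (five 0 495 530) (five 0 496 532))))))))))))) (both (mv 466 (both (five 1 462 465) (mv 498 (both (five 1 463 467) (mv 526 (both (five 2 493 525) (five 2 494 527))))))) (mv 461 (both (five 3 461 462) (mv 493 (both (five 3 460 460) (mv 525 (both (five 2 492 524) (five 2 493 526)))))))))) (mv 497 (both (mv 465 (both (five 1 462 466) (mv 433 (both (five 6 400 401) (five 6 432 529))))) (both (mv 466 (both (five 1 462 465) (mv 498 (both (five 1 463 467) (mv 526 (both (five 2 493 525) (five 2 494 527))))))) (mv 526 (both (five 2 493 525) (mv 498 (both (five 2 494 527) (mv 530 (both (five 0 494 529) (five 0 495 531))))))))))))))))))) (both (mv 624 (both (mv 527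 (both (five 7 495 495) (mv 655 (both (five 6 527 623) (mv 656 (both (five 7 527 559) (five 6 559 687))))))) (both (mv 655 (both (five 6 527 623) (mv 656 (both (five 6 559 687) (mv 657 (both (five 4 528 625) (five 4 560 689))))))) (both (mv 527 (both (five 7 495 495) (mv 656 (both (five 7 527 559) (mv 657 (both (five 4 528 625) (five 4 560 689))))))) (mv 527 (both (five 7 495 495) (mv 526 (both (mv 525 (both (five 0 525 561) (mv 524 (both (five 0 524 559) (mv 556 (both (five 2 523 555) (five 2 524 557))))))) (both (mv 529 (both (five 5 496 497) (mv 493 (both (five 3 493 494) (mv 558 (both (five 2 525 557) (mv 530 (both (five 2 526 559) (mv 498 (both (five 1 495 499) (mv 623 (both (five 6 527 655) (mv 625 (both (five 4 528 657) (mv 593 (both (five 5 497 561) (mv 594 (both (five 2 591 595) (five 1 590 622))))))))))))))))))) (both (mv 525 (both (mv 524 (both (five 0 524 559) (mv 556 (both (five 2 523 555) (five 2 524 557))))) (both (mv 493 (both (five 3 492 492) (mv 494 (both (five 3 493 529) (mv 557 (both (five 2 524 556) (mv 462 (both (five 6 429 430) (five 5 461 589))))))))) (mv 492 (both (five 3 492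 493) (mv 524 (both (five 3 491 491) (five 0 524 559)))))))) (mv 525 (both (five 0 525 561) (mv 493 (both (five 3 492 492) (mv 529 (both (five 3 493 494) (five 5 496 497))))))))))))))))) (both (mv 624 (both (mv 527 (both (five 7 495 495) (mv 655 (both (five 6 527 623) (mv 656 (both (five 7 527 559) (five 6 559 687))))))) (both (mv 655 (both (five 6 527 623) (mv 656 (both (five 6 559 687) (mv 657 (both (five 4 528 625) (five 4 560 689))))))) (mv 495 (both (five 7 495 527) (mv 496 (both (five 7 463 463) (mv 625 (both (five 4 496 593) (five 4 528 657)))))))))) (mv 624 (both (mv 527 (both (five 7 495 495) (mv 655 (both (five 6 527 623) (mv 656 (both (five 7 527 559) (five 6 559 687))))))) (both (mv 529 (both (five 5 496 497) (mv 655 (both (five 6 527 623) (mv 656 (both (five 5 528 561) (five 6 559 687))))))) (mv 495 (both (five 7 495 527) (mv 496 (both (five 7 463 463) (mv 497 (both (five 5 464 465) (five 5 496 529))))))))))))))) (both (mv 592 (both (mv 624 (both (mv 655 (both (five 6 527 623) (mv 656 (both (five 6 559 687) (mv 657 (both (five 4 528 625) (five 4 560 689))))))) (both (mv 529 (both (five 5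 496 497) (mv 655 (both (five 6 527 623) (mv 656 (both (five 5 528 561) (five 6 559 687))))))) (mv 497 (both (five 5 496 529) (mv 496 (both (five 5 464 465) (mv 625 (both (five 4 496 593) (five 4 528 657)))))))))) (both (mv 496 (both (mv 465 (both (five 5 464 497) (mv 464 (both (five 5 432 433) (mv 593 (both (five 4 464 561) (five 4 496 625))))))) (both (mv 465 (both (five 5 464 497) (mv 464 (both (five 5 432 433) (mv 591 (both (five 6 463 559) (five 6 495 623))))))) (mv 591 (both (five 6 495 623) (mv 590 (both (mv 589 (both (five 1 557 561) (mv 556 (both (five 3 556 557) (mv 588 (both (five 3 555 555) (five 1 556 559))))))) (both (mv 593 (both (five 4 496 625) (mv 558 (both (five 3 557 557) (mv 559 (both (five 3 558 594) (mv 622 (both (five 2 589 621) (mv 654 (both (five 5 526 527) (five 5 558 686))))))))))) (mv 589 (both (five 1 557 561) (mv 593 (both (five 4 496 625) (mv 621 (both (five 2 588 620) (five 2 589 622))))))))))))))) (both (mv 624 (both (mv 655 (both (five 6 527 623) (mv 656 (both (five 6 559 687) (mv 657 (both (five 4 528 625) (five 4 560 689))))))) (both (mv 495 (both (five 7 495 527)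 (mv 529 (both (five 5 496 497) (mv 655 (both (five 6 527 623) (mv 656 (both (five 5 528 561) (five 6 559 687))))))))) (both (mv 495 (both (five 7 495 527) (mv 529 (both (five 5 496 497) (mv 656 (both (five 5 528 561) (mv 657 (both (five 4 528 625) (five 4 560 689))))))))) (mv 527 (both (five 7 495 495) (mv 526 (both (mv 525 (both (five 0 525 561) (mv 492 (both (five 3 492 493) (mv 524 (both (five 3 491 491) (mv 556 (both (five 2 523 555) (five 2 524 557))))))))) (both (mv 529 (both (five 5 496 497) (mv 494 (both (five 3 493 493) (mv 558 (both (five 2 525 557) (mv 623 (both (five 6 527 655) (mv 590 (both (five 4 494 591) (mv 589 (both (five 6 493 621) (mv 625 (both (five 3 589 622) (five 4 528 657))))))))))))))) (both (mv 525 (both (five 0 525 561) (mv 493 (both (five 3 492 492) (mv 529 (both (five 3 493 494) (five 5 496 497))))))) (mv 525 (both (five 0 525 561) (mv 529 (both (five 5 496 497) (mv 557 (both (five 2 524 556) (five 2 525 558))))))))))))))))) (both (mv 624 (both (mv 527 (both (five 7 495 495) (mv 655 (both (five 6 527 623) (mv 656 (both (five 7 527 559) (five 6 559 687))))))) (both (mv 527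 (both (five 7 495 495) (mv 656 (both (five 7 527 559) (mv 657 (both (five 4 528 625) (five 4 560 689))))))) (both (mv 655 (both (five 6 527 623) (mv 656 (both (five 6 559 687) (mv 657 (both (five 4 528 625) (five 4 560 689))))))) (mv 495 (both (five 7 495 527) (mv 623 (both (five 6 527 655) (mv 496 (both (five 6 495 591) (mv 625 (both (five 4 496 593) (five 4 528 657))))))))))))) (both (mv 624 (both (mv 527 (both (five 7 495 495) (mv 656 (both (five 7 527 559) (mv 657 (both (five 4 528 625) (five 4 560 689))))))) (both (mv 529 (both (five 5 496 497) (mv 656 (both (five 5 528 561) (mv 687 (both (five 6 559 655) (mv 688 (both (five 6 591 719) (mv 689 (both (five 4 560 657) (five 4 592 721))))))))))) (both (mv 497 (both (five 5 496 529) (mv 465 (both (five 5 464 496) (mv 527 (both (five 7 495 495) (mv 656 (both (five 7 527 559) (mv 687 (both (five 6 559 655) (mv 688 (both (five 6 591 719) (mv 593 (both (five 5 560 561) (mv 720 (both (five 5 592 625) (mv 721 (both (five 4 592 689) (five 4 624 753))))))))))))))))))) (mv 497 (both (five 5 496 529) (mv 496 (both (five 5 464 465) (mv 625 (both (five 4 496 593)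 (five 4 528 657))))))))))) (mv 624 (both (mv 527 (both (five 7 495 495) (mv 655 (both (five 6 527 623) (mv 656 (both (five 7 527 559) (five 6 559 687))))))) (both (mv 529 (both (five 5 496 497) (mv 656 (both (five 5 528 561) (mv 687 (both (five 6 559 655) (mv 688 (both (five 6 591 719) (mv 689 (both (five 4 560 657) (five 4 592 721))))))))))) (both (mv 495 (both (five 7 495 527) (mv 529 (both (five 5 496 497) (mv 656 (both (five 5 528 561) (mv 689 (both (five 4 560 657) (mv 688 (both (five 4 592 721) (mv 591 (both (five 7 559 559) (mv 623 (both (five 6 495 496) (five 7 591 720))))))))))))))) (mv 497 (both (five 5 496 529) (mv 496 (both (five 5 464 465) (mv 623 (both (five 6 495 591) (five 6 527 655))))))))))))))))) (both (mv 592 (both (mv 496 (both (mv 463 (both (five 7 463 495) (mv 464 (both (five 7 431 431) (mv 593 (both (five 4 464 561) (five 4 496 625))))))) (both (mv 463 (both (five 7 463 495) (mv 464 (both (five 7 431 431) (mv 591 (both (five 6 463 559) (five 6 495 623))))))) (mv 591 (both (five 6 495 623) (mv 590 (both (mv 589 (both (five 1 557 561) (mv 556 (both (five 3 556 557) (mv 588 (both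 (five 3 555 555) (five 1 556 559))))))) (both (mv 593 (both (five 4 496 625) (mv 558 (both (five 3 557 557) (mv 559 (both (five 3 558 594) (mv 622 (both (five 2 589 621) (mv 654 (both (five 5 526 527) (five 5 558 686))))))))))) (mv 589 (both (five 1 557 561) (mv 593 (both (five 4 496 625) (mv 621 (both (five 2 588 620) (five 2 589 622))))))))))))))) (both (mv 624 (both (mv 655 (both (five 6 527 623) (mv 656 (both (five 6 559 687) (mv 657 (both (five 4 528 625) (five 4 560 689))))))) (both (mv 495 (both (five 7 495 527) (mv 529 (both (five 5 496 497) (mv 655 (both (five 6 527 623) (mv 656 (both (five 5 528 561) (five 6 559 687))))))))) (both (mv 495 (both (five 7 495 527) (mv 529 (both (five 5 496 497) (mv 656 (both (five 5 528 561) (mv 657 (both (five 4 528 625) (five 4 560 689))))))))) (mv 527 (both (five 7 495 495) (mv 526 (both (mv 525 (both (five 0 525 561) (mv 492 (both (five 3 492 493) (mv 524 (both (five 3 491 491) (mv 556 (both (five 2 523 555) (five 2 524 557))))))))) (both (mv 529 (both (five 5 496 497) (mv 494 (both (five 3 493 493) (mv 558 (both (five 2 525 557) (mv 623 (both (five 6 527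 655) (mv 590 (both (five 4 494 591) (mv 589 (both (five 6 493 621) (mv 625 (both (five 3 589 622) (five 4 528 657))))))))))))))) (both (mv 525 (both (five 0 525 561) (mv 493 (both (five 3 492 492) (mv 529 (both (five 3 493 494) (five 5 496 497))))))) (mv 525 (both (five 0 525 561) (mv 529 (both (five 5 496 497) (mv 557 (both (five 2 524 556) (five 2 525 558))))))))))))))))) (both (mv 624 (both (mv 529 (both (five 5 496 497) (mv 656 (both (five 5 528 561) (mv 657 (both (five 4 528 625) (five 4 560 689))))))) (both (mv 529 (both (five 5 496 497) (mv 655 (both (five 6 527 623) (mv 656 (both (five 5 528 561) (five 6 559 687))))))) (mv 623 (both (five 6 527 655) (mv 496 (both (five 6 495 591) (mv 625 (both (five 4 496 593) (five 4 528 657)))))))))) (both (mv 624 (both (mv 527 (both (five 7 495 495) (mv 655 (both (five 6 527 623) (mv 656 (both (five 7 527 559) (five 6 559 687))))))) (both (mv 655 (both (five 6 527 623) (mv 656 (both (five 6 559 687) (mv 657 (both (five 4 528 625) (five 4 560 689))))))) (mv 495 (both (five 7 495 527) (mv 496 (both (five 7 463 463) (mv 625 (both (five 4 496 593) (five 4 528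 657)))))))))) (both (mv 624 (both (mv 529 (both (five 5 496 497) (mv 656 (both (five 5 528 561) (mv 687 (both (five 6 559 655) (mv 688 (both (five 6 591 719) (mv 689 (both (five 4 560 657) (five 4 592 721))))))))))) (both (mv 527 (both (five 7 495 495) (mv 656 (both (five 7 527 559) (mv 687 (both (five 6 559 655) (mv 688 (both (five 6 591 719) (mv 593 (both (five 5 560 561) (mv 720 (both (five 5 592 625) (mv 721 (both (five 4 592 689) (five 4 624 753))))))))))))))) (mv 495 (both (five 7 495 527) (mv 496 (both (five 7 463 463) (mv 625 (both (five 4 496 593) (five 4 528 657)))))))))) (mv 624 (both (mv 529 (both (five 5 496 497) (mv 656 (both (five 5 528 561) (mv 687 (both (five 6 559 655) (mv 688 (both (five 6 591 719) (mv 689 (both (five 4 560 657) (five 4 592 721))))))))))) (both (mv 529 (both (five 5 496 497) (mv 656 (both (five 5 528 561) (mv 689 (both (five 4 560 657) (mv 688 (both (five 4 592 721) (mv 591 (both (five 7 559 559) (mv 623 (both (five 6 495 496) (five 7 591 720))))))))))))) (mv 495 (both (five 7 495 527) (mv 496 (both (five 7 463 463) (mv 623 (both (five 6 495 591) (five 6 527 655))))))))))))))))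 (both (mv 496 (both (mv 464 (both (mv 431 (both (five 7 431 463) (mv 432 (both (five 7 399 399) (mv 433 (both (five 5 400 401) (five 5 432 465))))))) (both (mv 431 (both (five 7 431 463) (mv 432 (both (five 7 399 399) (mv 561 (both (five 4 432 529) (five 4 464 593))))))) (both (mv 433 (both (five 5 432 465) (mv 432 (both (five 5 400 401) (mv 561 (both (five 4 432 529) (five 4 464 593))))))) (mv 431 (both (five 7 431 463) (mv 465 (both (five 5 432 433) (mv 592 (both (five 5 464 497) (mv 593 (both (five 4 464 561) (five 4 496 625))))))))))))) (both (mv 592 (both (mv 495 (both (five 7 463 463) (mv 624 (both (five 7 495 527) (mv 625 (both (five 4 496 593) (five 4 528 657))))))) (both (mv 497 (both (five 5 464 465) (mv 624 (both (five 5 496 529) (mv 625 (both (five 4 496 593) (five 4 528 657))))))) (mv 495 (both (five 7 463 463) (mv 494 (both (mv 529 (both (five 0 493 493) (mv 530 (both (five 0 494 497) (five 3 495 531))))) (both (mv 493 (both (five 0 493 529) (mv 460 (both (five 3 460 461) (mv 492 (both (five 3 459 459) (five 0 492 527))))))) (both (mv 497 (both (mv 461 (both (five 3 461 462) (mv 460 (both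 (five 3 460 493) (mv 466 (both (five 1 462 465) (mv 498 (both (five 1 463 467) (mv 499 (both (five 2 495 527) (mv 531 (both (five 0 495 530) (five 0 496 532))))))))))))) (both (mv 466 (both (five 1 462 465) (mv 498 (both (five 1 463 467) (mv 526 (both (five 2 493 525) (five 2 494 527))))))) (mv 461 (both (five 3 461 462) (mv 493 (both (five 3 460 460) (mv 525 (both (five 2 492 524) (five 2 493 526)))))))))) (mv 497 (both (mv 465 (both (five 1 462 466) (mv 433 (both (five 6 400 401) (five 6 432 529))))) (both (mv 466 (both (five 1 462 465) (mv 498 (both (five 1 463 467) (mv 526 (both (five 2 493 525) (five 2 494 527))))))) (mv 526 (both (five 2 493 525) (mv 498 (both (five 2 494 527) (mv 530 (both (five 0 494 529) (five 0 495 531))))))))))))))))))) (both (mv 464 (both (mv 431 (both (five 7 431 463) (mv 432 (both (five 7 399 399) (mv 561 (both (five 4 432 529) (five 4 464 593))))))) (both (mv 559 (both (five 6 463 591) (mv 432 (both (five 6 431 527) (mv 561 (both (five 4 432 529) (five 4 464 593))))))) (both (mv 431 (both (five 7 431 463) (mv 432 (both (five 7 399 399) (mv 559 (both (five 6 431 527) (five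 6 463 591))))))) (mv 559 (both (five 6 463 591) (mv 558 (both (mv 561 (both (five 4 464 593) (mv 525 (both (five 3 525 526) (mv 557 (both (five 3 524 524) (mv 589 (both (five 2 556 588) (five 2 557 590))))))))) (both (mv 529 (both (five 1 525 557) (mv 530 (both (five 2 526 527) (five 2 527 531))))) (mv 463 (both (five 7 431 431) (mv 561 (both (five 4 464 593) (mv 526 (both (five 3 525 525) (mv 529 (both (five 1 526 530) (mv 590 (both (five 2 557 589) (mv 495 (both (five 5 462 494) (five 6 462 527)))))))))))))))))))))) (both (mv 464 (both (mv 433 (both (five 5 432 465) (mv 432 (both (five 5 400 401) (mv 559 (both (five 6 431 527) (five 6 463 591))))))) (both (mv 431 (both (five 7 431 463) (mv 432 (both (five 7 399 399) (mv 559 (both (five 6 431 527) (five 6 463 591))))))) (mv 463 (both (five 7 431 431) (mv 462 (both (mv 461 (both (five 0 461 497) (mv 428 (both (five 3 428 429) (mv 460 (both (five 3 427 427) (five 0 460 495))))))) (both (mv 465 (both (five 5 432 433) (mv 494 (both (five 2 461 493) (mv 466 (both (five 2 462 495) (mv 435 (both (five 1 431 434) (mv 467 (both (five 1 432 436) (mv 499 (both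 (five 0 463 498) (five 0 464 500))))))))))))) (mv 433 (both (five 5 432 465) (mv 461 (both (five 0 461 497) (mv 428 (both (five 3 428 429) (mv 460 (both (five 3 427 427) (mv 492 (both (five 2 459 491) (five 2 460 493))))))))))))))))))) (mv 464 (both (mv 559 (both (five 6 463 591) (mv 432 (both (five 6 431 527) (mv 561 (both (five 4 432 529) (five 4 464 593))))))) (both (mv 433 (both (five 5 432 465) (mv 432 (both (five 5 400 401) (mv 559 (both (five 6 431 527) (five 6 463 591))))))) (mv 465 (both (five 5 432 433) (mv 592 (both (five 5 464 497) (mv 593 (both (five 4 464 561) (five 4 496 625))))))))))))))) (both (mv 496 (both (mv 464 (both (mv 431 (both (five 7 431 463) (mv 432 (both (five 7 399 399) (mv 433 (both (five 5 400 401) (five 5 432 465))))))) (both (mv 431 (both (five 7 431 463) (mv 432 (both (five 7 399 399) (mv 559 (both (five 6 431 527) (five 6 463 591))))))) (both (mv 433 (both (five 5 432 465) (mv 432 (both (five 5 400 401) (mv 559 (both (five 6 431 527) (five 6 463 591))))))) (mv 431 (both (five 7 431 463) (mv 465 (both (five 5 432 433) (mv 591 (both (five 6 463 559) (mv 592 (both (five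 5 464 497) (five 6 495 623))))))))))))) (both (mv 592 (both (mv 495 (both (five 7 463 463) (mv 623 (both (five 6 495 591) (mv 624 (both (five 7 495 527) (five 6 527 655))))))) (both (mv 497 (both (five 5 464 465) (mv 623 (both (five 6 495 591) (mv 624 (both (five 5 496 529) (five 6 527 655))))))) (mv 495 (both (five 7 463 463) (mv 494 (both (mv 529 (both (five 0 493 493) (mv 530 (both (five 0 494 497) (five 3 495 531))))) (both (mv 493 (both (five 0 493 529) (mv 460 (both (five 3 460 461) (mv 492 (both (five 3 459 459) (five 0 492 527))))))) (both (mv 497 (both (mv 461 (both (five 3 461 462) (mv 460 (both (five 3 460 493) (mv 466 (both (five 1 462 465) (mv 498 (both (five 1 463 467) (mv 499 (both (five 2 495 527) (mv 531 (both (five 0 495 530) (five 0 496 532))))))))))))) (both (mv 466 (both (five 1 462 465) (mv 498 (both (five 1 463 467) (mv 526 (both (five 2 493 525) (five 2 494 527))))))) (mv 461 (both (five 3 461 462) (mv 493 (both (five 3 460 460) (mv 525 (both (five 2 492 524) (five 2 493 526)))))))))) (mv 497 (both (mv 465 (both (five 1 462 466) (mv 433 (both (five 6 400 401) (five 6 432 529)))))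 (both (mv 466 (both (five 1 462 465) (mv 498 (both (five 1 463 467) (mv 526 (both (five 2 493 525) (five 2 494 527))))))) (mv 526 (both (five 2 493 525) (mv 498 (both (five 2 494 527) (mv 530 (both (five 0 494 529) (five 0 495 531))))))))))))))))))) (both (mv 464 (both (mv 431 (both (five 7 431 463) (mv 432 (both (five 7 399 399) (mv 561 (both (five 4 432 529) (five 4 464 593))))))) (both (mv 559 (both (five 6 463 591) (mv 432 (both (five 6 431 527) (mv 561 (both (five 4 432 529) (five 4 464 593))))))) (both (mv 431 (both (five 7 431 463) (mv 432 (both (five 7 399 399) (mv 559 (both (five 6 431 527) (five 6 463 591))))))) (mv 559 (both (five 6 463 591) (mv 558 (both (mv 561 (both (five 4 464 593) (mv 525 (both (five 3 525 526) (mv 557 (both (five 3 524 524) (mv 589 (both (five 2 556 588) (five 2 557 590))))))))) (both (mv 529 (both (five 1 525 557) (mv 530 (both (five 2 526 527) (five 2 527 531))))) (mv 463 (both (five 7 431 431) (mv 561 (both (five 4 464 593) (mv 526 (both (five 3 525 525) (mv 529 (both (five 1 526 530) (mv 590 (both (five 2 557 589) (mv 495 (both (five 5 462 494) (five 6 462 527))))))))))))))))))))))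 (both (mv 464 (both (mv 433 (both (five 5 432 465) (mv 432 (both (five 5 400 401) (mv 561 (both (five 4 432 529) (five 4 464 593))))))) (both (mv 559 (both (five 6 463 591) (mv 432 (both (five 6 431 527) (mv 561 (both (five 4 432 529) (five 4 464 593))))))) (mv 465 (both (five 5 432 433) (mv 591 (both (five 6 463 559) (mv 592 (both (five 5 464 497) (five 6 495 623)))))))))) (mv 464 (both (mv 433 (both (five 5 432 465) (mv 432 (both (five 5 400 401) (mv 561 (both (five 4 432 529) (five 4 464 593))))))) (both (mv 431 (both (five 7 431 463) (mv 432 (both (five 7 399 399) (mv 561 (both (five 4 432 529) (five 4 464 593))))))) (mv 463 (both (five 7 431 431) (mv 462 (both (mv 461 (both (five 0 461 497) (mv 428 (both (five 3 428 429) (mv 460 (both (five 3 427 427) (five 0 460 495))))))) (both (mv 465 (both (five 5 432 433) (mv 494 (both (five 2 461 493) (mv 466 (both (five 2 462 495) (mv 435 (both (five 1 431 434) (mv 467 (both (five 1 432 436) (mv 499 (both (five 0 463 498) (five 0 464 500))))))))))))) (mv 433 (both (five 5 432 465) (mv 461 (both (five 0 461 497) (mv 428 (both (five 3 428 429) (mv 460 (both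 (five 3 427 427) (mv 492 (both (five 2 459 491) (five 2 460 493)))))))))))))))))))))))) (mv 496 (both (mv 592 (both (mv 623 (both (five 6 495 591) (mv 624 (both (five 6 527 655) (mv 625 (both (five 4 496 593) (five 4 528 657))))))) (both (mv 465 (both (five 5 464 497) (mv 464 (both (five 5 432 433) (mv 593 (both (five 4 464 561) (five 4 496 625))))))) (mv 465 (both (five 5 464 497) (mv 464 (both (five 5 432 433) (mv 591 (both (five 6 463 559) (five 6 495 623)))))))))) (both (mv 592 (both (mv 623 (both (five 6 495 591) (mv 624 (both (five 6 527 655) (mv 625 (both (five 4 496 593) (five 4 528 657))))))) (both (mv 495 (both (five 7 463 463) (mv 624 (both (five 7 495 527) (mv 625 (both (five 4 496 593) (five 4 528 657))))))) (both (mv 495 (both (five 7 463 463) (mv 623 (both (five 6 495 591) (mv 624 (both (five 7 495 527) (five 6 527 655))))))) (mv 591 (both (five 6 495 623) (mv 590 (both (mv 589 (both (five 1 557 561) (mv 556 (both (five 3 556 557) (mv 588 (both (five 3 555 555) (five 1 556 559))))))) (both (mv 593 (both (five 4 496 625) (mv 558 (both (five 3 557 557) (mv 559 (both (five 3 558 594) (mv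 622 (both (five 2 589 621) (mv 654 (both (five 5 526 527) (five 5 558 686))))))))))) (mv 589 (both (five 1 557 561) (mv 593 (both (five 4 496 625) (mv 621 (both (five 2 588 620) (five 2 589 622)))))))))))))))) (both (mv 464 (both (mv 431 (both (five 7 431 463) (mv 432 (both (five 7 399 399) (mv 433 (both (five 5 400 401) (five 5 432 465))))))) (both (mv 433 (both (five 5 432 465) (mv 432 (both (five 5 400 401) (mv 561 (both (five 4 432 529) (five 4 464 593))))))) (both (mv 431 (both (five 7 431 463) (mv 432 (both (five 7 399 399) (mv 561 (both (five 4 432 529) (five 4 464 593))))))) (mv 463 (both (five 7 431 431) (mv 462 (both (mv 465 (both (five 5 432 433) (mv 429 (both (five 3 429 430) (mv 461 (both (five 3 428 428) (mv 460 (both (five 0 460 495) (mv 492 (both (five 2 459 491) (five 2 460 493))))))))))) (both (mv 465 (both (five 5 432 433) (mv 429 (both (five 3 429 430) (mv 498 (both (five 0 462 497) (mv 466 (both (five 0 463 499) (mv 434 (both (five 1 431 435) (mv 495 (both (five 2 463 467) (mv 559 (both (five 6 463 591) (mv 561 (both (five 4 464 593) (mv 529 (both (five 6 433 530) (mv 558 (both (five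 1 525 557) (mv 590 (both (five 6 462 527) (five 2 557 589))))))))))))))))))))))) (both (mv 461 (both (five 0 461 497) (mv 429 (both (five 3 428 428) (mv 465 (both (five 3 429 430) (five 5 432 433))))))) (mv 461 (both (five 0 461 497) (mv 460 (both (five 0 460 495) (mv 492 (both (five 2 459 491) (five 2 460 493))))))))))))))))) (both (mv 464 (both (mv 431 (both (five 7 431 463) (mv 432 (both (five 7 399 399) (mv 433 (both (five 5 400 401) (five 5 432 465))))))) (both (mv 431 (both (five 7 431 463) (mv 432 (both (five 7 399 399) (mv 559 (both (five 6 431 527) (five 6 463 591))))))) (both (mv 433 (both (five 5 432 465) (mv 432 (both (five 5 400 401) (mv 559 (both (five 6 431 527) (five 6 463 591))))))) (mv 431 (both (five 7 431 463) (mv 465 (both (five 5 432 433) (mv 591 (both (five 6 463 559) (mv 592 (both (five 5 464 497) (five 6 495 623))))))))))))) (mv 464 (both (mv 431 (both (five 7 431 463) (mv 432 (both (five 7 399 399) (mv 433 (both (five 5 400 401) (five 5 432 465))))))) (both (mv 431 (both (five 7 431 463) (mv 432 (both (five 7 399 399) (mv 561 (both (five 4 432 529) (five 4 464 593))))))) (both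 (mv 433 (both (five 5 432 465) (mv 432 (both (five 5 400 401) (mv 561 (both (five 4 432 529) (five 4 464 593))))))) (mv 431 (both (five 7 431 463) (mv 465 (both (five 5 432 433) (mv 592 (both (five 5 464 497) (mv 593 (both (five 4 464 561) (five 4 496 625)))))))))))))))))))))))))))))))))

theorem L111 : W (S 878694100496718043517683302282418331810487718418343092402491322775749527474899974671687634004666183037093927858109549828751614463963730408009475621262727315456) (S 47379092191912357113651957976650863295570375494873804878417906062442384840846638029211750329456111313791314031445998584589633387949621639161543405710961742977033328805498126967671340231758814018241636055087694422080804312055808) :=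
  check_sound (Env.cons L109 (Env.cons L110 Env.nil)) (x := 560) (t := tL111) (by decide +kernel)

end P062.Cert
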