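import Vale.Agent.P062.Check

/-! Snaky certificate, part 21 (machine generated, checked by the kernel) -/

set_option maxRecDepth 100000

namespace P062.Cert

open T

def tL112 : T :=
  (both (mv 527 (both (mv 559 (both (mv 464 (both (five 6 431 432) (five 5 463 591))) (mv 463 (both (mv 430 (both (five 7 430 462) (mv 431 (both (five 7 398 398) (five 4 399 399))))) (mv 558 (both (five 6 462 590) (mv 529 (both (five 2 526 530) (mv 557 (both (five 2 525 526) (five 1 524 556))))))))))) (both (mv 559 (both (mv 464 (both (five 6 431 432) (five 5 463 591))) (both (mv 591 (both (five 5 495 623) (mv 590 (both (five 6 494 622) (mv 463 (both (five 6 462 558) (mv 430 (both (five 7 430 462) (mv 431 (both (five 7 398 398) (five 4 399 399))))))))))) (mv 463 (both (mv 430 (both (five 7 430 462) (mv 431 (both (five 7 398 398) (five 4 399 399))))) (both (mv 462 (both (five 7 430 430) (mv 461 (both (five 0 460 460) (mv 464 (both (five 6 431 432) (five 0 461 497))))))) (mv 431 (both (five 4 399 399) (mv 432 (both (five 5 399 400) (five 5 431 464))))))))))) (both (mv 526 (both (mv 497 (both (five 2 494 498) (five 1 493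 525))) (both (mv 525 (both (five 1 492 524) (mv 492 (both (five 3 492 493) (mv 557 (both (five 2 524 556) (mv 529 (both (five 2 525 558) (mv 530 (both (five 3 495 531) (mv 562 (both (five 0 526 561) (five 0 527 563))))))))))))) (mv 529 (both (mv 497 (both (five 2 494 498) (mv 558 (both (five 2 525 557) (mv 463 (both (five 6 430 431) (mv 590 (both (five 6 462 559) (five 5 494 622))))))))) (mv 530 (both (five 3 495 531) (mv 562 (both (five 0 526 561) (five 0 527 563)))))))))) (both (mv 526 (both (mv 497 (both (five 2 494 498) (five 1 493 525))) (both (mv 525 (both (five 1 492 524) (mv 492 (both (five 3 492 493) (mv 557 (both (five 2 524 556) (mv 529 (both (five 2 525 558) (mv 530 (both (five 3 495 531) (mv 562 (both (five 0 526 561) (five 0 527 563))))))))))))) (mv 529 (both (mv 530 (both (five 3 495 531) (mv 562 (both (five 0 526 561) (five 0 527 563))))) (both (mv 497 (both (five 2 494 498) (mv 561 (both (five 0 526 562) (mv 464 (both (five 4 432 432) (five 7 464 593))))))) (mv 498 (both (five 2 494 497) (mv 530 (both (five 1 495 499) (five 3 495 531))))))))))) (mv 463 (both (mv 464 (both (mv 432 (both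 (five 6 399 400) (five 5 431 559))) (both (mv 559 (both (five 5 463 591) (mv 462 (both (five 7 430 430) (mv 461 (both (five 0 460 460) (five 0 461 497))))))) (mv 432 (both (five 6 399 400) (mv 529 (both (five 4 432 561) (mv 530 (both (five 3 495 531) (mv 498 (both (five 1 495 499) (mv 497 (both (five 3 462 462) (five 2 494 526)))))))))))))) (both (mv 431 (both (five 4 399 399) (mv 430 (both (five 7 398 398) (mv 432 (both (five 5 399 400) (mv 462 (both (five 7 430 559) (mv 433 (both (five 2 430 434) (five 2 429 461))))))))))) (both (mv 464 (both (mv 432 (both (five 6 399 400) (mv 529 (both (five 4 432 561) (mv 530 (both (five 3 495 531) (mv 498 (both (five 1 495 499) (mv 497 (both (five 3 462 462) (five 2 494 526))))))))))) (both (mv 431 (both (five 4 399 399) (mv 430 (both (five 7 398 398) (mv 429 (both (five 0 428 428) (mv 465 (both (five 3 429 462) (five 3 430 466))))))))) (mv 399 (both (five 4 399 431) (mv 432 (both (five 6 399 400) (mv 401 (both (five 5 400 433) (mv 529 (both (five 4 432 561) (mv 530 (both (five 3 495 531) (mv 498 (both (five 1 495 499) (mv 497 (both (five 2 494 526) (mv 466 (both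 (five 1 463 467) (mv 434 (both (five 6 401 402) (mv 435 (both (five 5 402 403) (five 1 431 465)))))))))))))))))))))))) (both (mv 431 (both (five 4 399 399) (mv 430 (both (five 7 398 398) (mv 462 (both (five 7 430 559) (mv 461 (both (five 0 460 460) (mv 497 (both (five 0 461 464) (five 3 462 498))))))))))) (both (mv 431 (both (five 4 399 399) (mv 398 (both (five 7 398 430) (mv 432 (both (five 5 399 400) (mv 464 (both (five 5 431 559) (mv 529 (both (five 4 432 561) (mv 530 (both (five 3 495 531) (mv 498 (both (five 1 495 499) (mv 497 (both (five 2 494 526) (mv 466 (both (five 1 463 467) (mv 434 (both (five 6 401 402) (mv 435 (both (five 5 402 403) (five 1 431 465))))))))))))))))))))))) (mv 431 (both (five 4 399 399) (mv 432 (both (five 5 399 400) (mv 464 (both (five 5 431 559) (mv 401 (both (five 5 400 433) (mv 529 (both (five 4 432 561) (mv 530 (both (five 3 495 531) (mv 498 (both (five 1 495 499) (mv 497 (both (five 3 462 462) (five 2 494 526)))))))))))))))))))))))))))) (both (mv 497 (both (mv 494 (both (mv 461 (both (five 3 461 462) (mv 465 (both (five 1 462 466) (mv 493 (both (five 3 460 460) (five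 1 461 464))))))) (both (mv 461 (both (five 3 461 462) (mv 493 (both (five 3 460 460) (mv 525 (both (five 2 492 524) (five 2 493 526))))))) (both (mv 465 (both (five 1 462 466) (mv 401 (both (five 6 400 433) (mv 493 (both (five 1 461 464) (mv 525 (both (five 2 492 524) (five 2 493 526))))))))) (mv 463 (both (mv 399 (both (five 4 399 431) (mv 462 (both (five 3 461 461) (mv 465 (both (five 1 462 466) (mv 433 (both (five 6 400 401) (mv 464 (both (five 1 430 434) (mv 430 (both (five 3 429 429) (mv 398 (both (five 4 366 366) (five 5 366 367))))))))))))))) (both (mv 431 (both (five 4 399 399) (mv 465 (both (five 1 462 466) (mv 401 (both (five 6 400 433) (mv 526 (both (five 2 493 525) (mv 558 (both (five 6 430 527) (five 5 462 590))))))))))) (both (mv 462 (both (five 3 461 461) (mv 465 (both (five 1 462 466) (mv 401 (both (five 6 400 433) (mv 526 (both (five 2 493 525) (mv 558 (both (five 5 462 590) (mv 557 (both (five 6 461 589) (mv 559 (both (five 4 462 591) (mv 527 (both (five 4 430 430) (five 1 524 556))))))))))))))))) (mv 399 (both (five 4 399 431) (mv 462 (both (five 3 461 461) (mv 526 (both (five 2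 493 525) (mv 558 (both (five 5 462 590) (mv 557 (both (five 6 461 589) (mv 559 (both (five 4 462 591) (mv 527 (both (five 4 430 430) (five 1 524 556))))))))))))))))))))))) (both (mv 494 (both (mv 461 (both (five 3 461 462) (mv 493 (both (five 3 460 460) (mv 525 (both (five 2 492 524) (five 2 493 526))))))) (both (mv 465 (both (five 1 462 466) (mv 401 (both (five 6 400 433) (mv 493 (both (five 1 461 464) (mv 525 (both (five 2 492 524) (five 2 493 526))))))))) (mv 462 (both (five 3 461 461) (mv 463 (both (five 3 462 498) (mv 399 (both (five 4 399 431) (mv 465 (both (five 1 462 466) (mv 433 (both (five 6 400 401) (mv 464 (both (five 1 430 434) (mv 430 (both (five 3 429 429) (mv 398 (both (five 4 366 366) (five 5 366 367)))))))))))))))))))) (both (mv 498 (both (mv 527 (both (five 2 495 499) (five 2 494 526))) (both (mv 467 (both (five 1 463 466) (mv 499 (both (five 1 464 468) (mv 531 (both (five 0 495 530) (five 0 496 532))))))) (mv 463 (both (five 3 462 462) (mv 431 (both (five 4 399 399) (mv 466 (both (five 1 463 467) (mv 527 (both (five 2 494 526) (mv 398 (both (five 7 398 430) (mv 432 (both (five 5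 399 400) (mv 530 (both (five 0 495 531) (mv 559 (both (five 5 431 464) (mv 590 (both (five 6 462 558) (mv 591 (both (five 6 494 622) (five 5 495 623)))))))))))))))))))))))) (both (mv 498 (both (mv 467 (both (five 1 463 466) (mv 499 (both (five 1 464 468) (five 2 495 527))))) (both (mv 462 (both (five 3 462 463) (mv 466 (both (five 1 463 467) (mv 494 (both (five 3 461 461) (five 1 462 465))))))) (mv 462 (both (five 3 462 463) (mv 461 (both (five 3 461 494) (mv 499 (both (five 2 495 527) (mv 531 (both (five 0 495 530) (five 0 496 532)))))))))))) (both (mv 498 (both (mv 527 (both (five 2 495 499) (five 2 494 526))) (mv 466 (both (five 1 463 467) (mv 465 (both (five 1 462 494) (mv 433 (both (five 6 400 401) (mv 530 (both (five 0 495 531) (five 7 433 562))))))))))) (mv 498 (both (mv 527 (both (five 2 495 499) (five 2 494 526))) (both (mv 463 (both (five 3 462 462) (mv 399 (both (five 4 399 431) (mv 499 (both (five 3 463 464) (mv 531 (both (five 0 495 530) (five 0 496 532))))))))) (mv 462 (both (five 3 462 463) (mv 494 (both (five 3 461 461) (mv 526 (both (five 2 493 525) (five 2 494 527))))))))))))))))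 (both (mv 494 (both (mv 493 (both (five 0 493 529) (mv 465 (both (five 1 461 464) (mv 497 (both (five 1 462 466) (mv 525 (both (five 2 492 524) (five 2 493 526))))))))) (both (mv 497 (both (mv 465 (both (five 1 462 466) (mv 433 (both (five 6 400 401) (mv 525 (both (five 2 493 526) (mv 529 (both (five 0 494 530) (mv 432 (both (five 7 400 400) (mv 434 (both (five 5 401 402) (mv 464 (both (five 7 432 561) (mv 435 (both (five 2 432 436) (five 2 431 463))))))))))))))))) (both (mv 462 (both (five 3 461 461) (mv 463 (both (five 3 462 498) (mv 431 (both (five 4 399 399) (mv 526 (both (five 2 493 525) (five 5 430 558))))))))) (mv 461 (both (five 3 461 462) (mv 466 (both (five 1 462 465) (mv 498 (both (five 1 463 467) (mv 530 (both (five 0 494 529) (five 0 495 531)))))))))))) (both (mv 497 (both (mv 461 (both (five 3 461 462) (mv 465 (both (five 1 462 466) (mv 493 (both (five 3 460 460) (five 1 461 464))))))) (both (mv 465 (both (five 1 462 466) (mv 401 (both (five 6 400 433) (mv 493 (both (five 1 461 464) (mv 525 (both (five 2 492 524) (five 2 493 526))))))))) (mv 462 (both (five 3 461 461) (mv 463 (both (five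 3 462 498) (mv 431 (both (five 4 399 399) (mv 526 (both (five 2 493 525) (five 5 430 558)))))))))))) (both (mv 493 (both (five 0 493 529) (mv 460 (both (five 3 460 461) (mv 464 (both (five 1 461 465) (mv 492 (both (five 3 459 459) (five 1 460 463))))))))) (mv 493 (both (five 0 493 529) (mv 460 (both (five 3 460 461) (mv 492 (both (five 3 459 459) (mv 524 (both (five 2 491 523) (five 2 492 525)))))))))))))) (both (mv 527 (both (mv 559 (both (mv 464 (both (five 6 431 432) (five 5 463 591))) (mv 463 (both (mv 430 (both (five 7 430 462) (mv 431 (both (five 7 398 398) (five 4 399 399))))) (mv 558 (both (five 6 462 590) (mv 529 (both (five 2 526 530) (mv 557 (both (five 2 525 526) (five 1 524 556))))))))))) (both (mv 529 (both (mv 494 (both (five 0 493 493) (five 3 494 530))) (both (mv 530 (both (five 3 495 531) (mv 498 (both (five 1 495 499) (mv 562 (both (five 0 527 563) (mv 526 (both (five 0 526 561) (mv 525 (both (five 1 492 524) (mv 557 (both (five 2 524 556) (five 2 525 558))))))))))))) (mv 526 (both (mv 525 (both (five 1 492 524) (mv 557 (both (five 2 524 556) (five 2 525 558))))) (both (mv 494 (both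 (five 0 493 493) (mv 558 (both (five 2 525 557) (mv 463 (both (five 6 430 431) (five 5 462 590))))))) (mv 493 (both (five 0 493 494) (mv 525 (both (five 3 492 492) (five 1 492 524))))))))))) (both (mv 559 (both (mv 464 (both (five 6 431 432) (five 5 463 591))) (both (mv 591 (both (five 5 495 623) (mv 590 (both (five 6 494 622) (mv 463 (both (five 6 462 558) (mv 430 (both (five 7 430 462) (mv 431 (both (five 7 398 398) (five 4 399 399))))))))))) (mv 463 (both (mv 430 (both (five 7 430 462) (mv 431 (both (five 7 398 398) (five 4 399 399))))) (both (mv 462 (both (five 7 430 430) (mv 461 (both (five 0 460 460) (mv 464 (both (five 5 431 432) (mv 428 (both (five 3 428 429) (mv 493 (both (five 2 460 492) (mv 465 (both (five 2 461 494) (mv 434 (both (five 1 430 433) (mv 466 (both (five 1 431 435) (five 2 463 467))))))))))))))))) (mv 431 (both (five 4 399 399) (mv 432 (both (five 5 399 400) (five 5 431 464))))))))))) (both (mv 529 (both (mv 494 (both (five 0 493 493) (five 3 494 530))) (both (mv 530 (both (five 3 495 531) (mv 559 (both (five 2 526 558) (mv 464 (both (five 6 431 432) (five 5 463 591))))))) (mv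 526 (both (mv 525 (both (five 1 492 524) (mv 557 (both (five 2 524 556) (five 2 525 558))))) (both (mv 494 (both (five 0 493 493) (mv 558 (both (five 2 525 557) (mv 561 (both (five 0 526 562) (mv 432 (both (five 4 432 464) (mv 590 (both (five 5 494 622) (mv 589 (both (five 6 493 621) (mv 591 (both (five 4 494 623) (mv 462 (both (five 7 462 559) (mv 429 (both (five 7 429 461) (mv 430 (both (five 7 397 397) (five 4 398 398))))))))))))))))))))) (mv 493 (both (five 0 493 494) (mv 525 (both (five 3 492 492) (five 1 492 524))))))))))) (mv 559 (both (mv 464 (both (five 6 431 432) (five 5 463 591))) (both (mv 591 (both (five 5 495 623) (mv 494 (both (five 7 462 462) (mv 493 (both (five 0 493 529) (mv 460 (both (five 3 460 461) (mv 492 (both (five 3 459 459) (mv 524 (both (five 2 491 523) (five 2 492 525))))))))))))) (mv 463 (both (mv 430 (both (five 7 430 462) (mv 431 (both (five 7 398 398) (five 4 399 399))))) (both (mv 462 (both (five 7 430 430) (mv 461 (both (five 0 460 460) (mv 464 (both (five 5 431 432) (mv 428 (both (five 3 428 429) (mv 493 (both (five 2 460 492) (mv 465 (both (five 2 461 494) (mv 434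 (both (five 1 430 433) (mv 466 (both (five 1 431 435) (five 2 463 467))))))))))))))))) (mv 431 (both (five 4 399 399) (mv 432 (both (five 5 399 400) (five 5 431 464)))))))))))))))) (both (mv 494 (both (mv 493 (both (five 0 493 529) (mv 460 (both (five 3 460 461) (mv 492 (both (five 3 459 459) (five 0 492 527))))))) (both (mv 497 (both (mv 466 (both (five 1 462 465) (mv 498 (both (five 1 463 467) (mv 530 (both (five 0 494 529) (five 0 495 531))))))) (both (mv 462 (both (five 3 461 461) (mv 465 (both (five 1 462 466) (mv 433 (both (five 6 400 401) (mv 525 (both (five 2 493 526) (mv 529 (both (five 0 494 530) (mv 432 (both (five 7 400 400) (mv 434 (both (five 5 401 402) (mv 431 (both (five 2 430 463) (mv 398 (both (five 3 398 399) (mv 430 (both (five 3 397 397) (five 4 398 527))))))))))))))))))))) (mv 462 (both (five 3 461 461) (mv 463 (both (five 3 462 498) (mv 431 (both (five 4 399 399) (mv 526 (both (five 2 493 525) (five 5 430 558)))))))))))) (both (mv 497 (both (mv 466 (both (five 1 462 465) (mv 498 (both (five 1 463 467) (mv 526 (both (five 2 493 525) (five 2 494 527))))))) (both (mv 461 (both (five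 3 461 462) (mv 460 (both (five 3 460 493) (mv 466 (both (five 1 462 465) (mv 498 (both (five 1 463 467) (mv 499 (both (five 2 495 527) (mv 531 (both (five 0 495 530) (five 0 496 532))))))))))))) (mv 461 (both (five 3 461 462) (mv 493 (both (five 3 460 460) (mv 525 (both (five 2 492 524) (five 2 493 526)))))))))) (both (mv 493 (both (five 0 493 529) (mv 460 (both (five 3 460 461) (mv 492 (both (five 3 459 459) (mv 524 (both (five 2 491 523) (five 2 492 525))))))))) (mv 493 (both (five 0 493 529) (mv 492 (both (five 0 492 527) (mv 524 (both (five 2 491 523) (five 2 492 525)))))))))))) (both (mv 494 (both (mv 493 (both (five 0 493 529) (mv 460 (both (five 3 460 461) (mv 492 (both (five 3 459 459) (five 0 492 527))))))) (both (mv 497 (both (mv 466 (both (five 1 462 465) (mv 498 (both (five 1 463 467) (mv 526 (both (five 2 493 525) (five 2 494 527))))))) (both (mv 466 (both (five 1 462 465) (mv 498 (both (five 1 463 467) (mv 530 (both (five 0 494 529) (five 0 495 531))))))) (both (mv 461 (both (five 3 461 462) (mv 526 (both (five 2 493 525) (mv 498 (both (five 2 494 527) (mv 530 (both (five 0 494 529) (five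 0 495 531))))))))) (mv 462 (both (five 3 461 461) (mv 465 (both (five 1 462 466) (mv 433 (both (five 6 400 401) (mv 525 (both (five 2 493 526) (mv 529 (both (five 0 494 530) (mv 402 (both (five 5 401 434) (mv 432 (both (five 7 400 400) (mv 464 (both (five 7 432 561) (mv 431 (both (five 7 399 399) (mv 430 (both (five 0 429 429) (mv 398 (both (five 3 397 397) (five 4 398 527))))))))))))))))))))))))))) (both (mv 493 (both (mv 460 (both (five 3 460 461) (mv 492 (both (five 3 459 459) (five 0 492 527))))) (mv 465 (both (five 1 461 464) (mv 497 (both (five 1 462 466) (mv 525 (both (five 2 492 524) (five 2 493 526))))))))) (mv 493 (both (five 0 493 529) (mv 465 (both (five 1 461 464) (mv 497 (both (five 1 462 466) (mv 525 (both (five 2 492 524) (five 2 493 526))))))))))))) (both (mv 497 (both (mv 498 (both (mv 462 (both (five 3 462 463) (mv 466 (both (five 1 463 467) (mv 494 (both (five 3 461 461) (five 1 462 465))))))) (mv 527 (both (five 2 495 499) (five 2 494 526))))) (both (mv 494 (both (mv 465 (both (five 1 462 466) (mv 433 (both (five 6 400 401) (mv 525 (both (five 2 493 526) (mv 529 (both (five 0 494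 530) (mv 432 (both (five 7 400 400) (mv 434 (both (five 5 401 402) (mv 464 (both (five 7 432 561) (mv 435 (both (five 2 432 436) (five 2 431 463))))))))))))))))) (both (mv 463 (both (mv 399 (both (five 4 399 431) (mv 462 (both (five 3 461 461) (mv 465 (both (five 1 462 466) (mv 433 (both (five 6 400 401) (mv 464 (both (five 1 430 434) (mv 430 (both (five 3 429 429) (mv 398 (both (five 4 366 366) (five 5 366 367))))))))))))))) (both (mv 431 (both (five 4 399 399) (mv 465 (both (five 1 462 466) (mv 401 (both (five 6 400 433) (mv 526 (both (five 2 493 525) (mv 558 (both (five 6 430 527) (five 5 462 590))))))))))) (both (mv 462 (both (five 3 461 461) (mv 465 (both (five 1 462 466) (mv 401 (both (five 6 400 433) (mv 526 (both (five 2 493 525) (mv 558 (both (five 5 462 590) (mv 557 (both (five 6 461 589) (mv 559 (both (five 4 462 591) (mv 527 (both (five 4 430 430) (five 1 524 556))))))))))))))))) (mv 399 (both (five 4 399 431) (mv 462 (both (five 3 461 461) (mv 526 (both (five 2 493 525) (mv 558 (both (five 5 462 590) (mv 557 (both (five 6 461 589) (mv 559 (both (five 4 462 591) (mv 527 (both (five 4 430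 430) (five 1 524 556))))))))))))))))))) (both (mv 461 (both (five 3 461 462) (mv 465 (both (five 1 462 466) (mv 433 (both (five 6 400 401) (mv 529 (both (five 0 494 530) (mv 432 (both (five 7 400 400) (mv 434 (both (five 5 401 402) (mv 464 (both (five 7 432 561) (mv 435 (both (five 2 432 436) (five 2 431 463))))))))))))))))) (both (mv 527 (both (mv 529 (both (mv 530 (both (five 3 495 531) (mv 559 (both (five 2 526 558) (mv 464 (both (five 6 431 432) (five 5 463 591))))))) (both (mv 526 (both (five 1 493 525) (mv 530 (both (five 3 495 531) (mv 558 (both (five 2 525 557) (five 2 526 559))))))) (mv 526 (both (five 1 493 525) (mv 561 (both (five 0 526 562) (mv 464 (both (five 4 432 432) (five 7 464 593)))))))))) (both (mv 462 (both (five 3 461 461) (mv 430 (both (five 4 398 398) (mv 559 (both (five 7 430 463) (five 7 462 591))))))) (mv 461 (both (five 3 461 462) (mv 526 (both (five 2 493 525) (mv 529 (both (five 0 494 530) (mv 561 (both (five 0 526 562) (mv 464 (both (five 4 432 432) (five 7 464 593)))))))))))))) (both (mv 462 (both (five 3 461 461) (mv 465 (both (five 1 462 466) (mv 433 (both (five 6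 400 401) (mv 525 (both (five 2 493 526) (mv 529 (both (five 0 494 530) (mv 432 (both (five 7 400 400) (mv 434 (both (five 5 401 402) (mv 431 (both (five 2 430 463) (mv 398 (both (five 3 398 399) (mv 430 (both (five 3 397 397) (five 4 398 527))))))))))))))))))))) (mv 462 (both (five 3 461 461) (mv 465 (both (five 1 462 466) (mv 433 (both (five 6 400 401) (mv 525 (both (five 2 493 526) (mv 529 (both (five 0 494 530) (mv 402 (both (five 5 401 434) (mv 432 (both (five 7 400 400) (mv 464 (both (five 7 432 561) (mv 431 (both (five 7 399 399) (mv 430 (both (five 0 429 429) (mv 398 (both (five 3 397 397) (five 4 398 527))))))))))))))))))))))))))))) (both (mv 498 (both (mv 467 (both (five 1 463 466) (mv 499 (both (five 1 464 468) (mv 531 (both (five 0 495 530) (five 0 496 532))))))) (both (mv 462 (both (five 3 462 463) (mv 466 (both (five 1 463 467) (mv 494 (both (five 3 461 461) (five 1 462 465))))))) (mv 463 (both (five 3 462 462) (mv 399 (both (five 4 399 431) (mv 499 (both (five 3 463 464) (mv 531 (both (five 0 495 530) (five 0 496 532)))))))))))) (both (mv 498 (both (mv 527 (both (five 2 495 499) (five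 2 494 526))) (both (mv 467 (both (five 1 463 466) (mv 499 (both (five 1 464 468) (mv 531 (both (five 0 495 530) (five 0 496 532))))))) (mv 463 (both (five 3 462 462) (mv 431 (both (five 4 399 399) (mv 466 (both (five 1 463 467) (mv 527 (both (five 2 494 526) (mv 398 (both (five 7 398 430) (mv 432 (both (five 5 399 400) (mv 530 (both (five 0 495 531) (mv 559 (both (five 5 431 464) (mv 590 (both (five 6 462 558) (mv 591 (both (five 6 494 622) (five 5 495 623)))))))))))))))))))))))) (both (mv 498 (both (mv 527 (both (five 2 495 499) (five 2 494 526))) (mv 466 (both (five 1 463 467) (mv 465 (both (five 1 462 494) (mv 433 (both (five 6 400 401) (mv 530 (both (five 0 495 531) (five 7 433 562))))))))))) (mv 498 (both (mv 527 (both (five 2 495 499) (five 2 494 526))) (both (mv 463 (both (five 3 462 462) (mv 399 (both (five 4 399 431) (mv 499 (both (five 3 463 464) (mv 531 (both (five 0 495 530) (five 0 496 532))))))))) (mv 462 (both (five 3 462 463) (mv 494 (both (five 3 461 461) (mv 526 (both (five 2 493 525) (five 2 494 527)))))))))))))))) (both (mv 494 (both (mv 493 (both (five 0 493 529) (mv 460 (both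 (five 3 460 461) (mv 492 (both (five 3 459 459) (five 0 492 527))))))) (both (mv 497 (both (mv 466 (both (five 1 462 465) (mv 498 (both (five 1 463 467) (mv 526 (both (five 2 493 525) (five 2 494 527))))))) (both (mv 462 (both (five 3 461 461) (mv 463 (both (five 3 462 498) (mv 399 (both (five 4 399 431) (mv 465 (both (five 1 462 466) (mv 433 (both (five 6 400 401) (mv 464 (both (five 1 430 434) (mv 430 (both (five 3 429 429) (mv 398 (both (five 4 366 366) (five 5 366 367))))))))))))))))) (both (mv 462 (both (five 3 461 461) (mv 463 (both (five 3 462 498) (mv 431 (both (five 4 399 399) (mv 526 (both (five 2 493 525) (five 5 430 558))))))))) (mv 463 (both (mv 399 (both (five 4 399 431) (mv 462 (both (five 3 461 461) (mv 465 (both (five 1 462 466) (mv 433 (both (five 6 400 401) (mv 464 (both (five 1 430 434) (mv 430 (both (five 3 429 429) (mv 398 (both (five 4 366 366) (five 5 366 367))))))))))))))) (both (mv 431 (both (five 4 399 399) (mv 465 (both (five 1 462 466) (mv 401 (both (five 6 400 433) (mv 526 (both (five 2 493 525) (mv 558 (both (five 6 430 527) (five 5 462 590))))))))))) (both (mv 462 (both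 (five 3 461 461) (mv 465 (both (five 1 462 466) (mv 401 (both (five 6 400 433) (mv 526 (both (five 2 493 525) (mv 558 (both (five 5 462 590) (mv 557 (both (five 6 461 589) (mv 559 (both (five 4 462 591) (mv 527 (both (five 4 430 430) (five 1 524 556))))))))))))))))) (mv 399 (both (five 4 399 431) (mv 462 (both (five 3 461 461) (mv 526 (both (five 2 493 525) (mv 558 (both (five 5 462 590) (mv 557 (both (five 6 461 589) (mv 559 (both (five 4 462 591) (mv 527 (both (five 4 430 430) (five 1 524 556))))))))))))))))))))))) (mv 493 (both (five 0 493 529) (mv 465 (both (five 1 461 464) (mv 497 (both (five 1 462 466) (mv 525 (both (five 2 492 524) (five 2 493 526)))))))))))) (both (mv 494 (both (mv 497 (both (mv 462 (both (five 3 461 461) (mv 463 (both (five 3 462 498) (mv 399 (both (five 4 399 431) (mv 465 (both (five 1 462 466) (mv 433 (both (five 6 400 401) (mv 464 (both (five 1 430 434) (mv 430 (both (five 3 429 429) (mv 398 (both (five 4 366 366) (five 5 366 367))))))))))))))))) (both (mv 530 (both (five 0 494 529) (mv 498 (both (five 0 495 531) (mv 467 (both (five 1 463 466) (mv 499 (both (five 1 464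 468) (five 2 495 527))))))))) (both (mv 530 (both (five 0 494 529) (mv 498 (both (five 0 495 531) (mv 499 (both (five 2 495 527) (mv 464 (both (five 3 463 463) (mv 468 (both (five 1 464 467) (mv 500 (both (five 3 464 465) (five 1 465 469))))))))))))) (mv 465 (both (five 1 462 466) (mv 433 (both (five 6 400 401) (mv 529 (both (five 0 494 530) (mv 432 (both (five 7 400 400) (mv 434 (both (five 5 401 402) (mv 464 (both (five 7 432 561) (mv 435 (both (five 2 432 436) (five 2 431 463))))))))))))))))))) (both (mv 493 (both (mv 460 (both (five 3 460 461) (mv 492 (both (five 3 459 459) (five 0 492 527))))) (both (mv 461 (both (five 3 460 460) (mv 462 (both (five 3 461 497) (mv 464 (both (five 1 461 465) (mv 525 (both (five 2 492 524) (mv 430 (both (five 6 397 398) (five 5 429 557))))))))))) (mv 492 (both (five 0 492 527) (mv 524 (both (five 2 491 523) (five 2 492 525)))))))) (both (mv 493 (both (five 0 493 529) (mv 460 (both (five 3 460 461) (mv 464 (both (five 1 461 465) (mv 492 (both (five 3 459 459) (five 1 460 463))))))))) (mv 493 (both (five 0 493 529) (mv 492 (both (five 0 492 527) (mv 524 (both (five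 2 491 523) (five 2 492 525))))))))))) (both (mv 494 (both (mv 493 (both (five 0 493 529) (mv 460 (both (five 3 460 461) (mv 492 (both (five 3 459 459) (five 0 492 527))))))) (both (mv 497 (both (mv 465 (both (five 1 462 466) (mv 433 (both (five 6 400 401) (mv 529 (both (five 0 494 530) (mv 432 (both (five 7 400 400) (mv 434 (both (five 5 401 402) (mv 464 (both (five 7 432 561) (mv 435 (both (five 2 432 436) (five 2 431 463))))))))))))))) (both (mv 463 (both (mv 399 (both (five 4 399 431) (mv 462 (both (five 3 461 461) (mv 465 (both (five 1 462 466) (mv 433 (both (five 6 400 401) (mv 464 (both (five 1 430 434) (mv 430 (both (five 3 429 429) (mv 398 (both (five 4 366 366) (five 5 366 367))))))))))))))) (both (mv 431 (both (five 4 399 399) (mv 465 (both (five 1 462 466) (mv 401 (both (five 6 400 433) (mv 526 (both (five 2 493 525) (mv 558 (both (five 6 430 527) (five 5 462 590))))))))))) (both (mv 462 (both (five 3 461 461) (mv 465 (both (five 1 462 466) (mv 401 (both (five 6 400 433) (mv 526 (both (five 2 493 525) (mv 558 (both (five 5 462 590) (mv 557 (both (five 6 461 589) (mv 559 (both (five 4 462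 591) (mv 527 (both (five 4 430 430) (five 1 524 556))))))))))))))))) (mv 399 (both (five 4 399 431) (mv 462 (both (five 3 461 461) (mv 526 (both (five 2 493 525) (mv 558 (both (five 5 462 590) (mv 557 (both (five 6 461 589) (mv 559 (both (five 4 462 591) (mv 527 (both (five 4 430 430) (five 1 524 556))))))))))))))))))) (both (mv 527 (both (mv 529 (both (mv 530 (both (five 3 495 531) (mv 559 (both (five 2 526 558) (mv 464 (both (five 6 431 432) (five 5 463 591))))))) (both (mv 526 (both (five 1 493 525) (mv 530 (both (five 3 495 531) (mv 558 (both (five 2 525 557) (five 2 526 559))))))) (mv 526 (both (five 1 493 525) (mv 561 (both (five 0 526 562) (mv 464 (both (five 4 432 432) (five 7 464 593)))))))))) (both (mv 462 (both (five 3 461 461) (mv 430 (both (five 4 398 398) (mv 559 (both (five 7 430 463) (five 7 462 591))))))) (mv 461 (both (five 3 461 462) (mv 526 (both (five 2 493 525) (mv 529 (both (five 0 494 530) (mv 561 (both (five 0 526 562) (mv 464 (both (five 4 432 432) (five 7 464 593)))))))))))))) (both (mv 462 (both (five 3 461 461) (mv 465 (both (five 1 462 466) (mv 433 (both (five 6 400 401)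 (mv 525 (both (five 2 493 526) (mv 529 (both (five 0 494 530) (mv 432 (both (five 7 400 400) (mv 434 (both (five 5 401 402) (mv 431 (both (five 2 430 463) (mv 398 (both (five 3 398 399) (mv 430 (both (five 3 397 397) (five 4 398 527))))))))))))))))))))) (mv 462 (both (five 3 461 461) (mv 465 (both (five 1 462 466) (mv 433 (both (five 6 400 401) (mv 525 (both (five 2 493 526) (mv 529 (both (five 0 494 530) (mv 402 (both (five 5 401 434) (mv 432 (both (five 7 400 400) (mv 464 (both (five 7 432 561) (mv 431 (both (five 7 399 399) (mv 430 (both (five 0 429 429) (mv 398 (both (five 3 397 397) (five 4 398 527)))))))))))))))))))))))))))) (both (mv 493 (both (mv 460 (both (five 3 460 461) (mv 492 (both (five 3 459 459) (five 0 492 527))))) (mv 465 (both (five 1 461 464) (mv 497 (both (five 1 462 466) (mv 525 (both (five 2 492 524) (five 2 493 526))))))))) (mv 493 (both (five 0 493 529) (mv 465 (both (five 1 461 464) (mv 497 (both (five 1 462 466) (mv 525 (both (five 2 492 524) (five 2 493 526))))))))))))) (both (mv 527 (both (mv 559 (both (mv 464 (both (five 6 431 432) (five 5 463 591))) (mv 463 (both (mv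 430 (both (five 7 430 462) (mv 431 (both (five 7 398 398) (five 4 399 399))))) (mv 558 (both (five 6 462 590) (mv 529 (both (five 2 526 530) (mv 557 (both (five 2 525 526) (five 1 524 556))))))))))) (both (mv 559 (both (mv 464 (both (five 6 431 432) (five 5 463 591))) (both (mv 591 (both (five 5 495 623) (mv 590 (both (five 6 494 622) (mv 463 (both (five 6 462 558) (mv 430 (both (five 7 430 462) (mv 431 (both (five 7 398 398) (five 4 399 399))))))))))) (mv 463 (both (mv 430 (both (five 7 430 462) (mv 431 (both (five 7 398 398) (five 4 399 399))))) (both (mv 462 (both (five 7 430 430) (mv 461 (both (five 0 460 460) (mv 464 (both (five 6 431 432) (five 0 461 497))))))) (mv 431 (both (five 4 399 399) (mv 432 (both (five 5 399 400) (five 5 431 464))))))))))) (both (mv 526 (both (mv 497 (both (five 2 494 498) (five 1 493 525))) (both (mv 525 (both (five 1 492 524) (mv 492 (both (five 3 492 493) (mv 557 (both (five 2 524 556) (mv 529 (both (five 2 525 558) (mv 530 (both (five 3 495 531) (mv 562 (both (five 0 526 561) (five 0 527 563))))))))))))) (mv 529 (both (mv 530 (both (five 3 495 531) (mv 562 (both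 (five 0 526 561) (five 0 527 563))))) (both (mv 497 (both (five 2 494 498) (mv 561 (both (five 0 526 562) (mv 464 (both (five 4 432 432) (five 7 464 593))))))) (mv 498 (both (five 2 494 497) (mv 530 (both (five 1 495 499) (five 3 495 531))))))))))) (mv 494 (both (mv 497 (both (mv 498 (both (five 2 495 499) (five 2 494 526))) (mv 462 (both (five 3 461 461) (mv 430 (both (five 4 398 398) (mv 559 (both (five 7 430 463) (five 7 462 591))))))))) (mv 493 (both (five 0 492 492) (five 0 493 529))))))))) (both (mv 529 (both (mv 530 (both (five 3 495 531) (mv 527 (both (mv 559 (both (five 2 526 558) (mv 464 (both (five 6 431 432) (five 5 463 591))))) (mv 498 (both (five 1 495 499) (mv 497 (both (five 2 494 526) (mv 462 (both (five 3 462 463) (mv 466 (both (five 1 463 467) (mv 434 (both (five 6 401 402) (five 6 433 561))))))))))))))) (both (mv 494 (both (five 0 493 493) (mv 497 (both (mv 465 (both (five 1 462 466) (mv 433 (both (five 6 400 401) (mv 432 (both (five 7 400 400) (mv 434 (both (five 5 401 402) (mv 464 (both (five 7 432 561) (mv 435 (both (five 2 432 436) (five 2 431 463))))))))))))) (both (mv 462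 (both (five 3 461 461) (mv 498 (both (five 3 462 463) (mv 527 (both (five 2 495 499) (five 2 494 526))))))) (mv 461 (both (five 3 461 462) (mv 465 (both (five 1 462 466) (mv 433 (both (five 6 400 401) (mv 402 (both (five 5 401 434) (mv 432 (both (five 7 400 400) (mv 464 (both (five 7 432 561) (mv 399 (both (five 7 399 431) (mv 527 (both (five 6 431 559) (mv 498 (both (five 2 495 499) (five 2 494 526)))))))))))))))))))))))) (both (mv 494 (both (five 0 493 493) (mv 530 (both (five 0 494 497) (five 3 495 531))))) (mv 494 (both (five 0 493 493) (mv 530 (both (five 3 494 527) (five 3 495 531))))))))) (both (mv 494 (both (mv 493 (both (five 0 493 529) (mv 460 (both (five 3 460 461) (mv 492 (both (five 3 459 459) (five 0 492 527))))))) (both (mv 497 (both (mv 466 (both (five 1 462 465) (mv 498 (both (five 1 463 467) (mv 526 (both (five 2 493 525) (five 2 494 527))))))) (both (mv 526 (both (five 2 493 525) (mv 498 (both (five 2 494 527) (mv 530 (both (five 0 494 529) (five 0 495 531))))))) (mv 465 (both (five 1 462 466) (mv 433 (both (five 6 400 401) (mv 529 (both (five 0 494 530) (mv 432 (both (five 7 400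 400) (mv 434 (both (five 5 401 402) (mv 464 (both (five 7 432 561) (mv 435 (both (five 2 432 436) (five 2 431 463)))))))))))))))))) (both (mv 493 (both (mv 460 (both (five 3 460 461) (mv 492 (both (five 3 459 459) (five 0 492 527))))) (mv 465 (both (five 1 461 464) (mv 497 (both (five 1 462 466) (mv 525 (both (five 2 492 524) (five 2 493 526))))))))) (mv 493 (both (five 0 493 529) (mv 465 (both (five 1 461 464) (mv 497 (both (five 1 462 466) (mv 525 (both (five 2 492 524) (five 2 493 526))))))))))))) (mv 529 (both (mv 530 (both (five 3 495 531) (mv 527 (both (mv 559 (both (five 2 526 558) (mv 464 (both (five 6 431 432) (five 5 463 591))))) (mv 498 (both (five 1 495 499) (mv 497 (both (five 2 494 526) (mv 462 (both (five 3 462 463) (mv 466 (both (five 1 463 467) (mv 434 (both (five 6 401 402) (five 6 433 561))))))))))))))) (both (mv 494 (both (five 0 493 493) (mv 497 (both (mv 466 (both (five 1 462 465) (mv 498 (both (five 1 463 467) (mv 526 (both (five 2 493 525) (five 2 494 527))))))) (both (mv 465 (both (five 1 462 466) (mv 433 (both (five 6 400 401) (mv 432 (both (five 7 400 400) (mv 434 (both (five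 5 401 402) (mv 464 (both (five 7 432 561) (mv 435 (both (five 2 432 436) (five 2 431 463))))))))))))) (mv 526 (both (five 2 493 525) (mv 498 (both (five 2 494 527) (mv 463 (both (five 3 462 462) (mv 499 (both (five 3 463 464) (five 2 496 500)))))))))))))) (both (mv 494 (both (five 0 493 493) (mv 530 (both (five 0 494 497) (five 3 495 531))))) (mv 494 (both (five 0 493 493) (mv 530 (both (five 3 494 527) (five 3 495 531))))))))))))))))))))))

theorem L112 : W (S 878694100701304956511192169158242687862212665431883220280182872118455237980908336946979793684870563807462937680039967586724118902039808942127312687095760289792) (S 60915154166770389994841519870616996811809586531021441378067561123764522571677344883148342082430006605235476416830307973859554250099460878799953250638826554697562271289817068240053028782080) :=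
  check_sound Env.nil (x := 495) (t := tL112) (by decide +kernel)

def tL113 : T :=
  (both (ref 0) (both (mv 527 (both (mv 495 (both (mv 463 (both (mv 431 (both (five 4 399 399) (mv 430 (both (five 7 398 398) (mv 432 (both (five 5 399 400) (mv 462 (both (five 7 430 559) (mv 433 (both (five 2 430 434) (five 2 429 461))))))))))) (both (mv 559 (both (mv 590 (both (five 6 462 558) (mv 591 (both (five 6 494 622) (five 5 495 623))))) (both (mv 462 (both (five 7 430 430) (mv 460 (both (five 0 460 461) (mv 497 (both (five 3 462 498) (mv 558 (both (five 6 462 590) (mv 557 (both (five 1 524 556) (mv 560 (both (five 7 463 592) (mv 525 (both (five 3 524 524) (mv 589 (both (five 2 556 588) (mv 493 (both (five 7 460 492) (five 5 461 494))))))))))))))))))) (mv 430 (both (five 7 430 462) (mv 591 (both (five 5 495 623) (mv 592 (both (five 4 463 560) (five 4 495 624)))))))))) (mv 431 (both (five 4 399 399) (five 4 431 560)))))) (both (mv 494 (both (mv 493 (both (five 0 492 492) (five 0 493 529))) (both (mv 493 (both (five 0 492 492) (mv 461 (both (five 3 460 460) (mv 462 (both (five 3 461 497) (mv 525 (both (five 2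 492 524) (mv 430 (both (five 6 397 398) (five 5 429 557))))))))))) (mv 497 (both (mv 466 (both (five 1 462 465) (mv 498 (both (five 1 463 467) (mv 530 (both (five 0 494 529) (five 0 495 531))))))) (both (mv 461 (both (five 3 461 462) (mv 466 (both (five 1 462 465) (mv 498 (both (five 1 463 467) (five 2 495 499))))))) (both (mv 461 (both (five 3 461 462) (mv 465 (both (five 1 462 466) (mv 433 (both (five 6 400 401) (mv 529 (both (five 3 494 530) (five 6 432 560))))))))) (mv 461 (both (five 3 461 462) (mv 498 (both (five 2 495 499) (mv 530 (both (five 0 494 529) (five 0 495 531)))))))))))))) (both (mv 463 (both (mv 431 (both (five 4 399 399) (five 4 431 560))) (both (mv 431 (both (five 4 399 399) (mv 430 (both (five 7 398 398) (mv 432 (both (five 5 399 400) (mv 462 (both (five 7 430 559) (mv 433 (both (five 2 430 434) (five 2 429 461))))))))))) (mv 559 (both (mv 590 (both (five 6 462 558) (mv 591 (both (five 6 494 622) (five 5 495 623))))) (both (mv 591 (both (five 5 495 623) (mv 592 (both (five 4 463 560) (five 4 495 624))))) (mv 430 (both (five 7 430 462) (mv 558 (both (five 6 462 590) (mv 529 (both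 (five 2 526 530) (mv 557 (both (five 1 524 556) (five 1 525 560))))))))))))))) (both (mv 494 (both (mv 493 (both (five 0 492 492) (five 0 493 529))) (mv 497 (both (mv 466 (both (five 1 462 465) (mv 498 (both (five 1 463 467) (five 2 495 499))))) (mv 462 (both (five 3 461 461) (mv 430 (both (five 4 398 398) (mv 559 (both (five 7 430 463) (five 7 462 591))))))))))) (mv 497 (both (mv 498 (both (five 2 495 499) (mv 466 (both (five 1 463 467) (mv 465 (both (five 1 462 494) (mv 433 (both (five 6 400 401) (mv 530 (both (five 0 495 531) (five 7 433 562))))))))))) (both (mv 529 (both (mv 494 (both (five 0 493 493) (five 3 494 530))) (both (mv 494 (both (five 0 493 493) (mv 465 (both (five 1 462 466) (mv 433 (both (five 6 400 401) (five 6 432 560))))))) (mv 530 (both (five 3 495 531) (mv 559 (both (five 2 526 558) (mv 562 (both (five 0 527 563) (mv 591 (both (five 5 495 623) (mv 590 (both (five 6 494 622) (mv 560 (both (five 2 558 561) (mv 463 (both (five 4 431 431) (five 7 463 592)))))))))))))))))) (both (mv 529 (both (mv 498 (both (five 2 495 499) (mv 466 (both (five 1 463 467) (mv 434 (both (five 6 401 402)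 (mv 561 (both (five 5 433 465) (five 5 465 593))))))))) (both (mv 530 (both (five 3 495 531) (mv 559 (both (five 2 526 558) (mv 562 (both (five 0 527 563) (mv 591 (both (five 5 495 623) (mv 590 (both (five 6 494 622) (mv 560 (both (five 2 558 561) (mv 463 (both (five 4 431 431) (five 7 463 592))))))))))))))) (mv 498 (both (five 2 495 499) (mv 466 (both (five 1 463 467) (mv 402 (both (five 6 401 434) (mv 530 (both (five 0 495 531) (mv 559 (both (five 2 526 558) (mv 562 (both (five 0 527 563) (mv 465 (both (five 7 433 433) (mv 591 (both (five 5 495 623) (mv 592 (both (five 5 464 560) (five 4 495 624)))))))))))))))))))))) (both (mv 498 (both (five 2 495 499) (mv 466 (both (five 1 463 467) (mv 465 (both (five 1 462 494) (mv 433 (both (five 6 400 401) (mv 560 (both (five 6 432 529) (five 5 464 592))))))))))) (mv 498 (both (five 2 495 499) (mv 530 (both (five 0 495 531) (mv 529 (both (five 0 494 494) (mv 559 (both (five 2 526 558) (mv 562 (both (five 0 527 563) (mv 591 (both (five 5 495 623) (mv 590 (both (five 6 494 622) (mv 560 (both (five 2 558 561) (mv 463 (both (five 4 431 431) (five 7 463 592)))))))))))))))))))))))))))))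 (both (mv 529 (both (mv 530 (both (mv 499 (both (five 1 495 498) (mv 531 (both (five 3 495 495) (five 1 496 500))))) (mv 558 (both (five 2 526 559) (mv 526 (both (five 2 525 557) (mv 562 (both (five 0 526 561) (five 0 527 563))))))))) (both (mv 526 (both (mv 493 (both (five 3 493 494) (mv 525 (both (five 3 492 492) (mv 557 (both (five 2 524 556) (five 2 525 558))))))) (both (mv 557 (both (five 2 525 558) (mv 525 (both (five 2 524 556) (mv 561 (both (five 0 525 560) (five 0 526 562))))))) (both (mv 493 (both (five 3 493 494) (mv 525 (both (five 3 492 492) (mv 561 (both (five 0 525 560) (five 0 526 562))))))) (mv 494 (both (five 3 493 493) (mv 462 (both (mv 430 (both (five 4 430 559) (mv 397 (both (five 7 397 429) (mv 398 (both (five 7 365 365) (five 4 398 495))))))) (both (mv 558 (both (five 2 525 557) (mv 463 (both (five 5 430 431) (mv 561 (both (five 0 526 562) (mv 590 (both (five 5 462 495) (mv 589 (both (five 6 493 621) (mv 591 (both (five 4 494 623) (mv 592 (both (five 1 557 560) (mv 625 (both (five 7 496 593) (five 0 589 624))))))))))))))))) (mv 430 (both (five 4 430 559) (mv 397 (both (five 7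 397 429) (mv 365 (both (five 7 365 398) (mv 431 (both (five 5 398 399) (mv 558 (both (five 5 430 463) (five 2 525 557)))))))))))))))))))) (both (mv 526 (both (mv 493 (both (five 3 493 494) (mv 525 (both (five 3 492 492) (mv 557 (both (five 2 524 556) (five 2 525 558))))))) (both (mv 493 (both (five 3 493 494) (mv 525 (both (five 3 492 492) (mv 561 (both (five 0 525 560) (five 0 526 562))))))) (both (mv 557 (both (five 2 525 558) (mv 525 (both (five 2 524 556) (mv 561 (both (five 0 525 560) (five 0 526 562))))))) (mv 493 (both (five 3 493 494) (mv 558 (both (five 2 525 557) (mv 530 (both (five 2 526 559) (mv 562 (both (five 0 526 561) (five 0 527 563))))))))))))) (both (mv 530 (both (mv 499 (both (five 1 495 498) (mv 531 (both (five 3 495 495) (five 1 496 500))))) (both (mv 498 (both (five 1 495 499) (mv 559 (both (five 2 526 558) (mv 531 (both (five 2 527 560) (mv 563 (both (five 0 527 562) (five 0 528 564))))))))) (mv 495 (both (five 3 494 494) (mv 559 (both (five 2 526 558) (mv 562 (both (five 0 527 563) (mv 591 (both (five 5 495 623) (mv 590 (both (five 6 494 622) (mv 560 (both (five 2 558 561)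 (mv 463 (both (five 4 431 431) (five 7 463 592)))))))))))))))))) (both (mv 530 (both (mv 498 (both (five 1 495 499) (mv 562 (both (five 0 527 563) (mv 561 (both (five 0 526 526) (mv 466 (both (five 6 433 434) (five 6 465 593))))))))) (mv 495 (both (five 3 494 494) (five 3 495 531))))) (mv 530 (both (mv 495 (both (five 3 494 494) (five 3 495 531))) (both (mv 499 (both (five 1 495 498) (mv 531 (both (five 1 496 500) (mv 559 (both (five 2 526 558) (five 2 527 560))))))) (mv 494 (both (five 3 494 495) (mv 498 (both (five 1 495 499) (mv 526 (both (five 3 493 493) (mv 558 (both (five 2 525 557) (five 2 526 559)))))))))))))))))) (both (mv 526 (both (mv 497 (both (five 1 493 525) (mv 498 (both (five 2 495 499) (five 1 494 529))))) (both (mv 529 (both (mv 558 (both (five 2 525 557) (mv 530 (both (five 2 526 559) (mv 562 (both (five 0 526 561) (five 0 527 563))))))) (both (mv 493 (both (five 3 493 494) (mv 497 (both (five 1 494 498) (mv 561 (both (five 0 526 562) (mv 593 (both (five 7 496 625) (mv 592 (both (five 6 496 624) (mv 465 (both (five 5 464 560) (mv 433 (both (five 6 400 401) (mv 434 (both (five 5 401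 402) (five 5 433 466))))))))))))))))) (mv 493 (both (five 3 493 494) (mv 498 (both (five 1 494 497) (mv 530 (both (five 1 495 499) (mv 558 (both (five 2 525 557) (five 2 526 559)))))))))))) (both (mv 529 (both (mv 493 (both (five 3 493 494) (mv 525 (both (five 3 492 492) (mv 557 (both (five 2 524 556) (five 2 525 558))))))) (both (mv 493 (both (five 3 493 494) (mv 525 (both (five 3 492 492) (mv 561 (both (five 0 525 560) (five 0 526 562))))))) (mv 558 (both (five 2 525 557) (mv 530 (both (five 2 526 559) (mv 562 (both (five 0 526 561) (five 0 527 563)))))))))) (mv 525 (both (five 1 493 497) (mv 492 (both (five 3 492 493) (mv 524 (both (five 3 491 491) (mv 556 (both (five 2 523 555) (five 2 524 557))))))))))))) (both (mv 495 (both (mv 497 (both (mv 498 (both (five 2 495 499) (five 2 494 526))) (both (mv 498 (both (five 2 495 499) (mv 466 (both (five 1 463 467) (mv 465 (both (five 1 462 494) (mv 433 (both (five 6 400 401) (mv 530 (both (five 0 495 531) (five 7 433 562))))))))))) (mv 494 (both (mv 461 (both (five 3 461 462) (mv 493 (both (five 3 460 460) (five 0 492 492))))) (both (mv 465 (both (five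 1 462 466) (mv 401 (both (five 6 400 433) (mv 493 (both (five 0 492 492) (mv 525 (both (five 2 492 524) (five 2 493 526))))))))) (mv 462 (both (five 3 461 461) (mv 430 (both (five 4 398 398) (mv 526 (both (five 1 493 525) (five 4 430 559))))))))))))) (both (mv 463 (both (mv 431 (both (five 4 399 399) (five 4 431 560))) (both (mv 559 (both (mv 590 (both (five 6 462 558) (mv 591 (both (five 6 494 622) (five 5 495 623))))) (both (mv 430 (both (five 7 430 462) (mv 558 (both (five 6 462 590) (mv 557 (both (five 1 524 556) (mv 560 (both (five 7 463 592) (mv 525 (both (five 3 524 524) (mv 526 (both (five 0 525 561) (mv 492 (both (five 3 492 493) (mv 589 (both (five 2 556 588) (mv 621 (both (five 5 493 494) (five 5 525 653))))))))))))))))))) (mv 591 (both (five 5 495 623) (mv 592 (both (five 4 463 560) (five 4 495 624)))))))) (mv 431 (both (five 4 399 399) (mv 430 (both (five 7 398 398) (mv 432 (both (five 5 399 400) (mv 462 (both (five 7 430 559) (mv 433 (both (five 2 430 434) (five 2 429 461)))))))))))))) (both (mv 463 (both (mv 431 (both (five 4 399 399) (five 4 431 560))) (mv 559 (both (mv 590 (both (five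 6 462 558) (mv 591 (both (five 6 494 622) (five 5 495 623))))) (mv 462 (both (five 7 430 430) (mv 461 (both (five 0 460 460) (mv 497 (both (five 3 461 494) (five 3 462 498))))))))))) (both (mv 497 (both (mv 498 (both (five 2 495 499) (five 2 494 526))) (both (mv 498 (both (five 2 495 499) (mv 466 (both (five 1 463 467) (mv 465 (both (five 1 462 494) (mv 433 (both (five 6 400 401) (mv 530 (both (five 0 495 531) (five 7 433 562))))))))))) (mv 494 (both (mv 461 (both (five 3 461 462) (mv 493 (both (five 3 460 460) (five 0 492 492))))) (both (mv 462 (both (five 3 461 461) (mv 430 (both (five 4 398 398) (mv 465 (both (five 1 462 466) (mv 401 (both (five 6 400 433) (mv 526 (both (five 2 493 525) (mv 397 (both (five 7 397 429) (mv 431 (both (five 5 398 399) (mv 463 (both (five 6 430 558) (five 4 431 560))))))))))))))))) (mv 493 (both (five 0 492 492) (mv 525 (both (five 2 492 524) (five 2 493 526))))))))))) (both (mv 463 (both (mv 431 (both (five 4 399 399) (five 4 431 560))) (both (mv 431 (both (five 4 399 399) (mv 398 (both (five 7 398 430) (mv 400 (both (five 5 399 432) (mv 526 (both (five 6 430 558) (mv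 497 (both (five 2 494 498) (five 1 493 525))))))))))) (mv 559 (both (mv 590 (both (five 6 462 558) (mv 591 (both (five 6 494 622) (five 5 495 623))))) (both (mv 558 (both (five 6 462 590) (mv 557 (both (five 1 524 556) (mv 560 (both (five 7 463 592) (mv 525 (both (five 3 524 524) (mv 526 (both (five 1 493 497) (five 0 525 561))))))))))) (mv 591 (both (five 5 495 623) (mv 592 (both (five 4 463 560) (five 4 495 624))))))))))) (mv 497 (both (mv 498 (both (five 2 495 499) (five 2 494 526))) (both (mv 498 (both (five 2 495 499) (mv 466 (both (five 1 463 467) (mv 465 (both (five 1 462 494) (mv 433 (both (five 6 400 401) (mv 530 (both (five 0 495 531) (five 7 433 562))))))))))) (mv 494 (both (mv 461 (both (five 3 461 462) (mv 493 (both (five 3 460 460) (five 0 492 492))))) (both (mv 462 (both (five 3 461 461) (mv 465 (both (five 1 462 466) (mv 401 (both (five 6 400 433) (mv 525 (both (five 2 493 526) (mv 559 (both (five 7 462 591) (mv 560 (both (five 5 464 592) (mv 463 (both (five 4 431 431) (mv 558 (both (five 6 462 590) (mv 557 (both (five 3 524 524) (five 1 524 556))))))))))))))))))) (mv 493 (both (five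 0 492 492) (mv 525 (both (five 2 492 524) (five 2 493 526))))))))))))))))) (both (mv 526 (both (mv 529 (both (mv 493 (both (five 3 493 494) (mv 525 (both (five 3 492 492) (mv 557 (both (five 2 524 556) (five 2 525 558))))))) (mv 562 (both (five 0 526 561) (mv 530 (both (five 0 527 563) (mv 499 (both (five 1 495 498) (mv 531 (both (five 3 495 495) (five 1 496 500))))))))))) (both (mv 529 (both (mv 558 (both (five 2 525 557) (mv 530 (both (five 2 526 559) (mv 562 (both (five 0 526 561) (five 0 527 563))))))) (both (mv 562 (both (five 0 526 561) (mv 530 (both (five 0 527 563) (mv 499 (both (five 1 495 498) (mv 531 (both (five 3 495 495) (five 1 496 500))))))))) (mv 495 (both (mv 558 (both (five 2 525 557) (mv 463 (both (five 6 430 431) (mv 590 (both (five 6 462 559) (five 5 494 622))))))) (both (mv 494 (both (five 0 493 493) (mv 497 (both (five 2 494 498) (mv 462 (both (five 3 461 461) (mv 430 (both (five 4 398 398) (five 4 430 559))))))))) (mv 494 (both (five 0 493 493) (mv 558 (both (five 2 525 557) (mv 463 (both (five 6 430 431) (five 5 462 590))))))))))))) (both (mv 497 (both (five 1 493 525) (mv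 498 (both (five 2 495 499) (five 1 494 529))))) (mv 525 (both (five 1 493 497) (mv 492 (both (five 3 492 493) (mv 524 (both (five 3 491 491) (mv 556 (both (five 2 523 555) (five 2 524 557))))))))))))) (both (mv 495 (both (mv 494 (both (mv 497 (both (mv 498 (both (five 2 495 499) (five 2 494 526))) (mv 462 (both (five 3 461 461) (mv 430 (both (five 4 398 398) (mv 559 (both (five 7 430 463) (five 7 462 591))))))))) (mv 493 (both (five 0 492 492) (five 0 493 529))))) (both (mv 463 (both (mv 431 (both (five 4 399 399) (five 4 431 560))) (mv 559 (both (mv 590 (both (five 6 462 558) (mv 591 (both (five 6 494 622) (five 5 495 623))))) (mv 462 (both (five 7 430 430) (mv 461 (both (five 0 460 460) (mv 497 (both (five 3 461 494) (five 3 462 498))))))))))) (both (mv 463 (both (mv 431 (both (five 4 399 399) (five 4 431 560))) (both (mv 431 (both (five 4 399 399) (mv 430 (both (five 7 398 398) (mv 432 (both (five 5 399 400) (mv 462 (both (five 7 430 559) (mv 433 (both (five 2 430 434) (five 2 429 461))))))))))) (mv 559 (both (mv 590 (both (five 6 462 558) (mv 591 (both (five 6 494 622) (five 5 495 623))))) (both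 (mv 591 (both (five 5 495 623) (mv 592 (both (five 4 463 560) (five 4 495 624))))) (mv 430 (both (five 7 430 462) (mv 558 (both (five 6 462 590) (mv 529 (both (five 2 526 530) (mv 557 (both (five 1 524 556) (five 1 525 560))))))))))))))) (mv 529 (both (mv 494 (both (five 0 493 493) (five 3 494 530))) (both (mv 497 (both (mv 498 (both (five 2 495 499) (five 2 494 526))) (mv 494 (both (five 0 493 493) (mv 465 (both (five 1 462 466) (mv 433 (both (five 6 400 401) (five 6 432 560))))))))) (mv 530 (both (five 3 495 531) (mv 498 (both (five 1 495 499) (mv 562 (both (five 0 527 563) (mv 561 (both (five 0 526 526) (mv 466 (both (five 6 433 434) (five 6 465 593)))))))))))))))))) (both (mv 526 (both (mv 529 (both (mv 558 (both (five 2 525 557) (mv 530 (both (five 2 526 559) (mv 562 (both (five 0 526 561) (five 0 527 563))))))) (both (mv 562 (both (five 0 526 561) (mv 530 (both (five 0 527 563) (mv 531 (both (five 3 495 495) (mv 497 (both (five 3 496 532) (mv 465 (both (five 4 433 433) (mv 560 (both (five 2 527 559) (five 5 464 592))))))))))))) (both (mv 493 (both (five 3 493 494) (mv 558 (both (five 2 525 557)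 (mv 530 (both (five 2 526 559) (mv 531 (both (five 3 495 495) (mv 499 (both (five 1 496 500) (mv 532 (both (five 3 496 497) (mv 564 (both (five 0 528 563) (five 0 529 565))))))))))))))) (both (mv 494 (both (five 3 493 493) (mv 462 (both (mv 430 (both (five 4 430 559) (mv 397 (both (five 7 397 429) (mv 398 (both (five 7 365 365) (five 4 398 495))))))) (both (mv 558 (both (five 2 525 557) (mv 463 (both (five 5 430 431) (mv 561 (both (five 0 526 562) (mv 590 (both (five 5 462 495) (mv 589 (both (five 6 493 621) (mv 591 (both (five 4 494 623) (mv 592 (both (five 1 557 560) (mv 625 (both (five 7 496 593) (five 0 589 624))))))))))))))))) (mv 430 (both (five 4 430 559) (mv 397 (both (five 7 397 429) (mv 365 (both (five 7 365 398) (mv 431 (both (five 5 398 399) (mv 558 (both (five 5 430 463) (five 2 525 557)))))))))))))))) (mv 493 (both (five 3 493 494) (mv 557 (both (five 2 525 558) (mv 562 (both (five 0 526 561) (mv 530 (both (five 0 527 563) (mv 531 (both (five 3 495 495) (mv 500 (both (five 1 496 499) (mv 532 (both (five 3 496 497) (five 1 497 501)))))))))))))))))))) (both (mv 525 (both (mv 492 (both (five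 3 492 493) (mv 524 (both (five 3 491 491) (five 1 492 495))))) (mv 557 (both (five 2 524 556) (mv 529 (both (five 2 525 558) (mv 561 (both (five 0 525 560) (five 0 526 562))))))))) (both (mv 525 (both (five 1 493 497) (mv 557 (both (five 2 524 556) (mv 529 (both (five 2 525 558) (mv 561 (both (five 0 525 560) (five 0 526 562))))))))) (mv 525 (both (five 1 493 497) (mv 492 (both (five 3 492 493) (mv 524 (both (five 3 491 491) (five 1 492 495))))))))))) (both (mv 526 (both (mv 497 (both (five 1 493 525) (mv 498 (both (five 2 494 495) (five 2 495 499))))) (both (mv 529 (both (mv 558 (both (five 2 525 557) (mv 530 (both (five 2 526 559) (mv 562 (both (five 0 526 561) (five 0 527 563))))))) (both (mv 498 (both (five 1 494 497) (mv 530 (both (five 1 495 499) (mv 558 (both (five 2 525 557) (five 2 526 559))))))) (mv 497 (both (five 1 494 498) (mv 561 (both (five 0 526 562) (mv 593 (both (five 7 496 625) (mv 592 (both (five 6 496 624) (mv 465 (both (five 5 464 560) (mv 433 (both (five 6 400 401) (mv 434 (both (five 5 401 402) (five 5 433 466)))))))))))))))))) (mv 525 (both (mv 492 (both (five 3 492 493) (mv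 524 (both (five 3 491 491) (five 1 492 495))))) (mv 557 (both (five 2 524 556) (mv 529 (both (five 2 525 558) (mv 561 (both (five 0 525 560) (five 0 526 562)))))))))))) (both (mv 526 (both (mv 525 (both (five 1 493 497) (mv 492 (both (five 3 492 493) (mv 524 (both (five 3 491 491) (five 1 492 495))))))) (both (mv 529 (both (mv 497 (both (five 1 494 498) (mv 561 (both (five 0 526 562) (mv 593 (both (five 7 496 625) (mv 592 (both (five 6 496 624) (mv 465 (both (five 5 464 560) (mv 433 (both (five 6 400 401) (mv 434 (both (five 5 401 402) (five 5 433 466))))))))))))))) (both (mv 494 (both (five 3 493 493) (mv 462 (both (mv 430 (both (five 4 430 559) (mv 397 (both (five 7 397 429) (mv 398 (both (five 7 365 365) (five 4 398 495))))))) (both (mv 558 (both (five 2 525 557) (mv 463 (both (five 5 430 431) (mv 561 (both (five 0 526 562) (mv 590 (both (five 5 462 495) (mv 589 (both (five 6 493 621) (mv 591 (both (five 4 494 623) (mv 592 (both (five 1 557 560) (mv 625 (both (five 7 496 593) (five 0 589 624))))))))))))))))) (mv 430 (both (five 4 430 559) (mv 397 (both (five 7 397 429) (mv 365 (both (five 7 365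 398) (mv 431 (both (five 5 398 399) (mv 558 (both (five 5 430 463) (five 2 525 557)))))))))))))))) (mv 495 (both (mv 558 (both (five 2 525 557) (mv 463 (both (five 6 430 431) (mv 590 (both (five 6 462 559) (five 5 494 622))))))) (both (mv 494 (both (five 0 493 493) (mv 497 (both (five 2 494 498) (mv 462 (both (five 3 461 461) (mv 430 (both (five 4 398 398) (five 4 430 559))))))))) (mv 494 (both (five 0 493 493) (mv 558 (both (five 2 525 557) (mv 463 (both (five 6 430 431) (five 5 462 590))))))))))))) (both (mv 525 (both (mv 492 (both (five 3 492 493) (mv 524 (both (five 3 491 491) (five 1 492 495))))) (mv 557 (both (five 2 524 556) (mv 529 (both (five 2 525 558) (mv 561 (both (five 0 525 560) (five 0 526 562))))))))) (mv 525 (both (five 1 493 497) (mv 557 (both (five 2 524 556) (mv 529 (both (five 2 525 558) (mv 561 (both (five 0 525 560) (five 0 526 562))))))))))))) (both (mv 497 (both (mv 498 (both (five 2 495 499) (mv 495 (both (mv 466 (both (five 1 463 467) (mv 465 (both (five 1 462 494) (mv 433 (both (five 6 400 401) (mv 530 (both (five 0 495 531) (five 7 433 562))))))))) (mv 463 (both (five 3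 462 462) (mv 431 (both (five 4 399 399) (five 4 431 560))))))))) (both (mv 526 (both (five 1 493 525) (mv 529 (both (mv 558 (both (five 2 525 557) (mv 530 (both (five 2 526 559) (mv 531 (both (five 3 495 495) (five 3 496 532))))))) (mv 561 (both (five 0 526 562) (mv 593 (both (five 7 496 625) (mv 592 (both (five 6 496 624) (mv 465 (both (five 5 464 560) (mv 433 (both (five 6 400 401) (mv 434 (both (five 5 401 402) (five 5 433 466))))))))))))))))) (mv 498 (both (five 2 495 499) (mv 526 (both (five 1 493 525) (five 1 494 529)))))))) (both (mv 495 (both (mv 463 (both (mv 431 (both (five 4 399 399) (five 4 431 560))) (both (mv 431 (both (five 4 399 399) (mv 430 (both (five 7 398 398) (mv 432 (both (five 5 399 400) (mv 462 (both (five 7 430 559) (mv 433 (both (five 2 430 434) (five 2 429 461))))))))))) (mv 559 (both (mv 590 (both (five 6 462 558) (mv 591 (both (five 6 494 622) (five 5 495 623))))) (both (mv 591 (both (five 5 495 623) (mv 592 (both (five 4 463 560) (five 4 495 624))))) (mv 430 (both (five 7 430 462) (mv 558 (both (five 6 462 590) (mv 529 (both (five 2 526 530) (mv 557 (both (five 1 524 556)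 (five 1 525 560))))))))))))))) (both (mv 463 (both (mv 431 (both (five 4 399 399) (five 4 431 560))) (mv 559 (both (mv 590 (both (five 6 462 558) (mv 591 (both (five 6 494 622) (five 5 495 623))))) (mv 462 (both (five 7 430 430) (mv 461 (both (five 0 460 460) (mv 497 (both (five 3 461 494) (five 3 462 498))))))))))) (both (mv 494 (both (mv 493 (both (five 0 492 492) (five 0 493 529))) (both (mv 493 (both (five 0 492 492) (mv 461 (both (five 3 460 460) (mv 462 (both (five 3 461 497) (mv 525 (both (five 2 492 524) (mv 430 (both (five 6 397 398) (five 5 429 557))))))))))) (mv 497 (both (mv 466 (both (five 1 462 465) (mv 498 (both (five 1 463 467) (mv 530 (both (five 0 494 529) (five 0 495 531))))))) (both (mv 461 (both (five 3 461 462) (mv 466 (both (five 1 462 465) (mv 498 (both (five 1 463 467) (five 2 495 499))))))) (both (mv 461 (both (five 3 461 462) (mv 465 (both (five 1 462 466) (mv 433 (both (five 6 400 401) (mv 529 (both (five 3 494 530) (five 6 432 560))))))))) (mv 461 (both (five 3 461 462) (mv 498 (both (five 2 495 499) (mv 530 (both (five 0 494 529) (five 0 495 531)))))))))))))) (mv 526 (both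 (mv 497 (both (five 2 494 498) (five 1 493 525))) (mv 529 (both (mv 494 (both (five 0 493 493) (five 3 494 530))) (mv 558 (both (five 2 525 557) (mv 463 (both (five 6 430 431) (mv 590 (both (five 6 462 559) (five 5 494 622))))))))))))))) (mv 497 (both (mv 498 (both (five 2 495 499) (mv 495 (both (mv 466 (both (five 1 463 467) (mv 465 (both (five 1 462 494) (mv 433 (both (five 6 400 401) (mv 530 (both (five 0 495 531) (five 7 433 562))))))))) (mv 463 (both (five 3 462 462) (mv 431 (both (five 4 399 399) (five 4 431 560))))))))) (both (mv 526 (both (five 1 493 525) (mv 529 (both (mv 561 (both (five 0 526 562) (mv 593 (both (five 7 496 625) (mv 592 (both (five 6 496 624) (mv 465 (both (five 5 464 560) (mv 433 (both (five 6 400 401) (mv 434 (both (five 5 401 402) (five 5 433 466))))))))))))) (both (mv 494 (both (five 3 493 493) (mv 495 (both (five 0 494 530) (mv 465 (both (five 1 462 466) (mv 433 (both (five 6 400 401) (five 6 432 560))))))))) (mv 493 (both (five 3 493 494) (mv 562 (both (five 0 526 561) (mv 530 (both (five 0 527 563) (mv 531 (both (five 3 495 495) (five 3 496 532)))))))))))))) (mv 498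 (both (five 2 495 499) (mv 526 (both (five 1 493 525) (five 1 494 529)))))))))))))))))))) (both (mv 464 (both (mv 560 (both (mv 591 (both (five 6 463 559) (mv 592 (both (five 6 495 623) (mv 593 (both (five 4 464 561) (five 4 496 625))))))) (both (mv 431 (both (five 7 431 463) (mv 465 (both (five 5 432 433) (mv 591 (both (five 6 463 559) (mv 592 (both (five 5 464 497) (five 6 495 623))))))))) (both (mv 431 (both (five 7 431 463) (mv 465 (both (five 5 432 433) (mv 592 (both (five 5 464 497) (mv 593 (both (five 4 464 561) (five 4 496 625))))))))) (mv 463 (both (five 7 431 431) (mv 462 (both (mv 461 (both (five 0 461 497) (mv 428 (both (five 3 428 429) (mv 460 (both (five 3 427 427) (mv 492 (both (five 2 459 491) (five 2 460 493))))))))) (both (mv 465 (both (five 5 432 433) (mv 429 (both (five 3 429 430) (mv 461 (both (five 3 428 428) (mv 493 (both (five 2 460 492) (five 2 461 494))))))))) (both (mv 465 (both (five 5 432 433) (mv 429 (both (five 3 429 430) (mv 493 (both (five 2 461 494) (mv 498 (both (five 0 462 497) (mv 466 (both (five 0 463 499) (mv 434 (both (five 1 431 435) (mv 559 (both (five 6 463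 591) (mv 561 (both (five 4 464 593) (mv 530 (both (five 6 433 529) (mv 531 (both (five 1 527 562) (five 4 434 563))))))))))))))))))))) (both (mv 461 (both (five 0 461 497) (mv 429 (both (five 3 428 428) (mv 465 (both (five 3 429 430) (five 5 432 433))))))) (mv 461 (both (five 0 461 497) (mv 465 (both (five 5 432 433) (mv 493 (both (five 2 460 492) (five 2 461 494)))))))))))))))))) (both (mv 432 (both (mv 399 (both (five 7 399 431) (mv 400 (both (five 7 367 367) (mv 401 (both (five 5 368 369) (five 5 400 433))))))) (both (mv 399 (both (five 7 399 431) (mv 400 (both (five 7 367 367) (mv 529 (both (five 4 400 497) (five 4 432 561))))))) (both (mv 401 (both (five 5 400 433) (mv 400 (both (five 5 368 369) (mv 529 (both (five 4 400 497) (five 4 432 561))))))) (mv 431 (both (five 7 399 399) (mv 430 (both (mv 429 (both (five 0 429 465) (mv 396 (both (five 3 396 397) (mv 428 (both (five 3 395 395) (five 0 428 463))))))) (both (mv 433 (both (five 5 400 401) (mv 462 (both (five 2 429 461) (mv 434 (both (five 2 430 463) (mv 402 (both (five 1 399 403) (mv 466 (both (five 0 431 467) (mv 527 (both (five 6 431 559)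 (mv 529 (both (five 4 432 561) (mv 498 (both (five 6 401 497) (mv 499 (both (five 1 495 530) (five 4 402 531))))))))))))))))))) (mv 401 (both (five 5 400 433) (mv 429 (both (five 0 429 465) (mv 396 (both (five 3 396 397) (mv 428 (both (five 3 395 395) (mv 460 (both (five 2 427 459) (five 2 428 461)))))))))))))))))))) (both (mv 560 (both (mv 591 (both (five 6 463 559) (mv 592 (both (five 6 495 623) (mv 593 (both (five 4 464 561) (five 4 496 625))))))) (both (mv 431 (both (five 7 431 463) (mv 432 (both (five 7 399 399) (mv 559 (both (five 6 431 527) (five 6 463 591))))))) (mv 431 (both (five 7 431 463) (mv 432 (both (five 7 399 399) (mv 561 (both (five 4 432 529) (five 4 464 593)))))))))) (both (mv 432 (both (mv 433 (both (five 5 400 401) (mv 559 (both (five 6 431 527) (mv 560 (both (five 5 432 465) (five 6 463 591))))))) (both (mv 399 (both (five 7 399 431) (mv 400 (both (five 7 367 367) (mv 369 (both (five 5 368 401) (mv 368 (both (five 5 336 337) (mv 497 (both (five 4 368 465) (five 4 400 529))))))))))) (both (mv 399 (both (five 7 399 431) (mv 400 (both (five 7 367 367) (mv 497 (both (five 4 400 529)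 (mv 465 (both (five 4 368 368) (mv 560 (both (five 5 432 433) (five 5 464 592))))))))))) (mv 399 (both (five 7 399 431) (mv 400 (both (five 7 367 367) (mv 401 (both (five 5 368 369) (five 5 400 433))))))))))) (both (mv 560 (both (mv 465 (both (five 5 432 433) (mv 592 (both (five 5 464 497) (mv 593 (both (five 4 464 561) (five 4 496 625))))))) (mv 431 (both (five 7 431 463) (mv 432 (both (five 7 399 399) (mv 559 (both (five 6 431 527) (five 6 463 591))))))))) (both (mv 560 (both (mv 591 (both (five 6 463 559) (mv 592 (both (five 6 495 623) (mv 593 (both (five 4 464 561) (five 4 496 625))))))) (both (mv 465 (both (five 5 432 433) (mv 591 (both (five 6 463 559) (mv 592 (both (five 5 464 497) (five 6 495 623))))))) (mv 433 (both (five 5 432 465) (mv 432 (both (five 5 400 401) (mv 561 (both (five 4 432 529) (five 4 464 593)))))))))) (mv 432 (both (mv 433 (both (five 5 400 401) (mv 560 (both (five 5 432 465) (mv 561 (both (five 4 432 529) (five 4 464 593))))))) (both (mv 399 (both (five 7 399 431) (mv 400 (both (five 7 367 367) (mv 529 (both (five 4 400 497) (five 4 432 561))))))) (mv 399 (both (five 7 399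 431) (mv 400 (both (five 7 367 367) (mv 401 (both (five 5 368 369) (five 5 400 433))))))))))))))))) (both (mv 464 (both (mv 560 (both (mv 591 (both (five 6 463 559) (mv 592 (both (five 6 495 623) (mv 593 (both (five 4 464 561) (five 4 496 625))))))) (both (mv 431 (both (five 7 431 463) (mv 432 (both (five 7 399 399) (mv 559 (both (five 6 431 527) (five 6 463 591))))))) (mv 431 (both (five 7 431 463) (mv 432 (both (five 7 399 399) (mv 561 (both (five 4 432 529) (five 4 464 593)))))))))) (both (mv 560 (both (mv 591 (both (five 6 463 559) (mv 592 (both (five 6 495 623) (mv 593 (both (five 4 464 561) (five 4 496 625))))))) (both (mv 433 (both (five 5 432 465) (mv 463 (both (five 7 431 431) (mv 592 (both (five 7 463 495) (mv 593 (both (five 4 464 561) (five 4 496 625))))))))) (both (mv 433 (both (five 5 432 465) (mv 463 (both (five 7 431 431) (mv 591 (both (five 6 463 559) (mv 592 (both (five 7 463 495) (five 6 495 623))))))))) (mv 465 (both (five 5 432 433) (mv 466 (both (mv 467 (both (five 2 463 495) (mv 436 (both (five 1 432 435) (mv 468 (both (five 1 433 437) (mv 500 (both (five 0 464 499) (five 0 465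 501))))))))) (both (mv 463 (both (five 7 431 431) (mv 434 (both (five 1 431 435) (mv 498 (both (five 0 463 499) (mv 559 (both (five 6 463 591) (mv 561 (both (five 4 464 593) (mv 530 (both (five 6 433 529) (mv 531 (both (five 1 527 562) (five 4 434 563))))))))))))))) (mv 463 (both (five 7 431 431) (mv 495 (both (five 2 463 467) (five 2 462 494)))))))))))))) (both (mv 432 (both (mv 401 (both (five 5 400 433) (mv 400 (both (five 5 368 369) (mv 527 (both (five 6 399 495) (five 6 431 559))))))) (both (mv 399 (both (five 7 399 431) (mv 400 (both (five 7 367 367) (mv 527 (both (five 6 399 495) (five 6 431 559))))))) (mv 431 (both (five 7 399 399) (mv 430 (both (mv 429 (both (five 0 429 465) (mv 396 (both (five 3 396 397) (mv 428 (both (five 3 395 395) (five 0 428 463))))))) (both (mv 433 (both (five 5 400 401) (mv 462 (both (five 2 429 461) (mv 434 (both (five 2 430 463) (mv 403 (both (five 1 399 402) (mv 435 (both (five 1 400 404) (mv 467 (both (five 0 431 466) (five 0 432 468))))))))))))) (mv 429 (both (five 0 429 465) (mv 396 (both (five 3 396 397) (mv 428 (both (five 3 395 395) (mv 460 (both (five 2 427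 459) (five 2 428 461))))))))))))))))) (both (mv 560 (both (mv 591 (both (five 6 463 559) (mv 592 (both (five 6 495 623) (mv 593 (both (five 4 464 561) (five 4 496 625))))))) (both (mv 433 (both (five 5 432 465) (mv 432 (both (five 5 400 401) (mv 561 (both (five 4 432 529) (five 4 464 593))))))) (mv 433 (both (five 5 432 465) (mv 432 (both (five 5 400 401) (mv 559 (both (five 6 431 527) (five 6 463 591)))))))))) (mv 432 (both (mv 433 (both (five 5 400 401) (mv 560 (both (five 5 432 465) (mv 561 (both (five 4 432 529) (five 4 464 593))))))) (both (mv 399 (both (five 7 399 431) (mv 400 (both (five 7 367 367) (mv 369 (both (five 5 368 401) (mv 368 (both (five 5 336 337) (mv 495 (both (five 6 367 463) (five 6 399 527))))))))))) (mv 399 (both (five 7 399 431) (mv 400 (both (five 7 367 367) (mv 495 (both (five 6 399 527) (mv 463 (both (five 6 367 368) (mv 529 (both (five 4 432 561) (mv 494 (both (five 0 493 493) (mv 465 (both (five 2 462 466) (mv 560 (both (five 5 432 433) (five 7 463 592))))))))))))))))))))))))) (both (mv 560 (both (mv 592 (both (mv 497 (both (five 5 464 465) (mv 624 (both (five 5 496 529)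 (mv 625 (both (five 4 496 593) (five 4 528 657))))))) (both (mv 463 (both (five 7 463 495) (mv 623 (both (five 6 495 591) (mv 624 (both (five 6 527 655) (mv 625 (both (five 4 496 593) (five 4 528 657))))))))) (both (mv 497 (both (five 5 464 465) (mv 623 (both (five 6 495 591) (mv 624 (both (five 5 496 529) (five 6 527 655))))))) (mv 495 (both (five 7 463 463) (mv 494 (both (mv 493 (both (five 0 493 529) (mv 460 (both (five 3 460 461) (mv 492 (both (five 3 459 459) (mv 524 (both (five 2 491 523) (five 2 492 525))))))))) (both (mv 497 (both (five 5 464 465) (mv 461 (both (five 3 461 462) (mv 493 (both (five 3 460 460) (mv 525 (both (five 2 492 524) (five 2 493 526))))))))) (both (mv 497 (both (five 5 464 465) (mv 462 (both (five 3 461 461) (mv 526 (both (five 2 493 525) (mv 529 (both (five 0 494 530) (mv 591 (both (five 6 495 623) (mv 558 (both (five 4 462 559) (mv 557 (both (five 6 461 589) (mv 593 (both (five 3 557 590) (five 4 496 625))))))))))))))))) (both (mv 493 (both (five 0 493 529) (mv 461 (both (five 3 460 460) (mv 497 (both (five 3 461 462) (five 5 464 465))))))) (mv 493 (both (five 0 493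 529) (mv 497 (both (five 5 464 465) (mv 525 (both (five 2 492 524) (five 2 493 526)))))))))))))))))) (both (mv 464 (both (mv 431 (both (five 7 431 463) (mv 432 (both (five 7 399 399) (mv 561 (both (five 4 432 529) (five 4 464 593))))))) (both (mv 431 (both (five 7 431 463) (mv 432 (both (five 7 399 399) (mv 433 (both (five 5 400 401) (five 5 432 465))))))) (both (mv 433 (both (five 5 432 465) (mv 432 (both (five 5 400 401) (mv 561 (both (five 4 432 529) (five 4 464 593))))))) (mv 465 (both (five 5 432 433) (mv 466 (both (mv 467 (both (five 2 463 495) (mv 436 (both (five 1 432 435) (mv 468 (both (five 1 433 437) (mv 500 (both (five 0 464 499) (five 0 465 501))))))))) (both (mv 463 (both (five 7 431 431) (mv 434 (both (five 1 431 435) (mv 498 (both (five 0 463 499) (mv 559 (both (five 6 463 591) (mv 561 (both (five 4 464 593) (mv 530 (both (five 6 433 529) (mv 531 (both (five 1 527 562) (five 4 434 563))))))))))))))) (mv 463 (both (five 7 431 431) (mv 495 (both (five 2 463 467) (five 2 462 494)))))))))))))) (both (mv 592 (both (mv 623 (both (five 6 495 591) (mv 624 (both (five 6 527 655) (mv 625 (both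 (five 4 496 593) (five 4 528 657))))))) (both (mv 463 (both (five 7 463 495) (mv 464 (both (five 7 431 431) (mv 591 (both (five 6 463 559) (five 6 495 623))))))) (mv 463 (both (five 7 463 495) (mv 464 (both (five 7 431 431) (mv 593 (both (five 4 464 561) (five 4 496 625)))))))))) (both (mv 464 (both (mv 465 (both (five 5 432 433) (mv 591 (both (five 6 463 559) (mv 592 (both (five 5 464 497) (five 6 495 623))))))) (both (mv 463 (both (five 7 431 431) (mv 591 (both (five 6 463 559) (mv 592 (both (five 7 463 495) (five 6 495 623))))))) (mv 431 (both (five 7 431 463) (mv 432 (both (five 7 399 399) (mv 433 (both (five 5 400 401) (five 5 432 465)))))))))) (both (mv 592 (both (mv 623 (both (five 6 495 591) (mv 624 (both (five 6 527 655) (mv 625 (both (five 4 496 593) (five 4 528 657))))))) (both (mv 497 (both (five 5 464 465) (mv 623 (both (five 6 495 591) (mv 624 (both (five 5 496 529) (five 6 527 655))))))) (mv 465 (both (five 5 464 497) (mv 464 (both (five 5 432 433) (mv 593 (both (five 4 464 561) (five 4 496 625)))))))))) (mv 464 (both (mv 465 (both (five 5 432 433) (mv 592 (both (five 5 464 497) (mv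 593 (both (five 4 464 561) (five 4 496 625))))))) (both (mv 431 (both (five 7 431 463) (mv 432 (both (five 7 399 399) (mv 561 (both (five 4 432 529) (five 4 464 593))))))) (mv 431 (both (five 7 431 463) (mv 432 (both (five 7 399 399) (mv 433 (both (five 5 400 401) (five 5 432 465)))))))))))))))) (both (mv 560 (both (mv 592 (both (mv 623 (both (five 6 495 591) (mv 624 (both (five 6 527 655) (mv 625 (both (five 4 496 593) (five 4 528 657))))))) (both (mv 463 (both (five 7 463 495) (mv 464 (both (five 7 431 431) (mv 591 (both (five 6 463 559) (five 6 495 623))))))) (mv 463 (both (five 7 463 495) (mv 464 (both (five 7 431 431) (mv 593 (both (five 4 464 561) (five 4 496 625)))))))))) (both (mv 592 (both (mv 495 (both (five 7 463 463) (mv 624 (both (five 7 495 527) (mv 625 (both (five 4 496 593) (five 4 528 657))))))) (both (mv 623 (both (five 6 495 591) (mv 624 (both (five 6 527 655) (mv 625 (both (five 4 496 593) (five 4 528 657))))))) (mv 497 (both (five 5 464 465) (mv 498 (both (mv 499 (both (five 2 495 527) (mv 468 (both (five 1 464 467) (mv 500 (both (five 1 465 469) (mv 532 (both (five 0 496 531)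 (five 0 497 533))))))))) (both (mv 495 (both (five 7 463 463) (mv 467 (both (five 1 463 466) (mv 499 (both (five 1 464 468) (mv 531 (both (five 0 495 530) (five 0 496 532))))))))) (both (mv 495 (both (five 7 463 463) (mv 466 (both (five 1 463 467) (mv 526 (both (five 2 494 527) (mv 494 (both (five 2 493 525) (mv 461 (both (five 3 461 462) (mv 493 (both (five 3 460 460) (mv 397 (both (five 4 397 429) (mv 590 (both (five 7 461 558) (mv 591 (both (five 6 495 623) (mv 561 (both (five 1 557 589) (mv 562 (both (five 2 558 559) (five 2 559 563))))))))))))))))))))))) (mv 495 (both (five 7 463 463) (mv 527 (both (five 2 495 499) (five 2 494 526)))))))))))))) (both (mv 464 (both (mv 431 (both (five 7 431 463) (mv 432 (both (five 7 399 399) (mv 559 (both (five 6 431 527) (five 6 463 591))))))) (both (mv 433 (both (five 5 432 465) (mv 432 (both (five 5 400 401) (mv 559 (both (five 6 431 527) (five 6 463 591))))))) (mv 463 (both (five 7 431 431) (mv 462 (both (mv 461 (both (five 0 461 497) (mv 429 (both (five 3 428 428) (mv 465 (both (five 3 429 430) (five 5 432 433))))))) (both (mv 461 (both (five 0 461 497) (mv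 428 (both (five 3 428 429) (mv 460 (both (five 3 427 427) (mv 492 (both (five 2 459 491) (five 2 460 493))))))))) (both (mv 465 (both (five 5 432 433) (mv 429 (both (five 3 429 430) (mv 461 (both (five 3 428 428) (mv 493 (both (five 2 460 492) (five 2 461 494))))))))) (both (mv 465 (both (five 5 432 433) (mv 429 (both (five 3 429 430) (mv 493 (both (five 2 461 494) (mv 498 (both (five 0 462 497) (mv 466 (both (five 0 463 499) (mv 435 (both (five 1 431 434) (mv 467 (both (five 1 432 436) (five 2 463 495))))))))))))))) (mv 461 (both (five 0 461 497) (mv 465 (both (five 5 432 433) (mv 493 (both (five 2 460 492) (five 2 461 494))))))))))))))))) (both (mv 592 (both (mv 623 (both (five 6 495 591) (mv 624 (both (five 6 527 655) (mv 625 (both (five 4 496 593) (five 4 528 657))))))) (both (mv 465 (both (five 5 464 497) (mv 464 (both (five 5 432 433) (mv 593 (both (five 4 464 561) (five 4 496 625))))))) (mv 465 (both (five 5 464 497) (mv 464 (both (five 5 432 433) (mv 591 (both (five 6 463 559) (five 6 495 623)))))))))) (mv 464 (both (mv 465 (both (five 5 432 433) (mv 592 (both (five 5 464 497) (mv 593 (both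 (five 4 464 561) (five 4 496 625))))))) (both (mv 463 (both (five 7 431 431) (mv 592 (both (five 7 463 495) (mv 593 (both (five 4 464 561) (five 4 496 625))))))) (mv 431 (both (five 7 431 463) (mv 432 (both (five 7 399 399) (mv 433 (both (five 5 400 401) (five 5 432 465))))))))))))))) (both (mv 560 (both (mv 592 (both (mv 623 (both (five 6 495 591) (mv 624 (both (five 6 527 655) (mv 625 (both (five 4 496 593) (five 4 528 657))))))) (both (mv 463 (both (five 7 463 495) (mv 464 (both (five 7 431 431) (mv 591 (both (five 6 463 559) (five 6 495 623))))))) (mv 463 (both (five 7 463 495) (mv 464 (both (five 7 431 431) (mv 593 (both (five 4 464 561) (five 4 496 625)))))))))) (both (mv 464 (both (mv 559 (both (five 6 463 591) (mv 558 (both (mv 529 (both (five 1 525 557) (mv 530 (both (five 2 526 527) (five 2 527 531))))) (both (mv 561 (both (five 4 464 593) (mv 525 (both (five 3 525 526) (mv 557 (both (five 3 524 524) (mv 589 (both (five 2 556 588) (five 2 557 590))))))))) (mv 561 (both (five 4 464 593) (mv 526 (both (five 3 525 525) (mv 527 (both (five 3 526 562) (mv 529 (both (five 2 526 530) (mv 493 (both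 (five 3 493 494) (mv 497 (both (five 1 494 498) (mv 590 (both (five 2 557 589) (mv 622 (both (five 5 494 495) (five 5 526 654)))))))))))))))))))))) (both (mv 463 (both (five 7 431 431) (mv 462 (both (mv 461 (both (five 0 461 497) (mv 428 (both (five 3 428 429) (mv 460 (both (five 3 427 427) (mv 492 (both (five 2 459 491) (five 2 460 493))))))))) (both (mv 465 (both (five 5 432 433) (mv 429 (both (five 3 429 430) (mv 461 (both (five 3 428 428) (mv 493 (both (five 2 460 492) (five 2 461 494))))))))) (both (mv 465 (both (five 5 432 433) (mv 429 (both (five 3 429 430) (mv 493 (both (five 2 461 494) (mv 498 (both (five 0 462 497) (mv 466 (both (five 0 463 499) (mv 434 (both (five 1 431 435) (mv 559 (both (five 6 463 591) (mv 561 (both (five 4 464 593) (mv 530 (both (five 6 433 529) (mv 531 (both (five 1 527 562) (five 4 434 563))))))))))))))))))))) (both (mv 461 (both (five 0 461 497) (mv 429 (both (five 3 428 428) (mv 465 (both (five 3 429 430) (five 5 432 433))))))) (mv 461 (both (five 0 461 497) (mv 465 (both (five 5 432 433) (mv 493 (both (five 2 460 492) (five 2 461 494)))))))))))))) (both (mv 465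 (both (five 5 432 433) (mv 466 (both (mv 467 (both (five 2 463 495) (mv 436 (both (five 1 432 435) (mv 468 (both (five 1 433 437) (mv 500 (both (five 0 464 499) (five 0 465 501))))))))) (both (mv 463 (both (five 7 431 431) (mv 434 (both (five 1 431 435) (mv 498 (both (five 0 463 499) (mv 559 (both (five 6 463 591) (mv 561 (both (five 4 464 593) (mv 530 (both (five 6 433 529) (mv 531 (both (five 1 527 562) (five 4 434 563))))))))))))))) (mv 463 (both (five 7 431 431) (mv 495 (both (five 2 463 467) (five 2 462 494)))))))))) (both (mv 463 (both (five 7 431 431) (mv 462 (both (mv 465 (both (five 5 432 433) (mv 429 (both (five 3 429 430) (mv 461 (both (five 3 428 428) (mv 460 (both (five 0 460 495) (mv 492 (both (five 2 459 491) (five 2 460 493))))))))))) (both (mv 461 (both (five 0 461 497) (mv 428 (both (five 3 428 429) (mv 460 (both (five 3 427 427) (mv 492 (both (five 2 459 491) (five 2 460 493))))))))) (mv 465 (both (five 5 432 433) (mv 498 (both (five 0 462 497) (mv 466 (both (five 0 463 499) (mv 435 (both (five 1 431 434) (mv 467 (both (five 1 432 436) (five 2 463 495)))))))))))))))) (mv 463 (both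 (five 7 431 431) (mv 462 (both (mv 461 (both (five 0 461 497) (mv 429 (both (five 3 428 428) (mv 465 (both (five 3 429 430) (five 5 432 433))))))) (both (mv 461 (both (five 0 461 497) (mv 428 (both (five 3 428 429) (mv 460 (both (five 3 427 427) (mv 492 (both (five 2 459 491) (five 2 460 493))))))))) (both (mv 465 (both (five 5 432 433) (mv 429 (both (five 3 429 430) (mv 494 (both (five 2 461 493) (mv 466 (both (five 2 462 495) (mv 434 (both (five 1 431 435) (mv 559 (both (five 6 463 591) (mv 561 (both (five 4 464 593) (mv 529 (both (five 5 433 497) (mv 530 (both (five 2 527 531) (five 1 526 558))))))))))))))))))) (both (mv 465 (both (five 5 432 433) (mv 429 (both (five 3 429 430) (mv 461 (both (five 3 428 428) (mv 493 (both (five 2 460 492) (five 2 461 494))))))))) (mv 461 (both (five 0 461 497) (mv 465 (both (five 5 432 433) (mv 493 (both (five 2 460 492) (five 2 461 494))))))))))))))))))) (both (mv 592 (both (mv 497 (both (five 5 464 465) (mv 624 (both (five 5 496 529) (mv 625 (both (five 4 496 593) (five 4 528 657))))))) (both (mv 463 (both (five 7 463 495) (mv 623 (both (five 6 495 591) (mv 624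 (both (five 6 527 655) (mv 625 (both (five 4 496 593) (five 4 528 657))))))))) (both (mv 497 (both (five 5 464 465) (mv 623 (both (five 6 495 591) (mv 624 (both (five 5 496 529) (five 6 527 655))))))) (mv 495 (both (five 7 463 463) (mv 494 (both (mv 493 (both (five 0 493 529) (mv 460 (both (five 3 460 461) (mv 492 (both (five 3 459 459) (mv 524 (both (five 2 491 523) (five 2 492 525))))))))) (both (mv 497 (both (five 5 464 465) (mv 461 (both (five 3 461 462) (mv 493 (both (five 3 460 460) (mv 525 (both (five 2 492 524) (five 2 493 526))))))))) (both (mv 497 (both (five 5 464 465) (mv 462 (both (five 3 461 461) (mv 526 (both (five 2 493 525) (mv 529 (both (five 0 494 530) (mv 591 (both (five 6 495 623) (mv 558 (both (five 4 462 559) (mv 557 (both (five 6 461 589) (mv 593 (both (five 3 557 590) (five 4 496 625))))))))))))))))) (both (mv 493 (both (five 0 493 529) (mv 461 (both (five 3 460 460) (mv 497 (both (five 3 461 462) (five 5 464 465))))))) (mv 493 (both (five 0 493 529) (mv 497 (both (five 5 464 465) (mv 525 (both (five 2 492 524) (five 2 493 526)))))))))))))))))) (both (mv 592 (both (mv 623 (both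 (five 6 495 591) (mv 624 (both (five 6 527 655) (mv 625 (both (five 4 496 593) (five 4 528 657))))))) (both (mv 497 (both (five 5 464 465) (mv 623 (both (five 6 495 591) (mv 624 (both (five 5 496 529) (five 6 527 655))))))) (mv 465 (both (five 5 464 497) (mv 464 (both (five 5 432 433) (mv 593 (both (five 4 464 561) (five 4 496 625)))))))))) (both (mv 592 (both (mv 497 (both (five 5 464 465) (mv 624 (both (five 5 496 529) (mv 625 (both (five 4 496 593) (five 4 528 657))))))) (both (mv 495 (both (five 7 463 463) (mv 624 (both (five 7 495 527) (mv 625 (both (five 4 496 593) (five 4 528 657))))))) (mv 463 (both (five 7 463 495) (mv 464 (both (five 7 431 431) (mv 465 (both (five 5 432 433) (five 5 464 497)))))))))) (mv 592 (both (mv 497 (both (five 5 464 465) (mv 623 (both (five 6 495 591) (mv 624 (both (five 5 496 529) (five 6 527 655))))))) (both (mv 463 (both (five 7 463 495) (mv 464 (both (five 7 431 431) (mv 591 (both (five 6 463 559) (five 6 495 623))))))) (mv 463 (both (five 7 463 495) (mv 464 (both (five 7 431 431) (mv 465 (both (five 5 432 433) (five 5 464 497)))))))))))))))) (both (mv 464 (both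 (mv 560 (both (mv 591 (both (five 6 463 559) (mv 592 (both (five 6 495 623) (mv 593 (both (five 4 464 561) (five 4 496 625))))))) (both (mv 465 (both (five 5 432 433) (mv 591 (both (five 6 463 559) (mv 592 (both (five 5 464 497) (five 6 495 623))))))) (both (mv 465 (both (five 5 432 433) (mv 592 (both (five 5 464 497) (mv 593 (both (five 4 464 561) (five 4 496 625))))))) (mv 559 (both (five 6 463 591) (mv 558 (both (mv 529 (both (five 1 525 557) (mv 530 (both (five 2 526 527) (five 2 527 531))))) (both (mv 561 (both (five 4 464 593) (mv 525 (both (five 3 525 526) (mv 557 (both (five 3 524 524) (mv 589 (both (five 2 556 588) (five 2 557 590))))))))) (mv 561 (both (five 4 464 593) (mv 526 (both (five 3 525 525) (mv 527 (both (five 3 526 562) (mv 529 (both (five 2 526 530) (mv 493 (both (five 3 493 494) (mv 497 (both (five 1 494 498) (mv 590 (both (five 2 557 589) (mv 622 (both (five 5 494 495) (five 5 526 654)))))))))))))))))))))))))) (both (mv 432 (both (mv 399 (both (five 7 399 431) (mv 400 (both (five 7 367 367) (mv 401 (both (five 5 368 369) (five 5 400 433))))))) (both (mv 399 (both (five 7 399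 431) (mv 400 (both (five 7 367 367) (mv 529 (both (five 4 400 497) (five 4 432 561))))))) (both (mv 401 (both (five 5 400 433) (mv 400 (both (five 5 368 369) (mv 529 (both (five 4 400 497) (five 4 432 561))))))) (mv 431 (both (five 7 399 399) (mv 430 (both (mv 429 (both (five 0 429 465) (mv 396 (both (five 3 396 397) (mv 428 (both (five 3 395 395) (mv 460 (both (five 2 427 459) (five 2 428 461))))))))) (both (mv 433 (both (five 5 400 401) (mv 397 (both (five 3 397 398) (mv 429 (both (five 3 396 396) (mv 461 (both (five 2 428 460) (five 2 429 462))))))))) (both (mv 433 (both (five 5 400 401) (mv 397 (both (five 3 397 398) (mv 461 (both (five 2 429 462) (mv 466 (both (five 0 430 465) (mv 434 (both (five 0 431 467) (mv 402 (both (five 1 399 403) (mv 527 (both (five 6 431 559) (mv 529 (both (five 4 432 561) (mv 498 (both (five 6 401 497) (mv 499 (both (five 1 495 530) (five 4 402 531))))))))))))))))))))) (both (mv 429 (both (five 0 429 465) (mv 397 (both (five 3 396 396) (mv 433 (both (five 3 397 398) (five 5 400 401))))))) (mv 429 (both (five 0 429 465) (mv 433 (both (five 5 400 401) (mv 461 (both (five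 2 428 460) (five 2 429 462)))))))))))))))))) (both (mv 432 (both (mv 433 (both (five 5 400 401) (mv 559 (both (five 6 431 527) (mv 560 (both (five 5 432 465) (five 6 463 591))))))) (both (mv 399 (both (five 7 399 431) (mv 400 (both (five 7 367 367) (mv 527 (both (five 6 399 495) (five 6 431 559))))))) (mv 399 (both (five 7 399 431) (mv 400 (both (five 7 367 367) (mv 401 (both (five 5 368 369) (five 5 400 433)))))))))) (both (mv 432 (both (mv 433 (both (five 5 400 401) (mv 560 (both (five 5 432 465) (mv 561 (both (five 4 432 529) (five 4 464 593))))))) (both (mv 399 (both (five 7 399 431) (mv 400 (both (five 7 367 367) (mv 529 (both (five 4 400 497) (five 4 432 561))))))) (mv 399 (both (five 7 399 431) (mv 400 (both (five 7 367 367) (mv 401 (both (five 5 368 369) (five 5 400 433)))))))))) (mv 432 (both (mv 559 (both (five 6 431 527) (mv 560 (both (five 6 463 591) (mv 561 (both (five 4 432 529) (five 4 464 593))))))) (both (mv 399 (both (five 7 399 431) (mv 400 (both (five 7 367 367) (mv 527 (both (five 6 399 495) (five 6 431 559))))))) (mv 399 (both (five 7 399 431) (mv 400 (both (five 7 367 367) (mv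 529 (both (five 4 400 497) (five 4 432 561))))))))))))))) (both (mv 464 (both (mv 560 (both (mv 591 (both (five 6 463 559) (mv 592 (both (five 6 495 623) (mv 593 (both (five 4 464 561) (five 4 496 625))))))) (both (mv 463 (both (five 7 431 431) (mv 592 (both (five 7 463 495) (mv 593 (both (five 4 464 561) (five 4 496 625))))))) (both (mv 463 (both (five 7 431 431) (mv 591 (both (five 6 463 559) (mv 592 (both (five 7 463 495) (five 6 495 623))))))) (mv 559 (both (five 6 463 591) (mv 558 (both (mv 529 (both (five 1 525 557) (mv 530 (both (five 2 526 527) (five 2 527 531))))) (both (mv 561 (both (five 4 464 593) (mv 525 (both (five 3 525 526) (mv 557 (both (five 3 524 524) (mv 589 (both (five 2 556 588) (five 2 557 590))))))))) (mv 561 (both (five 4 464 593) (mv 526 (both (five 3 525 525) (mv 527 (both (five 3 526 562) (mv 529 (both (five 2 526 530) (mv 493 (both (five 3 493 494) (mv 497 (both (five 1 494 498) (mv 590 (both (five 2 557 589) (mv 622 (both (five 5 494 495) (five 5 526 654)))))))))))))))))))))))))) (both (mv 432 (both (mv 399 (both (five 7 399 431) (mv 400 (both (five 7 367 367) (mv 401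 (both (five 5 368 369) (five 5 400 433))))))) (both (mv 401 (both (five 5 400 433) (mv 400 (both (five 5 368 369) (mv 529 (both (five 4 400 497) (five 4 432 561))))))) (both (mv 399 (both (five 7 399 431) (mv 400 (both (five 7 367 367) (mv 529 (both (five 4 400 497) (five 4 432 561))))))) (mv 433 (both (five 5 400 401) (mv 434 (both (mv 435 (both (five 2 431 463) (mv 404 (both (five 1 400 403) (mv 436 (both (five 1 401 405) (mv 468 (both (five 0 432 467) (five 0 433 469))))))))) (both (mv 431 (both (five 7 399 399) (mv 402 (both (five 1 399 403) (mv 466 (both (five 0 431 467) (mv 527 (both (five 6 431 559) (mv 529 (both (five 4 432 561) (mv 498 (both (five 6 401 497) (mv 499 (both (five 1 495 530) (five 4 402 531))))))))))))))) (mv 431 (both (five 7 399 399) (mv 463 (both (five 2 431 435) (five 2 430 462)))))))))))))) (both (mv 432 (both (mv 399 (both (five 7 399 431) (mv 400 (both (five 7 367 367) (mv 401 (both (five 5 368 369) (five 5 400 433))))))) (both (mv 401 (both (five 5 400 433) (mv 400 (both (five 5 368 369) (mv 529 (both (five 4 400 497) (five 4 432 561))))))) (both (mv 399 (both (five 7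 399 431) (mv 400 (both (five 7 367 367) (mv 529 (both (five 4 400 497) (five 4 432 561))))))) (mv 401 (both (five 5 400 433) (mv 431 (both (five 7 399 399) (mv 560 (both (five 7 431 463) (mv 561 (both (five 4 432 529) (five 4 464 593))))))))))))) (both (mv 432 (both (mv 399 (both (five 7 399 431) (mv 400 (both (five 7 367 367) (mv 401 (both (five 5 368 369) (five 5 400 433))))))) (both (mv 401 (both (five 5 400 433) (mv 400 (both (five 5 368 369) (mv 527 (both (five 6 399 495) (five 6 431 559))))))) (both (mv 399 (both (five 7 399 431) (mv 400 (both (five 7 367 367) (mv 527 (both (five 6 399 495) (five 6 431 559))))))) (mv 401 (both (five 5 400 433) (mv 431 (both (five 7 399 399) (mv 559 (both (five 6 431 527) (mv 560 (both (five 7 431 463) (five 6 463 591))))))))))))) (mv 432 (both (mv 559 (both (five 6 431 527) (mv 560 (both (five 6 463 591) (mv 561 (both (five 4 432 529) (five 4 464 593))))))) (both (mv 401 (both (five 5 400 433) (mv 400 (both (five 5 368 369) (mv 529 (both (five 4 400 497) (five 4 432 561))))))) (mv 401 (both (five 5 400 433) (mv 400 (both (five 5 368 369) (mv 527 (both (five 6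 399 495) (five 6 431 559))))))))))))))) (both (mv 560 (both (mv 592 (both (mv 623 (both (five 6 495 591) (mv 624 (both (five 6 527 655) (mv 625 (both (five 4 496 593) (five 4 528 657))))))) (both (mv 497 (both (five 5 464 465) (mv 623 (both (five 6 495 591) (mv 624 (both (five 5 496 529) (five 6 527 655))))))) (mv 465 (both (five 5 464 497) (mv 464 (both (five 5 432 433) (mv 593 (both (five 4 464 561) (five 4 496 625)))))))))) (both (mv 464 (both (mv 431 (both (five 7 431 463) (mv 432 (both (five 7 399 399) (mv 561 (both (five 4 432 529) (five 4 464 593))))))) (both (mv 433 (both (five 5 432 465) (mv 432 (both (five 5 400 401) (mv 561 (both (five 4 432 529) (five 4 464 593))))))) (mv 463 (both (five 7 431 431) (mv 462 (both (mv 465 (both (five 5 432 433) (mv 429 (both (five 3 429 430) (mv 461 (both (five 3 428 428) (mv 460 (both (five 0 460 495) (mv 492 (both (five 2 459 491) (five 2 460 493))))))))))) (both (mv 461 (both (five 0 461 497) (mv 428 (both (five 3 428 429) (mv 460 (both (five 3 427 427) (mv 492 (both (five 2 459 491) (five 2 460 493))))))))) (mv 465 (both (five 5 432 433) (mv 498 (both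 (five 0 462 497) (mv 466 (both (five 0 463 499) (mv 435 (both (five 1 431 434) (mv 467 (both (five 1 432 436) (five 2 463 495))))))))))))))))))) (both (mv 592 (both (mv 495 (both (five 7 463 463) (mv 624 (both (five 7 495 527) (mv 625 (both (five 4 496 593) (five 4 528 657))))))) (both (mv 497 (both (five 5 464 465) (mv 623 (both (five 6 495 591) (mv 624 (both (five 5 496 529) (five 6 527 655))))))) (mv 495 (both (five 7 463 463) (mv 494 (both (mv 493 (both (five 0 493 529) (mv 460 (both (five 3 460 461) (mv 492 (both (five 3 459 459) (five 0 492 527))))))) (both (mv 497 (both (five 5 464 465) (mv 461 (both (five 3 461 462) (mv 493 (both (five 3 460 460) (mv 525 (both (five 2 492 524) (five 2 493 526))))))))) (mv 497 (both (five 5 464 465) (mv 526 (both (five 2 493 525) (mv 498 (both (five 2 494 527) (mv 530 (both (five 0 494 529) (five 0 495 531))))))))))))))))) (both (mv 592 (both (mv 623 (both (five 6 495 591) (mv 624 (both (five 6 527 655) (mv 625 (both (five 4 496 593) (five 4 528 657))))))) (both (mv 495 (both (five 7 463 463) (mv 623 (both (five 6 495 591) (mv 624 (both (five 7 495 527) (five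 6 527 655))))))) (mv 463 (both (five 7 463 495) (mv 464 (both (five 7 431 431) (mv 593 (both (five 4 464 561) (five 4 496 625)))))))))) (mv 592 (both (mv 497 (both (five 5 464 465) (mv 623 (both (five 6 495 591) (mv 624 (both (five 5 496 529) (five 6 527 655))))))) (both (mv 495 (both (five 7 463 463) (mv 623 (both (five 6 495 591) (mv 624 (both (five 7 495 527) (five 6 527 655))))))) (mv 463 (both (five 7 463 495) (mv 464 (both (five 7 431 431) (mv 465 (both (five 5 432 433) (five 5 464 497))))))))))))))) (both (mv 560 (both (mv 464 (both (mv 431 (both (five 7 431 463) (mv 432 (both (five 7 399 399) (mv 559 (both (five 6 431 527) (five 6 463 591))))))) (both (mv 433 (both (five 5 432 465) (mv 432 (both (five 5 400 401) (mv 559 (both (five 6 431 527) (five 6 463 591))))))) (mv 463 (both (five 7 431 431) (mv 462 (both (mv 461 (both (five 0 461 497) (mv 429 (both (five 3 428 428) (mv 465 (both (five 3 429 430) (five 5 432 433))))))) (both (mv 461 (both (five 0 461 497) (mv 428 (both (five 3 428 429) (mv 460 (both (five 3 427 427) (mv 492 (both (five 2 459 491) (five 2 460 493))))))))) (both (mv 465 (both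 (five 5 432 433) (mv 429 (both (five 3 429 430) (mv 461 (both (five 3 428 428) (mv 493 (both (five 2 460 492) (five 2 461 494))))))))) (both (mv 465 (both (five 5 432 433) (mv 429 (both (five 3 429 430) (mv 493 (both (five 2 461 494) (mv 498 (both (five 0 462 497) (mv 466 (both (five 0 463 499) (mv 435 (both (five 1 431 434) (mv 467 (both (five 1 432 436) (five 2 463 495))))))))))))))) (mv 461 (both (five 0 461 497) (mv 465 (both (five 5 432 433) (mv 493 (both (five 2 460 492) (five 2 461 494))))))))))))))))) (both (mv 592 (both (mv 495 (both (five 7 463 463) (mv 624 (both (five 7 495 527) (mv 625 (both (five 4 496 593) (five 4 528 657))))))) (both (mv 497 (both (five 5 464 465) (mv 623 (both (five 6 495 591) (mv 624 (both (five 5 496 529) (five 6 527 655))))))) (mv 495 (both (five 7 463 463) (mv 494 (both (mv 493 (both (five 0 493 529) (mv 460 (both (five 3 460 461) (mv 492 (both (five 3 459 459) (five 0 492 527))))))) (both (mv 497 (both (five 5 464 465) (mv 461 (both (five 3 461 462) (mv 493 (both (five 3 460 460) (mv 525 (both (five 2 492 524) (five 2 493 526))))))))) (mv 497 (both (five 5 464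 465) (mv 526 (both (five 2 493 525) (mv 498 (both (five 2 494 527) (mv 530 (both (five 0 494 529) (five 0 495 531))))))))))))))))) (both (mv 592 (both (mv 497 (both (five 5 464 465) (mv 624 (both (five 5 496 529) (mv 625 (both (five 4 496 593) (five 4 528 657))))))) (both (mv 623 (both (five 6 495 591) (mv 624 (both (five 6 527 655) (mv 625 (both (five 4 496 593) (five 4 528 657))))))) (mv 465 (both (five 5 464 497) (mv 464 (both (five 5 432 433) (mv 591 (both (five 6 463 559) (five 6 495 623)))))))))) (both (mv 592 (both (mv 495 (both (five 7 463 463) (mv 624 (both (five 7 495 527) (mv 625 (both (five 4 496 593) (five 4 528 657))))))) (both (mv 623 (both (five 6 495 591) (mv 624 (both (five 6 527 655) (mv 625 (both (five 4 496 593) (five 4 528 657))))))) (mv 463 (both (five 7 463 495) (mv 464 (both (five 7 431 431) (mv 591 (both (five 6 463 559) (five 6 495 623)))))))))) (mv 592 (both (mv 497 (both (five 5 464 465) (mv 624 (both (five 5 496 529) (mv 625 (both (five 4 496 593) (five 4 528 657))))))) (both (mv 495 (both (five 7 463 463) (mv 624 (both (five 7 495 527) (mv 625 (both (five 4 496 593) (five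 4 528 657))))))) (mv 463 (both (five 7 463 495) (mv 464 (both (five 7 431 431) (mv 465 (both (five 5 432 433) (five 5 464 497))))))))))))))) (both (mv 560 (both (mv 592 (both (mv 623 (both (five 6 495 591) (mv 624 (both (five 6 527 655) (mv 625 (both (five 4 496 593) (five 4 528 657))))))) (both (mv 497 (both (five 5 464 465) (mv 623 (both (five 6 495 591) (mv 624 (both (five 5 496 529) (five 6 527 655))))))) (mv 465 (both (five 5 464 497) (mv 464 (both (five 5 432 433) (mv 593 (both (five 4 464 561) (five 4 496 625)))))))))) (both (mv 464 (both (mv 433 (both (five 5 432 465) (mv 432 (both (five 5 400 401) (mv 561 (both (five 4 432 529) (five 4 464 593))))))) (both (mv 433 (both (five 5 432 465) (mv 432 (both (five 5 400 401) (mv 559 (both (five 6 431 527) (five 6 463 591))))))) (mv 559 (both (five 6 463 591) (mv 558 (both (mv 529 (both (five 1 525 557) (mv 530 (both (five 2 526 527) (five 2 527 531))))) (both (mv 561 (both (five 4 464 593) (mv 525 (both (five 3 525 526) (mv 557 (both (five 3 524 524) (mv 589 (both (five 2 556 588) (five 2 557 590))))))))) (mv 561 (both (five 4 464 593) (mv 526 (both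 (five 3 525 525) (mv 527 (both (five 3 526 562) (mv 529 (both (five 2 526 530) (mv 493 (both (five 3 493 494) (mv 497 (both (five 1 494 498) (mv 590 (both (five 2 557 589) (mv 622 (both (five 5 494 495) (five 5 526 654))))))))))))))))))))))))) (both (mv 592 (both (mv 495 (both (five 7 463 463) (mv 624 (both (five 7 495 527) (mv 625 (both (five 4 496 593) (five 4 528 657))))))) (both (mv 623 (both (five 6 495 591) (mv 624 (both (five 6 527 655) (mv 625 (both (five 4 496 593) (five 4 528 657))))))) (both (mv 495 (both (five 7 463 463) (mv 623 (both (five 6 495 591) (mv 624 (both (five 7 495 527) (five 6 527 655))))))) (mv 463 (both (five 7 463 495) (mv 591 (both (five 6 495 623) (mv 464 (both (five 6 463 559) (mv 593 (both (five 4 464 561) (five 4 496 625))))))))))))) (both (mv 592 (both (mv 497 (both (five 5 464 465) (mv 624 (both (five 5 496 529) (mv 625 (both (five 4 496 593) (five 4 528 657))))))) (both (mv 495 (both (five 7 463 463) (mv 624 (both (five 7 495 527) (mv 625 (both (five 4 496 593) (five 4 528 657))))))) (mv 495 (both (five 7 463 463) (mv 494 (both (mv 493 (both (five 0 493 529) (mv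 460 (both (five 3 460 461) (mv 492 (both (five 3 459 459) (five 0 492 527))))))) (both (mv 497 (both (five 5 464 465) (mv 461 (both (five 3 461 462) (mv 493 (both (five 3 460 460) (mv 525 (both (five 2 492 524) (five 2 493 526))))))))) (mv 497 (both (five 5 464 465) (mv 526 (both (five 2 493 525) (mv 498 (both (five 2 494 527) (mv 530 (both (five 0 494 529) (five 0 495 531))))))))))))))))) (mv 592 (both (mv 497 (both (five 5 464 465) (mv 623 (both (five 6 495 591) (mv 624 (both (five 5 496 529) (five 6 527 655))))))) (both (mv 495 (both (five 7 463 463) (mv 623 (both (five 6 495 591) (mv 624 (both (five 7 495 527) (five 6 527 655))))))) (mv 495 (both (five 7 463 463) (mv 494 (both (mv 493 (both (five 0 493 529) (mv 460 (both (five 3 460 461) (mv 492 (both (five 3 459 459) (five 0 492 527))))))) (both (mv 497 (both (five 5 464 465) (mv 461 (both (five 3 461 462) (mv 493 (both (five 3 460 460) (mv 525 (both (five 2 492 524) (five 2 493 526))))))))) (mv 497 (both (five 5 464 465) (mv 526 (both (five 2 493 525) (mv 498 (both (five 2 494 527) (mv 530 (both (five 0 494 529) (five 0 495 531))))))))))))))))))))))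 (both (mv 560 (both (mv 592 (both (mv 623 (both (five 6 495 591) (mv 624 (both (five 6 527 655) (mv 625 (both (five 4 496 593) (five 4 528 657))))))) (both (mv 463 (both (five 7 463 495) (mv 464 (both (five 7 431 431) (mv 591 (both (five 6 463 559) (five 6 495 623))))))) (mv 463 (both (five 7 463 495) (mv 464 (both (five 7 431 431) (mv 593 (both (five 4 464 561) (five 4 496 625)))))))))) (both (mv 464 (both (mv 431 (both (five 7 431 463) (mv 432 (both (five 7 399 399) (mv 559 (both (five 6 431 527) (five 6 463 591))))))) (both (mv 431 (both (five 7 431 463) (mv 432 (both (five 7 399 399) (mv 561 (both (five 4 432 529) (five 4 464 593))))))) (mv 559 (both (five 6 463 591) (mv 558 (both (mv 529 (both (five 1 525 557) (mv 530 (both (five 2 526 527) (five 2 527 531))))) (both (mv 561 (both (five 4 464 593) (mv 525 (both (five 3 525 526) (mv 557 (both (five 3 524 524) (mv 589 (both (five 2 556 588) (five 2 557 590))))))))) (mv 561 (both (five 4 464 593) (mv 526 (both (five 3 525 525) (mv 527 (both (five 3 526 562) (mv 529 (both (five 2 526 530) (mv 493 (both (five 3 493 494) (mv 497 (both (five 1 494 498)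 (mv 590 (both (five 2 557 589) (mv 622 (both (five 5 494 495) (five 5 526 654))))))))))))))))))))))))) (both (mv 592 (both (mv 497 (both (five 5 464 465) (mv 624 (both (five 5 496 529) (mv 625 (both (five 4 496 593) (five 4 528 657))))))) (both (mv 495 (both (five 7 463 463) (mv 624 (both (five 7 495 527) (mv 625 (both (five 4 496 593) (five 4 528 657))))))) (mv 495 (both (five 7 463 463) (mv 494 (both (mv 493 (both (five 0 493 529) (mv 460 (both (five 3 460 461) (mv 492 (both (five 3 459 459) (five 0 492 527))))))) (both (mv 497 (both (five 5 464 465) (mv 461 (both (five 3 461 462) (mv 493 (both (five 3 460 460) (mv 525 (both (five 2 492 524) (five 2 493 526))))))))) (mv 497 (both (five 5 464 465) (mv 526 (both (five 2 493 525) (mv 498 (both (five 2 494 527) (mv 530 (both (five 0 494 529) (five 0 495 531))))))))))))))))) (both (mv 592 (both (mv 497 (both (five 5 464 465) (mv 624 (both (five 5 496 529) (mv 625 (both (five 4 496 593) (five 4 528 657))))))) (both (mv 497 (both (five 5 464 465) (mv 623 (both (five 6 495 591) (mv 624 (both (five 5 496 529) (five 6 527 655))))))) (mv 591 (both (five 6 495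 623) (mv 464 (both (five 6 463 559) (mv 593 (both (five 4 464 561) (five 4 496 625)))))))))) (mv 592 (both (mv 497 (both (five 5 464 465) (mv 623 (both (five 6 495 591) (mv 624 (both (five 5 496 529) (five 6 527 655))))))) (both (mv 495 (both (five 7 463 463) (mv 623 (both (five 6 495 591) (mv 624 (both (five 7 495 527) (five 6 527 655))))))) (mv 495 (both (five 7 463 463) (mv 494 (both (mv 493 (both (five 0 493 529) (mv 460 (both (five 3 460 461) (mv 492 (both (five 3 459 459) (five 0 492 527))))))) (both (mv 497 (both (five 5 464 465) (mv 461 (both (five 3 461 462) (mv 493 (both (five 3 460 460) (mv 525 (both (five 2 492 524) (five 2 493 526))))))))) (mv 497 (both (five 5 464 465) (mv 526 (both (five 2 493 525) (mv 498 (both (five 2 494 527) (mv 530 (both (five 0 494 529) (five 0 495 531)))))))))))))))))))))) (both (mv 560 (both (mv 592 (both (mv 623 (both (five 6 495 591) (mv 624 (both (five 6 527 655) (mv 625 (both (five 4 496 593) (five 4 528 657))))))) (both (mv 463 (both (five 7 463 495) (mv 464 (both (five 7 431 431) (mv 591 (both (five 6 463 559) (five 6 495 623))))))) (mv 463 (both (five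 7 463 495) (mv 464 (both (five 7 431 431) (mv 593 (both (five 4 464 561) (five 4 496 625)))))))))) (both (mv 592 (both (mv 497 (both (five 5 464 465) (mv 624 (both (five 5 496 529) (mv 625 (both (five 4 496 593) (five 4 528 657))))))) (both (mv 463 (both (five 7 463 495) (mv 623 (both (five 6 495 591) (mv 624 (both (five 6 527 655) (mv 625 (both (five 4 496 593) (five 4 528 657))))))))) (both (mv 497 (both (five 5 464 465) (mv 623 (both (five 6 495 591) (mv 624 (both (five 5 496 529) (five 6 527 655))))))) (mv 495 (both (five 7 463 463) (mv 494 (both (mv 493 (both (five 0 493 529) (mv 460 (both (five 3 460 461) (mv 492 (both (five 3 459 459) (mv 524 (both (five 2 491 523) (five 2 492 525))))))))) (both (mv 497 (both (five 5 464 465) (mv 461 (both (five 3 461 462) (mv 493 (both (five 3 460 460) (mv 525 (both (five 2 492 524) (five 2 493 526))))))))) (both (mv 497 (both (five 5 464 465) (mv 462 (both (five 3 461 461) (mv 526 (both (five 2 493 525) (mv 529 (both (five 0 494 530) (mv 591 (both (five 6 495 623) (mv 558 (both (five 4 462 559) (mv 557 (both (five 6 461 589) (mv 593 (both (five 3 557 590)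 (five 4 496 625))))))))))))))))) (both (mv 493 (both (five 0 493 529) (mv 461 (both (five 3 460 460) (mv 497 (both (five 3 461 462) (five 5 464 465))))))) (mv 493 (both (five 0 493 529) (mv 497 (both (five 5 464 465) (mv 525 (both (five 2 492 524) (five 2 493 526)))))))))))))))))) (both (mv 464 (both (mv 431 (both (five 7 431 463) (mv 432 (both (five 7 399 399) (mv 559 (both (five 6 431 527) (five 6 463 591))))))) (both (mv 433 (both (five 5 432 465) (mv 432 (both (five 5 400 401) (mv 561 (both (five 4 432 529) (five 4 464 593))))))) (mv 463 (both (five 7 431 431) (mv 462 (both (mv 461 (both (five 0 461 497) (mv 429 (both (five 3 428 428) (mv 465 (both (five 3 429 430) (five 5 432 433))))))) (both (mv 461 (both (five 0 461 497) (mv 428 (both (five 3 428 429) (mv 460 (both (five 3 427 427) (mv 492 (both (five 2 459 491) (five 2 460 493))))))))) (both (mv 465 (both (five 5 432 433) (mv 429 (both (five 3 429 430) (mv 494 (both (five 2 461 493) (mv 466 (both (five 2 462 495) (mv 434 (both (five 1 431 435) (mv 559 (both (five 6 463 591) (mv 561 (both (five 4 464 593) (mv 529 (both (five 5 433 497) (mv 530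 (both (five 2 527 531) (five 1 526 558))))))))))))))))))) (both (mv 465 (both (five 5 432 433) (mv 429 (both (five 3 429 430) (mv 461 (both (five 3 428 428) (mv 493 (both (five 2 460 492) (five 2 461 494))))))))) (mv 461 (both (five 0 461 497) (mv 465 (both (five 5 432 433) (mv 493 (both (five 2 460 492) (five 2 461 494))))))))))))))))) (both (mv 592 (both (mv 623 (both (five 6 495 591) (mv 624 (both (five 6 527 655) (mv 625 (both (five 4 496 593) (five 4 528 657))))))) (both (mv 497 (both (five 5 464 465) (mv 623 (both (five 6 495 591) (mv 624 (both (five 5 496 529) (five 6 527 655))))))) (mv 465 (both (five 5 464 497) (mv 464 (both (five 5 432 433) (mv 593 (both (five 4 464 561) (five 4 496 625)))))))))) (both (mv 464 (both (mv 465 (both (five 5 432 433) (mv 592 (both (five 5 464 497) (mv 593 (both (five 4 464 561) (five 4 496 625))))))) (both (mv 431 (both (five 7 431 463) (mv 432 (both (five 7 399 399) (mv 561 (both (five 4 432 529) (five 4 464 593))))))) (mv 431 (both (five 7 431 463) (mv 432 (both (five 7 399 399) (mv 433 (both (five 5 400 401) (five 5 432 465)))))))))) (mv 464 (both (mv 465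 (both (five 5 432 433) (mv 591 (both (five 6 463 559) (mv 592 (both (five 5 464 497) (five 6 495 623))))))) (both (mv 463 (both (five 7 431 431) (mv 591 (both (five 6 463 559) (mv 592 (both (five 7 463 495) (five 6 495 623))))))) (mv 431 (both (five 7 431 463) (mv 432 (both (five 7 399 399) (mv 433 (both (five 5 400 401) (five 5 432 465)))))))))))))))) (both (mv 464 (both (mv 432 (both (mv 433 (both (five 5 400 401) (mv 560 (both (five 5 432 465) (mv 561 (both (five 4 432 529) (five 4 464 593))))))) (both (mv 399 (both (five 7 399 431) (mv 400 (both (five 7 367 367) (mv 529 (both (five 4 400 497) (five 4 432 561))))))) (mv 399 (both (five 7 399 431) (mv 400 (both (five 7 367 367) (mv 401 (both (five 5 368 369) (five 5 400 433)))))))))) (both (mv 560 (both (mv 465 (both (five 5 432 433) (mv 592 (both (five 5 464 497) (mv 593 (both (five 4 464 561) (five 4 496 625))))))) (both (mv 463 (both (five 7 431 431) (mv 592 (both (five 7 463 495) (mv 593 (both (five 4 464 561) (five 4 496 625))))))) (mv 463 (both (five 7 431 431) (mv 462 (both (mv 465 (both (five 5 432 433) (mv 429 (both (five 3 429 430) (mv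 461 (both (five 3 428 428) (mv 460 (both (five 0 460 495) (mv 492 (both (five 2 459 491) (five 2 460 493))))))))))) (both (mv 461 (both (five 0 461 497) (mv 428 (both (five 3 428 429) (mv 460 (both (five 3 427 427) (mv 492 (both (five 2 459 491) (five 2 460 493))))))))) (mv 465 (both (five 5 432 433) (mv 498 (both (five 0 462 497) (mv 466 (both (five 0 463 499) (mv 435 (both (five 1 431 434) (mv 467 (both (five 1 432 436) (five 2 463 495))))))))))))))))))) (both (mv 432 (both (mv 433 (both (five 5 400 401) (mv 560 (both (five 5 432 465) (mv 561 (both (five 4 432 529) (five 4 464 593))))))) (both (mv 401 (both (five 5 400 433) (mv 400 (both (five 5 368 369) (mv 527 (both (five 6 399 495) (five 6 431 559))))))) (mv 527 (both (five 6 431 559) (mv 400 (both (five 6 399 495) (mv 529 (both (five 4 400 497) (five 4 432 561)))))))))) (both (mv 432 (both (mv 399 (both (five 7 399 431) (mv 400 (both (five 7 367 367) (mv 527 (both (five 6 399 495) (five 6 431 559))))))) (both (mv 527 (both (five 6 431 559) (mv 400 (both (five 6 399 495) (mv 529 (both (five 4 400 497) (five 4 432 561))))))) (mv 431 (both (five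 7 399 399) (mv 560 (both (five 7 431 463) (mv 561 (both (five 4 432 529) (five 4 464 593)))))))))) (mv 432 (both (mv 401 (both (five 5 400 433) (mv 400 (both (five 5 368 369) (mv 527 (both (five 6 399 495) (five 6 431 559))))))) (both (mv 399 (both (five 7 399 431) (mv 400 (both (five 7 367 367) (mv 527 (both (five 6 399 495) (five 6 431 559))))))) (mv 431 (both (five 7 399 399) (mv 430 (both (mv 429 (both (five 0 429 465) (mv 396 (both (five 3 396 397) (mv 428 (both (five 3 395 395) (five 0 428 463))))))) (both (mv 433 (both (five 5 400 401) (mv 462 (both (five 2 429 461) (mv 434 (both (five 2 430 463) (mv 403 (both (five 1 399 402) (mv 435 (both (five 1 400 404) (mv 467 (both (five 0 431 466) (five 0 432 468))))))))))))) (mv 429 (both (five 0 429 465) (mv 396 (both (five 3 396 397) (mv 428 (both (five 3 395 395) (mv 460 (both (five 2 427 459) (five 2 428 461)))))))))))))))))))))) (both (mv 464 (both (mv 432 (both (mv 433 (both (five 5 400 401) (mv 559 (both (five 6 431 527) (mv 560 (both (five 5 432 465) (five 6 463 591))))))) (both (mv 399 (both (five 7 399 431) (mv 400 (both (five 7 367 367) (mv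 527 (both (five 6 399 495) (five 6 431 559))))))) (mv 399 (both (five 7 399 431) (mv 400 (both (five 7 367 367) (mv 401 (both (five 5 368 369) (five 5 400 433)))))))))) (both (mv 560 (both (mv 465 (both (five 5 432 433) (mv 591 (both (five 6 463 559) (mv 592 (both (five 5 464 497) (five 6 495 623))))))) (both (mv 463 (both (five 7 431 431) (mv 591 (both (five 6 463 559) (mv 592 (both (five 7 463 495) (five 6 495 623))))))) (mv 463 (both (five 7 431 431) (mv 462 (both (mv 465 (both (five 5 432 433) (mv 429 (both (five 3 429 430) (mv 461 (both (five 3 428 428) (mv 460 (both (five 0 460 495) (mv 492 (both (five 2 459 491) (five 2 460 493))))))))))) (both (mv 461 (both (five 0 461 497) (mv 428 (both (five 3 428 429) (mv 460 (both (five 3 427 427) (mv 492 (both (five 2 459 491) (five 2 460 493))))))))) (mv 465 (both (five 5 432 433) (mv 498 (both (five 0 462 497) (mv 466 (both (five 0 463 499) (mv 435 (both (five 1 431 434) (mv 467 (both (five 1 432 436) (five 2 463 495))))))))))))))))))) (both (mv 432 (both (mv 433 (both (five 5 400 401) (mv 559 (both (five 6 431 527) (mv 560 (both (five 5 432 465) (five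 6 463 591))))))) (both (mv 401 (both (five 5 400 433) (mv 400 (both (five 5 368 369) (mv 529 (both (five 4 400 497) (five 4 432 561))))))) (mv 527 (both (five 6 431 559) (mv 400 (both (five 6 399 495) (mv 529 (both (five 4 400 497) (five 4 432 561)))))))))) (both (mv 432 (both (mv 399 (both (five 7 399 431) (mv 400 (both (five 7 367 367) (mv 529 (both (five 4 400 497) (five 4 432 561))))))) (both (mv 527 (both (five 6 431 559) (mv 400 (both (five 6 399 495) (mv 529 (both (five 4 400 497) (five 4 432 561))))))) (mv 431 (both (five 7 399 399) (mv 559 (both (five 6 431 527) (mv 560 (both (five 7 431 463) (five 6 463 591)))))))))) (mv 432 (both (mv 401 (both (five 5 400 433) (mv 400 (both (five 5 368 369) (mv 529 (both (five 4 400 497) (five 4 432 561))))))) (both (mv 399 (both (five 7 399 431) (mv 400 (both (five 7 367 367) (mv 529 (both (five 4 400 497) (five 4 432 561))))))) (mv 431 (both (five 7 399 399) (mv 430 (both (mv 429 (both (five 0 429 465) (mv 396 (both (five 3 396 397) (mv 428 (both (five 3 395 395) (five 0 428 463))))))) (both (mv 433 (both (five 5 400 401) (mv 462 (both (five 2 429 461)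 (mv 434 (both (five 2 430 463) (mv 403 (both (five 1 399 402) (mv 435 (both (five 1 400 404) (mv 467 (both (five 0 431 466) (five 0 432 468))))))))))))) (mv 429 (both (five 0 429 465) (mv 396 (both (five 3 396 397) (mv 428 (both (five 3 395 395) (mv 460 (both (five 2 427 459) (five 2 428 461)))))))))))))))))))))) (mv 560 (both (mv 592 (both (mv 623 (both (five 6 495 591) (mv 624 (both (five 6 527 655) (mv 625 (both (five 4 496 593) (five 4 528 657))))))) (both (mv 463 (both (five 7 463 495) (mv 464 (both (five 7 431 431) (mv 591 (both (five 6 463 559) (five 6 495 623))))))) (mv 463 (both (five 7 463 495) (mv 464 (both (five 7 431 431) (mv 593 (both (five 4 464 561) (five 4 496 625)))))))))) (both (mv 592 (both (mv 495 (both (five 7 463 463) (mv 624 (both (five 7 495 527) (mv 625 (both (five 4 496 593) (five 4 528 657))))))) (both (mv 497 (both (five 5 464 465) (mv 623 (both (five 6 495 591) (mv 624 (both (five 5 496 529) (five 6 527 655))))))) (mv 497 (both (five 5 464 465) (mv 498 (both (mv 495 (both (five 7 463 463) (mv 527 (both (five 2 495 499) (five 2 494 526))))) (both (mv 499 (both (five 2 495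 527) (mv 468 (both (five 1 464 467) (mv 500 (both (five 1 465 469) (mv 532 (both (five 0 496 531) (five 0 497 533))))))))) (both (mv 495 (both (five 7 463 463) (mv 467 (both (five 1 463 466) (mv 499 (both (five 1 464 468) (mv 531 (both (five 0 495 530) (five 0 496 532))))))))) (mv 495 (both (five 7 463 463) (mv 466 (both (five 1 463 467) (mv 526 (both (five 2 494 527) (mv 530 (both (five 0 495 531) (mv 591 (both (five 6 495 623) (mv 593 (both (five 4 496 625) (mv 561 (both (five 5 465 529) (five 6 465 562)))))))))))))))))))))))) (both (mv 464 (both (mv 431 (both (five 7 431 463) (mv 432 (both (five 7 399 399) (mv 561 (both (five 4 432 529) (five 4 464 593))))))) (both (mv 431 (both (five 7 431 463) (mv 432 (both (five 7 399 399) (mv 433 (both (five 5 400 401) (five 5 432 465))))))) (both (mv 433 (both (five 5 432 465) (mv 432 (both (five 5 400 401) (mv 561 (both (five 4 432 529) (five 4 464 593))))))) (mv 465 (both (five 5 432 433) (mv 466 (both (mv 467 (both (five 2 463 495) (mv 436 (both (five 1 432 435) (mv 468 (both (five 1 433 437) (mv 500 (both (five 0 464 499) (five 0 465 501))))))))) (both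 (mv 463 (both (five 7 431 431) (mv 434 (both (five 1 431 435) (mv 498 (both (five 0 463 499) (mv 559 (both (five 6 463 591) (mv 561 (both (five 4 464 593) (mv 530 (both (five 6 433 529) (mv 531 (both (five 1 527 562) (five 4 434 563))))))))))))))) (mv 463 (both (five 7 431 431) (mv 495 (both (five 2 463 467) (five 2 462 494)))))))))))))) (both (mv 464 (both (mv 465 (both (five 5 432 433) (mv 591 (both (five 6 463 559) (mv 592 (both (five 5 464 497) (five 6 495 623))))))) (both (mv 463 (both (five 7 431 431) (mv 591 (both (five 6 463 559) (mv 592 (both (five 7 463 495) (five 6 495 623))))))) (mv 431 (both (five 7 431 463) (mv 432 (both (five 7 399 399) (mv 433 (both (five 5 400 401) (five 5 432 465)))))))))) (both (mv 592 (both (mv 623 (both (five 6 495 591) (mv 624 (both (five 6 527 655) (mv 625 (both (five 4 496 593) (five 4 528 657))))))) (both (mv 497 (both (five 5 464 465) (mv 623 (both (five 6 495 591) (mv 624 (both (five 5 496 529) (five 6 527 655))))))) (mv 465 (both (five 5 464 497) (mv 464 (both (five 5 432 433) (mv 593 (both (five 4 464 561) (five 4 496 625)))))))))) (mv 464 (both (mv 465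 (both (five 5 432 433) (mv 592 (both (five 5 464 497) (mv 593 (both (five 4 464 561) (five 4 496 625))))))) (both (mv 431 (both (five 7 431 463) (mv 432 (both (five 7 399 399) (mv 561 (both (five 4 432 529) (five 4 464 593))))))) (mv 431 (both (five 7 431 463) (mv 432 (both (five 7 399 399) (mv 433 (both (five 5 400 401) (five 5 432 465))))))))))))))))))))))))))))))))

theorem L113 : W (S 878694100496718043517683302282418331810487718418343092402491322775749527474899974671687634004666183037093927858109549828751614463963730408009475621262727315456) (S 859636811679670645482925381433210036455285365190974076839173194134140601884056766826889355076014318235847224883941913393001999812393134944100735029811714093923762458539857556514684163637552548413440) :=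
  check_sound (Env.cons L112 Env.nil) (x := 496) (t := tL113) (by decide +kernel)

def tL114 : T :=
  (both (mv 496 (both (mv 464 (both (mv 432 (both (five 6 431 559) (mv 401 (both (five 5 400 433) (mv 400 (both (five 5 368 369) (mv 529 (both (five 4 400 497) (five 4 432 561))))))))) (both (mv 560 (both (mv 559 (both (five 6 463 591) (mv 593 (both (five 4 464 561) (mv 592 (both (five 4 496 625) (mv 558 (both (five 0 557 557) (mv 529 (both (five 2 526 530) (mv 624 (both (five 5 496 497) (five 7 527 656))))))))))))) (both (mv 465 (both (five 5 432 433) (mv 497 (both (five 5 464 592) (mv 462 (both (five 0 461 461) (five 0 462 498))))))) (both (mv 433 (both (five 5 432 465) (mv 591 (both (five 6 463 559) (mv 592 (both (five 6 495 623) (mv 593 (both (five 4 464 561) (five 4 496 625))))))))) (mv 465 (both (five 5 432 433) (mv 559 (both (five 6 463 591) (mv 561 (both (five 4 464 593) (mv 562 (both (five 3 527 563) (mv 594 (both (five 0 559 595) (mv 497 (both (five 4 465 529) (mv 462 (both (five 0 461 461) (five 0 462 498))))))))))))))))))) (both (mv 432 (both (mv 401 (both (five 5 400 433) (mv 400 (both (five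 5 368 369) (mv 529 (both (five 4 400 497) (five 4 432 561))))))) (both (mv 433 (both (five 5 400 401) (mv 434 (both (five 2 431 435) (mv 462 (both (five 1 429 461) (five 1 430 465))))))) (mv 529 (both (five 4 432 561) (mv 497 (both (five 4 400 400) (mv 462 (both (five 0 461 461) (mv 498 (both (five 0 462 465) (five 3 463 499)))))))))))) (both (mv 432 (both (five 6 431 559) (mv 433 (both (five 5 400 401) (mv 434 (both (five 2 431 435) (mv 462 (both (five 1 429 461) (five 1 430 465))))))))) (mv 432 (both (five 6 431 559) (mv 529 (both (five 4 432 561) (mv 497 (both (five 4 400 400) (mv 462 (both (five 0 461 461) (mv 498 (both (five 0 462 465) (five 3 463 499)))))))))))))))) (both (mv 495 (both (mv 559 (both (mv 462 (both (five 7 430 430) (mv 461 (both (five 0 460 460) (mv 497 (both (five 3 461 494) (five 3 462 498))))))) (mv 590 (both (five 6 462 558) (mv 591 (both (five 6 494 622) (five 5 495 623))))))) (both (mv 494 (both (mv 493 (both (five 0 492 492) (five 0 493 529))) (both (mv 497 (both (mv 466 (both (five 1 462 465) (mv 498 (both (five 1 463 467) (five 2 495 499))))) (both (mv 461 (both (five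 3 461 462) (mv 465 (both (five 1 462 466) (mv 433 (both (five 6 400 401) (mv 529 (both (five 3 494 530) (five 6 432 560))))))))) (mv 462 (both (five 3 461 461) (five 3 462 498)))))) (mv 493 (both (five 0 492 492) (mv 461 (both (five 3 460 460) (mv 462 (both (five 3 461 497) (mv 430 (both (five 4 398 398) (mv 525 (both (five 2 492 524) (five 5 429 557)))))))))))))) (mv 559 (both (mv 590 (both (five 6 462 558) (mv 591 (both (five 6 494 622) (five 5 495 623))))) (both (mv 558 (both (five 6 462 590) (mv 529 (both (five 2 526 530) (mv 557 (both (five 1 524 556) (five 1 525 560))))))) (mv 591 (both (five 5 495 623) (mv 592 (both (five 4 463 560) (five 4 495 624))))))))))) (both (mv 560 (both (mv 464 (both (mv 432 (both (mv 401 (both (five 5 400 433) (mv 400 (both (five 5 368 369) (mv 529 (both (five 4 400 497) (five 4 432 561))))))) (both (mv 433 (both (five 5 400 401) (mv 434 (both (five 2 431 435) (mv 462 (both (five 1 429 461) (five 1 430 465))))))) (mv 529 (both (five 4 432 561) (mv 497 (both (five 4 400 400) (mv 462 (both (five 0 461 461) (mv 498 (both (five 0 462 465) (five 3 463 499)))))))))))) (both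 (mv 561 (both (five 4 464 593) (mv 432 (both (five 4 432 529) (mv 400 (both (five 6 399 495) (mv 367 (both (five 7 367 399) (mv 368 (both (five 7 335 335) (mv 369 (both (five 5 336 337) (five 5 368 401))))))))))))) (both (mv 497 (both (mv 462 (both (five 0 461 461) (mv 498 (both (five 0 462 465) (five 3 463 499))))) (both (mv 462 (both (five 0 461 461) (mv 498 (both (five 3 462 495) (five 3 463 499))))) (mv 465 (both (five 5 432 433) (mv 561 (both (five 4 464 593) (mv 562 (both (five 3 527 563) (mv 529 (both (five 4 465 594) (mv 466 (both (five 5 433 434) (mv 467 (both (five 2 464 468) (five 2 463 495)))))))))))))))) (mv 462 (both (mv 433 (both (five 5 432 465) (mv 432 (both (five 5 400 401) (five 1 429 461))))) (both (mv 461 (both (five 0 461 497) (mv 428 (both (five 3 428 429) (mv 460 (both (five 3 427 427) (five 0 460 495))))))) (mv 465 (both (five 5 432 433) (mv 429 (both (five 3 429 430) (mv 493 (both (five 2 461 494) (mv 498 (both (five 0 462 497) (mv 466 (both (five 0 463 499) (mv 435 (both (five 1 431 434) (mv 467 (both (five 1 432 436) (five 2 463 495)))))))))))))))))))))) (both (mv 592 (both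 (mv 623 (both (five 6 495 591) (mv 624 (both (five 6 527 655) (mv 625 (both (five 4 496 593) (five 4 528 657))))))) (both (mv 497 (both (five 5 464 465) (mv 498 (both (five 2 495 499) (mv 623 (both (five 6 495 591) (mv 624 (both (five 5 496 529) (five 6 527 655))))))))) (mv 465 (both (five 5 464 497) (mv 464 (both (five 5 432 433) (mv 593 (both (five 4 464 561) (five 4 496 625)))))))))) (both (mv 592 (both (five 7 463 495) (mv 623 (both (five 6 495 591) (mv 624 (both (five 6 527 655) (mv 625 (both (five 4 496 593) (five 4 528 657))))))))) (mv 592 (both (five 7 463 495) (mv 497 (both (five 5 464 465) (mv 498 (both (five 2 495 499) (mv 623 (both (five 6 495 591) (mv 624 (both (five 5 496 529) (five 6 527 655))))))))))))))) (both (mv 464 (both (mv 432 (both (five 6 431 559) (mv 401 (both (five 5 400 433) (mv 400 (both (five 5 368 369) (mv 529 (both (five 4 400 497) (five 4 432 561))))))))) (both (mv 462 (both (mv 461 (both (five 0 461 497) (mv 428 (both (five 3 428 429) (mv 460 (both (five 3 427 427) (five 0 460 495))))))) (both (mv 495 (both (mv 559 (both (five 7 430 430) (five 5 463 591))) (mv 461 (both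 (five 0 460 460) (mv 493 (both (five 2 460 492) (mv 465 (both (five 2 461 494) (mv 434 (both (five 1 430 433) (mv 466 (both (five 1 431 435) (five 2 463 467))))))))))))) (both (mv 465 (both (mv 498 (both (five 0 462 497) (mv 466 (both (five 0 463 499) (mv 435 (both (five 1 431 434) (mv 467 (both (five 1 432 436) (five 2 463 495))))))))) (both (mv 429 (both (five 3 429 430) (mv 434 (both (five 1 430 433) (mv 466 (both (five 1 431 435) (mv 494 (both (five 2 461 493) (five 2 462 495))))))))) (both (mv 429 (both (five 3 429 430) (mv 433 (both (five 1 430 434) (mv 401 (both (five 6 368 369) (five 6 400 497))))))) (mv 429 (both (five 3 429 430) (mv 494 (both (five 2 461 493) (mv 466 (both (five 2 462 495) (mv 498 (both (five 0 462 497) (five 0 463 499))))))))))))) (mv 461 (both (five 0 461 497) (mv 428 (both (five 3 428 429) (mv 460 (both (five 3 427 427) (mv 492 (both (five 2 459 491) (five 2 460 493))))))))))))) (both (mv 432 (both (mv 401 (both (five 5 400 433) (mv 400 (both (five 5 368 369) (mv 529 (both (five 4 400 497) (five 4 432 561))))))) (both (mv 433 (both (five 5 400 401) (mv 434 (both (five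 2 431 435) (mv 462 (both (five 1 429 461) (five 1 430 465))))))) (mv 529 (both (five 4 432 561) (mv 497 (both (five 4 400 400) (mv 462 (both (five 0 461 461) (mv 498 (both (five 0 462 465) (five 3 463 499)))))))))))) (both (mv 432 (both (five 6 431 559) (mv 433 (both (five 5 400 401) (mv 434 (both (five 2 431 435) (mv 462 (both (five 1 429 461) (five 1 430 465))))))))) (mv 432 (both (five 6 431 559) (mv 529 (both (five 4 432 561) (mv 497 (both (five 4 400 400) (mv 462 (both (five 0 461 461) (mv 498 (both (five 0 462 465) (five 3 463 499)))))))))))))))) (both (mv 495 (both (mv 464 (both (mv 432 (both (five 6 399 400) (mv 529 (both (five 4 432 561) (mv 494 (both (five 0 493 493) (five 3 494 530))))))) (both (mv 560 (both (five 7 463 592) (mv 465 (both (five 5 432 433) (mv 466 (both (five 2 463 467) (five 2 462 494))))))) (mv 432 (both (five 6 399 400) (mv 433 (both (five 5 400 401) (mv 434 (both (five 2 431 435) (mv 462 (both (five 1 429 461) (five 1 430 465)))))))))))) (both (mv 559 (both (mv 590 (both (five 6 462 558) (mv 591 (both (five 6 494 622) (five 5 495 623))))) (mv 462 (both (five 7 430 430)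 (mv 461 (both (five 0 460 460) (mv 464 (both (five 5 431 432) (mv 428 (both (five 3 428 429) (mv 493 (both (five 2 460 492) (mv 465 (both (five 2 461 494) (mv 434 (both (five 1 430 433) (mv 466 (both (five 1 431 435) (five 2 463 467))))))))))))))))))) (mv 559 (both (mv 590 (both (five 6 462 558) (mv 591 (both (five 6 494 622) (five 5 495 623))))) (both (mv 558 (both (five 6 462 590) (mv 529 (both (five 2 526 530) (mv 557 (both (five 1 524 556) (five 1 525 560))))))) (mv 591 (both (five 5 495 623) (mv 592 (both (five 4 463 560) (five 4 495 624))))))))))) (both (mv 464 (both (mv 432 (both (five 6 431 559) (mv 433 (both (five 5 400 401) (mv 434 (both (five 2 431 435) (mv 462 (both (five 1 429 461) (five 1 430 465))))))))) (both (mv 432 (both (mv 433 (both (five 5 400 401) (mv 434 (both (five 2 431 435) (mv 462 (both (five 1 429 461) (five 1 430 465))))))) (both (mv 400 (both (five 6 399 495) (mv 367 (both (five 7 367 399) (mv 368 (both (five 7 335 335) (mv 369 (both (five 5 336 337) (five 5 368 401))))))))) (mv 400 (both (five 6 399 495) (mv 367 (both (five 7 367 399) (mv 368 (both (five 7 335 335) (mv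 337 (both (five 5 336 369) (mv 305 (both (five 5 304 336) (mv 465 (both (five 4 368 497) (mv 433 (both (five 5 432 560) (mv 434 (both (five 2 431 435) (five 1 430 462)))))))))))))))))))) (both (mv 462 (both (mv 461 (both (five 0 461 497) (mv 428 (both (five 3 428 429) (mv 460 (both (five 3 427 427) (five 0 460 495))))))) (both (mv 495 (both (mv 559 (both (five 7 430 430) (five 5 463 591))) (mv 461 (both (five 0 460 460) (mv 493 (both (five 2 460 492) (mv 465 (both (five 2 461 494) (mv 434 (both (five 1 430 433) (mv 466 (both (five 1 431 435) (five 2 463 467))))))))))))) (both (mv 465 (both (mv 498 (both (five 0 462 497) (mv 466 (both (five 0 463 499) (mv 435 (both (five 1 431 434) (mv 467 (both (five 1 432 436) (five 2 463 495))))))))) (both (mv 429 (both (five 3 429 430) (mv 434 (both (five 1 430 433) (mv 466 (both (five 1 431 435) (mv 494 (both (five 2 461 493) (five 2 462 495))))))))) (both (mv 429 (both (five 3 429 430) (mv 433 (both (five 1 430 434) (mv 401 (both (five 6 368 369) (five 6 400 497))))))) (mv 429 (both (five 3 429 430) (mv 494 (both (five 2 461 493) (mv 466 (both (five 2 462 495)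 (mv 498 (both (five 0 462 497) (five 0 463 499))))))))))))) (mv 461 (both (five 0 461 497) (mv 428 (both (five 3 428 429) (mv 460 (both (five 3 427 427) (mv 492 (both (five 2 459 491) (five 2 460 493))))))))))))) (both (mv 432 (both (five 6 431 559) (mv 400 (both (five 6 399 495) (mv 367 (both (five 7 367 399) (mv 368 (both (five 7 335 335) (mv 369 (both (five 5 336 337) (five 5 368 401))))))))))) (mv 432 (both (five 6 431 559) (mv 400 (both (five 6 399 495) (mv 367 (both (five 7 367 399) (mv 368 (both (five 7 335 335) (mv 337 (both (five 5 336 369) (mv 305 (both (five 5 304 336) (mv 465 (both (five 4 368 497) (mv 433 (both (five 5 432 560) (mv 434 (both (five 2 431 435) (five 1 430 462)))))))))))))))))))))))) (both (mv 495 (both (mv 559 (both (mv 462 (both (five 7 430 430) (mv 461 (both (five 0 460 460) (mv 497 (both (five 3 461 494) (five 3 462 498))))))) (mv 558 (both (five 6 462 590) (mv 529 (both (five 2 526 530) (mv 557 (both (five 1 524 556) (five 1 525 560))))))))) (both (mv 462 (both (mv 461 (both (five 0 460 460) (mv 497 (both (five 3 461 494) (five 3 462 498))))) (both (mv 430 (both (five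 7 430 559) (mv 398 (both (five 4 366 366) (five 4 398 494))))) (mv 430 (both (five 7 430 559) (mv 366 (both (five 4 366 398) (mv 461 (both (five 0 460 460) (mv 497 (both (five 0 461 464) (five 3 462 498)))))))))))) (both (mv 464 (both (mv 432 (both (five 6 399 400) (mv 529 (both (five 4 432 561) (mv 494 (both (five 0 493 493) (five 3 494 530))))))) (both (mv 560 (both (five 7 463 592) (mv 465 (both (five 5 432 433) (mv 466 (both (five 2 463 467) (five 2 462 494))))))) (mv 432 (both (five 6 399 400) (mv 433 (both (five 5 400 401) (mv 434 (both (five 2 431 435) (mv 462 (both (five 1 429 461) (five 1 430 465)))))))))))) (both (mv 464 (both (mv 432 (both (five 6 399 400) (five 6 431 559))) (mv 560 (both (five 7 463 592) (mv 465 (both (five 5 432 433) (mv 466 (both (five 2 463 467) (mv 434 (both (five 1 431 435) (mv 498 (both (five 0 463 499) (mv 462 (both (five 0 462 497) (mv 429 (both (five 3 429 430) (mv 461 (both (five 3 428 428) (five 0 460 460))))))))))))))))))) (mv 464 (both (mv 432 (both (five 6 399 400) (five 6 431 559))) (mv 560 (both (mv 465 (both (five 5 432 433) (mv 466 (both (five 2 463 467)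 (mv 494 (both (five 1 461 493) (five 1 462 497))))))) (mv 592 (both (five 7 495 624) (mv 593 (both (five 4 464 561) (five 4 496 625)))))))))))))) (both (mv 559 (both (mv 495 (both (mv 590 (both (five 6 462 558) (mv 591 (both (five 6 494 622) (five 5 495 623))))) (both (mv 558 (both (five 6 462 590) (mv 529 (both (five 2 526 530) (mv 557 (both (five 1 524 556) (five 1 525 560))))))) (mv 591 (both (five 5 495 623) (mv 592 (both (five 4 463 560) (five 4 495 624)))))))) (both (mv 560 (both (mv 464 (both (five 6 431 432) (mv 465 (both (five 5 432 433) (mv 561 (both (five 4 464 593) (mv 562 (both (five 3 527 563) (mv 594 (both (five 0 559 595) (mv 497 (both (five 4 465 529) (mv 498 (both (five 2 495 499) (five 7 465 530))))))))))))))) (both (mv 495 (both (five 7 463 592) (mv 558 (both (five 6 462 590) (mv 529 (both (five 2 526 530) (five 1 525 557))))))) (mv 432 (both (five 6 431 464) (mv 592 (both (five 7 463 495) (mv 593 (both (five 4 496 625) (mv 558 (both (five 0 557 557) (mv 594 (both (five 0 558 561) (five 3 559 595)))))))))))))) (both (mv 464 (both (five 6 431 432) (mv 591 (both (five 6 463 560) (five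 5 495 623))))) (mv 464 (both (five 6 431 432) (mv 591 (both (five 5 463 495) (five 5 495 623))))))))) (mv 559 (both (mv 464 (both (five 6 431 432) (mv 591 (both (five 6 463 560) (five 5 495 623))))) (both (mv 495 (both (mv 462 (both (five 7 430 430) (mv 461 (both (five 0 460 460) (mv 497 (both (five 3 461 494) (five 3 462 498))))))) (mv 558 (both (five 6 462 590) (mv 529 (both (five 2 526 530) (mv 557 (both (five 1 524 556) (five 1 525 560))))))))) (mv 464 (both (five 6 431 432) (mv 591 (both (five 5 463 495) (five 5 495 623))))))))))))))))) (both (mv 464 (both (mv 496 (both (mv 432 (both (five 6 431 559) (mv 401 (both (five 5 400 433) (mv 400 (both (five 5 368 369) (mv 529 (both (five 4 400 497) (five 4 432 561))))))))) (both (mv 560 (both (mv 559 (both (five 6 463 591) (mv 593 (both (five 4 464 561) (mv 592 (both (five 4 496 625) (mv 558 (both (five 0 557 557) (mv 529 (both (five 2 526 530) (mv 624 (both (five 5 496 497) (five 7 527 656))))))))))))) (both (mv 465 (both (five 5 432 433) (mv 497 (both (five 5 464 592) (mv 462 (both (five 0 461 461) (five 0 462 498))))))) (both (mv 433 (both (five 5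 432 465) (mv 591 (both (five 6 463 559) (mv 592 (both (five 6 495 623) (mv 593 (both (five 4 464 561) (five 4 496 625))))))))) (mv 465 (both (five 5 432 433) (mv 559 (both (five 6 463 591) (mv 561 (both (five 4 464 593) (mv 562 (both (five 3 527 563) (mv 594 (both (five 0 559 595) (mv 497 (both (five 4 465 529) (mv 462 (both (five 0 461 461) (five 0 462 498))))))))))))))))))) (both (mv 432 (both (mv 401 (both (five 5 400 433) (mv 400 (both (five 5 368 369) (mv 529 (both (five 4 400 497) (five 4 432 561))))))) (both (mv 433 (both (five 5 400 401) (mv 434 (both (five 2 431 435) (mv 462 (both (five 1 429 461) (five 1 430 465))))))) (mv 529 (both (five 4 432 561) (mv 497 (both (five 4 400 400) (mv 462 (both (five 0 461 461) (mv 498 (both (five 0 462 465) (five 3 463 499)))))))))))) (both (mv 432 (both (five 6 431 559) (mv 433 (both (five 5 400 401) (mv 434 (both (five 2 431 435) (mv 462 (both (five 1 429 461) (five 1 430 465))))))))) (mv 432 (both (five 6 431 559) (mv 529 (both (five 4 432 561) (mv 497 (both (five 4 400 400) (mv 462 (both (five 0 461 461) (mv 498 (both (five 0 462 465) (five 3 463 499))))))))))))))))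 (both (mv 465 (both (mv 462 (both (mv 429 (both (five 3 429 430) (mv 461 (both (five 3 428 428) (mv 493 (both (five 2 460 492) (five 2 461 494))))))) (both (mv 433 (both (five 1 430 434) (mv 493 (both (five 2 461 494) (mv 497 (both (five 0 462 498) (mv 529 (both (five 6 432 560) (mv 432 (both (five 7 400 400) (five 7 432 561))))))))))) (mv 429 (both (five 3 429 430) (mv 428 (both (five 3 428 461) (mv 433 (both (five 1 430 434) (mv 497 (both (five 0 462 498) (mv 529 (both (five 6 432 560) (mv 432 (both (five 7 400 400) (five 7 432 561)))))))))))))))) (both (mv 466 (both (mv 435 (both (five 1 431 434) (mv 467 (both (five 1 432 436) (mv 499 (both (five 0 463 498) (five 0 464 500))))))) (both (mv 431 (both (five 3 430 430) (mv 467 (both (five 3 431 432) (mv 499 (both (five 0 463 498) (five 0 464 500))))))) (both (mv 431 (both (five 3 430 430) (mv 435 (both (five 1 431 434) (mv 467 (both (five 3 431 432) (five 1 432 436))))))) (mv 434 (both (five 1 431 435) (mv 497 (both (mv 402 (both (five 6 369 370) (mv 430 (both (five 3 430 431) (mv 498 (both (five 0 463 499) (mv 371 (both (five 5 370 403) (mv 401 (both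 (five 7 369 369) (mv 530 (both (five 7 401 433) (mv 562 (both (five 7 465 594) (mv 561 (both (five 6 465 593) (mv 563 (both (five 3 527 560) (five 4 466 595))))))))))))))))))) (both (mv 370 (both (five 6 369 402) (mv 430 (both (five 3 430 431) (mv 529 (both (five 5 433 561) (mv 433 (both (five 6 432 560) (mv 400 (both (five 7 400 432) (mv 401 (both (five 7 368 368) (mv 369 (both (five 4 337 337) (five 5 337 338))))))))))))))) (both (mv 498 (both (five 0 463 499) (mv 529 (both (five 5 433 561) (mv 433 (both (five 6 432 560) (mv 401 (both (five 4 369 369) (five 7 401 530))))))))) (mv 402 (both (five 6 369 370) (mv 498 (both (five 0 463 499) (five 6 401 529))))))))))))))) (both (mv 466 (both (mv 435 (both (five 1 431 434) (mv 467 (both (five 1 432 436) (mv 499 (both (five 0 463 498) (five 0 464 500))))))) (both (mv 431 (both (five 3 430 430) (mv 435 (both (five 1 431 434) (mv 467 (both (five 3 431 432) (five 1 432 436))))))) (both (mv 431 (both (five 3 430 430) (mv 467 (both (five 3 431 432) (mv 499 (both (five 0 463 498) (five 0 464 500))))))) (mv 430 (both (five 3 430 431) (mv 434 (both (five 1 431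 435) (mv 462 (both (five 3 429 429) (mv 498 (both (five 0 462 497) (five 0 463 499))))))))))))) (both (mv 462 (both (mv 429 (both (five 3 429 430) (mv 461 (both (five 3 428 428) (mv 493 (both (five 2 460 492) (five 2 461 494))))))) (both (mv 493 (both (five 2 461 494) (mv 461 (both (five 2 460 492) (mv 428 (both (five 3 428 429) (mv 432 (both (five 1 429 433) (mv 460 (both (five 3 427 427) (five 1 428 431))))))))))) (both (mv 493 (both (five 2 461 494) (mv 461 (both (five 2 460 492) (mv 432 (both (five 1 429 433) (mv 431 (both (five 1 428 460) (mv 466 (both (five 3 430 430) (five 3 431 467))))))))))) (mv 430 (both (five 3 429 429) (mv 466 (both (five 3 430 431) (mv 498 (both (five 0 462 497) (five 0 463 499))))))))))) (both (mv 462 (both (mv 429 (both (five 3 429 430) (mv 461 (both (five 3 428 428) (mv 493 (both (five 2 460 492) (five 2 461 494))))))) (both (mv 493 (both (five 2 461 494) (mv 461 (both (five 2 460 492) (mv 428 (both (five 3 428 429) (mv 432 (both (five 1 429 433) (mv 460 (both (five 3 427 427) (five 1 428 431))))))))))) (both (mv 493 (both (five 2 461 494) (mv 461 (both (five 2 460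 492) (mv 432 (both (five 1 429 433) (mv 431 (both (five 1 428 460) (mv 466 (both (five 3 430 430) (five 3 431 467))))))))))) (mv 430 (both (five 3 429 429) (mv 434 (both (five 1 430 433) (mv 466 (both (five 3 430 431) (five 1 431 435))))))))))) (both (mv 466 (both (mv 435 (both (five 1 431 434) (mv 467 (both (five 1 432 436) (mv 499 (both (five 0 463 498) (five 0 464 500))))))) (both (mv 435 (both (five 1 431 434) (mv 467 (both (five 1 432 436) (mv 432 (both (five 3 431 431) (mv 468 (both (five 3 432 433) (mv 500 (both (five 0 464 499) (five 0 465 501))))))))))) (both (mv 498 (both (five 0 463 499) (mv 462 (both (five 0 462 497) (mv 493 (both (five 2 461 494) (mv 461 (both (five 2 460 492) (mv 428 (both (five 3 428 429) (mv 432 (both (five 1 429 433) (mv 460 (both (five 3 427 427) (five 1 428 431))))))))))))))) (mv 435 (both (five 1 431 434) (mv 467 (both (five 1 432 436) (mv 432 (both (five 3 431 431) (mv 433 (both (five 3 432 468) (mv 462 (both (five 1 429 461) (mv 493 (both (five 2 461 494) (mv 497 (both (five 0 462 498) (mv 400 (both (five 4 368 368) (five 7 400 529))))))))))))))))))))) (mv 462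 (both (mv 429 (both (five 3 429 430) (mv 461 (both (five 3 428 428) (mv 493 (both (five 2 460 492) (five 2 461 494))))))) (mv 434 (both (five 1 430 433) (mv 466 (both (five 1 431 435) (mv 498 (both (five 0 462 497) (five 0 463 499)))))))))))))))) (both (mv 462 (both (mv 465 (both (mv 429 (both (five 3 429 430) (mv 461 (both (five 3 428 428) (mv 493 (both (five 2 460 492) (five 2 461 494))))))) (mv 434 (both (five 1 430 433) (mv 466 (both (five 1 431 435) (mv 498 (both (five 0 462 497) (five 0 463 499))))))))) (both (mv 461 (both (mv 428 (both (five 3 428 429) (mv 460 (both (five 3 427 427) (mv 492 (both (five 2 459 491) (five 2 460 493))))))) (mv 496 (both (five 0 461 497) (mv 560 (both (five 7 431 431) (mv 591 (both (five 6 463 559) (mv 592 (both (five 6 495 623) (mv 593 (both (five 4 464 561) (five 4 496 625))))))))))))) (both (mv 465 (both (mv 430 (both (five 3 429 429) (mv 466 (both (five 3 430 431) (mv 498 (both (five 0 462 497) (five 0 463 499))))))) (both (mv 430 (both (five 3 429 429) (mv 434 (both (five 1 430 433) (mv 466 (both (five 3 430 431) (five 1 431 435))))))) (both (mv 434 (both (five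 1 430 433) (mv 466 (both (five 1 431 435) (mv 498 (both (five 0 462 497) (five 0 463 499))))))) (mv 429 (both (five 3 429 430) (mv 433 (both (five 1 430 434) (mv 493 (both (five 2 461 494) (mv 496 (both (five 5 432 560) (mv 401 (both (five 6 368 369) (five 6 400 497))))))))))))))) (both (mv 493 (both (mv 461 (both (five 2 460 492) (mv 430 (both (mv 398 (both (five 6 365 366) (mv 525 (both (five 6 397 494) (five 5 429 557))))) (both (mv 428 (both (five 3 428 429) (mv 460 (both (five 3 427 427) (mv 364 (both (five 4 364 396) (mv 459 (both (five 1 427 431) (mv 458 (both (five 0 458 494) (mv 490 (both (five 2 457 489) (five 2 458 491))))))))))))) (mv 398 (both (five 6 365 366) (mv 429 (both (five 3 428 428) (five 5 397 525)))))))))) (both (mv 465 (both (five 2 461 494) (mv 430 (both (five 3 429 429) (mv 434 (both (five 1 430 433) (mv 466 (both (five 3 430 431) (five 1 431 435))))))))) (both (mv 461 (both (five 2 460 492) (mv 429 (both (five 3 428 428) (mv 430 (both (five 3 429 465) (mv 398 (both (five 6 365 366) (five 5 397 525))))))))) (mv 492 (both (five 2 460 461) (mv 494 (both (five 2 461 465) (five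 1 459 491))))))))) (mv 496 (both (mv 560 (both (five 7 431 431) (mv 591 (both (five 6 463 559) (mv 592 (both (five 6 495 623) (mv 593 (both (five 4 464 561) (five 4 496 625))))))))) (mv 497 (both (five 0 461 461) (mv 498 (both (five 0 462 465) (five 3 463 499)))))))))))) (both (mv 496 (both (mv 432 (both (five 6 431 559) (mv 401 (both (five 5 400 433) (mv 400 (both (five 5 368 369) (mv 529 (both (five 4 400 497) (five 4 432 561))))))))) (both (mv 560 (both (five 7 431 431) (mv 591 (both (five 6 463 559) (mv 592 (both (five 6 495 623) (mv 593 (both (five 4 464 561) (five 4 496 625))))))))) (mv 431 (both (five 7 431 560) (mv 399 (both (five 4 367 367) (five 7 399 432)))))))) (both (mv 462 (both (mv 461 (both (mv 428 (both (five 3 428 429) (mv 460 (both (five 3 427 427) (mv 492 (both (five 2 459 491) (five 2 460 493))))))) (mv 432 (both (five 1 429 433) (mv 496 (both (five 0 461 497) (five 6 431 559))))))) (both (mv 465 (both (mv 430 (both (five 3 429 429) (mv 466 (both (five 3 430 431) (mv 498 (both (five 0 462 497) (five 0 463 499))))))) (both (mv 430 (both (five 3 429 429) (mv 434 (both (five 1 430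 433) (mv 466 (both (five 3 430 431) (five 1 431 435))))))) (both (mv 434 (both (five 1 430 433) (mv 466 (both (five 1 431 435) (mv 498 (both (five 0 462 497) (five 0 463 499))))))) (mv 429 (both (five 3 429 430) (mv 433 (both (five 1 430 434) (mv 493 (both (five 2 461 494) (mv 497 (both (five 0 462 498) (mv 401 (both (five 6 400 496) (mv 368 (both (five 7 368 400) (mv 369 (both (five 7 336 336) (mv 370 (both (five 5 337 338) (five 5 369 402))))))))))))))))))))) (both (mv 461 (both (mv 428 (both (five 3 428 429) (mv 460 (both (five 3 427 427) (mv 492 (both (five 2 459 491) (five 2 460 493))))))) (both (mv 428 (both (five 3 428 429) (mv 460 (both (five 3 427 427) (mv 431 (both (five 1 428 432) (mv 430 (both (five 1 427 459) (mv 465 (both (five 3 430 466) (mv 497 (both (five 0 461 496) (five 0 462 498))))))))))))) (both (mv 492 (both (five 2 460 493) (mv 460 (both (five 2 459 491) (mv 431 (both (five 1 428 432) (mv 430 (both (five 1 427 459) (mv 465 (both (five 3 430 466) (mv 497 (both (five 0 461 496) (five 0 462 498))))))))))))) (mv 428 (both (five 3 428 429) (mv 493 (both (five 2 460 492) (mv 465 (both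 (five 2 461 494) (mv 497 (both (five 0 461 496) (five 0 462 498))))))))))))) (both (mv 493 (both (mv 461 (both (five 2 460 492) (mv 430 (both (mv 398 (both (five 6 365 366) (mv 525 (both (five 6 397 494) (five 5 429 557))))) (both (mv 428 (both (five 3 428 429) (mv 460 (both (five 3 427 427) (mv 364 (both (five 4 364 396) (mv 459 (both (five 1 427 431) (mv 458 (both (five 0 458 494) (mv 490 (both (five 2 457 489) (five 2 458 491))))))))))))) (mv 398 (both (five 6 365 366) (mv 429 (both (five 3 428 428) (five 5 397 525)))))))))) (both (mv 465 (both (five 2 461 494) (mv 430 (both (five 3 429 429) (mv 434 (both (five 1 430 433) (mv 466 (both (five 3 430 431) (five 1 431 435))))))))) (both (mv 461 (both (five 2 460 492) (mv 429 (both (five 3 428 428) (mv 430 (both (five 3 429 465) (mv 398 (both (five 6 365 366) (five 5 397 525))))))))) (mv 492 (both (five 2 460 461) (mv 494 (both (five 2 461 465) (five 1 459 491))))))))) (both (mv 465 (both (mv 434 (both (five 1 430 433) (mv 466 (both (five 1 431 435) (mv 498 (both (five 0 462 497) (five 0 463 499))))))) (both (mv 493 (both (five 2 461 494) (mv 461 (both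 (five 2 460 492) (mv 497 (both (five 0 461 496) (five 0 462 498))))))) (mv 493 (both (five 2 461 494) (mv 461 (both (five 2 460 492) (mv 432 (both (five 1 429 433) (mv 431 (both (five 1 428 460) (mv 466 (both (five 3 430 430) (five 3 431 467)))))))))))))) (mv 465 (both (mv 430 (both (five 3 429 429) (mv 466 (both (five 3 430 431) (mv 498 (both (five 0 462 497) (five 0 463 499))))))) (both (mv 429 (both (five 3 429 430) (mv 433 (both (five 1 430 434) (mv 461 (both (five 3 428 428) (five 1 429 432))))))) (mv 434 (both (five 1 430 433) (mv 466 (both (five 1 431 435) (mv 498 (both (five 0 462 497) (five 0 463 499)))))))))))))))) (both (mv 496 (both (mv 431 (both (five 7 431 560) (mv 399 (both (five 4 367 367) (five 7 399 432))))) (both (mv 560 (both (five 7 431 431) (mv 591 (both (five 6 463 559) (mv 592 (both (five 6 495 623) (mv 593 (both (five 4 464 561) (five 4 496 625))))))))) (mv 432 (both (five 6 431 559) (mv 529 (both (five 4 432 561) (mv 497 (both (five 4 400 400) (mv 462 (both (five 0 461 461) (mv 498 (both (five 0 462 465) (five 3 463 499)))))))))))))) (mv 496 (both (mv 431 (both (five 7 431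 560) (mv 399 (both (five 4 367 367) (five 7 399 432))))) (both (mv 560 (both (five 7 431 431) (mv 591 (both (five 6 463 559) (mv 592 (both (five 6 495 623) (mv 593 (both (five 4 464 561) (five 4 496 625))))))))) (mv 432 (both (five 6 431 559) (mv 433 (both (five 5 400 401) (mv 434 (both (five 2 431 435) (mv 462 (both (five 1 429 461) (five 1 430 465))))))))))))))))))) (both (mv 495 (both (mv 431 (both (mv 398 (both (five 7 398 430) (mv 399 (both (five 7 366 366) (five 4 399 496))))) (both (mv 430 (both (five 7 398 398) (mv 429 (both (mv 428 (both (five 0 428 464) (mv 395 (both (five 3 395 396) (mv 427 (both (five 3 394 394) (five 0 427 462))))))) (both (mv 432 (both (five 5 399 400) (mv 461 (both (five 2 428 460) (mv 433 (both (five 2 429 462) (mv 401 (both (five 1 398 402) (mv 465 (both (five 0 430 466) (mv 497 (both (five 6 400 496) (mv 530 (both (five 4 401 498) (mv 529 (both (five 3 494 494) (five 4 433 562))))))))))))))))) (mv 400 (both (five 5 399 432) (mv 428 (both (five 0 428 464) (mv 395 (both (five 3 395 396) (mv 427 (both (five 3 394 394) (mv 459 (both (five 2 426 458) (five 2 427 460))))))))))))))))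 (both (mv 398 (both (five 7 398 430) (mv 399 (both (five 7 366 366) (mv 400 (both (five 5 367 368) (five 5 399 432))))))) (mv 399 (both (five 4 399 496) (mv 400 (both (five 5 367 368) (five 5 399 432))))))))) (both (mv 432 (both (mv 400 (both (five 5 399 431) (mv 464 (both (five 6 367 368) (five 5 431 559))))) (both (mv 559 (both (five 5 431 464) (mv 462 (both (five 7 430 430) (mv 590 (both (five 6 462 558) (mv 591 (both (five 7 462 494) (five 6 494 622))))))))) (both (mv 431 (both (five 5 399 400) (mv 462 (both (mv 433 (both (five 2 430 434) (mv 461 (both (five 1 428 460) (five 1 429 464))))) (both (mv 398 (both (five 7 398 430) (mv 399 (both (five 7 366 366) (mv 367 (both (five 6 366 494) (mv 335 (both (five 4 335 464) (mv 336 (both (five 5 303 304) (five 5 335 368))))))))))) (mv 430 (both (five 7 398 398) (mv 433 (both (five 2 430 434) (five 2 429 461)))))))))) (mv 431 (both (five 5 399 400) (mv 430 (both (five 7 398 398) (mv 462 (both (five 7 430 559) (mv 433 (both (five 2 430 434) (five 2 429 461))))))))))))) (both (mv 431 (both (mv 398 (both (five 7 398 430) (mv 399 (both (five 7 366 366) (five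 4 399 496))))) (both (mv 398 (both (five 7 398 430) (mv 432 (both (five 5 399 400) (mv 559 (both (five 5 431 464) (mv 590 (both (five 6 462 558) (mv 591 (both (five 6 494 622) (mv 623 (both (five 5 495 496) (mv 624 (both (five 4 495 592) (five 4 527 656))))))))))))))) (both (mv 398 (both (five 7 398 430) (mv 399 (both (five 7 366 366) (mv 400 (both (five 5 367 368) (five 5 399 432))))))) (mv 399 (both (five 4 399 496) (mv 400 (both (five 5 367 368) (five 5 399 432))))))))) (both (mv 559 (both (mv 462 (both (five 7 430 430) (mv 590 (both (five 6 462 558) (mv 591 (both (five 7 462 494) (five 6 494 622))))))) (both (mv 590 (both (five 6 462 558) (mv 591 (both (five 6 494 622) (mv 623 (both (five 5 495 496) (mv 624 (both (five 4 495 592) (five 4 527 656))))))))) (mv 431 (both (mv 399 (both (five 4 399 496) (mv 366 (both (five 7 366 398) (mv 367 (both (five 7 334 334) (mv 368 (both (five 5 335 336) (five 5 367 400))))))))) (both (mv 430 (both (five 7 398 398) (five 7 430 462))) (mv 399 (both (five 4 399 496) (mv 368 (both (five 5 367 400) (mv 367 (both (five 5 335 336) (mv 462 (both (five 7 430 430) (five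 6 366 494))))))))))))))) (both (mv 494 (both (mv 493 (both (five 0 492 492) (mv 529 (both (five 0 493 496) (five 3 494 530))))) (both (mv 559 (both (mv 590 (both (five 6 462 558) (mv 591 (both (five 6 494 622) (mv 623 (both (five 5 495 496) (mv 624 (both (five 4 495 592) (five 4 527 656))))))))) (both (mv 432 (both (five 5 431 464) (mv 431 (both (five 5 399 400) (mv 399 (both (five 4 399 496) (mv 366 (both (five 7 366 398) (mv 367 (both (five 7 334 334) (five 6 366 462))))))))))) (mv 432 (both (five 5 431 464) (mv 400 (both (five 5 399 431) (mv 529 (both (five 3 494 530) (mv 590 (both (five 6 462 558) (mv 591 (both (five 7 462 462) (five 6 494 622)))))))))))))) (mv 464 (both (mv 432 (both (five 5 431 559) (mv 400 (both (five 6 367 368) (five 5 399 431))))) (mv 465 (both (five 2 462 466) (mv 493 (both (five 2 461 462) (five 1 460 492)))))))))) (mv 559 (both (mv 462 (both (five 7 430 430) (mv 590 (both (five 6 462 558) (mv 591 (both (five 7 462 494) (five 6 494 622))))))) (both (mv 590 (both (five 6 462 558) (mv 591 (both (five 6 494 622) (mv 623 (both (five 5 495 496) (mv 624 (both (five 4 495 592)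 (five 4 527 656))))))))) (mv 494 (both (mv 493 (both (five 0 492 492) (mv 529 (both (five 0 493 496) (five 3 494 530))))) (both (mv 462 (both (five 7 430 430) (mv 464 (both (five 5 431 432) (mv 465 (both (five 2 462 466) (mv 433 (both (five 1 430 434) (mv 497 (both (five 0 462 498) (mv 496 (both (five 6 400 401) (five 0 461 461))))))))))))) (mv 462 (both (five 7 430 430) (mv 464 (both (five 5 431 432) (mv 465 (both (five 2 462 466) (five 2 461 493))))))))))))))))))) (both (mv 495 (both (mv 431 (both (five 4 431 560) (mv 398 (both (five 7 398 430) (mv 399 (both (five 7 366 366) (mv 400 (both (five 5 367 368) (five 5 399 432))))))))) (both (mv 559 (both (mv 462 (both (five 7 430 430) (mv 591 (both (five 7 462 494) (mv 592 (both (five 4 463 560) (five 4 495 624))))))) (both (mv 558 (both (five 6 462 590) (mv 529 (both (five 2 526 530) (mv 557 (both (five 1 524 556) (five 1 525 560))))))) (mv 462 (both (five 7 430 430) (mv 590 (both (five 6 462 558) (mv 591 (both (five 7 462 494) (five 6 494 622)))))))))) (both (mv 432 (both (mv 400 (both (five 5 399 431) (mv 464 (both (five 6 367 368) (five 5 431 559)))))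 (both (mv 559 (both (five 5 431 464) (mv 462 (both (five 7 430 430) (mv 590 (both (five 6 462 558) (mv 591 (both (five 7 462 494) (five 6 494 622))))))))) (both (mv 431 (both (five 5 399 400) (mv 462 (both (mv 433 (both (five 2 430 434) (mv 461 (both (five 1 428 460) (five 1 429 464))))) (both (mv 398 (both (five 7 398 430) (mv 399 (both (five 7 366 366) (mv 367 (both (five 6 366 494) (mv 335 (both (five 4 335 464) (mv 336 (both (five 5 303 304) (five 5 335 368))))))))))) (mv 430 (both (five 7 398 398) (mv 433 (both (five 2 430 434) (five 2 429 461)))))))))) (mv 431 (both (five 5 399 400) (mv 430 (both (five 7 398 398) (mv 462 (both (five 7 430 559) (mv 433 (both (five 2 430 434) (five 2 429 461))))))))))))) (mv 560 (both (five 4 431 431) (mv 592 (both (five 4 463 559) (five 7 495 624))))))))) (both (mv 464 (both (mv 465 (both (mv 466 (both (mv 435 (both (five 1 431 434) (mv 467 (both (five 1 432 436) (mv 499 (both (five 0 463 498) (five 0 464 500))))))) (both (mv 431 (both (five 3 430 430) (mv 435 (both (five 1 431 434) (mv 467 (both (five 3 431 432) (five 1 432 436))))))) (both (mv 431 (both (five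 3 430 430) (mv 467 (both (five 3 431 432) (mv 499 (both (five 0 463 498) (five 0 464 500))))))) (mv 430 (both (five 3 430 431) (mv 434 (both (five 1 431 435) (mv 462 (both (five 3 429 429) (mv 498 (both (five 0 462 497) (five 0 463 499))))))))))))) (both (mv 462 (both (mv 429 (both (five 3 429 430) (mv 461 (both (five 3 428 428) (mv 493 (both (five 2 460 492) (five 2 461 494))))))) (both (mv 433 (both (five 1 430 434) (mv 493 (both (five 2 461 494) (mv 497 (both (five 0 462 498) (mv 529 (both (five 6 432 560) (mv 432 (both (five 7 400 400) (five 7 432 561))))))))))) (mv 429 (both (five 3 429 430) (mv 428 (both (five 3 428 461) (mv 433 (both (five 1 430 434) (mv 497 (both (five 0 462 498) (mv 529 (both (five 6 432 560) (mv 432 (both (five 7 400 400) (five 7 432 561)))))))))))))))) (both (mv 466 (both (mv 435 (both (five 1 431 434) (mv 467 (both (five 1 432 436) (mv 499 (both (five 0 463 498) (five 0 464 500))))))) (mv 431 (both (five 3 430 430) (mv 495 (both (five 2 462 494) (five 4 431 560))))))) (both (mv 466 (both (mv 435 (both (five 1 431 434) (mv 467 (both (five 1 432 436) (mv 499 (both (five 0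 463 498) (five 0 464 500))))))) (both (mv 435 (both (five 1 431 434) (mv 467 (both (five 1 432 436) (mv 432 (both (five 3 431 431) (mv 468 (both (five 3 432 433) (mv 500 (both (five 0 464 499) (five 0 465 501))))))))))) (both (mv 498 (both (five 0 463 499) (mv 462 (both (five 0 462 497) (mv 493 (both (five 2 461 494) (mv 461 (both (five 2 460 492) (mv 428 (both (five 3 428 429) (mv 432 (both (five 1 429 433) (mv 460 (both (five 3 427 427) (five 1 428 431))))))))))))))) (mv 435 (both (five 1 431 434) (mv 467 (both (five 1 432 436) (mv 432 (both (five 3 431 431) (mv 433 (both (five 3 432 468) (mv 462 (both (five 1 429 461) (mv 493 (both (five 2 461 494) (mv 497 (both (five 0 462 498) (mv 400 (both (five 4 368 368) (five 7 400 529))))))))))))))))))))) (both (mv 462 (both (mv 429 (both (five 3 429 430) (mv 461 (both (five 3 428 428) (mv 493 (both (five 2 460 492) (five 2 461 494))))))) (both (mv 493 (both (five 2 461 494) (mv 461 (both (five 2 460 492) (mv 428 (both (five 3 428 429) (mv 432 (both (five 1 429 433) (mv 460 (both (five 3 427 427) (five 1 428 431))))))))))) (both (mv 493 (both (five 2 461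 494) (mv 461 (both (five 2 460 492) (mv 432 (both (five 1 429 433) (mv 431 (both (five 1 428 460) (mv 466 (both (five 3 430 430) (five 3 431 467))))))))))) (mv 430 (both (five 3 429 429) (mv 466 (both (five 3 430 431) (mv 498 (both (five 0 462 497) (five 0 463 499))))))))))) (mv 462 (both (mv 429 (both (five 3 429 430) (mv 461 (both (five 3 428 428) (mv 493 (both (five 2 460 492) (five 2 461 494))))))) (both (mv 493 (both (five 2 461 494) (mv 461 (both (five 2 460 492) (mv 428 (both (five 3 428 429) (mv 432 (both (five 1 429 433) (mv 460 (both (five 3 427 427) (five 1 428 431))))))))))) (both (mv 493 (both (five 2 461 494) (mv 461 (both (five 2 460 492) (mv 432 (both (five 1 429 433) (mv 431 (both (five 1 428 460) (mv 466 (both (five 3 430 430) (five 3 431 467))))))))))) (mv 430 (both (five 3 429 429) (mv 434 (both (five 1 430 433) (mv 466 (both (five 3 430 431) (five 1 431 435))))))))))))))))) (both (mv 462 (both (mv 465 (both (mv 429 (both (five 3 429 430) (mv 461 (both (five 3 428 428) (mv 493 (both (five 2 460 492) (five 2 461 494))))))) (mv 434 (both (five 1 430 433) (mv 466 (both (five 1 431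 435) (mv 498 (both (five 0 462 497) (five 0 463 499))))))))) (both (mv 461 (both (mv 428 (both (five 3 428 429) (mv 460 (both (five 3 427 427) (mv 492 (both (five 2 459 491) (five 2 460 493))))))) (mv 432 (both (five 1 429 433) (mv 496 (both (five 0 461 497) (mv 400 (both (five 6 399 495) (mv 367 (both (five 7 367 399) (mv 368 (both (five 7 335 335) (mv 369 (both (five 5 336 337) (five 5 368 401))))))))))))))) (both (mv 465 (both (mv 434 (both (five 1 430 433) (mv 466 (both (five 1 431 435) (mv 494 (both (five 2 461 493) (five 2 462 495))))))) (both (mv 494 (both (five 2 461 493) (mv 466 (both (five 2 462 495) (mv 498 (both (five 0 462 497) (five 0 463 499))))))) (mv 433 (both (five 1 430 434) (mv 497 (both (five 0 462 498) (mv 529 (both (five 6 432 560) (mv 432 (both (five 7 400 400) (five 7 432 561)))))))))))) (both (mv 465 (both (mv 434 (both (five 1 430 433) (mv 466 (both (five 1 431 435) (mv 494 (both (five 2 461 493) (five 2 462 495))))))) (both (mv 429 (both (five 3 429 430) (mv 461 (both (five 3 428 428) (mv 493 (both (five 2 460 492) (five 2 461 494))))))) (mv 429 (both (five 3 429 430) (mv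 433 (both (five 1 430 434) (mv 461 (both (five 3 428 428) (five 1 429 432)))))))))) (both (mv 465 (both (mv 429 (both (five 3 429 430) (mv 433 (both (five 1 430 434) (mv 461 (both (five 3 428 428) (five 1 429 432))))))) (both (mv 429 (both (five 3 429 430) (mv 428 (both (five 3 428 461) (mv 498 (both (five 0 462 497) (mv 466 (both (five 0 463 499) (mv 495 (both (five 2 462 494) (mv 496 (both (five 2 463 467) (mv 432 (both (five 6 399 400) (mv 560 (both (five 7 463 592) (mv 561 (both (five 4 432 529) (five 4 464 593))))))))))))))))))) (mv 434 (both (five 1 430 433) (mv 466 (both (five 1 431 435) (mv 498 (both (five 0 462 497) (five 0 463 499)))))))))) (mv 465 (both (mv 494 (both (five 2 461 493) (mv 466 (both (five 2 462 495) (mv 498 (both (five 0 462 497) (five 0 463 499))))))) (both (mv 429 (both (five 3 429 430) (mv 461 (both (five 3 428 428) (mv 493 (both (five 2 460 492) (five 2 461 494))))))) (mv 429 (both (five 3 429 430) (mv 461 (both (five 3 428 428) (mv 497 (both (five 0 461 496) (five 0 462 498)))))))))))))))) (both (mv 496 (both (mv 431 (both (five 7 431 560) (mv 399 (both (five 4 367 367)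 (five 7 399 432))))) (both (mv 432 (both (mv 401 (both (five 5 400 433) (mv 400 (both (five 5 368 369) (mv 529 (both (five 4 400 497) (five 4 432 561))))))) (both (mv 433 (both (five 5 400 401) (mv 434 (both (five 2 431 435) (mv 462 (both (five 1 429 461) (five 1 430 465))))))) (mv 529 (both (five 4 432 561) (mv 497 (both (five 4 400 400) (mv 462 (both (five 0 461 461) (mv 498 (both (five 0 462 465) (five 3 463 499)))))))))))) (mv 560 (both (five 7 431 431) (mv 465 (both (five 5 432 433) (mv 497 (both (five 5 464 592) (mv 462 (both (five 0 461 461) (five 0 462 498)))))))))))) (both (mv 465 (both (mv 466 (both (mv 435 (both (five 1 431 434) (mv 467 (both (five 1 432 436) (mv 499 (both (five 0 463 498) (five 0 464 500))))))) (both (mv 431 (both (five 3 430 430) (mv 435 (both (five 1 431 434) (mv 467 (both (five 3 431 432) (five 1 432 436))))))) (both (mv 431 (both (five 3 430 430) (mv 467 (both (five 3 431 432) (mv 499 (both (five 0 463 498) (five 0 464 500))))))) (mv 430 (both (five 3 430 431) (mv 434 (both (five 1 431 435) (mv 462 (both (five 3 429 429) (mv 498 (both (five 0 462 497) (five 0 463 499)))))))))))))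 (both (mv 462 (both (mv 429 (both (five 3 429 430) (mv 433 (both (five 1 430 434) (mv 461 (both (five 3 428 428) (five 1 429 432))))))) (both (mv 493 (both (five 2 461 494) (mv 461 (both (five 2 460 492) (mv 497 (both (five 0 461 496) (five 0 462 498))))))) (mv 433 (both (five 1 430 434) (mv 497 (both (five 0 462 498) (mv 401 (both (five 6 400 496) (mv 368 (both (five 7 368 400) (mv 369 (both (five 7 336 336) (mv 370 (both (five 5 337 338) (five 5 369 402)))))))))))))))) (both (mv 466 (both (mv 435 (both (five 1 431 434) (mv 467 (both (five 1 432 436) (mv 499 (both (five 0 463 498) (five 0 464 500))))))) (both (mv 431 (both (five 3 430 430) (mv 467 (both (five 3 431 432) (mv 499 (both (five 0 463 498) (five 0 464 500))))))) (mv 431 (both (five 3 430 430) (mv 434 (both (five 1 431 435) (mv 495 (both (five 2 462 494) (mv 399 (both (five 4 399 496) (mv 400 (both (five 5 367 368) (five 5 399 432)))))))))))))) (both (mv 462 (both (mv 429 (both (five 3 429 430) (mv 461 (both (five 3 428 428) (mv 493 (both (five 2 460 492) (five 2 461 494))))))) (mv 434 (both (five 1 430 433) (mv 466 (both (five 1 431 435)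 (mv 498 (both (five 0 462 497) (five 0 463 499))))))))) (both (mv 462 (both (mv 429 (both (five 3 429 430) (mv 461 (both (five 3 428 428) (mv 493 (both (five 2 460 492) (five 2 461 494))))))) (both (mv 493 (both (five 2 461 494) (mv 461 (both (five 2 460 492) (mv 428 (both (five 3 428 429) (mv 432 (both (five 1 429 433) (mv 460 (both (five 3 427 427) (five 1 428 431))))))))))) (both (mv 493 (both (five 2 461 494) (mv 461 (both (five 2 460 492) (mv 432 (both (five 1 429 433) (mv 431 (both (five 1 428 460) (mv 466 (both (five 3 430 430) (five 3 431 467))))))))))) (mv 430 (both (five 3 429 429) (mv 434 (both (five 1 430 433) (mv 466 (both (five 3 430 431) (five 1 431 435))))))))))) (both (mv 466 (both (mv 435 (both (five 1 431 434) (mv 467 (both (five 1 432 436) (mv 499 (both (five 0 463 498) (five 0 464 500))))))) (both (mv 435 (both (five 1 431 434) (mv 467 (both (five 1 432 436) (mv 432 (both (five 3 431 431) (mv 468 (both (five 3 432 433) (mv 500 (both (five 0 464 499) (five 0 465 501))))))))))) (both (mv 498 (both (five 0 463 499) (mv 462 (both (five 0 462 497) (mv 493 (both (five 2 461 494) (mv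 461 (both (five 2 460 492) (mv 428 (both (five 3 428 429) (mv 432 (both (five 1 429 433) (mv 460 (both (five 3 427 427) (five 1 428 431))))))))))))))) (mv 435 (both (five 1 431 434) (mv 467 (both (five 1 432 436) (mv 432 (both (five 3 431 431) (mv 433 (both (five 3 432 468) (mv 462 (both (five 1 429 461) (mv 493 (both (five 2 461 494) (mv 497 (both (five 0 462 498) (mv 400 (both (five 4 368 368) (five 7 400 529))))))))))))))))))))) (mv 462 (both (mv 429 (both (five 3 429 430) (mv 461 (both (five 3 428 428) (mv 493 (both (five 2 460 492) (five 2 461 494))))))) (both (mv 493 (both (five 2 461 494) (mv 461 (both (five 2 460 492) (mv 428 (both (five 3 428 429) (mv 432 (both (five 1 429 433) (mv 460 (both (five 3 427 427) (five 1 428 431))))))))))) (both (mv 493 (both (five 2 461 494) (mv 461 (both (five 2 460 492) (mv 432 (both (five 1 429 433) (mv 431 (both (five 1 428 460) (mv 466 (both (five 3 430 430) (five 3 431 467))))))))))) (mv 430 (both (five 3 429 429) (mv 466 (both (five 3 430 431) (mv 498 (both (five 0 462 497) (five 0 463 499)))))))))))))))))) (both (mv 431 (both (mv 560 (both (five 4 431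 495) (five 7 431 496))) (both (mv 496 (both (five 7 431 560) (mv 399 (both (five 4 367 367) (five 7 399 432))))) (both (mv 495 (both (five 4 431 560) (mv 398 (both (five 7 398 430) (mv 399 (both (five 7 366 366) (mv 400 (both (five 5 367 368) (five 5 399 432))))))))) (mv 432 (both (mv 495 (both (five 5 399 400) (mv 398 (both (five 7 398 430) (mv 399 (both (five 7 366 366) (mv 367 (both (five 4 335 335) (mv 336 (both (five 5 335 368) (mv 396 (both (five 0 396 397) (mv 433 (both (five 3 398 434) (mv 462 (both (five 1 429 461) (five 6 366 494))))))))))))))))) (both (mv 400 (both (five 5 399 495) (mv 368 (both (five 6 335 336) (mv 335 (both (five 7 335 367) (mv 369 (both (five 5 336 337) (mv 401 (both (five 5 368 496) (mv 402 (both (five 2 399 403) (mv 430 (both (five 1 397 429) (five 1 398 433))))))))))))))) (both (mv 399 (both (five 7 399 496) (mv 367 (both (five 4 335 335) (mv 334 (both (five 7 334 366) (mv 336 (both (five 5 335 368) (mv 462 (both (five 6 366 494) (mv 433 (both (five 2 430 434) (five 1 429 461))))))))))))) (both (mv 399 (both (five 7 399 496) (mv 400 (both (five 5 399 495) (mv 368 (both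 (five 6 335 336) (mv 369 (both (five 5 336 337) (mv 370 (both (five 2 367 371) (mv 398 (both (five 1 365 397) (five 1 366 401))))))))))))) (mv 399 (both (five 7 399 496) (mv 335 (both (five 4 335 367) (mv 495 (both (five 5 399 400) (mv 398 (both (five 7 366 366) (five 7 398 430)))))))))))))))))) (both (mv 465 (both (mv 462 (both (mv 429 (both (five 3 429 430) (mv 461 (both (five 3 428 428) (mv 493 (both (five 2 460 492) (five 2 461 494))))))) (both (mv 433 (both (five 1 430 434) (mv 497 (both (five 0 462 498) (mv 496 (both (five 6 400 401) (five 0 461 461))))))) (mv 433 (both (five 1 430 434) (mv 493 (both (five 2 461 494) (mv 496 (both (five 5 432 560) (mv 401 (both (five 6 368 369) (five 6 400 497)))))))))))) (both (mv 462 (both (mv 429 (both (five 3 429 430) (mv 461 (both (five 3 428 428) (mv 493 (both (five 2 460 492) (five 2 461 494))))))) (mv 434 (both (five 1 430 433) (mv 466 (both (five 1 431 435) (mv 498 (both (five 0 462 497) (five 0 463 499))))))))) (both (mv 560 (both (mv 431 (both (five 4 431 495) (five 7 431 496))) (both (mv 431 (both (five 4 431 495) (mv 430 (both (five 3 430 466) (mv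 429 (both (five 0 428 428) (five 3 429 462))))))) (mv 433 (both (five 5 432 496) (mv 434 (both (five 1 430 462) (mv 435 (both (five 2 432 436) (five 1 431 466)))))))))) (both (mv 560 (both (mv 431 (both (five 4 431 495) (five 7 431 496))) (both (mv 495 (both (five 4 431 431) (mv 466 (both (five 2 462 494) (mv 435 (both (five 1 431 434) (mv 467 (both (five 1 432 436) (mv 499 (both (five 0 463 498) (five 0 464 500))))))))))) (mv 433 (both (five 5 432 496) (mv 434 (both (five 1 430 462) (mv 435 (both (five 2 432 436) (five 1 431 466)))))))))) (mv 495 (both (mv 431 (both (five 4 431 560) (mv 430 (both (five 7 398 398) (five 3 430 466))))) (both (mv 466 (both (five 2 462 494) (mv 467 (both (five 2 463 496) (mv 499 (both (five 0 463 498) (five 0 464 500))))))) (mv 431 (both (five 4 431 560) (mv 398 (both (five 7 398 430) (mv 399 (both (five 7 366 366) (five 4 399 496))))))))))))))) (both (mv 496 (both (mv 431 (both (five 7 431 560) (mv 399 (both (five 4 367 367) (five 7 399 432))))) (both (mv 432 (both (mv 401 (both (five 5 400 433) (mv 400 (both (five 5 368 369) (mv 529 (both (five 4 400 497) (five 4 432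 561))))))) (both (mv 433 (both (five 5 400 401) (mv 434 (both (five 2 431 435) (mv 529 (both (five 4 432 561) (mv 560 (both (five 5 432 465) (mv 495 (both (five 7 463 592) (mv 494 (both (five 0 493 493) (five 3 494 530))))))))))))) (both (mv 400 (both (five 6 399 495) (mv 367 (both (five 7 367 399) (mv 368 (both (five 7 335 335) (mv 369 (both (five 5 336 337) (five 5 368 401))))))))) (mv 400 (both (five 6 399 495) (mv 529 (both (five 4 400 497) (five 4 432 561))))))))) (both (mv 432 (both (mv 400 (both (five 6 399 495) (mv 529 (both (five 4 400 497) (five 4 432 561))))) (both (mv 431 (both (five 7 399 399) (mv 433 (both (five 5 400 401) (mv 434 (both (five 2 431 435) (mv 402 (both (five 1 399 403) (mv 466 (both (five 0 431 467) (mv 430 (both (five 0 430 465) (mv 398 (both (five 3 397 397) (five 7 398 495))))))))))))))) (mv 401 (both (five 5 400 433) (mv 400 (both (five 5 368 369) (mv 529 (both (five 4 400 497) (five 4 432 561)))))))))) (mv 560 (both (five 7 431 431) (mv 592 (both (five 7 463 495) (mv 497 (both (five 5 464 465) (mv 498 (both (five 2 495 499) (mv 623 (both (five 6 495 591) (mv 624 (both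 (five 5 496 529) (five 6 527 655))))))))))))))))) (mv 431 (both (mv 560 (both (five 4 431 495) (five 7 431 496))) (both (mv 496 (both (five 7 431 560) (mv 399 (both (five 4 367 367) (five 7 399 432))))) (both (mv 495 (both (five 4 431 560) (mv 398 (both (five 7 398 430) (mv 399 (both (five 7 366 366) (mv 400 (both (five 5 367 368) (five 5 399 432))))))))) (mv 495 (both (mv 398 (both (five 7 398 430) (mv 399 (both (five 7 366 366) (five 4 399 496))))) (both (mv 400 (both (five 5 399 432) (mv 430 (both (five 7 398 398) (mv 429 (both (five 0 428 428) (mv 465 (both (five 3 429 462) (five 3 430 466))))))))) (mv 399 (both (five 4 399 496) (mv 400 (both (five 5 367 368) (five 5 399 432)))))))))))))))))))) (both (mv 495 (both (mv 560 (both (five 4 431 431) (mv 592 (both (five 4 463 559) (five 7 495 624))))) (both (mv 559 (both (mv 558 (both (five 6 462 590) (mv 529 (both (five 2 526 530) (mv 557 (both (five 1 524 556) (five 1 525 560))))))) (both (mv 590 (both (five 6 462 558) (mv 591 (both (five 6 494 622) (mv 623 (both (five 5 495 496) (mv 624 (both (five 4 495 592) (five 4 527 656))))))))) (mv 464 (both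 (five 5 431 432) (mv 496 (both (five 5 463 591) (mv 560 (both (five 7 463 592) (mv 465 (both (five 5 432 433) (mv 466 (both (five 2 463 467) (five 2 462 494)))))))))))))) (both (mv 431 (both (mv 398 (both (five 7 398 430) (mv 399 (both (five 7 366 366) (five 4 399 496))))) (both (mv 398 (both (five 7 398 430) (mv 432 (both (five 5 399 400) (mv 559 (both (five 5 431 464) (mv 590 (both (five 6 462 558) (mv 591 (both (five 6 494 622) (mv 623 (both (five 5 495 496) (mv 624 (both (five 4 495 592) (five 4 527 656))))))))))))))) (both (mv 398 (both (five 7 398 430) (mv 399 (both (five 7 366 366) (mv 400 (both (five 5 367 368) (five 5 399 432))))))) (mv 399 (both (five 4 399 496) (mv 400 (both (five 5 367 368) (five 5 399 432))))))))) (mv 431 (both (five 4 431 560) (mv 398 (both (five 7 398 430) (mv 399 (both (five 7 366 366) (five 4 399 496))))))))))) (both (mv 495 (both (mv 560 (both (five 4 431 431) (mv 592 (both (five 4 463 559) (five 7 495 624))))) (both (mv 559 (both (mv 462 (both (five 7 430 430) (mv 591 (both (five 7 462 494) (mv 592 (both (five 4 463 560) (five 4 495 624))))))) (both (mv 590 (both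 (five 6 462 558) (mv 591 (both (five 6 494 622) (mv 623 (both (five 5 495 496) (mv 624 (both (five 4 495 592) (five 4 527 656))))))))) (both (mv 430 (both (five 7 430 462) (mv 432 (both (five 5 431 464) (mv 590 (both (five 6 462 558) (mv 591 (both (five 6 494 622) (mv 623 (both (five 5 495 496) (mv 655 (both (five 5 527 560) (mv 656 (both (five 4 527 624) (five 4 559 688))))))))))))))) (mv 432 (both (five 5 431 464) (mv 462 (both (five 7 430 430) (mv 558 (both (five 6 462 590) (mv 557 (both (five 1 524 556) (mv 560 (both (five 4 463 592) (mv 525 (both (five 3 524 524) (mv 589 (both (five 2 556 588) (mv 493 (both (five 5 461 494) (mv 460 (both (five 7 460 492) (mv 461 (both (five 7 428 428) (five 0 460 496))))))))))))))))))))))))) (both (mv 559 (both (mv 430 (both (five 7 430 462) (mv 431 (both (five 7 398 398) (mv 432 (both (five 5 399 400) (five 5 431 464))))))) (mv 590 (both (five 6 462 558) (mv 591 (both (five 6 494 622) (mv 623 (both (five 5 495 496) (mv 624 (both (five 4 495 592) (five 4 527 656))))))))))) (mv 431 (both (five 4 431 560) (mv 398 (both (five 7 398 430) (mv 399 (both (five 7 366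 366) (five 4 399 496))))))))))) (both (mv 495 (both (mv 560 (both (five 4 431 431) (mv 592 (both (five 4 463 559) (five 7 495 624))))) (both (mv 559 (both (mv 462 (both (five 7 430 430) (mv 590 (both (five 6 462 558) (mv 591 (both (five 7 462 494) (five 6 494 622))))))) (both (mv 590 (both (five 6 462 558) (mv 591 (both (five 6 494 622) (mv 623 (both (five 5 495 496) (mv 624 (both (five 4 495 592) (five 4 527 656))))))))) (mv 431 (both (mv 399 (both (five 4 399 496) (mv 366 (both (five 7 366 398) (mv 367 (both (five 7 334 334) (mv 368 (both (five 5 335 336) (five 5 367 400))))))))) (both (mv 430 (both (five 7 398 398) (five 7 430 462))) (mv 399 (both (five 4 399 496) (mv 368 (both (five 5 367 400) (mv 367 (both (five 5 335 336) (mv 462 (both (five 7 430 430) (five 6 366 494))))))))))))))) (both (mv 559 (both (mv 462 (both (five 7 430 430) (mv 591 (both (five 7 462 494) (mv 592 (both (five 4 463 560) (five 4 495 624))))))) (both (mv 558 (both (five 6 462 590) (mv 529 (both (five 2 526 530) (mv 557 (both (five 1 524 556) (five 1 525 560))))))) (mv 462 (both (five 7 430 430) (mv 590 (both (five 6 462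 558) (mv 591 (both (five 7 462 494) (five 6 494 622)))))))))) (mv 431 (both (five 4 431 560) (mv 398 (both (five 7 398 430) (mv 399 (both (five 7 366 366) (five 4 399 496))))))))))) (both (mv 495 (both (mv 559 (both (mv 558 (both (five 6 462 590) (mv 529 (both (five 2 526 530) (mv 557 (both (five 1 524 556) (five 1 525 560))))))) (both (mv 462 (both (five 7 430 430) (mv 591 (both (five 7 462 494) (mv 623 (both (five 5 495 496) (mv 655 (both (five 5 527 560) (mv 656 (both (five 4 527 624) (five 4 559 688))))))))))) (mv 462 (both (five 7 430 430) (mv 590 (both (five 6 462 558) (mv 591 (both (five 7 462 494) (five 6 494 622)))))))))) (both (mv 432 (both (mv 400 (both (five 5 399 431) (mv 464 (both (five 6 367 368) (five 5 431 559))))) (both (mv 559 (both (five 5 431 464) (mv 462 (both (five 7 430 430) (mv 590 (both (five 6 462 558) (mv 591 (both (five 7 462 494) (five 6 494 622))))))))) (both (mv 431 (both (five 5 399 400) (mv 462 (both (mv 433 (both (five 2 430 434) (mv 461 (both (five 1 428 460) (five 1 429 464))))) (both (mv 398 (both (five 7 398 430) (mv 399 (both (five 7 366 366) (mv 367 (both (five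 6 366 494) (mv 335 (both (five 4 335 464) (mv 336 (both (five 5 303 304) (five 5 335 368))))))))))) (mv 430 (both (five 7 398 398) (mv 433 (both (five 2 430 434) (five 2 429 461)))))))))) (mv 431 (both (five 5 399 400) (mv 430 (both (five 7 398 398) (mv 462 (both (five 7 430 559) (mv 433 (both (five 2 430 434) (five 2 429 461))))))))))))) (mv 431 (both (five 4 431 560) (mv 399 (both (five 4 399 496) (mv 400 (both (five 5 367 368) (five 5 399 432)))))))))) (both (mv 495 (both (mv 560 (both (five 4 431 431) (mv 592 (both (five 4 463 559) (five 7 495 624))))) (both (mv 559 (both (mv 558 (both (five 6 462 590) (mv 529 (both (five 2 526 530) (mv 557 (both (five 1 524 556) (five 1 525 560))))))) (both (mv 590 (both (five 6 462 558) (mv 591 (both (five 6 494 622) (mv 623 (both (five 5 495 496) (mv 624 (both (five 4 495 592) (five 4 527 656))))))))) (mv 430 (both (five 7 430 462) (mv 464 (both (five 5 431 432) (mv 496 (both (five 5 463 591) (mv 560 (both (five 7 463 592) (mv 465 (both (five 5 432 433) (mv 466 (both (five 2 463 467) (mv 434 (both (five 1 431 435) (mv 498 (both (five 0 463 499) (mv 561 (both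 (five 4 464 593) (mv 529 (both (five 5 433 497) (five 6 433 530)))))))))))))))))))))))) (both (mv 559 (both (mv 430 (both (five 7 430 462) (mv 431 (both (five 7 398 398) (mv 432 (both (five 5 399 400) (five 5 431 464))))))) (mv 590 (both (five 6 462 558) (mv 591 (both (five 6 494 622) (mv 623 (both (five 5 495 496) (mv 624 (both (five 4 495 592) (five 4 527 656))))))))))) (mv 431 (both (five 4 431 560) (mv 398 (both (five 7 398 430) (mv 399 (both (five 7 366 366) (five 4 399 496))))))))))) (both (mv 495 (both (mv 560 (both (five 4 431 431) (mv 592 (both (five 4 463 559) (five 7 495 624))))) (both (mv 494 (both (mv 493 (both (five 0 492 492) (mv 529 (both (five 0 493 496) (five 3 494 530))))) (both (mv 559 (both (mv 590 (both (five 6 462 558) (mv 591 (both (five 6 494 622) (mv 623 (both (five 5 495 496) (mv 624 (both (five 4 495 592) (five 4 527 656))))))))) (both (mv 432 (both (five 5 431 464) (mv 431 (both (five 5 399 400) (mv 399 (both (five 4 399 496) (mv 366 (both (five 7 366 398) (mv 367 (both (five 7 334 334) (five 6 366 462))))))))))) (mv 432 (both (five 5 431 464) (mv 400 (both (five 5 399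 431) (mv 529 (both (five 3 494 530) (mv 590 (both (five 6 462 558) (mv 591 (both (five 7 462 462) (five 6 494 622)))))))))))))) (mv 464 (both (mv 432 (both (five 5 431 559) (mv 400 (both (five 6 367 368) (five 5 399 431))))) (mv 465 (both (five 2 462 466) (mv 493 (both (five 2 461 462) (five 1 460 492)))))))))) (both (mv 559 (both (mv 558 (both (five 6 462 590) (mv 529 (both (five 2 526 530) (mv 557 (both (five 1 524 556) (five 1 525 560))))))) (both (mv 590 (both (five 6 462 558) (mv 591 (both (five 6 494 622) (mv 623 (both (five 5 495 496) (mv 624 (both (five 4 495 592) (five 4 527 656))))))))) (mv 464 (both (five 5 431 432) (mv 496 (both (five 5 463 591) (mv 560 (both (five 7 463 592) (mv 465 (both (five 5 432 433) (mv 466 (both (five 2 463 467) (five 2 462 494)))))))))))))) (mv 431 (both (five 4 431 560) (mv 399 (both (five 4 399 496) (mv 400 (both (five 5 367 368) (five 5 399 432))))))))))) (both (mv 495 (both (mv 560 (both (five 4 431 431) (mv 592 (both (five 4 463 559) (five 7 495 624))))) (both (mv 559 (both (mv 558 (both (five 6 462 590) (mv 529 (both (five 2 526 530) (mv 557 (both (five 1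 524 556) (five 1 525 560))))))) (both (mv 494 (both (mv 493 (both (five 0 492 492) (mv 529 (both (five 0 493 496) (five 3 494 530))))) (both (mv 462 (both (five 7 430 430) (mv 464 (both (five 5 431 432) (mv 465 (both (five 2 462 466) (mv 433 (both (five 1 430 434) (mv 497 (both (five 0 462 498) (mv 496 (both (five 6 400 401) (five 0 461 461))))))))))))) (mv 462 (both (five 7 430 430) (mv 464 (both (five 5 431 432) (mv 465 (both (five 2 462 466) (five 2 461 493)))))))))) (mv 462 (both (five 7 430 430) (mv 558 (both (five 6 462 590) (mv 557 (both (five 1 524 556) (mv 560 (both (five 4 463 592) (mv 525 (both (five 3 524 524) (mv 589 (both (five 2 556 588) (mv 493 (both (five 5 461 494) (mv 460 (both (five 7 460 492) (mv 461 (both (five 7 428 428) (five 0 460 496)))))))))))))))))))))) (mv 431 (both (mv 398 (both (five 7 398 430) (mv 399 (both (five 7 366 366) (five 4 399 496))))) (both (mv 430 (both (five 7 398 398) (mv 429 (both (mv 428 (both (five 0 428 464) (mv 395 (both (five 3 395 396) (mv 427 (both (five 3 394 394) (five 0 427 462))))))) (both (mv 432 (both (five 5 399 400) (mv 461 (both (five 2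 428 460) (mv 433 (both (five 2 429 462) (mv 401 (both (five 1 398 402) (mv 465 (both (five 0 430 466) (mv 497 (both (five 6 400 496) (mv 530 (both (five 4 401 498) (mv 529 (both (five 3 494 494) (five 4 433 562))))))))))))))))) (mv 400 (both (five 5 399 432) (mv 428 (both (five 0 428 464) (mv 395 (both (five 3 395 396) (mv 427 (both (five 3 394 394) (mv 459 (both (five 2 426 458) (five 2 427 460)))))))))))))))) (both (mv 398 (both (five 7 398 430) (mv 399 (both (five 7 366 366) (mv 400 (both (five 5 367 368) (five 5 399 432))))))) (mv 399 (both (five 4 399 496) (mv 400 (both (five 5 367 368) (five 5 399 432)))))))))))) (both (mv 495 (both (mv 560 (both (five 4 431 431) (mv 592 (both (five 4 463 559) (five 7 495 624))))) (both (mv 559 (both (mv 430 (both (five 7 430 462) (mv 431 (both (five 7 398 398) (mv 432 (both (five 5 399 400) (five 5 431 464))))))) (mv 590 (both (five 6 462 558) (mv 591 (both (five 6 494 622) (mv 623 (both (five 5 495 496) (mv 624 (both (five 4 495 592) (five 4 527 656))))))))))) (both (mv 559 (both (mv 462 (both (five 7 430 430) (mv 591 (both (five 7 462 494) (mv 592 (both (five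 4 463 560) (five 4 495 624))))))) (both (mv 558 (both (five 6 462 590) (mv 529 (both (five 2 526 530) (mv 557 (both (five 1 524 556) (five 1 525 560))))))) (mv 462 (both (five 7 430 430) (mv 590 (both (five 6 462 558) (mv 591 (both (five 7 462 494) (five 6 494 622)))))))))) (mv 431 (both (five 4 431 560) (mv 430 (both (five 7 398 398) (mv 429 (both (mv 428 (both (five 0 428 464) (mv 395 (both (five 3 395 396) (mv 427 (both (five 3 394 394) (five 0 427 462))))))) (both (mv 432 (both (five 5 399 400) (mv 461 (both (five 2 428 460) (mv 433 (both (five 2 429 462) (mv 401 (both (five 1 398 402) (mv 465 (both (five 0 430 466) (mv 497 (both (five 6 400 496) (mv 530 (both (five 4 401 498) (mv 529 (both (five 3 494 494) (five 4 433 562))))))))))))))))) (mv 400 (both (five 5 399 432) (mv 428 (both (five 0 428 464) (mv 395 (both (five 3 395 396) (mv 427 (both (five 3 394 394) (mv 459 (both (five 2 426 458) (five 2 427 460)))))))))))))))))))))) (both (mv 495 (both (mv 431 (both (five 4 431 560) (mv 398 (both (five 7 398 430) (mv 399 (both (five 7 366 366) (five 4 399 496))))))) (both (mv 559 (both (mv 558 (both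 (five 6 462 590) (mv 529 (both (five 2 526 530) (mv 557 (both (five 1 524 556) (five 1 525 560))))))) (both (mv 494 (both (mv 493 (both (five 0 492 492) (mv 529 (both (five 0 493 496) (five 3 494 530))))) (both (mv 462 (both (five 7 430 430) (mv 464 (both (five 5 431 432) (mv 465 (both (five 2 462 466) (mv 433 (both (five 1 430 434) (mv 497 (both (five 0 462 498) (mv 496 (both (five 6 400 401) (five 0 461 461))))))))))))) (mv 462 (both (five 7 430 430) (mv 464 (both (five 5 431 432) (mv 465 (both (five 2 462 466) (five 2 461 493)))))))))) (mv 462 (both (five 7 430 430) (mv 558 (both (five 6 462 590) (mv 557 (both (five 1 524 556) (mv 560 (both (five 4 463 592) (mv 525 (both (five 3 524 524) (mv 589 (both (five 2 556 588) (mv 493 (both (five 5 461 494) (mv 460 (both (five 7 460 492) (mv 461 (both (five 7 428 428) (five 0 460 496)))))))))))))))))))))) (both (mv 432 (both (mv 400 (both (five 5 399 431) (mv 464 (both (five 6 367 368) (five 5 431 559))))) (both (mv 559 (both (five 5 431 464) (mv 462 (both (five 7 430 430) (mv 590 (both (five 6 462 558) (mv 591 (both (five 7 462 494) (five 6 494 622)))))))))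 (both (mv 431 (both (five 5 399 400) (mv 462 (both (mv 433 (both (five 2 430 434) (mv 461 (both (five 1 428 460) (five 1 429 464))))) (both (mv 398 (both (five 7 398 430) (mv 399 (both (five 7 366 366) (mv 367 (both (five 6 366 494) (mv 335 (both (five 4 335 464) (mv 336 (both (five 5 303 304) (five 5 335 368))))))))))) (mv 430 (both (five 7 398 398) (mv 433 (both (five 2 430 434) (five 2 429 461)))))))))) (mv 431 (both (five 5 399 400) (mv 430 (both (five 7 398 398) (mv 462 (both (five 7 430 559) (mv 433 (both (five 2 430 434) (five 2 429 461))))))))))))) (mv 431 (both (five 4 431 560) (mv 399 (both (five 4 399 496) (mv 400 (both (five 5 367 368) (five 5 399 432))))))))))) (both (mv 495 (both (mv 560 (both (five 4 431 431) (mv 592 (both (five 4 463 559) (five 7 495 624))))) (both (mv 559 (both (mv 462 (both (five 7 430 430) (mv 590 (both (five 6 462 558) (mv 591 (both (five 7 462 494) (five 6 494 622))))))) (both (mv 590 (both (five 6 462 558) (mv 591 (both (five 6 494 622) (mv 623 (both (five 5 495 496) (mv 624 (both (five 4 495 592) (five 4 527 656))))))))) (mv 494 (both (mv 493 (both (five 0 492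 492) (mv 529 (both (five 0 493 496) (five 3 494 530))))) (both (mv 462 (both (five 7 430 430) (mv 464 (both (five 5 431 432) (mv 465 (both (five 2 462 466) (mv 433 (both (five 1 430 434) (mv 497 (both (five 0 462 498) (mv 496 (both (five 6 400 401) (five 0 461 461))))))))))))) (mv 462 (both (five 7 430 430) (mv 464 (both (five 5 431 432) (mv 465 (both (five 2 462 466) (five 2 461 493))))))))))))) (mv 431 (both (five 4 431 560) (mv 399 (both (five 4 399 496) (mv 400 (both (five 5 367 368) (five 5 399 432)))))))))) (mv 495 (both (mv 560 (both (five 4 431 431) (mv 592 (both (five 4 463 559) (five 7 495 624))))) (both (mv 559 (both (mv 462 (both (five 7 430 430) (mv 590 (both (five 6 462 558) (mv 591 (both (five 7 462 494) (five 6 494 622))))))) (both (mv 590 (both (five 6 462 558) (mv 591 (both (five 6 494 622) (mv 623 (both (five 5 495 496) (mv 624 (both (five 4 495 592) (five 4 527 656))))))))) (mv 494 (both (mv 493 (both (five 0 492 492) (mv 529 (both (five 0 493 496) (five 3 494 530))))) (both (mv 462 (both (five 7 430 430) (mv 464 (both (five 5 431 432) (mv 465 (both (five 2 462 466) (mv 433 (both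 (five 1 430 434) (mv 497 (both (five 0 462 498) (mv 496 (both (five 6 400 401) (five 0 461 461))))))))))))) (mv 462 (both (five 7 430 430) (mv 464 (both (five 5 431 432) (mv 465 (both (five 2 462 466) (five 2 461 493))))))))))))) (mv 431 (both (five 4 431 560) (mv 398 (both (five 7 398 430) (mv 399 (both (five 7 366 366) (five 4 399 496)))))))))))))))))))))))))

theorem L114 : W (S 1318041150745077065276524953423627497715731577627514638603736984163624291212349962007531451006999274555640891787164324743127421695945595612014213431894090973184) (S 1284212867635472755160030892583697812855668096533548900541126058136998825069300457507148394444322382923069704725442858206511136705438747701153540053300629885114021829302370109428727681774528303585170001231872) :=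
  check_sound Env.nil (x := 463) (t := tL114) (by decide +kernel)

end P062.Cert
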