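import Vale.Agent.P062.Check
import Vale.Agent.P062.Cert.C21

/-! Snaky certificate, part 22 (machine generated, checked by the kernel) -/

set_option maxRecDepth 100000

namespace P062.Cert

open T

def tL115 : T :=
  (both (mv 495 (both (mv 496 (both (mv 497 (both (mv 498 (both (five 2 495 499) (five 2 494 526))) (mv 494 (both (mv 461 (both (five 3 461 462) (mv 493 (both (five 3 460 460) (five 0 492 492))))) (mv 465 (both (five 1 462 466) (mv 433 (both (five 6 400 401) (mv 560 (both (five 5 432 464) (five 5 464 592))))))))))) (both (mv 497 (both (mv 498 (both (five 2 495 499) (five 2 494 526))) (both (mv 498 (both (five 2 495 499) (mv 466 (both (five 1 463 467) (mv 494 (both (five 1 462 465) (mv 461 (both (five 3 461 462) (mv 493 (both (five 3 460 460) (five 0 492 492))))))))))) (mv 494 (both (mv 461 (both (five 3 461 462) (mv 493 (both (five 3 460 460) (five 0 492 492))))) (both (mv 465 (both (five 1 462 466) (mv 401 (both (five 6 400 433) (mv 493 (both (five 0 492 492) (mv 525 (both (five 2 492 524) (five 2 493 526))))))))) (mv 462 (both (five 3 461 461) (mv 430 (both (five 4 398 398) (mv 526 (both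 (five 1 493 525) (five 4 430 559))))))))))))) (both (mv 464 (both (mv 432 (both (five 6 399 400) (five 6 431 559))) (mv 560 (both (mv 465 (both (five 5 432 433) (mv 466 (both (five 2 463 467) (mv 494 (both (five 1 461 493) (five 1 462 497))))))) (mv 592 (both (five 7 495 624) (mv 593 (both (five 4 464 561) (five 4 496 625))))))))) (both (mv 464 (both (mv 432 (both (five 6 399 400) (five 6 431 559))) (both (mv 432 (both (five 6 399 400) (mv 399 (both (five 7 399 431) (mv 433 (both (five 5 400 401) (mv 560 (both (five 5 432 465) (mv 592 (both (five 7 495 624) (mv 593 (both (five 4 464 561) (five 4 496 625))))))))))))) (mv 560 (both (mv 592 (both (five 7 495 624) (mv 593 (both (five 4 464 561) (five 4 496 625))))) (both (mv 433 (both (five 5 432 465) (mv 559 (both (five 5 463 591) (mv 561 (both (five 4 464 593) (mv 526 (both (five 0 525 525) (five 3 526 562))))))))) (mv 433 (both (five 5 432 465) (mv 591 (both (five 5 463 559) (mv 592 (both (five 6 495 623) (five 7 495 624))))))))))))) (mv 494 (both (mv 526 (both (mv 497 (both (five 2 494 498) (five 2 493 525))) (both (mv 497 (both (five 2 494 498) (mv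 462 (both (five 3 461 461) (mv 430 (both (five 4 398 398) (five 4 430 559))))))) (mv 525 (both (five 1 492 524) (mv 560 (both (five 0 525 561) (mv 592 (both (five 7 495 624) (mv 591 (both (five 6 495 623) (mv 559 (both (five 7 462 462) (five 5 463 464)))))))))))))) (both (mv 493 (both (five 0 492 492) (mv 461 (both (five 3 460 460) (mv 462 (both (five 3 461 497) (mv 398 (both (five 4 398 430) (mv 525 (both (five 2 492 524) (mv 557 (both (five 5 461 589) (mv 556 (both (five 6 460 588) (mv 558 (both (five 1 524 559) (five 4 461 590))))))))))))))))) (both (mv 526 (both (mv 525 (both (five 1 492 524) (mv 560 (both (five 0 525 561) (mv 592 (both (five 7 495 624) (mv 591 (both (five 6 495 623) (mv 559 (both (five 7 462 462) (five 5 463 464))))))))))) (both (mv 493 (both (five 0 492 492) (mv 461 (both (five 3 460 460) (mv 429 (both (five 4 397 397) (mv 558 (both (five 7 429 462) (five 7 461 590))))))))) (mv 492 (both (five 0 492 493) (mv 525 (both (five 1 492 524) (mv 556 (both (five 2 524 557) (mv 560 (both (five 0 525 561) (mv 592 (both (five 7 495 624) (mv 591 (both (five 6 495 623) (mv 559 (both (five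 5 463 464) (mv 590 (both (five 6 494 622) (mv 588 (both (five 1 556 589) (mv 593 (both (five 4 496 625) (mv 594 (both (five 3 558 558) (five 3 559 595)))))))))))))))))))))))))) (both (mv 493 (both (five 0 492 492) (mv 461 (both (five 3 460 460) (mv 462 (both (five 3 461 497) (mv 430 (both (five 4 398 398) (mv 559 (both (five 4 430 526) (five 7 462 591))))))))))) (both (mv 493 (both (five 0 492 492) (mv 460 (both (five 3 460 461) (mv 525 (both (five 2 492 524) (mv 526 (both (five 2 493 497) (mv 560 (both (five 0 525 561) (mv 592 (both (five 7 495 624) (mv 591 (both (five 6 495 623) (mv 559 (both (five 5 463 464) (mv 590 (both (five 6 494 622) (mv 588 (both (five 1 556 589) (mv 593 (both (five 4 496 625) (mv 594 (both (five 3 558 558) (five 3 559 595))))))))))))))))))))))))) (mv 493 (both (five 0 492 492) (mv 525 (both (five 2 492 524) (mv 526 (both (five 2 493 497) (mv 557 (both (five 2 524 556) (mv 462 (both (five 6 429 430) (five 5 461 589)))))))))))))))))))))) (both (mv 559 (both (mv 463 (both (mv 430 (both (five 7 430 462) (mv 431 (both (five 7 398 398) (mv 432 (both (five 5 399 400) (five 5 431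 464))))))) (both (mv 430 (both (five 7 430 462) (mv 431 (both (five 7 398 398) (mv 558 (both (five 6 430 526) (five 6 462 590))))))) (both (mv 432 (both (five 5 431 464) (mv 431 (both (five 5 399 400) (mv 558 (both (five 6 430 526) (five 6 462 590))))))) (mv 494 (both (mv 462 (both (five 7 430 430) (mv 492 (both (five 0 492 493) (mv 558 (both (five 6 462 590) (mv 557 (both (five 1 524 556) (mv 526 (both (five 6 461 589) (mv 461 (both (five 7 429 429) (mv 460 (both (five 0 459 459) (five 2 459 491))))))))))))))) (both (mv 464 (both (five 5 431 432) (mv 465 (both (five 2 462 466) (mv 493 (both (five 0 492 492) (five 1 461 496))))))) (mv 432 (both (five 5 431 464) (mv 462 (both (five 7 430 430) (mv 558 (both (five 6 462 590) (mv 557 (both (five 1 524 556) (mv 526 (both (five 6 461 589) (mv 461 (both (five 7 429 429) (mv 460 (both (five 0 459 459) (five 0 460 496)))))))))))))))))))))) (both (mv 463 (both (mv 430 (both (five 7 430 462) (mv 431 (both (five 7 398 398) (mv 432 (both (five 5 399 400) (five 5 431 464))))))) (both (mv 432 (both (five 5 431 464) (mv 431 (both (five 5 399 400) (mv 558 (both (five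 6 430 526) (five 6 462 590))))))) (both (mv 430 (both (five 7 430 462) (mv 431 (both (five 7 398 398) (mv 558 (both (five 6 430 526) (five 6 462 590))))))) (mv 432 (both (five 5 431 464) (mv 462 (both (five 7 430 430) (mv 494 (both (five 7 462 591) (mv 492 (both (five 0 492 493) (mv 558 (both (five 6 462 590) (mv 557 (both (five 1 524 556) (mv 526 (both (five 6 461 589) (mv 461 (both (five 7 429 429) (mv 460 (both (five 0 459 459) (five 2 459 491))))))))))))))))))))))) (both (mv 591 (both (mv 622 (both (five 6 494 590) (mv 623 (both (five 6 526 654) (mv 624 (both (five 4 495 592) (five 4 527 656))))))) (mv 494 (both (five 7 462 462) (mv 493 (both (five 0 492 492) (mv 496 (both (five 5 463 464) (mv 460 (both (five 3 460 461) (mv 525 (both (five 2 492 524) (mv 497 (both (five 2 493 526) (mv 466 (both (five 1 462 465) (mv 498 (both (five 1 463 467) (five 2 495 499))))))))))))))))))) (both (mv 591 (both (mv 623 (both (five 5 495 496) (mv 624 (both (five 4 495 592) (five 4 527 656))))) (mv 462 (both (five 7 462 494) (mv 463 (both (five 7 430 430) (mv 590 (both (five 6 462 558) (five 6 494 622))))))))) (both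 (mv 591 (both (mv 623 (both (five 5 495 496) (mv 624 (both (five 4 495 592) (five 4 527 656))))) (both (mv 622 (both (five 6 494 590) (mv 623 (both (five 6 526 654) (mv 624 (both (five 4 495 592) (five 4 527 656))))))) (mv 464 (both (five 5 463 496) (mv 463 (both (five 5 431 432) (mv 590 (both (five 6 462 558) (five 6 494 622)))))))))) (mv 591 (both (mv 623 (both (five 5 495 496) (mv 624 (both (five 4 495 592) (five 4 527 656))))) (both (mv 494 (both (five 7 462 462) (mv 492 (both (five 0 492 493) (mv 623 (both (five 7 494 526) (mv 624 (both (five 4 495 592) (five 4 527 656))))))))) (mv 462 (both (five 7 462 494) (mv 463 (both (five 7 430 430) (mv 464 (both (five 5 431 432) (five 5 463 496)))))))))))))))) (both (mv 463 (both (mv 431 (both (five 4 431 560) (mv 432 (both (five 5 399 400) (mv 558 (both (five 6 430 526) (mv 559 (both (five 5 431 464) (five 6 462 590))))))))) (both (mv 559 (both (mv 558 (both (five 6 462 590) (mv 557 (both (five 1 524 556) (mv 560 (both (five 4 463 592) (mv 525 (both (five 3 524 524) (mv 526 (both (five 0 525 561) (mv 492 (both (five 3 492 493) (mv 589 (both (five 2 556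 588) (mv 621 (both (five 5 493 494) (five 5 525 653))))))))))))))))) (both (mv 462 (both (five 7 430 430) (mv 494 (both (five 7 462 591) (mv 492 (both (five 0 492 493) (mv 558 (both (five 6 462 590) (mv 557 (both (five 1 524 556) (mv 526 (both (five 6 461 589) (mv 461 (both (five 7 429 429) (mv 460 (both (five 0 459 459) (five 2 459 491))))))))))))))))) (both (mv 432 (both (five 5 431 464) (mv 462 (both (five 7 430 430) (mv 591 (both (five 7 462 494) (mv 592 (both (five 4 463 560) (five 4 495 624))))))))) (mv 430 (both (five 7 430 462) (mv 432 (both (five 5 431 464) (mv 558 (both (five 6 462 590) (mv 557 (both (five 1 524 556) (mv 560 (both (five 4 463 592) (mv 525 (both (five 3 524 524) (mv 561 (both (five 0 525 526) (mv 562 (both (five 3 527 563) (mv 594 (both (five 0 558 593) (five 0 559 595))))))))))))))))))))))) (both (mv 559 (both (mv 430 (both (five 7 430 462) (mv 431 (both (five 7 398 398) (mv 432 (both (five 5 399 400) (five 5 431 464))))))) (both (mv 432 (both (five 5 431 464) (mv 431 (both (five 5 399 400) (mv 558 (both (five 6 430 526) (five 6 462 590))))))) (mv 462 (both (five 7 430 430)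 (mv 494 (both (five 7 462 591) (mv 492 (both (five 0 492 493) (mv 558 (both (five 6 462 590) (mv 557 (both (five 1 524 556) (mv 526 (both (five 6 461 589) (mv 461 (both (five 7 429 429) (mv 460 (both (five 0 459 459) (five 2 459 491)))))))))))))))))))) (both (mv 431 (both (five 4 431 560) (mv 398 (both (five 7 398 430) (mv 399 (both (five 7 366 366) (mv 400 (both (five 5 367 368) (five 5 399 432))))))))) (mv 431 (both (five 4 431 560) (mv 398 (both (five 7 398 430) (mv 399 (both (five 7 366 366) (mv 526 (both (five 6 398 494) (five 6 430 558)))))))))))))) (both (mv 496 (both (mv 497 (both (mv 498 (both (five 2 495 499) (five 2 494 526))) (mv 494 (both (mv 461 (both (five 3 461 462) (mv 493 (both (five 3 460 460) (five 0 492 492))))) (mv 465 (both (five 1 462 466) (mv 433 (both (five 6 400 401) (mv 560 (both (five 5 432 464) (five 5 464 592))))))))))) (both (mv 497 (both (mv 498 (both (five 2 495 499) (five 2 494 526))) (both (mv 498 (both (five 2 495 499) (mv 466 (both (five 1 463 467) (mv 494 (both (five 1 462 465) (mv 461 (both (five 3 461 462) (mv 493 (both (five 3 460 460) (five 0 492 492)))))))))))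 (mv 494 (both (mv 461 (both (five 3 461 462) (mv 493 (both (five 3 460 460) (five 0 492 492))))) (both (mv 462 (both (five 3 461 461) (mv 430 (both (five 4 398 398) (mv 465 (both (five 1 462 466) (mv 401 (both (five 6 400 433) (mv 526 (both (five 2 493 525) (mv 397 (both (five 7 397 429) (mv 431 (both (five 5 398 399) (mv 558 (both (five 5 430 463) (mv 589 (both (five 6 461 557) (mv 590 (both (five 6 493 621) (five 5 494 622))))))))))))))))))))) (mv 493 (both (five 0 492 492) (mv 525 (both (five 2 492 524) (five 2 493 526))))))))))) (both (mv 560 (both (mv 463 (both (five 4 431 431) (five 7 463 592))) (both (mv 592 (both (five 7 495 624) (mv 591 (both (five 6 495 623) (mv 593 (both (five 4 496 625) (mv 464 (both (five 4 464 561) (mv 432 (both (five 6 399 400) (mv 433 (both (five 5 400 401) (five 5 432 465))))))))))))) (mv 464 (both (mv 432 (both (five 6 399 400) (mv 433 (both (five 5 400 401) (five 5 432 465))))) (both (mv 463 (both (five 7 431 431) (mv 465 (both (five 5 432 433) (mv 466 (both (five 2 463 467) (five 2 462 494))))))) (mv 431 (both (five 7 431 463) (mv 432 (both (five 7 399 399) (five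 6 399 400))))))))))) (both (mv 560 (both (mv 463 (both (five 4 431 431) (five 7 463 592))) (both (mv 592 (both (five 7 495 624) (mv 497 (both (five 5 464 465) (mv 498 (both (five 2 495 499) (five 2 494 526))))))) (mv 464 (both (mv 432 (both (five 6 399 400) (mv 433 (both (five 5 400 401) (five 5 432 465))))) (both (mv 463 (both (five 7 431 431) (mv 465 (both (five 5 432 433) (mv 466 (both (five 2 463 467) (mv 434 (both (five 1 431 435) (mv 498 (both (five 0 463 499) (mv 497 (both (five 3 462 462) (five 2 494 526))))))))))))) (mv 431 (both (five 7 431 463) (mv 432 (both (five 7 399 399) (five 6 399 400))))))))))) (mv 497 (both (mv 498 (both (five 2 495 499) (five 2 494 526))) (both (mv 498 (both (five 2 495 499) (mv 463 (both (five 3 462 462) (mv 431 (both (five 4 431 560) (mv 398 (both (five 7 398 430) (mv 399 (both (five 7 366 366) (mv 400 (both (five 5 367 368) (five 5 399 432))))))))))))) (mv 494 (both (mv 461 (both (five 3 461 462) (mv 493 (both (five 3 460 460) (five 0 492 492))))) (both (mv 462 (both (five 3 461 461) (mv 430 (both (five 4 398 398) (mv 526 (both (five 2 493 525) (mv 397 (both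 (five 7 397 429) (mv 431 (both (five 5 398 399) (mv 558 (both (five 5 430 463) (mv 589 (both (five 6 461 557) (mv 590 (both (five 6 493 621) (five 5 494 622))))))))))))))))) (mv 493 (both (five 0 492 492) (mv 525 (both (five 2 492 524) (five 2 493 526)))))))))))))))) (both (mv 463 (both (mv 431 (both (five 4 431 560) (mv 398 (both (five 7 398 430) (mv 399 (both (five 7 366 366) (five 4 399 496))))))) (both (mv 559 (both (mv 462 (both (five 7 430 430) (mv 591 (both (five 7 462 494) (mv 592 (both (five 4 463 560) (five 4 495 624))))))) (both (mv 590 (both (five 6 462 558) (mv 591 (both (five 6 494 622) (mv 623 (both (five 5 495 496) (mv 624 (both (five 4 495 592) (five 4 527 656))))))))) (both (mv 430 (both (five 7 430 462) (mv 432 (both (five 5 431 464) (mv 590 (both (five 6 462 558) (mv 591 (both (five 6 494 622) (mv 623 (both (five 5 495 496) (mv 655 (both (five 5 527 560) (mv 656 (both (five 4 527 624) (five 4 559 688))))))))))))))) (mv 432 (both (five 5 431 464) (mv 462 (both (five 7 430 430) (mv 558 (both (five 6 462 590) (mv 557 (both (five 1 524 556) (mv 560 (both (five 4 463 592) (mv 525 (both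 (five 3 524 524) (mv 589 (both (five 2 556 588) (mv 493 (both (five 5 461 494) (mv 460 (both (five 7 460 492) (mv 461 (both (five 7 428 428) (five 0 460 496))))))))))))))))))))))))) (both (mv 559 (both (mv 430 (both (five 7 430 462) (mv 431 (both (five 7 398 398) (mv 432 (both (five 5 399 400) (five 5 431 464))))))) (mv 590 (both (five 6 462 558) (mv 591 (both (five 6 494 622) (mv 623 (both (five 5 495 496) (mv 624 (both (five 4 495 592) (five 4 527 656))))))))))) (both (mv 431 (both (five 4 431 560) (mv 398 (both (five 7 398 430) (mv 399 (both (five 7 366 366) (mv 400 (both (five 5 367 368) (five 5 399 432))))))))) (mv 431 (both (five 4 431 560) (mv 399 (both (five 4 399 496) (mv 400 (both (five 5 367 368) (five 5 399 432)))))))))))) (both (mv 496 (both (mv 497 (both (mv 498 (both (five 2 495 499) (five 2 494 526))) (mv 494 (both (mv 461 (both (five 3 461 462) (mv 493 (both (five 3 460 460) (five 0 492 492))))) (mv 465 (both (five 1 462 466) (mv 433 (both (five 6 400 401) (mv 560 (both (five 5 432 464) (five 5 464 592))))))))))) (both (mv 497 (both (mv 498 (both (five 2 495 499) (five 2 494 526)))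 (both (mv 498 (both (five 2 495 499) (mv 466 (both (five 1 463 467) (mv 494 (both (five 1 462 465) (mv 461 (both (five 3 461 462) (mv 493 (both (five 3 460 460) (five 0 492 492))))))))))) (mv 494 (both (mv 461 (both (five 3 461 462) (mv 493 (both (five 3 460 460) (five 0 492 492))))) (both (mv 465 (both (five 1 462 466) (mv 401 (both (five 6 400 433) (mv 493 (both (five 0 492 492) (mv 525 (both (five 2 492 524) (five 2 493 526))))))))) (mv 462 (both (five 3 461 461) (mv 430 (both (five 4 398 398) (mv 526 (both (five 1 493 525) (five 4 430 559))))))))))))) (both (mv 559 (both (mv 464 (both (five 6 431 432) (five 5 463 591))) (both (mv 463 (both (mv 558 (both (five 6 462 590) (mv 557 (both (five 1 524 556) (mv 560 (both (five 4 463 592) (mv 525 (both (five 3 524 524) (mv 561 (both (five 0 525 526) (mv 562 (both (five 3 527 563) (mv 594 (both (five 0 558 593) (five 0 559 595))))))))))))))) (mv 462 (both (five 7 430 430) (mv 461 (both (five 0 460 460) (mv 464 (both (five 5 431 432) (mv 428 (both (five 3 428 429) (mv 493 (both (five 2 460 492) (mv 465 (both (five 2 461 494) (mv 434 (both (five 1 430 433)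 (mv 466 (both (five 1 431 435) (five 2 463 467))))))))))))))))))) (mv 591 (both (five 5 495 623) (mv 462 (both (five 7 462 494) (mv 463 (both (five 7 430 430) (mv 590 (both (five 6 462 558) (five 6 494 622)))))))))))) (both (mv 464 (both (mv 432 (both (five 6 399 400) (five 6 431 559))) (mv 560 (both (mv 465 (both (five 5 432 433) (mv 466 (both (five 2 463 467) (mv 494 (both (five 1 461 493) (five 1 462 497))))))) (mv 592 (both (five 7 495 624) (mv 593 (both (five 4 464 561) (five 4 496 625))))))))) (both (mv 559 (both (mv 464 (both (five 6 431 432) (five 5 463 591))) (both (mv 560 (both (mv 592 (both (five 7 495 624) (mv 465 (both (five 5 464 497) (mv 593 (both (five 4 496 625) (mv 558 (both (five 0 557 557) (mv 594 (both (five 0 558 561) (five 3 559 595))))))))))) (both (mv 464 (both (five 6 431 432) (mv 433 (both (five 5 432 465) (mv 561 (both (five 4 464 593) (mv 526 (both (five 0 525 525) (five 3 526 562))))))))) (both (mv 432 (both (five 6 431 464) (mv 592 (both (five 7 495 624) (mv 497 (both (five 5 464 465) (mv 498 (both (five 2 495 499) (five 2 494 526))))))))) (mv 432 (both (five 6 431 464)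 (mv 592 (both (five 7 495 624) (mv 593 (both (five 4 496 625) (mv 558 (both (five 0 557 557) (mv 594 (both (five 0 558 561) (five 3 559 595))))))))))))))) (mv 591 (both (five 5 495 623) (mv 590 (both (five 6 494 622) (mv 463 (both (five 6 462 558) (mv 592 (both (five 4 463 560) (five 4 495 624)))))))))))) (mv 494 (both (mv 526 (both (mv 497 (both (five 2 494 498) (five 2 493 525))) (both (mv 497 (both (five 2 494 498) (mv 462 (both (five 3 461 461) (mv 430 (both (five 4 398 398) (five 4 430 559))))))) (mv 525 (both (five 1 492 524) (mv 560 (both (five 0 525 561) (mv 592 (both (five 7 495 624) (mv 591 (both (five 6 495 623) (mv 559 (both (five 7 462 462) (five 5 463 464)))))))))))))) (both (mv 493 (both (five 0 492 492) (mv 461 (both (five 3 460 460) (mv 462 (both (five 3 461 497) (mv 398 (both (five 4 398 430) (mv 525 (both (five 2 492 524) (mv 557 (both (five 5 461 589) (mv 556 (both (five 6 460 588) (mv 558 (both (five 1 524 559) (five 4 461 590))))))))))))))))) (both (mv 526 (both (mv 525 (both (five 1 492 524) (mv 560 (both (five 0 525 561) (mv 592 (both (five 7 495 624) (mv 591 (both (five 6 495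 623) (mv 559 (both (five 7 462 462) (five 5 463 464))))))))))) (both (mv 493 (both (five 0 492 492) (mv 461 (both (five 3 460 460) (mv 429 (both (five 4 397 397) (mv 558 (both (five 7 429 462) (five 7 461 590))))))))) (mv 492 (both (five 0 492 493) (mv 525 (both (five 1 492 524) (mv 556 (both (five 2 524 557) (mv 560 (both (five 0 525 561) (mv 592 (both (five 7 495 624) (mv 591 (both (five 6 495 623) (mv 559 (both (five 5 463 464) (mv 590 (both (five 6 494 622) (mv 588 (both (five 1 556 589) (mv 593 (both (five 4 496 625) (mv 594 (both (five 3 558 558) (five 3 559 595)))))))))))))))))))))))))) (both (mv 493 (both (five 0 492 492) (mv 461 (both (five 3 460 460) (mv 462 (both (five 3 461 497) (mv 430 (both (five 4 398 398) (mv 559 (both (five 4 430 526) (five 7 462 591))))))))))) (both (mv 493 (both (five 0 492 492) (mv 460 (both (five 3 460 461) (mv 525 (both (five 2 492 524) (mv 526 (both (five 2 493 497) (mv 560 (both (five 0 525 561) (mv 592 (both (five 7 495 624) (mv 591 (both (five 6 495 623) (mv 559 (both (five 5 463 464) (mv 590 (both (five 6 494 622) (mv 588 (both (five 1 556 589) (mv 593 (both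 (five 4 496 625) (mv 594 (both (five 3 558 558) (five 3 559 595))))))))))))))))))))))))) (mv 493 (both (five 0 492 492) (mv 525 (both (five 2 492 524) (mv 526 (both (five 2 493 497) (mv 557 (both (five 2 524 556) (mv 462 (both (five 6 429 430) (five 5 461 589))))))))))))))))))))))) (both (mv 463 (both (mv 431 (both (five 4 431 560) (mv 398 (both (five 7 398 430) (mv 399 (both (five 7 366 366) (five 4 399 496))))))) (both (mv 559 (both (mv 590 (both (five 6 462 558) (mv 591 (both (five 6 494 622) (mv 623 (both (five 5 495 496) (mv 655 (both (five 5 527 560) (mv 656 (both (five 4 527 624) (five 4 559 688))))))))))) (both (mv 432 (both (five 5 431 464) (mv 462 (both (five 7 430 430) (mv 591 (both (five 7 462 494) (mv 623 (both (five 5 495 496) (mv 655 (both (five 5 527 560) (mv 656 (both (five 4 527 624) (five 4 559 688))))))))))))) (both (mv 462 (both (five 7 430 430) (mv 494 (both (five 7 462 591) (mv 492 (both (five 0 492 493) (mv 558 (both (five 6 462 590) (mv 557 (both (five 1 524 556) (mv 526 (both (five 6 461 589) (mv 461 (both (five 7 429 429) (mv 460 (both (five 0 459 459) (five 2 459 491)))))))))))))))))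 (mv 494 (both (mv 462 (both (five 7 430 430) (mv 492 (both (five 0 492 493) (mv 558 (both (five 6 462 590) (mv 557 (both (five 1 524 556) (mv 526 (both (five 6 461 589) (mv 461 (both (five 7 429 429) (mv 460 (both (five 0 459 459) (five 2 459 491))))))))))))))) (both (mv 464 (both (five 5 431 432) (mv 465 (both (five 2 462 466) (mv 493 (both (five 0 492 492) (five 1 461 496))))))) (mv 432 (both (five 5 431 464) (mv 462 (both (five 7 430 430) (mv 558 (both (five 6 462 590) (mv 557 (both (five 1 524 556) (mv 526 (both (five 6 461 589) (mv 461 (both (five 7 429 429) (mv 460 (both (five 0 459 459) (five 0 460 496)))))))))))))))))))))) (both (mv 431 (both (mv 398 (both (five 7 398 430) (mv 399 (both (five 7 366 366) (five 4 399 496))))) (mv 432 (both (five 5 399 400) (mv 558 (both (five 6 430 526) (mv 559 (both (five 5 431 464) (five 6 462 590))))))))) (mv 431 (both (five 4 431 560) (mv 432 (both (five 5 399 400) (mv 558 (both (five 6 430 526) (mv 559 (both (five 5 431 464) (five 6 462 590))))))))))))) (both (mv 463 (both (mv 559 (both (mv 462 (both (five 7 430 430) (mv 591 (both (five 7 462 494) (mv 592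 (both (five 4 463 560) (five 4 495 624))))))) (both (mv 590 (both (five 6 462 558) (mv 591 (both (five 6 494 622) (mv 623 (both (five 5 495 496) (mv 624 (both (five 4 495 592) (five 4 527 656))))))))) (both (mv 590 (both (five 6 462 558) (mv 591 (both (five 6 494 622) (mv 623 (both (five 5 495 496) (mv 655 (both (five 5 527 560) (mv 656 (both (five 4 527 624) (five 4 559 688))))))))))) (mv 558 (both (five 6 462 590) (mv 557 (both (five 1 524 556) (mv 560 (both (five 4 463 592) (mv 525 (both (five 3 524 524) (mv 561 (both (five 0 525 526) (mv 562 (both (five 3 527 563) (mv 594 (both (five 0 558 593) (five 0 559 595))))))))))))))))))) (both (mv 431 (both (mv 398 (both (five 7 398 430) (mv 399 (both (five 7 366 366) (five 4 399 496))))) (both (mv 400 (both (five 5 399 432) (mv 430 (both (five 7 398 398) (mv 558 (both (five 6 430 526) (mv 559 (both (five 7 430 462) (five 6 462 590))))))))) (mv 399 (both (five 4 399 496) (mv 400 (both (five 5 367 368) (five 5 399 432)))))))) (both (mv 431 (both (five 4 431 560) (mv 398 (both (five 7 398 430) (mv 399 (both (five 7 366 366) (mv 400 (both (five 5 367 368)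 (five 5 399 432))))))))) (mv 431 (both (five 4 431 560) (mv 399 (both (five 4 399 496) (mv 400 (both (five 5 367 368) (five 5 399 432))))))))))) (both (mv 463 (both (mv 431 (both (five 4 431 560) (mv 398 (both (five 7 398 430) (mv 399 (both (five 7 366 366) (five 4 399 496))))))) (both (mv 559 (both (mv 558 (both (five 6 462 590) (mv 557 (both (five 1 524 556) (mv 560 (both (five 4 463 592) (mv 525 (both (five 3 524 524) (mv 561 (both (five 0 525 526) (mv 562 (both (five 3 527 563) (mv 594 (both (five 0 558 593) (five 0 559 595))))))))))))))) (both (mv 494 (both (mv 462 (both (five 7 430 430) (mv 492 (both (five 0 492 493) (mv 558 (both (five 6 462 590) (mv 557 (both (five 1 524 556) (mv 526 (both (five 6 461 589) (mv 461 (both (five 7 429 429) (mv 460 (both (five 0 459 459) (five 2 459 491))))))))))))))) (both (mv 464 (both (five 5 431 432) (mv 465 (both (five 2 462 466) (mv 493 (both (five 0 492 492) (five 1 461 496))))))) (mv 432 (both (five 5 431 464) (mv 462 (both (five 7 430 430) (mv 558 (both (five 6 462 590) (mv 557 (both (five 1 524 556) (mv 526 (both (five 6 461 589) (mv 461 (both (five 7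 429 429) (mv 460 (both (five 0 459 459) (five 0 460 496)))))))))))))))))) (both (mv 496 (both (mv 462 (both (five 7 430 430) (mv 461 (both (five 0 460 460) (mv 497 (both (five 3 461 494) (five 3 462 498))))))) (both (mv 464 (both (five 5 431 432) (mv 560 (both (mv 465 (both (five 5 432 433) (mv 466 (both (five 2 463 467) (mv 494 (both (five 1 461 493) (five 1 462 497))))))) (mv 592 (both (five 7 495 624) (mv 593 (both (five 4 464 561) (five 4 496 625))))))))) (mv 430 (both (five 7 430 462) (mv 464 (both (five 5 431 432) (mv 560 (both (five 7 463 592) (mv 561 (both (five 4 464 593) (mv 526 (both (five 0 525 525) (five 3 526 562)))))))))))))) (mv 462 (both (five 7 430 430) (mv 558 (both (five 6 462 590) (mv 557 (both (five 1 524 556) (mv 560 (both (five 4 463 592) (mv 525 (both (five 3 524 524) (mv 589 (both (five 2 556 588) (mv 493 (both (five 5 461 494) (mv 460 (both (five 7 460 492) (mv 461 (both (five 7 428 428) (five 0 460 496))))))))))))))))))))))) (both (mv 431 (both (mv 398 (both (five 7 398 430) (mv 399 (both (five 7 366 366) (five 4 399 496))))) (mv 432 (both (five 5 399 400) (mv 558 (both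 (five 6 430 526) (mv 559 (both (five 5 431 464) (five 6 462 590))))))))) (mv 431 (both (five 4 431 560) (mv 432 (both (five 5 399 400) (mv 558 (both (five 6 430 526) (mv 559 (both (five 5 431 464) (five 6 462 590))))))))))))) (both (mv 463 (both (mv 431 (both (five 4 431 560) (mv 398 (both (five 7 398 430) (mv 399 (both (five 7 366 366) (five 4 399 496))))))) (both (mv 559 (both (mv 462 (both (five 7 430 430) (mv 560 (both (five 4 463 592) (mv 591 (both (five 7 462 494) (mv 622 (both (five 6 494 590) (mv 623 (both (five 6 526 654) (five 5 527 655))))))))))) (both (mv 462 (both (five 7 430 430) (mv 494 (both (five 7 462 591) (mv 492 (both (five 0 492 493) (mv 558 (both (five 6 462 590) (mv 557 (both (five 1 524 556) (mv 526 (both (five 6 461 589) (mv 461 (both (five 7 429 429) (mv 460 (both (five 0 459 459) (five 2 459 491))))))))))))))))) (both (mv 558 (both (five 6 462 590) (mv 557 (both (five 1 524 556) (mv 560 (both (five 4 463 592) (mv 525 (both (five 3 524 524) (mv 561 (both (five 0 525 526) (mv 562 (both (five 3 527 563) (mv 594 (both (five 0 558 593) (five 0 559 595))))))))))))))) (mv 430 (both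 (five 7 430 462) (mv 464 (both (five 5 431 432) (mv 496 (both (five 5 463 591) (mv 560 (both (five 7 463 592) (mv 561 (both (five 4 464 593) (mv 526 (both (five 0 525 525) (five 3 526 562))))))))))))))))) (both (mv 431 (both (mv 398 (both (five 7 398 430) (mv 399 (both (five 7 366 366) (five 4 399 496))))) (mv 432 (both (five 5 399 400) (mv 558 (both (five 6 430 526) (mv 559 (both (five 5 431 464) (five 6 462 590))))))))) (mv 431 (both (five 4 431 560) (mv 432 (both (five 5 399 400) (mv 558 (both (five 6 430 526) (mv 559 (both (five 5 431 464) (five 6 462 590))))))))))))) (both (mv 560 (both (mv 592 (both (five 7 495 624) (mv 496 (both (mv 497 (both (five 5 464 465) (mv 498 (both (five 2 495 499) (five 2 494 526))))) (mv 591 (both (five 6 495 623) (mv 559 (both (five 5 463 464) (mv 590 (both (five 6 494 622) (mv 588 (both (five 1 556 589) (mv 593 (both (five 4 496 625) (mv 594 (both (five 3 558 558) (five 3 559 595))))))))))))))))) (both (mv 463 (both (five 4 431 431) (mv 559 (both (mv 558 (both (five 6 462 590) (mv 557 (both (five 1 524 556) (mv 525 (both (five 3 524 524) (mv 561 (both (five 0 525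 526) (mv 562 (both (five 3 527 563) (mv 594 (both (five 0 558 593) (five 0 559 595))))))))))))) (mv 462 (both (five 7 430 430) (mv 591 (both (five 7 462 494) (mv 623 (both (five 5 495 496) (five 5 527 655))))))))))) (both (mv 463 (both (five 4 431 431) (mv 592 (both (five 4 463 559) (five 7 495 624))))) (mv 463 (both (five 4 431 431) (mv 592 (both (five 7 463 496) (five 7 495 624))))))))) (both (mv 496 (both (mv 497 (both (mv 498 (both (five 2 495 499) (five 2 494 526))) (mv 494 (both (mv 461 (both (five 3 461 462) (mv 493 (both (five 3 460 460) (five 0 492 492))))) (mv 465 (both (five 1 462 466) (mv 433 (both (five 6 400 401) (mv 560 (both (five 5 432 464) (five 5 464 592))))))))))) (both (mv 497 (both (mv 498 (both (five 2 495 499) (five 2 494 526))) (both (mv 498 (both (five 2 495 499) (mv 466 (both (five 1 463 467) (mv 494 (both (five 1 462 465) (mv 461 (both (five 3 461 462) (mv 493 (both (five 3 460 460) (five 0 492 492))))))))))) (mv 494 (both (mv 461 (both (five 3 461 462) (mv 493 (both (five 3 460 460) (five 0 492 492))))) (both (mv 465 (both (five 1 462 466) (mv 401 (both (five 6 400 433)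 (mv 493 (both (five 0 492 492) (mv 525 (both (five 2 492 524) (five 2 493 526))))))))) (mv 462 (both (five 3 461 461) (mv 430 (both (five 4 398 398) (mv 526 (both (five 1 493 525) (five 4 430 559))))))))))))) (both (mv 464 (both (mv 432 (both (five 6 399 400) (five 6 431 559))) (both (mv 432 (both (five 6 399 400) (mv 399 (both (five 7 399 431) (mv 433 (both (five 5 400 401) (mv 560 (both (five 5 432 465) (mv 592 (both (five 7 495 624) (mv 593 (both (five 4 464 561) (five 4 496 625))))))))))))) (mv 560 (both (mv 592 (both (five 7 495 624) (mv 593 (both (five 4 464 561) (five 4 496 625))))) (both (mv 433 (both (five 5 432 465) (mv 559 (both (five 5 463 591) (mv 561 (both (five 4 464 593) (mv 526 (both (five 0 525 525) (five 3 526 562))))))))) (mv 433 (both (five 5 432 465) (mv 591 (both (five 5 463 559) (mv 592 (both (five 6 495 623) (five 7 495 624))))))))))))) (mv 463 (both (mv 559 (both (mv 464 (both (five 6 431 432) (five 5 463 591))) (mv 462 (both (five 7 430 430) (mv 461 (both (five 0 460 460) (mv 497 (both (five 3 461 494) (five 3 462 498))))))))) (mv 431 (both (five 4 399 399) (five 4 431 560)))))))))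 (mv 560 (both (mv 592 (both (five 7 495 624) (mv 496 (both (mv 497 (both (five 5 464 465) (mv 498 (both (five 2 495 499) (five 2 494 526))))) (mv 591 (both (five 6 495 623) (mv 559 (both (five 5 463 464) (mv 590 (both (five 6 494 622) (mv 588 (both (five 1 556 589) (mv 593 (both (five 4 496 625) (mv 594 (both (five 3 558 558) (five 3 559 595))))))))))))))))) (both (mv 463 (both (five 4 431 431) (mv 559 (both (mv 590 (both (five 6 462 558) (mv 591 (both (five 6 494 622) (mv 623 (both (five 5 495 496) (five 5 527 655))))))) (both (mv 464 (both (five 5 431 432) (mv 496 (both (five 5 463 591) (mv 561 (both (five 4 464 593) (mv 526 (both (five 0 525 525) (five 3 526 562))))))))) (mv 558 (both (five 6 462 590) (mv 557 (both (five 1 524 556) (mv 525 (both (five 3 524 524) (mv 561 (both (five 0 525 526) (mv 562 (both (five 3 527 563) (mv 594 (both (five 0 558 593) (five 0 559 595)))))))))))))))))) (both (mv 463 (both (five 4 431 431) (mv 592 (both (five 4 463 559) (five 7 495 624))))) (mv 463 (both (five 4 431 431) (mv 592 (both (five 7 463 496) (five 7 495 624)))))))))))))))))))))) (both (ref 0) (both (mv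 526 (both (mv 529 (both (mv 493 (both (five 3 493 494) (mv 498 (both (five 1 494 497) (mv 530 (both (five 1 495 499) (mv 562 (both (five 0 526 561) (five 0 527 563))))))))) (both (mv 493 (both (five 3 493 494) (mv 498 (both (five 1 494 497) (mv 530 (both (five 1 495 499) (mv 558 (both (five 2 525 557) (five 2 526 559))))))))) (both (mv 558 (both (five 2 525 557) (mv 530 (both (five 2 526 559) (mv 562 (both (five 0 526 561) (five 0 527 563))))))) (mv 494 (both (five 3 493 493) (mv 462 (both (mv 430 (both (five 4 430 559) (mv 397 (both (five 7 397 429) (mv 398 (both (five 7 365 365) (mv 399 (both (five 5 366 367) (five 5 398 431))))))))) (both (mv 497 (both (five 1 494 498) (mv 558 (both (five 2 525 557) (mv 429 (both (five 7 429 461) (mv 430 (both (five 7 397 397) (mv 431 (both (five 5 398 399) (five 5 430 463))))))))))) (both (mv 497 (both (five 1 494 498) (mv 558 (both (five 2 525 557) (mv 429 (both (five 7 429 461) (mv 431 (both (five 5 430 463) (mv 561 (both (five 0 526 562) (mv 591 (both (five 4 462 559) (mv 590 (both (five 4 494 623) (mv 589 (both (five 6 493 621) (mv 592 (both (five 1 557 560)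 (mv 624 (both (five 6 496 593) (five 0 589 625))))))))))))))))))))) (both (mv 430 (both (five 4 430 559) (mv 429 (both (five 7 397 397) (mv 558 (both (five 7 429 461) (five 2 525 557))))))) (mv 430 (both (five 4 430 559) (mv 431 (both (five 5 398 399) (mv 558 (both (five 5 430 463) (five 2 525 557)))))))))))))))))) (both (mv 525 (both (mv 492 (both (five 3 492 493) (mv 496 (both (five 1 493 497) (mv 524 (both (five 3 491 491) (mv 556 (both (five 2 523 555) (five 2 524 557))))))))) (both (mv 492 (both (five 3 492 493) (mv 496 (both (five 1 493 497) (mv 524 (both (five 3 491 491) (mv 560 (both (five 0 524 559) (five 0 525 561))))))))) (both (mv 556 (both (five 2 524 557) (mv 524 (both (five 2 523 555) (mv 560 (both (five 0 524 559) (five 0 525 561))))))) (mv 493 (both (five 3 492 492) (mv 461 (both (mv 429 (both (five 4 429 558) (mv 396 (both (five 7 396 428) (mv 397 (both (five 7 364 364) (five 4 397 494))))))) (both (mv 496 (both (five 1 493 497) (mv 557 (both (five 2 524 556) (mv 462 (both (five 5 429 430) (mv 560 (both (five 0 525 561) (mv 589 (both (five 5 461 494) (mv 588 (both (five 6 492 620)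 (mv 590 (both (five 4 493 622) (mv 591 (both (five 1 556 559) (mv 623 (both (five 6 495 592) (five 0 588 624))))))))))))))))))) (mv 429 (both (five 4 429 558) (mv 396 (both (five 7 396 428) (mv 364 (both (five 7 364 397) (mv 430 (both (five 5 397 398) (mv 557 (both (five 5 429 462) (five 2 524 556)))))))))))))))))))) (both (mv 525 (both (mv 497 (both (five 1 493 496) (mv 529 (both (five 1 494 498) (mv 561 (both (five 0 525 560) (five 0 526 562))))))) (both (mv 493 (both (five 3 492 492) (mv 497 (both (five 1 493 496) (mv 529 (both (five 3 493 494) (five 1 494 498))))))) (mv 492 (both (five 3 492 493) (mv 524 (both (five 3 491 491) (mv 560 (both (five 0 524 559) (five 0 525 561)))))))))) (both (mv 525 (both (mv 497 (both (five 1 493 496) (mv 529 (both (five 1 494 498) (mv 557 (both (five 2 524 556) (five 2 525 558))))))) (both (mv 493 (both (five 3 492 492) (mv 497 (both (five 1 493 496) (mv 529 (both (five 3 493 494) (five 1 494 498))))))) (mv 492 (both (five 3 492 493) (mv 524 (both (five 3 491 491) (mv 556 (both (five 2 523 555) (five 2 524 557)))))))))) (both (mv 525 (both (mv 497 (both (five 1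 493 496) (mv 529 (both (five 1 494 498) (mv 561 (both (five 0 525 560) (five 0 526 562))))))) (both (mv 497 (both (five 1 493 496) (mv 529 (both (five 1 494 498) (mv 557 (both (five 2 524 556) (five 2 525 558))))))) (mv 556 (both (five 2 524 557) (mv 524 (both (five 2 523 555) (mv 560 (both (five 0 524 559) (five 0 525 561)))))))))) (mv 525 (both (mv 557 (both (five 2 524 556) (mv 529 (both (five 2 525 558) (mv 561 (both (five 0 525 560) (five 0 526 562))))))) (both (mv 492 (both (five 3 492 493) (mv 524 (both (five 3 491 491) (mv 560 (both (five 0 524 559) (five 0 525 561))))))) (mv 492 (both (five 3 492 493) (mv 524 (both (five 3 491 491) (mv 556 (both (five 2 523 555) (five 2 524 557)))))))))))))))) (both (mv 526 (both (mv 525 (both (mv 556 (both (five 2 524 557) (mv 524 (both (five 2 523 555) (mv 560 (both (five 0 524 559) (five 0 525 561))))))) (both (mv 492 (both (five 3 492 493) (mv 524 (both (five 3 491 491) (mv 556 (both (five 2 523 555) (five 2 524 557))))))) (both (mv 492 (both (five 3 492 493) (mv 524 (both (five 3 491 491) (mv 560 (both (five 0 524 559) (five 0 525 561))))))) (mv 493 (both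 (five 3 492 492) (mv 461 (both (mv 429 (both (five 4 429 558) (mv 396 (both (five 7 396 428) (mv 397 (both (five 7 364 364) (five 4 397 494))))))) (both (mv 557 (both (five 2 524 556) (mv 462 (both (five 5 429 430) (mv 560 (both (five 0 525 561) (mv 589 (both (five 5 461 494) (mv 588 (both (five 6 492 620) (mv 590 (both (five 4 493 622) (mv 591 (both (five 1 556 559) (mv 624 (both (five 0 588 623) (mv 592 (both (five 7 495 495) (five 0 589 625))))))))))))))))))) (mv 429 (both (five 4 429 558) (mv 396 (both (five 7 396 428) (mv 364 (both (five 7 364 397) (mv 430 (both (five 5 397 398) (mv 557 (both (five 5 429 462) (five 2 524 556)))))))))))))))))))) (both (mv 529 (both (mv 493 (both (five 3 493 494) (mv 498 (both (five 1 494 497) (mv 530 (both (five 1 495 499) (mv 562 (both (five 0 526 561) (five 0 527 563))))))))) (both (mv 493 (both (five 3 493 494) (mv 498 (both (five 1 494 497) (mv 530 (both (five 1 495 499) (mv 558 (both (five 2 525 557) (five 2 526 559))))))))) (both (mv 558 (both (five 2 525 557) (mv 530 (both (five 2 526 559) (mv 562 (both (five 0 526 561) (five 0 527 563))))))) (mv 494 (both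 (five 3 493 493) (mv 462 (both (mv 430 (both (five 4 430 559) (mv 397 (both (five 7 397 429) (mv 398 (both (five 7 365 365) (mv 399 (both (five 5 366 367) (five 5 398 431))))))))) (both (mv 497 (both (five 1 494 498) (mv 558 (both (five 2 525 557) (mv 429 (both (five 7 429 461) (mv 430 (both (five 7 397 397) (mv 431 (both (five 5 398 399) (five 5 430 463))))))))))) (both (mv 497 (both (five 1 494 498) (mv 558 (both (five 2 525 557) (mv 429 (both (five 7 429 461) (mv 431 (both (five 5 430 463) (mv 561 (both (five 0 526 562) (mv 591 (both (five 4 462 559) (mv 590 (both (five 4 494 623) (mv 589 (both (five 6 493 621) (mv 592 (both (five 1 557 560) (mv 624 (both (five 6 496 593) (five 0 589 625))))))))))))))))))))) (both (mv 430 (both (five 4 430 559) (mv 429 (both (five 7 397 397) (mv 558 (both (five 7 429 461) (five 2 525 557))))))) (mv 430 (both (five 4 430 559) (mv 431 (both (five 5 398 399) (mv 558 (both (five 5 430 463) (five 2 525 557)))))))))))))))))) (both (mv 529 (both (mv 498 (both (five 1 494 497) (mv 530 (both (five 1 495 499) (mv 562 (both (five 0 526 561) (five 0 527 563))))))) (both (mv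 494 (both (five 3 493 493) (mv 498 (both (five 1 494 497) (mv 530 (both (five 3 494 495) (five 1 495 499))))))) (mv 493 (both (five 3 493 494) (mv 525 (both (five 3 492 492) (mv 561 (both (five 0 525 560) (five 0 526 562)))))))))) (both (mv 529 (both (mv 558 (both (five 2 525 557) (mv 530 (both (five 2 526 559) (mv 562 (both (five 0 526 561) (five 0 527 563))))))) (both (mv 498 (both (five 1 494 497) (mv 530 (both (five 1 495 499) (mv 562 (both (five 0 526 561) (five 0 527 563))))))) (both (mv 498 (both (five 1 494 497) (mv 530 (both (five 1 495 499) (mv 558 (both (five 2 525 557) (five 2 526 559))))))) (mv 497 (both (five 1 494 498) (mv 557 (both (five 2 525 558) (mv 525 (both (five 2 524 556) (mv 561 (both (five 0 525 560) (five 0 526 562))))))))))))) (mv 529 (both (mv 498 (both (five 1 494 497) (mv 530 (both (five 1 495 499) (mv 558 (both (five 2 525 557) (five 2 526 559))))))) (both (mv 494 (both (five 3 493 493) (mv 498 (both (five 1 494 497) (mv 530 (both (five 3 494 495) (five 1 495 499))))))) (mv 493 (both (five 3 493 494) (mv 525 (both (five 3 492 492) (mv 557 (both (five 2 524 556) (five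 2 525 558))))))))))))))) (both (mv 526 (both (mv 525 (both (mv 497 (both (five 1 493 496) (mv 529 (both (five 1 494 498) (mv 557 (both (five 2 524 556) (five 2 525 558))))))) (both (mv 493 (both (five 3 492 492) (mv 497 (both (five 1 493 496) (mv 529 (both (five 3 493 494) (five 1 494 498))))))) (mv 492 (both (five 3 492 493) (mv 524 (both (five 3 491 491) (mv 556 (both (five 2 523 555) (five 2 524 557)))))))))) (both (mv 529 (both (mv 498 (both (five 1 494 497) (mv 530 (both (five 1 495 499) (mv 562 (both (five 0 526 561) (five 0 527 563))))))) (both (mv 494 (both (five 3 493 493) (mv 495 (both (five 3 494 530) (mv 558 (both (five 2 525 557) (mv 463 (both (five 6 430 431) (five 5 462 590))))))))) (mv 497 (both (five 1 494 498) (mv 465 (both (mv 433 (both (five 6 432 560) (mv 400 (both (five 7 400 432) (mv 401 (both (five 7 368 368) (five 6 400 496))))))) (both (mv 493 (both (five 3 493 494) (mv 557 (both (five 2 525 558) (mv 561 (both (five 0 526 562) (mv 432 (both (five 7 432 464) (mv 433 (both (five 7 400 400) (mv 434 (both (five 5 401 402) (five 5 433 466))))))))))))) (both (mv 493 (both (five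 3 493 494) (mv 557 (both (five 2 525 558) (mv 561 (both (five 0 526 562) (mv 432 (both (five 7 432 464) (mv 434 (both (five 5 433 466) (mv 592 (both (five 6 464 560) (mv 593 (both (five 6 496 624) (mv 625 (both (five 7 496 496) (mv 626 (both (five 4 497 594) (five 4 529 658))))))))))))))))))) (mv 433 (both (five 6 432 560) (mv 401 (both (five 6 400 496) (mv 402 (both (five 5 369 370) (five 5 401 434)))))))))))))))) (both (mv 525 (both (mv 492 (both (five 3 492 493) (mv 524 (both (five 3 491 491) (mv 556 (both (five 2 523 555) (five 2 524 557))))))) (both (mv 496 (both (five 1 493 497) (mv 495 (both (five 1 492 524) (mv 560 (both (mv 463 (both (five 4 431 431) (five 7 463 592))) (both (mv 592 (both (five 7 495 624) (mv 591 (both (five 6 495 623) (mv 593 (both (five 4 496 625) (mv 464 (both (five 4 464 561) (mv 432 (both (five 6 399 400) (mv 433 (both (five 5 400 401) (five 5 432 465))))))))))))) (mv 464 (both (mv 432 (both (five 6 399 400) (mv 433 (both (five 5 400 401) (five 5 432 465))))) (both (mv 463 (both (five 7 431 431) (mv 465 (both (five 5 432 433) (mv 466 (both (five 2 463 467) (five 2 462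 494))))))) (mv 431 (both (five 7 431 463) (mv 432 (both (five 7 399 399) (five 6 399 400))))))))))))))) (mv 493 (both (five 3 492 492) (mv 461 (both (mv 429 (both (five 4 429 558) (mv 396 (both (five 7 396 428) (mv 397 (both (five 7 364 364) (five 4 397 494))))))) (both (mv 496 (both (five 1 493 497) (mv 557 (both (five 2 524 556) (mv 462 (both (five 5 429 430) (mv 560 (both (five 0 525 561) (mv 589 (both (five 5 461 494) (mv 620 (both (five 6 492 588) (mv 621 (both (five 6 524 652) (mv 622 (both (five 4 493 590) (five 4 525 654))))))))))))))))) (mv 429 (both (five 4 429 558) (mv 396 (both (five 7 396 428) (mv 364 (both (five 7 364 397) (mv 430 (both (five 5 397 398) (mv 557 (both (five 5 429 462) (five 2 524 556))))))))))))))))))) (both (mv 525 (both (mv 557 (both (five 2 524 556) (mv 529 (both (five 2 525 558) (mv 561 (both (five 0 525 560) (five 0 526 562))))))) (both (mv 497 (both (five 1 493 496) (mv 529 (both (five 1 494 498) (mv 557 (both (five 2 524 556) (five 2 525 558))))))) (mv 496 (both (five 1 493 497) (mv 495 (both (five 1 492 524) (mv 560 (both (mv 463 (both (five 4 431 431) (five 7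 463 592))) (both (mv 592 (both (five 7 495 624) (mv 591 (both (five 6 495 623) (mv 593 (both (five 4 496 625) (mv 464 (both (five 4 464 561) (mv 432 (both (five 6 399 400) (mv 433 (both (five 5 400 401) (five 5 432 465))))))))))))) (mv 464 (both (mv 432 (both (five 6 399 400) (mv 433 (both (five 5 400 401) (five 5 432 465))))) (both (mv 463 (both (five 7 431 431) (mv 465 (both (five 5 432 433) (mv 466 (both (five 2 463 467) (five 2 462 494))))))) (mv 431 (both (five 7 431 463) (mv 432 (both (five 7 399 399) (five 6 399 400)))))))))))))))))) (both (mv 525 (both (mv 557 (both (five 2 524 556) (mv 529 (both (five 2 525 558) (mv 561 (both (five 0 525 560) (five 0 526 562))))))) (both (mv 492 (both (five 3 492 493) (mv 524 (both (five 3 491 491) (mv 495 (both (five 1 492 496) (mv 494 (both (five 1 491 523) (mv 529 (both (five 3 494 530) (mv 561 (both (five 0 525 560) (five 0 526 562))))))))))))) (mv 492 (both (five 3 492 493) (mv 524 (both (five 3 491 491) (mv 556 (both (five 2 523 555) (five 2 524 557)))))))))) (both (mv 525 (both (mv 492 (both (five 3 492 493) (mv 491 (both (five 3 491 524) (mv 497 (both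 (five 1 493 496) (mv 529 (both (five 1 494 498) (mv 561 (both (five 0 525 560) (five 0 526 562))))))))))) (both (mv 557 (both (five 2 524 556) (mv 529 (both (five 2 525 558) (mv 561 (both (five 0 525 560) (five 0 526 562))))))) (mv 492 (both (five 3 492 493) (mv 496 (both (five 1 493 497) (mv 524 (both (five 3 491 491) (mv 556 (both (five 2 523 555) (five 2 524 557)))))))))))) (mv 529 (both (mv 498 (both (five 1 494 497) (mv 530 (both (five 1 495 499) (mv 562 (both (five 0 526 561) (five 0 527 563))))))) (both (mv 494 (both (five 3 493 493) (mv 498 (both (five 1 494 497) (mv 530 (both (five 3 494 495) (five 1 495 499))))))) (mv 493 (both (five 3 493 494) (mv 525 (both (five 3 492 492) (mv 561 (both (five 0 525 560) (five 0 526 562))))))))))))))))) (both (mv 526 (both (mv 525 (both (mv 492 (both (five 3 492 493) (mv 524 (both (five 3 491 491) (mv 556 (both (five 2 523 555) (five 2 524 557))))))) (both (mv 496 (both (five 1 493 497) (mv 524 (both (five 1 492 495) (mv 556 (both (five 2 523 555) (five 2 524 557))))))) (both (mv 492 (both (five 3 492 493) (mv 496 (both (five 1 493 497) (mv 524 (both (five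 3 491 491) (five 1 492 495))))))) (mv 493 (both (five 3 492 492) (mv 461 (both (mv 429 (both (five 4 429 558) (mv 396 (both (five 7 396 428) (mv 397 (both (five 7 364 364) (five 4 397 494))))))) (both (mv 496 (both (five 1 493 497) (mv 557 (both (five 2 524 556) (mv 462 (both (five 5 429 430) (mv 589 (both (five 5 461 494) (mv 620 (both (five 6 492 588) (mv 621 (both (five 6 524 652) (mv 622 (both (five 4 493 590) (five 4 525 654))))))))))))))) (mv 429 (both (five 4 429 558) (mv 396 (both (five 7 396 428) (mv 364 (both (five 7 364 397) (mv 430 (both (five 5 397 398) (mv 557 (both (five 5 429 462) (five 2 524 556)))))))))))))))))))) (both (mv 529 (both (mv 558 (both (five 2 525 557) (mv 530 (both (five 2 526 559) (mv 562 (both (five 0 526 561) (five 0 527 563))))))) (both (mv 498 (both (five 1 494 497) (mv 530 (both (five 1 495 499) (mv 562 (both (five 0 526 561) (five 0 527 563))))))) (both (mv 498 (both (five 1 494 497) (mv 530 (both (five 1 495 499) (mv 558 (both (five 2 525 557) (five 2 526 559))))))) (mv 494 (both (five 3 493 493) (mv 462 (both (mv 430 (both (five 4 430 559) (mv 429 (both (five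 7 397 397) (mv 558 (both (five 7 429 461) (five 2 525 557))))))) (both (mv 430 (both (five 4 430 559) (mv 397 (both (five 7 397 429) (mv 398 (both (five 7 365 365) (mv 399 (both (five 5 366 367) (five 5 398 431))))))))) (both (mv 558 (both (five 2 525 557) (mv 429 (both (five 7 429 461) (mv 430 (both (five 7 397 397) (mv 431 (both (five 5 398 399) (five 5 430 463))))))))) (both (mv 497 (both (five 1 494 498) (mv 558 (both (five 2 525 557) (mv 429 (both (five 7 429 461) (mv 431 (both (five 5 430 463) (mv 561 (both (five 0 526 562) (mv 591 (both (five 4 462 559) (mv 590 (both (five 4 494 623) (mv 621 (both (five 6 493 589) (mv 622 (both (five 5 494 495) (five 6 525 653))))))))))))))))))) (mv 430 (both (five 4 430 559) (mv 431 (both (five 5 398 399) (mv 558 (both (five 5 430 463) (five 2 525 557)))))))))))))))))) (both (mv 529 (both (mv 558 (both (five 2 525 557) (mv 530 (both (five 2 526 559) (mv 562 (both (five 0 526 561) (five 0 527 563))))))) (both (mv 498 (both (five 1 494 497) (mv 530 (both (five 1 495 499) (mv 562 (both (five 0 526 561) (five 0 527 563))))))) (both (mv 498 (both (five 1 494 497)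 (mv 530 (both (five 1 495 499) (mv 558 (both (five 2 525 557) (five 2 526 559))))))) (mv 497 (both (five 1 494 498) (mv 496 (both (five 1 493 525) (mv 557 (both (five 2 525 558) (mv 561 (both (five 0 526 562) (mv 464 (both (five 4 432 432) (five 7 464 593))))))))))))))) (both (mv 529 (both (mv 498 (both (five 1 494 497) (mv 530 (both (five 1 495 499) (mv 562 (both (five 0 526 561) (five 0 527 563))))))) (both (mv 494 (both (five 3 493 493) (mv 530 (both (five 3 494 495) (mv 562 (both (five 0 526 561) (five 0 527 563))))))) (mv 493 (both (five 3 493 494) (mv 497 (both (five 1 494 498) (mv 525 (both (five 3 492 492) (five 1 493 496)))))))))) (mv 529 (both (mv 558 (both (five 2 525 557) (mv 530 (both (five 2 526 559) (mv 562 (both (five 0 526 561) (five 0 527 563))))))) (both (mv 494 (both (five 3 493 493) (mv 530 (both (five 3 494 495) (mv 562 (both (five 0 526 561) (five 0 527 563))))))) (mv 493 (both (five 3 493 494) (mv 525 (both (five 3 492 492) (mv 557 (both (five 2 524 556) (five 2 525 558))))))))))))))) (both (mv 529 (both (mv 530 (both (mv 498 (both (five 1 495 499) (mv 466 (both (mv 434 (both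 (five 6 433 561) (mv 401 (both (five 7 401 433) (mv 402 (both (five 7 369 369) (five 6 401 497))))))) (both (mv 562 (both (five 0 527 563) (mv 433 (both (five 7 433 465) (mv 434 (both (five 7 401 401) (mv 435 (both (five 5 402 403) (five 5 434 467))))))))) (both (mv 562 (both (five 0 527 563) (mv 433 (both (five 7 433 465) (mv 435 (both (five 5 434 467) (mv 593 (both (five 6 465 561) (mv 594 (both (five 6 497 625) (mv 626 (both (five 7 497 497) (mv 627 (both (five 4 498 595) (five 4 530 659))))))))))))))) (mv 434 (both (five 6 433 561) (mv 402 (both (five 6 401 497) (mv 403 (both (five 5 370 371) (five 5 402 435))))))))))))) (mv 495 (both (five 3 494 494) (mv 463 (both (mv 560 (both (five 4 431 431) (mv 592 (both (five 4 463 559) (five 7 495 624))))) (both (mv 431 (both (five 4 431 560) (mv 398 (both (five 7 398 430) (mv 399 (both (five 7 366 366) (five 4 399 496))))))) (both (mv 559 (both (mv 430 (both (five 7 430 462) (mv 431 (both (five 7 398 398) (mv 432 (both (five 5 399 400) (five 5 431 464))))))) (mv 590 (both (five 6 462 558) (mv 591 (both (five 6 494 622) (mv 623 (both (five 5 495 496) (mv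 624 (both (five 4 495 592) (five 4 527 656))))))))))) (mv 559 (both (five 2 526 558) (mv 592 (both (five 4 463 560) (mv 591 (both (five 4 495 624) (mv 622 (both (five 6 494 590) (mv 623 (both (five 5 495 496) (five 6 526 654))))))))))))))))))) (both (mv 526 (both (mv 497 (both (five 1 494 498) (mv 465 (both (mv 433 (both (five 6 432 560) (mv 400 (both (five 7 400 432) (mv 401 (both (five 7 368 368) (five 6 400 496))))))) (both (mv 561 (both (five 0 526 562) (mv 432 (both (five 7 432 464) (mv 433 (both (five 7 400 400) (mv 434 (both (five 5 401 402) (five 5 433 466))))))))) (both (mv 561 (both (five 0 526 562) (mv 432 (both (five 7 432 464) (mv 434 (both (five 5 433 466) (mv 592 (both (five 6 464 560) (mv 593 (both (five 6 496 624) (mv 625 (both (five 7 496 496) (mv 626 (both (five 4 497 594) (five 4 529 658))))))))))))))) (mv 433 (both (five 6 432 560) (mv 401 (both (five 6 400 496) (mv 402 (both (five 5 369 370) (five 5 401 434))))))))))))) (both (mv 494 (both (five 3 493 493) (mv 462 (both (mv 430 (both (five 4 430 559) (mv 429 (both (five 7 397 397) (mv 558 (both (five 7 429 461) (five 2 525 557)))))))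 (both (mv 430 (both (five 4 430 559) (mv 397 (both (five 7 397 429) (mv 398 (both (five 7 365 365) (mv 399 (both (five 5 366 367) (five 5 398 431))))))))) (both (mv 558 (both (five 2 525 557) (mv 429 (both (five 7 429 461) (mv 430 (both (five 7 397 397) (mv 431 (both (five 5 398 399) (five 5 430 463))))))))) (both (mv 558 (both (five 2 525 557) (mv 429 (both (five 7 429 461) (mv 431 (both (five 5 430 463) (mv 561 (both (five 0 526 562) (mv 591 (both (five 4 462 559) (mv 590 (both (five 4 494 623) (mv 621 (both (five 6 493 589) (mv 622 (both (five 5 494 495) (five 6 525 653))))))))))))))))) (mv 430 (both (five 4 430 559) (mv 431 (both (five 5 398 399) (mv 558 (both (five 5 430 463) (five 2 525 557)))))))))))))) (mv 494 (both (five 3 493 493) (mv 462 (both (mv 430 (both (five 4 430 559) (mv 397 (both (five 7 397 429) (mv 398 (both (five 7 365 365) (mv 399 (both (five 5 366 367) (five 5 398 431))))))))) (both (mv 558 (both (five 2 525 557) (mv 429 (both (five 7 429 461) (mv 430 (both (five 7 397 397) (mv 431 (both (five 5 398 399) (five 5 430 463))))))))) (mv 497 (both (five 1 494 498) (mv 558 (both (five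 2 525 557) (mv 591 (both (five 4 462 559) (mv 590 (both (five 4 494 623) (mv 621 (both (five 6 493 589) (mv 622 (both (five 5 494 495) (five 6 525 653))))))))))))))))))))) (both (mv 562 (both (mv 526 (both (five 0 526 561) (mv 498 (both (five 1 494 497) (mv 530 (both (five 1 495 499) (mv 558 (both (five 2 525 557) (five 2 526 559))))))))) (both (mv 530 (both (five 0 527 563) (mv 498 (both (five 1 495 499) (mv 497 (both (five 1 494 526) (mv 465 (both (five 4 433 433) (five 7 465 594))))))))) (both (mv 563 (both (five 0 527 530) (mv 561 (both (five 3 527 560) (five 3 528 564))))) (mv 561 (both (five 0 526 526) (mv 563 (both (five 3 527 560) (five 3 528 564))))))))) (both (mv 498 (both (mv 497 (both (five 1 494 526) (mv 499 (both (five 2 495 496) (five 2 496 500))))) (both (mv 530 (both (five 1 495 499) (mv 494 (both (five 3 494 495) (mv 526 (both (five 3 493 493) (mv 562 (both (five 0 526 561) (five 0 527 563))))))))) (both (mv 499 (both (five 1 495 530) (mv 497 (both (five 2 495 496) (five 2 496 500))))) (mv 526 (both (five 1 494 497) (mv 494 (both (five 3 493 493) (mv 530 (both (five 3 494 495) (mv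 562 (both (five 0 526 561) (five 0 527 563))))))))))))) (both (mv 494 (both (mv 493 (both (five 3 493 526) (mv 495 (both (five 0 492 492) (five 0 493 496))))) (both (mv 526 (both (five 3 493 493) (mv 558 (both (five 2 525 557) (mv 530 (both (five 2 526 559) (mv 562 (both (five 0 526 561) (five 0 527 563))))))))) (both (mv 495 (both (five 3 494 530) (mv 493 (both (five 0 492 492) (five 0 493 496))))) (mv 530 (both (five 3 494 495) (mv 558 (both (five 2 526 559) (mv 526 (both (five 2 525 557) (mv 562 (both (five 0 526 561) (five 0 527 563))))))))))))) (mv 494 (both (mv 493 (both (five 3 493 526) (mv 495 (both (five 0 492 492) (five 0 493 496))))) (both (mv 526 (both (five 3 493 493) (mv 498 (both (five 1 494 497) (mv 530 (both (five 1 495 499) (mv 558 (both (five 2 525 557) (five 2 526 559))))))))) (both (mv 495 (both (five 3 494 530) (mv 493 (both (five 0 492 492) (five 0 493 496))))) (mv 530 (both (five 3 494 495) (mv 498 (both (five 1 495 499) (mv 526 (both (five 1 494 497) (mv 558 (both (five 2 525 557) (five 2 526 559))))))))))))))))))) (both (mv 526 (both (mv 529 (both (mv 558 (both (five 2 525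 557) (mv 530 (both (five 2 526 559) (mv 562 (both (five 0 526 561) (five 0 527 563))))))) (both (mv 498 (both (five 1 494 497) (mv 530 (both (five 1 495 499) (mv 558 (both (five 2 525 557) (five 2 526 559))))))) (mv 497 (both (five 1 494 498) (mv 465 (both (mv 433 (both (five 6 432 560) (mv 400 (both (five 7 400 432) (mv 401 (both (five 7 368 368) (five 6 400 496))))))) (both (mv 561 (both (five 0 526 562) (mv 432 (both (five 7 432 464) (mv 433 (both (five 7 400 400) (mv 434 (both (five 5 401 402) (five 5 433 466))))))))) (both (mv 561 (both (five 0 526 562) (mv 432 (both (five 7 432 464) (mv 434 (both (five 5 433 466) (mv 592 (both (five 6 464 560) (mv 593 (both (five 6 496 624) (mv 625 (both (five 7 496 496) (mv 626 (both (five 4 497 594) (five 4 529 658))))))))))))))) (mv 433 (both (five 6 432 560) (mv 401 (both (five 6 400 496) (mv 402 (both (five 5 369 370) (five 5 401 434)))))))))))))))) (both (mv 525 (both (mv 556 (both (five 2 524 557) (mv 524 (both (five 2 523 555) (mv 560 (both (five 0 524 559) (five 0 525 561))))))) (both (mv 492 (both (five 3 492 493) (mv 524 (both (five 3 491 491) (mv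 556 (both (five 2 523 555) (five 2 524 557))))))) (both (mv 492 (both (five 3 492 493) (mv 524 (both (five 3 491 491) (mv 560 (both (five 0 524 559) (five 0 525 561))))))) (mv 493 (both (five 3 492 492) (mv 461 (both (mv 429 (both (five 4 429 558) (mv 396 (both (five 7 396 428) (mv 397 (both (five 7 364 364) (mv 398 (both (five 5 365 366) (five 5 397 430))))))))) (both (mv 496 (both (five 1 493 497) (mv 557 (both (five 2 524 556) (mv 428 (both (five 7 428 460) (mv 429 (both (five 7 396 396) (mv 430 (both (five 5 397 398) (five 5 429 462))))))))))) (both (mv 496 (both (five 1 493 497) (mv 557 (both (five 2 524 556) (mv 428 (both (five 7 428 460) (mv 430 (both (five 5 429 462) (mv 560 (both (five 0 525 561) (mv 590 (both (five 4 461 558) (mv 589 (both (five 4 493 622) (mv 588 (both (five 6 492 620) (mv 591 (both (five 1 556 559) (mv 623 (both (five 6 495 592) (five 0 588 624))))))))))))))))))))) (both (mv 429 (both (five 4 429 558) (mv 428 (both (five 7 396 396) (mv 557 (both (five 7 428 460) (five 2 524 556))))))) (mv 429 (both (five 4 429 558) (mv 430 (both (five 5 397 398) (mv 557 (both (five 5 429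 462) (five 2 524 556)))))))))))))))))) (both (mv 525 (both (mv 497 (both (five 1 493 496) (mv 529 (both (five 1 494 498) (mv 557 (both (five 2 524 556) (five 2 525 558))))))) (both (mv 492 (both (five 3 492 493) (mv 496 (both (five 1 493 497) (mv 524 (both (five 3 491 491) (five 1 492 495))))))) (mv 492 (both (five 3 492 493) (mv 524 (both (five 3 491 491) (mv 556 (both (five 2 523 555) (five 2 524 557)))))))))) (both (mv 525 (both (mv 557 (both (five 2 524 556) (mv 529 (both (five 2 525 558) (mv 561 (both (five 0 525 560) (five 0 526 562))))))) (both (mv 492 (both (five 3 492 493) (mv 524 (both (five 3 491 491) (mv 560 (both (five 0 524 559) (five 0 525 561))))))) (mv 492 (both (five 3 492 493) (mv 524 (both (five 3 491 491) (mv 556 (both (five 2 523 555) (five 2 524 557)))))))))) (mv 525 (both (mv 497 (both (five 1 493 496) (mv 529 (both (five 1 494 498) (mv 561 (both (five 0 525 560) (five 0 526 562))))))) (both (mv 492 (both (five 3 492 493) (mv 496 (both (five 1 493 497) (mv 524 (both (five 3 491 491) (five 1 492 495))))))) (mv 492 (both (five 3 492 493) (mv 524 (both (five 3 491 491) (mv 560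 (both (five 0 524 559) (five 0 525 561))))))))))))))) (both (mv 526 (both (mv 525 (both (mv 557 (both (five 2 524 556) (mv 529 (both (five 2 525 558) (mv 561 (both (five 0 525 560) (five 0 526 562))))))) (both (mv 492 (both (five 3 492 493) (mv 524 (both (five 3 491 491) (mv 560 (both (five 0 524 559) (five 0 525 561))))))) (mv 492 (both (five 3 492 493) (mv 524 (both (five 3 491 491) (mv 556 (both (five 2 523 555) (five 2 524 557)))))))))) (both (mv 529 (both (mv 558 (both (five 2 525 557) (mv 530 (both (five 2 526 559) (mv 562 (both (five 0 526 561) (five 0 527 563))))))) (both (mv 494 (both (five 3 493 493) (mv 530 (both (five 3 494 495) (mv 562 (both (five 0 526 561) (five 0 527 563))))))) (both (mv 494 (both (five 3 493 493) (mv 495 (both (five 3 494 530) (mv 558 (both (five 2 525 557) (mv 463 (both (five 6 430 431) (five 5 462 590))))))))) (mv 494 (both (five 3 493 493) (mv 462 (both (mv 430 (both (five 4 430 559) (mv 429 (both (five 7 397 397) (mv 558 (both (five 7 429 461) (five 2 525 557))))))) (both (mv 430 (both (five 4 430 559) (mv 397 (both (five 7 397 429) (mv 398 (both (five 7 365 365)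 (mv 399 (both (five 5 366 367) (five 5 398 431))))))))) (both (mv 558 (both (five 2 525 557) (mv 429 (both (five 7 429 461) (mv 430 (both (five 7 397 397) (mv 431 (both (five 5 398 399) (five 5 430 463))))))))) (both (mv 558 (both (five 2 525 557) (mv 429 (both (five 7 429 461) (mv 431 (both (five 5 430 463) (mv 561 (both (five 0 526 562) (mv 591 (both (five 4 462 559) (mv 590 (both (five 4 494 623) (mv 621 (both (five 6 493 589) (mv 622 (both (five 5 494 495) (five 6 525 653))))))))))))))))) (mv 430 (both (five 4 430 559) (mv 431 (both (five 5 398 399) (mv 558 (both (five 5 430 463) (five 2 525 557)))))))))))))))))) (both (mv 525 (both (mv 556 (both (five 2 524 557) (mv 524 (both (five 2 523 555) (mv 560 (both (five 0 524 559) (five 0 525 561))))))) (both (mv 492 (both (five 3 492 493) (mv 524 (both (five 3 491 491) (mv 556 (both (five 2 523 555) (five 2 524 557))))))) (both (mv 492 (both (five 3 492 493) (mv 524 (both (five 3 491 491) (mv 560 (both (five 0 524 559) (five 0 525 561))))))) (mv 493 (both (five 3 492 492) (mv 461 (both (mv 429 (both (five 4 429 558) (mv 396 (both (five 7 396 428) (mv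 397 (both (five 7 364 364) (five 4 397 494))))))) (both (mv 557 (both (five 2 524 556) (mv 462 (both (five 5 429 430) (mv 560 (both (five 0 525 561) (mv 589 (both (five 5 461 494) (mv 588 (both (five 6 492 620) (mv 590 (both (five 4 493 622) (mv 591 (both (five 1 556 559) (mv 624 (both (five 0 588 623) (mv 592 (both (five 7 495 495) (five 0 589 625))))))))))))))))))) (mv 429 (both (five 4 429 558) (mv 396 (both (five 7 396 428) (mv 364 (both (five 7 364 397) (mv 430 (both (five 5 397 398) (mv 557 (both (five 5 429 462) (five 2 524 556)))))))))))))))))))) (both (mv 525 (both (mv 557 (both (five 2 524 556) (mv 529 (both (five 2 525 558) (mv 561 (both (five 0 525 560) (five 0 526 562))))))) (both (mv 556 (both (five 2 524 557) (mv 524 (both (five 2 523 555) (mv 491 (both (five 3 491 492) (mv 495 (both (five 1 492 496) (mv 523 (both (five 3 490 490) (five 1 491 494))))))))))) (mv 560 (both (five 0 525 561) (mv 524 (both (five 0 524 559) (mv 491 (both (five 3 491 492) (mv 495 (both (five 1 492 496) (mv 523 (both (five 3 490 490) (five 1 491 494)))))))))))))) (both (mv 525 (both (mv 492 (both (five 3 492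 493) (mv 524 (both (five 3 491 491) (mv 560 (both (five 0 524 559) (five 0 525 561))))))) (both (mv 492 (both (five 3 492 493) (mv 524 (both (five 3 491 491) (mv 495 (both (five 1 492 496) (mv 523 (both (five 1 491 494) (mv 555 (both (five 2 522 554) (five 2 523 556))))))))))) (both (mv 560 (both (five 0 525 561) (mv 524 (both (five 0 524 559) (mv 495 (both (five 1 492 496) (mv 523 (both (five 1 491 494) (mv 555 (both (five 2 522 554) (five 2 523 556))))))))))) (mv 493 (both (five 3 492 492) (mv 529 (both (five 3 493 494) (mv 561 (both (five 0 525 560) (five 0 526 562))))))))))) (mv 525 (both (mv 492 (both (five 3 492 493) (mv 524 (both (five 3 491 491) (mv 556 (both (five 2 523 555) (five 2 524 557))))))) (both (mv 556 (both (five 2 524 557) (mv 524 (both (five 2 523 555) (mv 491 (both (five 3 491 492) (mv 495 (both (five 1 492 496) (mv 523 (both (five 3 490 490) (five 1 491 494))))))))))) (both (mv 492 (both (five 3 492 493) (mv 524 (both (five 3 491 491) (mv 495 (both (five 1 492 496) (mv 523 (both (five 1 491 494) (mv 555 (both (five 2 522 554) (five 2 523 556))))))))))) (both (mv 556 (both (five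 2 524 557) (mv 524 (both (five 2 523 555) (mv 495 (both (five 1 492 496) (mv 494 (both (five 1 491 523) (mv 529 (both (five 3 493 493) (five 3 494 530))))))))))) (both (mv 492 (both (five 3 492 493) (mv 524 (both (five 3 491 491) (mv 495 (both (five 1 492 496) (mv 494 (both (five 1 491 523) (mv 529 (both (five 3 494 530) (mv 558 (both (five 2 525 557) (mv 463 (both (five 6 430 431) (five 5 462 590))))))))))))))) (mv 493 (both (five 3 492 492) (mv 494 (both (five 3 493 529) (mv 557 (both (five 2 524 556) (mv 462 (both (five 6 429 430) (five 5 461 589))))))))))))))))))))) (both (mv 526 (both (mv 529 (both (mv 494 (both (five 3 493 493) (mv 530 (both (five 3 494 495) (mv 562 (both (five 0 526 561) (five 0 527 563))))))) (both (mv 494 (both (five 3 493 493) (mv 498 (both (five 1 494 497) (mv 530 (both (five 3 494 495) (five 1 495 499))))))) (mv 497 (both (five 1 494 498) (mv 465 (both (mv 433 (both (five 6 432 560) (mv 400 (both (five 7 400 432) (mv 401 (both (five 7 368 368) (five 6 400 496))))))) (both (mv 561 (both (five 0 526 562) (mv 432 (both (five 7 432 464) (mv 433 (both (five 7 400 400) (mv 434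 (both (five 5 401 402) (five 5 433 466))))))))) (both (mv 561 (both (five 0 526 562) (mv 432 (both (five 7 432 464) (mv 434 (both (five 5 433 466) (mv 592 (both (five 6 464 560) (mv 593 (both (five 6 496 624) (mv 625 (both (five 7 496 496) (mv 626 (both (five 4 497 594) (five 4 529 658))))))))))))))) (mv 433 (both (five 6 432 560) (mv 401 (both (five 6 400 496) (mv 402 (both (five 5 369 370) (five 5 401 434)))))))))))))))) (both (mv 525 (both (mv 556 (both (five 2 524 557) (mv 524 (both (five 2 523 555) (mv 560 (both (five 0 524 559) (five 0 525 561))))))) (both (mv 492 (both (five 3 492 493) (mv 524 (both (five 3 491 491) (mv 556 (both (five 2 523 555) (five 2 524 557))))))) (both (mv 492 (both (five 3 492 493) (mv 524 (both (five 3 491 491) (mv 560 (both (five 0 524 559) (five 0 525 561))))))) (mv 496 (both (five 1 493 497) (mv 464 (both (mv 432 (both (five 6 431 559) (mv 399 (both (five 7 399 431) (mv 400 (both (five 7 367 367) (five 6 399 495))))))) (both (mv 492 (both (five 3 492 493) (mv 556 (both (five 2 524 557) (mv 560 (both (five 0 525 561) (mv 431 (both (five 7 431 463) (mv 432 (both (five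 7 399 399) (mv 433 (both (five 5 400 401) (five 5 432 465))))))))))))) (both (mv 492 (both (five 3 492 493) (mv 556 (both (five 2 524 557) (mv 560 (both (five 0 525 561) (mv 431 (both (five 7 431 463) (mv 433 (both (five 5 432 465) (mv 591 (both (five 6 463 559) (mv 592 (both (five 6 495 623) (mv 624 (both (five 7 495 495) (mv 625 (both (five 4 496 593) (five 4 528 657))))))))))))))))))) (mv 432 (both (five 6 431 559) (mv 400 (both (five 6 399 495) (mv 401 (both (five 5 368 369) (five 5 400 433))))))))))))))))) (both (mv 525 (both (mv 493 (both (five 3 492 492) (mv 497 (both (five 1 493 496) (mv 529 (both (five 3 493 494) (five 1 494 498))))))) (both (mv 492 (both (five 3 492 493) (mv 524 (both (five 3 491 491) (mv 556 (both (five 2 523 555) (five 2 524 557))))))) (mv 496 (both (five 1 493 497) (mv 524 (both (five 1 492 495) (mv 556 (both (five 2 523 555) (five 2 524 557)))))))))) (both (mv 525 (both (mv 556 (both (five 2 524 557) (mv 524 (both (five 2 523 555) (mv 560 (both (five 0 524 559) (five 0 525 561))))))) (both (mv 492 (both (five 3 492 493) (mv 524 (both (five 3 491 491) (mv 560 (both (five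 0 524 559) (five 0 525 561))))))) (mv 493 (both (five 3 492 492) (mv 494 (both (five 3 493 529) (mv 557 (both (five 2 524 556) (mv 462 (both (five 6 429 430) (five 5 461 589)))))))))))) (mv 525 (both (mv 497 (both (five 1 493 496) (mv 529 (both (five 1 494 498) (mv 561 (both (five 0 525 560) (five 0 526 562))))))) (both (mv 556 (both (five 2 524 557) (mv 524 (both (five 2 523 555) (mv 560 (both (five 0 524 559) (five 0 525 561))))))) (mv 496 (both (five 1 493 497) (mv 524 (both (five 1 492 495) (mv 556 (both (five 2 523 555) (five 2 524 557))))))))))))))) (both (mv 526 (both (mv 525 (both (mv 497 (both (five 1 493 496) (mv 529 (both (five 1 494 498) (mv 557 (both (five 2 524 556) (five 2 525 558))))))) (both (mv 493 (both (five 3 492 492) (mv 497 (both (five 1 493 496) (mv 529 (both (five 3 493 494) (five 1 494 498))))))) (mv 492 (both (five 3 492 493) (mv 524 (both (five 3 491 491) (mv 556 (both (five 2 523 555) (five 2 524 557)))))))))) (both (mv 529 (both (mv 498 (both (five 1 494 497) (mv 530 (both (five 1 495 499) (mv 558 (both (five 2 525 557) (five 2 526 559))))))) (both (mv 494 (both (five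 3 493 493) (mv 498 (both (five 1 494 497) (mv 530 (both (five 3 494 495) (five 1 495 499))))))) (both (mv 494 (both (five 3 493 493) (mv 495 (both (five 3 494 530) (mv 558 (both (five 2 525 557) (mv 463 (both (five 6 430 431) (five 5 462 590))))))))) (mv 494 (both (five 3 493 493) (mv 462 (both (mv 430 (both (five 4 430 559) (mv 397 (both (five 7 397 429) (mv 398 (both (five 7 365 365) (mv 399 (both (five 5 366 367) (five 5 398 431))))))))) (both (mv 558 (both (five 2 525 557) (mv 429 (both (five 7 429 461) (mv 430 (both (five 7 397 397) (mv 431 (both (five 5 398 399) (five 5 430 463))))))))) (mv 497 (both (five 1 494 498) (mv 558 (both (five 2 525 557) (mv 591 (both (five 4 462 559) (mv 590 (both (five 4 494 623) (mv 621 (both (five 6 493 589) (mv 622 (both (five 5 494 495) (five 6 525 653)))))))))))))))))))))) (both (mv 525 (both (mv 492 (both (five 3 492 493) (mv 524 (both (five 3 491 491) (mv 556 (both (five 2 523 555) (five 2 524 557))))))) (both (mv 496 (both (five 1 493 497) (mv 524 (both (five 1 492 495) (mv 556 (both (five 2 523 555) (five 2 524 557))))))) (both (mv 492 (both (five 3 492 493)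 (mv 496 (both (five 1 493 497) (mv 524 (both (five 3 491 491) (five 1 492 495))))))) (mv 493 (both (five 3 492 492) (mv 461 (both (mv 429 (both (five 4 429 558) (mv 396 (both (five 7 396 428) (mv 397 (both (five 7 364 364) (five 4 397 494))))))) (both (mv 496 (both (five 1 493 497) (mv 557 (both (five 2 524 556) (mv 462 (both (five 5 429 430) (mv 589 (both (five 5 461 494) (mv 620 (both (five 6 492 588) (mv 621 (both (five 6 524 652) (mv 622 (both (five 4 493 590) (five 4 525 654))))))))))))))) (mv 429 (both (five 4 429 558) (mv 396 (both (five 7 396 428) (mv 364 (both (five 7 364 397) (mv 430 (both (five 5 397 398) (mv 557 (both (five 5 429 462) (five 2 524 556)))))))))))))))))))) (both (mv 525 (both (mv 493 (both (five 3 492 492) (mv 497 (both (five 1 493 496) (mv 529 (both (five 3 493 494) (five 1 494 498))))))) (both (mv 492 (both (five 3 492 493) (mv 524 (both (five 3 491 491) (mv 556 (both (five 2 523 555) (five 2 524 557))))))) (mv 496 (both (five 1 493 497) (mv 524 (both (five 1 492 495) (mv 556 (both (five 2 523 555) (five 2 524 557)))))))))) (both (mv 525 (both (mv 497 (both (five 1 493 496)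 (mv 529 (both (five 1 494 498) (mv 557 (both (five 2 524 556) (five 2 525 558))))))) (both (mv 556 (both (five 2 524 557) (mv 524 (both (five 2 523 555) (mv 491 (both (five 3 491 492) (mv 523 (both (five 3 490 490) (mv 559 (both (five 0 523 558) (five 0 524 560))))))))))) (both (mv 496 (both (five 1 493 497) (mv 524 (both (five 1 492 495) (mv 491 (both (five 3 491 492) (mv 523 (both (five 3 490 490) (mv 559 (both (five 0 523 558) (five 0 524 560))))))))))) (mv 496 (both (five 1 493 497) (mv 524 (both (five 1 492 495) (mv 556 (both (five 2 523 555) (five 2 524 557))))))))))) (both (mv 525 (both (mv 492 (both (five 3 492 493) (mv 524 (both (five 3 491 491) (mv 556 (both (five 2 523 555) (five 2 524 557))))))) (both (mv 556 (both (five 2 524 557) (mv 524 (both (five 2 523 555) (mv 491 (both (five 3 491 492) (mv 495 (both (five 1 492 496) (mv 523 (both (five 3 490 490) (five 1 491 494))))))))))) (both (mv 492 (both (five 3 492 493) (mv 524 (both (five 3 491 491) (mv 495 (both (five 1 492 496) (mv 523 (both (five 1 491 494) (mv 555 (both (five 2 522 554) (five 2 523 556))))))))))) (both (mv 556 (both (five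 2 524 557) (mv 524 (both (five 2 523 555) (mv 495 (both (five 1 492 496) (mv 494 (both (five 1 491 523) (mv 529 (both (five 3 493 493) (five 3 494 530))))))))))) (both (mv 492 (both (five 3 492 493) (mv 524 (both (five 3 491 491) (mv 495 (both (five 1 492 496) (mv 494 (both (five 1 491 523) (mv 529 (both (five 3 494 530) (mv 558 (both (five 2 525 557) (mv 463 (both (five 6 430 431) (five 5 462 590))))))))))))))) (mv 493 (both (five 3 492 492) (mv 494 (both (five 3 493 529) (mv 557 (both (five 2 524 556) (mv 462 (both (five 6 429 430) (five 5 461 589))))))))))))))) (mv 525 (both (mv 493 (both (five 3 492 492) (mv 497 (both (five 1 493 496) (mv 529 (both (five 3 493 494) (five 1 494 498))))))) (both (mv 492 (both (five 3 492 493) (mv 524 (both (five 3 491 491) (mv 555 (both (five 2 523 556) (mv 523 (both (five 2 522 554) (mv 559 (both (five 0 523 558) (five 0 524 560))))))))))) (mv 496 (both (five 1 493 497) (mv 524 (both (five 1 492 495) (mv 555 (both (five 2 523 556) (mv 523 (both (five 2 522 554) (mv 559 (both (five 0 523 558) (five 0 524 560))))))))))))))))))))) (both (mv 526 (both (mv 529 (both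 (mv 558 (both (five 2 525 557) (mv 530 (both (five 2 526 559) (mv 562 (both (five 0 526 561) (five 0 527 563))))))) (both (mv 498 (both (five 1 494 497) (mv 530 (both (five 1 495 499) (mv 558 (both (five 2 525 557) (five 2 526 559))))))) (mv 497 (both (five 1 494 498) (mv 465 (both (mv 433 (both (five 6 432 560) (mv 400 (both (five 7 400 432) (mv 401 (both (five 7 368 368) (five 6 400 496))))))) (both (mv 561 (both (five 0 526 562) (mv 432 (both (five 7 432 464) (mv 433 (both (five 7 400 400) (mv 434 (both (five 5 401 402) (five 5 433 466))))))))) (both (mv 561 (both (five 0 526 562) (mv 432 (both (five 7 432 464) (mv 434 (both (five 5 433 466) (mv 592 (both (five 6 464 560) (mv 593 (both (five 6 496 624) (mv 625 (both (five 7 496 496) (mv 626 (both (five 4 497 594) (five 4 529 658))))))))))))))) (mv 433 (both (five 6 432 560) (mv 401 (both (five 6 400 496) (mv 402 (both (five 5 369 370) (five 5 401 434)))))))))))))))) (both (mv 525 (both (mv 556 (both (five 2 524 557) (mv 524 (both (five 2 523 555) (mv 560 (both (five 0 524 559) (five 0 525 561))))))) (both (mv 496 (both (five 1 493 497) (mv 524 (both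 (five 1 492 495) (mv 556 (both (five 2 523 555) (five 2 524 557))))))) (mv 496 (both (five 1 493 497) (mv 464 (both (mv 432 (both (five 6 431 559) (mv 399 (both (five 7 399 431) (mv 400 (both (five 7 367 367) (five 6 399 495))))))) (both (mv 560 (both (five 0 525 561) (mv 431 (both (five 7 431 463) (mv 432 (both (five 7 399 399) (mv 433 (both (five 5 400 401) (five 5 432 465))))))))) (both (mv 560 (both (five 0 525 561) (mv 431 (both (five 7 431 463) (mv 433 (both (five 5 432 465) (mv 591 (both (five 6 463 559) (mv 592 (both (five 6 495 623) (mv 624 (both (five 7 495 495) (mv 625 (both (five 4 496 593) (five 4 528 657))))))))))))))) (mv 432 (both (five 6 431 559) (mv 400 (both (five 6 399 495) (mv 401 (both (five 5 368 369) (five 5 400 433)))))))))))))))) (both (mv 529 (both (mv 558 (both (five 2 525 557) (mv 530 (both (five 2 526 559) (mv 562 (both (five 0 526 561) (five 0 527 563))))))) (both (mv 498 (both (five 1 494 497) (mv 530 (both (five 1 495 499) (mv 562 (both (five 0 526 561) (five 0 527 563))))))) (both (mv 498 (both (five 1 494 497) (mv 530 (both (five 1 495 499) (mv 558 (both (five 2 525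 557) (five 2 526 559))))))) (mv 497 (both (five 1 494 498) (mv 496 (both (five 1 493 525) (mv 557 (both (five 2 525 558) (mv 561 (both (five 0 526 562) (mv 464 (both (five 4 432 432) (five 7 464 593))))))))))))))) (both (mv 529 (both (mv 558 (both (five 2 525 557) (mv 530 (both (five 2 526 559) (mv 562 (both (five 0 526 561) (five 0 527 563))))))) (both (mv 498 (both (five 1 494 497) (mv 530 (both (five 1 495 499) (mv 562 (both (five 0 526 561) (five 0 527 563))))))) (both (mv 498 (both (five 1 494 497) (mv 530 (both (five 1 495 499) (mv 558 (both (five 2 525 557) (five 2 526 559))))))) (mv 497 (both (five 1 494 498) (mv 557 (both (five 2 525 558) (mv 525 (both (five 2 524 556) (mv 561 (both (five 0 525 560) (five 0 526 562))))))))))))) (both (mv 525 (both (mv 557 (both (five 2 524 556) (mv 529 (both (five 2 525 558) (mv 561 (both (five 0 525 560) (five 0 526 562))))))) (both (mv 497 (both (five 1 493 496) (mv 529 (both (five 1 494 498) (mv 557 (both (five 2 524 556) (five 2 525 558))))))) (mv 496 (both (five 1 493 497) (mv 495 (both (five 1 492 524) (mv 560 (both (mv 463 (both (five 4 431 431) (five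 7 463 592))) (both (mv 592 (both (five 7 495 624) (mv 591 (both (five 6 495 623) (mv 593 (both (five 4 496 625) (mv 464 (both (five 4 464 561) (mv 432 (both (five 6 399 400) (mv 433 (both (five 5 400 401) (five 5 432 465))))))))))))) (mv 464 (both (mv 432 (both (five 6 399 400) (mv 433 (both (five 5 400 401) (five 5 432 465))))) (both (mv 463 (both (five 7 431 431) (mv 465 (both (five 5 432 433) (mv 466 (both (five 2 463 467) (five 2 462 494))))))) (mv 431 (both (five 7 431 463) (mv 432 (both (five 7 399 399) (five 6 399 400)))))))))))))))))) (both (mv 525 (both (mv 557 (both (five 2 524 556) (mv 529 (both (five 2 525 558) (mv 561 (both (five 0 525 560) (five 0 526 562))))))) (both (mv 556 (both (five 2 524 557) (mv 524 (both (five 2 523 555) (mv 491 (both (five 3 491 492) (mv 495 (both (five 1 492 496) (mv 523 (both (five 3 490 490) (five 1 491 494))))))))))) (mv 560 (both (five 0 525 561) (mv 524 (both (five 0 524 559) (mv 491 (both (five 3 491 492) (mv 495 (both (five 1 492 496) (mv 523 (both (five 3 490 490) (five 1 491 494)))))))))))))) (both (mv 525 (both (mv 497 (both (five 1 493 496) (mv 529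 (both (five 1 494 498) (mv 561 (both (five 0 525 560) (five 0 526 562))))))) (both (mv 560 (both (five 0 525 561) (mv 524 (both (five 0 524 559) (mv 491 (both (five 3 491 492) (mv 523 (both (five 3 490 490) (mv 555 (both (five 2 522 554) (five 2 523 556))))))))))) (mv 496 (both (five 1 493 497) (mv 524 (both (five 1 492 495) (mv 491 (both (five 3 491 492) (mv 523 (both (five 3 490 490) (mv 555 (both (five 2 522 554) (five 2 523 556)))))))))))))) (mv 525 (both (mv 497 (both (five 1 493 496) (mv 529 (both (five 1 494 498) (mv 557 (both (five 2 524 556) (five 2 525 558))))))) (both (mv 556 (both (five 2 524 557) (mv 524 (both (five 2 523 555) (mv 491 (both (five 3 491 492) (mv 523 (both (five 3 490 490) (mv 559 (both (five 0 523 558) (five 0 524 560))))))))))) (both (mv 496 (both (five 1 493 497) (mv 524 (both (five 1 492 495) (mv 491 (both (five 3 491 492) (mv 523 (both (five 3 490 490) (mv 559 (both (five 0 523 558) (five 0 524 560))))))))))) (mv 496 (both (five 1 493 497) (mv 524 (both (five 1 492 495) (mv 556 (both (five 2 523 555) (five 2 524 557))))))))))))))))))) (both (mv 526 (both (mv 525 (both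 (mv 497 (both (five 1 493 496) (mv 529 (both (five 1 494 498) (mv 561 (both (five 0 525 560) (five 0 526 562))))))) (both (mv 493 (both (five 3 492 492) (mv 497 (both (five 1 493 496) (mv 529 (both (five 3 493 494) (five 1 494 498))))))) (mv 492 (both (five 3 492 493) (mv 524 (both (five 3 491 491) (mv 560 (both (five 0 524 559) (five 0 525 561)))))))))) (both (mv 529 (both (mv 494 (both (five 3 493 493) (mv 530 (both (five 3 494 495) (mv 562 (both (five 0 526 561) (five 0 527 563))))))) (both (mv 494 (both (five 3 493 493) (mv 498 (both (five 1 494 497) (mv 530 (both (five 3 494 495) (five 1 495 499))))))) (mv 497 (both (five 1 494 498) (mv 465 (both (mv 433 (both (five 6 432 560) (mv 400 (both (five 7 400 432) (mv 401 (both (five 7 368 368) (five 6 400 496))))))) (both (mv 561 (both (five 0 526 562) (mv 432 (both (five 7 432 464) (mv 433 (both (five 7 400 400) (mv 434 (both (five 5 401 402) (five 5 433 466))))))))) (both (mv 561 (both (five 0 526 562) (mv 432 (both (five 7 432 464) (mv 434 (both (five 5 433 466) (mv 592 (both (five 6 464 560) (mv 593 (both (five 6 496 624) (mv 625 (both (five 7 496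 496) (mv 626 (both (five 4 497 594) (five 4 529 658))))))))))))))) (mv 433 (both (five 6 432 560) (mv 401 (both (five 6 400 496) (mv 402 (both (five 5 369 370) (five 5 401 434)))))))))))))))) (both (mv 525 (both (mv 492 (both (five 3 492 493) (mv 524 (both (five 3 491 491) (mv 560 (both (five 0 524 559) (five 0 525 561))))))) (both (mv 492 (both (five 3 492 493) (mv 496 (both (five 1 493 497) (mv 524 (both (five 3 491 491) (five 1 492 495))))))) (mv 496 (both (five 1 493 497) (mv 464 (both (mv 432 (both (five 6 431 559) (mv 399 (both (five 7 399 431) (mv 400 (both (five 7 367 367) (five 6 399 495))))))) (both (mv 560 (both (five 0 525 561) (mv 431 (both (five 7 431 463) (mv 432 (both (five 7 399 399) (mv 433 (both (five 5 400 401) (five 5 432 465))))))))) (both (mv 560 (both (five 0 525 561) (mv 431 (both (five 7 431 463) (mv 433 (both (five 5 432 465) (mv 591 (both (five 6 463 559) (mv 592 (both (five 6 495 623) (mv 624 (both (five 7 495 495) (mv 625 (both (five 4 496 593) (five 4 528 657))))))))))))))) (mv 432 (both (five 6 431 559) (mv 400 (both (five 6 399 495) (mv 401 (both (five 5 368 369) (five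 5 400 433)))))))))))))))) (both (mv 529 (both (mv 498 (both (five 1 494 497) (mv 530 (both (five 1 495 499) (mv 562 (both (five 0 526 561) (five 0 527 563))))))) (both (mv 494 (both (five 3 493 493) (mv 498 (both (five 1 494 497) (mv 530 (both (five 3 494 495) (five 1 495 499))))))) (mv 493 (both (five 3 493 494) (mv 525 (both (five 3 492 492) (mv 561 (both (five 0 525 560) (five 0 526 562)))))))))) (both (mv 529 (both (mv 498 (both (five 1 494 497) (mv 530 (both (five 1 495 499) (mv 562 (both (five 0 526 561) (five 0 527 563))))))) (both (mv 494 (both (five 3 493 493) (mv 530 (both (five 3 494 495) (mv 562 (both (five 0 526 561) (five 0 527 563))))))) (mv 493 (both (five 3 493 494) (mv 497 (both (five 1 494 498) (mv 525 (both (five 3 492 492) (five 1 493 496)))))))))) (both (mv 525 (both (mv 497 (both (five 1 493 496) (mv 529 (both (five 1 494 498) (mv 561 (both (five 0 525 560) (five 0 526 562))))))) (both (mv 560 (both (five 0 525 561) (mv 524 (both (five 0 524 559) (mv 491 (both (five 3 491 492) (mv 523 (both (five 3 490 490) (mv 555 (both (five 2 522 554) (five 2 523 556))))))))))) (mv 496 (both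 (five 1 493 497) (mv 524 (both (five 1 492 495) (mv 491 (both (five 3 491 492) (mv 523 (both (five 3 490 490) (mv 555 (both (five 2 522 554) (five 2 523 556)))))))))))))) (both (mv 525 (both (mv 492 (both (five 3 492 493) (mv 524 (both (five 3 491 491) (mv 560 (both (five 0 524 559) (five 0 525 561))))))) (both (mv 492 (both (five 3 492 493) (mv 524 (both (five 3 491 491) (mv 495 (both (five 1 492 496) (mv 523 (both (five 1 491 494) (mv 555 (both (five 2 522 554) (five 2 523 556))))))))))) (both (mv 560 (both (five 0 525 561) (mv 524 (both (five 0 524 559) (mv 495 (both (five 1 492 496) (mv 523 (both (five 1 491 494) (mv 555 (both (five 2 522 554) (five 2 523 556))))))))))) (mv 493 (both (five 3 492 492) (mv 529 (both (five 3 493 494) (mv 561 (both (five 0 525 560) (five 0 526 562))))))))))) (mv 525 (both (mv 493 (both (five 3 492 492) (mv 497 (both (five 1 493 496) (mv 529 (both (five 3 493 494) (five 1 494 498))))))) (both (mv 492 (both (five 3 492 493) (mv 524 (both (five 3 491 491) (mv 555 (both (five 2 523 556) (mv 523 (both (five 2 522 554) (mv 559 (both (five 0 523 558) (five 0 524 560)))))))))))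 (mv 496 (both (five 1 493 497) (mv 524 (both (five 1 492 495) (mv 555 (both (five 2 523 556) (mv 523 (both (five 2 522 554) (mv 559 (both (five 0 523 558) (five 0 524 560)))))))))))))))))))))) (both (mv 526 (both (mv 525 (both (mv 497 (both (five 1 493 496) (mv 529 (both (five 1 494 498) (mv 561 (both (five 0 525 560) (five 0 526 562))))))) (both (mv 493 (both (five 3 492 492) (mv 497 (both (five 1 493 496) (mv 529 (both (five 3 493 494) (five 1 494 498))))))) (mv 492 (both (five 3 492 493) (mv 524 (both (five 3 491 491) (mv 560 (both (five 0 524 559) (five 0 525 561)))))))))) (both (mv 529 (both (mv 558 (both (five 2 525 557) (mv 530 (both (five 2 526 559) (mv 562 (both (five 0 526 561) (five 0 527 563))))))) (both (mv 498 (both (five 1 494 497) (mv 530 (both (five 1 495 499) (mv 558 (both (five 2 525 557) (five 2 526 559))))))) (mv 497 (both (five 1 494 498) (mv 465 (both (mv 433 (both (five 6 432 560) (mv 400 (both (five 7 400 432) (mv 401 (both (five 7 368 368) (five 6 400 496))))))) (both (mv 561 (both (five 0 526 562) (mv 432 (both (five 7 432 464) (mv 433 (both (five 7 400 400) (mv 434 (both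 (five 5 401 402) (five 5 433 466))))))))) (both (mv 561 (both (five 0 526 562) (mv 432 (both (five 7 432 464) (mv 434 (both (five 5 433 466) (mv 592 (both (five 6 464 560) (mv 593 (both (five 6 496 624) (mv 625 (both (five 7 496 496) (mv 626 (both (five 4 497 594) (five 4 529 658))))))))))))))) (mv 433 (both (five 6 432 560) (mv 401 (both (five 6 400 496) (mv 402 (both (five 5 369 370) (five 5 401 434)))))))))))))))) (both (mv 525 (both (mv 492 (both (five 3 492 493) (mv 524 (both (five 3 491 491) (mv 556 (both (five 2 523 555) (five 2 524 557))))))) (both (mv 496 (both (five 1 493 497) (mv 524 (both (five 1 492 495) (mv 556 (both (five 2 523 555) (five 2 524 557))))))) (both (mv 492 (both (five 3 492 493) (mv 496 (both (five 1 493 497) (mv 524 (both (five 3 491 491) (five 1 492 495))))))) (mv 493 (both (five 3 492 492) (mv 461 (both (mv 429 (both (five 4 429 558) (mv 396 (both (five 7 396 428) (mv 397 (both (five 7 364 364) (five 4 397 494))))))) (both (mv 496 (both (five 1 493 497) (mv 557 (both (five 2 524 556) (mv 462 (both (five 5 429 430) (mv 589 (both (five 5 461 494) (mv 620 (both (five 6 492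 588) (mv 621 (both (five 6 524 652) (mv 622 (both (five 4 493 590) (five 4 525 654))))))))))))))) (mv 429 (both (five 4 429 558) (mv 396 (both (five 7 396 428) (mv 364 (both (five 7 364 397) (mv 430 (both (five 5 397 398) (mv 557 (both (five 5 429 462) (five 2 524 556)))))))))))))))))))) (mv 525 (both (mv 557 (both (five 2 524 556) (mv 529 (both (five 2 525 558) (mv 561 (both (five 0 525 560) (five 0 526 562))))))) (both (mv 492 (both (five 3 492 493) (mv 524 (both (five 3 491 491) (mv 560 (both (five 0 524 559) (five 0 525 561))))))) (mv 492 (both (five 3 492 493) (mv 524 (both (five 3 491 491) (mv 556 (both (five 2 523 555) (five 2 524 557)))))))))))))) (mv 529 (both (mv 498 (both (mv 497 (both (five 1 494 526) (mv 499 (both (five 2 495 496) (five 2 496 500))))) (both (mv 530 (both (five 1 495 499) (mv 494 (both (five 3 494 495) (mv 526 (both (five 3 493 493) (mv 562 (both (five 0 526 561) (five 0 527 563))))))))) (both (mv 499 (both (five 1 495 530) (mv 497 (both (five 2 495 496) (five 2 496 500))))) (mv 526 (both (five 1 494 497) (mv 494 (both (five 3 493 493) (mv 530 (both (five 3 494 495) (mv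 562 (both (five 0 526 561) (five 0 527 563))))))))))))) (both (mv 530 (both (mv 498 (both (five 1 495 499) (mv 466 (both (mv 434 (both (five 6 433 561) (mv 401 (both (five 7 401 433) (mv 402 (both (five 7 369 369) (five 6 401 497))))))) (both (mv 562 (both (five 0 527 563) (mv 433 (both (five 7 433 465) (mv 434 (both (five 7 401 401) (mv 435 (both (five 5 402 403) (five 5 434 467))))))))) (both (mv 562 (both (five 0 527 563) (mv 433 (both (five 7 433 465) (mv 435 (both (five 5 434 467) (mv 593 (both (five 6 465 561) (mv 594 (both (five 6 497 625) (mv 626 (both (five 7 497 497) (mv 627 (both (five 4 498 595) (five 4 530 659))))))))))))))) (mv 434 (both (five 6 433 561) (mv 402 (both (five 6 401 497) (mv 403 (both (five 5 370 371) (five 5 402 435))))))))))))) (mv 495 (both (five 3 494 494) (mv 463 (both (mv 560 (both (five 4 431 431) (mv 592 (both (five 4 463 559) (five 7 495 624))))) (both (mv 431 (both (five 4 431 560) (mv 398 (both (five 7 398 430) (mv 399 (both (five 7 366 366) (five 4 399 496))))))) (both (mv 559 (both (mv 430 (both (five 7 430 462) (mv 431 (both (five 7 398 398) (mv 432 (both (five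 5 399 400) (five 5 431 464))))))) (mv 590 (both (five 6 462 558) (mv 591 (both (five 6 494 622) (mv 623 (both (five 5 495 496) (mv 624 (both (five 4 495 592) (five 4 527 656))))))))))) (mv 559 (both (five 2 526 558) (mv 592 (both (five 4 463 560) (mv 591 (both (five 4 495 624) (mv 622 (both (five 6 494 590) (mv 623 (both (five 5 495 496) (five 6 526 654))))))))))))))))))) (both (mv 526 (both (mv 497 (both (five 1 494 498) (mv 465 (both (mv 433 (both (five 6 432 560) (mv 400 (both (five 7 400 432) (mv 401 (both (five 7 368 368) (five 6 400 496))))))) (both (mv 561 (both (five 0 526 562) (mv 432 (both (five 7 432 464) (mv 433 (both (five 7 400 400) (mv 434 (both (five 5 401 402) (five 5 433 466))))))))) (both (mv 561 (both (five 0 526 562) (mv 432 (both (five 7 432 464) (mv 434 (both (five 5 433 466) (mv 592 (both (five 6 464 560) (mv 593 (both (five 6 496 624) (mv 625 (both (five 7 496 496) (mv 626 (both (five 4 497 594) (five 4 529 658))))))))))))))) (mv 433 (both (five 6 432 560) (mv 401 (both (five 6 400 496) (mv 402 (both (five 5 369 370) (five 5 401 434))))))))))))) (both (mv 494 (both (five 3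 493 493) (mv 462 (both (mv 430 (both (five 4 430 559) (mv 429 (both (five 7 397 397) (mv 558 (both (five 7 429 461) (five 2 525 557))))))) (both (mv 430 (both (five 4 430 559) (mv 397 (both (five 7 397 429) (mv 398 (both (five 7 365 365) (mv 399 (both (five 5 366 367) (five 5 398 431))))))))) (both (mv 558 (both (five 2 525 557) (mv 429 (both (five 7 429 461) (mv 430 (both (five 7 397 397) (mv 431 (both (five 5 398 399) (five 5 430 463))))))))) (both (mv 558 (both (five 2 525 557) (mv 429 (both (five 7 429 461) (mv 431 (both (five 5 430 463) (mv 561 (both (five 0 526 562) (mv 591 (both (five 4 462 559) (mv 590 (both (five 4 494 623) (mv 621 (both (five 6 493 589) (mv 622 (both (five 5 494 495) (five 6 525 653))))))))))))))))) (mv 430 (both (five 4 430 559) (mv 431 (both (five 5 398 399) (mv 558 (both (five 5 430 463) (five 2 525 557)))))))))))))) (mv 494 (both (five 3 493 493) (mv 462 (both (mv 430 (both (five 4 430 559) (mv 397 (both (five 7 397 429) (mv 398 (both (five 7 365 365) (mv 399 (both (five 5 366 367) (five 5 398 431))))))))) (both (mv 558 (both (five 2 525 557) (mv 429 (both (five 7 429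 461) (mv 430 (both (five 7 397 397) (mv 431 (both (five 5 398 399) (five 5 430 463))))))))) (mv 497 (both (five 1 494 498) (mv 558 (both (five 2 525 557) (mv 591 (both (five 4 462 559) (mv 590 (both (five 4 494 623) (mv 621 (both (five 6 493 589) (mv 622 (both (five 5 494 495) (five 6 525 653))))))))))))))))))))) (both (mv 526 (both (mv 498 (both (five 1 494 497) (mv 530 (both (five 1 495 499) (mv 558 (both (five 2 525 557) (five 2 526 559))))))) (both (mv 494 (both (five 3 493 493) (mv 498 (both (five 1 494 497) (mv 530 (both (five 3 494 495) (five 1 495 499))))))) (both (mv 494 (both (five 3 493 493) (mv 495 (both (five 3 494 530) (mv 558 (both (five 2 525 557) (mv 463 (both (five 6 430 431) (five 5 462 590))))))))) (mv 494 (both (five 3 493 493) (mv 462 (both (mv 430 (both (five 4 430 559) (mv 397 (both (five 7 397 429) (mv 398 (both (five 7 365 365) (mv 399 (both (five 5 366 367) (five 5 398 431))))))))) (both (mv 558 (both (five 2 525 557) (mv 429 (both (five 7 429 461) (mv 430 (both (five 7 397 397) (mv 431 (both (five 5 398 399) (five 5 430 463))))))))) (mv 497 (both (five 1 494 498) (mv 558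 (both (five 2 525 557) (mv 591 (both (five 4 462 559) (mv 590 (both (five 4 494 623) (mv 621 (both (five 6 493 589) (mv 622 (both (five 5 494 495) (five 6 525 653)))))))))))))))))))))) (both (mv 562 (both (mv 526 (both (five 0 526 561) (mv 498 (both (five 1 494 497) (mv 530 (both (five 1 495 499) (mv 558 (both (five 2 525 557) (five 2 526 559))))))))) (both (mv 530 (both (five 0 527 563) (mv 498 (both (five 1 495 499) (mv 497 (both (five 1 494 526) (mv 465 (both (five 4 433 433) (five 7 465 594))))))))) (both (mv 563 (both (five 0 527 530) (mv 561 (both (five 3 527 560) (five 3 528 564))))) (mv 561 (both (five 0 526 526) (mv 563 (both (five 3 527 560) (five 3 528 564))))))))) (mv 526 (both (mv 494 (both (five 3 493 493) (mv 530 (both (five 3 494 495) (mv 562 (both (five 0 526 561) (five 0 527 563))))))) (both (mv 494 (both (five 3 493 493) (mv 495 (both (five 3 494 530) (mv 558 (both (five 2 525 557) (mv 463 (both (five 6 430 431) (five 5 462 590))))))))) (mv 557 (both (five 2 525 558) (mv 525 (both (five 2 524 556) (mv 561 (both (five 0 525 560) (five 0 526 562))))))))))))))))))))))))))))))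

theorem L115 : W (S 878694100496718043517683302282418331810487718418343092402491322775749527474899974671687634004666183037093927858109549828751614463963730408009475621262727315456) (S 1284212871354336353194813779324207787539654444580989164907605738911985156013631897057059840588071586888908245128649549800635230633602339277620495616873688628063464314610061549013427676932834692745234424528896) :=
  check_sound (Env.cons L114 Env.nil) (x := 527) (t := tL115) (by decide +kernel)

def tL116 : T :=
  (both (mv 527 (both (mv 559 (both (mv 464 (both (five 6 431 432) (five 5 463 591))) (both (mv 591 (both (five 5 495 623) (mv 590 (both (five 6 494 622) (mv 463 (both (five 6 462 558) (mv 430 (both (five 7 430 462) (mv 431 (both (five 7 398 398) (five 4 399 399))))))))))) (mv 463 (both (mv 430 (both (five 7 430 462) (mv 431 (both (five 7 398 398) (five 4 399 399))))) (both (mv 431 (both (five 4 399 399) (mv 432 (both (five 5 399 400) (five 5 431 464))))) (mv 462 (both (five 7 430 430) (mv 461 (both (five 0 460 460) (mv 464 (both (five 6 431 432) (five 0 461 497))))))))))))) (both (mv 529 (both (mv 530 (both (five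 3 495 531) (mv 498 (both (five 1 495 499) (mv 497 (both (five 2 494 526) (mv 466 (both (five 1 463 467) (mv 434 (both (five 6 401 402) (five 6 433 561))))))))))) (both (mv 561 (both (mv 530 (both (five 3 495 531) (mv 498 (both (five 1 495 499) (mv 466 (both (five 6 433 434) (mv 497 (both (five 1 463 467) (five 5 465 593))))))))) (both (mv 432 (both (five 4 432 464) (mv 530 (both (five 3 495 531) (mv 498 (both (five 1 495 499) (mv 466 (both (five 6 433 434) (mv 497 (both (five 1 463 467) (mv 463 (both (five 3 462 462) (mv 431 (both (five 4 399 399) (five 5 399 400))))))))))))))) (both (mv 464 (both (five 4 432 432) (mv 593 (both (five 7 464 497) (five 7 496 625))))) (mv 432 (both (five 4 432 464) (mv 530 (both (five 3 495 531) (mv 498 (both (five 1 495 499) (mv 466 (both (five 6 433 434) (mv 593 (both (five 6 465 562) (five 7 496 625))))))))))))))) (both (mv 530 (both (five 3 495 531) (mv 464 (both (mv 432 (both (five 6 399 400) (five 4 432 561))) (both (mv 498 (both (five 1 495 499) (mv 466 (both (mv 465 (both (five 2 463 467) (mv 433 (both (five 7 433 562) (mv 401 (both (five 4 369 369) (five 7 401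 434))))))) (both (mv 465 (both (five 2 463 467) (mv 562 (both (five 7 433 433) (mv 561 (both (five 0 526 526) (five 6 465 593))))))) (both (mv 434 (both (five 6 433 561) (mv 401 (both (five 7 401 433) (mv 402 (both (five 7 369 369) (mv 403 (both (five 5 370 371) (five 5 402 435))))))))) (mv 434 (both (five 6 433 561) (mv 435 (both (five 5 402 403) (mv 465 (both (five 1 431 463) (five 2 463 467))))))))))))) (mv 463 (both (mv 432 (both (five 6 399 400) (mv 433 (both (five 5 400 401) (mv 434 (both (five 2 431 435) (mv 462 (both (five 1 429 461) (five 1 430 465))))))))) (both (mv 431 (both (five 4 399 399) (mv 430 (both (five 7 398 398) (mv 428 (both (five 0 428 429) (mv 465 (both (five 3 430 466) (mv 498 (both (five 1 495 499) (mv 526 (both (five 6 430 558) (mv 525 (both (five 1 492 524) (mv 493 (both (five 3 492 492) (mv 557 (both (five 2 524 556) (mv 461 (both (five 7 428 460) (five 5 429 462))))))))))))))))))))) (both (mv 400 (both (five 6 399 432) (mv 431 (both (five 4 399 399) (mv 430 (both (five 7 398 398) (mv 428 (both (five 0 428 429) (mv 526 (both (five 6 430 558) (mv 525 (both (five 1 492 524)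 (mv 493 (both (five 3 492 492) (mv 557 (both (five 2 524 556) (mv 461 (both (five 7 428 460) (five 5 429 462))))))))))))))))))) (mv 431 (both (five 4 399 399) (mv 430 (both (five 7 398 398) (mv 428 (both (five 0 428 429) (mv 432 (both (five 5 399 400) (mv 433 (both (five 5 400 401) (mv 434 (both (five 2 431 435) (mv 466 (both (five 3 430 465) (five 0 431 467)))))))))))))))))))))))) (both (mv 526 (both (mv 525 (both (five 1 492 524) (mv 557 (both (five 2 524 556) (five 2 525 558))))) (mv 561 (both (five 0 526 562) (mv 464 (both (five 4 432 432) (mv 593 (both (five 7 464 497) (five 7 496 625))))))))) (mv 530 (both (five 3 495 531) (mv 498 (both (five 1 495 499) (mv 497 (both (five 2 494 526) (mv 462 (both (five 3 462 463) (mv 466 (both (five 1 463 467) (mv 434 (both (five 6 401 402) (mv 433 (both (five 7 401 401) (mv 435 (both (five 5 402 403) (mv 465 (both (five 7 433 562) (mv 436 (both (five 2 433 437) (five 2 432 464)))))))))))))))))))))))))) (both (mv 526 (both (mv 497 (both (five 2 494 498) (five 1 493 525))) (both (mv 525 (both (five 1 492 524) (mv 492 (both (five 3 492 493) (mv 557 (both (five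 2 524 556) (mv 558 (both (five 2 525 529) (mv 463 (both (five 6 430 431) (mv 590 (both (five 6 462 559) (five 5 494 622))))))))))))) (mv 529 (both (mv 558 (both (five 2 525 557) (mv 463 (both (five 6 430 431) (mv 590 (both (five 6 462 559) (five 5 494 622))))))) (mv 498 (both (five 2 494 497) (mv 530 (both (five 1 495 499) (five 3 495 531)))))))))) (both (mv 559 (both (mv 464 (both (five 6 431 432) (five 5 463 591))) (both (mv 591 (both (five 5 495 623) (mv 590 (both (five 6 494 622) (mv 463 (both (five 6 462 558) (mv 430 (both (five 7 430 462) (mv 431 (both (five 7 398 398) (five 4 399 399))))))))))) (mv 463 (both (mv 430 (both (five 7 430 462) (mv 431 (both (five 7 398 398) (five 4 399 399))))) (both (mv 430 (both (five 7 430 462) (mv 432 (both (five 5 431 464) (mv 558 (both (five 6 462 590) (mv 529 (both (five 2 526 530) (mv 557 (both (five 2 525 526) (five 1 524 556))))))))))) (mv 431 (both (five 4 399 399) (mv 432 (both (five 5 399 400) (five 5 431 464))))))))))) (both (mv 526 (both (mv 497 (both (five 2 494 498) (five 1 493 525))) (both (mv 525 (both (five 1 492 524) (mv 493 (both (five 3 492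 492) (mv 557 (both (five 2 524 556) (mv 558 (both (five 2 525 529) (mv 461 (both (five 4 429 429) (five 4 461 590))))))))))) (mv 529 (both (mv 530 (both (five 3 495 531) (mv 558 (both (five 2 525 557) (five 2 526 559))))) (mv 497 (both (five 2 494 498) (mv 561 (both (five 0 526 562) (mv 464 (both (five 4 432 432) (five 7 464 593)))))))))))) (mv 463 (both (mv 464 (both (mv 432 (both (five 6 399 400) (mv 433 (both (five 5 400 401) (mv 434 (both (five 2 431 435) (mv 462 (both (five 1 429 461) (five 1 430 465))))))))) (both (mv 559 (both (five 5 463 591) (mv 462 (both (five 7 430 430) (mv 461 (both (five 0 460 460) (five 0 461 497))))))) (mv 432 (both (five 6 399 400) (five 5 431 559)))))) (both (mv 431 (both (five 4 399 399) (mv 430 (both (five 7 398 398) (mv 432 (both (five 5 399 400) (mv 462 (both (five 7 430 559) (mv 433 (both (five 2 430 434) (five 2 429 461))))))))))) (both (mv 464 (both (mv 432 (both (five 6 399 400) (mv 433 (both (five 5 400 401) (mv 434 (both (five 2 431 435) (mv 462 (both (five 1 429 461) (five 1 430 465))))))))) (both (mv 431 (both (five 4 399 399) (mv 430 (both (five 7 398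 398) (mv 429 (both (five 0 428 428) (mv 465 (both (five 3 429 462) (five 3 430 466))))))))) (both (mv 431 (both (five 4 399 399) (mv 430 (both (five 7 398 398) (mv 428 (both (five 0 428 429) (mv 432 (both (five 5 399 400) (mv 433 (both (five 5 400 401) (mv 434 (both (five 2 431 435) (mv 466 (both (five 3 430 465) (five 0 431 467))))))))))))))) (mv 399 (both (five 4 399 431) (mv 432 (both (five 6 399 400) (mv 401 (both (five 5 400 433) (mv 529 (both (five 4 432 561) (mv 530 (both (five 3 495 531) (mv 498 (both (five 1 495 499) (mv 497 (both (five 3 462 462) (five 2 494 526))))))))))))))))))) (both (mv 431 (both (five 4 399 399) (mv 430 (both (five 7 398 398) (mv 462 (both (five 7 430 559) (mv 461 (both (five 0 460 460) (mv 497 (both (five 0 461 464) (five 3 462 498))))))))))) (both (mv 431 (both (five 4 399 399) (mv 398 (both (five 7 398 430) (mv 432 (both (five 5 399 400) (mv 464 (both (five 5 431 559) (mv 433 (both (five 5 400 401) (mv 434 (both (five 2 431 435) (mv 402 (both (five 1 399 403) (mv 466 (both (five 0 431 467) (mv 529 (both (five 4 432 561) (mv 497 (both (five 5 401 465) (five 6 401 498)))))))))))))))))))))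 (mv 431 (both (five 4 399 399) (mv 432 (both (five 5 399 400) (mv 464 (both (five 5 431 559) (mv 433 (both (five 5 400 401) (mv 434 (both (five 2 431 435) (mv 462 (both (five 1 429 461) (five 1 430 465))))))))))))))))))))))))) (both (mv 494 (both (mv 497 (both (mv 462 (both (five 3 461 461) (mv 463 (both (five 3 462 498) (mv 399 (both (five 4 399 431) (mv 465 (both (five 1 462 466) (mv 433 (both (five 6 400 401) (mv 464 (both (five 1 430 434) (mv 430 (both (five 3 429 429) (mv 398 (both (five 4 366 366) (five 5 366 367))))))))))))))))) (both (mv 462 (both (five 3 461 461) (mv 463 (both (five 3 462 498) (mv 431 (both (five 4 399 399) (mv 526 (both (five 2 493 525) (five 5 430 558))))))))) (mv 465 (both (five 1 462 466) (mv 433 (both (five 6 400 401) (mv 525 (both (five 2 493 526) (mv 529 (both (five 0 494 530) (mv 402 (both (five 5 401 434) (mv 432 (both (five 7 400 400) (mv 561 (both (five 7 432 464) (mv 593 (both (five 7 496 625) (mv 594 (both (five 4 465 562) (five 4 497 626)))))))))))))))))))))) (both (mv 497 (both (mv 462 (both (five 3 461 461) (mv 463 (both (five 3 462 498) (mv 431 (both (five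 4 399 399) (mv 526 (both (five 2 493 525) (five 5 430 558))))))))) (both (mv 465 (both (five 1 462 466) (mv 401 (both (five 6 400 433) (mv 493 (both (five 1 461 464) (mv 525 (both (five 2 492 524) (five 2 493 526))))))))) (mv 462 (both (five 3 461 461) (mv 463 (both (five 3 462 498) (mv 399 (both (five 4 399 431) (mv 465 (both (five 1 462 466) (mv 433 (both (five 6 400 401) (mv 464 (both (five 1 430 434) (mv 430 (both (five 3 429 429) (mv 398 (both (five 4 366 366) (five 5 366 367)))))))))))))))))))) (both (mv 493 (both (five 0 493 529) (mv 460 (both (five 3 460 461) (mv 464 (both (five 1 461 465) (mv 492 (both (five 3 459 459) (five 1 460 463))))))))) (both (mv 493 (both (five 0 493 529) (mv 460 (both (five 3 460 461) (mv 492 (both (five 3 459 459) (mv 524 (both (five 2 491 523) (five 2 492 525))))))))) (mv 493 (both (five 0 493 529) (mv 465 (both (five 1 461 464) (mv 497 (both (five 1 462 466) (mv 525 (both (five 2 492 524) (five 2 493 526)))))))))))))) (both (mv 497 (both (mv 494 (both (mv 465 (both (five 1 462 466) (mv 401 (both (five 6 400 433) (mv 493 (both (five 1 461 464) (mv 525 (both (five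 2 492 524) (five 2 493 526))))))))) (both (mv 461 (both (five 3 461 462) (mv 465 (both (five 1 462 466) (mv 493 (both (five 3 460 460) (five 1 461 464))))))) (both (mv 461 (both (five 3 461 462) (mv 493 (both (five 3 460 460) (mv 525 (both (five 2 492 524) (five 2 493 526))))))) (mv 463 (both (mv 399 (both (five 4 399 431) (mv 462 (both (five 3 461 461) (mv 465 (both (five 1 462 466) (mv 433 (both (five 6 400 401) (mv 464 (both (five 1 430 434) (mv 430 (both (five 3 429 429) (mv 398 (both (five 4 366 366) (five 5 366 367))))))))))))))) (both (mv 431 (both (five 4 399 399) (mv 465 (both (five 1 462 466) (mv 401 (both (five 6 400 433) (mv 526 (both (five 2 493 525) (mv 558 (both (five 6 430 527) (five 5 462 590))))))))))) (both (mv 462 (both (five 3 461 461) (mv 465 (both (five 1 462 466) (mv 401 (both (five 6 400 433) (mv 526 (both (five 2 493 525) (mv 558 (both (five 5 462 590) (mv 557 (both (five 6 461 589) (mv 559 (both (five 4 462 591) (mv 527 (both (five 4 430 430) (five 1 524 556))))))))))))))))) (mv 399 (both (five 4 399 431) (mv 462 (both (five 3 461 461) (mv 526 (both (five 2 493 525) (mv 558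 (both (five 5 462 590) (mv 557 (both (five 6 461 589) (mv 559 (both (five 4 462 591) (mv 527 (both (five 4 430 430) (five 1 524 556))))))))))))))))))))))) (both (mv 494 (both (mv 461 (both (five 3 461 462) (mv 465 (both (five 1 462 466) (mv 493 (both (five 3 460 460) (five 1 461 464))))))) (both (mv 465 (both (five 1 462 466) (mv 401 (both (five 6 400 433) (mv 493 (both (five 1 461 464) (mv 525 (both (five 2 492 524) (five 2 493 526))))))))) (mv 462 (both (five 3 461 461) (mv 463 (both (five 3 462 498) (mv 431 (both (five 4 399 399) (mv 526 (both (five 2 493 525) (five 5 430 558)))))))))))) (both (mv 498 (both (mv 527 (both (five 2 495 499) (five 2 494 526))) (both (mv 462 (both (five 3 462 463) (mv 467 (both (five 1 463 466) (mv 499 (both (five 1 464 468) (mv 531 (both (five 0 495 530) (five 0 496 532))))))))) (mv 463 (both (five 3 462 462) (mv 431 (both (five 4 399 399) (mv 466 (both (five 1 463 467) (mv 527 (both (five 2 494 526) (mv 398 (both (five 7 398 430) (mv 432 (both (five 5 399 400) (mv 530 (both (five 0 495 531) (mv 559 (both (five 5 431 464) (mv 590 (both (five 6 462 558) (mv 591 (both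 (five 6 494 622) (five 5 495 623)))))))))))))))))))))))) (both (mv 498 (both (mv 462 (both (five 3 462 463) (mv 466 (both (five 1 463 467) (mv 494 (both (five 3 461 461) (five 1 462 465))))))) (both (mv 467 (both (five 1 463 466) (mv 499 (both (five 1 464 468) (mv 531 (both (five 0 495 530) (five 0 496 532))))))) (mv 462 (both (five 3 462 463) (mv 461 (both (five 3 461 494) (mv 499 (both (five 2 495 527) (mv 531 (both (five 0 495 530) (five 0 496 532)))))))))))) (both (mv 498 (both (mv 527 (both (five 2 495 499) (five 2 494 526))) (mv 466 (both (five 1 463 467) (mv 465 (both (five 1 462 494) (mv 433 (both (five 6 400 401) (mv 530 (both (five 0 495 531) (five 7 433 562))))))))))) (mv 498 (both (mv 527 (both (five 2 495 499) (five 2 494 526))) (both (mv 463 (both (five 3 462 462) (mv 399 (both (five 4 399 431) (mv 499 (both (five 3 463 464) (mv 531 (both (five 0 495 530) (five 0 496 532))))))))) (mv 462 (both (five 3 462 463) (mv 494 (both (five 3 461 461) (mv 526 (both (five 2 493 525) (five 2 494 527)))))))))))))))) (both (mv 527 (both (mv 559 (both (mv 464 (both (five 6 431 432) (five 5 463 591)))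 (both (mv 591 (both (five 5 495 623) (mv 590 (both (five 6 494 622) (mv 463 (both (five 6 462 558) (mv 430 (both (five 7 430 462) (mv 431 (both (five 7 398 398) (five 4 399 399))))))))))) (mv 463 (both (mv 430 (both (five 7 430 462) (mv 431 (both (five 7 398 398) (five 4 399 399))))) (both (mv 430 (both (five 7 430 462) (mv 432 (both (five 5 431 464) (mv 558 (both (five 6 462 590) (mv 529 (both (five 2 526 530) (mv 557 (both (five 2 525 526) (five 1 524 556))))))))))) (mv 431 (both (five 4 399 399) (mv 432 (both (five 5 399 400) (five 5 431 464))))))))))) (both (mv 526 (both (mv 525 (both (five 1 492 524) (mv 557 (both (five 2 524 556) (mv 529 (both (five 2 525 558) (mv 530 (both (five 3 494 494) (five 3 495 531))))))))) (both (mv 494 (both (mv 525 (both (five 1 492 524) (mv 557 (both (five 2 524 556) (mv 462 (both (five 6 429 430) (mv 589 (both (five 6 461 558) (five 5 493 621))))))))) (both (mv 493 (both (five 0 492 492) (mv 460 (both (five 3 460 461) (mv 464 (both (five 1 461 465) (mv 432 (both (five 6 399 400) (mv 401 (both (five 5 400 433) (mv 431 (both (five 7 399 399) (mv 463 (both (five 6 430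 558) (mv 430 (both (five 7 398 398) (mv 429 (both (five 0 428 428) (mv 397 (both (five 3 396 396) (five 7 397 462))))))))))))))))))))) (both (mv 493 (both (five 0 492 492) (mv 460 (both (five 3 460 461) (mv 464 (both (five 1 461 465) (mv 400 (both (five 6 399 432) (mv 525 (both (five 2 492 524) (mv 557 (both (five 2 524 556) (mv 462 (both (five 6 429 430) (five 5 461 589))))))))))))))) (mv 493 (both (five 0 492 492) (mv 461 (both (five 3 460 460) (mv 397 (both (five 4 397 429) (mv 464 (both (five 1 461 465) (mv 400 (both (five 6 399 432) (mv 525 (both (five 2 492 524) (mv 557 (both (five 2 524 556) (mv 589 (both (five 5 493 621) (mv 590 (both (five 4 461 558) (five 4 493 622))))))))))))))))))))))) (both (mv 525 (both (five 1 492 524) (mv 493 (both (five 3 492 492) (mv 557 (both (five 2 524 556) (mv 558 (both (five 2 525 529) (mv 461 (both (five 4 429 429) (five 4 461 590))))))))))) (both (mv 494 (both (mv 493 (both (five 0 492 492) (five 0 493 529))) (both (mv 493 (both (five 0 492 492) (mv 460 (both (five 3 460 461) (mv 464 (both (five 1 461 465) (mv 432 (both (five 6 399 400) (mv 401 (both (five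 5 400 433) (mv 431 (both (five 7 399 399) (mv 463 (both (five 6 430 558) (mv 430 (both (five 7 398 398) (mv 429 (both (five 0 428 428) (mv 397 (both (five 3 396 396) (five 7 397 462))))))))))))))))))))) (mv 529 (both (five 3 494 530) (mv 558 (both (five 2 525 557) (mv 463 (both (five 6 430 431) (five 5 462 590)))))))))) (both (mv 525 (both (five 1 492 524) (mv 493 (both (five 3 492 492) (mv 494 (both (five 3 493 529) (mv 557 (both (five 2 524 556) (mv 462 (both (five 6 429 430) (five 5 461 589))))))))))) (mv 525 (both (five 1 492 524) (mv 493 (both (five 3 492 492) (mv 494 (both (five 0 493 529) (mv 464 (both (five 1 461 465) (mv 432 (both (five 6 399 400) (mv 401 (both (five 5 400 433) (mv 431 (both (five 7 399 399) (mv 463 (both (five 6 430 558) (mv 430 (both (five 7 398 398) (mv 429 (both (five 0 428 428) (mv 397 (both (five 3 396 396) (five 7 397 462))))))))))))))))))))))))))))) (both (mv 526 (both (mv 525 (both (five 1 492 524) (mv 493 (both (five 3 492 492) (mv 557 (both (five 2 524 556) (mv 558 (both (five 2 525 529) (mv 461 (both (five 4 429 429) (five 4 461 590))))))))))) (both (mv 529 (both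 (mv 530 (both (five 3 494 494) (five 3 495 531))) (mv 558 (both (five 2 525 557) (mv 463 (both (five 6 430 431) (mv 590 (both (five 6 462 559) (five 5 494 622))))))))) (both (mv 494 (both (mv 525 (both (five 1 492 524) (mv 557 (both (five 2 524 556) (mv 462 (both (five 6 429 430) (mv 589 (both (five 6 461 558) (five 5 493 621))))))))) (both (mv 493 (both (five 0 492 492) (mv 461 (both (five 3 460 460) (mv 429 (both (five 4 397 397) (mv 558 (both (five 7 429 462) (five 7 461 590))))))))) (both (mv 493 (both (five 0 492 492) (mv 460 (both (five 3 460 461) (mv 525 (both (five 2 492 524) (mv 557 (both (five 2 524 556) (mv 589 (both (five 5 493 621) (mv 588 (both (five 6 492 620) (mv 590 (both (five 4 493 622) (mv 558 (both (five 5 462 463) (mv 587 (both (five 1 555 559) (five 1 554 586))))))))))))))))))) (mv 493 (both (five 0 492 492) (mv 525 (both (five 2 492 524) (mv 557 (both (five 2 524 556) (mv 462 (both (five 6 429 430) (five 5 461 589))))))))))))) (both (mv 525 (both (five 1 492 524) (mv 493 (both (five 3 492 492) (mv 494 (both (five 3 493 529) (mv 557 (both (five 2 524 556) (mv 462 (both (five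 6 429 430) (five 5 461 589))))))))))) (mv 525 (both (five 1 492 524) (mv 493 (both (five 3 492 492) (mv 494 (both (five 0 493 529) (mv 461 (both (five 3 460 460) (mv 429 (both (five 4 397 397) (mv 558 (both (five 7 429 462) (five 7 461 590)))))))))))))))))) (both (mv 559 (both (mv 464 (both (five 6 431 432) (five 5 463 591))) (both (mv 591 (both (five 5 495 623) (mv 590 (both (five 6 494 622) (mv 463 (both (five 6 462 558) (mv 430 (both (five 7 430 462) (mv 431 (both (five 7 398 398) (five 4 399 399))))))))))) (mv 463 (both (mv 430 (both (five 7 430 462) (mv 431 (both (five 7 398 398) (five 4 399 399))))) (both (mv 462 (both (five 7 430 430) (mv 461 (both (five 0 460 460) (mv 464 (both (five 5 431 432) (mv 428 (both (five 3 428 429) (mv 493 (both (five 2 460 492) (mv 465 (both (five 2 461 494) (mv 434 (both (five 1 430 433) (mv 466 (both (five 1 431 435) (five 2 463 467))))))))))))))))) (mv 431 (both (five 4 399 399) (mv 432 (both (five 5 399 400) (five 5 431 464))))))))))) (both (mv 529 (both (mv 530 (both (five 3 494 494) (five 3 495 531))) (both (mv 530 (both (five 3 495 531) (mv 498 (both (five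 1 495 499) (mv 559 (both (five 2 526 558) (mv 464 (both (five 6 431 432) (five 5 463 591))))))))) (mv 526 (both (mv 525 (both (five 1 492 524) (mv 557 (both (five 2 524 556) (five 2 525 558))))) (both (mv 494 (both (five 0 493 493) (mv 558 (both (five 2 525 557) (mv 561 (both (five 0 526 562) (mv 432 (both (five 4 432 464) (mv 590 (both (five 5 494 622) (mv 589 (both (five 6 493 621) (mv 591 (both (five 4 494 623) (mv 462 (both (five 7 462 559) (mv 429 (both (five 7 429 461) (mv 430 (both (five 7 397 397) (five 4 398 398))))))))))))))))))))) (mv 493 (both (five 0 493 494) (mv 525 (both (five 3 492 492) (five 1 492 524))))))))))) (both (mv 559 (both (mv 464 (both (five 6 431 432) (five 5 463 591))) (both (mv 591 (both (five 5 495 623) (mv 494 (both (five 7 462 462) (mv 493 (both (five 0 492 492) (five 0 493 529))))))) (mv 463 (both (mv 430 (both (five 7 430 462) (mv 431 (both (five 7 398 398) (five 4 399 399))))) (both (mv 462 (both (five 7 430 430) (mv 461 (both (five 0 460 460) (mv 464 (both (five 5 431 432) (mv 428 (both (five 3 428 429) (mv 493 (both (five 2 460 492) (mv 465 (both (five 2 461 494)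 (mv 434 (both (five 1 430 433) (mv 466 (both (five 1 431 435) (five 2 463 467))))))))))))))))) (mv 431 (both (five 4 399 399) (mv 432 (both (five 5 399 400) (five 5 431 464))))))))))) (mv 464 (both (mv 432 (both (five 6 399 400) (five 6 431 559))) (both (mv 559 (both (five 5 463 591) (mv 558 (both (mv 529 (both (five 2 526 530) (mv 557 (both (five 2 525 526) (five 1 524 556))))) (both (mv 463 (both (five 6 462 590) (mv 431 (both (five 4 399 399) (five 6 430 526))))) (mv 529 (both (five 2 526 530) (mv 493 (both (five 0 493 494) (mv 557 (both (five 1 524 556) (mv 590 (both (five 6 462 463) (mv 525 (both (five 4 461 461) (mv 622 (both (five 4 493 589) (five 7 525 654)))))))))))))))))) (mv 432 (both (five 6 399 400) (mv 399 (both (five 7 399 431) (mv 401 (both (five 5 400 433) (mv 529 (both (five 4 432 561) (mv 530 (both (five 3 494 494) (five 3 495 531))))))))))))))))))))) (both (mv 494 (both (mv 493 (both (five 0 493 529) (mv 460 (both (five 3 460 461) (mv 492 (both (five 3 459 459) (mv 524 (both (five 2 491 523) (five 2 492 525))))))))) (both (mv 497 (both (mv 462 (both (five 3 461 461) (mv 463 (both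 (five 3 462 498) (mv 431 (both (five 4 399 399) (mv 526 (both (five 2 493 525) (five 5 430 558))))))))) (both (mv 466 (both (five 1 462 465) (mv 498 (both (five 1 463 467) (mv 499 (both (five 2 495 527) (mv 531 (both (five 0 495 530) (five 0 496 532))))))))) (mv 462 (both (five 3 461 461) (mv 465 (both (five 1 462 466) (mv 433 (both (five 6 400 401) (mv 525 (both (five 2 493 526) (mv 529 (both (five 0 494 530) (mv 432 (both (five 7 400 400) (mv 434 (both (five 5 401 402) (mv 431 (both (five 2 430 463) (mv 398 (both (five 3 398 399) (mv 430 (both (five 3 397 397) (five 4 398 527)))))))))))))))))))))))) (both (mv 497 (both (mv 461 (both (five 3 461 462) (mv 493 (both (five 3 460 460) (mv 525 (both (five 2 492 524) (five 2 493 526))))))) (mv 466 (both (five 1 462 465) (mv 498 (both (five 1 463 467) (mv 499 (both (five 2 495 527) (mv 531 (both (five 0 495 530) (five 0 496 532))))))))))) (both (mv 493 (both (five 0 493 529) (mv 460 (both (five 3 460 461) (mv 492 (both (five 3 459 459) (five 0 492 527))))))) (mv 493 (both (five 0 493 529) (mv 492 (both (five 0 492 527) (mv 524 (both (five 2 491 523) (five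 2 492 525)))))))))))) (both (mv 494 (both (mv 493 (both (five 0 493 529) (mv 460 (both (five 3 460 461) (mv 492 (both (five 3 459 459) (five 0 492 527))))))) (both (mv 497 (both (mv 466 (both (five 1 462 465) (mv 498 (both (five 1 463 467) (mv 499 (both (five 2 495 527) (mv 531 (both (five 0 495 530) (five 0 496 532))))))))) (both (mv 461 (both (five 3 461 462) (mv 466 (both (five 1 462 465) (mv 498 (both (five 1 463 467) (mv 527 (both (five 2 495 499) (five 2 494 526))))))))) (both (mv 465 (both (five 1 462 466) (mv 433 (both (five 6 400 401) (mv 525 (both (five 2 493 526) (mv 529 (both (five 0 494 530) (mv 402 (both (five 5 401 434) (mv 432 (both (five 7 400 400) (mv 561 (both (five 7 432 464) (mv 593 (both (five 7 496 625) (mv 594 (both (five 4 465 562) (five 4 497 626))))))))))))))))))) (mv 461 (both (five 3 461 462) (mv 526 (both (five 2 493 525) (mv 498 (both (five 2 494 527) (mv 530 (both (five 0 494 529) (five 0 495 531))))))))))))) (both (mv 497 (both (mv 461 (both (five 3 461 462) (mv 493 (both (five 3 460 460) (mv 525 (both (five 2 492 524) (five 2 493 526))))))) (mv 466 (both (five 1 462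 465) (mv 498 (both (five 1 463 467) (mv 499 (both (five 2 495 527) (mv 531 (both (five 0 495 530) (five 0 496 532))))))))))) (both (mv 493 (both (five 0 493 529) (mv 460 (both (five 3 460 461) (mv 492 (both (five 3 459 459) (mv 524 (both (five 2 491 523) (five 2 492 525))))))))) (mv 493 (both (five 0 493 529) (mv 492 (both (five 0 492 527) (mv 524 (both (five 2 491 523) (five 2 492 525)))))))))))) (both (mv 497 (both (mv 498 (both (mv 462 (both (five 3 462 463) (mv 466 (both (five 1 463 467) (mv 494 (both (five 3 461 461) (five 1 462 465))))))) (mv 527 (both (five 2 495 499) (five 2 494 526))))) (both (mv 494 (both (mv 465 (both (five 1 462 466) (mv 433 (both (five 6 400 401) (mv 525 (both (five 2 493 526) (mv 529 (both (five 0 494 530) (mv 402 (both (five 5 401 434) (mv 432 (both (five 7 400 400) (mv 561 (both (five 7 432 464) (mv 593 (both (five 7 496 625) (mv 594 (both (five 4 465 562) (five 4 497 626))))))))))))))))))) (both (mv 463 (both (mv 399 (both (five 4 399 431) (mv 462 (both (five 3 461 461) (mv 465 (both (five 1 462 466) (mv 433 (both (five 6 400 401) (mv 464 (both (five 1 430 434) (mv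 430 (both (five 3 429 429) (mv 398 (both (five 4 366 366) (five 5 366 367))))))))))))))) (both (mv 431 (both (five 4 399 399) (mv 465 (both (five 1 462 466) (mv 401 (both (five 6 400 433) (mv 526 (both (five 2 493 525) (mv 558 (both (five 6 430 527) (five 5 462 590))))))))))) (both (mv 462 (both (five 3 461 461) (mv 465 (both (five 1 462 466) (mv 401 (both (five 6 400 433) (mv 526 (both (five 2 493 525) (mv 558 (both (five 5 462 590) (mv 557 (both (five 6 461 589) (mv 559 (both (five 4 462 591) (mv 527 (both (five 4 430 430) (five 1 524 556))))))))))))))))) (mv 399 (both (five 4 399 431) (mv 462 (both (five 3 461 461) (mv 526 (both (five 2 493 525) (mv 558 (both (five 5 462 590) (mv 557 (both (five 6 461 589) (mv 559 (both (five 4 462 591) (mv 527 (both (five 4 430 430) (five 1 524 556))))))))))))))))))) (both (mv 461 (both (five 3 461 462) (mv 465 (both (five 1 462 466) (mv 433 (both (five 6 400 401) (mv 529 (both (five 0 494 530) (mv 402 (both (five 5 401 434) (mv 432 (both (five 7 400 400) (mv 561 (both (five 7 432 464) (mv 593 (both (five 7 496 625) (mv 594 (both (five 4 465 562) (five 4 497 626)))))))))))))))))))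 (mv 527 (both (mv 462 (both (five 3 461 461) (mv 430 (both (five 4 398 398) (mv 526 (both (five 1 493 525) (five 4 430 559))))))) (both (mv 462 (both (five 3 461 461) (mv 430 (both (five 4 398 398) (mv 559 (both (five 7 430 463) (five 7 462 591))))))) (mv 526 (both (five 2 493 525) (mv 529 (both (five 3 494 530) (mv 558 (both (five 2 525 557) (mv 463 (both (five 6 430 431) (five 5 462 590)))))))))))))))) (both (mv 498 (both (mv 462 (both (five 3 462 463) (mv 466 (both (five 1 463 467) (mv 494 (both (five 3 461 461) (five 1 462 465))))))) (both (mv 467 (both (five 1 463 466) (mv 499 (both (five 1 464 468) (mv 531 (both (five 0 495 530) (five 0 496 532))))))) (mv 463 (both (five 3 462 462) (mv 399 (both (five 4 399 431) (mv 499 (both (five 3 463 464) (mv 531 (both (five 0 495 530) (five 0 496 532)))))))))))) (both (mv 498 (both (mv 527 (both (five 2 495 499) (five 2 494 526))) (both (mv 462 (both (five 3 462 463) (mv 467 (both (five 1 463 466) (mv 499 (both (five 1 464 468) (mv 531 (both (five 0 495 530) (five 0 496 532))))))))) (mv 463 (both (five 3 462 462) (mv 431 (both (five 4 399 399) (mv 466 (both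 (five 1 463 467) (mv 527 (both (five 2 494 526) (mv 398 (both (five 7 398 430) (mv 432 (both (five 5 399 400) (mv 530 (both (five 0 495 531) (mv 559 (both (five 5 431 464) (mv 590 (both (five 6 462 558) (mv 591 (both (five 6 494 622) (five 5 495 623)))))))))))))))))))))))) (both (mv 498 (both (mv 527 (both (five 2 495 499) (five 2 494 526))) (mv 466 (both (five 1 463 467) (mv 465 (both (five 1 462 494) (mv 433 (both (five 6 400 401) (mv 530 (both (five 0 495 531) (five 7 433 562))))))))))) (mv 498 (both (mv 527 (both (five 2 495 499) (five 2 494 526))) (both (mv 463 (both (five 3 462 462) (mv 399 (both (five 4 399 431) (mv 499 (both (five 3 463 464) (mv 531 (both (five 0 495 530) (five 0 496 532))))))))) (mv 462 (both (five 3 462 463) (mv 494 (both (five 3 461 461) (mv 526 (both (five 2 493 525) (five 2 494 527)))))))))))))))) (both (mv 494 (both (mv 497 (both (mv 466 (both (five 1 462 465) (mv 498 (both (five 1 463 467) (mv 527 (both (five 2 495 499) (five 2 494 526))))))) (both (mv 462 (both (five 3 461 461) (mv 463 (both (five 3 462 498) (mv 399 (both (five 4 399 431) (mv 465 (both (five 1 462 466)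 (mv 433 (both (five 6 400 401) (mv 464 (both (five 1 430 434) (mv 430 (both (five 3 429 429) (mv 398 (both (five 4 366 366) (five 5 366 367))))))))))))))))) (both (mv 462 (both (five 3 461 461) (mv 463 (both (five 3 462 498) (mv 431 (both (five 4 399 399) (mv 526 (both (five 2 493 525) (five 5 430 558))))))))) (mv 463 (both (mv 399 (both (five 4 399 431) (mv 462 (both (five 3 461 461) (mv 465 (both (five 1 462 466) (mv 433 (both (five 6 400 401) (mv 464 (both (five 1 430 434) (mv 430 (both (five 3 429 429) (mv 398 (both (five 4 366 366) (five 5 366 367))))))))))))))) (both (mv 431 (both (five 4 399 399) (mv 465 (both (five 1 462 466) (mv 401 (both (five 6 400 433) (mv 526 (both (five 2 493 525) (mv 558 (both (five 6 430 527) (five 5 462 590))))))))))) (both (mv 462 (both (five 3 461 461) (mv 465 (both (five 1 462 466) (mv 401 (both (five 6 400 433) (mv 526 (both (five 2 493 525) (mv 558 (both (five 5 462 590) (mv 557 (both (five 6 461 589) (mv 559 (both (five 4 462 591) (mv 527 (both (five 4 430 430) (five 1 524 556))))))))))))))))) (mv 399 (both (five 4 399 431) (mv 462 (both (five 3 461 461) (mv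 526 (both (five 2 493 525) (mv 558 (both (five 5 462 590) (mv 557 (both (five 6 461 589) (mv 559 (both (five 4 462 591) (mv 527 (both (five 4 430 430) (five 1 524 556))))))))))))))))))))))) (both (mv 493 (both (five 0 493 529) (mv 460 (both (five 3 460 461) (mv 464 (both (five 1 461 465) (mv 492 (both (five 3 459 459) (five 1 460 463))))))))) (mv 493 (both (five 0 493 529) (mv 492 (both (five 0 492 527) (mv 524 (both (five 2 491 523) (five 2 492 525)))))))))) (both (mv 494 (both (mv 497 (both (mv 462 (both (five 3 461 461) (mv 463 (both (five 3 462 498) (mv 399 (both (five 4 399 431) (mv 465 (both (five 1 462 466) (mv 433 (both (five 6 400 401) (mv 464 (both (five 1 430 434) (mv 430 (both (five 3 429 429) (mv 398 (both (five 4 366 366) (five 5 366 367))))))))))))))))) (both (mv 530 (both (five 0 494 529) (mv 498 (both (five 0 495 531) (mv 467 (both (five 1 463 466) (mv 499 (both (five 1 464 468) (five 2 495 527))))))))) (both (mv 461 (both (five 3 461 462) (mv 530 (both (five 0 494 529) (mv 498 (both (five 0 495 531) (mv 499 (both (five 2 495 527) (mv 464 (both (five 3 463 463) (mv 468 (both (five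 1 464 467) (mv 500 (both (five 3 464 465) (five 1 465 469))))))))))))))) (mv 465 (both (five 1 462 466) (mv 433 (both (five 6 400 401) (mv 529 (both (five 0 494 530) (mv 402 (both (five 5 401 434) (mv 432 (both (five 7 400 400) (mv 561 (both (five 7 432 464) (mv 593 (both (five 7 496 625) (mv 594 (both (five 4 465 562) (five 4 497 626))))))))))))))))))))) (both (mv 493 (both (mv 460 (both (five 3 460 461) (mv 492 (both (five 3 459 459) (five 0 492 527))))) (both (mv 461 (both (five 3 460 460) (mv 462 (both (five 3 461 497) (mv 464 (both (five 1 461 465) (mv 525 (both (five 2 492 524) (mv 430 (both (five 6 397 398) (five 5 429 557))))))))))) (mv 492 (both (five 0 492 527) (mv 524 (both (five 2 491 523) (five 2 492 525)))))))) (both (mv 493 (both (five 0 493 529) (mv 460 (both (five 3 460 461) (mv 464 (both (five 1 461 465) (mv 492 (both (five 3 459 459) (five 1 460 463))))))))) (mv 493 (both (five 0 493 529) (mv 492 (both (five 0 492 527) (mv 524 (both (five 2 491 523) (five 2 492 525))))))))))) (both (mv 494 (both (mv 497 (both (mv 527 (both (mv 462 (both (five 3 461 461) (mv 430 (both (five 4 398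 398) (mv 526 (both (five 1 493 525) (five 4 430 559))))))) (both (mv 462 (both (five 3 461 461) (mv 430 (both (five 4 398 398) (mv 559 (both (five 7 430 463) (five 7 462 591))))))) (mv 526 (both (five 2 493 525) (mv 529 (both (five 3 494 530) (mv 558 (both (five 2 525 557) (mv 463 (both (five 6 430 431) (five 5 462 590)))))))))))) (both (mv 463 (both (mv 399 (both (five 4 399 431) (mv 462 (both (five 3 461 461) (mv 465 (both (five 1 462 466) (mv 433 (both (five 6 400 401) (mv 464 (both (five 1 430 434) (mv 430 (both (five 3 429 429) (mv 398 (both (five 4 366 366) (five 5 366 367))))))))))))))) (both (mv 431 (both (five 4 399 399) (mv 465 (both (five 1 462 466) (mv 401 (both (five 6 400 433) (mv 526 (both (five 2 493 525) (mv 558 (both (five 6 430 527) (five 5 462 590))))))))))) (both (mv 462 (both (five 3 461 461) (mv 465 (both (five 1 462 466) (mv 401 (both (five 6 400 433) (mv 526 (both (five 2 493 525) (mv 558 (both (five 5 462 590) (mv 557 (both (five 6 461 589) (mv 559 (both (five 4 462 591) (mv 527 (both (five 4 430 430) (five 1 524 556))))))))))))))))) (mv 399 (both (five 4 399 431) (mv 462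 (both (five 3 461 461) (mv 526 (both (five 2 493 525) (mv 558 (both (five 5 462 590) (mv 557 (both (five 6 461 589) (mv 559 (both (five 4 462 591) (mv 527 (both (five 4 430 430) (five 1 524 556))))))))))))))))))) (mv 465 (both (five 1 462 466) (mv 433 (both (five 6 400 401) (mv 529 (both (five 0 494 530) (mv 402 (both (five 5 401 434) (mv 432 (both (five 7 400 400) (mv 561 (both (five 7 432 464) (mv 593 (both (five 7 496 625) (mv 594 (both (five 4 465 562) (five 4 497 626)))))))))))))))))))) (both (mv 493 (both (mv 460 (both (five 3 460 461) (mv 492 (both (five 3 459 459) (five 0 492 527))))) (both (mv 461 (both (five 3 460 460) (mv 462 (both (five 3 461 497) (mv 464 (both (five 1 461 465) (mv 525 (both (five 2 492 524) (mv 430 (both (five 6 397 398) (five 5 429 557))))))))))) (mv 492 (both (five 0 492 527) (mv 524 (both (five 2 491 523) (five 2 492 525)))))))) (both (mv 493 (both (five 0 493 529) (mv 460 (both (five 3 460 461) (mv 464 (both (five 1 461 465) (mv 492 (both (five 3 459 459) (five 1 460 463))))))))) (mv 493 (both (five 0 493 529) (mv 492 (both (five 0 492 527) (mv 524 (both (five 2 491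 523) (five 2 492 525))))))))))) (both (mv 527 (both (mv 559 (both (mv 464 (both (five 6 431 432) (five 5 463 591))) (both (mv 591 (both (five 5 495 623) (mv 590 (both (five 6 494 622) (mv 463 (both (five 6 462 558) (mv 430 (both (five 7 430 462) (mv 431 (both (five 7 398 398) (five 4 399 399))))))))))) (mv 463 (both (mv 430 (both (five 7 430 462) (mv 431 (both (five 7 398 398) (five 4 399 399))))) (both (mv 431 (both (five 4 399 399) (mv 432 (both (five 5 399 400) (five 5 431 464))))) (mv 462 (both (five 7 430 430) (mv 461 (both (five 0 460 460) (mv 464 (both (five 6 431 432) (five 0 461 497))))))))))))) (both (mv 559 (both (mv 464 (both (five 6 431 432) (five 5 463 591))) (both (mv 591 (both (five 5 495 623) (mv 590 (both (five 6 494 622) (mv 463 (both (five 6 462 558) (mv 430 (both (five 7 430 462) (mv 431 (both (five 7 398 398) (five 4 399 399))))))))))) (mv 463 (both (mv 430 (both (five 7 430 462) (mv 431 (both (five 7 398 398) (five 4 399 399))))) (both (mv 430 (both (five 7 430 462) (mv 432 (both (five 5 431 464) (mv 558 (both (five 6 462 590) (mv 529 (both (five 2 526 530) (mv 557 (both (five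 2 525 526) (five 1 524 556))))))))))) (mv 431 (both (five 4 399 399) (mv 432 (both (five 5 399 400) (five 5 431 464))))))))))) (both (mv 526 (both (mv 497 (both (five 2 494 498) (five 1 493 525))) (both (mv 525 (both (five 1 492 524) (mv 557 (both (five 2 524 556) (mv 529 (both (five 2 525 558) (mv 530 (both (five 3 494 494) (five 3 495 531))))))))) (mv 529 (both (mv 498 (both (five 2 494 497) (mv 530 (both (five 1 495 499) (five 3 495 531))))) (mv 494 (both (five 0 493 493) (mv 558 (both (five 2 525 557) (mv 463 (both (five 6 430 431) (five 5 462 590)))))))))))) (mv 494 (both (mv 493 (both (five 0 492 492) (five 0 493 529))) (both (mv 493 (both (five 0 492 492) (mv 461 (both (five 3 460 460) (mv 462 (both (five 3 461 497) (mv 430 (both (five 4 398 398) (mv 525 (both (five 2 492 524) (five 5 429 557))))))))))) (mv 497 (both (mv 498 (both (five 2 495 499) (mv 530 (both (five 3 494 529) (five 0 495 531))))) (mv 462 (both (five 3 461 461) (mv 430 (both (five 4 398 398) (mv 526 (both (five 1 493 525) (five 4 430 559)))))))))))))))) (both (mv 529 (both (mv 530 (both (five 3 495 531) (mv 527 (both (mv 559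 (both (five 2 526 558) (mv 464 (both (five 6 431 432) (five 5 463 591))))) (mv 498 (both (five 1 495 499) (mv 497 (both (five 2 494 526) (mv 466 (both (five 1 463 467) (mv 434 (both (five 6 401 402) (five 6 433 561))))))))))))) (both (mv 494 (both (five 0 493 493) (mv 497 (both (mv 466 (both (five 1 462 465) (mv 498 (both (five 1 463 467) (mv 527 (both (five 2 495 499) (five 2 494 526))))))) (both (mv 461 (both (five 3 461 462) (mv 465 (both (five 1 462 466) (mv 433 (both (five 6 400 401) (mv 432 (both (five 7 400 400) (mv 561 (both (five 7 432 464) (mv 593 (both (five 7 496 625) (mv 594 (both (five 4 465 562) (five 4 497 626))))))))))))))) (mv 462 (both (five 3 461 461) (mv 498 (both (five 3 462 463) (mv 527 (both (five 2 495 499) (five 2 494 526)))))))))))) (both (mv 494 (both (five 0 493 493) (mv 530 (both (five 3 494 527) (five 3 495 531))))) (mv 494 (both (five 0 493 493) (mv 530 (both (five 0 494 497) (five 3 495 531))))))))) (mv 529 (both (mv 530 (both (five 3 495 531) (mv 527 (both (mv 559 (both (five 2 526 558) (mv 464 (both (five 6 431 432) (five 5 463 591))))) (mv 498 (both (five 1 495 499)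 (mv 497 (both (five 2 494 526) (mv 466 (both (five 1 463 467) (mv 434 (both (five 6 401 402) (five 6 433 561))))))))))))) (both (mv 494 (both (five 0 493 493) (mv 497 (both (mv 466 (both (five 1 462 465) (mv 498 (both (five 1 463 467) (mv 527 (both (five 2 495 499) (five 2 494 526))))))) (both (mv 465 (both (five 1 462 466) (mv 433 (both (five 6 400 401) (mv 432 (both (five 7 400 400) (mv 561 (both (five 7 432 464) (mv 593 (both (five 7 496 625) (mv 594 (both (five 4 465 562) (five 4 497 626))))))))))))) (mv 526 (both (five 2 493 525) (mv 498 (both (five 2 494 527) (mv 499 (both (five 2 496 500) (mv 464 (both (five 3 463 463) (mv 432 (both (five 4 400 400) (five 4 432 561)))))))))))))))) (both (mv 494 (both (five 0 493 493) (mv 530 (both (five 0 494 497) (five 3 495 531))))) (mv 494 (both (five 0 493 493) (mv 530 (both (five 3 494 527) (five 3 495 531)))))))))))))))))))))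

theorem L116 : W (S 878694100701304956511192169158242687862212665431883220280182872118455237980908336946979793684870563807462937680039967586724118902039808942127312687095760289792) (S 74751027562092197099627129663083460859546207320631381409191089293929479325121223251190189720430805430695409090779265701728984241698269945856975915304502747986237008901918563868163423979523358588928) :=
  check_sound Env.nil (x := 495) (t := tL116) (by decide +kernel)

end P062.Cert
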