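import Vale.Agent.P062.Check
import Vale.Agent.P062.Cert.C22

/-! Snaky certificate, part 23 (machine generated, checked by the kernel) -/

set_option maxRecDepth 100000

namespace P062.Cert

open T

def tL117 : T :=
  (both (mv 527 (both (mv 495 (both (mv 463 (both (mv 431 (both (five 4 399 399) (five 4 431 560))) (both (mv 431 (both (five 4 399 399) (mv 400 (both (five 5 399 432) (mv 430 (both (five 7 398 398) (mv 559 (both (five 7 430 462) (mv 590 (both (five 6 462 558) (mv 591 (both (five 6 494 622) (five 5 495 623))))))))))))) (mv 559 (both (mv 590 (both (five 6 462 558) (mv 591 (both (five 6 494 622) (five 5 495 623))))) (both (mv 430 (both (five 7 430 462) (mv 558 (both (five 6 462 590) (mv 529 (both (five 2 526 530) (mv 557 (both (five 1 524 556) (five 1 525 560))))))))) (mv 430 (both (five 7 430 462) (mv 591 (both (five 5 495 623) (mv 592 (both (five 4 463 560) (five 4 495 624))))))))))))) (both (mv 494 (both (mv 493 (both (five 0 492 492) (five 0 493 529))) (both (mv 493 (both (five 0 492 492) (mv 461 (both (five 3 460 460) (mv 462 (both (five 3 461 497) (mv 398 (both (five 4 398 430) (mv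 525 (both (five 2 492 524) (mv 557 (both (five 5 461 589) (mv 556 (both (five 6 460 588) (mv 558 (both (five 1 524 559) (five 4 461 590))))))))))))))))) (mv 497 (both (mv 498 (both (five 2 495 499) (mv 530 (both (five 3 494 529) (five 0 495 531))))) (both (mv 466 (both (five 1 462 465) (mv 498 (both (five 1 463 467) (five 2 495 499))))) (mv 462 (both (five 3 461 461) (mv 398 (both (five 4 398 430) (mv 465 (both (five 1 462 466) (mv 433 (both (five 6 400 401) (mv 529 (both (five 0 494 530) (mv 432 (both (five 7 400 400) (mv 434 (both (five 5 401 402) (mv 431 (both (five 3 398 399) (five 2 430 463))))))))))))))))))))))) (both (mv 463 (both (mv 431 (both (five 4 399 399) (five 4 431 560))) (both (mv 431 (both (five 4 399 399) (mv 400 (both (five 5 399 432) (mv 430 (both (five 7 398 398) (mv 559 (both (five 7 430 462) (mv 590 (both (five 6 462 558) (mv 591 (both (five 6 494 622) (five 5 495 623))))))))))))) (mv 559 (both (mv 590 (both (five 6 462 558) (mv 591 (both (five 6 494 622) (five 5 495 623))))) (both (mv 462 (both (five 7 430 430) (mv 460 (both (five 0 460 461) (mv 497 (both (five 3 462 498) (mv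 558 (both (five 6 462 590) (mv 557 (both (five 1 524 556) (mv 560 (both (five 7 463 592) (mv 525 (both (five 3 524 524) (mv 589 (both (five 2 556 588) (mv 493 (both (five 7 460 492) (five 5 461 494))))))))))))))))))) (mv 591 (both (five 5 495 623) (mv 592 (both (five 4 463 560) (five 4 495 624))))))))))) (both (mv 494 (both (mv 493 (both (five 0 492 492) (five 0 493 529))) (both (mv 493 (both (five 0 492 492) (mv 461 (both (five 3 460 460) (mv 462 (both (five 3 461 497) (mv 430 (both (five 4 398 398) (mv 525 (both (five 2 492 524) (five 5 429 557))))))))))) (mv 497 (both (mv 461 (both (five 3 461 462) (mv 466 (both (five 1 462 465) (mv 498 (both (five 1 463 467) (five 2 495 499))))))) (both (mv 461 (both (five 3 461 462) (mv 465 (both (five 1 462 466) (mv 433 (both (five 6 400 401) (mv 529 (both (five 3 494 530) (five 6 432 560))))))))) (mv 498 (both (five 2 495 499) (mv 530 (both (five 3 494 529) (five 0 495 531))))))))))) (both (mv 559 (both (mv 591 (both (five 5 495 623) (mv 590 (both (five 6 494 622) (mv 463 (both (five 6 462 558) (mv 431 (both (five 4 399 399) (five 4 431 560))))))))) (both (mv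 560 (both (mv 463 (both (five 4 431 431) (five 7 463 592))) (both (mv 463 (both (five 4 431 431) (mv 558 (both (five 6 462 590) (mv 529 (both (five 2 526 530) (five 1 525 557))))))) (mv 592 (both (five 7 495 624) (mv 465 (both (five 5 464 497) (mv 593 (both (five 4 496 625) (mv 558 (both (five 0 557 557) (mv 594 (both (five 0 558 561) (five 3 559 595)))))))))))))) (both (mv 591 (both (five 5 495 623) (mv 590 (both (five 6 494 622) (mv 558 (both (five 6 462 463) (mv 529 (both (five 2 526 530) (mv 493 (both (five 0 493 494) (mv 556 (both (five 1 524 557) (mv 592 (both (five 4 495 624) (mv 593 (both (five 3 558 594) (mv 561 (both (five 1 558 562) (five 7 496 625))))))))))))))))))) (both (mv 560 (both (mv 592 (both (five 7 495 624) (mv 465 (both (five 5 464 497) (mv 593 (both (five 4 496 625) (mv 558 (both (five 0 557 557) (mv 594 (both (five 0 558 561) (five 3 559 595))))))))))) (both (mv 591 (both (five 5 495 623) (mv 590 (both (five 6 494 622) (mv 561 (both (five 2 558 562) (mv 589 (both (five 2 557 558) (five 1 556 588))))))))) (both (mv 591 (both (five 5 495 623) (mv 590 (both (five 6 494 622) (mv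 561 (both (five 2 558 562) (mv 589 (both (five 1 556 588) (five 1 557 592))))))))) (mv 591 (both (five 5 495 623) (mv 590 (both (five 6 494 622) (mv 588 (both (five 1 556 589) (mv 592 (both (five 7 495 624) (mv 465 (both (five 5 464 497) (mv 593 (both (five 4 496 625) (mv 558 (both (five 3 557 557) (five 3 558 594))))))))))))))))))) (both (mv 591 (both (five 5 495 623) (mv 590 (both (five 6 494 622) (mv 592 (both (five 4 495 624) (mv 560 (both (five 7 463 463) (mv 561 (both (five 2 558 562) (five 1 557 589))))))))))) (mv 591 (both (five 5 495 623) (mv 592 (both (five 4 495 624) (mv 560 (both (five 7 463 463) (mv 593 (both (five 4 496 625) (mv 558 (both (five 0 557 557) (mv 594 (both (five 0 558 561) (five 3 559 595))))))))))))))))))) (mv 494 (both (mv 493 (both (five 0 492 492) (five 0 493 529))) (both (mv 493 (both (five 0 492 492) (mv 461 (both (five 3 460 460) (mv 462 (both (five 3 461 497) (mv 430 (both (five 4 398 398) (mv 559 (both (five 7 430 463) (five 7 462 591))))))))))) (mv 497 (both (mv 461 (both (five 3 461 462) (mv 466 (both (five 1 462 465) (mv 498 (both (five 1 463 467) (five 2 495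 499))))))) (both (mv 461 (both (five 3 461 462) (mv 465 (both (five 1 462 466) (mv 433 (both (five 6 400 401) (mv 529 (both (five 3 494 530) (five 6 432 560))))))))) (mv 498 (both (five 2 495 499) (mv 530 (both (five 3 494 529) (five 0 495 531))))))))))))))))) (both (mv 559 (both (mv 591 (both (five 5 495 623) (mv 495 (both (mv 590 (both (five 6 494 622) (mv 463 (both (five 6 462 558) (mv 431 (both (five 4 399 399) (five 4 431 560))))))) (mv 494 (both (five 7 462 462) (mv 493 (both (five 0 492 492) (five 0 493 529))))))))) (both (mv 558 (both (mv 529 (both (five 2 526 530) (mv 557 (both (five 1 524 556) (five 1 525 560))))) (both (mv 557 (both (five 1 524 556) (mv 560 (both (mv 524 (both (five 3 524 525) (mv 589 (both (five 2 556 588) (mv 561 (both (five 2 557 590) (mv 562 (both (five 3 526 526) (mv 594 (both (five 0 558 593) (five 0 559 595))))))))))) (both (mv 592 (both (five 0 557 593) (mv 495 (both (five 4 463 463) (five 7 495 624))))) (mv 524 (both (five 3 524 525) (mv 589 (both (five 2 556 588) (mv 590 (both (five 2 557 561) (mv 495 (both (five 6 462 463) (mv 622 (both (five 5 494 526) (five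 5 526 654)))))))))))))))) (both (mv 529 (both (five 2 526 530) (mv 526 (both (mv 493 (both (five 3 493 494) (mv 525 (both (five 3 492 492) (mv 524 (both (five 1 492 495) (five 0 523 523))))))) (both (mv 561 (both (five 0 526 562) (mv 593 (both (five 7 496 625) (mv 560 (both (five 0 558 594) (mv 590 (both (five 2 557 589) (mv 495 (both (five 6 462 463) (five 5 494 622))))))))))) (mv 493 (both (five 3 493 494) (mv 525 (both (five 3 492 492) (mv 561 (both (five 0 525 560) (five 0 526 562)))))))))))) (mv 529 (both (five 2 526 530) (mv 557 (both (five 2 525 526) (five 1 524 556))))))))) (both (mv 558 (both (mv 529 (both (five 2 526 530) (mv 557 (both (five 1 524 556) (five 1 525 560))))) (both (mv 593 (both (mv 529 (both (five 2 526 530) (mv 561 (both (five 7 496 625) (mv 526 (both (five 0 526 562) (mv 560 (both (five 3 525 525) (five 0 558 594))))))))) (both (mv 591 (both (five 5 495 623) (mv 592 (both (five 3 558 594) (mv 625 (both (five 4 496 560) (mv 590 (both (five 0 590 626) (mv 622 (both (five 2 589 621) (five 5 526 654))))))))))) (both (mv 529 (both (five 2 526 530) (mv 561 (both (five 7 496 625)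 (mv 526 (both (five 0 526 562) (mv 494 (both (five 3 493 493) (mv 462 (both (five 4 430 430) (five 4 462 591))))))))))) (mv 529 (both (five 2 526 530) (mv 591 (both (five 5 495 623) (mv 594 (both (five 3 558 592) (mv 561 (both (five 0 558 560) (mv 526 (both (five 0 526 562) (mv 494 (both (five 4 462 462) (five 3 493 493))))))))))))))))) (both (mv 557 (both (five 1 524 556) (mv 560 (both (mv 589 (both (five 2 556 588) (mv 561 (both (five 2 557 590) (mv 562 (both (five 3 526 526) (mv 594 (both (five 0 558 593) (five 0 559 595))))))))) (both (mv 524 (both (five 3 524 525) (mv 589 (both (five 2 556 588) (mv 590 (both (five 2 557 561) (mv 622 (both (five 5 526 654) (mv 623 (both (five 5 495 591) (mv 526 (both (five 4 526 655) (mv 494 (both (five 6 461 462) (five 6 493 621))))))))))))))) (mv 592 (both (five 0 557 593) (mv 623 (both (five 5 495 591) (mv 624 (both (five 6 527 655) (five 7 527 656)))))))))))) (mv 529 (both (five 2 526 530) (mv 557 (both (five 2 525 526) (five 1 524 556))))))))) (both (mv 591 (both (five 5 495 623) (mv 495 (both (mv 494 (both (five 7 462 462) (mv 493 (both (five 0 492 492) (five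 0 493 529))))) (both (mv 590 (both (five 6 494 622) (mv 463 (both (five 6 462 558) (mv 430 (both (five 7 430 462) (mv 431 (both (five 7 398 398) (five 4 399 399))))))))) (mv 590 (both (five 6 494 622) (mv 558 (both (five 6 462 463) (mv 529 (both (five 2 526 530) (mv 493 (both (five 0 493 494) (mv 556 (both (five 1 524 557) (mv 592 (both (five 4 495 624) (mv 593 (both (five 3 558 594) (mv 561 (both (five 1 558 562) (five 7 496 625)))))))))))))))))))))) (both (mv 591 (both (five 5 495 623) (mv 495 (both (mv 494 (both (five 7 462 462) (mv 493 (both (five 0 492 492) (five 0 493 529))))) (mv 590 (both (five 6 494 622) (mv 592 (both (five 4 495 624) (mv 560 (both (five 7 463 463) (mv 561 (both (five 2 558 562) (five 1 557 589))))))))))))) (both (mv 560 (both (mv 592 (both (mv 495 (both (five 4 463 463) (five 7 495 624))) (mv 593 (both (five 4 496 625) (mv 558 (both (five 0 557 557) (mv 594 (both (five 0 558 561) (five 3 559 595))))))))) (both (mv 591 (both (five 5 495 623) (mv 590 (both (mv 561 (both (five 2 558 562) (mv 589 (both (five 2 557 558) (five 1 556 588))))) (both (mv 495 (both (five 6 494 622)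 (mv 463 (both (five 6 462 558) (mv 430 (both (five 7 430 462) (mv 431 (both (five 7 398 398) (five 4 399 399))))))))) (mv 561 (both (five 2 558 562) (mv 525 (both (five 0 525 526) (mv 589 (both (five 1 556 588) (mv 622 (both (five 6 494 495) (mv 557 (both (five 4 493 493) (mv 654 (both (five 4 525 621) (five 7 557 686)))))))))))))))))) (both (mv 592 (both (mv 623 (both (five 5 495 591) (mv 624 (both (five 6 527 655) (five 7 527 656))))) (mv 593 (both (five 4 496 625) (mv 558 (both (five 0 557 557) (mv 594 (both (five 0 558 561) (five 3 559 595))))))))) (both (mv 592 (both (mv 495 (both (five 4 463 463) (five 7 495 624))) (both (mv 623 (both (five 5 495 591) (mv 624 (both (five 6 527 655) (five 7 527 656))))) (mv 495 (both (five 7 463 463) (mv 591 (both (five 5 495 623) (mv 590 (both (five 6 494 622) (mv 561 (both (five 2 558 562) (five 1 557 589)))))))))))) (mv 592 (both (mv 495 (both (five 4 463 463) (five 7 495 624))) (both (mv 623 (both (five 5 495 591) (mv 624 (both (five 6 527 655) (five 7 527 656))))) (mv 463 (both (five 7 463 495) (mv 591 (both (five 5 495 623) (mv 593 (both (five 4 496 625)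 (mv 558 (both (five 0 557 557) (five 3 558 594))))))))))))))))) (both (mv 560 (both (mv 592 (both (mv 495 (both (five 4 463 463) (five 7 495 624))) (mv 593 (both (five 4 496 625) (mv 558 (both (five 0 557 557) (mv 594 (both (five 0 558 561) (five 3 559 595))))))))) (both (mv 495 (both (mv 463 (both (five 4 431 431) (mv 558 (both (five 6 462 590) (mv 529 (both (five 2 526 530) (five 1 525 557))))))) (both (mv 591 (both (five 5 495 623) (mv 590 (both (five 6 494 622) (mv 561 (both (five 2 558 562) (mv 589 (both (five 2 557 558) (five 1 556 588))))))))) (mv 463 (both (five 4 431 431) (mv 462 (both (five 7 430 430) (mv 591 (both (five 7 462 494) (five 5 495 623)))))))))) (both (mv 592 (both (mv 623 (both (five 5 495 591) (mv 624 (both (five 6 527 655) (five 7 527 656))))) (mv 593 (both (five 4 496 625) (mv 558 (both (five 0 557 557) (mv 594 (both (five 0 558 561) (five 3 559 595))))))))) (both (mv 592 (both (mv 495 (both (five 4 463 463) (five 7 495 624))) (both (mv 623 (both (five 5 495 591) (mv 624 (both (five 6 527 655) (five 7 527 656))))) (mv 495 (both (five 7 463 463) (mv 591 (both (five 5 495 623)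 (mv 590 (both (five 6 494 622) (mv 561 (both (five 2 558 562) (five 1 557 589)))))))))))) (mv 592 (both (mv 495 (both (five 4 463 463) (five 7 495 624))) (both (mv 623 (both (five 5 495 591) (mv 624 (both (five 6 527 655) (five 7 527 656))))) (mv 463 (both (five 7 463 495) (mv 591 (both (five 5 495 623) (mv 593 (both (five 4 496 625) (mv 558 (both (five 0 557 557) (five 3 558 594))))))))))))))))) (mv 591 (both (five 5 495 623) (mv 495 (both (mv 494 (both (five 7 462 462) (mv 493 (both (five 0 492 492) (five 0 493 529))))) (mv 592 (both (five 4 495 624) (mv 560 (both (five 7 463 463) (mv 593 (both (five 4 496 625) (mv 558 (both (five 0 557 557) (mv 594 (both (five 0 558 561) (five 3 559 595))))))))))))))))))))))) (both (mv 526 (both (mv 497 (both (five 1 493 525) (mv 498 (both (five 2 495 499) (five 1 494 529))))) (both (mv 529 (both (mv 497 (both (five 1 494 498) (mv 561 (both (five 0 526 562) (mv 593 (both (five 7 496 625) (mv 592 (both (five 6 496 624) (mv 465 (both (five 5 464 560) (mv 433 (both (five 6 400 401) (mv 434 (both (five 5 401 402) (five 5 433 466))))))))))))))) (both (mv 493 (both (five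 3 493 494) (mv 558 (both (five 2 525 557) (mv 559 (both (five 2 526 530) (mv 561 (both (five 0 526 562) (mv 591 (both (five 5 495 623) (mv 593 (both (five 7 496 625) (mv 594 (both (five 0 558 560) (five 3 558 592))))))))))))))) (mv 493 (both (five 3 493 494) (mv 498 (both (five 1 494 497) (mv 530 (both (five 1 495 499) (mv 558 (both (five 2 525 557) (five 2 526 559)))))))))))) (both (mv 525 (both (mv 557 (both (five 2 524 556) (mv 529 (both (five 2 525 558) (mv 561 (both (five 0 525 560) (five 0 526 562))))))) (both (mv 492 (both (five 3 492 493) (mv 524 (both (five 3 491 491) (mv 560 (both (five 0 524 559) (five 0 525 561))))))) (mv 492 (both (five 3 492 493) (mv 524 (both (five 3 491 491) (mv 556 (both (five 2 523 555) (five 2 524 557)))))))))) (mv 525 (both (five 1 493 497) (mv 492 (both (five 3 492 493) (mv 524 (both (five 3 491 491) (mv 560 (both (five 0 524 559) (five 0 525 561))))))))))))) (both (mv 495 (both (mv 497 (both (mv 498 (both (five 2 495 499) (five 2 494 526))) (both (mv 498 (both (five 2 495 499) (mv 466 (both (five 1 463 467) (mv 465 (both (five 1 462 494) (mv 433 (both (five 6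 400 401) (mv 530 (both (five 0 495 531) (five 7 433 562))))))))))) (mv 494 (both (mv 461 (both (five 3 461 462) (mv 493 (both (five 3 460 460) (five 0 492 492))))) (both (mv 462 (both (five 3 461 461) (mv 430 (both (five 4 398 398) (mv 526 (both (five 1 493 525) (five 4 430 559))))))) (mv 465 (both (five 1 462 466) (mv 401 (both (five 6 400 433) (mv 493 (both (five 0 492 492) (mv 525 (both (five 2 492 524) (five 2 493 526))))))))))))))) (both (mv 463 (both (mv 431 (both (five 4 399 399) (five 4 431 560))) (both (mv 559 (both (mv 590 (both (five 6 462 558) (mv 591 (both (five 6 494 622) (five 5 495 623))))) (both (mv 430 (both (five 7 430 462) (mv 558 (both (five 6 462 590) (mv 557 (both (five 1 524 556) (mv 560 (both (five 7 463 592) (mv 525 (both (five 3 524 524) (mv 526 (both (five 0 525 561) (mv 492 (both (five 3 492 493) (mv 589 (both (five 2 556 588) (mv 621 (both (five 5 493 494) (five 5 525 653))))))))))))))))))) (mv 591 (both (five 5 495 623) (mv 592 (both (five 4 463 560) (five 4 495 624)))))))) (mv 431 (both (five 4 399 399) (mv 400 (both (five 5 399 432) (mv 430 (both (five 7 398 398) (mv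 559 (both (five 7 430 462) (mv 590 (both (five 6 462 558) (mv 591 (both (five 6 494 622) (five 5 495 623)))))))))))))))) (both (mv 463 (both (mv 431 (both (five 4 399 399) (five 4 431 560))) (mv 559 (both (mv 590 (both (five 6 462 558) (mv 591 (both (five 6 494 622) (five 5 495 623))))) (mv 462 (both (five 7 430 430) (mv 461 (both (five 0 460 460) (mv 497 (both (five 3 461 494) (five 3 462 498))))))))))) (both (mv 497 (both (mv 498 (both (five 2 495 499) (five 2 494 526))) (both (mv 498 (both (five 2 495 499) (mv 466 (both (five 1 463 467) (mv 465 (both (five 1 462 494) (mv 433 (both (five 6 400 401) (mv 530 (both (five 0 495 531) (five 7 433 562))))))))))) (mv 494 (both (mv 461 (both (five 3 461 462) (mv 493 (both (five 3 460 460) (five 0 492 492))))) (both (mv 462 (both (five 3 461 461) (mv 430 (both (five 4 398 398) (mv 465 (both (five 1 462 466) (mv 401 (both (five 6 400 433) (mv 526 (both (five 2 493 525) (mv 397 (both (five 7 397 429) (mv 431 (both (five 5 398 399) (mv 463 (both (five 6 430 558) (five 4 431 560))))))))))))))))) (mv 493 (both (five 0 492 492) (mv 525 (both (five 2 492 524) (five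 2 493 526))))))))))) (both (mv 463 (both (mv 431 (both (five 4 399 399) (five 4 431 560))) (both (mv 431 (both (five 4 399 399) (mv 398 (both (five 7 398 430) (mv 400 (both (five 5 399 432) (mv 526 (both (five 6 430 558) (mv 497 (both (five 2 494 498) (five 1 493 525))))))))))) (mv 559 (both (mv 590 (both (five 6 462 558) (mv 591 (both (five 6 494 622) (five 5 495 623))))) (both (mv 558 (both (five 6 462 590) (mv 557 (both (five 1 524 556) (mv 560 (both (five 7 463 592) (mv 525 (both (five 3 524 524) (mv 526 (both (five 1 493 497) (five 0 525 561))))))))))) (mv 591 (both (five 5 495 623) (mv 592 (both (five 4 463 560) (five 4 495 624))))))))))) (mv 497 (both (mv 498 (both (five 2 495 499) (five 2 494 526))) (both (mv 498 (both (five 2 495 499) (mv 466 (both (five 1 463 467) (mv 465 (both (five 1 462 494) (mv 433 (both (five 6 400 401) (mv 530 (both (five 0 495 531) (five 7 433 562))))))))))) (mv 494 (both (mv 461 (both (five 3 461 462) (mv 493 (both (five 3 460 460) (five 0 492 492))))) (both (mv 462 (both (five 3 461 461) (mv 465 (both (five 1 462 466) (mv 401 (both (five 6 400 433) (mv 525 (both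 (five 2 493 526) (mv 559 (both (five 7 462 591) (mv 560 (both (five 5 464 592) (mv 463 (both (five 4 431 431) (mv 558 (both (five 6 462 590) (mv 557 (both (five 3 524 524) (five 1 524 556))))))))))))))))))) (mv 493 (both (five 0 492 492) (mv 525 (both (five 2 492 524) (five 2 493 526))))))))))))))))) (both (mv 497 (both (mv 498 (both (five 2 495 499) (mv 495 (both (mv 466 (both (five 1 463 467) (mv 465 (both (five 1 462 494) (mv 433 (both (five 6 400 401) (mv 530 (both (five 0 495 531) (five 7 433 562))))))))) (mv 463 (both (five 3 462 462) (mv 431 (both (five 4 399 399) (five 4 431 560))))))))) (both (mv 526 (both (five 1 493 525) (mv 529 (both (mv 561 (both (five 0 526 562) (mv 593 (both (five 7 496 625) (mv 592 (both (five 6 496 624) (mv 465 (both (five 5 464 560) (mv 433 (both (five 6 400 401) (mv 434 (both (five 5 401 402) (five 5 433 466))))))))))))) (mv 494 (both (five 3 493 493) (mv 495 (both (five 0 494 530) (mv 461 (both (five 3 461 462) (mv 558 (both (five 2 525 557) (mv 463 (both (five 6 430 431) (five 5 462 590))))))))))))))) (mv 498 (both (five 2 495 499) (mv 526 (both (five 1 493 525)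 (five 1 494 529)))))))) (both (mv 526 (both (mv 497 (both (five 1 493 525) (mv 498 (both (five 2 494 495) (five 2 495 499))))) (both (mv 529 (both (mv 498 (both (five 1 494 497) (mv 530 (both (five 1 495 499) (mv 558 (both (five 2 525 557) (five 2 526 559))))))) (both (mv 494 (both (five 3 493 493) (mv 495 (both (five 3 494 530) (mv 497 (both (five 2 494 498) (mv 462 (both (five 3 461 461) (mv 430 (both (five 4 398 398) (mv 559 (both (five 7 430 463) (five 7 462 591))))))))))))) (both (mv 493 (both (five 3 493 494) (mv 497 (both (five 1 494 498) (mv 558 (both (five 2 525 557) (mv 561 (both (five 0 526 562) (mv 593 (both (five 7 496 625) (mv 592 (both (five 6 496 624) (mv 594 (both (five 4 497 626) (mv 591 (both (five 3 558 559) (mv 622 (both (five 2 590 623) (mv 590 (both (five 5 494 495) (five 2 589 621))))))))))))))))))))) (mv 494 (both (five 3 493 493) (mv 495 (both (five 3 494 530) (mv 558 (both (five 2 525 557) (mv 463 (both (five 6 430 431) (five 5 462 590))))))))))))) (both (mv 525 (both (mv 492 (both (five 3 492 493) (mv 524 (both (five 3 491 491) (five 1 492 495))))) (both (mv 495 (both (five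 1 492 524) (mv 557 (both (five 2 524 556) (mv 529 (both (five 2 525 558) (mv 530 (both (five 3 494 494) (five 3 495 531))))))))) (mv 493 (both (five 3 492 492) (mv 494 (both (five 3 493 529) (mv 557 (both (five 2 524 556) (mv 462 (both (five 6 429 430) (five 5 461 589)))))))))))) (mv 497 (both (five 1 493 525) (mv 498 (both (five 2 495 499) (five 1 494 529))))))))) (both (mv 495 (both (mv 463 (both (mv 431 (both (five 4 399 399) (five 4 431 560))) (mv 559 (both (mv 590 (both (five 6 462 558) (mv 591 (both (five 6 494 622) (five 5 495 623))))) (mv 462 (both (five 7 430 430) (mv 461 (both (five 0 460 460) (mv 497 (both (five 3 461 494) (five 3 462 498))))))))))) (both (mv 529 (both (mv 530 (both (five 3 494 494) (five 3 495 531))) (both (mv 497 (both (mv 498 (both (five 2 495 499) (five 2 494 526))) (mv 494 (both (five 0 493 493) (mv 465 (both (five 1 462 466) (mv 433 (both (five 6 400 401) (five 6 432 560))))))))) (mv 530 (both (five 3 495 531) (mv 498 (both (five 1 495 499) (mv 497 (both (five 2 494 526) (mv 466 (both (five 1 463 467) (mv 434 (both (five 6 401 402) (five 6 433 561)))))))))))))) (both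 (mv 463 (both (mv 431 (both (five 4 399 399) (five 4 431 560))) (both (mv 431 (both (five 4 399 399) (mv 400 (both (five 5 399 432) (mv 430 (both (five 7 398 398) (mv 559 (both (five 7 430 462) (mv 590 (both (five 6 462 558) (mv 591 (both (five 6 494 622) (five 5 495 623))))))))))))) (mv 559 (both (mv 590 (both (five 6 462 558) (mv 591 (both (five 6 494 622) (five 5 495 623))))) (both (mv 430 (both (five 7 430 462) (mv 558 (both (five 6 462 590) (mv 529 (both (five 2 526 530) (mv 557 (both (five 1 524 556) (five 1 525 560))))))))) (mv 430 (both (five 7 430 462) (mv 591 (both (five 5 495 623) (mv 592 (both (five 4 463 560) (five 4 495 624))))))))))))) (mv 529 (both (mv 530 (both (five 3 494 494) (five 3 495 531))) (both (mv 530 (both (five 3 495 531) (mv 498 (both (five 1 495 499) (mv 497 (both (five 2 494 526) (mv 466 (both (five 1 463 467) (mv 434 (both (five 6 401 402) (five 6 433 561))))))))))) (mv 526 (both (mv 497 (both (five 2 494 498) (mv 558 (both (five 2 525 557) (mv 431 (both (five 6 430 463) (mv 561 (both (five 0 526 562) (mv 593 (both (five 7 496 625) (mv 592 (both (five 6 496 624) (mv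 594 (both (five 4 497 626) (mv 591 (both (five 3 558 559) (mv 622 (both (five 5 494 590) (five 2 590 623))))))))))))))))))) (both (mv 494 (both (five 0 493 493) (mv 497 (both (five 2 494 498) (mv 462 (both (five 3 461 461) (mv 430 (both (five 4 398 398) (mv 559 (both (five 7 430 463) (five 7 462 591))))))))))) (both (mv 493 (both (five 0 493 494) (mv 497 (both (five 2 494 498) (mv 558 (both (five 2 525 557) (mv 561 (both (five 0 526 562) (mv 593 (both (five 7 496 625) (mv 592 (both (five 6 496 624) (mv 594 (both (five 4 497 626) (mv 591 (both (five 3 558 559) (mv 622 (both (five 5 494 590) (five 2 590 623))))))))))))))))))) (mv 494 (both (five 0 493 493) (mv 558 (both (five 2 525 557) (mv 463 (both (five 6 430 431) (five 5 462 590)))))))))))))))))) (both (mv 526 (both (mv 497 (both (five 1 493 525) (mv 498 (both (five 2 494 495) (five 2 495 499))))) (both (mv 529 (both (mv 558 (both (five 2 525 557) (mv 530 (both (five 2 526 559) (mv 499 (both (five 1 495 498) (mv 531 (both (five 3 495 495) (five 1 496 500))))))))) (both (mv 558 (both (five 2 525 557) (mv 530 (both (five 2 526 559) (mv 531 (both (five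 3 495 495) (mv 500 (both (five 1 496 499) (mv 532 (both (five 3 496 497) (five 1 497 501))))))))))) (mv 497 (both (five 1 494 498) (mv 561 (both (five 0 526 562) (mv 593 (both (five 7 496 625) (mv 592 (both (five 6 496 624) (mv 465 (both (five 5 464 560) (mv 433 (both (five 6 400 401) (mv 434 (both (five 5 401 402) (five 5 433 466)))))))))))))))))) (both (mv 525 (both (mv 492 (both (five 3 492 493) (mv 524 (both (five 3 491 491) (five 1 492 495))))) (mv 557 (both (five 2 524 556) (mv 529 (both (five 2 525 558) (mv 561 (both (five 0 525 560) (five 0 526 562))))))))) (mv 497 (both (five 1 493 525) (mv 498 (both (five 2 495 499) (five 1 494 529))))))))) (both (mv 526 (both (mv 497 (both (five 1 493 525) (mv 498 (both (five 2 494 495) (five 2 495 499))))) (both (mv 529 (both (mv 498 (both (five 1 494 497) (mv 530 (both (five 1 495 499) (mv 558 (both (five 2 525 557) (five 2 526 559))))))) (both (mv 494 (both (five 3 493 493) (mv 495 (both (five 3 494 530) (mv 558 (both (five 2 525 557) (mv 463 (both (five 6 430 431) (five 5 462 590))))))))) (both (mv 494 (both (five 3 493 493) (mv 495 (both (five 3 494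 530) (mv 497 (both (five 2 494 498) (mv 462 (both (five 3 461 461) (mv 430 (both (five 4 398 398) (mv 559 (both (five 7 430 463) (five 7 462 591))))))))))))) (mv 494 (both (five 3 493 493) (mv 497 (both (five 1 494 498) (mv 558 (both (five 2 525 557) (mv 561 (both (five 0 526 562) (mv 593 (both (five 7 496 625) (mv 594 (both (five 4 497 626) (mv 559 (both (five 0 558 560) (mv 462 (both (five 4 430 430) (five 4 462 591))))))))))))))))))))) (both (mv 525 (both (mv 492 (both (five 3 492 493) (mv 524 (both (five 3 491 491) (five 1 492 495))))) (mv 557 (both (five 2 524 556) (mv 529 (both (five 2 525 558) (mv 561 (both (five 0 525 560) (five 0 526 562))))))))) (mv 497 (both (five 1 493 525) (mv 498 (both (five 2 495 499) (five 1 494 529))))))))) (both (mv 526 (both (mv 497 (both (five 1 493 525) (mv 498 (both (five 2 494 495) (five 2 495 499))))) (both (mv 529 (both (mv 497 (both (five 1 494 498) (mv 561 (both (five 0 526 562) (mv 593 (both (five 7 496 625) (mv 592 (both (five 6 496 624) (mv 465 (both (five 5 464 560) (mv 433 (both (five 6 400 401) (mv 434 (both (five 5 401 402) (five 5 433 466)))))))))))))))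 (both (mv 559 (both (mv 558 (both (five 2 525 557) (mv 561 (both (five 0 526 562) (mv 591 (both (five 5 495 623) (mv 593 (both (five 7 496 625) (mv 594 (both (five 0 558 560) (five 3 558 592))))))))))) (both (mv 494 (both (five 3 493 493) (mv 462 (both (five 4 430 430) (mv 591 (both (five 7 462 495) (five 7 494 623))))))) (mv 493 (both (five 3 493 494) (mv 558 (both (five 2 525 557) (mv 561 (both (five 0 526 562) (mv 593 (both (five 7 496 625) (mv 560 (both (five 0 558 594) (mv 590 (both (five 2 557 589) (mv 495 (both (five 6 462 463) (five 5 494 622)))))))))))))))))) (both (mv 495 (both (mv 558 (both (five 2 525 557) (mv 463 (both (five 6 430 431) (mv 590 (both (five 6 462 559) (five 5 494 622))))))) (mv 494 (both (five 0 493 493) (mv 497 (both (five 2 494 498) (mv 465 (both (five 1 462 466) (mv 433 (both (five 6 400 401) (five 6 432 560))))))))))) (mv 497 (both (five 1 494 498) (mv 558 (both (five 2 525 557) (mv 561 (both (five 0 526 562) (mv 593 (both (five 7 496 625) (mv 592 (both (five 6 496 624) (mv 594 (both (five 4 497 626) (mv 591 (both (five 3 558 559) (mv 622 (both (five 2 590 623) (mv 590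 (both (five 5 494 495) (five 2 589 621))))))))))))))))))))))) (both (mv 525 (both (mv 492 (both (five 3 492 493) (mv 524 (both (five 3 491 491) (five 1 492 495))))) (mv 557 (both (five 2 524 556) (mv 529 (both (five 2 525 558) (mv 561 (both (five 0 525 560) (five 0 526 562))))))))) (mv 497 (both (five 1 493 525) (mv 498 (both (five 2 495 499) (five 1 494 529))))))))) (both (mv 497 (both (mv 498 (both (five 2 495 499) (mv 495 (both (mv 466 (both (five 1 463 467) (mv 465 (both (five 1 462 494) (mv 433 (both (five 6 400 401) (mv 530 (both (five 0 495 531) (five 7 433 562))))))))) (mv 463 (both (five 3 462 462) (mv 431 (both (five 4 399 399) (five 4 431 560))))))))) (both (mv 526 (both (five 1 493 525) (mv 529 (both (mv 558 (both (five 2 525 557) (mv 530 (both (five 2 526 559) (mv 531 (both (five 3 495 495) (five 3 496 532))))))) (mv 561 (both (five 0 526 562) (mv 593 (both (five 7 496 625) (mv 592 (both (five 6 496 624) (mv 465 (both (five 5 464 560) (mv 433 (both (five 6 400 401) (mv 434 (both (five 5 401 402) (five 5 433 466))))))))))))))))) (mv 498 (both (five 2 495 499) (mv 526 (both (five 1 493 525)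 (five 1 494 529)))))))) (both (mv 497 (both (mv 498 (both (five 2 495 499) (mv 495 (both (mv 466 (both (five 1 463 467) (mv 465 (both (five 1 462 494) (mv 433 (both (five 6 400 401) (mv 530 (both (five 0 495 531) (five 7 433 562))))))))) (mv 463 (both (five 3 462 462) (mv 431 (both (five 4 399 399) (five 4 431 560))))))))) (both (mv 526 (both (five 1 493 525) (mv 529 (both (mv 561 (both (five 0 526 562) (mv 593 (both (five 7 496 625) (mv 592 (both (five 6 496 624) (mv 465 (both (five 5 464 560) (mv 433 (both (five 6 400 401) (mv 434 (both (five 5 401 402) (five 5 433 466))))))))))))) (mv 494 (both (five 3 493 493) (mv 495 (both (five 0 494 530) (mv 462 (both (five 3 461 461) (mv 430 (both (five 4 398 398) (mv 559 (both (five 7 430 463) (five 7 462 591))))))))))))))) (mv 498 (both (five 2 495 499) (mv 526 (both (five 1 493 525) (five 1 494 529)))))))) (mv 495 (both (mv 463 (both (mv 431 (both (five 4 399 399) (five 4 431 560))) (mv 559 (both (mv 590 (both (five 6 462 558) (mv 591 (both (five 6 494 622) (five 5 495 623))))) (mv 462 (both (five 7 430 430) (mv 461 (both (five 0 460 460) (mv 497 (both (five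 3 461 494) (five 3 462 498))))))))))) (both (mv 463 (both (mv 431 (both (five 4 399 399) (five 4 431 560))) (both (mv 431 (both (five 4 399 399) (mv 400 (both (five 5 399 432) (mv 430 (both (five 7 398 398) (mv 559 (both (five 7 430 462) (mv 590 (both (five 6 462 558) (mv 591 (both (five 6 494 622) (five 5 495 623))))))))))))) (mv 559 (both (mv 590 (both (five 6 462 558) (mv 591 (both (five 6 494 622) (five 5 495 623))))) (both (mv 430 (both (five 7 430 462) (mv 558 (both (five 6 462 590) (mv 529 (both (five 2 526 530) (mv 557 (both (five 1 524 556) (five 1 525 560))))))))) (mv 430 (both (five 7 430 462) (mv 591 (both (five 5 495 623) (mv 592 (both (five 4 463 560) (five 4 495 624))))))))))))) (both (mv 494 (both (mv 493 (both (five 0 492 492) (five 0 493 529))) (both (mv 493 (both (five 0 492 492) (mv 461 (both (five 3 460 460) (mv 462 (both (five 3 461 497) (mv 430 (both (five 4 398 398) (mv 525 (both (five 2 492 524) (five 5 429 557))))))))))) (mv 497 (both (mv 461 (both (five 3 461 462) (mv 466 (both (five 1 462 465) (mv 498 (both (five 1 463 467) (five 2 495 499))))))) (both (mv 461 (both (five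 3 461 462) (mv 465 (both (five 1 462 466) (mv 433 (both (five 6 400 401) (mv 529 (both (five 3 494 530) (five 6 432 560))))))))) (mv 498 (both (five 2 495 499) (mv 530 (both (five 3 494 529) (five 0 495 531))))))))))) (mv 526 (both (mv 497 (both (five 2 494 498) (five 1 493 525))) (mv 529 (both (mv 530 (both (five 3 494 494) (five 3 495 531))) (mv 558 (both (five 2 525 557) (mv 463 (both (five 6 430 431) (mv 590 (both (five 6 462 559) (five 5 494 622)))))))))))))))))))))))))))) (both (ref 0) (both (mv 464 (both (mv 560 (both (mv 591 (both (five 6 463 559) (mv 592 (both (five 6 495 623) (mv 593 (both (five 4 464 561) (five 4 496 625))))))) (both (mv 431 (both (five 7 431 463) (mv 465 (both (five 5 432 433) (mv 592 (both (five 5 464 497) (mv 593 (both (five 4 464 561) (five 4 496 625))))))))) (mv 463 (both (five 7 431 431) (mv 462 (both (mv 461 (both (five 0 461 497) (mv 428 (both (five 3 428 429) (mv 460 (both (five 3 427 427) (mv 492 (both (five 2 459 491) (five 2 460 493))))))))) (both (mv 465 (both (five 5 432 433) (mv 429 (both (five 3 429 430) (mv 461 (both (five 3 428 428) (mv 493 (both (five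 2 460 492) (five 2 461 494))))))))) (both (mv 465 (both (five 5 432 433) (mv 429 (both (five 3 429 430) (mv 493 (both (five 2 461 494) (mv 498 (both (five 0 462 497) (mv 466 (both (five 0 463 499) (mv 435 (both (five 1 431 434) (mv 467 (both (five 1 432 436) (mv 530 (both (five 5 434 562) (mv 559 (both (five 6 463 591) (mv 529 (both (five 2 527 531) (mv 558 (both (five 2 526 527) (five 1 525 557))))))))))))))))))))))) (both (mv 461 (both (five 0 461 497) (mv 429 (both (five 3 428 428) (mv 465 (both (five 3 429 430) (five 5 432 433))))))) (mv 461 (both (five 0 461 497) (mv 465 (both (five 5 432 433) (mv 493 (both (five 2 460 492) (five 2 461 494))))))))))))))))) (both (mv 432 (both (mv 399 (both (five 7 399 431) (mv 400 (both (five 7 367 367) (mv 401 (both (five 5 368 369) (five 5 400 433))))))) (both (mv 399 (both (five 7 399 431) (mv 400 (both (five 7 367 367) (mv 529 (both (five 4 400 497) (five 4 432 561))))))) (both (mv 401 (both (five 5 400 433) (mv 400 (both (five 5 368 369) (mv 529 (both (five 4 400 497) (five 4 432 561))))))) (mv 431 (both (five 7 399 399) (mv 430 (both (mv 429 (both (five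 0 429 465) (mv 396 (both (five 3 396 397) (mv 428 (both (five 3 395 395) (five 0 428 463))))))) (both (mv 433 (both (five 5 400 401) (mv 462 (both (five 2 429 461) (mv 434 (both (five 2 430 463) (mv 402 (both (five 1 399 403) (mv 466 (both (five 0 431 467) (mv 527 (both (five 6 431 559) (mv 529 (both (five 4 432 561) (mv 498 (both (five 6 401 497) (mv 499 (both (five 1 495 530) (five 4 402 531))))))))))))))))))) (mv 401 (both (five 5 400 433) (mv 429 (both (five 0 429 465) (mv 396 (both (five 3 396 397) (mv 428 (both (five 3 395 395) (mv 460 (both (five 2 427 459) (five 2 428 461)))))))))))))))))))) (both (mv 560 (both (mv 591 (both (five 6 463 559) (mv 592 (both (five 6 495 623) (mv 593 (both (five 4 464 561) (five 4 496 625))))))) (both (mv 431 (both (five 7 431 463) (mv 432 (both (five 7 399 399) (mv 559 (both (five 6 431 527) (five 6 463 591))))))) (mv 431 (both (five 7 431 463) (mv 432 (both (five 7 399 399) (mv 561 (both (five 4 432 529) (five 4 464 593)))))))))) (both (mv 432 (both (mv 433 (both (five 5 400 401) (mv 559 (both (five 6 431 527) (mv 560 (both (five 5 432 465) (five 6 463 591)))))))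 (both (mv 399 (both (five 7 399 431) (mv 400 (both (five 7 367 367) (mv 369 (both (five 5 368 401) (mv 368 (both (five 5 336 337) (mv 497 (both (five 4 368 465) (five 4 400 529))))))))))) (both (mv 399 (both (five 7 399 431) (mv 400 (both (five 7 367 367) (mv 497 (both (five 4 400 529) (mv 465 (both (five 4 368 368) (mv 560 (both (five 5 432 433) (five 5 464 592))))))))))) (mv 399 (both (five 7 399 431) (mv 400 (both (five 7 367 367) (mv 401 (both (five 5 368 369) (five 5 400 433))))))))))) (both (mv 560 (both (mv 465 (both (five 5 432 433) (mv 592 (both (five 5 464 497) (mv 593 (both (five 4 464 561) (five 4 496 625))))))) (mv 431 (both (five 7 431 463) (mv 432 (both (five 7 399 399) (mv 559 (both (five 6 431 527) (five 6 463 591))))))))) (both (mv 560 (both (mv 591 (both (five 6 463 559) (mv 592 (both (five 6 495 623) (mv 593 (both (five 4 464 561) (five 4 496 625))))))) (both (mv 465 (both (five 5 432 433) (mv 591 (both (five 6 463 559) (mv 592 (both (five 5 464 497) (five 6 495 623))))))) (mv 433 (both (five 5 432 465) (mv 432 (both (five 5 400 401) (mv 561 (both (five 4 432 529) (five 4 464 593))))))))))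 (mv 432 (both (mv 433 (both (five 5 400 401) (mv 560 (both (five 5 432 465) (mv 561 (both (five 4 432 529) (five 4 464 593))))))) (both (mv 399 (both (five 7 399 431) (mv 400 (both (five 7 367 367) (mv 529 (both (five 4 400 497) (five 4 432 561))))))) (mv 399 (both (five 7 399 431) (mv 400 (both (five 7 367 367) (mv 401 (both (five 5 368 369) (five 5 400 433))))))))))))))))) (both (mv 464 (both (mv 560 (both (mv 591 (both (five 6 463 559) (mv 592 (both (five 6 495 623) (mv 593 (both (five 4 464 561) (five 4 496 625))))))) (both (mv 433 (both (five 5 432 465) (mv 463 (both (five 7 431 431) (mv 592 (both (five 7 463 495) (mv 593 (both (five 4 464 561) (five 4 496 625))))))))) (both (mv 433 (both (five 5 432 465) (mv 463 (both (five 7 431 431) (mv 591 (both (five 6 463 559) (mv 592 (both (five 7 463 495) (five 6 495 623))))))))) (mv 465 (both (five 5 432 433) (mv 466 (both (mv 467 (both (five 2 463 495) (mv 436 (both (five 1 432 435) (mv 468 (both (five 1 433 437) (mv 500 (both (five 0 464 499) (five 0 465 501))))))))) (both (mv 463 (both (five 7 431 431) (mv 435 (both (five 1 431 434) (mv 467 (both (five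 1 432 436) (mv 499 (both (five 0 463 498) (five 0 464 500))))))))) (mv 463 (both (five 7 431 431) (mv 494 (both (five 2 462 495) (mv 462 (both (five 2 461 493) (mv 429 (both (five 3 429 430) (mv 461 (both (five 3 428 428) (mv 365 (both (five 4 365 397) (mv 526 (both (five 7 429 558) (mv 559 (both (five 6 463 591) (mv 561 (both (five 4 464 593) (mv 527 (both (five 0 525 525) (five 3 526 562)))))))))))))))))))))))))))))) (both (mv 432 (both (mv 401 (both (five 5 400 433) (mv 400 (both (five 5 368 369) (mv 527 (both (five 6 399 495) (five 6 431 559))))))) (both (mv 399 (both (five 7 399 431) (mv 400 (both (five 7 367 367) (mv 527 (both (five 6 399 495) (five 6 431 559))))))) (mv 431 (both (five 7 399 399) (mv 430 (both (mv 429 (both (five 0 429 465) (mv 396 (both (five 3 396 397) (mv 428 (both (five 3 395 395) (five 0 428 463))))))) (both (mv 433 (both (five 5 400 401) (mv 462 (both (five 2 429 461) (mv 434 (both (five 2 430 463) (mv 403 (both (five 1 399 402) (mv 435 (both (five 1 400 404) (mv 467 (both (five 0 431 466) (five 0 432 468))))))))))))) (mv 429 (both (five 0 429 465) (mv 396 (both (five 3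 396 397) (mv 428 (both (five 3 395 395) (mv 460 (both (five 2 427 459) (five 2 428 461))))))))))))))))) (both (mv 560 (both (mv 591 (both (five 6 463 559) (mv 592 (both (five 6 495 623) (mv 593 (both (five 4 464 561) (five 4 496 625))))))) (both (mv 433 (both (five 5 432 465) (mv 432 (both (five 5 400 401) (mv 561 (both (five 4 432 529) (five 4 464 593))))))) (mv 433 (both (five 5 432 465) (mv 432 (both (five 5 400 401) (mv 559 (both (five 6 431 527) (five 6 463 591)))))))))) (both (mv 432 (both (mv 433 (both (five 5 400 401) (mv 560 (both (five 5 432 465) (mv 561 (both (five 4 432 529) (five 4 464 593))))))) (both (mv 399 (both (five 7 399 431) (mv 400 (both (five 7 367 367) (mv 369 (both (five 5 368 401) (mv 368 (both (five 5 336 337) (mv 495 (both (five 6 367 463) (five 6 399 527))))))))))) (mv 399 (both (five 7 399 431) (mv 400 (both (five 7 367 367) (mv 495 (both (five 6 399 527) (mv 463 (both (five 6 367 368) (mv 529 (both (five 4 432 561) (mv 494 (both (five 0 493 493) (mv 465 (both (five 2 462 466) (mv 560 (both (five 5 432 433) (five 7 463 592)))))))))))))))))))) (mv 560 (both (mv 591 (both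 (five 6 463 559) (mv 592 (both (five 6 495 623) (mv 593 (both (five 4 464 561) (five 4 496 625))))))) (both (mv 463 (both (five 7 431 431) (mv 591 (both (five 6 463 559) (mv 592 (both (five 7 463 495) (five 6 495 623))))))) (mv 431 (both (five 7 431 463) (mv 432 (both (five 7 399 399) (mv 561 (both (five 4 432 529) (five 4 464 593))))))))))))))) (both (mv 560 (both (mv 592 (both (mv 497 (both (five 5 464 465) (mv 623 (both (five 6 495 591) (mv 624 (both (five 5 496 529) (five 6 527 655))))))) (both (mv 463 (both (five 7 463 495) (mv 623 (both (five 6 495 591) (mv 624 (both (five 6 527 655) (mv 625 (both (five 4 496 593) (five 4 528 657))))))))) (both (mv 497 (both (five 5 464 465) (mv 624 (both (five 5 496 529) (mv 625 (both (five 4 496 593) (five 4 528 657))))))) (mv 495 (both (five 7 463 463) (mv 494 (both (mv 493 (both (five 0 493 529) (mv 460 (both (five 3 460 461) (mv 492 (both (five 3 459 459) (mv 524 (both (five 2 491 523) (five 2 492 525))))))))) (both (mv 497 (both (five 5 464 465) (mv 461 (both (five 3 461 462) (mv 493 (both (five 3 460 460) (mv 525 (both (five 2 492 524) (five 2 493 526)))))))))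 (both (mv 497 (both (five 5 464 465) (mv 461 (both (five 3 461 462) (mv 525 (both (five 2 493 526) (mv 530 (both (five 0 494 529) (mv 498 (both (five 0 495 531) (mv 467 (both (five 1 463 466) (mv 499 (both (five 1 464 468) (mv 591 (both (five 6 495 623) (mv 593 (both (five 4 496 625) (mv 594 (both (five 5 466 562) (mv 559 (both (five 3 558 558) (five 3 559 595))))))))))))))))))))))) (both (mv 493 (both (five 0 493 529) (mv 461 (both (five 3 460 460) (mv 497 (both (five 3 461 462) (five 5 464 465))))))) (mv 493 (both (five 0 493 529) (mv 497 (both (five 5 464 465) (mv 525 (both (five 2 492 524) (five 2 493 526)))))))))))))))))) (both (mv 464 (both (mv 431 (both (five 7 431 463) (mv 432 (both (five 7 399 399) (mv 561 (both (five 4 432 529) (five 4 464 593))))))) (both (mv 433 (both (five 5 432 465) (mv 432 (both (five 5 400 401) (mv 561 (both (five 4 432 529) (five 4 464 593))))))) (mv 463 (both (five 7 431 431) (mv 462 (both (mv 461 (both (five 0 461 497) (mv 429 (both (five 3 428 428) (mv 465 (both (five 3 429 430) (five 5 432 433))))))) (both (mv 461 (both (five 0 461 497) (mv 428 (both (five 3 428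 429) (mv 460 (both (five 3 427 427) (mv 492 (both (five 2 459 491) (five 2 460 493))))))))) (both (mv 465 (both (five 5 432 433) (mv 429 (both (five 3 429 430) (mv 461 (both (five 3 428 428) (mv 493 (both (five 2 460 492) (five 2 461 494))))))))) (both (mv 465 (both (five 5 432 433) (mv 429 (both (five 3 429 430) (mv 493 (both (five 2 461 494) (mv 498 (both (five 0 462 497) (mv 466 (both (five 0 463 499) (mv 435 (both (five 1 431 434) (mv 467 (both (five 1 432 436) (five 2 463 495))))))))))))))) (mv 461 (both (five 0 461 497) (mv 465 (both (five 5 432 433) (mv 493 (both (five 2 460 492) (five 2 461 494))))))))))))))))) (both (mv 592 (both (mv 623 (both (five 6 495 591) (mv 624 (both (five 6 527 655) (mv 625 (both (five 4 496 593) (five 4 528 657))))))) (both (mv 463 (both (five 7 463 495) (mv 464 (both (five 7 431 431) (mv 591 (both (five 6 463 559) (five 6 495 623))))))) (mv 463 (both (five 7 463 495) (mv 464 (both (five 7 431 431) (mv 593 (both (five 4 464 561) (five 4 496 625)))))))))) (both (mv 464 (both (mv 465 (both (five 5 432 433) (mv 591 (both (five 6 463 559) (mv 592 (both (five 5 464 497)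 (five 6 495 623))))))) (both (mv 463 (both (five 7 431 431) (mv 591 (both (five 6 463 559) (mv 592 (both (five 7 463 495) (five 6 495 623))))))) (mv 431 (both (five 7 431 463) (mv 432 (both (five 7 399 399) (mv 433 (both (five 5 400 401) (five 5 432 465)))))))))) (mv 592 (both (mv 497 (both (five 5 464 465) (mv 623 (both (five 6 495 591) (mv 624 (both (five 5 496 529) (five 6 527 655))))))) (both (mv 623 (both (five 6 495 591) (mv 624 (both (five 6 527 655) (mv 625 (both (five 4 496 593) (five 4 528 657))))))) (mv 465 (both (five 5 464 497) (mv 464 (both (five 5 432 433) (mv 593 (both (five 4 464 561) (five 4 496 625))))))))))))))) (both (mv 560 (both (mv 592 (both (mv 495 (both (five 7 463 463) (mv 624 (both (five 7 495 527) (mv 625 (both (five 4 496 593) (five 4 528 657))))))) (both (mv 623 (both (five 6 495 591) (mv 624 (both (five 6 527 655) (mv 625 (both (five 4 496 593) (five 4 528 657))))))) (both (mv 465 (both (five 5 464 497) (mv 495 (both (five 7 463 463) (mv 623 (both (five 6 495 591) (mv 624 (both (five 7 495 527) (five 6 527 655))))))))) (mv 497 (both (five 5 464 465) (mv 498 (both (mv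 499 (both (five 2 495 527) (mv 468 (both (five 1 464 467) (mv 500 (both (five 1 465 469) (mv 532 (both (five 0 496 531) (five 0 497 533))))))))) (both (mv 495 (both (five 7 463 463) (mv 467 (both (five 1 463 466) (mv 499 (both (five 1 464 468) (mv 531 (both (five 0 495 530) (five 0 496 532))))))))) (both (mv 495 (both (five 7 463 463) (mv 466 (both (five 1 463 467) (mv 526 (both (five 2 494 527) (mv 494 (both (five 2 493 525) (mv 461 (both (five 3 461 462) (mv 493 (both (five 3 460 460) (mv 397 (both (five 4 397 429) (mv 558 (both (five 7 461 590) (mv 591 (both (five 6 495 623) (mv 593 (both (five 4 496 625) (mv 559 (both (five 0 557 557) (five 3 558 594))))))))))))))))))))))) (mv 495 (both (five 7 463 463) (mv 527 (both (five 2 495 499) (five 2 494 526))))))))))))))) (both (mv 464 (both (mv 431 (both (five 7 431 463) (mv 432 (both (five 7 399 399) (mv 559 (both (five 6 431 527) (five 6 463 591))))))) (both (mv 433 (both (five 5 432 465) (mv 432 (both (five 5 400 401) (mv 559 (both (five 6 431 527) (five 6 463 591))))))) (mv 463 (both (five 7 431 431) (mv 462 (both (mv 461 (both (five 0 461 497) (mv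 429 (both (five 3 428 428) (mv 465 (both (five 3 429 430) (five 5 432 433))))))) (both (mv 461 (both (five 0 461 497) (mv 428 (both (five 3 428 429) (mv 460 (both (five 3 427 427) (mv 492 (both (five 2 459 491) (five 2 460 493))))))))) (both (mv 465 (both (five 5 432 433) (mv 429 (both (five 3 429 430) (mv 461 (both (five 3 428 428) (mv 493 (both (five 2 460 492) (five 2 461 494))))))))) (both (mv 465 (both (five 5 432 433) (mv 429 (both (five 3 429 430) (mv 493 (both (five 2 461 494) (mv 498 (both (five 0 462 497) (mv 466 (both (five 0 463 499) (mv 435 (both (five 1 431 434) (mv 467 (both (five 1 432 436) (five 2 463 495))))))))))))))) (mv 461 (both (five 0 461 497) (mv 465 (both (five 5 432 433) (mv 493 (both (five 2 460 492) (five 2 461 494))))))))))))))))) (both (mv 592 (both (mv 623 (both (five 6 495 591) (mv 624 (both (five 6 527 655) (mv 625 (both (five 4 496 593) (five 4 528 657))))))) (both (mv 465 (both (five 5 464 497) (mv 464 (both (five 5 432 433) (mv 593 (both (five 4 464 561) (five 4 496 625))))))) (mv 465 (both (five 5 464 497) (mv 464 (both (five 5 432 433) (mv 591 (both (five 6 463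 559) (five 6 495 623)))))))))) (both (mv 592 (both (mv 623 (both (five 6 495 591) (mv 624 (both (five 6 527 655) (mv 625 (both (five 4 496 593) (five 4 528 657))))))) (both (mv 495 (both (five 7 463 463) (mv 623 (both (five 6 495 591) (mv 624 (both (five 7 495 527) (five 6 527 655))))))) (mv 463 (both (five 7 463 495) (mv 464 (both (five 7 431 431) (mv 593 (both (five 4 464 561) (five 4 496 625)))))))))) (mv 464 (both (mv 465 (both (five 5 432 433) (mv 592 (both (five 5 464 497) (mv 593 (both (five 4 464 561) (five 4 496 625))))))) (both (mv 463 (both (five 7 431 431) (mv 592 (both (five 7 463 495) (mv 593 (both (five 4 464 561) (five 4 496 625))))))) (mv 431 (both (five 7 431 463) (mv 432 (both (five 7 399 399) (mv 433 (both (five 5 400 401) (five 5 432 465))))))))))))))) (both (mv 560 (both (mv 592 (both (mv 623 (both (five 6 495 591) (mv 624 (both (five 6 527 655) (mv 625 (both (five 4 496 593) (five 4 528 657))))))) (both (mv 463 (both (five 7 463 495) (mv 464 (both (five 7 431 431) (mv 591 (both (five 6 463 559) (five 6 495 623))))))) (mv 463 (both (five 7 463 495) (mv 464 (both (five 7 431 431)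 (mv 593 (both (five 4 464 561) (five 4 496 625)))))))))) (both (mv 464 (both (mv 559 (both (five 6 463 591) (mv 558 (both (mv 529 (both (five 1 525 557) (mv 530 (both (five 2 526 527) (five 2 527 531))))) (both (mv 561 (both (five 4 464 593) (mv 525 (both (five 3 525 526) (mv 557 (both (five 3 524 524) (mv 589 (both (five 2 556 588) (five 2 557 590))))))))) (mv 561 (both (five 4 464 593) (mv 526 (both (five 3 525 525) (mv 527 (both (five 3 526 562) (mv 529 (both (five 2 526 530) (mv 493 (both (five 3 493 494) (mv 497 (both (five 1 494 498) (mv 590 (both (five 2 557 589) (mv 622 (both (five 5 494 495) (five 5 526 654)))))))))))))))))))))) (both (mv 463 (both (five 7 431 431) (mv 462 (both (mv 461 (both (five 0 461 497) (mv 428 (both (five 3 428 429) (mv 460 (both (five 3 427 427) (mv 492 (both (five 2 459 491) (five 2 460 493))))))))) (both (mv 465 (both (five 5 432 433) (mv 429 (both (five 3 429 430) (mv 461 (both (five 3 428 428) (mv 493 (both (five 2 460 492) (five 2 461 494))))))))) (both (mv 465 (both (five 5 432 433) (mv 429 (both (five 3 429 430) (mv 493 (both (five 2 461 494) (mv 498 (both (five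 0 462 497) (mv 466 (both (five 0 463 499) (mv 435 (both (five 1 431 434) (mv 467 (both (five 1 432 436) (mv 530 (both (five 5 434 562) (mv 559 (both (five 6 463 591) (mv 529 (both (five 2 527 531) (mv 558 (both (five 2 526 527) (five 1 525 557))))))))))))))))))))))) (both (mv 461 (both (five 0 461 497) (mv 429 (both (five 3 428 428) (mv 465 (both (five 3 429 430) (five 5 432 433))))))) (mv 461 (both (five 0 461 497) (mv 465 (both (five 5 432 433) (mv 493 (both (five 2 460 492) (five 2 461 494)))))))))))))) (both (mv 465 (both (five 5 432 433) (mv 466 (both (mv 467 (both (five 2 463 495) (mv 436 (both (five 1 432 435) (mv 468 (both (five 1 433 437) (mv 500 (both (five 0 464 499) (five 0 465 501))))))))) (both (mv 463 (both (five 7 431 431) (mv 435 (both (five 1 431 434) (mv 467 (both (five 1 432 436) (mv 499 (both (five 0 463 498) (five 0 464 500))))))))) (mv 463 (both (five 7 431 431) (mv 494 (both (five 2 462 495) (mv 462 (both (five 2 461 493) (mv 429 (both (five 3 429 430) (mv 461 (both (five 3 428 428) (mv 365 (both (five 4 365 397) (mv 526 (both (five 7 429 558) (mv 559 (both (five 6 463 591)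 (mv 561 (both (five 4 464 593) (mv 527 (both (five 0 525 525) (five 3 526 562)))))))))))))))))))))))))) (both (mv 463 (both (five 7 431 431) (mv 462 (both (mv 465 (both (five 5 432 433) (mv 429 (both (five 3 429 430) (mv 461 (both (five 3 428 428) (mv 460 (both (five 0 460 495) (mv 492 (both (five 2 459 491) (five 2 460 493))))))))))) (both (mv 461 (both (five 0 461 497) (mv 428 (both (five 3 428 429) (mv 460 (both (five 3 427 427) (mv 492 (both (five 2 459 491) (five 2 460 493))))))))) (mv 465 (both (five 5 432 433) (mv 498 (both (five 0 462 497) (mv 466 (both (five 0 463 499) (mv 435 (both (five 1 431 434) (mv 467 (both (five 1 432 436) (five 2 463 495)))))))))))))))) (both (mv 463 (both (five 7 431 431) (mv 462 (both (mv 461 (both (five 0 461 497) (mv 429 (both (five 3 428 428) (mv 465 (both (five 3 429 430) (five 5 432 433))))))) (both (mv 461 (both (five 0 461 497) (mv 428 (both (five 3 428 429) (mv 460 (both (five 3 427 427) (mv 492 (both (five 2 459 491) (five 2 460 493))))))))) (both (mv 465 (both (five 5 432 433) (mv 429 (both (five 3 429 430) (mv 494 (both (five 2 461 493) (mv 466 (both (five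 2 462 495) (mv 434 (both (five 1 431 435) (mv 559 (both (five 6 463 591) (mv 561 (both (five 4 464 593) (mv 529 (both (five 5 433 497) (mv 530 (both (five 2 527 531) (five 1 526 558))))))))))))))))))) (both (mv 465 (both (five 5 432 433) (mv 429 (both (five 3 429 430) (mv 461 (both (five 3 428 428) (mv 493 (both (five 2 460 492) (five 2 461 494))))))))) (mv 461 (both (five 0 461 497) (mv 465 (both (five 5 432 433) (mv 493 (both (five 2 460 492) (five 2 461 494)))))))))))))) (mv 463 (both (five 7 431 431) (mv 462 (both (mv 461 (both (five 0 461 497) (mv 429 (both (five 3 428 428) (mv 465 (both (five 3 429 430) (five 5 432 433))))))) (both (mv 465 (both (five 5 432 433) (mv 429 (both (five 3 429 430) (mv 461 (both (five 3 428 428) (mv 495 (both (five 0 460 460) (mv 466 (both (five 2 463 467) (five 2 462 494))))))))))) (both (mv 461 (both (five 0 461 497) (mv 428 (both (five 3 428 429) (mv 460 (both (five 3 427 427) (five 0 460 495))))))) (mv 465 (both (five 5 432 433) (mv 498 (both (five 0 462 497) (mv 466 (both (five 0 463 499) (mv 435 (both (five 1 431 434) (mv 467 (both (five 1 432 436) (five 2 463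 495))))))))))))))))))))))) (both (mv 592 (both (mv 497 (both (five 5 464 465) (mv 623 (both (five 6 495 591) (mv 624 (both (five 5 496 529) (five 6 527 655))))))) (both (mv 463 (both (five 7 463 495) (mv 623 (both (five 6 495 591) (mv 624 (both (five 6 527 655) (mv 625 (both (five 4 496 593) (five 4 528 657))))))))) (both (mv 497 (both (five 5 464 465) (mv 624 (both (five 5 496 529) (mv 625 (both (five 4 496 593) (five 4 528 657))))))) (mv 495 (both (five 7 463 463) (mv 494 (both (mv 493 (both (five 0 493 529) (mv 460 (both (five 3 460 461) (mv 492 (both (five 3 459 459) (mv 524 (both (five 2 491 523) (five 2 492 525))))))))) (both (mv 497 (both (five 5 464 465) (mv 461 (both (five 3 461 462) (mv 493 (both (five 3 460 460) (mv 525 (both (five 2 492 524) (five 2 493 526))))))))) (both (mv 497 (both (five 5 464 465) (mv 461 (both (five 3 461 462) (mv 525 (both (five 2 493 526) (mv 530 (both (five 0 494 529) (mv 498 (both (five 0 495 531) (mv 467 (both (five 1 463 466) (mv 499 (both (five 1 464 468) (mv 591 (both (five 6 495 623) (mv 593 (both (five 4 496 625) (mv 594 (both (five 5 466 562) (mv 559 (both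 (five 3 558 558) (five 3 559 595))))))))))))))))))))))) (both (mv 493 (both (five 0 493 529) (mv 461 (both (five 3 460 460) (mv 497 (both (five 3 461 462) (five 5 464 465))))))) (mv 493 (both (five 0 493 529) (mv 497 (both (five 5 464 465) (mv 525 (both (five 2 492 524) (five 2 493 526)))))))))))))))))) (both (mv 592 (both (mv 497 (both (five 5 464 465) (mv 623 (both (five 6 495 591) (mv 624 (both (five 5 496 529) (five 6 527 655))))))) (both (mv 623 (both (five 6 495 591) (mv 624 (both (five 6 527 655) (mv 625 (both (five 4 496 593) (five 4 528 657))))))) (mv 465 (both (five 5 464 497) (mv 464 (both (five 5 432 433) (mv 593 (both (five 4 464 561) (five 4 496 625)))))))))) (both (mv 592 (both (mv 497 (both (five 5 464 465) (mv 623 (both (five 6 495 591) (mv 624 (both (five 5 496 529) (five 6 527 655))))))) (both (mv 463 (both (five 7 463 495) (mv 464 (both (five 7 431 431) (mv 591 (both (five 6 463 559) (five 6 495 623))))))) (both (mv 463 (both (five 7 463 495) (mv 431 (both (five 7 431 464) (mv 497 (both (five 5 464 465) (mv 624 (both (five 5 496 529) (mv 655 (both (five 6 527 623) (mv 656 (both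 (five 6 559 687) (mv 657 (both (five 4 528 625) (five 4 560 689))))))))))))))) (mv 463 (both (five 7 463 495) (mv 431 (both (five 7 431 464) (mv 497 (both (five 5 464 465) (mv 624 (both (five 5 496 529) (mv 657 (both (five 4 528 625) (mv 656 (both (five 4 560 689) (mv 559 (both (five 7 527 527) (mv 687 (both (five 6 559 655) (mv 688 (both (five 7 559 591) (five 6 591 719))))))))))))))))))))))) (mv 592 (both (mv 497 (both (five 5 464 465) (mv 624 (both (five 5 496 529) (mv 625 (both (five 4 496 593) (five 4 528 657))))))) (both (mv 495 (both (five 7 463 463) (mv 624 (both (five 7 495 527) (mv 625 (both (five 4 496 593) (five 4 528 657))))))) (mv 463 (both (five 7 463 495) (mv 464 (both (five 7 431 431) (mv 465 (both (five 5 432 433) (five 5 464 497)))))))))))))))) (both (mv 464 (both (mv 560 (both (mv 591 (both (five 6 463 559) (mv 592 (both (five 6 495 623) (mv 593 (both (five 4 464 561) (five 4 496 625))))))) (both (mv 465 (both (five 5 432 433) (mv 592 (both (five 5 464 497) (mv 593 (both (five 4 464 561) (five 4 496 625))))))) (both (mv 465 (both (five 5 432 433) (mv 591 (both (five 6 463 559) (mv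 592 (both (five 5 464 497) (five 6 495 623))))))) (mv 559 (both (five 6 463 591) (mv 558 (both (mv 529 (both (five 1 525 557) (mv 530 (both (five 2 526 527) (five 2 527 531))))) (both (mv 561 (both (five 4 464 593) (mv 525 (both (five 3 525 526) (mv 557 (both (five 3 524 524) (mv 589 (both (five 2 556 588) (five 2 557 590))))))))) (mv 561 (both (five 4 464 593) (mv 526 (both (five 3 525 525) (mv 527 (both (five 3 526 562) (mv 529 (both (five 2 526 530) (mv 493 (both (five 3 493 494) (mv 497 (both (five 1 494 498) (mv 590 (both (five 2 557 589) (mv 622 (both (five 5 494 495) (five 5 526 654)))))))))))))))))))))))))) (both (mv 432 (both (mv 399 (both (five 7 399 431) (mv 400 (both (five 7 367 367) (mv 401 (both (five 5 368 369) (five 5 400 433))))))) (both (mv 399 (both (five 7 399 431) (mv 400 (both (five 7 367 367) (mv 529 (both (five 4 400 497) (five 4 432 561))))))) (both (mv 401 (both (five 5 400 433) (mv 400 (both (five 5 368 369) (mv 529 (both (five 4 400 497) (five 4 432 561))))))) (mv 431 (both (five 7 399 399) (mv 430 (both (mv 429 (both (five 0 429 465) (mv 396 (both (five 3 396 397) (mv 428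 (both (five 3 395 395) (mv 460 (both (five 2 427 459) (five 2 428 461))))))))) (both (mv 433 (both (five 5 400 401) (mv 397 (both (five 3 397 398) (mv 429 (both (five 3 396 396) (mv 461 (both (five 2 428 460) (five 2 429 462))))))))) (both (mv 433 (both (five 5 400 401) (mv 397 (both (five 3 397 398) (mv 461 (both (five 2 429 462) (mv 466 (both (five 0 430 465) (mv 434 (both (five 0 431 467) (mv 402 (both (five 1 399 403) (mv 527 (both (five 6 431 559) (mv 529 (both (five 4 432 561) (mv 498 (both (five 6 401 497) (mv 499 (both (five 1 495 530) (five 4 402 531))))))))))))))))))))) (both (mv 429 (both (five 0 429 465) (mv 397 (both (five 3 396 396) (mv 433 (both (five 3 397 398) (five 5 400 401))))))) (mv 429 (both (five 0 429 465) (mv 433 (both (five 5 400 401) (mv 461 (both (five 2 428 460) (five 2 429 462)))))))))))))))))) (both (mv 432 (both (mv 433 (both (five 5 400 401) (mv 559 (both (five 6 431 527) (mv 560 (both (five 5 432 465) (five 6 463 591))))))) (both (mv 399 (both (five 7 399 431) (mv 400 (both (five 7 367 367) (mv 527 (both (five 6 399 495) (five 6 431 559))))))) (mv 399 (both (five 7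 399 431) (mv 400 (both (five 7 367 367) (mv 401 (both (five 5 368 369) (five 5 400 433)))))))))) (both (mv 432 (both (mv 433 (both (five 5 400 401) (mv 560 (both (five 5 432 465) (mv 561 (both (five 4 432 529) (five 4 464 593))))))) (both (mv 399 (both (five 7 399 431) (mv 400 (both (five 7 367 367) (mv 529 (both (five 4 400 497) (five 4 432 561))))))) (mv 399 (both (five 7 399 431) (mv 400 (both (five 7 367 367) (mv 401 (both (five 5 368 369) (five 5 400 433)))))))))) (mv 432 (both (mv 559 (both (five 6 431 527) (mv 560 (both (five 6 463 591) (mv 561 (both (five 4 432 529) (five 4 464 593))))))) (both (mv 399 (both (five 7 399 431) (mv 400 (both (five 7 367 367) (mv 527 (both (five 6 399 495) (five 6 431 559))))))) (mv 399 (both (five 7 399 431) (mv 400 (both (five 7 367 367) (mv 529 (both (five 4 400 497) (five 4 432 561))))))))))))))) (both (mv 464 (both (mv 560 (both (mv 591 (both (five 6 463 559) (mv 592 (both (five 6 495 623) (mv 593 (both (five 4 464 561) (five 4 496 625))))))) (both (mv 463 (both (five 7 431 431) (mv 592 (both (five 7 463 495) (mv 593 (both (five 4 464 561) (five 4 496 625)))))))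 (both (mv 463 (both (five 7 431 431) (mv 591 (both (five 6 463 559) (mv 592 (both (five 7 463 495) (five 6 495 623))))))) (mv 559 (both (five 6 463 591) (mv 558 (both (mv 529 (both (five 1 525 557) (mv 530 (both (five 2 526 527) (five 2 527 531))))) (both (mv 561 (both (five 4 464 593) (mv 525 (both (five 3 525 526) (mv 557 (both (five 3 524 524) (mv 589 (both (five 2 556 588) (five 2 557 590))))))))) (mv 561 (both (five 4 464 593) (mv 526 (both (five 3 525 525) (mv 527 (both (five 3 526 562) (mv 529 (both (five 2 526 530) (mv 493 (both (five 3 493 494) (mv 497 (both (five 1 494 498) (mv 590 (both (five 2 557 589) (mv 622 (both (five 5 494 495) (five 5 526 654)))))))))))))))))))))))))) (both (mv 432 (both (mv 399 (both (five 7 399 431) (mv 400 (both (five 7 367 367) (mv 401 (both (five 5 368 369) (five 5 400 433))))))) (both (mv 401 (both (five 5 400 433) (mv 400 (both (five 5 368 369) (mv 529 (both (five 4 400 497) (five 4 432 561))))))) (both (mv 399 (both (five 7 399 431) (mv 400 (both (five 7 367 367) (mv 529 (both (five 4 400 497) (five 4 432 561))))))) (mv 433 (both (five 5 400 401) (mv 434 (both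 (mv 435 (both (five 2 431 463) (mv 404 (both (five 1 400 403) (mv 436 (both (five 1 401 405) (mv 468 (both (five 0 432 467) (five 0 433 469))))))))) (both (mv 431 (both (five 7 399 399) (mv 402 (both (five 1 399 403) (mv 466 (both (five 0 431 467) (mv 527 (both (five 6 431 559) (mv 529 (both (five 4 432 561) (mv 498 (both (five 6 401 497) (mv 499 (both (five 1 495 530) (five 4 402 531))))))))))))))) (mv 431 (both (five 7 399 399) (mv 463 (both (five 2 431 435) (five 2 430 462)))))))))))))) (both (mv 432 (both (mv 399 (both (five 7 399 431) (mv 400 (both (five 7 367 367) (mv 401 (both (five 5 368 369) (five 5 400 433))))))) (both (mv 401 (both (five 5 400 433) (mv 400 (both (five 5 368 369) (mv 529 (both (five 4 400 497) (five 4 432 561))))))) (both (mv 399 (both (five 7 399 431) (mv 400 (both (five 7 367 367) (mv 529 (both (five 4 400 497) (five 4 432 561))))))) (mv 401 (both (five 5 400 433) (mv 431 (both (five 7 399 399) (mv 560 (both (five 7 431 463) (mv 561 (both (five 4 432 529) (five 4 464 593))))))))))))) (both (mv 432 (both (mv 559 (both (five 6 431 527) (mv 560 (both (five 6 463 591) (mv 561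 (both (five 4 432 529) (five 4 464 593))))))) (both (mv 401 (both (five 5 400 433) (mv 400 (both (five 5 368 369) (mv 529 (both (five 4 400 497) (five 4 432 561))))))) (mv 401 (both (five 5 400 433) (mv 400 (both (five 5 368 369) (mv 527 (both (five 6 399 495) (five 6 431 559)))))))))) (mv 432 (both (mv 399 (both (five 7 399 431) (mv 400 (both (five 7 367 367) (mv 401 (both (five 5 368 369) (five 5 400 433))))))) (both (mv 401 (both (five 5 400 433) (mv 400 (both (five 5 368 369) (mv 527 (both (five 6 399 495) (five 6 431 559))))))) (both (mv 399 (both (five 7 399 431) (mv 400 (both (five 7 367 367) (mv 527 (both (five 6 399 495) (five 6 431 559))))))) (mv 401 (both (five 5 400 433) (mv 431 (both (five 7 399 399) (mv 559 (both (five 6 431 527) (mv 560 (both (five 7 431 463) (five 6 463 591)))))))))))))))))) (both (mv 560 (both (mv 592 (both (mv 497 (both (five 5 464 465) (mv 623 (both (five 6 495 591) (mv 624 (both (five 5 496 529) (five 6 527 655))))))) (both (mv 623 (both (five 6 495 591) (mv 624 (both (five 6 527 655) (mv 625 (both (five 4 496 593) (five 4 528 657))))))) (mv 465 (both (five 5 464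 497) (mv 464 (both (five 5 432 433) (mv 593 (both (five 4 464 561) (five 4 496 625)))))))))) (both (mv 464 (both (mv 431 (both (five 7 431 463) (mv 432 (both (five 7 399 399) (mv 561 (both (five 4 432 529) (five 4 464 593))))))) (both (mv 433 (both (five 5 432 465) (mv 432 (both (five 5 400 401) (mv 561 (both (five 4 432 529) (five 4 464 593))))))) (mv 463 (both (five 7 431 431) (mv 462 (both (mv 461 (both (five 0 461 497) (mv 429 (both (five 3 428 428) (mv 465 (both (five 3 429 430) (five 5 432 433))))))) (both (mv 461 (both (five 0 461 497) (mv 428 (both (five 3 428 429) (mv 460 (both (five 3 427 427) (mv 492 (both (five 2 459 491) (five 2 460 493))))))))) (both (mv 465 (both (five 5 432 433) (mv 429 (both (five 3 429 430) (mv 461 (both (five 3 428 428) (mv 493 (both (five 2 460 492) (five 2 461 494))))))))) (both (mv 465 (both (five 5 432 433) (mv 429 (both (five 3 429 430) (mv 493 (both (five 2 461 494) (mv 498 (both (five 0 462 497) (mv 466 (both (five 0 463 499) (mv 435 (both (five 1 431 434) (mv 467 (both (five 1 432 436) (five 2 463 495))))))))))))))) (mv 461 (both (five 0 461 497) (mv 465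 (both (five 5 432 433) (mv 493 (both (five 2 460 492) (five 2 461 494))))))))))))))))) (both (mv 592 (both (mv 497 (both (five 5 464 465) (mv 623 (both (five 6 495 591) (mv 624 (both (five 5 496 529) (five 6 527 655))))))) (both (mv 495 (both (five 7 463 463) (mv 624 (both (five 7 495 527) (mv 625 (both (five 4 496 593) (five 4 528 657))))))) (mv 495 (both (five 7 463 463) (mv 494 (both (mv 493 (both (five 0 493 529) (mv 460 (both (five 3 460 461) (mv 492 (both (five 3 459 459) (five 0 492 527))))))) (both (mv 497 (both (five 5 464 465) (mv 461 (both (five 3 461 462) (mv 493 (both (five 3 460 460) (mv 525 (both (five 2 492 524) (five 2 493 526))))))))) (mv 497 (both (five 5 464 465) (mv 526 (both (five 2 493 525) (mv 498 (both (five 2 494 527) (mv 530 (both (five 0 494 529) (five 0 495 531))))))))))))))))) (both (mv 592 (both (mv 623 (both (five 6 495 591) (mv 624 (both (five 6 527 655) (mv 625 (both (five 4 496 593) (five 4 528 657))))))) (both (mv 495 (both (five 7 463 463) (mv 623 (both (five 6 495 591) (mv 624 (both (five 7 495 527) (five 6 527 655))))))) (mv 463 (both (five 7 463 495) (mv 464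 (both (five 7 431 431) (mv 593 (both (five 4 464 561) (five 4 496 625)))))))))) (mv 592 (both (mv 497 (both (five 5 464 465) (mv 623 (both (five 6 495 591) (mv 624 (both (five 5 496 529) (five 6 527 655))))))) (both (mv 495 (both (five 7 463 463) (mv 623 (both (five 6 495 591) (mv 624 (both (five 7 495 527) (five 6 527 655))))))) (mv 463 (both (five 7 463 495) (mv 464 (both (five 7 431 431) (mv 465 (both (five 5 432 433) (five 5 464 497))))))))))))))) (both (mv 560 (both (mv 464 (both (mv 431 (both (five 7 431 463) (mv 432 (both (five 7 399 399) (mv 559 (both (five 6 431 527) (five 6 463 591))))))) (both (mv 433 (both (five 5 432 465) (mv 432 (both (five 5 400 401) (mv 559 (both (five 6 431 527) (five 6 463 591))))))) (mv 463 (both (five 7 431 431) (mv 462 (both (mv 461 (both (five 0 461 497) (mv 429 (both (five 3 428 428) (mv 465 (both (five 3 429 430) (five 5 432 433))))))) (both (mv 461 (both (five 0 461 497) (mv 428 (both (five 3 428 429) (mv 460 (both (five 3 427 427) (mv 492 (both (five 2 459 491) (five 2 460 493))))))))) (both (mv 465 (both (five 5 432 433) (mv 429 (both (five 3 429 430) (mv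 461 (both (five 3 428 428) (mv 493 (both (five 2 460 492) (five 2 461 494))))))))) (both (mv 465 (both (five 5 432 433) (mv 429 (both (five 3 429 430) (mv 493 (both (five 2 461 494) (mv 498 (both (five 0 462 497) (mv 466 (both (five 0 463 499) (mv 435 (both (five 1 431 434) (mv 467 (both (five 1 432 436) (five 2 463 495))))))))))))))) (mv 461 (both (five 0 461 497) (mv 465 (both (five 5 432 433) (mv 493 (both (five 2 460 492) (five 2 461 494))))))))))))))))) (both (mv 592 (both (mv 497 (both (five 5 464 465) (mv 623 (both (five 6 495 591) (mv 624 (both (five 5 496 529) (five 6 527 655))))))) (both (mv 495 (both (five 7 463 463) (mv 624 (both (five 7 495 527) (mv 625 (both (five 4 496 593) (five 4 528 657))))))) (mv 495 (both (five 7 463 463) (mv 494 (both (mv 493 (both (five 0 493 529) (mv 460 (both (five 3 460 461) (mv 492 (both (five 3 459 459) (five 0 492 527))))))) (both (mv 497 (both (five 5 464 465) (mv 461 (both (five 3 461 462) (mv 493 (both (five 3 460 460) (mv 525 (both (five 2 492 524) (five 2 493 526))))))))) (mv 497 (both (five 5 464 465) (mv 526 (both (five 2 493 525) (mv 498 (both (five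 2 494 527) (mv 530 (both (five 0 494 529) (five 0 495 531))))))))))))))))) (both (mv 592 (both (mv 623 (both (five 6 495 591) (mv 624 (both (five 6 527 655) (mv 625 (both (five 4 496 593) (five 4 528 657))))))) (both (mv 497 (both (five 5 464 465) (mv 624 (both (five 5 496 529) (mv 625 (both (five 4 496 593) (five 4 528 657))))))) (mv 465 (both (five 5 464 497) (mv 464 (both (five 5 432 433) (mv 591 (both (five 6 463 559) (five 6 495 623)))))))))) (both (mv 592 (both (mv 495 (both (five 7 463 463) (mv 624 (both (five 7 495 527) (mv 625 (both (five 4 496 593) (five 4 528 657))))))) (both (mv 623 (both (five 6 495 591) (mv 624 (both (five 6 527 655) (mv 625 (both (five 4 496 593) (five 4 528 657))))))) (mv 463 (both (five 7 463 495) (mv 464 (both (five 7 431 431) (mv 591 (both (five 6 463 559) (five 6 495 623)))))))))) (mv 592 (both (mv 497 (both (five 5 464 465) (mv 624 (both (five 5 496 529) (mv 625 (both (five 4 496 593) (five 4 528 657))))))) (both (mv 495 (both (five 7 463 463) (mv 624 (both (five 7 495 527) (mv 625 (both (five 4 496 593) (five 4 528 657))))))) (mv 463 (both (five 7 463 495) (mv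 464 (both (five 7 431 431) (mv 465 (both (five 5 432 433) (five 5 464 497))))))))))))))) (both (mv 560 (both (mv 592 (both (mv 497 (both (five 5 464 465) (mv 623 (both (five 6 495 591) (mv 624 (both (five 5 496 529) (five 6 527 655))))))) (both (mv 623 (both (five 6 495 591) (mv 624 (both (five 6 527 655) (mv 625 (both (five 4 496 593) (five 4 528 657))))))) (mv 465 (both (five 5 464 497) (mv 464 (both (five 5 432 433) (mv 593 (both (five 4 464 561) (five 4 496 625)))))))))) (both (mv 464 (both (mv 433 (both (five 5 432 465) (mv 432 (both (five 5 400 401) (mv 561 (both (five 4 432 529) (five 4 464 593))))))) (both (mv 433 (both (five 5 432 465) (mv 432 (both (five 5 400 401) (mv 559 (both (five 6 431 527) (five 6 463 591))))))) (mv 559 (both (five 6 463 591) (mv 558 (both (mv 529 (both (five 1 525 557) (mv 530 (both (five 2 526 527) (five 2 527 531))))) (both (mv 561 (both (five 4 464 593) (mv 525 (both (five 3 525 526) (mv 557 (both (five 3 524 524) (mv 589 (both (five 2 556 588) (five 2 557 590))))))))) (mv 561 (both (five 4 464 593) (mv 526 (both (five 3 525 525) (mv 527 (both (five 3 526 562) (mv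 529 (both (five 2 526 530) (mv 493 (both (five 3 493 494) (mv 497 (both (five 1 494 498) (mv 590 (both (five 2 557 589) (mv 622 (both (five 5 494 495) (five 5 526 654))))))))))))))))))))))))) (both (mv 592 (both (mv 495 (both (five 7 463 463) (mv 624 (both (five 7 495 527) (mv 625 (both (five 4 496 593) (five 4 528 657))))))) (both (mv 495 (both (five 7 463 463) (mv 623 (both (five 6 495 591) (mv 624 (both (five 7 495 527) (five 6 527 655))))))) (both (mv 623 (both (five 6 495 591) (mv 624 (both (five 6 527 655) (mv 625 (both (five 4 496 593) (five 4 528 657))))))) (mv 463 (both (five 7 463 495) (mv 591 (both (five 6 495 623) (mv 464 (both (five 6 463 559) (mv 593 (both (five 4 464 561) (five 4 496 625))))))))))))) (both (mv 592 (both (mv 495 (both (five 7 463 463) (mv 623 (both (five 6 495 591) (mv 624 (both (five 7 495 527) (five 6 527 655))))))) (both (mv 497 (both (five 5 464 465) (mv 624 (both (five 5 496 529) (mv 655 (both (five 6 527 623) (mv 656 (both (five 6 559 687) (mv 657 (both (five 4 528 625) (five 4 560 689))))))))))) (both (mv 497 (both (five 5 464 465) (mv 624 (both (five 5 496 529)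 (mv 657 (both (five 4 528 625) (mv 656 (both (five 4 560 689) (mv 559 (both (five 7 527 527) (mv 687 (both (five 6 559 655) (mv 688 (both (five 7 559 591) (five 6 591 719))))))))))))))) (mv 465 (both (five 5 464 497) (mv 464 (both (five 5 432 433) (mv 591 (both (five 6 463 559) (five 6 495 623))))))))))) (mv 592 (both (mv 497 (both (five 5 464 465) (mv 624 (both (five 5 496 529) (mv 625 (both (five 4 496 593) (five 4 528 657))))))) (both (mv 495 (both (five 7 463 463) (mv 624 (both (five 7 495 527) (mv 625 (both (five 4 496 593) (five 4 528 657))))))) (mv 495 (both (five 7 463 463) (mv 494 (both (mv 493 (both (five 0 493 529) (mv 460 (both (five 3 460 461) (mv 492 (both (five 3 459 459) (five 0 492 527))))))) (both (mv 497 (both (five 5 464 465) (mv 461 (both (five 3 461 462) (mv 493 (both (five 3 460 460) (mv 525 (both (five 2 492 524) (five 2 493 526))))))))) (mv 497 (both (five 5 464 465) (mv 526 (both (five 2 493 525) (mv 498 (both (five 2 494 527) (mv 530 (both (five 0 494 529) (five 0 495 531)))))))))))))))))))))) (both (mv 560 (both (mv 592 (both (mv 623 (both (five 6 495 591) (mv 624 (both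 (five 6 527 655) (mv 625 (both (five 4 496 593) (five 4 528 657))))))) (both (mv 463 (both (five 7 463 495) (mv 464 (both (five 7 431 431) (mv 591 (both (five 6 463 559) (five 6 495 623))))))) (mv 463 (both (five 7 463 495) (mv 464 (both (five 7 431 431) (mv 593 (both (five 4 464 561) (five 4 496 625)))))))))) (both (mv 464 (both (mv 431 (both (five 7 431 463) (mv 432 (both (five 7 399 399) (mv 559 (both (five 6 431 527) (five 6 463 591))))))) (both (mv 431 (both (five 7 431 463) (mv 432 (both (five 7 399 399) (mv 561 (both (five 4 432 529) (five 4 464 593))))))) (mv 559 (both (five 6 463 591) (mv 558 (both (mv 529 (both (five 1 525 557) (mv 530 (both (five 2 526 527) (five 2 527 531))))) (both (mv 561 (both (five 4 464 593) (mv 525 (both (five 3 525 526) (mv 557 (both (five 3 524 524) (mv 589 (both (five 2 556 588) (five 2 557 590))))))))) (mv 561 (both (five 4 464 593) (mv 526 (both (five 3 525 525) (mv 527 (both (five 3 526 562) (mv 529 (both (five 2 526 530) (mv 493 (both (five 3 493 494) (mv 497 (both (five 1 494 498) (mv 590 (both (five 2 557 589) (mv 622 (both (five 5 494 495) (five 5 526 654)))))))))))))))))))))))))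 (both (mv 592 (both (mv 497 (both (five 5 464 465) (mv 624 (both (five 5 496 529) (mv 625 (both (five 4 496 593) (five 4 528 657))))))) (both (mv 495 (both (five 7 463 463) (mv 624 (both (five 7 495 527) (mv 625 (both (five 4 496 593) (five 4 528 657))))))) (mv 495 (both (five 7 463 463) (mv 494 (both (mv 493 (both (five 0 493 529) (mv 460 (both (five 3 460 461) (mv 492 (both (five 3 459 459) (five 0 492 527))))))) (both (mv 497 (both (five 5 464 465) (mv 461 (both (five 3 461 462) (mv 493 (both (five 3 460 460) (mv 525 (both (five 2 492 524) (five 2 493 526))))))))) (mv 497 (both (five 5 464 465) (mv 526 (both (five 2 493 525) (mv 498 (both (five 2 494 527) (mv 530 (both (five 0 494 529) (five 0 495 531))))))))))))))))) (both (mv 592 (both (mv 497 (both (five 5 464 465) (mv 623 (both (five 6 495 591) (mv 624 (both (five 5 496 529) (five 6 527 655))))))) (both (mv 497 (both (five 5 464 465) (mv 624 (both (five 5 496 529) (mv 625 (both (five 4 496 593) (five 4 528 657))))))) (mv 591 (both (five 6 495 623) (mv 464 (both (five 6 463 559) (mv 593 (both (five 4 464 561) (five 4 496 625)))))))))) (mv 592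 (both (mv 497 (both (five 5 464 465) (mv 623 (both (five 6 495 591) (mv 624 (both (five 5 496 529) (five 6 527 655))))))) (both (mv 463 (both (five 7 463 495) (mv 464 (both (five 7 431 431) (mv 591 (both (five 6 463 559) (five 6 495 623))))))) (both (mv 463 (both (five 7 463 495) (mv 431 (both (five 7 431 464) (mv 497 (both (five 5 464 465) (mv 624 (both (five 5 496 529) (mv 655 (both (five 6 527 623) (mv 656 (both (five 6 559 687) (mv 657 (both (five 4 528 625) (five 4 560 689))))))))))))))) (mv 463 (both (five 7 463 495) (mv 431 (both (five 7 431 464) (mv 497 (both (five 5 464 465) (mv 624 (both (five 5 496 529) (mv 657 (both (five 4 528 625) (mv 656 (both (five 4 560 689) (mv 559 (both (five 7 527 527) (mv 687 (both (five 6 559 655) (mv 688 (both (five 7 559 591) (five 6 591 719)))))))))))))))))))))))))))) (both (mv 464 (both (mv 560 (both (mv 591 (both (five 6 463 559) (mv 592 (both (five 6 495 623) (mv 593 (both (five 4 464 561) (five 4 496 625))))))) (both (mv 431 (both (five 7 431 463) (mv 432 (both (five 7 399 399) (mv 559 (both (five 6 431 527) (five 6 463 591))))))) (mv 431 (both (five 7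 431 463) (mv 432 (both (five 7 399 399) (mv 561 (both (five 4 432 529) (five 4 464 593)))))))))) (both (mv 560 (both (mv 591 (both (five 6 463 559) (mv 592 (both (five 6 495 623) (mv 593 (both (five 4 464 561) (five 4 496 625))))))) (mv 463 (both (five 7 431 431) (mv 462 (both (mv 465 (both (five 5 432 433) (mv 429 (both (five 3 429 430) (mv 461 (both (five 3 428 428) (mv 460 (both (five 0 460 495) (mv 492 (both (five 2 459 491) (five 2 460 493))))))))))) (both (mv 461 (both (five 0 461 497) (mv 428 (both (five 3 428 429) (mv 460 (both (five 3 427 427) (mv 492 (both (five 2 459 491) (five 2 460 493))))))))) (mv 465 (both (five 5 432 433) (mv 498 (both (five 0 462 497) (mv 466 (both (five 0 463 499) (mv 435 (both (five 1 431 434) (mv 467 (both (five 1 432 436) (five 2 463 495)))))))))))))))))) (both (mv 432 (both (mv 399 (both (five 7 399 431) (mv 400 (both (five 7 367 367) (mv 401 (both (five 5 368 369) (five 5 400 433))))))) (both (mv 401 (both (five 5 400 433) (mv 400 (both (five 5 368 369) (mv 529 (both (five 4 400 497) (five 4 432 561))))))) (both (mv 399 (both (five 7 399 431) (mv 400 (both (five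 7 367 367) (mv 529 (both (five 4 400 497) (five 4 432 561))))))) (mv 433 (both (five 5 400 401) (mv 434 (both (mv 435 (both (five 2 431 463) (mv 404 (both (five 1 400 403) (mv 436 (both (five 1 401 405) (mv 468 (both (five 0 432 467) (five 0 433 469))))))))) (both (mv 431 (both (five 7 399 399) (mv 402 (both (five 1 399 403) (mv 466 (both (five 0 431 467) (mv 527 (both (five 6 431 559) (mv 529 (both (five 4 432 561) (mv 498 (both (five 6 401 497) (mv 499 (both (five 1 495 530) (five 4 402 531))))))))))))))) (mv 431 (both (five 7 399 399) (mv 463 (both (five 2 431 435) (five 2 430 462)))))))))))))) (both (mv 560 (both (mv 591 (both (five 6 463 559) (mv 592 (both (five 6 495 623) (mv 593 (both (five 4 464 561) (five 4 496 625))))))) (both (mv 465 (both (five 5 432 433) (mv 591 (both (five 6 463 559) (mv 592 (both (five 5 464 497) (five 6 495 623))))))) (mv 433 (both (five 5 432 465) (mv 432 (both (five 5 400 401) (mv 561 (both (five 4 432 529) (five 4 464 593)))))))))) (both (mv 432 (both (mv 433 (both (five 5 400 401) (mv 560 (both (five 5 432 465) (mv 561 (both (five 4 432 529) (five 4 464 593)))))))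 (both (mv 399 (both (five 7 399 431) (mv 400 (both (five 7 367 367) (mv 529 (both (five 4 400 497) (five 4 432 561))))))) (mv 399 (both (five 7 399 431) (mv 400 (both (five 7 367 367) (mv 401 (both (five 5 368 369) (five 5 400 433)))))))))) (mv 432 (both (mv 433 (both (five 5 400 401) (mv 559 (both (five 6 431 527) (mv 560 (both (five 5 432 465) (five 6 463 591))))))) (both (mv 399 (both (five 7 399 431) (mv 400 (both (five 7 367 367) (mv 527 (both (five 6 399 495) (five 6 431 559))))))) (mv 399 (both (five 7 399 431) (mv 400 (both (five 7 367 367) (mv 401 (both (five 5 368 369) (five 5 400 433)))))))))))))))) (both (mv 464 (both (mv 560 (both (mv 591 (both (five 6 463 559) (mv 592 (both (five 6 495 623) (mv 593 (both (five 4 464 561) (five 4 496 625))))))) (both (mv 431 (both (five 7 431 463) (mv 432 (both (five 7 399 399) (mv 559 (both (five 6 431 527) (five 6 463 591))))))) (mv 431 (both (five 7 431 463) (mv 432 (both (five 7 399 399) (mv 561 (both (five 4 432 529) (five 4 464 593)))))))))) (both (mv 560 (both (mv 591 (both (five 6 463 559) (mv 592 (both (five 6 495 623) (mv 593 (both (five 4 464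 561) (five 4 496 625))))))) (both (mv 465 (both (five 5 432 433) (mv 592 (both (five 5 464 497) (mv 593 (both (five 4 464 561) (five 4 496 625))))))) (both (mv 465 (both (five 5 432 433) (mv 591 (both (five 6 463 559) (mv 592 (both (five 5 464 497) (five 6 495 623))))))) (mv 463 (both (five 7 431 431) (mv 462 (both (mv 461 (both (five 0 461 497) (mv 429 (both (five 3 428 428) (mv 465 (both (five 3 429 430) (five 5 432 433))))))) (both (mv 461 (both (five 0 461 497) (mv 428 (both (five 3 428 429) (mv 460 (both (five 3 427 427) (mv 492 (both (five 2 459 491) (five 2 460 493))))))))) (both (mv 465 (both (five 5 432 433) (mv 429 (both (five 3 429 430) (mv 494 (both (five 2 461 493) (mv 466 (both (five 2 462 495) (mv 434 (both (five 1 431 435) (mv 559 (both (five 6 463 591) (mv 561 (both (five 4 464 593) (mv 529 (both (five 5 433 497) (mv 530 (both (five 2 527 531) (five 1 526 558))))))))))))))))))) (both (mv 465 (both (five 5 432 433) (mv 429 (both (five 3 429 430) (mv 461 (both (five 3 428 428) (mv 493 (both (five 2 460 492) (five 2 461 494))))))))) (mv 461 (both (five 0 461 497) (mv 465 (both (five 5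 432 433) (mv 493 (both (five 2 460 492) (five 2 461 494)))))))))))))))))) (both (mv 432 (both (mv 401 (both (five 5 400 433) (mv 400 (both (five 5 368 369) (mv 527 (both (five 6 399 495) (five 6 431 559))))))) (both (mv 399 (both (five 7 399 431) (mv 400 (both (five 7 367 367) (mv 527 (both (five 6 399 495) (five 6 431 559))))))) (mv 431 (both (five 7 399 399) (mv 430 (both (mv 429 (both (five 0 429 465) (mv 396 (both (five 3 396 397) (mv 428 (both (five 3 395 395) (five 0 428 463))))))) (both (mv 433 (both (five 5 400 401) (mv 462 (both (five 2 429 461) (mv 434 (both (five 2 430 463) (mv 403 (both (five 1 399 402) (mv 435 (both (five 1 400 404) (mv 467 (both (five 0 431 466) (five 0 432 468))))))))))))) (mv 429 (both (five 0 429 465) (mv 396 (both (five 3 396 397) (mv 428 (both (five 3 395 395) (mv 460 (both (five 2 427 459) (five 2 428 461))))))))))))))))) (both (mv 560 (both (mv 591 (both (five 6 463 559) (mv 592 (both (five 6 495 623) (mv 593 (both (five 4 464 561) (five 4 496 625))))))) (both (mv 465 (both (five 5 432 433) (mv 591 (both (five 6 463 559) (mv 592 (both (five 5 464 497) (five 6 495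 623))))))) (mv 433 (both (five 5 432 465) (mv 432 (both (five 5 400 401) (mv 561 (both (five 4 432 529) (five 4 464 593)))))))))) (mv 432 (both (mv 433 (both (five 5 400 401) (mv 560 (both (five 5 432 465) (mv 561 (both (five 4 432 529) (five 4 464 593))))))) (both (mv 399 (both (five 7 399 431) (mv 400 (both (five 7 367 367) (mv 529 (both (five 4 400 497) (five 4 432 561))))))) (mv 399 (both (five 7 399 431) (mv 400 (both (five 7 367 367) (mv 401 (both (five 5 368 369) (five 5 400 433))))))))))))))) (both (mv 464 (both (mv 432 (both (mv 433 (both (five 5 400 401) (mv 560 (both (five 5 432 465) (mv 561 (both (five 4 432 529) (five 4 464 593))))))) (both (mv 399 (both (five 7 399 431) (mv 400 (both (five 7 367 367) (mv 529 (both (five 4 400 497) (five 4 432 561))))))) (mv 399 (both (five 7 399 431) (mv 400 (both (five 7 367 367) (mv 401 (both (five 5 368 369) (five 5 400 433)))))))))) (both (mv 560 (both (mv 465 (both (five 5 432 433) (mv 592 (both (five 5 464 497) (mv 593 (both (five 4 464 561) (five 4 496 625))))))) (both (mv 463 (both (five 7 431 431) (mv 592 (both (five 7 463 495) (mv 593 (both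 (five 4 464 561) (five 4 496 625))))))) (mv 463 (both (five 7 431 431) (mv 462 (both (mv 461 (both (five 0 461 497) (mv 429 (both (five 3 428 428) (mv 465 (both (five 3 429 430) (five 5 432 433))))))) (both (mv 465 (both (five 5 432 433) (mv 429 (both (five 3 429 430) (mv 461 (both (five 3 428 428) (mv 495 (both (five 0 460 460) (mv 466 (both (five 2 463 467) (five 2 462 494))))))))))) (both (mv 461 (both (five 0 461 497) (mv 428 (both (five 3 428 429) (mv 460 (both (five 3 427 427) (five 0 460 495))))))) (mv 465 (both (five 5 432 433) (mv 498 (both (five 0 462 497) (mv 466 (both (five 0 463 499) (mv 435 (both (five 1 431 434) (mv 467 (both (five 1 432 436) (five 2 463 495)))))))))))))))))))) (both (mv 432 (both (mv 433 (both (five 5 400 401) (mv 560 (both (five 5 432 465) (mv 561 (both (five 4 432 529) (five 4 464 593))))))) (both (mv 401 (both (five 5 400 433) (mv 400 (both (five 5 368 369) (mv 527 (both (five 6 399 495) (five 6 431 559))))))) (mv 527 (both (five 6 431 559) (mv 400 (both (five 6 399 495) (mv 529 (both (five 4 400 497) (five 4 432 561)))))))))) (both (mv 432 (both (mv 399 (both (five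 7 399 431) (mv 400 (both (five 7 367 367) (mv 527 (both (five 6 399 495) (five 6 431 559))))))) (both (mv 527 (both (five 6 431 559) (mv 400 (both (five 6 399 495) (mv 529 (both (five 4 400 497) (five 4 432 561))))))) (mv 431 (both (five 7 399 399) (mv 560 (both (five 7 431 463) (mv 561 (both (five 4 432 529) (five 4 464 593)))))))))) (mv 432 (both (mv 401 (both (five 5 400 433) (mv 400 (both (five 5 368 369) (mv 527 (both (five 6 399 495) (five 6 431 559))))))) (both (mv 399 (both (five 7 399 431) (mv 400 (both (five 7 367 367) (mv 527 (both (five 6 399 495) (five 6 431 559))))))) (mv 431 (both (five 7 399 399) (mv 430 (both (mv 429 (both (five 0 429 465) (mv 396 (both (five 3 396 397) (mv 428 (both (five 3 395 395) (five 0 428 463))))))) (both (mv 433 (both (five 5 400 401) (mv 462 (both (five 2 429 461) (mv 434 (both (five 2 430 463) (mv 403 (both (five 1 399 402) (mv 435 (both (five 1 400 404) (mv 467 (both (five 0 431 466) (five 0 432 468))))))))))))) (mv 429 (both (five 0 429 465) (mv 396 (both (five 3 396 397) (mv 428 (both (five 3 395 395) (mv 460 (both (five 2 427 459) (five 2 428 461))))))))))))))))))))))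 (both (mv 464 (both (mv 432 (both (mv 433 (both (five 5 400 401) (mv 559 (both (five 6 431 527) (mv 560 (both (five 5 432 465) (five 6 463 591))))))) (both (mv 399 (both (five 7 399 431) (mv 400 (both (five 7 367 367) (mv 527 (both (five 6 399 495) (five 6 431 559))))))) (mv 399 (both (five 7 399 431) (mv 400 (both (five 7 367 367) (mv 401 (both (five 5 368 369) (five 5 400 433)))))))))) (both (mv 560 (both (mv 465 (both (five 5 432 433) (mv 591 (both (five 6 463 559) (mv 592 (both (five 5 464 497) (five 6 495 623))))))) (both (mv 463 (both (five 7 431 431) (mv 591 (both (five 6 463 559) (mv 592 (both (five 7 463 495) (five 6 495 623))))))) (mv 463 (both (five 7 431 431) (mv 462 (both (mv 461 (both (five 0 461 497) (mv 429 (both (five 3 428 428) (mv 465 (both (five 3 429 430) (five 5 432 433))))))) (both (mv 465 (both (five 5 432 433) (mv 429 (both (five 3 429 430) (mv 461 (both (five 3 428 428) (mv 495 (both (five 0 460 460) (mv 466 (both (five 2 463 467) (five 2 462 494))))))))))) (both (mv 461 (both (five 0 461 497) (mv 428 (both (five 3 428 429) (mv 460 (both (five 3 427 427) (five 0 460 495)))))))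 (mv 465 (both (five 5 432 433) (mv 498 (both (five 0 462 497) (mv 466 (both (five 0 463 499) (mv 435 (both (five 1 431 434) (mv 467 (both (five 1 432 436) (five 2 463 495)))))))))))))))))))) (both (mv 432 (both (mv 433 (both (five 5 400 401) (mv 559 (both (five 6 431 527) (mv 560 (both (five 5 432 465) (five 6 463 591))))))) (both (mv 401 (both (five 5 400 433) (mv 400 (both (five 5 368 369) (mv 529 (both (five 4 400 497) (five 4 432 561))))))) (mv 527 (both (five 6 431 559) (mv 400 (both (five 6 399 495) (mv 529 (both (five 4 400 497) (five 4 432 561)))))))))) (both (mv 432 (both (mv 399 (both (five 7 399 431) (mv 400 (both (five 7 367 367) (mv 529 (both (five 4 400 497) (five 4 432 561))))))) (both (mv 527 (both (five 6 431 559) (mv 400 (both (five 6 399 495) (mv 529 (both (five 4 400 497) (five 4 432 561))))))) (mv 431 (both (five 7 399 399) (mv 559 (both (five 6 431 527) (mv 560 (both (five 7 431 463) (five 6 463 591)))))))))) (mv 432 (both (mv 401 (both (five 5 400 433) (mv 400 (both (five 5 368 369) (mv 529 (both (five 4 400 497) (five 4 432 561))))))) (both (mv 399 (both (five 7 399 431) (mv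 400 (both (five 7 367 367) (mv 529 (both (five 4 400 497) (five 4 432 561))))))) (mv 431 (both (five 7 399 399) (mv 430 (both (mv 429 (both (five 0 429 465) (mv 396 (both (five 3 396 397) (mv 428 (both (five 3 395 395) (five 0 428 463))))))) (both (mv 433 (both (five 5 400 401) (mv 462 (both (five 2 429 461) (mv 434 (both (five 2 430 463) (mv 403 (both (five 1 399 402) (mv 435 (both (five 1 400 404) (mv 467 (both (five 0 431 466) (five 0 432 468))))))))))))) (mv 429 (both (five 0 429 465) (mv 396 (both (five 3 396 397) (mv 428 (both (five 3 395 395) (mv 460 (both (five 2 427 459) (five 2 428 461)))))))))))))))))))))) (mv 464 (both (mv 560 (both (mv 591 (both (five 6 463 559) (mv 592 (both (five 6 495 623) (mv 593 (both (five 4 464 561) (five 4 496 625))))))) (both (mv 431 (both (five 7 431 463) (mv 432 (both (five 7 399 399) (mv 559 (both (five 6 431 527) (five 6 463 591))))))) (mv 431 (both (five 7 431 463) (mv 432 (both (five 7 399 399) (mv 561 (both (five 4 432 529) (five 4 464 593)))))))))) (both (mv 560 (both (mv 591 (both (five 6 463 559) (mv 592 (both (five 6 495 623) (mv 593 (both (five 4 464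 561) (five 4 496 625))))))) (both (mv 465 (both (five 5 432 433) (mv 592 (both (five 5 464 497) (mv 593 (both (five 4 464 561) (five 4 496 625))))))) (both (mv 465 (both (five 5 432 433) (mv 591 (both (five 6 463 559) (mv 592 (both (five 5 464 497) (five 6 495 623))))))) (mv 559 (both (five 6 463 591) (mv 558 (both (mv 529 (both (five 1 525 557) (mv 530 (both (five 2 526 527) (five 2 527 531))))) (both (mv 561 (both (five 4 464 593) (mv 525 (both (five 3 525 526) (mv 557 (both (five 3 524 524) (mv 589 (both (five 2 556 588) (five 2 557 590))))))))) (mv 561 (both (five 4 464 593) (mv 526 (both (five 3 525 525) (mv 527 (both (five 3 526 562) (mv 529 (both (five 2 526 530) (mv 493 (both (five 3 493 494) (mv 497 (both (five 1 494 498) (mv 590 (both (five 2 557 589) (mv 622 (both (five 5 494 495) (five 5 526 654)))))))))))))))))))))))))) (both (mv 432 (both (mv 399 (both (five 7 399 431) (mv 400 (both (five 7 367 367) (mv 401 (both (five 5 368 369) (five 5 400 433))))))) (both (mv 401 (both (five 5 400 433) (mv 400 (both (five 5 368 369) (mv 529 (both (five 4 400 497) (five 4 432 561))))))) (both (mv 399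 (both (five 7 399 431) (mv 400 (both (five 7 367 367) (mv 529 (both (five 4 400 497) (five 4 432 561))))))) (mv 431 (both (five 7 399 399) (mv 430 (both (mv 429 (both (five 0 429 465) (mv 396 (both (five 3 396 397) (mv 428 (both (five 3 395 395) (five 0 428 463))))))) (both (mv 433 (both (five 5 400 401) (mv 397 (both (five 3 397 398) (mv 429 (both (five 3 396 396) (mv 428 (both (five 0 428 463) (mv 460 (both (five 2 427 459) (five 2 428 461))))))))))) (mv 433 (both (five 5 400 401) (mv 466 (both (five 0 430 465) (mv 434 (both (five 0 431 467) (mv 402 (both (five 1 399 403) (mv 527 (both (five 6 431 559) (mv 529 (both (five 4 432 561) (mv 498 (both (five 6 401 497) (mv 499 (both (five 1 495 530) (five 4 402 531)))))))))))))))))))))))))) (both (mv 432 (both (mv 433 (both (five 5 400 401) (mv 559 (both (five 6 431 527) (mv 560 (both (five 5 432 465) (five 6 463 591))))))) (both (mv 399 (both (five 7 399 431) (mv 400 (both (five 7 367 367) (mv 527 (both (five 6 399 495) (five 6 431 559))))))) (mv 399 (both (five 7 399 431) (mv 400 (both (five 7 367 367) (mv 401 (both (five 5 368 369) (five 5 400 433))))))))))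 (mv 432 (both (mv 433 (both (five 5 400 401) (mv 560 (both (five 5 432 465) (mv 561 (both (five 4 432 529) (five 4 464 593))))))) (both (mv 399 (both (five 7 399 431) (mv 400 (both (five 7 367 367) (mv 529 (both (five 4 400 497) (five 4 432 561))))))) (mv 399 (both (five 7 399 431) (mv 400 (both (five 7 367 367) (mv 401 (both (five 5 368 369) (five 5 400 433))))))))))))))))))))))))))))))))

theorem L117 : W (S 878694100496718043517683302282418331810487718418343092402491322775749527474899974671687634004666183037093927858109549828751614463963730408009475621262727315456) (S 2757826136366791900231598933211650946340058040939987191254676962591042188953029879170034632488082989080527461287404833684562830695016190339037745173284253655593484549059261048902600961333227318930748222345789099212800) :=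
  check_sound (Env.cons L116 Env.nil) (x := 496) (t := tL117) (by decide +kernel)

end P062.Cert
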